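import Mathlib

/-!
# Row 322 (S0579): basic vocabulary

`E k` = Euclidean space, horizontal/vertical splitting of `E (m+n)`, tangential Jacobian,
tangential divergence, and the working structure `SIV` (stationary integral varifold together
with its calculus).  Upper layers never see the frozen structure of `Def_0507`.

Conventions.
* The reference measure on every `E k` (and on `m`-dimensional sets in `E (m+n)`) is Mathlib's
  un-normalised Hausdorff measure `μH[m]`.  On `E m` it is an additive Haar measure.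
  `kap m = μH[m] (unit ball of E m)` replaces the `ω_m` of the papers.
* `SIV.area` is the only form of the area formula that is used.
-/

set_option autoImplicit false

open scoped ENNReal ContDiff
open MeasureTheory

namespace Claimed.Agent.R322

/-- Euclidean space of dimension `k`. -/
abbrev E (k : ℕ) := EuclideanSpace ℝ (Fin k)

/-- horizontal part of a point of `E (m+n)`. -/
noncomputable def prH (m n : ℕ) : E (m + n) →L[ℝ] E m :=
  LinearMap.toContinuousLinearMap
    { toFun := fun x => WithLp.toLp 2 (fun i => x (Fin.castAdd n i))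
      map_add' := fun x y => by ext i; simp
      map_smul' := fun c x => by ext i; simp }

/-- vertical part of a point of `E (m+n)`. -/
noncomputable def prV (m n : ℕ) : E (m + n) →L[ℝ] E n :=
  LinearMap.toContinuousLinearMap
    { toFun := fun x => WithLp.toLp 2 (fun i => x (Fin.natAdd m i))
      map_add' := fun x y => by ext i; simp
      map_smul' := fun c x => by ext i; simp }

/-- the point `(y,z)` of `E (m+n)`. -/
noncomputable def mkHV {m n : ℕ} (y : E m) (z : E n) : E (m + n) :=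
  WithLp.toLp 2 (Fin.append (fun i => y i) (fun i => z i))

/-- the constant replacing `ω_m`: the `μH[m]`-measure of the unit ball of `E m`. -/
noncomputable def kap (m : ℕ) : ℝ :=
  ((μH[(m : ℝ)] : Measure (E m)) (Metric.ball 0 1)).toReal

/-- `P` is an orthogonal projection of rank `m`. -/
structure IsProj (m : ℕ) {N : ℕ} (P : E N →L[ℝ] E N) : Prop where
  idem : P ∘L P = P
  symm : ∀ x y : E N, inner ℝ (P x) y = inner ℝ x (P y)
  tr : LinearMap.trace ℝ (E N) (P : E N →ₗ[ℝ] E N) = m

/-- tangential divergence `tr (P ∘ A)`, `A = DX`. -/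
noncomputable def tdiv {N : ℕ} (P A : E N →L[ℝ] E N) : ℝ :=
  LinearMap.trace ℝ (E N) ((P ∘L A : E N →L[ℝ] E N) : E N →ₗ[ℝ] E N)

/-- tangential Jacobian of the linear map `L` on the range of the orthogonal projection `P`:
`sqrt det (P Lᵀ L P + (1 - P))`. -/
noncomputable def tanJac {N k : ℕ} (P : E N →L[ℝ] E N) (L : E N →L[ℝ] E k) : ℝ :=
  Real.sqrt (LinearMap.det
    ((P ∘L (ContinuousLinearMap.adjoint L) ∘L L ∘L P + (ContinuousLinearMap.id ℝ (E N) - P)
      : E N →L[ℝ] E N) : E N →ₗ[ℝ] E N))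

/-- weight measure `θ μH[m] ⌞ M`. -/
noncomputable def wt (m : ℕ) {N : ℕ} (M : Set (E N)) (θ : E N → ℕ) : Measure (E N) :=
  ((μH[(m : ℝ)]).restrict M).withDensity (fun x => (θ x : ℝ≥0∞))

/-- **Stationary integral varifold with calculus.**  The domain `U` is a field, so that
sequences of rescalings are plain sequences `ℕ → SIV m n`. -/
structure SIV (m n : ℕ) where
  /-- domain -/
  U : Set (E (m + n))
  /-- carrier -/
  M : Set (E (m + n))
  /-- multiplicity -/
  θ : E (m + n) → ℕ
  /-- tangent projection field -/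
  P : E (m + n) → E (m + n) →L[ℝ] E (m + n)
  isOpen_U : IsOpen U
  M_sub : M ⊆ U
  M_meas : MeasurableSet M
  θ_meas : Measurable θ
  θ_pos : ∀ x ∈ M, 1 ≤ θ x
  P_meas : Measurable P
  P_proj : ∀ x, IsProj m (P x)
  locfin : ∀ K : Set (E (m + n)), IsCompact K → K ⊆ U → wt m M θ K < ⊤
  /-- measurability of fibre sums -/
  fib_meas : ∀ (k : ℕ) (O : Set (E (m + n))) (g : E (m + n) → E k) (φ : E (m + n) → ℝ≥0∞),
    IsOpen O → O ⊆ U → ContDiffOn ℝ 1 g O → Measurable φ →
    AEMeasurable (fun y : E k => ∑' x : {x // x ∈ M ∩ O ∧ g x = y}, (θ x : ℝ≥0∞) * φ x)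
      (μH[(m : ℝ)])
  /-- the area formula -/
  area : ∀ (k : ℕ) (O : Set (E (m + n))) (g : E (m + n) → E k) (φ : E (m + n) → ℝ≥0∞),
    IsOpen O → O ⊆ U → ContDiffOn ℝ 1 g O → Measurable φ →
    ∫⁻ y : E k, ∑' x : {x // x ∈ M ∩ O ∧ g x = y}, (θ x : ℝ≥0∞) * φ x ∂μH[(m : ℝ)]
      = ∫⁻ x in O, φ x * ENNReal.ofReal (tanJac (P x) (fderiv ℝ g x)) ∂(wt m M θ)
  /-- stationarity for `C¹` fields with compact support in `U` -/
  stat : ∀ X : E (m + n) → E (m + n), ContDiff ℝ 1 X → HasCompactSupport X → tsupport X ⊆ U →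
    ∫ x, tdiv (P x) (fderiv ℝ X x) ∂(wt m M θ) = 0
  /-- lower density bound almost everywhere (upper density suffices, by monotonicity) -/
  dens : ∀ᵐ x ∂(wt m M θ), ∀ ε : ℝ, 0 < ε → ∀ r₀ : ℝ, 0 < r₀ → ∃ r : ℝ, 0 < r ∧ r < r₀ ∧
    ENNReal.ofReal ((1 - ε) * kap m * r ^ m) ≤ wt m M θ (Metric.ball x r)

namespace SIV

variable {m n : ℕ}

/-- the weight measure -/
noncomputable def μ (W : SIV m n) : Measure (E (m + n)) := wt m W.M W.θ

/-- support in `U` (same formula as the frozen definition) -/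
def support (W : SIV m n) : Set (E (m + n)) :=
  {p | p ∈ W.U ∧ ∀ r : ℝ, 0 < r → 0 < W.μ (Metric.ball p r)}

/-- mass ratio `μ(B_r(p)) / (kap r^m)` -/
noncomputable def ratio (W : SIV m n) (p : E (m + n)) (r : ℝ) : ℝ :=
  (W.μ (Metric.ball p r)).toReal / (kap m * r ^ m)

/-- density, defined as the upper limit of the mass ratios as `r ↓ 0`;
`Base/Mono` proves that the ratios converge to it at every point of `U`. -/
noncomputable def Θ (W : SIV m n) (p : E (m + n)) : ℝ :=
  Filter.limsup (fun r => W.ratio p r) (nhdsWithin (0 : ℝ) (Set.Ioi 0))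

end SIV

/-- smooth embedded `m`-dimensional submanifold (same formula as the frozen definition). -/
def IsSmoothSub (m n : ℕ) (S : Set (E (m + n))) : Prop :=
  ∀ x ∈ S, ∃ O : Set (E (m + n)), IsOpen O ∧ x ∈ O ∧
    ∃ f : E (m + n) → E n, ContDiff ℝ ∞ f ∧
      (∀ y ∈ O, Function.Surjective (fderiv ℝ f y)) ∧ S ∩ O = O ∩ f ⁻¹' {0}

namespace SIV

variable {m n : ℕ}

/-- regular point (same formula as the frozen definition). -/
def IsReg (W : SIV m n) (p : E (m + n)) : Prop :=
  ∃ O : Set (E (m + n)), IsOpen O ∧ p ∈ O ∧ O ⊆ W.U ∧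
    IsSmoothSub m n (W.support ∩ O) ∧
    ∃ q : ℕ, 1 ≤ q ∧ W.μ.restrict O = (q : ℝ≥0∞) • (μH[(m : ℝ)]).restrict (W.support ∩ O)

/-- singular set -/
def sing (W : SIV m n) : Set (E (m + n)) :=
  {p | p ∈ W.support ∧ ¬ W.IsReg p}

end SIV

end Claimed.Agent.R322
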