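/- Packed by merge_tool.py (helper293): 8 modules of Claimed.Agent.R322 in one file, same declarations.
   Old modules, in this order: Base.Mono.Tdiv, Base.Mono.Siv, Base.Mono.Radial, Base.Mono.Ker, Base.Mono.Kint, Base.Mono.KintDeriv, Red.Ode, Freq.OdePoint -/
import Claimed.Agent.R322.Basic
import Mathlib

/- ===== packed: Claimed.Agent.R322.Base.Mono.Tdiv ===== -/
section
/-!
# Row 322, Base/Mono: algebra and calculus of the tangential divergence

General purpose lemmas (free for everybody):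
* algebra of orthogonal projections `IsProj`;
* `tdiv` is bilinear, `tdiv P id = m`, `tdiv P (l ⊗ b) = l (P b)`, product rule `tdiv_fderiv_smul`;
* `tlap P u x = tr (P D²u(x))`.

HINTS.  `tdiv_smulRight`: `P ∘L l.smulRight b = l.smulRight (P b)`, then `LinearMap.trace_smulRight`-type lemma or
`tdiv_eq_sum` (`LinearMap.trace_eq_sum_inner` with `EuclideanSpace.basisFun`).
`tlap_eq_tdiv`: `inner w (fderiv (gradient u) x v) = fderiv (fderiv u) x v w` (`gradient u = (toDual).symm ∘ fderiv u`,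
a continuous linear equivalence), `tdiv_eq_sum`, symmetry of `P`.
-/

set_option autoImplicit false

open scoped ENNReal ContDiff Topology NNReal
open MeasureTheory Filter

namespace Claimed.Agent.R322

/-! ### orthogonal projections -/

namespace IsProj

variable {m N : ℕ} {P : E N →L[ℝ] E N}

theorem apply_apply (hP : IsProj m P) (v : E N) : P (P v) = P v := by
  have := congrArg (fun L : E N →L[ℝ] E N => L v) hP.idem
  simpa using this

theorem inner_apply_self (hP : IsProj m P) (v : E N) : inner ℝ (P v) v = ‖P v‖ ^ 2 := by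
  rw [← hP.apply_apply v, hP.symm (P v) v, hP.apply_apply, real_inner_self_eq_norm_sq]

theorem norm_sq_add (hP : IsProj m P) (v : E N) : ‖P v‖ ^ 2 + ‖v - P v‖ ^ 2 = ‖v‖ ^ 2 := by
  rw [norm_sub_sq_real, real_inner_comm, hP.inner_apply_self]
  ring

theorem norm_apply_le (hP : IsProj m P) (v : E N) : ‖P v‖ ≤ ‖v‖ := by
  have h := hP.norm_sq_add v
  have h2 : ‖P v‖ ^ 2 ≤ ‖v‖ ^ 2 := by nlinarith [sq_nonneg ‖v - P v‖]
  exact (pow_le_pow_iff_left₀ (norm_nonneg _) (norm_nonneg _) two_ne_zero).1 h2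

theorem norm_le_one (hP : IsProj m P) : ‖P‖ ≤ 1 :=
  ContinuousLinearMap.opNorm_le_bound _ zero_le_one fun v => by
    rw [one_mul]; exact hP.norm_apply_le v

theorem norm_sub_apply_le (hP : IsProj m P) (v : E N) : ‖v - P v‖ ≤ ‖v‖ := by
  have h := hP.norm_sq_add v
  have h2 : ‖v - P v‖ ^ 2 ≤ ‖v‖ ^ 2 := by nlinarith [sq_nonneg ‖P v‖]
  exact (pow_le_pow_iff_left₀ (norm_nonneg _) (norm_nonneg _) two_ne_zero).1 h2

end IsProj

/-! ### the tangential divergence -/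

section Tdiv

variable {m N : ℕ}

theorem tdiv_add (P A B : E N →L[ℝ] E N) : tdiv P (A + B) = tdiv P A + tdiv P B := by
  unfold tdiv
  rw [ContinuousLinearMap.comp_add]
  simp

theorem tdiv_smul (P : E N →L[ℝ] E N) (c : ℝ) (A : E N →L[ℝ] E N) :
    tdiv P (c • A) = c * tdiv P A := by
  unfold tdiv
  rw [ContinuousLinearMap.comp_smul]
  simp

theorem tdiv_id {P : E N →L[ℝ] E N} (hP : IsProj m P) :
    tdiv P (ContinuousLinearMap.id ℝ (E N)) = m := by
  unfold tdiv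
  rw [ContinuousLinearMap.comp_id]
  exact hP.tr

/-- trace in the standard basis -/
theorem tdiv_eq_sum (P A : E N →L[ℝ] E N) :
    tdiv P A = ∑ i, inner ℝ (EuclideanSpace.single i (1 : ℝ)) (P (A (EuclideanSpace.single i 1))) := by
  unfold tdiv
  rw [LinearMap.trace_eq_sum_inner _ (EuclideanSpace.basisFun (Fin N) ℝ)]
  simp only [EuclideanSpace.basisFun_apply]
  rfl

/-- expansion in the standard basis -/
theorem tdv_sum_single (v : E N) :
    ∑ i, inner ℝ (EuclideanSpace.single i (1 : ℝ)) v • EuclideanSpace.single i (1 : ℝ) = v := by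
  have := (EuclideanSpace.basisFun (Fin N) ℝ).sum_repr' v
  simpa only [EuclideanSpace.basisFun_apply] using this

/-- `tr (P ∘ (l ⊗ b)) = l (P b)` -/
theorem tdiv_smulRight (P : E N →L[ℝ] E N) (l : E N →L[ℝ] ℝ) (b : E N) :
    tdiv P (l.smulRight b) = l (P b) := by
  rw [tdiv_eq_sum]
  conv_rhs => rw [← tdv_sum_single (P b)]
  rw [map_sum]
  refine Finset.sum_congr rfl fun i _ => ?_
  rw [ContinuousLinearMap.smulRight_apply, map_smul, map_smul, inner_smul_right, smul_eq_mul,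
    mul_comm]

theorem abs_tdiv_le {P : E N →L[ℝ] E N} (hP : IsProj m P) (A : E N →L[ℝ] E N) :
    |tdiv P A| ≤ N * ‖A‖ := by
  rw [tdiv_eq_sum]
  calc |∑ i, inner ℝ (EuclideanSpace.single i (1 : ℝ)) (P (A (EuclideanSpace.single i 1)))|
      ≤ ∑ i, |inner ℝ (EuclideanSpace.single i (1 : ℝ)) (P (A (EuclideanSpace.single i 1)))| :=
        Finset.abs_sum_le_sum_abs _ _
    _ ≤ ∑ _i : Fin N, ‖A‖ := by
        refine Finset.sum_le_sum fun i _ => ?_
        have h1 : ‖(EuclideanSpace.single i (1 : ℝ) : E N)‖ = 1 := by simp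
        calc |inner ℝ (EuclideanSpace.single i (1 : ℝ)) (P (A (EuclideanSpace.single i 1)))|
            ≤ ‖(EuclideanSpace.single i (1 : ℝ) : E N)‖ * ‖P (A (EuclideanSpace.single i 1))‖ :=
              abs_real_inner_le_norm _ _
          _ ≤ 1 * ‖A (EuclideanSpace.single i 1)‖ := by
              rw [h1]; exact mul_le_mul_of_nonneg_left (hP.norm_apply_le _) zero_le_one
          _ ≤ ‖A‖ := by
              rw [one_mul]
              have := A.le_opNorm (EuclideanSpace.single i (1 : ℝ))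
              rwa [h1, mul_one] at this
    _ = N * ‖A‖ := by simp

theorem continuous_tdiv :
    Continuous fun q : (E N →L[ℝ] E N) × (E N →L[ℝ] E N) => tdiv q.1 q.2 := by
  simp only [tdiv_eq_sum]
  refine continuous_finsetSum _ fun i _ => ?_
  exact continuous_const.inner (continuous_fst.clm_apply (continuous_snd.clm_apply continuous_const))

/-- **Product rule**: `div_T (a Y) = a div_T Y + Da (P Y)`. -/
theorem tdiv_fderiv_smul (P : E N →L[ℝ] E N) {a : E N → ℝ} {Y : E N → E N} {x : E N}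
    (ha : DifferentiableAt ℝ a x) (hY : DifferentiableAt ℝ Y x) :
    tdiv P (fderiv ℝ (fun y => a y • Y y) x)
      = a x * tdiv P (fderiv ℝ Y x) + fderiv ℝ a x (P (Y x)) := by
  rw [fderiv_fun_smul ha hY, tdiv_add, tdiv_smul, tdiv_smulRight]

/-- `tr (P D²u (x))` -/
noncomputable def tlap (P : E N →L[ℝ] E N) (u : E N → ℝ) (x : E N) : ℝ :=
  ∑ i, fderiv ℝ (fderiv ℝ u) x (EuclideanSpace.single i (1 : ℝ))
    (P (EuclideanSpace.single i (1 : ℝ)))

theorem tdv_inner_sharp (l : E N →L[ℝ] ℝ) (w : E N) :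
    inner ℝ w (∑ i, l (EuclideanSpace.single i (1 : ℝ)) • EuclideanSpace.single i (1 : ℝ)) = l w := by
  conv_rhs => rw [← tdv_sum_single w]
  rw [inner_sum, map_sum]
  refine Finset.sum_congr rfl fun i _ => ?_
  rw [inner_smul_right, map_smul, smul_eq_mul, real_inner_comm, mul_comm]

theorem inner_gradient (u : E N → ℝ) (y w : E N) : inner ℝ w (gradient u y) = fderiv ℝ u y w := by
  rw [real_inner_comm]
  exact InnerProductSpace.toDual_symm_apply

/-- the gradient in the standard basis -/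
theorem gradient_eq_sum (u : E N → ℝ) (y : E N) :
    gradient u y
      = ∑ i, fderiv ℝ u y (EuclideanSpace.single i (1 : ℝ)) • EuclideanSpace.single i (1 : ℝ) := by
  refine ext_inner_left ℝ fun w => ?_
  rw [inner_gradient, tdv_inner_sharp]

theorem differentiableAt_gradient {u : E N → ℝ} {x : E N}
    (hd : DifferentiableAt ℝ (fderiv ℝ u) x) : DifferentiableAt ℝ (gradient u) x := by
  have : gradient u = fun y =>
      ∑ i, fderiv ℝ u y (EuclideanSpace.single i (1 : ℝ)) • EuclideanSpace.single i (1 : ℝ) :=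
    funext (gradient_eq_sum u)
  rw [this]
  exact DifferentiableAt.fun_sum fun i _ =>
    (hd.clm_apply (differentiableAt_const _)).smul_const _

/-- `<w, D(∇u)(x) v> = D²u(x)(v, w)` -/
theorem inner_fderiv_gradient {u : E N → ℝ} {x : E N}
    (hd : DifferentiableAt ℝ (fderiv ℝ u) x) (v w : E N) :
    inner ℝ w (fderiv ℝ (gradient u) x v) = fderiv ℝ (fderiv ℝ u) x v w := by
  have hg := differentiableAt_gradient hd
  have h1 : HasFDerivAt (fun y => inner ℝ w (gradient u y))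
      ((innerSL ℝ w) ∘L fderiv ℝ (gradient u) x) x :=
    (innerSL ℝ w).hasFDerivAt.comp x hg.hasFDerivAt
  have h2 : (fun y => inner ℝ w (gradient u y)) = fun y => fderiv ℝ u y w :=
    funext fun y => inner_gradient u y w
  have h3 : HasFDerivAt (fun y => fderiv ℝ u y w)
      ((ContinuousLinearMap.apply ℝ ℝ w) ∘L fderiv ℝ (fderiv ℝ u) x) x :=
    (ContinuousLinearMap.apply ℝ ℝ w).hasFDerivAt.comp x hd.hasFDerivAt
  rw [h2] at h1
  have h4 := congrArg (fun L : E N →L[ℝ] ℝ => L v) (h1.unique h3)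
  simpa using h4

theorem contDiff_gradient {u : E N → ℝ} {k : ℕ} (hu : ContDiff ℝ (k + 1) u) :
    ContDiff ℝ k (gradient u) := by
  have : gradient u = fun y =>
      ∑ i, fderiv ℝ u y (EuclideanSpace.single i (1 : ℝ)) • EuclideanSpace.single i (1 : ℝ) :=
    funext (gradient_eq_sum u)
  rw [this]
  refine ContDiff.sum fun i _ => ?_
  exact ((hu.fderiv_right (m := k) le_rfl).clm_apply contDiff_const).smul contDiff_const

theorem tlap_eq_tdiv {P : E N →L[ℝ] E N} (hP : IsProj m P) {u : E N → ℝ} {x : E N}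
    (hu : ContDiffAt ℝ 2 u x) : tlap P u x = tdiv P (fderiv ℝ (gradient u) x) := by
  have hd : DifferentiableAt ℝ (fderiv ℝ u) x :=
    (hu.fderiv_right (m := 1) (by norm_num)).differentiableAt (by norm_num)
  rw [tdiv_eq_sum]
  unfold tlap
  refine Finset.sum_congr rfl fun i _ => ?_
  rw [← hP.symm, inner_fderiv_gradient hd]

/-- `tlap` only depends on the germ of `u`. -/
theorem tlap_congr (P : E N →L[ℝ] E N) {u v : E N → ℝ} {x : E N} (h : u =ᶠ[nhds x] v) :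
    tlap P u x = tlap P v x := by
  unfold tlap
  rw [h.fderiv.fderiv_eq]

/-- `tr (P D²|x - p|²) = 2 m` -/
theorem tlap_norm_sq {P : E N →L[ℝ] E N} (hP : IsProj m P) (p x : E N) :
    tlap P (fun y => ‖y - p‖ ^ 2) x = 2 * m := by
  have h1 : fderiv ℝ (fun y : E N => ‖y - p‖ ^ 2) = fun y => (2 : ℝ) • innerSL ℝ (y - p) := by
    funext y
    have := (hasStrictFDerivAt_norm_sq (y - p)).hasFDerivAt.comp y
      ((hasFDerivAt_id y).sub_const p)
    rw [ContinuousLinearMap.comp_id, two_smul, ← two_smul ℝ] at this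
    exact this.fderiv
  have h2 : fderiv ℝ (fun y : E N => (2 : ℝ) • innerSL ℝ (y - p)) x = (2 : ℝ) • innerSL ℝ := by
    have h3 : HasFDerivAt (fun y : E N => innerSL ℝ (y - p)) (innerSL ℝ : E N →L[ℝ] E N →L[ℝ] ℝ) x := by
      have := (innerSL ℝ : E N →L[ℝ] E N →L[ℝ] ℝ).hasFDerivAt.comp x ((hasFDerivAt_id x).sub_const p)
      rwa [ContinuousLinearMap.comp_id] at this
    exact (h3.const_smul (2 : ℝ)).fderiv
  unfold tlap
  rw [h1, h2]
  have h4 := tdiv_eq_sum P (ContinuousLinearMap.id ℝ (E N))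
  rw [tdiv_id hP] at h4
  simp only [ContinuousLinearMap.id_apply] at h4
  simp only [smul_apply, smul_eq_mul]
  rw [← Finset.mul_sum]
  congr 1
  exact h4.symm

end Tdiv

end Claimed.Agent.R322
end

/- ===== packed: Claimed.Agent.R322.Base.Mono.Siv ===== -/
section
/-!
# Row 322, Base/Mono: elementary facts on `SIV`

Measurability and integrability on compact subsets of the domain; stationarity for product fields `a • Y`
(`SIV.stat_smul`) and for gradient fields `φ ∇u` (`SIV.stat_grad`).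

HINTS.  `measurable_P_apply`: `ContinuousLinearMap.measurable_apply₂` composed with `W.P_meas.prodMk hv`.
`stat_smul`: `W.stat` for `X = a • Y` (`tsupport X ⊆ tsupport a`) and `tdiv_fderiv_smul`.
`stat_grad`: `stat_smul` with `a = φ`, `Y = gradient u` (`C¹`), `tlap_eq_tdiv`,
`fderiv φ x (P ∇u) = <∇φ, P ∇u> = <P ∇φ, ∇u> = fderiv u x (P ∇φ)`.
-/

set_option autoImplicit false

open scoped ENNReal ContDiff Topology NNReal
open MeasureTheory Filter

namespace Claimed.Agent.R322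

/-! ### elementary facts on `SIV` -/

namespace SIV

variable {m n : ℕ} (W : SIV m n)

theorem μ_compact_lt_top {K : Set (E (m + n))} (hK : IsCompact K) (hKU : K ⊆ W.U) : W.μ K < ⊤ :=
  W.locfin K hK hKU

theorem μ_compl_M : W.μ W.Mᶜ = 0 := by
  unfold μ wt
  rw [withDensity_apply _ W.M_meas.compl, Measure.restrict_restrict W.M_meas.compl]
  simp

theorem μ_compl_U : W.μ W.Uᶜ = 0 :=
  measure_mono_null (Set.compl_subset_compl.2 W.M_sub) W.μ_compl_M

theorem ae_mem_U : ∀ᵐ x ∂W.μ, x ∈ W.U := by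
  have := W.μ_compl_U
  rwa [← mem_ae_iff] at this

/-- bounded measurable functions vanishing outside a compact subset of `U` are integrable -/
theorem integrable_of_bdd {f : E (m + n) → ℝ} {K : Set (E (m + n))} (hK : IsCompact K)
    (hKU : K ⊆ W.U) (hf : AEStronglyMeasurable f W.μ) {C : ℝ} (hC : ∀ x, |f x| ≤ C)
    (h0 : ∀ x, x ∉ K → f x = 0) : Integrable f W.μ := by
  have hfin : W.μ K < ⊤ := W.μ_compact_lt_top hK hKU
  have h1 : IntegrableOn f K W.μ :=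
    Measure.integrableOn_of_bounded (M := C) hfin.ne hf
      (ae_of_all _ fun x => by rw [Real.norm_eq_abs]; exact hC x)
  exact (integrableOn_iff_integrable_of_support_subset
    (fun x hx => by_contra fun h => hx (h0 x h))).1 h1

theorem integrable_of_continuous {f : E (m + n) → ℝ} (hf : Continuous f)
    (hc : HasCompactSupport f) (hs : tsupport f ⊆ W.U) : Integrable f W.μ := by
  obtain ⟨C, hC⟩ := hc.exists_bound_of_continuous hf
  exact W.integrable_of_bdd hc hs hf.aestronglyMeasurable (C := C)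
    (fun x => by rw [← Real.norm_eq_abs]; exact hC x)
    (fun x hx => image_eq_zero_of_notMem_tsupport hx)

theorem measurable_P_apply {v : E (m + n) → E (m + n)} (hv : Measurable v) :
    Measurable fun x => W.P x (v x) := by
  exact ContinuousLinearMap.measurable_apply₂.comp (W.P_meas.prodMk hv)

theorem measurable_tdiv {A : E (m + n) → E (m + n) →L[ℝ] E (m + n)} (hA : Measurable A) :
    Measurable fun x => tdiv (W.P x) (A x) := by
  exact continuous_tdiv.measurable.comp (W.P_meas.prodMk hA)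

theorem measurable_tlap {u : E (m + n) → ℝ} (hu : ContDiff ℝ 2 u) :
    Measurable fun x => tlap (W.P x) u x := by
  unfold tlap
  refine Finset.measurable_sum _ fun i _ => ?_
  have h1 : Continuous fun x => fderiv ℝ (fderiv ℝ u) x (EuclideanSpace.single i (1 : ℝ)) := by
    have h2 : ContDiff ℝ 1 (fderiv ℝ u) := hu.fderiv_right (m := 1) (by norm_num)
    exact (h2.continuous_fderiv (by norm_num)).clm_apply continuous_const
  exact ContinuousLinearMap.measurable_apply₂.comp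
    (h1.measurable.prodMk (W.measurable_P_apply measurable_const))

/-- stationarity tested with a product field `a • Y` -/
theorem stat_smul {a : E (m + n) → ℝ} {Y : E (m + n) → E (m + n)} (ha : ContDiff ℝ 1 a)
    (hY : ContDiff ℝ 1 Y) (hc : HasCompactSupport a) (hs : tsupport a ⊆ W.U) :
    ∫ x, (a x * tdiv (W.P x) (fderiv ℝ Y x) + fderiv ℝ a x (W.P x (Y x))) ∂W.μ = 0 := by
  have h1 := W.stat (fun x => a x • Y x) (ha.smul hY) hc.smul_right
    ((tsupport_smul_subset_left a Y).trans hs)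
  rw [← h1]
  refine integral_congr_ae (ae_of_all _ fun x => ?_)
  exact (tdiv_fderiv_smul (W.P x) (ha.differentiable (by norm_num) x)
    (hY.differentiable (by norm_num) x)).symm

/-- stationarity tested with `φ ∇u` -/
theorem stat_grad {u φ : E (m + n) → ℝ} (hu : ContDiff ℝ 2 u) (hφ : ContDiff ℝ 1 φ)
    (hc : HasCompactSupport φ) (hs : tsupport φ ⊆ W.U) :
    ∫ x, (φ x * tlap (W.P x) u x + fderiv ℝ u x (W.P x (gradient φ x))) ∂W.μ = 0 := by
  have hg : ContDiff ℝ 1 (gradient u) := by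
    have := contDiff_gradient (k := 1) (u := u) (by norm_num; exact hu)
    exact_mod_cast this
  have h1 := W.stat_smul hφ hg hc hs
  rw [← h1]
  refine integral_congr_ae (ae_of_all _ fun x => ?_)
  show φ x * tlap (W.P x) u x + fderiv ℝ u x (W.P x (gradient φ x))
    = φ x * tdiv (W.P x) (fderiv ℝ (gradient u) x) + fderiv ℝ φ x (W.P x (gradient u x))
  rw [tlap_eq_tdiv (W.P_proj x) hu.contDiffAt, ← inner_gradient u, ← inner_gradient φ,
    (W.P_proj x).symm, real_inner_comm]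

end SIV

end Claimed.Agent.R322
end

/- ===== packed: Claimed.Agent.R322.Base.Mono.Radial ===== -/
section
/-!
# Row 322, Base/Mono: radial first variation (AE Lemma 2.1)

Notation: `τ = |x - p|²`, `nsq p x = |(1 - P_x)(x - p)|²`.

* `stat_radial` : test `SIV.stat_smul` with `a = u · ψ(τ)`, `Y = x - p`
  (`D a = ψ Du + 2 u ψ'(τ) <x - p, ·>`, `tdiv P id = m`, `<x-p, P(x-p)> = |P(x-p)|²`).
* `stat_radial_split` : the same with `|P(x-p)|² = τ - nsq` and the integral split in three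
  (each integrand is bounded, measurable and vanishes outside `closedBall p R`: `SIV.integrable_of_bdd`).
* `radial_w` : `u = 1`, `ψ(τ) = ∫_τ^{s²} w`, `w` continuous, zero outside `(r², s²)`; `ψ' = - w`, `ψ` is `C¹`.
-/

set_option autoImplicit false

open scoped ENNReal ContDiff Topology NNReal
open MeasureTheory Filter

namespace Claimed.Agent.R322

namespace SIV

variable {m n : ℕ} (W : SIV m n)

/-- squared norm of the normal part of `x - p` -/
noncomputable def nsq (p x : E (m + n)) : ℝ := ‖(x - p) - W.P x (x - p)‖ ^ 2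

theorem nsq_nonneg (p x : E (m + n)) : 0 ≤ W.nsq p x := sq_nonneg _

theorem nsq_le (p x : E (m + n)) : W.nsq p x ≤ ‖x - p‖ ^ 2 :=
  pow_le_pow_left₀ (norm_nonneg _) ((W.P_proj x).norm_sub_apply_le _) 2

theorem norm_P_sq (p x : E (m + n)) : ‖W.P x (x - p)‖ ^ 2 = ‖x - p‖ ^ 2 - W.nsq p x := by
  have := (W.P_proj x).norm_sq_add (x - p)
  unfold nsq
  linarith

theorem measurable_nsq (p : E (m + n)) : Measurable (W.nsq p) := by
  unfold nsq
  exact (((measurable_id.sub_const p).sub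
    (W.measurable_P_apply (measurable_id.sub_const p))).norm).pow_const 2

/-- derivative of `|x - p|²` -/
theorem rad_hasFDerivAt_sq (p x : E (m + n)) :
    HasFDerivAt (fun y : E (m + n) => ‖y - p‖ ^ 2) ((2 : ℝ) • innerSL ℝ (x - p)) x := by
  have := (hasStrictFDerivAt_norm_sq (x - p)).hasFDerivAt.comp x
    ((hasFDerivAt_id x).sub_const p)
  rw [ContinuousLinearMap.comp_id, two_smul, ← two_smul ℝ] at this
  exact this

theorem rad_continuous_sq (p : E (m + n)) : Continuous fun y : E (m + n) => ‖y - p‖ ^ 2 :=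
  ((continuous_id.sub continuous_const).norm).pow 2

/-- outside the closed ball `|x - p|² > R²` -/
theorem rad_sq_lt {p x : E (m + n)} {R : ℝ} (hR0 : 0 ≤ R) (hx : x ∉ Metric.closedBall p R) :
    R ^ 2 < ‖x - p‖ ^ 2 := by
  rw [Metric.mem_closedBall, dist_eq_norm, not_le] at hx
  exact pow_lt_pow_left₀ hx hR0 two_ne_zero

/-- integrability of `f(|x-p|²) g(x)`: `f` continuous, zero beyond `R²`; `g` measurable and dominated by a
continuous function -/
theorem rad_integrable {p : E (m + n)} {R : ℝ} (hR0 : 0 ≤ R) (hR : Metric.closedBall p R ⊆ W.U)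
    {f : ℝ → ℝ} (hf : Continuous f) (hf0 : ∀ τ, R ^ 2 < τ → f τ = 0) {c g : E (m + n) → ℝ}
    (hc : Continuous c) (hg : Measurable g) (hgc : ∀ x, |g x| ≤ c x) :
    Integrable (fun x => f (‖x - p‖ ^ 2) * g x) W.μ := by
  have hzero : ∀ x, x ∉ Metric.closedBall p R → |f (‖x - p‖ ^ 2)| * c x = 0 := fun x hx => by
    rw [hf0 _ (rad_sq_lt hR0 hx)]; simp
  have hcont : Continuous fun x => |f (‖x - p‖ ^ 2)| * c x :=
    ((hf.comp (rad_continuous_sq p)).abs).mul hc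
  have hcs : HasCompactSupport fun x => |f (‖x - p‖ ^ 2)| * c x :=
    HasCompactSupport.intro (isCompact_closedBall p R) hzero
  have hts : tsupport (fun x => |f (‖x - p‖ ^ 2)| * c x) ⊆ W.U := by
    refine (closure_minimal (fun x hx => ?_) Metric.isClosed_closedBall).trans hR
    by_contra h
    exact hx (hzero x h)
  refine Integrable.mono' (W.integrable_of_continuous hcont hcs hts)
    (((hf.comp (rad_continuous_sq p)).measurable.mul hg).aestronglyMeasurable)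
    (ae_of_all _ fun x => ?_)
  rw [Real.norm_eq_abs, abs_mul]
  exact mul_le_mul_of_nonneg_left (hgc x) (abs_nonneg _)

/-- the derivative of a function which vanishes on `[a, ∞)` vanishes on `(a, ∞)` -/
theorem rad_deriv_zero {ψ : ℝ → ℝ} {a : ℝ} (hψ0 : ∀ τ, a ≤ τ → ψ τ = 0) {τ : ℝ} (hτ : a < τ) :
    deriv ψ τ = 0 := by
  have h : ψ =ᶠ[𝓝 τ] fun _ => (0 : ℝ) := by
    filter_upwards [Ioi_mem_nhds hτ] with σ hσ
    exact hψ0 σ (le_of_lt hσ)
  rw [h.deriv_eq]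
  simp

theorem measurable_fderiv_P {u : E (m + n) → ℝ} (hu : ContDiff ℝ 1 u) (p : E (m + n)) :
    Measurable fun x => fderiv ℝ u x (W.P x (x - p)) :=
  ContinuousLinearMap.measurable_apply₂.comp
    ((hu.continuous_fderiv one_ne_zero).measurable.prodMk
      (W.measurable_P_apply (measurable_id.sub_const p)))

theorem abs_fderiv_P_le (u : E (m + n) → ℝ) (p x : E (m + n)) :
    |fderiv ℝ u x (W.P x (x - p))| ≤ ‖fderiv ℝ u x‖ * ‖x - p‖ := by
  rw [← Real.norm_eq_abs]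
  exact ((fderiv ℝ u x).le_opNorm _).trans
    (mul_le_mul_of_nonneg_left ((W.P_proj x).norm_apply_le _) (norm_nonneg _))

/-- **Radial first variation with a weight.** -/
theorem stat_radial {p : E (m + n)} {R : ℝ} (hR0 : 0 ≤ R) (hR : Metric.closedBall p R ⊆ W.U)
    {u : E (m + n) → ℝ} (hu : ContDiff ℝ 1 u) {ψ : ℝ → ℝ} (hψ : ContDiff ℝ 1 ψ)
    (hψ0 : ∀ τ, R ^ 2 ≤ τ → ψ τ = 0) :
    ∫ x, (u x * (m * ψ (‖x - p‖ ^ 2) + 2 * deriv ψ (‖x - p‖ ^ 2) * ‖W.P x (x - p)‖ ^ 2)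
      + ψ (‖x - p‖ ^ 2) * fderiv ℝ u x (W.P x (x - p))) ∂W.μ = 0 := by
  have hsq : ContDiff ℝ 1 fun y : E (m + n) => ‖y - p‖ ^ 2 :=
    (contDiff_id.sub contDiff_const).norm_sq ℝ
  have ha : ContDiff ℝ 1 fun x => u x * ψ (‖x - p‖ ^ 2) := hu.mul (hψ.comp hsq)
  have hY : ContDiff ℝ 1 fun x : E (m + n) => x - p := contDiff_id.sub contDiff_const
  have hzero : ∀ x, x ∉ Metric.closedBall p R → u x * ψ (‖x - p‖ ^ 2) = 0 := fun x hx => by
    rw [hψ0 _ (rad_sq_lt hR0 hx).le, mul_zero]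
  have hcs : HasCompactSupport fun x => u x * ψ (‖x - p‖ ^ 2) :=
    HasCompactSupport.intro (isCompact_closedBall p R) hzero
  have hts : tsupport (fun x => u x * ψ (‖x - p‖ ^ 2)) ⊆ W.U := by
    refine (closure_minimal (fun x hx => ?_) Metric.isClosed_closedBall).trans hR
    by_contra h
    exact hx (hzero x h)
  have h1 := W.stat_smul ha hY hcs hts
  rw [← h1]
  refine integral_congr_ae (ae_of_all _ fun x => ?_)
  have e1 : fderiv ℝ (fun x : E (m + n) => x - p) x = ContinuousLinearMap.id ℝ (E (m + n)) :=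
    ((hasFDerivAt_id x).sub_const p).fderiv
  have hψd : HasDerivAt ψ (deriv ψ (‖x - p‖ ^ 2)) (‖x - p‖ ^ 2) :=
    (hψ.differentiable (by norm_num) _).hasDerivAt
  have h2 : HasFDerivAt (fun y : E (m + n) => ψ (‖y - p‖ ^ 2))
      (deriv ψ (‖x - p‖ ^ 2) • ((2 : ℝ) • innerSL ℝ (x - p))) x :=
    hψd.comp_hasFDerivAt x (rad_hasFDerivAt_sq p x)
  have h3 : fderiv ℝ (fun x => u x * ψ (‖x - p‖ ^ 2)) x
      = u x • deriv ψ (‖x - p‖ ^ 2) • (2 : ℝ) • innerSL ℝ (x - p)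
        + ψ (‖x - p‖ ^ 2) • fderiv ℝ u x :=
    ((hu.differentiable (by norm_num) x).hasFDerivAt.mul h2).fderiv
  have e2 : inner ℝ (x - p) (W.P x (x - p)) = ‖W.P x (x - p)‖ ^ 2 := by
    rw [real_inner_comm, (W.P_proj x).inner_apply_self]
  show _ = u x * ψ (‖x - p‖ ^ 2) * tdiv (W.P x) (fderiv ℝ (fun x : E (m + n) => x - p) x)
    + fderiv ℝ (fun x => u x * ψ (‖x - p‖ ^ 2)) x (W.P x (x - p))
  rw [e1, tdiv_id (W.P_proj x), h3]
  simp only [add_apply, smul_apply, smul_eq_mul, innerSL_apply_apply, e2]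
  ring

/-- the three terms of the radial first variation -/
theorem stat_radial_split {p : E (m + n)} {R : ℝ} (hR0 : 0 ≤ R)
    (hR : Metric.closedBall p R ⊆ W.U)
    {u : E (m + n) → ℝ} (hu : ContDiff ℝ 1 u) {ψ : ℝ → ℝ} (hψ : ContDiff ℝ 1 ψ)
    (hψ0 : ∀ τ, R ^ 2 ≤ τ → ψ τ = 0) :
    - ∫ x, u x * (m * ψ (‖x - p‖ ^ 2) + 2 * ‖x - p‖ ^ 2 * deriv ψ (‖x - p‖ ^ 2)) ∂W.μ
      = ∫ x, ψ (‖x - p‖ ^ 2) * fderiv ℝ u x (W.P x (x - p)) ∂W.μ
        + ∫ x, u x * (-2 * deriv ψ (‖x - p‖ ^ 2)) * W.nsq p x ∂W.μ := by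
  have hψc : Continuous ψ := hψ.continuous
  have hψ'c : Continuous (deriv ψ) := hψ.continuous_deriv le_rfl
  have hψ'0 : ∀ τ, R ^ 2 < τ → deriv ψ τ = 0 := fun τ hτ => rad_deriv_zero hψ0 hτ
  have iA : Integrable (fun x => (m * ψ (‖x - p‖ ^ 2)
      + 2 * ‖x - p‖ ^ 2 * deriv ψ (‖x - p‖ ^ 2)) * u x) W.μ :=
    W.rad_integrable hR0 hR (f := fun τ => m * ψ τ + 2 * τ * deriv ψ τ)
      ((continuous_const.mul hψc).add ((continuous_const.mul continuous_id).mul hψ'c))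
      (fun τ hτ => by simp [hψ0 τ hτ.le, hψ'0 τ hτ])
      hu.continuous.abs hu.continuous.measurable (fun x => le_rfl)
  have iB : Integrable (fun x => ψ (‖x - p‖ ^ 2) * fderiv ℝ u x (W.P x (x - p))) W.μ :=
    W.rad_integrable hR0 hR hψc (fun τ hτ => hψ0 τ hτ.le)
      (c := fun x => ‖fderiv ℝ u x‖ * ‖x - p‖)
      ((hu.continuous_fderiv one_ne_zero).norm.mul (continuous_id.sub continuous_const).norm)
      (W.measurable_fderiv_P hu p) (W.abs_fderiv_P_le u p)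
  have iC : Integrable (fun x => (-2 * deriv ψ (‖x - p‖ ^ 2)) * (u x * W.nsq p x)) W.μ :=
    W.rad_integrable hR0 hR (f := fun τ => -2 * deriv ψ τ) (continuous_const.mul hψ'c)
      (fun τ hτ => by simp [hψ'0 τ hτ])
      (c := fun x => |u x| * ‖x - p‖ ^ 2)
      (hu.continuous.abs.mul (rad_continuous_sq p))
      (hu.continuous.measurable.mul (W.measurable_nsq p))
      (fun x => by
        rw [abs_mul, abs_of_nonneg (W.nsq_nonneg p x)]
        exact mul_le_mul_of_nonneg_left (W.nsq_le p x) (abs_nonneg _))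
  have h0 := W.stat_radial hR0 hR hu hψ hψ0
  have e : (fun x => u x * (m * ψ (‖x - p‖ ^ 2)
        + 2 * deriv ψ (‖x - p‖ ^ 2) * ‖W.P x (x - p)‖ ^ 2)
      + ψ (‖x - p‖ ^ 2) * fderiv ℝ u x (W.P x (x - p)))
      = fun x => ((m * ψ (‖x - p‖ ^ 2) + 2 * ‖x - p‖ ^ 2 * deriv ψ (‖x - p‖ ^ 2)) * u x
        + ψ (‖x - p‖ ^ 2) * fderiv ℝ u x (W.P x (x - p)))
        + (-2 * deriv ψ (‖x - p‖ ^ 2)) * (u x * W.nsq p x) := by
    funext x
    rw [W.norm_P_sq]
    ring
  have iAB : Integrable (fun x => (m * ψ (‖x - p‖ ^ 2)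
      + 2 * ‖x - p‖ ^ 2 * deriv ψ (‖x - p‖ ^ 2)) * u x
      + ψ (‖x - p‖ ^ 2) * fderiv ℝ u x (W.P x (x - p))) W.μ := iA.add iB
  rw [e, integral_add iAB iC, integral_add iA iB] at h0
  have eA : ∫ x, u x * (m * ψ (‖x - p‖ ^ 2) + 2 * ‖x - p‖ ^ 2 * deriv ψ (‖x - p‖ ^ 2)) ∂W.μ
      = ∫ x, (m * ψ (‖x - p‖ ^ 2) + 2 * ‖x - p‖ ^ 2 * deriv ψ (‖x - p‖ ^ 2)) * u x ∂W.μ :=
    integral_congr_ae (ae_of_all _ fun x => by ring)
  have eC : ∫ x, u x * (-2 * deriv ψ (‖x - p‖ ^ 2)) * W.nsq p x ∂W.μ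
      = ∫ x, (-2 * deriv ψ (‖x - p‖ ^ 2)) * (u x * W.nsq p x) ∂W.μ :=
    integral_congr_ae (ae_of_all _ fun x => by ring)
  rw [eA, eC]
  linarith

/-- the radial first variation in terms of `w = - ψ'` -/
theorem radial_w {p : E (m + n)} {r s : ℝ} (hr : 0 ≤ r) (hrs : r ≤ s)
    (hs : Metric.closedBall p s ⊆ W.U) {w : ℝ → ℝ} (hw : Continuous w)
    (hw0 : ∀ σ, σ ∉ Set.Ioo (r ^ 2) (s ^ 2) → w σ = 0) :
    ∫ x, 2 * w (‖x - p‖ ^ 2) * W.nsq p x ∂W.μ
      = ∫ x, (2 * ‖x - p‖ ^ 2 * w (‖x - p‖ ^ 2)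
          - m * ∫ σ in (‖x - p‖ ^ 2)..(s ^ 2), w σ) ∂W.μ := by
  set ψ : ℝ → ℝ := fun τ => ∫ σ in τ..(s ^ 2), w σ with hψdef
  have hd : ∀ τ, HasDerivAt ψ (- w τ) τ := fun τ =>
    intervalIntegral.integral_hasDerivAt_left (hw.intervalIntegrable _ _)
      (hw.stronglyMeasurableAtFilter _ _) hw.continuousAt
  have hderiv : deriv ψ = fun τ => - w τ := funext fun τ => (hd τ).deriv
  have hψ : ContDiff ℝ 1 ψ := by
    rw [contDiff_one_iff_deriv]
    exact ⟨fun τ => (hd τ).differentiableAt, by rw [hderiv]; exact hw.neg⟩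
  have hψ0 : ∀ τ, s ^ 2 ≤ τ → ψ τ = 0 := by
    intro τ hτ
    have : ∀ σ ∈ Set.uIcc τ (s ^ 2), w σ = (fun _ => (0 : ℝ)) σ := by
      intro σ hσ
      rw [Set.uIcc_of_ge hτ] at hσ
      exact hw0 σ fun h => absurd h.2 (not_lt.2 hσ.1)
    simp only [hψdef]
    rw [intervalIntegral.integral_congr this]
    simp
  have h1 := W.stat_radial_split (hr.trans hrs) hs (u := fun _ => (1 : ℝ)) contDiff_const hψ hψ0
  simp only [hderiv, fderiv_fun_const, Pi.zero_apply, zero_apply, mul_zero, integral_zero, zero_add,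
    one_mul] at h1
  rw [← integral_neg] at h1
  have e1 : ∫ x, 2 * w (‖x - p‖ ^ 2) * W.nsq p x ∂W.μ
      = ∫ x, -2 * -w (‖x - p‖ ^ 2) * W.nsq p x ∂W.μ :=
    integral_congr_ae (ae_of_all _ fun x => by ring)
  rw [e1, ← h1]
  refine integral_congr_ae (ae_of_all _ fun x => ?_)
  simp only [hψdef]
  ring

end SIV

end Claimed.Agent.R322
end

/- ===== packed: Claimed.Agent.R322.Base.Mono.Ker ===== -/
section
/-!
# Row 322, Base/Mono: radial kernels (Mathlib only)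

`h` = radial kernel as a function of `s = |x - p|² / ρ²` (`C¹`, nonincreasing, zero for `s ≥ 1`), `kerPrim h s = ∫_s^1 h`.

HINTS.  `deriv_zero`: for `s > 1` the function is locally zero; at `s = 1` use continuity of `deriv h`
(`hh.smooth.continuous_deriv le_rfl`).  `hasDerivAt_prim`: `intervalIntegral.integral_hasDerivAt_left`.
`prim_le`: `∫_s^1 h ≤ (1 - s) h s` for `0 ≤ s ≤ 1`.  `exists_ker_seq`: `h k s = Real.smoothTransition ((k+1) (1 - s))`.
-/

set_option autoImplicit false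

open scoped ENNReal ContDiff Topology NNReal
open MeasureTheory Filter

namespace Claimed.Agent.R322

/-- admissible radial kernels, as functions of `|x-p|²/ρ²` -/
structure IsKer (h : ℝ → ℝ) : Prop where
  smooth : ContDiff ℝ 1 h
  anti : Antitone h
  zero : ∀ s, 1 ≤ s → h s = 0

/-- the primitive `H(s) = ∫_s^1 h` -/
noncomputable def kerPrim (h : ℝ → ℝ) (s : ℝ) : ℝ := ∫ σ in s..1, h σ

namespace IsKer

variable {h : ℝ → ℝ}

theorem nonneg (hh : IsKer h) (s : ℝ) : 0 ≤ h s := by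
  have := hh.anti (le_max_left s 1)
  rwa [hh.zero _ (le_max_right s 1)] at this

theorem deriv_nonpos (hh : IsKer h) (s : ℝ) : deriv h s ≤ 0 := hh.anti.deriv_nonpos

theorem deriv_zero (hh : IsKer h) {s : ℝ} (hs : 1 ≤ s) : deriv h s = 0 := by
  have hd : DifferentiableAt ℝ h s := (hh.smooth.differentiable (by norm_num)) s
  have h1 : HasDerivWithinAt h (deriv h s) (Set.Ici s) s := hd.hasDerivAt.hasDerivWithinAt
  have h2 : HasDerivWithinAt h 0 (Set.Ici s) s := by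
    refine (hasDerivWithinAt_const s (Set.Ici s) (0 : ℝ)).congr (fun x hx => ?_) ?_
    · exact hh.zero x (hs.trans hx)
    · exact hh.zero s hs
  exact (uniqueDiffWithinAt_Ici s).eq_deriv _ h1 h2

theorem hasDerivAt_prim (hh : IsKer h) (s : ℝ) : HasDerivAt (kerPrim h) (- h s) s := by
  have hc : Continuous h := hh.smooth.continuous
  exact intervalIntegral.integral_hasDerivAt_left (hc.intervalIntegrable _ _)
    (hc.stronglyMeasurableAtFilter _ _) hc.continuousAt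

theorem contDiff_prim (hh : IsKer h) : ContDiff ℝ 1 (kerPrim h) := by
  rw [contDiff_one_iff_deriv]
  refine ⟨fun s => (hh.hasDerivAt_prim s).differentiableAt, ?_⟩
  have : deriv (kerPrim h) = fun s => - h s := funext fun s => (hh.hasDerivAt_prim s).deriv
  rw [this]
  exact hh.smooth.continuous.neg

theorem prim_zero (hh : IsKer h) {s : ℝ} (hs : 1 ≤ s) : kerPrim h s = 0 := by
  unfold kerPrim
  have : Set.EqOn h (fun _ => (0 : ℝ)) (Set.uIcc s 1) := by
    intro x hx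
    rw [Set.uIcc_of_ge hs] at hx
    exact hh.zero x hx.1
  rw [intervalIntegral.integral_congr this]
  simp

theorem prim_nonneg (hh : IsKer h) (s : ℝ) : 0 ≤ kerPrim h s := by
  rcases le_total s 1 with hs | hs
  · exact intervalIntegral.integral_nonneg hs fun x _ => hh.nonneg x
  · exact (hh.prim_zero hs).ge

theorem prim_le (hh : IsKer h) {s : ℝ} (hs : 0 ≤ s) : kerPrim h s ≤ h s := by
  rcases le_total s 1 with hs1 | hs1
  · have hc : Continuous h := hh.smooth.continuous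
    have h1 : kerPrim h s ≤ ∫ _σ in s..1, h s :=
      intervalIntegral.integral_mono_on hs1 (hc.intervalIntegrable _ _)
        (continuous_const.intervalIntegrable _ _) fun x hx => hh.anti hx.1
    rw [intervalIntegral.integral_const, smul_eq_mul] at h1
    have h2 := hh.nonneg s
    nlinarith
  · rw [hh.prim_zero hs1]
    exact hh.nonneg s

end IsKer

/-- kernels increasing to the indicator function of `(-∞, 1)` -/
theorem exists_ker_seq : ∃ h : ℕ → ℝ → ℝ, (∀ k, IsKer (h k)) ∧ (∀ k s, h k s ≤ 1) ∧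
    (∀ s, s < 1 → ∀ᶠ k in atTop, h k s = 1) := by
  refine ⟨fun k s => Real.smoothTransition (((k : ℝ) + 1) * (1 - s)), fun k => ⟨?_, ?_, ?_⟩,
    fun k s => Real.smoothTransition.le_one _, fun s hs => ?_⟩
  · exact Real.smoothTransition.contDiff.comp (contDiff_const.mul (contDiff_const.sub contDiff_id))
  · intro s s' hss
    refine Real.smoothTransition.monotone ?_
    have : (0 : ℝ) ≤ (k : ℝ) + 1 := by positivity
    nlinarith
  · intro s hs
    refine Real.smoothTransition.zero_of_nonpos ?_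
    have : (0 : ℝ) ≤ (k : ℝ) + 1 := by positivity
    nlinarith
  · obtain ⟨N, hN⟩ := exists_nat_gt (1 / (1 - s))
    filter_upwards [eventually_ge_atTop N] with k hk
    refine Real.smoothTransition.one_of_one_le ?_
    have h1 : 0 < 1 - s := by linarith
    have h2 : (N : ℝ) ≤ k := by exact_mod_cast hk
    rw [div_lt_iff₀ h1] at hN
    nlinarith

/-- derivative of `(x)_+^q`, `q ≥ 2` -/
theorem ker_hasDerivAt_pos_pow {q : ℕ} (hq : 2 ≤ q) (x : ℝ) :
    HasDerivAt (fun x : ℝ => (max x 0) ^ q) ((q : ℝ) * (max x 0) ^ (q - 1)) x := by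
  rcases lt_trichotomy x 0 with hx | hx | hx
  · have h1 : (fun x : ℝ => (max x 0) ^ q) =ᶠ[𝓝 x] fun _ => (0 : ℝ) := by
      filter_upwards [Iio_mem_nhds hx] with y hy
      rw [max_eq_right (le_of_lt hy), zero_pow (by omega)]
    rw [max_eq_right hx.le, zero_pow (by omega), mul_zero]
    exact (hasDerivAt_const x (0 : ℝ)).congr_of_eventuallyEq h1
  · subst hx
    rw [max_self, zero_pow (by omega), mul_zero]
    have h1 : HasDerivWithinAt (fun x : ℝ => (max x 0) ^ q) 0 (Set.Iic 0) 0 := by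
      refine (hasDerivWithinAt_const (0 : ℝ) (Set.Iic 0) (0 : ℝ)).congr (fun y hy => ?_) ?_
      · rw [max_eq_right hy, zero_pow (by omega)]
      · rw [max_self, zero_pow (by omega)]
    have h2 : HasDerivWithinAt (fun x : ℝ => (max x 0) ^ q) 0 (Set.Ici 0) 0 := by
      have h3 : HasDerivWithinAt (fun x : ℝ => x ^ q) 0 (Set.Ici 0) 0 := by
        have := (hasDerivAt_pow q (0 : ℝ)).hasDerivWithinAt (s := Set.Ici 0)
        rwa [zero_pow (by omega), mul_zero] at this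
      refine h3.congr (fun y hy => ?_) ?_
      · rw [max_eq_left hy]
      · rw [max_self]
    have h4 := h1.union h2
    rwa [Set.Iic_union_Ici, hasDerivWithinAt_univ] at h4
  · have h1 : (fun x : ℝ => (max x 0) ^ q) =ᶠ[𝓝 x] fun x => x ^ q := by
      filter_upwards [Ioi_mem_nhds hx] with y hy
      rw [max_eq_left (le_of_lt hy)]
    rw [max_eq_left hx.le]
    exact (hasDerivAt_pow q x).congr_of_eventuallyEq h1

theorem ker_contDiff_pos_pow {q : ℕ} (hq : 2 ≤ q) : ContDiff ℝ 1 fun x : ℝ => (max x 0) ^ q := by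
  rw [contDiff_one_iff_deriv]
  refine ⟨fun x => (ker_hasDerivAt_pos_pow hq x).differentiableAt, ?_⟩
  have : deriv (fun x : ℝ => (max x 0) ^ q) = fun x => (q : ℝ) * (max x 0) ^ (q - 1) :=
    funext fun x => (ker_hasDerivAt_pos_pow hq x).deriv
  rw [this]
  fun_prop

/-- the polynomial kernels `(1 - s)_+^q`, `q ≥ 2` (CO Sections 6b, 7) -/
theorem isKer_pow {q : ℕ} (hq : 2 ≤ q) : IsKer fun s => (max (1 - s) 0) ^ q := by
  refine ⟨?_, ?_, ?_⟩
  · exact (ker_contDiff_pos_pow hq).comp (contDiff_const.sub contDiff_id)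
  · intro s s' hss
    exact pow_le_pow_left₀ (le_max_right _ _) (max_le_max (by linarith) le_rfl) q
  · intro s hs
    show (max (1 - s) 0) ^ q = 0
    rw [max_eq_right (by linarith), zero_pow (by omega)]

end Claimed.Agent.R322
end

/- ===== packed: Claimed.Agent.R322.Base.Mono.Kint ===== -/
section
/-!
# Row 322, Base/Mono: kernel averages, weak subharmonicity, first variation at scale `ρ`

`kint u h p ρ = ρ^{-m} ∫ u h(s) dμ`, `s = |x - p|² / ρ²`, `H = kerPrim h`.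

* `weakSub_of_tlap` : `SIV.stat_grad`: `∫ Du(P∇φ) = - ∫ φ tlap ≤ c ∫ φ u`.
* `kint_identity` : `stat_radial_split` with `ψ(τ) = h(τ/ρ²)`, `R = ρ`, `ψ'(τ) = h'(τ/ρ²)/ρ²`.
* `weakSub_radial` : `φ = (ρ²/2) H(s)` is `C¹`, nonnegative, supported in `closedBall p ρ ⊆ ball p R`,
  `∇φ = - h(s) (x - p)`, `φ ≤ (ρ²/2) h(s)` (`IsKer.prim_le`), `u ≥ 0` on the support.
-/

set_option autoImplicit false

open scoped ENNReal ContDiff Topology NNReal
open MeasureTheory Filter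

namespace Claimed.Agent.R322

namespace SIV

variable {m n : ℕ} (W : SIV m n)

/-- kernel average `ρ^{-m} ∫ u h(|x-p|²/ρ²) dμ` -/
noncomputable def kint (u : E (m + n) → ℝ) (h : ℝ → ℝ) (p : E (m + n)) (ρ : ℝ) : ℝ :=
  (ρ ^ m)⁻¹ * ∫ x, u x * h (‖x - p‖ ^ 2 / ρ ^ 2) ∂W.μ

/-- weak form of `tr (P D²u) ≥ - c u` in the ball `B_R(p)` -/
def WeakSub (u : E (m + n) → ℝ) (c : ℝ) (p : E (m + n)) (R : ℝ) : Prop :=
  ∀ φ : E (m + n) → ℝ, ContDiff ℝ 1 φ → (∀ x, 0 ≤ φ x) → HasCompactSupport φ →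
    tsupport φ ⊆ Metric.ball p R →
    ∫ x, fderiv ℝ u x (W.P x (gradient φ x)) ∂W.μ ≤ c * ∫ x, φ x * u x ∂W.μ

/-- a measurable function dominated by a continuous function with compact support in `U` is integrable -/
theorem kin_integrable_of_le {f b : E (m + n) → ℝ} (hf : Measurable f) (hb : Continuous b)
    (hbc : HasCompactSupport b) (hbs : tsupport b ⊆ W.U) (hfb : ∀ x, |f x| ≤ b x) :
    Integrable f W.μ :=
  Integrable.mono' (W.integrable_of_continuous hb hbc hbs) hf.aestronglyMeasurable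
    (ae_of_all _ fun x => by rw [Real.norm_eq_abs]; exact hfb x)

theorem kin_norm_gradient (φ : E (m + n) → ℝ) (x : E (m + n)) :
    ‖gradient φ x‖ = ‖fderiv ℝ φ x‖ := by
  unfold gradient
  exact LinearIsometryEquiv.norm_map _ _

theorem kin_measurable_gradient {φ : E (m + n) → ℝ} (hφ : ContDiff ℝ 1 φ) :
    Measurable (gradient φ) := by
  have : ContDiff ℝ 0 (gradient φ) := by
    have := contDiff_gradient (k := 0) (u := φ) (by simpa using hφ)
    exact_mod_cast this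
  exact this.continuous.measurable

/-- the pointwise inequality implies the weak one -/
theorem weakSub_of_tlap {u : E (m + n) → ℝ} (hu : ContDiff ℝ 2 u) {c : ℝ} {p : E (m + n)} {R : ℝ}
    (hR : Metric.ball p R ⊆ W.U)
    (hsub : ∀ᵐ x ∂W.μ, x ∈ Metric.ball p R → - c * u x ≤ tlap (W.P x) u x) :
    W.WeakSub u c p R := by
  intro φ hφ hφ0 hcs hts
  have hU : tsupport φ ⊆ W.U := hts.trans hR
  have hu1 : ContDiff ℝ 1 u := hu.of_le (by norm_num)
  have hg : ContDiff ℝ 1 (gradient u) := by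
    have := contDiff_gradient (k := 1) (u := u) (by norm_num; exact hu)
    exact_mod_cast this
  have h1 := W.stat_grad hu hφ hcs hU
  have iA : Integrable (fun x => φ x * tlap (W.P x) u x) W.μ := by
    refine W.kin_integrable_of_le (b := fun x => φ x * ((m + n : ℕ) * ‖fderiv ℝ (gradient u) x‖))
      (hφ.continuous.measurable.mul (W.measurable_tlap hu))
      (hφ.continuous.mul (continuous_const.mul (hg.continuous_fderiv one_ne_zero).norm))
      hcs.mul_right ((tsupport_mul_subset_left).trans hU) fun x => ?_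
    rw [abs_mul, abs_of_nonneg (hφ0 x), tlap_eq_tdiv (W.P_proj x) hu.contDiffAt]
    exact mul_le_mul_of_nonneg_left (abs_tdiv_le (W.P_proj x) _) (hφ0 x)
  have iB : Integrable (fun x => fderiv ℝ u x (W.P x (gradient φ x))) W.μ := by
    refine W.kin_integrable_of_le (b := fun x => ‖fderiv ℝ u x‖ * ‖fderiv ℝ φ x‖)
      (ContinuousLinearMap.measurable_apply₂.comp
        ((hu1.continuous_fderiv one_ne_zero).measurable.prodMk
          (W.measurable_P_apply (kin_measurable_gradient hφ))))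
      ((hu1.continuous_fderiv one_ne_zero).norm.mul (hφ.continuous_fderiv one_ne_zero).norm)
      ((hcs.fderiv (𝕜 := ℝ)).norm.mul_left) ?_ fun x => ?_
    · refine (tsupport_mul_subset_right).trans ?_
      refine (closure_mono ?_).trans ((tsupport_fderiv_subset ℝ).trans hU)
      intro x hx
      simpa [Function.mem_support] using hx
    · rw [← Real.norm_eq_abs, ← kin_norm_gradient φ x]
      exact ((fderiv ℝ u x).le_opNorm _).trans
        (mul_le_mul_of_nonneg_left ((W.P_proj x).norm_apply_le _) (norm_nonneg _))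
  have iC : Integrable (fun x => φ x * u x) W.μ :=
    W.integrable_of_continuous (hφ.continuous.mul hu.continuous) hcs.mul_right
      ((tsupport_mul_subset_left).trans hU)
  rw [integral_add iA iB] at h1
  have h2 : ∫ x, fderiv ℝ u x (W.P x (gradient φ x)) ∂W.μ = ∫ x, - (φ x * tlap (W.P x) u x) ∂W.μ := by
    rw [integral_neg]
    linarith
  rw [h2, ← integral_const_mul]
  refine integral_mono_ae iA.neg (iC.const_mul c) ?_
  filter_upwards [hsub] with x hx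
  by_cases hxb : x ∈ Metric.ball p R
  · have := mul_le_mul_of_nonneg_left (hx hxb) (hφ0 x)
    show - (φ x * tlap (W.P x) u x) ≤ c * (φ x * u x)
    nlinarith
  · have h0 : φ x = 0 := image_eq_zero_of_notMem_tsupport fun h => hxb (hts h)
    show - (φ x * tlap (W.P x) u x) ≤ c * (φ x * u x)
    rw [h0]
    simp

/-- the rescaled kernel `τ ↦ h (τ / ρ²)` -/
theorem kin_hasDerivAt_scale {h : ℝ → ℝ} (hh : IsKer h) (ρ τ : ℝ) :
    HasDerivAt (fun τ => h (τ / ρ ^ 2)) ((ρ ^ 2)⁻¹ * deriv h (τ / ρ ^ 2)) τ := by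
  have h1 : HasDerivAt h (deriv h (τ / ρ ^ 2)) (τ / ρ ^ 2) :=
    (hh.smooth.differentiable (by norm_num) _).hasDerivAt
  have h2 : HasDerivAt (fun τ : ℝ => τ / ρ ^ 2) ((ρ ^ 2)⁻¹) τ := by
    simpa [div_eq_mul_inv] using (hasDerivAt_id τ).mul_const ((ρ ^ 2)⁻¹)
  have := h1.comp τ h2
  rw [mul_comm] at this
  exact this

/-- (2) the first variation identity at scale `ρ` -/
theorem kint_identity {p : E (m + n)} {ρ : ℝ} (h0 : 0 < ρ) (hR : Metric.closedBall p ρ ⊆ W.U)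
    {u : E (m + n) → ℝ} (hu : ContDiff ℝ 1 u) {h : ℝ → ℝ} (hh : IsKer h) :
    - ∫ x, u x * (m * h (‖x - p‖ ^ 2 / ρ ^ 2)
        + 2 * (‖x - p‖ ^ 2 / ρ ^ 2) * deriv h (‖x - p‖ ^ 2 / ρ ^ 2)) ∂W.μ
      = ∫ x, h (‖x - p‖ ^ 2 / ρ ^ 2) * fderiv ℝ u x (W.P x (x - p)) ∂W.μ
        + (ρ ^ 2)⁻¹ * ∫ x, u x * (-2 * deriv h (‖x - p‖ ^ 2 / ρ ^ 2)) * W.nsq p x ∂W.μ := by
  have hψ : ContDiff ℝ 1 fun τ : ℝ => h (τ / ρ ^ 2) :=
    hh.smooth.comp (contDiff_id.div_const _)
  have hψ0 : ∀ τ, ρ ^ 2 ≤ τ → (fun τ : ℝ => h (τ / ρ ^ 2)) τ = 0 := by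
    intro τ hτ
    exact hh.zero _ ((one_le_div (by positivity)).2 hτ)
  have hd : deriv (fun τ : ℝ => h (τ / ρ ^ 2)) = fun τ => (ρ ^ 2)⁻¹ * deriv h (τ / ρ ^ 2) :=
    funext fun τ => (kin_hasDerivAt_scale hh ρ τ).deriv
  have h1 := W.stat_radial_split h0.le hR hu hψ hψ0
  rw [hd] at h1
  simp only at h1
  rw [← integral_const_mul]
  have e1 : ∀ x, u x * (m * h (‖x - p‖ ^ 2 / ρ ^ 2)
        + 2 * (‖x - p‖ ^ 2 / ρ ^ 2) * deriv h (‖x - p‖ ^ 2 / ρ ^ 2)) =
      u x * (m * h (‖x - p‖ ^ 2 / ρ ^ 2)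
        + 2 * ‖x - p‖ ^ 2 * ((ρ ^ 2)⁻¹ * deriv h (‖x - p‖ ^ 2 / ρ ^ 2))) := by
    intro x
    rw [div_eq_mul_inv (‖x - p‖ ^ 2)]
    ring
  have e2 : ∀ x, (ρ ^ 2)⁻¹ * (u x * (-2 * deriv h (‖x - p‖ ^ 2 / ρ ^ 2)) * W.nsq p x) =
      u x * (-2 * ((ρ ^ 2)⁻¹ * deriv h (‖x - p‖ ^ 2 / ρ ^ 2))) * W.nsq p x := by
    intro x
    ring
  simp only [e1, e2]
  exact h1

/-- outside the closed ball of radius `ρ` the rescaled squared distance is at least one -/
theorem kin_one_le {p x : E (m + n)} {ρ : ℝ} (h0 : 0 < ρ) (hx : x ∉ Metric.closedBall p ρ) :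
    1 ≤ ‖x - p‖ ^ 2 / ρ ^ 2 :=
  (one_le_div (by positivity)).2 (rad_sq_lt h0.le hx).le

/-- derivative of the radial primitive `(ρ²/2) H(|x-p|²/ρ²)` -/
theorem kin_hasFDerivAt_prim {h : ℝ → ℝ} (hh : IsKer h) (p x : E (m + n)) {ρ : ℝ} (h0 : 0 < ρ) :
    HasFDerivAt (fun y : E (m + n) => ρ ^ 2 / 2 * kerPrim h (‖y - p‖ ^ 2 / ρ ^ 2))
      ((- h (‖x - p‖ ^ 2 / ρ ^ 2)) • innerSL ℝ (x - p)) x := by
  have h1 : HasFDerivAt (fun y : E (m + n) => ‖y - p‖ ^ 2 / ρ ^ 2)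
      ((ρ ^ 2)⁻¹ • ((2 : ℝ) • innerSL ℝ (x - p))) x := by
    have := (rad_hasFDerivAt_sq p x).mul_const ((ρ ^ 2)⁻¹)
    simpa [div_eq_mul_inv] using this
  have h2 := ((hh.hasDerivAt_prim (‖x - p‖ ^ 2 / ρ ^ 2)).comp_hasFDerivAt x h1).const_mul (ρ ^ 2 / 2)
  have e : (ρ ^ 2 / 2) • (- h (‖x - p‖ ^ 2 / ρ ^ 2)) • (ρ ^ 2)⁻¹ • (2 : ℝ) • innerSL ℝ (x - p) =
      (- h (‖x - p‖ ^ 2 / ρ ^ 2)) • innerSL ℝ (x - p) := by
    rw [smul_smul, smul_smul, smul_smul]
    congr 1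
    field_simp
  rw [e] at h2
  exact h2

theorem kin_gradient_prim {h : ℝ → ℝ} (hh : IsKer h) (p x : E (m + n)) {ρ : ℝ} (h0 : 0 < ρ) :
    gradient (fun y : E (m + n) => ρ ^ 2 / 2 * kerPrim h (‖y - p‖ ^ 2 / ρ ^ 2)) x =
      (- h (‖x - p‖ ^ 2 / ρ ^ 2)) • (x - p) := by
  refine ext_inner_left ℝ fun w => ?_
  rw [inner_gradient, (kin_hasFDerivAt_prim hh p x h0).fderiv, inner_smul_right, real_inner_comm]
  rfl

/-- (3) the weak inequality tested with the radial primitive -/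
theorem weakSub_radial {p : E (m + n)} {R : ℝ} (hR : Metric.closedBall p R ⊆ W.U)
    {u : E (m + n) → ℝ} (hu : ContDiff ℝ 1 u) (hu0 : ∀ x ∈ Metric.ball p R, 0 ≤ u x) {c : ℝ}
    (hc : 0 ≤ c) (hws : W.WeakSub u c p R) {h : ℝ → ℝ} (hh : IsKer h) {ρ : ℝ} (h0 : 0 < ρ)
    (h1 : ρ < R) :
    - (c * ρ ^ 2 / 2) * ∫ x, u x * h (‖x - p‖ ^ 2 / ρ ^ 2) ∂W.μ
      ≤ ∫ x, h (‖x - p‖ ^ 2 / ρ ^ 2) * fderiv ℝ u x (W.P x (x - p)) ∂W.μ := by
  have hsq : ContDiff ℝ 1 fun y : E (m + n) => ‖y - p‖ ^ 2 / ρ ^ 2 :=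
    ((contDiff_id.sub contDiff_const).norm_sq ℝ).div_const _
  have hρR : Metric.closedBall p ρ ⊆ Metric.ball p R := Metric.closedBall_subset_ball h1
  have hρU : Metric.closedBall p ρ ⊆ W.U := hρR.trans (Metric.ball_subset_closedBall.trans hR)
  have hφ : ContDiff ℝ 1 fun y : E (m + n) => ρ ^ 2 / 2 * kerPrim h (‖y - p‖ ^ 2 / ρ ^ 2) :=
    contDiff_const.mul (hh.contDiff_prim.comp hsq)
  have hφ0 : ∀ x : E (m + n), 0 ≤ ρ ^ 2 / 2 * kerPrim h (‖x - p‖ ^ 2 / ρ ^ 2) := fun x =>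
    mul_nonneg (by positivity) (hh.prim_nonneg _)
  have hzero : ∀ x, x ∉ Metric.closedBall p ρ → ρ ^ 2 / 2 * kerPrim h (‖x - p‖ ^ 2 / ρ ^ 2) = 0 :=
    fun x hx => by rw [hh.prim_zero (kin_one_le h0 hx), mul_zero]
  have hcs : HasCompactSupport fun y : E (m + n) => ρ ^ 2 / 2 * kerPrim h (‖y - p‖ ^ 2 / ρ ^ 2) :=
    HasCompactSupport.intro (isCompact_closedBall p ρ) hzero
  have hts : tsupport (fun y : E (m + n) => ρ ^ 2 / 2 * kerPrim h (‖y - p‖ ^ 2 / ρ ^ 2)) ⊆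
      Metric.closedBall p ρ := by
    refine closure_minimal (fun x hx => ?_) Metric.isClosed_closedBall
    by_contra hno
    exact hx (hzero x hno)
  have h2 := hws _ hφ hφ0 hcs (hts.trans hρR)
  simp only [kin_gradient_prim hh p _ h0, map_smul, smul_eq_mul, neg_mul] at h2
  rw [integral_neg] at h2
  -- comparison of the right hand sides
  have hzero' : ∀ x, x ∉ Metric.closedBall p ρ → u x * h (‖x - p‖ ^ 2 / ρ ^ 2) = 0 :=
    fun x hx => by rw [hh.zero _ (kin_one_le h0 hx), mul_zero]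
  have i1 : Integrable (fun x => ρ ^ 2 / 2 * kerPrim h (‖x - p‖ ^ 2 / ρ ^ 2) * u x) W.μ :=
    W.integrable_of_continuous (hφ.continuous.mul hu.continuous) hcs.mul_right
      ((tsupport_mul_subset_left).trans (hts.trans hρU))
  have i2 : Integrable (fun x => u x * h (‖x - p‖ ^ 2 / ρ ^ 2)) W.μ := by
    refine W.integrable_of_continuous (hu.continuous.mul (hh.smooth.continuous.comp hsq.continuous))
      (HasCompactSupport.intro (isCompact_closedBall p ρ) hzero') ?_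
    refine (closure_minimal (fun x hx => ?_) Metric.isClosed_closedBall).trans hρU
    by_contra hno
    exact hx (hzero' x hno)
  have h3 : ∫ x, ρ ^ 2 / 2 * kerPrim h (‖x - p‖ ^ 2 / ρ ^ 2) * u x ∂W.μ ≤
      ρ ^ 2 / 2 * ∫ x, u x * h (‖x - p‖ ^ 2 / ρ ^ 2) ∂W.μ := by
    rw [← integral_const_mul]
    refine integral_mono i1 (i2.const_mul _) fun x => ?_
    show ρ ^ 2 / 2 * kerPrim h (‖x - p‖ ^ 2 / ρ ^ 2) * u x ≤
      ρ ^ 2 / 2 * (u x * h (‖x - p‖ ^ 2 / ρ ^ 2))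
    by_cases hx : x ∈ Metric.closedBall p ρ
    · have hux := hu0 x (hρR hx)
      have hle := hh.prim_le (s := ‖x - p‖ ^ 2 / ρ ^ 2) (by positivity)
      rw [mul_assoc]
      refine mul_le_mul_of_nonneg_left ?_ (by positivity)
      rw [mul_comm]
      exact mul_le_mul_of_nonneg_left hle hux
    · rw [hzero x hx, hzero' x hx]
      simp
  have h4 := mul_le_mul_of_nonneg_left h3 hc
  nlinarith

/-- the normal term is nonnegative -/
theorem normal_term_nonneg {p : E (m + n)} {R : ℝ}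
    {u : E (m + n) → ℝ} (hu0 : ∀ x ∈ Metric.ball p R, 0 ≤ u x) {h : ℝ → ℝ} (hh : IsKer h) {ρ : ℝ}
    (h0 : 0 < ρ) (h1 : ρ < R) :
    0 ≤ ∫ x, u x * (-2 * deriv h (‖x - p‖ ^ 2 / ρ ^ 2)) * W.nsq p x ∂W.μ := by
  refine integral_nonneg fun x => ?_
  by_cases hx : ‖x - p‖ < R
  · have hxb : x ∈ Metric.ball p R := by rwa [Metric.mem_ball, dist_eq_norm]
    have := hh.deriv_nonpos (‖x - p‖ ^ 2 / ρ ^ 2)
    exact mul_nonneg (mul_nonneg (hu0 x hxb) (by linarith)) (W.nsq_nonneg p x)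
  · have h2 : 1 ≤ ‖x - p‖ ^ 2 / ρ ^ 2 := by
      rw [le_div_iff₀ (by positivity), one_mul]
      exact pow_le_pow_left₀ h0.le (by linarith [not_lt.1 hx]) 2
    simp [hh.deriv_zero h2]

end SIV

end Claimed.Agent.R322
end

/- ===== packed: Claimed.Agent.R322.Base.Mono.KintDeriv ===== -/
section
/-!
# Row 322, Base/Mono: differentiation of the kernel averages under the integral

`g(ρ) = ∫ u h(τ/ρ²) dμ`, `g'(ρ) = ∫ u h'(τ/ρ²) (-2 τ/ρ³) dμ` by `hasDerivAt_integral_of_dominated_loc_of_deriv_le`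
on a neighbourhood `(ρ/2, R') ∋ ρ`, `R' = (ρ + R)/2`: all integrands vanish outside `closedBall p R` (finite measure, `u`, `h`, `h'`
bounded there / on `[0, ∞)`).  Then `kint = ρ^{-m} g(ρ)` and the product rule.
-/

set_option autoImplicit false

open scoped ENNReal ContDiff Topology NNReal
open MeasureTheory Filter

namespace Claimed.Agent.R322

namespace SIV

variable {m n : ℕ} (W : SIV m n)

/-- derivative of `r ↦ h (τ / r²)` -/
theorem kdv_hasDerivAt {h : ℝ → ℝ} (hh : IsKer h) (τ : ℝ) {r : ℝ} (hr : 0 < r) :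
    HasDerivAt (fun r : ℝ => h (τ / r ^ 2)) (deriv h (τ / r ^ 2) * (-2 * τ / r ^ 3)) r := by
  have h1 : HasDerivAt h (deriv h (τ / r ^ 2)) (τ / r ^ 2) :=
    (hh.smooth.differentiable (by norm_num) _).hasDerivAt
  have h2 : HasDerivAt (fun r : ℝ => τ / r ^ 2) (-2 * τ / r ^ 3) r := by
    have := (hasDerivAt_const r τ).div (hasDerivAt_pow 2 r) (pow_ne_zero 2 hr.ne')
    have e : (0 * r ^ 2 - τ * ((2 : ℕ) * r ^ (2 - 1))) / (r ^ 2) ^ 2 = -2 * τ / r ^ 3 := by
      simp only [Nat.add_one_sub_one, pow_one]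
      field_simp
      ring
    rw [e] at this
    exact this
  exact h1.comp r h2

/-- derivative of `r ↦ (r^m)⁻¹` -/
theorem kdv_hasDerivAt_inv_pow (m : ℕ) {r : ℝ} (hr : 0 < r) :
    HasDerivAt (fun r : ℝ => (r ^ m)⁻¹) (-(m : ℝ) * (r ^ (m + 1))⁻¹) r := by
  have := (hasDerivAt_pow m r).inv (pow_ne_zero m hr.ne')
  have e : -((m : ℝ) * r ^ (m - 1)) / (r ^ m) ^ 2 = -(m : ℝ) * (r ^ (m + 1))⁻¹ := by
    cases m with
    | zero => simp
    | succ k =>
      simp only [Nat.add_sub_cancel]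
      field_simp
      ring
  rw [e] at this
  exact this

/-- (1) differentiation under the integral -/
theorem hasDerivAt_kint_raw {p : E (m + n)} {R : ℝ} (hR : Metric.closedBall p R ⊆ W.U)
    {u : E (m + n) → ℝ} (hu : Continuous u) {h : ℝ → ℝ} (hh : IsKer h) {ρ : ℝ} (h0 : 0 < ρ)
    (h1 : ρ < R) :
    HasDerivAt (W.kint u h p)
      (-(ρ ^ (m + 1))⁻¹ * ∫ x, u x * (m * h (‖x - p‖ ^ 2 / ρ ^ 2)
        + 2 * (‖x - p‖ ^ 2 / ρ ^ 2) * deriv h (‖x - p‖ ^ 2 / ρ ^ 2)) ∂W.μ) ρ := by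
  have hR0 : 0 < R := h0.trans h1
  have hhc : Continuous h := hh.smooth.continuous
  have hh'c : Continuous (deriv h) := hh.smooth.continuous_deriv le_rfl
  have hτc : Continuous fun x : E (m + n) => ‖x - p‖ ^ 2 := rad_continuous_sq p
  obtain ⟨Cu, hCu⟩ := (isCompact_closedBall p R).exists_bound_of_continuousOn hu.continuousOn
  obtain ⟨Ch, hCh⟩ := (isCompact_Icc (a := (0 : ℝ)) (b := 1)).exists_bound_of_continuousOn
    hh'c.continuousOn
  have hCu0 : 0 ≤ Cu := (norm_nonneg _).trans (hCu p (Metric.mem_closedBall_self hR0.le))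
  have hCh0 : 0 ≤ Ch := (norm_nonneg _).trans (hCh 0 ⟨le_rfl, zero_le_one⟩)
  have hFc : ∀ r : ℝ, Continuous fun x : E (m + n) => u x * h (‖x - p‖ ^ 2 / r ^ 2) := fun r =>
    hu.mul (hhc.comp (hτc.div_const _))
  have hF'c : ∀ r : ℝ, Continuous fun x : E (m + n) =>
      u x * (deriv h (‖x - p‖ ^ 2 / r ^ 2) * (-2 * ‖x - p‖ ^ 2 / r ^ 3)) := fun r =>
    hu.mul ((hh'c.comp (hτc.div_const _)).mul ((continuous_const.mul hτc).div_const _))
  have hzero : ∀ x, x ∉ Metric.closedBall p ρ → u x * h (‖x - p‖ ^ 2 / ρ ^ 2) = 0 :=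
    fun x hx => by rw [hh.zero _ (kin_one_le h0 hx), mul_zero]
  have hFint : Integrable (fun x => u x * h (‖x - p‖ ^ 2 / ρ ^ 2)) W.μ := by
    refine W.integrable_of_continuous (hFc ρ)
      (HasCompactSupport.intro (isCompact_closedBall p ρ) hzero) ?_
    refine (closure_minimal (fun x hx => ?_) Metric.isClosed_closedBall).trans
      ((Metric.closedBall_subset_closedBall h1.le).trans hR)
    by_contra hno
    exact hx (hzero x hno)
  have hB0 : 0 ≤ Cu * (Ch * (4 / ρ)) := by positivity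
  have key := hasDerivAt_integral_of_dominated_loc_of_deriv_le (μ := W.μ)
    (F := fun (r : ℝ) (x : E (m + n)) => u x * h (‖x - p‖ ^ 2 / r ^ 2))
    (F' := fun (r : ℝ) (x : E (m + n)) =>
      u x * (deriv h (‖x - p‖ ^ 2 / r ^ 2) * (-2 * ‖x - p‖ ^ 2 / r ^ 3)))
    (x₀ := ρ) (s := Set.Ioo (ρ / 2) R)
    (bound := (Metric.closedBall p R).indicator fun _ => Cu * (Ch * (4 / ρ)))
    (Ioo_mem_nhds (by linarith) h1)
    (Eventually.of_forall fun r => (hFc r).aestronglyMeasurable) hFint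
    (hF'c ρ).aestronglyMeasurable ?_ ?_ ?_
  · obtain ⟨hF'int, hder⟩ := key
    have h2 := (kdv_hasDerivAt_inv_pow m h0).mul hder
    have e1 : W.kint u h p = fun r => (r ^ m)⁻¹ * ∫ x, u x * h (‖x - p‖ ^ 2 / r ^ 2) ∂W.μ := rfl
    rw [e1]
    have e2 : ∫ x, u x * (m * h (‖x - p‖ ^ 2 / ρ ^ 2)
        + 2 * (‖x - p‖ ^ 2 / ρ ^ 2) * deriv h (‖x - p‖ ^ 2 / ρ ^ 2)) ∂W.μ =
        m * ∫ x, u x * h (‖x - p‖ ^ 2 / ρ ^ 2) ∂W.μ + (-ρ) * ∫ x,
          u x * (deriv h (‖x - p‖ ^ 2 / ρ ^ 2) * (-2 * ‖x - p‖ ^ 2 / ρ ^ 3)) ∂W.μ := by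
      rw [← integral_const_mul, ← integral_const_mul,
        ← integral_add (hFint.const_mul _) (hF'int.const_mul _)]
      refine integral_congr_ae (ae_of_all _ fun x => ?_)
      show _ = m * (u x * h (‖x - p‖ ^ 2 / ρ ^ 2)) +
        (-ρ) * (u x * (deriv h (‖x - p‖ ^ 2 / ρ ^ 2) * (-2 * ‖x - p‖ ^ 2 / ρ ^ 3)))
      field_simp
    have e3 : -(ρ ^ (m + 1))⁻¹ * (m * ∫ x, u x * h (‖x - p‖ ^ 2 / ρ ^ 2) ∂W.μ + (-ρ) * ∫ x,
          u x * (deriv h (‖x - p‖ ^ 2 / ρ ^ 2) * (-2 * ‖x - p‖ ^ 2 / ρ ^ 3)) ∂W.μ) =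
        -(m : ℝ) * (ρ ^ (m + 1))⁻¹ * ∫ x, u x * h (‖x - p‖ ^ 2 / ρ ^ 2) ∂W.μ +
      (ρ ^ m)⁻¹ * ∫ x, u x * (deriv h (‖x - p‖ ^ 2 / ρ ^ 2) * (-2 * ‖x - p‖ ^ 2 / ρ ^ 3)) ∂W.μ := by
      generalize (∫ x, u x * h (‖x - p‖ ^ 2 / ρ ^ 2) ∂W.μ) = A
      generalize (∫ x, u x * (deriv h (‖x - p‖ ^ 2 / ρ ^ 2) * (-2 * ‖x - p‖ ^ 2 / ρ ^ 3)) ∂W.μ) = B
      field_simp
      ring
    rw [e2, e3]
    exact h2
  · refine ae_of_all _ fun x r hr => ?_
    have hr0 : 0 < r := by linarith [hr.1]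
    by_cases hx : ‖x - p‖ ^ 2 / r ^ 2 < 1
    · have hτ : ‖x - p‖ ^ 2 < r ^ 2 := by
        rwa [div_lt_one (by positivity)] at hx
      have hxr : ‖x - p‖ < r := lt_of_pow_lt_pow_left₀ 2 hr0.le hτ
      have hxR : x ∈ Metric.closedBall p R := by
        rw [Metric.mem_closedBall, dist_eq_norm]; linarith [hr.2]
      rw [Set.indicator_of_mem hxR, norm_mul, norm_mul]
      refine mul_le_mul (hCu x hxR) (mul_le_mul (hCh _ ⟨by positivity, hx.le⟩) ?_ (norm_nonneg _) hCh0)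
        (by positivity) hCu0
      rw [Real.norm_eq_abs, abs_div, abs_mul, abs_of_nonneg (sq_nonneg ‖x - p‖),
        abs_of_pos (pow_pos hr0 3)]
      norm_num
      rw [div_le_div_iff₀ (pow_pos hr0 3) h0]
      have h3 : r ^ 3 = r ^ 2 * r := by ring
      have h4 : ρ < 2 * r := by linarith [hr.1]
      have h5 : 0 ≤ ‖x - p‖ ^ 2 := sq_nonneg _
      rw [h3]
      nlinarith [mul_pos (pow_pos hr0 2) hr0, mul_nonneg h5 h0.le]
    · rw [hh.deriv_zero (not_lt.1 hx)]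
      simp only [zero_mul, mul_zero, norm_zero]
      exact Set.indicator_nonneg (fun _ _ => hB0) x
  · refine W.integrable_of_bdd (isCompact_closedBall p R) hR
      ((measurable_const.indicator Metric.isClosed_closedBall.measurableSet).aestronglyMeasurable)
      (C := Cu * (Ch * (4 / ρ))) (fun x => ?_) (fun x hx => Set.indicator_of_notMem hx _)
    by_cases hx : x ∈ Metric.closedBall p R
    · rw [Set.indicator_of_mem hx, abs_of_nonneg hB0]
    · rw [Set.indicator_of_notMem hx, abs_zero]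
      exact hB0
  · refine ae_of_all _ fun x r hr => ?_
    have hr0 : 0 < r := by linarith [hr.1]
    exact (kdv_hasDerivAt hh (‖x - p‖ ^ 2) hr0).const_mul (u x)

end SIV

end Claimed.Agent.R322
end

/- ===== packed: Claimed.Agent.R322.Red.Ode ===== -/
section
/-!
# CO Section 7: the frequency system as an ODE problem (helper96; sorry-free)

`t = log l`.  `FreqSys I H A D R` collects (7.6): `H' = 2 D`, `A' = 2 A - D + R`, the positive form (`D² ≤ H R`), `D ≥ 0`, `2 A ≤ D`.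
Everything in this file is one-variable real analysis (only Mathlib is imported).
-/

set_option autoImplicit false

open Filter Topology Set

namespace Claimed.Agent.R322.Red

structure FreqSys (I : Set ℝ) (H A D R : ℝ → ℝ) : Prop where
  dH : ∀ t ∈ I, HasDerivAt H (2 * D t) t
  dA : ∀ t ∈ I, HasDerivAt A (2 * A t - D t + R t) t
  psd : ∀ t ∈ I, ∀ s τ : ℝ, 0 ≤ s ^ 2 * H t + 2 * s * τ * D t + τ ^ 2 * R t
  D_nonneg : ∀ t ∈ I, 0 ≤ D t
  sign : ∀ t ∈ I, 2 * A t ≤ D t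

namespace FreqSys

variable {I : Set ℝ} {H A D R : ℝ → ℝ}

theorem mono {J : Set ℝ} (S : FreqSys I H A D R) (hJ : J ⊆ I) : FreqSys J H A D R :=
  ⟨fun t ht => S.dH t (hJ ht), fun t ht => S.dA t (hJ ht), fun t ht => S.psd t (hJ ht),
    fun t ht => S.D_nonneg t (hJ ht), fun t ht => S.sign t (hJ ht)⟩

/-! ## algebra (O0) -/

/-- monotonicity from a nonnegative derivative -/
theorem _root_.Claimed.Agent.R322.Red.le_of_hasDerivAt_nonneg {f f' : ℝ → ℝ} {a b : ℝ} (hab : a ≤ b)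
    (h : ∀ t ∈ Icc a b, HasDerivAt f (f' t) t) (h0 : ∀ t ∈ Ioo a b, 0 ≤ f' t) : f a ≤ f b := by
  have hm : MonotoneOn f (Icc a b) := by
    refine monotoneOn_of_deriv_nonneg (convex_Icc a b)
      (fun t ht => (h t ht).continuousAt.continuousWithinAt) ?_ ?_
    · rw [interior_Icc]
      exact fun t ht => (h t (Ioo_subset_Icc_self ht)).differentiableAt.differentiableWithinAt
    · rw [interior_Icc]
      intro t ht
      rw [(h t (Ioo_subset_Icc_self ht)).deriv]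
      exact h0 t ht
  exact hm (left_mem_Icc.2 hab) (right_mem_Icc.2 hab) hab

theorem H_nonneg (S : FreqSys I H A D R) {t : ℝ} (ht : t ∈ I) : 0 ≤ H t := by
  have := S.psd t ht 1 0
  simpa using this

theorem R_nonneg (S : FreqSys I H A D R) {t : ℝ} (ht : t ∈ I) : 0 ≤ R t := by
  have := S.psd t ht 0 1
  simpa using this

/-- Cauchy-Schwarz.  [`psd` with `(s, τ) = (D, -H)`: `0 ≤ H (H R - D²)`; if `H = 0` use `(s, τ) = (-(R + 1) , D)`... or
`discrim_le_zero`.] -/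
theorem D_sq_le (S : FreqSys I H A D R) {t : ℝ} (ht : t ∈ I) : D t ^ 2 ≤ H t * R t := by
  have h1 : discrim (H t) (2 * D t) (R t) ≤ 0 := by
    refine discrim_le_zero fun s => ?_
    have := S.psd t ht s 1
    nlinarith
  unfold discrim at h1
  nlinarith

theorem D_eq_zero (S : FreqSys I H A D R) {t : ℝ} (ht : t ∈ I) (h : H t = 0) : D t = 0 := by
  have := S.D_sq_le ht
  rw [h, zero_mul] at this
  exact pow_eq_zero_iff (two_ne_zero) |>.1 (le_antisymm this (sq_nonneg _))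

/-- `R - D ≥ - H / 4` -/
theorem quarter (S : FreqSys I H A D R) {t : ℝ} (ht : t ∈ I) : -(H t / 4) ≤ R t - D t := by
  have := S.psd t ht (1 / 2) (-1)
  nlinarith

/-- [`monotoneOn_of_deriv_nonneg` / `monotoneOn_of_hasDerivWithinAt_nonneg` on `Icc t₁ t₂`] -/
theorem H_mono (S : FreqSys I H A D R) {t₁ t₂ : ℝ} (hI : Icc t₁ t₂ ⊆ I) (h : t₁ ≤ t₂) :
    H t₁ ≤ H t₂ :=
  le_of_hasDerivAt_nonneg h (fun t ht => S.dH t (hI ht)) fun t ht =>
    mul_nonneg zero_le_two (S.D_nonneg t (hI (Ioo_subset_Icc_self ht)))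

/-- mean value theorem for `H` [`exists_hasDerivAt_eq_slope`] -/
theorem exists_D_eq (S : FreqSys I H A D R) {t₁ t₂ : ℝ} (hI : Icc t₁ t₂ ⊆ I) (h : t₁ < t₂) :
    ∃ ξ ∈ Ioo t₁ t₂, 2 * D ξ * (t₂ - t₁) = H t₂ - H t₁ := by
  obtain ⟨ξ, hξ, he⟩ := exists_hasDerivAt_eq_slope H (fun t => 2 * D t) h
    (fun t ht => (S.dH t (hI ht)).continuousAt.continuousWithinAt)
    (fun t ht => S.dH t (hI (Ioo_subset_Icc_self ht)))
  refine ⟨ξ, hξ, ?_⟩
  rw [he, div_mul_cancel₀ _ (sub_ne_zero.2 h.ne')]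

/-! ## the quotient `P = A / H` (O2, O3) -/

/-- [`HasDerivAt.div`] -/
theorem hasDerivAt_P (S : FreqSys I H A D R) {t : ℝ} (ht : t ∈ I) (hH : H t ≠ 0) :
    HasDerivAt (fun s => A s / H s)
      (((2 * A t - D t + R t) * H t - A t * (2 * D t)) / H t ^ 2) t :=
  (S.dA t ht).div (S.dH t ht) hH

/-- `P' H² ≥ (D - H) (D - 2 A)` -/
theorem P'_lower (S : FreqSys I H A D R) {t : ℝ} (ht : t ∈ I) :
    (D t - H t) * (D t - 2 * A t) ≤ (2 * A t - D t + R t) * H t - A t * (2 * D t) := by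
  have := S.D_sq_le ht
  nlinarith

/-- **O3: monotonicity of the frequency at a comparison centre.**
[`P' H² ≥ (D - H)(D - 2A) ≥ 0` since `H ≤ 2A ≤ D`; `monotoneOn_of_deriv_nonneg`-type lemma on `Icc t₁ t₂`.] -/
theorem P_mono (S : FreqSys I H A D R) {t₁ t₂ : ℝ} (hI : Icc t₁ t₂ ⊆ I) (h : t₁ ≤ t₂)
    (hpos : ∀ t ∈ Icc t₁ t₂, 0 < H t) (hcmp : ∀ t ∈ Icc t₁ t₂, H t ≤ 2 * A t) :
    A t₁ / H t₁ ≤ A t₂ / H t₂ := by
  refine le_of_hasDerivAt_nonneg (f := fun s => A s / H s) h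
    (fun t ht => S.hasDerivAt_P (hI ht) (hpos t ht).ne') fun t ht => ?_
  have ht' := Ioo_subset_Icc_self ht
  refine div_nonneg (le_trans ?_ (S.P'_lower (hI ht'))) (sq_nonneg _)
  have h1 := S.sign t (hI ht')
  have h2 := hcmp t ht'
  exact mul_nonneg (by linarith) (by linarith)

/-! ## doubling (O4) -/

/-- the constant of the doubling lemma -/
noncomputable def dblC (C₀ : ℝ) : ℝ := (1 + 2 * C₀) ^ 2 / 2 + 2 * C₀

/-- pointwise inequality behind the doubling lemma: with `n = D/H`, `P = A/H`, `|P| ≤ C₀`: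
`2 n ≤ 2 P' + 2 C + 1`.
[`P' = 2P - n + q - 2Pn ≥ n² - (1 + 2C₀) n - 2C₀ ≥ n²/2 - C`, `2 n ≤ n² + 1`.  Multiply out by `H² > 0`.] -/
theorem dbl_pointwise (S : FreqSys I H A D R) {t C₀ : ℝ} (ht : t ∈ I) (hH : 0 < H t)
    (hA : |A t| ≤ C₀ * H t) :
    2 * D t / H t ≤ 2 * (((2 * A t - D t + R t) * H t - A t * (2 * D t)) / H t ^ 2)
      + (2 * dblC C₀ + 1) := by
  have hD := S.D_nonneg t ht
  have hsq := S.D_sq_le ht
  obtain ⟨hA1, hA2⟩ := abs_le.1 hA
  have hC₀ : 0 ≤ C₀ := by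
    by_contra hcon
    rw [not_le] at hcon
    have := mul_neg_of_neg_of_pos hcon hH
    linarith [abs_nonneg (A t)]
  have key : 2 * D t * H t ≤ 2 * ((2 * A t - D t + R t) * H t - A t * (2 * D t))
      + (2 * dblC C₀ + 1) * H t ^ 2 := by
    unfold dblC
    have h1 : A t * D t ≤ C₀ * H t * D t := mul_le_mul_of_nonneg_right hA2 hD
    have h2 : -(C₀ * H t) * H t ≤ A t * H t := mul_le_mul_of_nonneg_right hA1 hH.le
    have h3 : 0 ≤ (D t - (1 + C₀) * H t) ^ 2 := sq_nonneg _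
    have h4 : 0 ≤ C₀ ^ 2 * H t ^ 2 := by positivity
    nlinarith
  have e1 : 2 * D t / H t = 2 * D t * H t / H t ^ 2 := by
    field_simp
  have e2 : 2 * (((2 * A t - D t + R t) * H t - A t * (2 * D t)) / H t ^ 2) + (2 * dblC C₀ + 1)
      = (2 * ((2 * A t - D t + R t) * H t - A t * (2 * D t)) + (2 * dblC C₀ + 1) * H t ^ 2)
        / H t ^ 2 := by
    field_simp
  rw [e1, e2]
  exact div_le_div_of_nonneg_right key (sq_nonneg _)

/-- **O4: doubling.**
[`G t := log (H t) - 2 A t / H t - (2 C + 1) t` has derivative `≤ 0` on `Icc t₁ t₂` (`dbl_pointwise`), so `G t₂ ≤ G t₁`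
(`antitoneOn_of_deriv_nonpos`); `|A/H| ≤ C₀`; exponentiate.] -/
theorem doubling (S : FreqSys I H A D R) {t₁ t₂ C₀ : ℝ} (hI : Icc t₁ t₂ ⊆ I) (h : t₁ ≤ t₂)
    (hpos : ∀ t ∈ Icc t₁ t₂, 0 < H t) (hA : ∀ t ∈ Icc t₁ t₂, |A t| ≤ C₀ * H t) :
    H t₂ ≤ Real.exp (4 * C₀ + (2 * dblC C₀ + 1) * (t₂ - t₁)) * H t₁ := by
  set K := 2 * dblC C₀ + 1 with hK
  have hG : (fun s => K * s + 2 * (A s / H s) - Real.log (H s)) t₁
      ≤ (fun s => K * s + 2 * (A s / H s) - Real.log (H s)) t₂ := by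
    refine le_of_hasDerivAt_nonneg (f := fun s => K * s + 2 * (A s / H s) - Real.log (H s))
      (f' := fun t => K * 1
      + 2 * (((2 * A t - D t + R t) * H t - A t * (2 * D t)) / H t ^ 2) - 2 * D t / H t) h
      (fun t ht => ?_) fun t ht => ?_
    · exact ((((hasDerivAt_id t).const_mul K)).fun_add
        ((S.hasDerivAt_P (hI ht) (hpos t ht).ne').const_mul 2)).fun_sub
        ((S.dH t (hI ht)).log (hpos t ht).ne')
    · have ht' := Ioo_subset_Icc_self ht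
      have := S.dbl_pointwise (hI ht') (hpos t ht') (hA t ht')
      linarith
  simp only at hG
  have h1 := hpos t₁ (left_mem_Icc.2 h)
  have h2 := hpos t₂ (right_mem_Icc.2 h)
  have hP1 : -C₀ ≤ A t₁ / H t₁ := by
    rw [le_div_iff₀ h1]
    exact (abs_le.1 (hA t₁ (left_mem_Icc.2 h))).1.trans' (by linarith)
  have hP2 : A t₂ / H t₂ ≤ C₀ := by
    rw [div_le_iff₀ h2]
    exact (abs_le.1 (hA t₂ (right_mem_Icc.2 h))).2
  have h3 : Real.log (H t₂) ≤ (4 * C₀ + K * (t₂ - t₁)) + Real.log (H t₁) := by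
    nlinarith
  calc H t₂ = Real.exp (Real.log (H t₂)) := (Real.exp_log h2).symm
    _ ≤ Real.exp ((4 * C₀ + K * (t₂ - t₁)) + Real.log (H t₁)) := Real.exp_le_exp.2 h3
    _ = Real.exp (4 * C₀ + K * (t₂ - t₁)) * H t₁ := by rw [Real.exp_add, Real.exp_log h1]

/-! ## propagation of zeros (O1) -/

theorem hasDerivAt_expA (S : FreqSys I H A D R) {t : ℝ} (ht : t ∈ I) :
    HasDerivAt (fun s => Real.exp (-2 * s) * A s) (Real.exp (-2 * t) * (R t - D t)) t := by
  have h1 : HasDerivAt (fun s : ℝ => Real.exp (-2 * s)) (Real.exp (-2 * t) * (-2 * 1)) t :=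
    ((hasDerivAt_id t).const_mul (-2)).exp
  refine (h1.fun_mul (S.dA t ht)).congr_deriv ?_
  ring

/-- lower bound for `A`.
[`s ↦ exp (-2 s) * A s - H T / 8 * exp (-2 s)` is nondecreasing on `Icc t₀ T`: its derivative is
`exp (-2 s) (R s - D s + H T / 4) ≥ exp (-2 s) (H T - H s) / 4 ≥ 0` (`quarter`, `H_mono`).] -/
theorem A_lower (S : FreqSys I H A D R) {t₀ T : ℝ} (hI : Icc t₀ T ⊆ I) (h : t₀ ≤ T)
    (hA0 : A t₀ = 0) : -(H T / 8 * Real.exp (2 * (T - t₀))) ≤ A T := by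
  have hHT : 0 ≤ H T := S.H_nonneg (hI (right_mem_Icc.2 h))
  have hG := le_of_hasDerivAt_nonneg
    (f := fun s => Real.exp (-2 * s) * A s - H T / 8 * Real.exp (-2 * s))
    (f' := fun t => Real.exp (-2 * t) * (R t - D t) - H T / 8 * (Real.exp (-2 * t) * (-2 * 1))) h
    (fun t ht => (S.hasDerivAt_expA (hI ht)).fun_sub
      ((((hasDerivAt_id t).const_mul (-2)).exp).const_mul (H T / 8)))
    (fun t ht => by
      have ht' := Ioo_subset_Icc_self ht
      have h1 := S.quarter (hI ht')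
      have h2 : H t ≤ H T := S.H_mono (fun u hu => hI ⟨ht'.1.trans hu.1, hu.2⟩) ht'.2
      have h3 : 0 < Real.exp (-2 * t) := Real.exp_pos _
      have h4 : 0 ≤ R t - D t + H T / 4 := by linarith
      nlinarith [mul_nonneg h3.le h4])
  simp only [hA0, mul_zero, zero_sub] at hG
  have e1 : Real.exp (2 * (T - t₀)) = Real.exp (2 * T) * Real.exp (-2 * t₀) := by
    rw [← Real.exp_add]; congr 1; ring
  have e2 : Real.exp (2 * T) * Real.exp (-2 * T) = 1 := by
    rw [← Real.exp_add]; simp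
  have h5 : 0 < Real.exp (2 * T) := Real.exp_pos _
  have h6 : 0 < Real.exp (-2 * T) := Real.exp_pos _
  have h7 : -(H T / 8 * Real.exp (-2 * t₀)) ≤ Real.exp (-2 * T) * A T := by
    have : 0 ≤ H T / 8 * Real.exp (-2 * T) := by positivity
    linarith
  have h8 := mul_le_mul_of_nonneg_left h7 h5.le
  have e3 : Real.exp (2 * T) * (Real.exp (-2 * T) * A T) = A T := by
    rw [← mul_assoc, e2, one_mul]
  rw [e3] at h8
  rw [e1]
  linarith

/-- upper bound for `P`, going inward.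
[If `P ≥ 1` then `D ≥ 2A ≥ 2H`, so `P' H² ≥ (D - H)(D - 2A) ≥ 0`.  Suppose `P s > M := max 1 (P t₁)`; let
`t' := sInf {t ∈ Icc s t₁ | P t ≤ M}`; `P` is nondecreasing on `Icc s t'`, so `P t' ≥ P s > M`, but `P t' ≤ M` by closedness.] -/
theorem P_upper (S : FreqSys I H A D R) {s t₁ : ℝ} (hI : Icc s t₁ ⊆ I) (h : s ≤ t₁)
    (hpos : ∀ t ∈ Icc s t₁, 0 < H t) : A s / H s ≤ max 1 (A t₁ / H t₁) := by
  by_contra hcon
  rw [not_le] at hcon
  set M := max 1 (A t₁ / H t₁) with hM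
  set P : ℝ → ℝ := fun t => A t / H t with hP
  have hcont : ContinuousOn P (Icc s t₁) := fun t ht =>
    (S.hasDerivAt_P (hI ht) (hpos t ht).ne').continuousAt.continuousWithinAt
  set Z : Set ℝ := Icc s t₁ ∩ P ⁻¹' Iic M with hZ
  have hZc : IsClosed Z := hcont.preimage_isClosed_of_isClosed isClosed_Icc isClosed_Iic
  have hZne : Z.Nonempty := ⟨t₁, right_mem_Icc.2 h, show A t₁ / H t₁ ≤ M from le_max_right _ _⟩
  have hZb : BddBelow Z := ⟨s, fun t ht => ht.1.1⟩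
  have ht' : sInf Z ∈ Z := hZc.csInf_mem hZne hZb
  set t' := sInf Z with ht'def
  have hmono : P s ≤ P t' := by
    refine le_of_hasDerivAt_nonneg ht'.1.1
      (fun t ht => S.hasDerivAt_P (hI ⟨ht.1, ht.2.trans ht'.1.2⟩)
        (hpos t ⟨ht.1, ht.2.trans ht'.1.2⟩).ne') fun t ht => ?_
    have htI : t ∈ Icc s t₁ := ⟨ht.1.le, ht.2.le.trans ht'.1.2⟩
    have hnot : t ∉ Z := fun hz => absurd (csInf_le hZb hz) (not_le.2 ht.2)
    have hPt : M < P t := by
      by_contra hc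
      exact hnot ⟨htI, not_lt.1 hc⟩
    have hH := hpos t htI
    have h1 : H t < A t := by
      have : 1 < A t / H t := lt_of_le_of_lt (le_max_left _ _) hPt
      rwa [lt_div_iff₀ hH, one_mul] at this
    have h2 := S.sign t (hI htI)
    refine div_nonneg (le_trans ?_ (S.P'_lower (hI htI))) (sq_nonneg _)
    exact mul_nonneg (by linarith) (by linarith)
  have : P t' ≤ M := ht'.2
  linarith

/-- `A = 0` persists as long as `H = 0`.
[On `Icc t₀ t₁`: `D = 0` (`D_eq_zero`), so `A ≤ 0` by `sign`, and `(exp (-2 s) A s)' = exp (-2 s) R s ≥ 0`, so `A ≥ 0`.] -/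
theorem A_eq_zero_of_H (S : FreqSys I H A D R) {t₀ t₁ : ℝ} (hI : Icc t₀ t₁ ⊆ I) (h : t₀ ≤ t₁)
    (hA0 : A t₀ = 0) (hH : ∀ t ∈ Icc t₀ t₁, H t = 0) : A t₁ = 0 := by
  have hD : ∀ t ∈ Icc t₀ t₁, D t = 0 := fun t ht => S.D_eq_zero (hI ht) (hH t ht)
  have h1 : A t₁ ≤ 0 := by
    have := S.sign t₁ (hI (right_mem_Icc.2 h))
    rw [hD t₁ (right_mem_Icc.2 h)] at this
    linarith
  have hG := le_of_hasDerivAt_nonneg (f := fun s => Real.exp (-2 * s) * A s) h
    (fun t ht => S.hasDerivAt_expA (hI ht)) (fun t ht => by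
      have ht' := Ioo_subset_Icc_self ht
      rw [hD t ht', sub_zero]
      exact mul_nonneg (Real.exp_pos _).le (S.R_nonneg (hI ht')))
  simp only [hA0, mul_zero] at hG
  have h2 : 0 ≤ A t₁ := by
    by_contra hc
    rw [not_le] at hc
    have := mul_neg_of_pos_of_neg (Real.exp_pos (-2 * t₁)) hc
    linarith
  exact le_antisymm h1 h2

/-- core of O1: no zero at the left end point of an interval of positivity.
[For `t ∈ Ioc t₀ t₁`: `|A t| ≤ C₀ H t` with `C₀ := max (max 1 (A t₁ / H t₁)) (exp (2 (t₁ - t₀)) / 8)` (`A_lower` on `Icc t₀ t`,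
`P_upper` on `Icc t t₁`); `doubling` on `Icc t t₁` gives `H t₁ ≤ exp (4 C₀ + (2 C + 1)(t₁ - t₀)) H t`; let `t ↓ t₀`
(`H` is continuous at `t₀`): `H t₁ ≤ 0`.] -/
theorem false_of_zero_left (S : FreqSys I H A D R) {t₀ t₁ : ℝ} (hI : Icc t₀ t₁ ⊆ I) (h : t₀ < t₁)
    (hH0 : H t₀ = 0) (hA0 : A t₀ = 0) (hpos : ∀ t ∈ Ioc t₀ t₁, 0 < H t) : False := by
  set C₀ : ℝ := max (max 1 (A t₁ / H t₁)) (Real.exp (2 * (t₁ - t₀)) / 8) with hC₀
  have hC₀1 : 1 ≤ C₀ := (le_max_left _ _).trans (le_max_left _ _)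
  have hbd : ∀ t ∈ Ioc t₀ t₁, |A t| ≤ C₀ * H t := by
    intro t ht
    have hHt := hpos t ht
    rw [abs_le]
    constructor
    · have h1 := S.A_lower (T := t) (fun u hu => hI ⟨hu.1, hu.2.trans ht.2⟩) ht.1.le hA0
      have h2 : Real.exp (2 * (t - t₀)) ≤ Real.exp (2 * (t₁ - t₀)) :=
        Real.exp_le_exp.2 (by linarith [ht.2])
      have h3 : Real.exp (2 * (t₁ - t₀)) / 8 ≤ C₀ := le_max_right _ _
      have h4 : H t / 8 * Real.exp (2 * (t - t₀)) ≤ C₀ * H t := by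
        calc H t / 8 * Real.exp (2 * (t - t₀)) ≤ H t / 8 * Real.exp (2 * (t₁ - t₀)) := by gcongr
          _ = Real.exp (2 * (t₁ - t₀)) / 8 * H t := by ring
          _ ≤ C₀ * H t := by gcongr
      linarith
    · have h1 := S.P_upper (s := t) (fun u hu => hI ⟨ht.1.le.trans hu.1, hu.2⟩) ht.2
        (fun u hu => hpos u ⟨lt_of_lt_of_le ht.1 hu.1, hu.2⟩)
      rw [div_le_iff₀ hHt] at h1
      exact h1.trans (mul_le_mul_of_nonneg_right (le_max_left _ _) hHt.le)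
  set K := 2 * dblC C₀ + 1 with hK
  have hK0 : 0 ≤ K := by
    rw [hK]; unfold dblC; positivity
  set Ec := Real.exp (4 * C₀ + K * (t₁ - t₀)) with hEc
  have hle : ∀ t ∈ Ioc t₀ t₁, H t₁ ≤ Ec * H t := by
    intro t ht
    have h1 := S.doubling (t₁ := t) (t₂ := t₁) (C₀ := C₀)
      (fun u hu => hI ⟨ht.1.le.trans hu.1, hu.2⟩) ht.2
      (fun u hu => hpos u ⟨lt_of_lt_of_le ht.1 hu.1, hu.2⟩)
      (fun u hu => hbd u ⟨lt_of_lt_of_le ht.1 hu.1, hu.2⟩)
    refine h1.trans (mul_le_mul_of_nonneg_right (Real.exp_le_exp.2 ?_) (hpos t ht).le)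
    have : K * (t₁ - t) ≤ K * (t₁ - t₀) := mul_le_mul_of_nonneg_left (by linarith [ht.1]) hK0
    linarith
  have hcont : Tendsto (fun t => Ec * H t) (𝓝[>] t₀) (𝓝 (Ec * H t₀)) :=
    (((S.dH t₀ (hI (left_mem_Icc.2 h.le))).continuousAt.tendsto).mono_left
      nhdsWithin_le_nhds).const_mul Ec
  rw [hH0, mul_zero] at hcont
  have h2 : H t₁ ≤ 0 := ge_of_tendsto hcont
    (Filter.mem_of_superset (Ioc_mem_nhdsGT h) fun t ht => hle t ht)
  exact absurd (hpos t₁ (right_mem_Ioc.2 h)) (not_lt.2 h2)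

/-- **O1: zeros of the height propagate outward.**
[Suppose `0 < H t₁`.  `t' := sSup {t ∈ Icc t₀ t₁ | H t = 0}`; `H t' = 0` (closed set), `t' < t₁`, `H = 0` on `Icc t₀ t'` (`H_mono`,
`H_nonneg`), `A t' = 0` (`A_eq_zero_of_H`), `H > 0` on `Ioc t' t₁`; `false_of_zero_left`.] -/
theorem zero_prop (S : FreqSys I H A D R) {t₀ t₁ : ℝ} (hI : Icc t₀ t₁ ⊆ I) (h : t₀ ≤ t₁)
    (hH0 : H t₀ = 0) (hA0 : A t₀ = 0) : H t₁ = 0 := by
  by_contra hne
  have hcont : ContinuousOn H (Icc t₀ t₁) := fun t ht =>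
    (S.dH t (hI ht)).continuousAt.continuousWithinAt
  set Z : Set ℝ := Icc t₀ t₁ ∩ H ⁻¹' {0} with hZ
  have hZc : IsClosed Z := hcont.preimage_isClosed_of_isClosed isClosed_Icc isClosed_singleton
  have hZne : Z.Nonempty := ⟨t₀, left_mem_Icc.2 h, hH0⟩
  have hZb : BddAbove Z := ⟨t₁, fun t ht => ht.1.2⟩
  have ht' : sSup Z ∈ Z := hZc.csSup_mem hZne hZb
  set t' := sSup Z with ht'def
  have hHt' : H t' = 0 := ht'.2
  have hlt : t' < t₁ := lt_of_le_of_ne ht'.1.2 fun he => hne (he ▸ hHt')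
  have hzero : ∀ t ∈ Icc t₀ t', H t = 0 := by
    intro t ht
    have h1 : H t ≤ H t' := S.H_mono (fun u hu => hI ⟨ht.1.trans hu.1, hu.2.trans ht'.1.2⟩) ht.2
    have h2 : 0 ≤ H t := S.H_nonneg (hI ⟨ht.1, ht.2.trans ht'.1.2⟩)
    linarith
  have hAt' : A t' = 0 :=
    S.A_eq_zero_of_H (fun u hu => hI ⟨hu.1, hu.2.trans ht'.1.2⟩) ht'.1.1 hA0 hzero
  refine S.false_of_zero_left (t₀ := t') (t₁ := t₁) (fun u hu => hI ⟨ht'.1.1.trans hu.1, hu.2⟩) hlt
    hHt' hAt' fun t ht => ?_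
  have htI : t ∈ Icc t₀ t₁ := ⟨ht'.1.1.trans ht.1.le, ht.2⟩
  refine lt_of_le_of_ne (S.H_nonneg (hI htI)) fun he => ?_
  have : t ∈ Z := ⟨htI, he.symm⟩
  exact absurd (le_csSup hZb this) (not_le.2 ht.1)

/-! ## rigidity (O5) -/

/-- **O5: constant frequency `P₀ ≥ 1/2` forces equality in the positive form.**
[`A =ᶠ P₀ H` near `t`, so the derivatives agree (`HasDerivAt.unique`, `HasDerivAt.congr_of_eventuallyEq`):
`2A - D + R = 2 P₀ D`.  With `n₀ = 2 P₀`: `n₀² H - 2 n₀ D + R = (n₀ - 1)(n₀ H - D) ≤ 0` because `n₀ H = 2A ≤ D`; `≥ 0` by `psd (-n₀) 1`.] -/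
theorem rigid (S : FreqSys I H A D R) {t P₀ : ℝ} (ht : t ∈ I) (hP₀ : 1 / 2 ≤ P₀)
    (hconst : ∀ᶠ s in 𝓝 t, A s = P₀ * H s) :
    (2 * P₀) ^ 2 * H t - 2 * (2 * P₀) * D t + R t = 0 := by
  have h1 : HasDerivAt A (P₀ * (2 * D t)) t :=
    ((S.dH t ht).const_mul P₀).congr_of_eventuallyEq hconst
  have h2 := (S.dA t ht).unique h1
  have h3 : A t = P₀ * H t := hconst.self_of_nhds
  have h4 := S.sign t ht
  have h5 := S.psd t ht (-(2 * P₀)) 1
  have h6 : (2 * P₀) ^ 2 * H t - 2 * (2 * P₀) * D t + R t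
      = (2 * P₀ - 1) * (2 * P₀ * H t - D t) := by
    have : R t = P₀ * (2 * D t) - 2 * (P₀ * H t) + D t := by rw [← h3]; linarith
    rw [this]; ring
  have h7 : (2 * P₀ - 1) * (2 * P₀ * H t - D t) ≤ 0 :=
    mul_nonpos_of_nonneg_of_nonpos (by linarith) (by rw [h3] at h4; linarith)
  apply le_antisymm
  · rw [h6]; exact h7
  · nlinarith

end FreqSys

end Claimed.Agent.R322.Red
end

/- ===== packed: Claimed.Agent.R322.Freq.OdePoint ===== -/
section
/-!
# Row 322, CO Lemma 4.4 (inward control): the algebra at one radius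

Blueprint and proofs: helper109 (package BP-CO4-ode).  Only Mathlib.  No sorry in this file.

`OdePt C mm P n s η r g v h` = the five inequalities of CO Lemma 4.3 at one radius `r ≤ 1`, as a statement on real numbers:
`P = A/H`, `n = n_* = E_*/H`, `s = √q_*`, `q_* = R_*/H`, `g = T^{-20}`, `v = v_0 = \dot A/H`, `h = \dot H/H`.
Then `\dot P = v - P h`.
-/

set_option autoImplicit false

namespace Claimed.Agent.R322.Freq

/-- the inequalities (4.x) `freq-absolute, freq-signed, freq-flux, freq-horizontal, freq-height` at one radius -/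
structure OdePt (C mm P n s η r g v h : ℝ) : Prop where
  n0 : 0 ≤ n
  s0 : 0 ≤ s
  η0 : 0 ≤ η
  r0 : 0 ≤ r
  r1 : r ≤ 1
  abs : |P| ≤ C * (n + r ^ 2) + η * s ^ 2
  signed : 2 * P ≤ n + C * g * (n + 1) + C * r ^ 2 + η * s ^ 2
  flux : n ≤ s + C * r ^ 2 + η * n
  hor : |v - (2 * P - n + s ^ 2)| ≤ C * (r * s + r ^ 2 * (1 + n)) + η * (n + s ^ 2)
  ht_lo : -mm ≤ h
  ht_hi : h ≤ 2 * n + C * r + η * (n + s ^ 2)

namespace OdePt

variable {C mm P n s η r g v h : ℝ}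

theorem r_sq_le (p : OdePt C mm P n s η r g v h) : r ^ 2 ≤ r := by
  have := p.r0; have := p.r1
  nlinarith

theorem r_sq_le_one (p : OdePt C mm P n s η r g v h) : r ^ 2 ≤ 1 := p.r_sq_le.trans p.r1

/-- `n_* ≤ 2 √q_* + 2 C r^2` -/
theorem n_le (p : OdePt C mm P n s η r g v h) (hη : η ≤ 1 / 2) : n ≤ 2 * s + 2 * (C * r ^ 2) := by
  have h1 : η * n ≤ 1 / 2 * n := mul_le_mul_of_nonneg_right hη p.n0
  have := p.flux
  linarith

theorem n_le' (p : OdePt C mm P n s η r g v h) (hC : 1 ≤ C) (hη : η ≤ 1 / 2) : n ≤ 2 * s + 2 * C := by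
  have h1 := p.n_le hη
  have h2 : C * r ^ 2 ≤ C * 1 := mul_le_mul_of_nonneg_left p.r_sq_le_one (by linarith)
  linarith

/-- lower bound for `v_0` -/
theorem v_ge (p : OdePt C mm P n s η r g v h) :
    2 * P - n + s ^ 2 - (C * (r * s + r ^ 2 * (1 + n)) + η * (n + s ^ 2)) ≤ v := by
  have := (abs_le.1 p.hor).1
  linarith

/-- the geometric error of `freq-horizontal` for `r ≤ 1` -/
theorem err_le (p : OdePt C mm P n s η r g v h) (hC : 1 ≤ C) :
    C * (r * s + r ^ 2 * (1 + n)) ≤ C * r * (s + 1 + n) := by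
  have h1 : r ^ 2 * (1 + n) ≤ r * (1 + n) := mul_le_mul_of_nonneg_right p.r_sq_le (by linarith [p.n0])
  have h2 : C * (r * s + r ^ 2 * (1 + n)) ≤ C * (r * s + r * (1 + n)) :=
    mul_le_mul_of_nonneg_left (by linarith) (by linarith)
  calc C * (r * s + r ^ 2 * (1 + n)) ≤ C * (r * s + r * (1 + n)) := h2
    _ = C * r * (s + 1 + n) := by ring

theorem err_le' (p : OdePt C mm P n s η r g v h) (hC : 1 ≤ C) :
    C * (r * s + r ^ 2 * (1 + n)) ≤ C * (s + 1 + n) := by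
  refine (p.err_le hC).trans ?_
  have h1 : C * r ≤ C * 1 := mul_le_mul_of_nonneg_left p.r1 (by linarith)
  have h2 : 0 ≤ s + 1 + n := by linarith [p.n0, p.s0]
  calc C * r * (s + 1 + n) ≤ C * 1 * (s + 1 + n) := mul_le_mul_of_nonneg_right h1 h2
    _ = C * (s + 1 + n) := by ring

/-- **Dichotomy** behind (4.x) `large-frequency`: for `|P| ≥ K ≥ 9 C^2` either the square-root term or the `η`-term controls a
fixed fraction of `|P|`. -/
theorem dich (p : OdePt C mm P n s η r g v h) (hC : 1 ≤ C) (hη : η ≤ 1 / 2) {K : ℝ} (hK : 9 * C ^ 2 ≤ K)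
    (hP : K ≤ |P|) : P ^ 2 ≤ 36 * C ^ 2 * s ^ 2 ∨ |P| ≤ 3 * (η * s ^ 2) := by
  by_cases hc : |P| ≤ 3 * (η * s ^ 2)
  · exact Or.inr hc
  · left
    rw [not_le] at hc
    have h1 := p.n_le hη
    have h2 := p.abs
    have h3 := p.r_sq_le_one
    have hC0 : 0 ≤ C := by linarith
    have h4 : C * n ≤ C * (2 * s + 2 * (C * r ^ 2)) := mul_le_mul_of_nonneg_left h1 hC0
    have h5 : C ^ 2 * r ^ 2 ≤ C ^ 2 * 1 := mul_le_mul_of_nonneg_left h3 (by positivity)
    have h6 : C * r ^ 2 ≤ C * 1 := mul_le_mul_of_nonneg_left h3 hC0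
    have h7 : C ≤ C ^ 2 := by nlinarith
    have h8 : |P| ≤ 6 * (C * s) := by nlinarith
    have h9 : 0 ≤ |P| := abs_nonneg P
    have h10 : |P| ^ 2 ≤ (6 * (C * s)) ^ 2 := pow_le_pow_left₀ h9 h8 2
    rw [sq_abs] at h10
    calc P ^ 2 ≤ (6 * (C * s)) ^ 2 := h10
      _ = 36 * C ^ 2 * s ^ 2 := by ring

/-- `q_* ≥ (K / 36 C^2) |P|` -/
theorem q_ge (p : OdePt C mm P n s η r g v h) (hC : 1 ≤ C) (hη : η ≤ 1 / 2) {K : ℝ} (hK : 9 * C ^ 2 ≤ K)
    (hKη : K * η ≤ 12 * C ^ 2) (hP : K ≤ |P|) : K * |P| ≤ 36 * C ^ 2 * s ^ 2 := by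
  have h9 : 0 ≤ |P| := abs_nonneg P
  have hK0 : 0 ≤ K := le_trans (by positivity) hK
  rcases p.dich hC hη hK hP with h1 | h1
  · rw [← sq_abs] at h1
    nlinarith
  · have h2 : K * |P| ≤ K * (3 * (η * s ^ 2)) := mul_le_mul_of_nonneg_left h1 hK0
    have h3 : K * η * s ^ 2 ≤ 12 * C ^ 2 * s ^ 2 := mul_le_mul_of_nonneg_right hKη (by positivity)
    nlinarith

/-- for `|P| ≥ K ≥ 600 C^2`: `√q_* ≥ 100 C` -/
theorem s_ge (p : OdePt C mm P n s η r g v h) (hC : 1 ≤ C) (hη : η ≤ 1 / 2) {K : ℝ} (hK : 600 * C ^ 2 ≤ K)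
    (hKη : K * η ≤ 12 * C ^ 2) (hP : K ≤ |P|) : 100 * C ≤ s := by
  have h1 := p.q_ge hC hη (by nlinarith) hKη hP
  have hC2 : 0 < C ^ 2 := by positivity
  have h2 : K * K ≤ K * |P| := mul_le_mul_of_nonneg_left hP (by nlinarith)
  have h3 : (600 * C ^ 2) * (600 * C ^ 2) ≤ K * K := mul_le_mul hK hK (by positivity) (by nlinarith)
  have h4 : C ^ 2 * (100 * C) ^ 2 ≤ C ^ 2 * s ^ 2 := by nlinarith
  have h5 : (100 * C) ^ 2 ≤ s ^ 2 := le_of_mul_le_mul_left h4 hC2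
  exact (abs_le_of_sq_le_sq' h5 p.s0).2

/-- second half of (4.x) `large-frequency`: `v_0 ≥ q_*/2` -/
theorem v_ge_q (p : OdePt C mm P n s η r g v h) (hC : 1 ≤ C) (hη : η ≤ 1 / 16) {K : ℝ}
    (hK : 600 * C ^ 2 ≤ K) (hKη : K * η ≤ 12 * C ^ 2) (hP : K ≤ |P|) : s ^ 2 / 2 ≤ v := by
  have hη2 : η ≤ 1 / 2 := by linarith
  have hs := p.s_ge hC hη2 hK hKη hP
  have hq := p.q_ge hC hη2 (by nlinarith) hKη hP
  have hv := p.v_ge
  have he := p.err_le' hC
  have hn := p.n_le' hC hη2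
  have hC0 : 0 ≤ C := by linarith
  have hs0 := p.s0
  have hn0 := p.n0
  -- `C s ≤ s^2/100`, `C^2 ≤ s^2/10^4`
  have h1 : 100 * (C * s) ≤ s ^ 2 := by nlinarith
  have h2 : 10000 * C ^ 2 ≤ s ^ 2 := by nlinarith
  have h3 : C ≤ C ^ 2 := by nlinarith
  have h4 : C * n ≤ C * (2 * s + 2 * C) := mul_le_mul_of_nonneg_left hn hC0
  have h5 : η * (n + s ^ 2) ≤ 1 / 16 * (n + s ^ 2) := mul_le_mul_of_nonneg_right hη (by positivity)
  -- `|P| ≤ 0.06 s^2`
  have h6 : 600 * C ^ 2 * |P| ≤ 36 * C ^ 2 * s ^ 2 :=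
    le_trans (mul_le_mul_of_nonneg_right hK (abs_nonneg P)) hq
  have hC2 : 0 < C ^ 2 := by positivity
  have h7 : 600 * |P| ≤ 36 * s ^ 2 := by
    have : C ^ 2 * (600 * |P|) ≤ C ^ 2 * (36 * s ^ 2) := by nlinarith
    exact le_of_mul_le_mul_left this hC2
  have h8 : -|P| ≤ P := neg_abs_le P
  nlinarith

/-- `P ≤ -K`: `\dot P ≥ 0` and `v_0 ≥ 0` -/
theorem low (p : OdePt C mm P n s η r g v h) (hC : 1 ≤ C) (hm : 0 ≤ mm) (hη : η ≤ 1 / 16) {K : ℝ}
    (hK : 600 * C ^ 2 * (1 + mm) ≤ K) (hKη : K * η ≤ 12 * C ^ 2) (hP : P ≤ -K) :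
    0 ≤ v - P * h ∧ 0 ≤ v := by
  have hC2 : 0 < C ^ 2 := by positivity
  have hK1 : 600 * C ^ 2 ≤ K := by nlinarith
  have hK0 : 0 < K := by nlinarith
  have hP0 : P ≤ 0 := by linarith
  have habs : |P| = -P := abs_of_nonpos hP0
  have hPK : K ≤ |P| := by rw [habs]; linarith
  have hv := p.v_ge_q hC hη hK1 hKη hPK
  have hq := p.q_ge hC (by linarith) (by nlinarith) hKη hPK
  refine ⟨?_, le_trans (by positivity) hv⟩
  rw [habs] at hq
  have h1 : (-P) * (-mm) ≤ (-P) * h := mul_le_mul_of_nonneg_left p.ht_lo (by linarith)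
  -- `mm (-P) ≤ s^2/2`
  have h2 : K * (mm * (-P)) ≤ K * (s ^ 2 / 2) := by
    have h3 : mm * (K * -P) ≤ mm * (36 * C ^ 2 * s ^ 2) := mul_le_mul_of_nonneg_left hq hm
    have h4 : 72 * C ^ 2 * mm * s ^ 2 ≤ K * s ^ 2 := mul_le_mul_of_nonneg_right (by nlinarith) (by positivity)
    nlinarith
  have h5 : mm * (-P) ≤ s ^ 2 / 2 := le_of_mul_le_mul_left h2 hK0
  nlinarith

/-- `P ≥ K`: `v_0 ≥ 2 P` (i.e. `Z = log(r^2/A)` increases inward) -/
theorem z (p : OdePt C mm P n s η r g v h) (hC : 1 ≤ C) (hη : η ≤ 1 / 16) {K : ℝ}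
    (hK : 600 * C ^ 2 ≤ K) (hKη : K * η ≤ 12 * C ^ 2) (hP : K ≤ P) : 2 * P ≤ v := by
  have hC2 : 0 < C ^ 2 := by positivity
  have hK0 : 0 < K := by nlinarith
  have habs : |P| = P := abs_of_nonneg (by linarith)
  have hPK : K ≤ |P| := by rw [habs]; exact hP
  have hv := p.v_ge_q hC hη hK hKη hPK
  have hq := p.q_ge hC (by linarith) (by nlinarith) hKη hPK
  rw [habs] at hq
  have h6 : 600 * C ^ 2 * P ≤ 36 * C ^ 2 * s ^ 2 :=
    le_trans (mul_le_mul_of_nonneg_right hK (by linarith)) hq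
  have h7 : 600 * P ≤ 36 * s ^ 2 := by
    have : C ^ 2 * (600 * P) ≤ C ^ 2 * (36 * s ^ 2) := by nlinarith
    exact le_of_mul_le_mul_left this hC2
  linarith

/-- `P ≥ max(K, T^2)`: `v_0 - 2 P ≥ c T^2 P` with `c = 1/(144 C^2)` -/
theorem start (p : OdePt C mm P n s η r g v h) (hC : 1 ≤ C) (hη : η ≤ 1 / 16) {K T : ℝ}
    (hK : 600 * C ^ 2 ≤ K) (hKη : K * η ≤ 12 * C ^ 2) (hP : K ≤ P) (hT : T ^ 2 ≤ P) (hηT : η * T ^ 2 ≤ 1)
    (hT2 : 288 * C ^ 2 ≤ T ^ 2) : (2 + 1 / (144 * C ^ 2) * T ^ 2) * P ≤ v := by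
  have hC2 : 0 < C ^ 2 := by positivity
  have hK0 : 0 < K := by nlinarith
  have hP0 : 0 ≤ P := by linarith
  have habs : |P| = P := abs_of_nonneg hP0
  have hPK : K ≤ |P| := by rw [habs]; exact hP
  have hv := p.v_ge_q hC hη hK hKη hPK
  have hT0 : 0 ≤ T ^ 2 := by positivity
  have h1 : T ^ 2 * P ≤ 36 * C ^ 2 * s ^ 2 := by
    rcases p.dich hC (by linarith) (by nlinarith) hPK with h2 | h2
    · nlinarith
    · rw [habs] at h2
      have h3 : T ^ 2 * P ≤ T ^ 2 * (3 * (η * s ^ 2)) := mul_le_mul_of_nonneg_left h2 hT0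
      have h4 : η * T ^ 2 * s ^ 2 ≤ 1 * s ^ 2 := mul_le_mul_of_nonneg_right hηT (by positivity)
      have hC1 : 1 ≤ C ^ 2 := by nlinarith
      have h5 : 1 * s ^ 2 ≤ C ^ 2 * s ^ 2 := mul_le_mul_of_nonneg_right hC1 (by positivity)
      nlinarith
  have h6 : 288 * C ^ 2 * P ≤ T ^ 2 * P := mul_le_mul_of_nonneg_right hT2 hP0
  have h7 : (2 + 1 / (144 * C ^ 2) * T ^ 2) * P = (288 * C ^ 2 * P + T ^ 2 * P) / (144 * C ^ 2) := by
    field_simp
    ring
  rw [h7, div_le_iff₀ (by positivity)]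
  nlinarith

/-- quotient differentiation for `P ≥ 0`, with the upper height bound -/
theorem pd_ge (p : OdePt C mm P n s η r g v h) (hP : 0 ≤ P) :
    2 * P - n + s ^ 2 - 2 * P * n - C * (r * s + r ^ 2 * (1 + n)) - (η + η * P) * (n + s ^ 2) - C * r * P
      ≤ v - P * h := by
  have h1 := p.v_ge
  have h2 : P * h ≤ P * (2 * n + C * r + η * (n + s ^ 2)) := mul_le_mul_of_nonneg_left p.ht_hi hP
  nlinarith

/-- sharp flux inequality with errors: `q_* ≥ n_*^2 - 2 n_* (η n_* + C r^2)` -/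
theorem q_ge_n_sq (p : OdePt C mm P n s η r g v h) (hC : 1 ≤ C) :
    n ^ 2 - 2 * n * (η * n + C * r ^ 2) ≤ s ^ 2 := by
  have hw : 0 ≤ η * n + C * r ^ 2 := by
    have := mul_nonneg p.η0 p.n0
    have : 0 ≤ C * r ^ 2 := by positivity
    linarith
  have hf := p.flux
  have hn0 := p.n0
  have hs0 := p.s0
  by_cases hc : η * n + C * r ^ 2 ≤ n
  · have h1 : 0 ≤ n - (η * n + C * r ^ 2) := by linarith
    have h2 : n - (η * n + C * r ^ 2) ≤ s := by linarith
    have h3 : (n - (η * n + C * r ^ 2)) ^ 2 ≤ s ^ 2 := pow_le_pow_left₀ h1 h2 2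
    nlinarith [sq_nonneg (η * n + C * r ^ 2)]
  · rw [not_le] at hc
    nlinarith [sq_nonneg s]

/-- `moderate-frequency`, case `q_* ≥ 256 P^2`: the radial term absorbs everything -/
theorem mod_big (p : OdePt C mm P n s η r g v h) (hC : 1 ≤ C) (hPC : 600 * C ≤ P)
    (hηηP : η + η * P ≤ 1 / 512) (hcase : 16 * P ≤ s) : 0 ≤ v - P * h := by
  have hC0 : 0 ≤ C := by linarith
  have hP0 : 0 ≤ P := by linarith
  have hη0 := p.η0
  have hη2 : η ≤ 1 / 2 := by nlinarith [mul_nonneg hη0 hP0]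
  have hn0 := p.n0
  have hs0 := p.s0
  have hpd := p.pd_ge hP0
  refine le_trans ?_ hpd
  have hn := p.n_le' hC hη2
  have he := p.err_le' hC
  have hsC : 9600 * C ≤ s := by linarith
  have h1 : 9600 * (C * s) ≤ s ^ 2 := by nlinarith
  have h2 : 9600 * 9600 * C ^ 2 ≤ s ^ 2 := by nlinarith
  have hCC : C ≤ C ^ 2 := by nlinarith
  have h3 : C * n ≤ C * (2 * s + 2 * C) := mul_le_mul_of_nonneg_left hn hC0
  have h4 : P * n ≤ P * (2 * s + 2 * C) := mul_le_mul_of_nonneg_left hn hP0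
  have h5 : 16 * (P * s) ≤ s ^ 2 := by nlinarith
  have h6 : 16 * (P * C) ≤ C * s := by nlinarith
  have h7 : (η + η * P) * (n + s ^ 2) ≤ 1 / 512 * (n + s ^ 2) :=
    mul_le_mul_of_nonneg_right hηηP (by positivity)
  have h8 : C * r * P ≤ C * 1 * P :=
    mul_le_mul_of_nonneg_right (mul_le_mul_of_nonneg_left p.r1 hC0) hP0
  have h9 : 1 * s ≤ C * s := mul_le_mul_of_nonneg_right hC hs0
  linarith

/-- the defect in the signed inequality -/
def eps (C n s η r g : ℝ) : ℝ := C * g * (n + 1) + C * r ^ 2 + η * s ^ 2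

theorem eps_nonneg (p : OdePt C mm P n s η r g v h) (hC : 1 ≤ C) (hg0 : 0 ≤ g) : 0 ≤ eps C n s η r g := by
  unfold eps
  have hC0 : 0 ≤ C := by linarith
  have h1 : 0 ≤ C * g * (n + 1) := mul_nonneg (mul_nonneg hC0 hg0) (by linarith [p.n0])
  have h2 : 0 ≤ C * r ^ 2 := by positivity
  have h3 : 0 ≤ η * s ^ 2 := mul_nonneg p.η0 (by positivity)
  linarith

theorem eps_le (p : OdePt C mm P n s η r g v h) (hC : 1 ≤ C) (hP1 : 1 ≤ P) (hg0 : 0 ≤ g) (hηP : η * P ≤ g)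
    (hnP : n ≤ 34 * P) (hs2 : s ^ 2 ≤ 256 * P ^ 2) :
    eps C n s η r g ≤ 35 * (C * g * P) + C * r + 256 * (g * P) := by
  unfold eps
  have hC0 : 0 ≤ C := by linarith
  have hP0 : 0 ≤ P := by linarith
  have hηs : η * s ^ 2 ≤ 256 * (g * P) := by
    have h1 : η * s ^ 2 ≤ η * (256 * P ^ 2) := mul_le_mul_of_nonneg_left hs2 p.η0
    have h2 : η * P * P ≤ g * P := mul_le_mul_of_nonneg_right hηP hP0
    nlinarith
  have hCgn : C * g * (n + 1) ≤ C * g * (35 * P) :=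
    mul_le_mul_of_nonneg_left (by linarith) (mul_nonneg hC0 hg0)
  have hCr : C * r ^ 2 ≤ C * r := mul_le_mul_of_nonneg_left p.r_sq_le hC0
  linarith

/-- principal factorisation `(n_*-1)(n_*-2P) ≥ - 2 P ε` -/
theorem ode_fac {P n ε : ℝ} (hP1 : 1 ≤ P) (hε0 : 0 ≤ ε) (hεP : ε ≤ P) (hnε : 2 * P - ε ≤ n) :
    -(2 * P * ε) ≤ (n - 1) * (n - 2 * P) := by
  by_cases hc2 : 2 * P ≤ n
  · have h1 : 0 ≤ (n - 1) * (n - 2 * P) := mul_nonneg (by linarith) (by linarith)
    have h2 : 0 ≤ 2 * P * ε := by positivity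
    linarith
  · rw [not_le] at hc2
    have h1 : (n - 1) * (2 * P - n) ≤ (2 * P) * ε :=
      mul_le_mul (by linarith) (by linarith) (by linarith) (by linarith)
    linarith

theorem mod_e2 (p : OdePt C mm P n s η r g v h) (hC : 1 ≤ C) (hg0 : 0 ≤ g) (hηg : η ≤ g)
    (hnP : n ≤ 34 * P) :
    2 * n * (η * n + C * r ^ 2) ≤ 2312 * (g * P ^ 2) + 68 * (C * (r * P)) := by
  have hC0 : 0 ≤ C := by linarith
  have hn0 := p.n0
  have hr0 := p.r0
  have hCr : C * r ^ 2 ≤ C * r := mul_le_mul_of_nonneg_left p.r_sq_le hC0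
  have h1 : n ^ 2 ≤ (34 * P) ^ 2 := pow_le_pow_left₀ hn0 hnP 2
  have h2 : η * n ^ 2 ≤ g * (34 * P) ^ 2 := mul_le_mul hηg h1 (by positivity) hg0
  have h3 : C * r ^ 2 * n ≤ C * r * (34 * P) := mul_le_mul hCr hnP hn0 (by positivity)
  linarith

theorem mod_e3 (p : OdePt C mm P n s η r g v h) (hC : 1 ≤ C) (hP1 : 1 ≤ P)
    (hnP : n ≤ 34 * P) (hs : s ≤ 16 * P) :
    C * (r * s + r ^ 2 * (1 + n)) ≤ 51 * (C * (r * P)) := by
  refine (p.err_le hC).trans ?_
  have hr0 := p.r0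
  have : C * r * (s + 1 + n) ≤ C * r * (51 * P) :=
    mul_le_mul_of_nonneg_left (by linarith) (by positivity)
  linarith

theorem mod_e4 (p : OdePt C mm P n s η r g v h) (hP1 : 1 ≤ P) (hηP : η * P ≤ g)
    (hnP : n ≤ 34 * P) (hs2 : s ^ 2 ≤ 256 * P ^ 2) :
    (η + η * P) * (n + s ^ 2) ≤ 580 * (g * P ^ 2) := by
  have hη0 := p.η0
  have hn0 := p.n0
  have hP0 : 0 ≤ P := by linarith
  have h1 : n + s ^ 2 ≤ 290 * P ^ 2 := by nlinarith
  have h2 : η + η * P ≤ 2 * (η * P) := by nlinarith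
  have h3 : (η + η * P) * (n + s ^ 2) ≤ (2 * (η * P)) * (290 * P ^ 2) :=
    mul_le_mul h2 h1 (by positivity) (by positivity)
  have h4 : η * P * P ^ 2 ≤ g * P ^ 2 := mul_le_mul_of_nonneg_right hηP (by positivity)
  linarith

/-- `moderate-frequency`, case `q_* < 256 P^2` -/
theorem mod_small (p : OdePt C mm P n s η r g v h) (hC : 1 ≤ C) (hPC : 600 * C ≤ P)
    (hg0 : 0 ≤ g) (hηg : η ≤ g) (hηP : η * P ≤ g) (hg1 : 140 * C * g ≤ 1) (hg2 : 1024 * g ≤ 1)
    (hcase : s < 16 * P) : -(3474 * C) * (r * P + g * P ^ 2) ≤ v - P * h := by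
  have hC0 : 0 ≤ C := by linarith
  have hP1 : 1 ≤ P := by linarith
  have hP0 : 0 ≤ P := by linarith
  have hη2 : η ≤ 1 / 2 := by linarith
  have hs0 := p.s0
  have hr0 := p.r0
  have hpd := p.pd_ge hP0
  have hn := p.n_le' hC hη2
  have hnP : n ≤ 34 * P := by linarith
  have hs2 : s ^ 2 ≤ 256 * P ^ 2 := by nlinarith
  have hq := p.q_ge_n_sq hC
  have hε0 := p.eps_nonneg hC hg0
  have hεle := p.eps_le hC hP1 hg0 hηP hnP hs2
  have hnε : 2 * P - eps C n s η r g ≤ n := by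
    have := p.signed
    unfold eps
    linarith
  have hεP : eps C n s η r g ≤ P := by
    have h1 : 140 * C * g * P ≤ 1 * P := mul_le_mul_of_nonneg_right hg1 hP0
    have h2 : 1024 * g * P ≤ 1 * P := mul_le_mul_of_nonneg_right hg2 hP0
    have h3 : C * r ≤ C * 1 := mul_le_mul_of_nonneg_left p.r1 hC0
    linarith
  have hfac := ode_fac hP1 hε0 hεP hnε
  have e1 : 2 * P * eps C n s η r g ≤ 2 * P * (35 * (C * g * P) + C * r + 256 * (g * P)) :=
    mul_le_mul_of_nonneg_left hεle (by linarith)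
  have e2 := p.mod_e2 hC hg0 hηg hnP
  have e3 := p.mod_e3 hC hP1 hnP hcase.le
  have e4 := p.mod_e4 hP1 hηP hnP hs2
  have hb0 : 0 ≤ g * P ^ 2 := by positivity
  have hCb : 1 * (g * P ^ 2) ≤ C * (g * P ^ 2) := mul_le_mul_of_nonneg_right hC hb0
  have hCa0 : 0 ≤ C * (r * P) := by positivity
  refine le_trans ?_ hpd
  have hid : 2 * P - n + n ^ 2 - 2 * P * n = (n - 1) * (n - 2 * P) := by ring
  generalize eps C n s η r g = ε at *
  linarith

/-- **(4.x) `moderate-frequency`**: for `K ≤ P` with `η P ≤ g` (which follows from `P ≤ T^4`, `η T^{24} ≤ 1`):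
`\dot P ≥ - 3474 C (r P + g P^2)`. -/
theorem mod (p : OdePt C mm P n s η r g v h) (hC : 1 ≤ C) {K : ℝ} (hK : 600 * C ^ 2 ≤ K) (hP : K ≤ P)
    (hg0 : 0 ≤ g) (hηg : η ≤ g) (hηP : η * P ≤ g) (hg1 : 140 * C * g ≤ 1) (hg2 : 1024 * g ≤ 1) :
    -(3474 * C) * (r * P + g * P ^ 2) ≤ v - P * h := by
  have hPC : 600 * C ≤ P := by nlinarith
  by_cases hcase : 16 * P ≤ s
  · have h1 := p.mod_big hC hPC (by linarith) hcase
    have hr0 := p.r0
    have : 0 ≤ (3474 * C) * (r * P + g * P ^ 2) := by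
      have hP0 : 0 ≤ P := by linarith
      positivity
    linarith
  · exact p.mod_small hC hPC hg0 hηg hηP hg1 hg2 (not_le.1 hcase)

/-- the constant of the doubling estimate -/
noncomputable def dblC (C mm C₀ : ℝ) : ℝ :=
  (5 / 2 + 4 * C₀ + 3 * C) ^ 2 + 2 * C * (5 / 4 + 2 * C₀ + C) + C + C * C₀ + 2 * C₀ + mm * C₀

/-- **Bounded frequency**: `\dot P ≥ q_*/2 - C_2` and `\dot H/H ≤ q_* + 7 + 6 C`. -/
theorem dbl (p : OdePt C mm P n s η r g v h) (hC : 1 ≤ C) (hm : 0 ≤ mm) {C₀ : ℝ} (hP : |P| ≤ C₀)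
    (hη : η * (1 + C₀) ≤ 1 / 4) :
    s ^ 2 / 2 - dblC C mm C₀ ≤ v - P * h ∧ h ≤ s ^ 2 + 7 + 6 * C := by
  have hC0 : 0 ≤ C := by linarith
  have hC₀ : 0 ≤ C₀ := le_trans (abs_nonneg P) hP
  have hη0 := p.η0
  have hη4 : η ≤ 1 / 4 := by nlinarith
  have hn0 := p.n0
  have hs0 := p.s0
  have hn := p.n_le' hC (by linarith)
  have he := p.err_le' hC
  have hPl := (abs_le.1 hP).1
  have hPu := (abs_le.1 hP).2
  have hηq : η * (n + s ^ 2) ≤ 1 / 4 * (n + s ^ 2) := mul_le_mul_of_nonneg_right hη4 (by positivity)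
  have hCn : C * n ≤ C * (2 * s + 2 * C) := mul_le_mul_of_nonneg_left hn hC0
  constructor
  · unfold dblC
    set a₁ := 5 / 4 + 2 * C₀ + C with ha₁
    have ha₁0 : 0 ≤ a₁ := by rw [ha₁]; linarith
    have hsq : s * (2 * a₁ + C) ≤ s ^ 2 / 4 + (2 * a₁ + C) ^ 2 := by
      nlinarith [sq_nonneg (s / 2 - (2 * a₁ + C))]
    have h52 : (5 / 2 + 4 * C₀ + 3 * C) = 2 * a₁ + C := by rw [ha₁]; ring
    rw [h52]
    have hna : n * a₁ ≤ (2 * s + 2 * C) * a₁ := mul_le_mul_of_nonneg_right hn ha₁0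
    have hmC : 0 ≤ mm * C₀ := mul_nonneg hm hC₀
    have hCC₀ : 0 ≤ C * C₀ := mul_nonneg hC0 hC₀
    by_cases hP0 : 0 ≤ P
    · have hpd := p.pd_ge hP0
      refine le_trans ?_ hpd
      have h1 : (η + η * P) * (n + s ^ 2) ≤ 1 / 4 * (n + s ^ 2) := by
        refine mul_le_mul_of_nonneg_right ?_ (by positivity)
        have : η * P ≤ η * C₀ := mul_le_mul_of_nonneg_left hPu hη0
        linarith
      have h2 : P * n ≤ C₀ * n := mul_le_mul_of_nonneg_right hPu hn0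
      have h3 : C * r * P ≤ C * 1 * C₀ :=
        mul_le_mul (mul_le_mul_of_nonneg_left p.r1 hC0) hPu hP0 (by linarith)
      have h4 : n * a₁ = 5 / 4 * n + 2 * (C₀ * n) + C * n := by rw [ha₁]; ring
      nlinarith
    · rw [not_le] at hP0
      have hv := p.v_ge
      have h1 : (-P) * (-mm) ≤ (-P) * h := mul_le_mul_of_nonneg_left p.ht_lo (by linarith)
      have h2 : (-P) * mm ≤ C₀ * mm := mul_le_mul_of_nonneg_right (by linarith) hm
      have h4 : n * a₁ = 5 / 4 * n + 2 * (C₀ * n) + C * n := by rw [ha₁]; ring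
      have h5 : 0 ≤ C₀ * n := mul_nonneg hC₀ hn0
      nlinarith
  · have h1 := p.ht_hi
    have h2 : C * r ≤ C * 1 := mul_le_mul_of_nonneg_left p.r1 hC0
    nlinarith [sq_nonneg (s - 3)]

end OdePt

end Claimed.Agent.R322.Freq
end
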