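/- Packed by merge_tool.py (helper293): 3 modules of Claimed.Agent.R322 in one file, same declarations.
   Old modules, in this order: Base.JacExp, Sx.Sep.CellsPou, Sx.Sep.Cells -/
import Claimed.Agent.R322.Basic
import Mathlib
import Claimed.Agent.R322.Sx.Sep.GaussK

/- ===== packed: Claimed.Agent.R322.Base.JacExp ===== -/
section
/-!
# Row 322, Base: expansion of the tangential Jacobian

`tanJac P (1 + t A) = 1 + t tdiv P A + O(t²)`, uniformly for orthogonal projections `P` and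
`‖A‖ ≤ a`; continuity of `tanJac` and `tdiv`; the bound `|tdiv P A| ≤ C ‖A‖`.
-/

set_option autoImplicit false

open scoped ENNReal ContDiff Topology
open MeasureTheory

namespace Claimed.Agent.R322.Base

/-- second order Taylor bound for a `C²` map. -/
theorem second_order_bound {F G : Type*} [NormedAddCommGroup F] [NormedSpace ℝ F]
    [NormedAddCommGroup G] [NormedSpace ℝ G] {f : F → G} {x : F} (hf : ContDiffAt ℝ 2 f x) :
    ∃ δ : ℝ, 0 < δ ∧ ∃ K : ℝ, 0 ≤ K ∧ ∀ y : F, ‖y - x‖ ≤ δ →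
      ‖f y - f x - fderiv ℝ f x (y - x)‖ ≤ K * ‖y - x‖ ^ 2 := by
  have h1 : ContDiffAt ℝ 1 (fderiv ℝ f) x := hf.fderiv_right (by norm_num)
  obtain ⟨K, t, ht, hK⟩ := h1.exists_lipschitzOnWith
  have h2 : ∀ᶠ y in 𝓝 x, DifferentiableAt ℝ f y :=
    (hf.eventually (by simp)).mono fun y hy => hy.differentiableAt (by norm_num)
  obtain ⟨δ, hδ, hball⟩ := Metric.nhds_basis_closedBall.mem_iff.1 (Filter.inter_mem ht h2)
  refine ⟨δ, hδ, K, K.2, fun y hy => ?_⟩
  have hsub : Metric.closedBall x ‖y - x‖ ⊆ Metric.closedBall x δ :=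
    Metric.closedBall_subset_closedBall hy
  have hx : x ∈ Metric.closedBall x ‖y - x‖ := Metric.mem_closedBall_self (norm_nonneg _)
  have hy' : y ∈ Metric.closedBall x ‖y - x‖ := by simp [dist_eq_norm]
  have := (convex_closedBall x ‖y - x‖).norm_image_sub_le_of_norm_hasFDerivWithin_le'
    (f := f) (f' := fderiv ℝ f) (φ := fderiv ℝ f x) (C := K * ‖y - x‖)
    (fun z hz => ((hball (hsub hz)).2 : DifferentiableAt ℝ f z).hasFDerivAt.hasFDerivWithinAt)
    (fun z hz => by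
      have h3 := hK.dist_le_mul z (hball (hsub hz)).1 x (hball (hsub hx)).1
      rw [dist_eq_norm] at h3
      refine h3.trans ?_
      exact mul_le_mul_of_nonneg_left (by simpa using hz) K.2) hx hy'
  calc _ ≤ _ := this
    _ = _ := by ring

/-- matrix entries of an operator in the standard basis. -/
theorem toMatrix_basisFun_apply (N : ℕ) (B : E N →L[ℝ] E N) (i j : Fin N) :
    LinearMap.toMatrix (EuclideanSpace.basisFun (Fin N) ℝ).toBasis
      (EuclideanSpace.basisFun (Fin N) ℝ).toBasis (B : E N →ₗ[ℝ] E N) i j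
      = B (EuclideanSpace.single j 1) i := by
  simp [LinearMap.toMatrix_apply]

theorem contDiff_entry (N : ℕ) (i j : Fin N) :
    ContDiff ℝ ∞ (fun B : E N →L[ℝ] E N => B (EuclideanSpace.single j 1) i) := by
  have h1 : ContDiff ℝ ∞ (fun B : E N →L[ℝ] E N => B (EuclideanSpace.single j 1)) :=
    contDiff_id.clm_apply contDiff_const
  exact (EuclideanSpace.proj (𝕜 := ℝ) (ι := Fin N) i).contDiff.comp h1

theorem contDiff_det (N : ℕ) :
    ContDiff ℝ ∞ (fun B : E N →L[ℝ] E N => LinearMap.det (B : E N →ₗ[ℝ] E N)) := by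
  have h : (fun B : E N →L[ℝ] E N => LinearMap.det (B : E N →ₗ[ℝ] E N))
      = fun B : E N →L[ℝ] E N => ∑ σ : Equiv.Perm (Fin N),
        (Equiv.Perm.sign σ : ℤ) • ∏ i, B (EuclideanSpace.single i 1) (σ i) := by
    funext B
    rw [← LinearMap.det_toMatrix (EuclideanSpace.basisFun (Fin N) ℝ).toBasis, Matrix.det_apply]
    simp only [toMatrix_basisFun_apply]
    rfl
  rw [h]
  refine ContDiff.sum fun σ _ => ?_
  refine ContDiff.const_smul _ ?_
  exact contDiff_prod fun i _ => contDiff_entry N (σ i) i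

theorem trace_eq_sum_entries (N : ℕ) (B : E N →L[ℝ] E N) :
    LinearMap.trace ℝ (E N) (B : E N →ₗ[ℝ] E N) = ∑ i, B (EuclideanSpace.single i 1) i := by
  rw [LinearMap.trace_eq_matrix_trace ℝ (EuclideanSpace.basisFun (Fin N) ℝ).toBasis, Matrix.trace]
  simp only [Matrix.diag_apply, toMatrix_basisFun_apply]

theorem continuous_trace (N : ℕ) :
    Continuous (fun B : E N →L[ℝ] E N => LinearMap.trace ℝ (E N) (B : E N →ₗ[ℝ] E N)) := by
  simp only [trace_eq_sum_entries]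
  exact continuous_finsetSum _ fun i _ => (contDiff_entry N i i).continuous

theorem exists_trace_bound (N : ℕ) : ∃ C : ℝ, 0 ≤ C ∧ ∀ B : E N →L[ℝ] E N,
    |LinearMap.trace ℝ (E N) (B : E N →ₗ[ℝ] E N)| ≤ C * ‖B‖ := by
  refine ⟨N, Nat.cast_nonneg _, fun B => ?_⟩
  rw [trace_eq_sum_entries]
  calc |∑ i, B (EuclideanSpace.single i 1) i| ≤ ∑ i : Fin N, |B (EuclideanSpace.single i 1) i| :=
        Finset.abs_sum_le_sum_abs _ _
    _ ≤ ∑ i : Fin N, ‖B‖ := by
        refine Finset.sum_le_sum fun i _ => ?_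
        have h1 : |B (EuclideanSpace.single i 1) i| ≤ ‖B (EuclideanSpace.single i 1)‖ := by
          simpa using PiLp.norm_apply_le (B (EuclideanSpace.single i 1)) i
        have h2 : ‖B (EuclideanSpace.single i 1)‖ ≤ ‖B‖ * ‖(EuclideanSpace.single i 1 : E N)‖ :=
          B.le_opNorm _
        simp at h2
        exact h1.trans h2
    _ = N * ‖B‖ := by simp

theorem hasDerivAt_det_one_add_smul (N : ℕ) (B : E N →L[ℝ] E N) :
    HasDerivAt (fun t : ℝ => LinearMap.det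
      ((ContinuousLinearMap.id ℝ (E N) + t • B : E N →L[ℝ] E N) : E N →ₗ[ℝ] E N))
      (LinearMap.trace ℝ (E N) (B : E N →ₗ[ℝ] E N)) 0 := by
  set b := (EuclideanSpace.basisFun (Fin N) ℝ).toBasis with hb
  set Mx := LinearMap.toMatrix b b (B : E N →ₗ[ℝ] E N) with hMx
  have h1 : ∀ t : ℝ, LinearMap.det
      ((ContinuousLinearMap.id ℝ (E N) + t • B : E N →L[ℝ] E N) : E N →ₗ[ℝ] E N)
      = 1 + Matrix.trace Mx * t
        + (Matrix.det (1 + (Polynomial.X : Polynomial ℝ) • Mx.map Polynomial.C)).divX.divX.eval t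
          * t ^ 2 := by
    intro t
    rw [← Matrix.det_one_add_smul, ← LinearMap.det_toMatrix b]
    congr 1
    have : ((ContinuousLinearMap.id ℝ (E N) + t • B : E N →L[ℝ] E N) : E N →ₗ[ℝ] E N)
        = LinearMap.id + t • (B : E N →ₗ[ℝ] E N) := rfl
    rw [this, map_add, map_smul, LinearMap.toMatrix_id]
  have h2 : LinearMap.trace ℝ (E N) (B : E N →ₗ[ℝ] E N) = Matrix.trace Mx :=
    LinearMap.trace_eq_matrix_trace ℝ b _
  simp only [h1, h2]
  set p := (Matrix.det (1 + (Polynomial.X : Polynomial ℝ) • Mx.map Polynomial.C)).divX.divX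
  have h3 : HasDerivAt (fun t : ℝ => 1 + Matrix.trace Mx * t + p.eval t * t ^ 2)
      (Matrix.trace Mx * 1 + ((Polynomial.derivative p).eval 0 * 0 ^ 2
        + p.eval 0 * ((2 : ℕ) * 0 ^ (2 - 1) * 1))) 0 :=
    (((hasDerivAt_id (0 : ℝ)).const_mul (Matrix.trace Mx)).const_add 1).add
      ((p.hasDerivAt 0).mul ((hasDerivAt_id (0 : ℝ)).pow 2))
  convert h3 using 1
  simp

theorem fderiv_det_one (N : ℕ) (B : E N →L[ℝ] E N) :
    fderiv ℝ (fun B : E N →L[ℝ] E N => LinearMap.det (B : E N →ₗ[ℝ] E N))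
      (ContinuousLinearMap.id ℝ (E N)) B = LinearMap.trace ℝ (E N) (B : E N →ₗ[ℝ] E N) := by
  have hd : DifferentiableAt ℝ (fun B : E N →L[ℝ] E N => LinearMap.det (B : E N →ₗ[ℝ] E N))
      (ContinuousLinearMap.id ℝ (E N) + (0 : ℝ) • B) :=
    (contDiff_det N).differentiable (by simp) _
  have hγ : HasDerivAt (fun t : ℝ => ContinuousLinearMap.id ℝ (E N) + t • B) B 0 := by
    have := ((hasDerivAt_id (0 : ℝ)).smul_const B).const_add (ContinuousLinearMap.id ℝ (E N))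
    simpa using this
  have h1 := hd.hasFDerivAt.comp_hasDerivAt (0 : ℝ) hγ
  have h2 := h1.unique (hasDerivAt_det_one_add_smul N B)
  have e : ContinuousLinearMap.id ℝ (E N) + (0 : ℝ) • B = ContinuousLinearMap.id ℝ (E N) := by
    rw [show (0 : ℝ) • B = 0 from zero_smul ℝ B, add_zero]
  rwa [e] at h2

/-- `det (1 + B) = 1 + tr B + O(‖B‖²)`. -/
theorem det_one_add_bound (N : ℕ) : ∃ δ : ℝ, 0 < δ ∧ ∃ K : ℝ, 0 ≤ K ∧ ∀ B : E N →L[ℝ] E N,
    ‖B‖ ≤ δ →
    |LinearMap.det ((ContinuousLinearMap.id ℝ (E N) + B : E N →L[ℝ] E N) : E N →ₗ[ℝ] E N)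
      - 1 - LinearMap.trace ℝ (E N) (B : E N →ₗ[ℝ] E N)| ≤ K * ‖B‖ ^ 2 := by
  have hc : ContDiffAt ℝ 2 (fun B : E N →L[ℝ] E N => LinearMap.det (B : E N →ₗ[ℝ] E N))
      (ContinuousLinearMap.id ℝ (E N)) := ((contDiff_det N).of_le (WithTop.coe_le_coe.2 le_top)).contDiffAt
  obtain ⟨δ, hδ, K, hK, h⟩ := second_order_bound hc
  refine ⟨δ, hδ, K, hK, fun B hB => ?_⟩
  have h1 := h (ContinuousLinearMap.id ℝ (E N) + B) (by simpa using hB)
  rw [add_sub_cancel_left, fderiv_det_one, Real.norm_eq_abs] at h1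
  have h2 : LinearMap.det ((ContinuousLinearMap.id ℝ (E N) : E N →L[ℝ] E N) : E N →ₗ[ℝ] E N) = 1 :=
    LinearMap.det_id
  rwa [h2] at h1

/-- `|sqrt (1+u) - 1 - u/2| ≤ u²/2` for `u ≥ -1`. -/
theorem abs_sqrt_one_add_sub_le {u : ℝ} (hu : -1 ≤ u) :
    |Real.sqrt (1 + u) - 1 - u / 2| ≤ u ^ 2 / 2 := by
  set s := Real.sqrt (1 + u) with hs
  have hs0 : 0 ≤ s := Real.sqrt_nonneg _
  have hs2 : s ^ 2 = 1 + u := Real.sq_sqrt (by linarith)
  have hu' : u = s ^ 2 - 1 := by linarith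
  have e : s - 1 - u / 2 = -((s - 1) ^ 2 / 2) := by rw [hu']; ring
  rw [e, abs_neg, abs_of_nonneg (by positivity)]
  have : (s - 1) ^ 2 ≤ u ^ 2 := by
    have e2 : u ^ 2 = (s - 1) ^ 2 * (s + 1) ^ 2 := by rw [hu']; ring
    rw [e2]
    have : 1 ≤ (s + 1) ^ 2 := by nlinarith
    nlinarith [sq_nonneg (s - 1)]
  linarith

/-- `sqrt det (1 + B) = 1 + tr B / 2 + O(‖B‖²)`. -/
theorem sqrt_det_one_add_bound (N : ℕ) : ∃ δ : ℝ, 0 < δ ∧ ∃ K : ℝ, 0 ≤ K ∧
    ∀ B : E N →L[ℝ] E N, ‖B‖ ≤ δ →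
    |Real.sqrt (LinearMap.det
        ((ContinuousLinearMap.id ℝ (E N) + B : E N →L[ℝ] E N) : E N →ₗ[ℝ] E N))
      - 1 - LinearMap.trace ℝ (E N) (B : E N →ₗ[ℝ] E N) / 2| ≤ K * ‖B‖ ^ 2 := by
  obtain ⟨δ, hδ, K, hK, h⟩ := det_one_add_bound N
  obtain ⟨C, hC, hT⟩ := exists_trace_bound N
  -- on `‖B‖ ≤ min δ 1 ...` we have `|u| ≤ (C + K) ‖B‖`
  refine ⟨min (min δ 1) (1 / (C + K + 1)), by positivity, (C + K) ^ 2 / 2 + K / 2, by positivity,
    fun B hB => ?_⟩
  have hB1 : ‖B‖ ≤ δ := hB.trans ((min_le_left _ _).trans (min_le_left _ _))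
  have hB2 : ‖B‖ ≤ 1 := hB.trans ((min_le_left _ _).trans (min_le_right _ _))
  have hB3 : ‖B‖ ≤ 1 / (C + K + 1) := hB.trans (min_le_right _ _)
  have hB0 : 0 ≤ ‖B‖ := norm_nonneg _
  set d := LinearMap.det
        ((ContinuousLinearMap.id ℝ (E N) + B : E N →L[ℝ] E N) : E N →ₗ[ℝ] E N) with hd
  set τ := LinearMap.trace ℝ (E N) (B : E N →ₗ[ℝ] E N) with hτ
  have h1 : |d - 1 - τ| ≤ K * ‖B‖ ^ 2 := h B hB1
  have h2 : |τ| ≤ C * ‖B‖ := hT B
  have hsq : ‖B‖ ^ 2 ≤ ‖B‖ := by nlinarith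
  have h3 : |d - 1| ≤ (C + K) * ‖B‖ := by
    have : |d - 1| ≤ |d - 1 - τ| + |τ| := by
      have := abs_add_le (d - 1 - τ) τ
      simpa using this
    nlinarith
  have h4 : (C + K) * ‖B‖ ≤ 1 := by
    rw [le_div_iff₀ (by positivity)] at hB3
    nlinarith
  have h5 : -1 ≤ d - 1 := by
    have := (abs_le.1 (h3.trans h4)).1
    linarith
  have h6 := abs_sqrt_one_add_sub_le h5
  rw [show 1 + (d - 1) = d by ring] at h6
  have h7 : (d - 1) ^ 2 ≤ ((C + K) * ‖B‖) ^ 2 := by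
    rw [← sq_abs (d - 1)]
    exact pow_le_pow_left₀ (abs_nonneg _) h3 2
  have e : Real.sqrt d - 1 - τ / 2 = (Real.sqrt d - 1 - (d - 1) / 2) + (d - 1 - τ) / 2 := by ring
  rw [e]
  calc |(Real.sqrt d - 1 - (d - 1) / 2) + (d - 1 - τ) / 2|
      ≤ |Real.sqrt d - 1 - (d - 1) / 2| + |(d - 1 - τ) / 2| := abs_add_le _ _
    _ ≤ (d - 1) ^ 2 / 2 + K * ‖B‖ ^ 2 / 2 := by
        rw [abs_div, abs_of_pos (by norm_num : (0 : ℝ) < 2)]
        gcongr
    _ ≤ ((C + K) ^ 2 / 2 + K / 2) * ‖B‖ ^ 2 := by nlinarith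

theorem isProj_apply_apply {m N : ℕ} {P : E N →L[ℝ] E N} (hP : IsProj m P) (x : E N) :
    P (P x) = P x := by
  have := congrArg (fun T : E N →L[ℝ] E N => T x) hP.idem
  simpa using this

/-- an orthogonal projection has norm at most one. -/
theorem isProj_norm_le_one {m N : ℕ} {P : E N →L[ℝ] E N} (hP : IsProj m P) : ‖P‖ ≤ 1 := by
  refine P.opNorm_le_bound zero_le_one fun x => ?_
  rw [one_mul]
  have h1 : ‖P x‖ ^ 2 ≤ ‖x‖ * ‖P x‖ := by
    have h2 : ‖P x‖ ^ 2 = inner ℝ x (P x) := by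
      rw [← real_inner_self_eq_norm_sq, hP.symm, isProj_apply_apply hP]
    rw [h2]
    exact real_inner_le_norm _ _
  by_cases h0 : ‖P x‖ = 0
  · rw [h0]; exact norm_nonneg _
  · have hpos : 0 < ‖P x‖ := lt_of_le_of_ne (norm_nonneg _) (Ne.symm h0)
    nlinarith

/-- an orthogonal projection is self-adjoint. -/
theorem isProj_adjoint_eq {m N : ℕ} {P : E N →L[ℝ] E N} (hP : IsProj m P) :
    ContinuousLinearMap.adjoint P = P := by
  symm
  rw [ContinuousLinearMap.eq_adjoint_iff]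
  exact hP.symm

/-- the operator under the determinant in `tanJac P (1 + t A)`. -/
theorem tanJac_arg_eq {m N : ℕ} {P : E N →L[ℝ] E N} (hP : IsProj m P) (A : E N →L[ℝ] E N)
    (t : ℝ) :
    (P ∘L (ContinuousLinearMap.adjoint (ContinuousLinearMap.id ℝ (E N) + t • A)) ∘L
        (ContinuousLinearMap.id ℝ (E N) + t • A) ∘L P + (ContinuousLinearMap.id ℝ (E N) - P))
      = ContinuousLinearMap.id ℝ (E N) +
        (t • (P ∘L (ContinuousLinearMap.adjoint A + A) ∘L P)
          + t ^ 2 • (P ∘L ContinuousLinearMap.adjoint A ∘L A ∘L P)) := by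
  have h1 : ContinuousLinearMap.adjoint (ContinuousLinearMap.id ℝ (E N) + t • A)
      = ContinuousLinearMap.id ℝ (E N) + t • ContinuousLinearMap.adjoint A := by
    rw [map_add, ContinuousLinearMap.adjoint_id]
    congr 1
    exact (ContinuousLinearMap.adjoint (𝕜 := ℝ) (E := E N) (F := E N)).map_smulₛₗ t A
  rw [h1]
  ext1 x
  simp only [_root_.add_apply, ContinuousLinearMap.comp_apply,
    ContinuousLinearMap.id_apply, _root_.smul_apply, _root_.sub_apply,
    map_add, map_smul, isProj_apply_apply hP, smul_add, smul_smul]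
  rw [pow_two]
  abel

/-- `tr (P (Aᵀ + A) P) = 2 tr (P A)`. -/
theorem trace_sym_part {m N : ℕ} {P : E N →L[ℝ] E N} (hP : IsProj m P) (A : E N →L[ℝ] E N) :
    LinearMap.trace ℝ (E N)
      ((P ∘L (ContinuousLinearMap.adjoint A + A) ∘L P : E N →L[ℝ] E N) : E N →ₗ[ℝ] E N)
      = 2 * tdiv P A := by
  have hc : ∀ S T : E N →L[ℝ] E N, LinearMap.trace ℝ (E N) ((S ∘L T : E N →L[ℝ] E N) : E N →ₗ[ℝ] E N)
      = LinearMap.trace ℝ (E N) ((T ∘L S : E N →L[ℝ] E N) : E N →ₗ[ℝ] E N) := by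
    intro S T
    exact LinearMap.trace_mul_comm ℝ (S : E N →ₗ[ℝ] E N) (T : E N →ₗ[ℝ] E N)
  rw [hc]
  have e1 : ((ContinuousLinearMap.adjoint A + A) ∘L P) ∘L P
      = ContinuousLinearMap.adjoint A ∘L P + A ∘L P := by
    ext1 x
    simp [isProj_apply_apply hP]
  rw [e1]
  have e2 : ((ContinuousLinearMap.adjoint A ∘L P + A ∘L P : E N →L[ℝ] E N) : E N →ₗ[ℝ] E N)
      = ((ContinuousLinearMap.adjoint A ∘L P : E N →L[ℝ] E N) : E N →ₗ[ℝ] E N)
        + ((A ∘L P : E N →L[ℝ] E N) : E N →ₗ[ℝ] E N) := rfl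
  rw [e2, map_add, hc A P]
  have e3 : LinearMap.trace ℝ (E N)
      ((ContinuousLinearMap.adjoint A ∘L P : E N →L[ℝ] E N) : E N →ₗ[ℝ] E N)
      = LinearMap.trace ℝ (E N) ((P ∘L A : E N →L[ℝ] E N) : E N →ₗ[ℝ] E N) := by
    rw [LinearMap.trace_eq_sum_inner _ (EuclideanSpace.basisFun (Fin N) ℝ),
      LinearMap.trace_eq_sum_inner _ (EuclideanSpace.basisFun (Fin N) ℝ)]
    refine Finset.sum_congr rfl fun i _ => ?_
    show inner ℝ _ (ContinuousLinearMap.adjoint A (P _)) = inner ℝ _ (P (A _))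
    rw [ContinuousLinearMap.adjoint_inner_right, ← hP.symm, real_inner_comm]
  rw [e3, tdiv]
  ring

/-- **Expansion of the tangential Jacobian**, uniform in `P` and in `‖A‖ ≤ a`. -/
theorem tanJac_expansion (N : ℕ) (a : ℝ) : ∃ C t₀ : ℝ, 0 ≤ C ∧ 0 < t₀ ∧
    ∀ (m : ℕ) (P A : E N →L[ℝ] E N), IsProj m P → ‖A‖ ≤ a → ∀ t : ℝ, |t| ≤ t₀ →
      |tanJac P (ContinuousLinearMap.id ℝ (E N) + t • A) - 1 - t * tdiv P A| ≤ C * t ^ 2 := by
  obtain ⟨δ, hδ, K, hK, h⟩ := sqrt_det_one_add_bound N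
  obtain ⟨C, hC, hT⟩ := exists_trace_bound N
  set b : ℝ := 2 * |a| + a ^ 2 with hb
  have hb0 : 0 ≤ b := by positivity
  refine ⟨K * b ^ 2 + C * a ^ 2 / 2, min 1 (δ / (b + 1)), by positivity, by positivity,
    fun m P A hP hA t ht => ?_⟩
  have ht1 : |t| ≤ 1 := ht.trans (min_le_left _ _)
  have ht2 : |t| ≤ δ / (b + 1) := ht.trans (min_le_right _ _)
  have hA0 : 0 ≤ ‖A‖ := norm_nonneg _
  have ha : ‖A‖ ≤ |a| := hA.trans (le_abs_self a)
  have hP1 := isProj_norm_le_one hP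
  set S : E N →L[ℝ] E N := P ∘L (ContinuousLinearMap.adjoint A + A) ∘L P with hS
  set R : E N →L[ℝ] E N := P ∘L ContinuousLinearMap.adjoint A ∘L A ∘L P with hR
  have hAd : ‖ContinuousLinearMap.adjoint A‖ = ‖A‖ :=
    (ContinuousLinearMap.adjoint (𝕜 := ℝ) (E := E N) (F := E N)).norm_map A
  have hcomp : ∀ T : E N →L[ℝ] E N, ‖P ∘L T ∘L P‖ ≤ ‖T‖ := by
    intro T
    calc ‖P ∘L T ∘L P‖ ≤ ‖P‖ * ‖T ∘L P‖ := ContinuousLinearMap.opNorm_comp_le _ _
      _ ≤ ‖P‖ * (‖T‖ * ‖P‖) := by gcongr; exact ContinuousLinearMap.opNorm_comp_le _ _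
      _ ≤ 1 * (‖T‖ * 1) := by gcongr
      _ = ‖T‖ := by ring
  have hSn : ‖S‖ ≤ 2 * |a| := by
    refine (hcomp _).trans ?_
    calc ‖ContinuousLinearMap.adjoint A + A‖ ≤ ‖ContinuousLinearMap.adjoint A‖ + ‖A‖ :=
          norm_add_le _ _
      _ ≤ 2 * |a| := by rw [hAd]; linarith
  have hRn : ‖R‖ ≤ a ^ 2 := by
    have : R = P ∘L (ContinuousLinearMap.adjoint A ∘L A) ∘L P := rfl
    rw [this]
    refine (hcomp _).trans ?_
    calc ‖ContinuousLinearMap.adjoint A ∘L A‖ ≤ ‖ContinuousLinearMap.adjoint A‖ * ‖A‖ :=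
          ContinuousLinearMap.opNorm_comp_le _ _
      _ = ‖A‖ ^ 2 := by rw [hAd]; ring
      _ ≤ |a| ^ 2 := pow_le_pow_left₀ hA0 ha 2
      _ = a ^ 2 := sq_abs a
  set B : E N →L[ℝ] E N := t • S + t ^ 2 • R with hB
  have ht0 : 0 ≤ |t| := abs_nonneg t
  have htsq : t ^ 2 ≤ |t| := by
    rw [← sq_abs]; nlinarith
  have hBn : ‖B‖ ≤ |t| * b := by
    calc ‖B‖ ≤ ‖t • S‖ + ‖t ^ 2 • R‖ := norm_add_le _ _
      _ = |t| * ‖S‖ + t ^ 2 * ‖R‖ := by
          rw [norm_smul, norm_smul, Real.norm_eq_abs, Real.norm_eq_abs, abs_of_nonneg (sq_nonneg t)]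
      _ ≤ |t| * (2 * |a|) + |t| * a ^ 2 := by
          have := norm_nonneg R
          gcongr
      _ = |t| * b := by rw [hb]; ring
  have hBδ : ‖B‖ ≤ δ := by
    refine hBn.trans ?_
    rw [le_div_iff₀ (by positivity)] at ht2
    nlinarith
  have hJ : tanJac P (ContinuousLinearMap.id ℝ (E N) + t • A)
      = Real.sqrt (LinearMap.det
        ((ContinuousLinearMap.id ℝ (E N) + B : E N →L[ℝ] E N) : E N →ₗ[ℝ] E N)) := by
    rw [tanJac, tanJac_arg_eq hP]
  have htr : LinearMap.trace ℝ (E N) (B : E N →ₗ[ℝ] E N)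
      = 2 * t * tdiv P A + t ^ 2 * LinearMap.trace ℝ (E N) (R : E N →ₗ[ℝ] E N) := by
    have e : (B : E N →ₗ[ℝ] E N) = t • (S : E N →ₗ[ℝ] E N) + t ^ 2 • (R : E N →ₗ[ℝ] E N) := rfl
    rw [e, map_add, map_smul, map_smul, trace_sym_part hP, smul_eq_mul, smul_eq_mul]
    ring
  have h1 := h B hBδ
  rw [← hJ, htr] at h1
  have h2 := hT R
  set J := tanJac P (ContinuousLinearMap.id ℝ (E N) + t • A)
  set τ := LinearMap.trace ℝ (E N) (R : E N →ₗ[ℝ] E N)
  have e : J - 1 - t * tdiv P A = (J - 1 - (2 * t * tdiv P A + t ^ 2 * τ) / 2) + t ^ 2 * τ / 2 := by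
    ring
  rw [e]
  have h3 : ‖B‖ ^ 2 ≤ b ^ 2 * t ^ 2 := by
    calc ‖B‖ ^ 2 ≤ (|t| * b) ^ 2 := pow_le_pow_left₀ (norm_nonneg _) hBn 2
      _ = b ^ 2 * t ^ 2 := by rw [mul_pow, sq_abs]; ring
  have h4 : |τ| ≤ C * a ^ 2 := h2.trans (by gcongr)
  calc |(J - 1 - (2 * t * tdiv P A + t ^ 2 * τ) / 2) + t ^ 2 * τ / 2|
      ≤ |J - 1 - (2 * t * tdiv P A + t ^ 2 * τ) / 2| + |t ^ 2 * τ / 2| := abs_add_le _ _
    _ ≤ K * (b ^ 2 * t ^ 2) + t ^ 2 * (C * a ^ 2) / 2 := by
        rw [abs_div, abs_mul, abs_of_nonneg (sq_nonneg t), abs_of_pos (by norm_num : (0 : ℝ) < 2)]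
        have := h1.trans (mul_le_mul_of_nonneg_left h3 hK)
        gcongr
    _ = (K * b ^ 2 + C * a ^ 2 / 2) * t ^ 2 := by ring

/-- joint continuity of the tangential Jacobian. -/
theorem continuous_tanJac (N k : ℕ) :
    Continuous (fun p : (E N →L[ℝ] E N) × (E N →L[ℝ] E k) => tanJac p.1 p.2) := by
  unfold tanJac
  refine Real.continuous_sqrt.comp ((contDiff_det N).continuous.comp ?_)
  have hadj : Continuous (fun p : (E N →L[ℝ] E N) × (E N →L[ℝ] E k) =>
      ContinuousLinearMap.adjoint p.2) :=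
    (ContinuousLinearMap.adjoint (𝕜 := ℝ) (E := E N) (F := E k)).continuous.comp continuous_snd
  exact (continuous_fst.clm_comp (hadj.clm_comp (continuous_snd.clm_comp continuous_fst))).add
    (continuous_const.sub continuous_fst)

/-- joint continuity of the tangential divergence. -/
theorem continuous_tdiv (N : ℕ) :
    Continuous (fun p : (E N →L[ℝ] E N) × (E N →L[ℝ] E N) => tdiv p.1 p.2) := by
  unfold tdiv
  exact (continuous_trace N).comp (continuous_fst.clm_comp continuous_snd)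

/-- `|tdiv P A| ≤ C ‖A‖`. -/
theorem exists_tdiv_bound (N : ℕ) : ∃ C : ℝ, 0 ≤ C ∧ ∀ (m : ℕ) (P A : E N →L[ℝ] E N),
    IsProj m P → |tdiv P A| ≤ C * ‖A‖ := by
  obtain ⟨C, hC, h⟩ := exists_trace_bound N
  refine ⟨C, hC, fun m P A hP => (h _).trans ?_⟩
  have h1 : ‖P ∘L A‖ ≤ ‖A‖ := by
    calc ‖P ∘L A‖ ≤ ‖P‖ * ‖A‖ := ContinuousLinearMap.opNorm_comp_le _ _
      _ ≤ 1 * ‖A‖ := by gcongr; exact isProj_norm_le_one hP
      _ = ‖A‖ := one_mul _
  gcongr

theorem tdiv_sub {N : ℕ} (P A B : E N →L[ℝ] E N) : tdiv P (A - B) = tdiv P A - tdiv P B := by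
  unfold tdiv
  rw [← map_sub]
  congr 1
  ext x
  simp

theorem tdiv_zero {N : ℕ} (P : E N →L[ℝ] E N) : tdiv P 0 = 0 := by
  unfold tdiv
  have : ((P ∘L (0 : E N →L[ℝ] E N) : E N →L[ℝ] E N) : E N →ₗ[ℝ] E N) = 0 := by
    ext x
    simp
  rw [this, map_zero]

theorem tanJac_nonneg {N k : ℕ} (P : E N →L[ℝ] E N) (L : E N →L[ℝ] E k) : 0 ≤ tanJac P L :=
  Real.sqrt_nonneg _

end Claimed.Agent.R322.Base
end

/- ===== packed: Claimed.Agent.R322.Sx.Sep.CellsPou ===== -/
section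
/-!
# R322 / Sx / Sep / CellsPou : Lipschitz partition of unity for a slowly varying radius function
(abstract core of `gauss_cells`, leaf `L-Sep-CellsA`; Mathlib only)

`r : E → ℝ` positive and `1/16`-Lipschitz, bounded below on the body `‖y - x‖ ≤ ρ0`.
* `cpou_packing` : volume packing (`2δ`-separated points in a ball of radius `k δ`: at most `(k+1)^dim`);
* `cpou_exists_max` : a finite family `Y` in the body with `‖y - y'‖ ≥ (r y + r y')/4`, of maximal cardinality;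
* `cpou_cover` : the balls `B(y, 3/4 r y)` cover the body; `cpou_overlap` : the balls `B(y, 4 r y)` overlap at most `28^dim` times;
* bumps `cpouPsi r y z = clamp (4 (1 - ‖z - y‖/r y))`, `cpouPhi = cpouPsi / max 1 (∑ cpouPsi)`;
* `cpou_main` : the partition of unity.
-/

set_option autoImplicit false
set_option linter.unusedSectionVars false

namespace Claimed.Agent.R322.Sx.Sep

open MeasureTheory Set Metric Module
open scoped ENNReal NNReal

section packing
variable {E : Type*} [NormedAddCommGroup E] [NormedSpace ℝ E] [FiniteDimensional ℝ E]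

/-- volume packing: `2δ`-separated points in a ball of radius `k δ`. -/
theorem cpou_packing (s : Finset E) (z : E) {δ : ℝ} (k : ℕ) (hδ : 0 < δ)
    (hs : ∀ c ∈ s, ‖c - z‖ ≤ k * δ)
    (h : ∀ c ∈ s, ∀ d ∈ s, c ≠ d → 2 * δ ≤ ‖c - d‖) : s.card ≤ (k + 1) ^ finrank ℝ E := by
  borelize E
  let μ : Measure E := Measure.addHaar
  set ρ : ℝ := (k + 1) * δ with hρ
  have ρpos : 0 < ρ := by positivity
  set A := ⋃ c ∈ s, ball (c : E) δ with hA
  have D : Set.Pairwise (s : Set E) (Function.onFun Disjoint fun c => ball (c : E) δ) := by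
    rintro c hc d hd hcd
    apply ball_disjoint_ball
    rw [dist_eq_norm]
    have := h c hc d hd hcd
    linarith
  have A_subset : A ⊆ ball (z : E) ρ := by
    refine iUnion₂_subset fun x hx => ?_
    apply ball_subset_ball'
    calc
      δ + dist x z ≤ δ + k * δ := by rw [dist_eq_norm]; exact add_le_add le_rfl (hs x hx)
      _ = ρ := by rw [hρ]; ring
  have I :
    (s.card : ℝ≥0∞) * ENNReal.ofReal (δ ^ finrank ℝ E) * μ (ball 0 1) ≤
      ENNReal.ofReal (ρ ^ finrank ℝ E) * μ (ball 0 1) :=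
    calc
      (s.card : ℝ≥0∞) * ENNReal.ofReal (δ ^ finrank ℝ E) * μ (ball 0 1) = μ A := by
        rw [hA, measure_biUnion_finset D fun c _ => measurableSet_ball]
        simp only [μ.addHaar_ball_of_pos _ hδ]
        simp only [Finset.sum_const, nsmul_eq_mul, mul_assoc]
      _ ≤ μ (ball (z : E) ρ) := measure_mono A_subset
      _ = ENNReal.ofReal (ρ ^ finrank ℝ E) * μ (ball 0 1) := by
        simp only [μ.addHaar_ball_of_pos _ ρpos]
  have J : (s.card : ℝ≥0∞) * ENNReal.ofReal (δ ^ finrank ℝ E) ≤ ENNReal.ofReal (ρ ^ finrank ℝ E) :=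
    (ENNReal.mul_le_mul_iff_left (measure_ball_pos _ _ zero_lt_one).ne' measure_ball_lt_top.ne).1 I
  have K : (s.card : ℝ) ≤ ((k : ℝ) + 1) ^ finrank ℝ E := by
    have := ENNReal.toReal_le_of_le_ofReal (pow_nonneg ρpos.le _) J
    rw [ENNReal.toReal_mul, ENNReal.toReal_natCast, ENNReal.toReal_ofReal (by positivity), hρ,
      mul_pow] at this
    exact le_of_mul_le_mul_right this (by positivity)
  exact mod_cast K

/-- separated family with respect to the radius function `r`, inside the body `‖y - x‖ ≤ ρ0`. -/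
def CpouSep (r : E → ℝ) (x : E) (ρ0 : ℝ) (Y : Finset E) : Prop :=
  (∀ y ∈ Y, ‖y - x‖ ≤ ρ0) ∧ ∀ y ∈ Y, ∀ y' ∈ Y, y ≠ y' → (r y + r y') / 4 ≤ ‖y - y'‖

theorem cpou_exists_max (r : E → ℝ) (x : E) (ρ0 rmin : ℝ) (hrmin : 0 < rmin)
    (hmin : ∀ y, ‖y - x‖ ≤ ρ0 → rmin ≤ r y) :
    ∃ Y : Finset E, CpouSep r x ρ0 Y ∧ ∀ Y', CpouSep r x ρ0 Y' → Y'.card ≤ Y.card := by
  classical
  set δ : ℝ := rmin / 4 with hδ
  have hδ0 : 0 < δ := by positivity
  set k : ℕ := ⌈ρ0 / δ⌉₊ with hk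
  have hb : ∀ Y', CpouSep r x ρ0 Y' → Y'.card ≤ (k + 1) ^ finrank ℝ E := by
    intro Y' h
    apply cpou_packing Y' x k hδ0
    · intro c hc
      calc ‖c - x‖ ≤ ρ0 := h.1 c hc
        _ = ρ0 / δ * δ := by field_simp
        _ ≤ k * δ := mul_le_mul_of_nonneg_right (Nat.le_ceil _) hδ0.le
    · intro c hc d hd hcd
      have h0 := h.2 c hc d hd hcd
      have h1 := hmin c (h.1 c hc)
      have h2 := hmin d (h.1 d hd)
      rw [hδ]
      linarith
  let S : Set ℕ := {n | ∃ Y, CpouSep r x ρ0 Y ∧ Y.card = n}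
  have hne : S.Nonempty := ⟨0, ∅, ⟨by simp, by simp⟩, rfl⟩
  have hbd : BddAbove S := ⟨(k + 1) ^ finrank ℝ E, by rintro n ⟨Y, hY, rfl⟩; exact hb Y hY⟩
  obtain ⟨Y, hY, hcard⟩ := Nat.sSup_mem hne hbd
  exact ⟨Y, hY, fun Y' hY' => by rw [hcard]; exact le_csSup hbd ⟨Y', hY', rfl⟩⟩

variable {r : E → ℝ} {x : E} {ρ0 : ℝ}

theorem cpou_cover (hr : ∀ y, 0 < r y) (hlip : ∀ y y', |r y - r y'| ≤ 1 / 16 * ‖y - y'‖)
    {Y : Finset E} (hY : CpouSep r x ρ0 Y)
    (hmax : ∀ Y', CpouSep r x ρ0 Y' → Y'.card ≤ Y.card) (z : E) (hz : ‖z - x‖ ≤ ρ0) :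
    ∃ y ∈ Y, ‖z - y‖ ≤ 3 / 4 * r y := by
  classical
  by_cases hzY : z ∈ Y
  · refine ⟨z, hzY, ?_⟩
    rw [sub_self, norm_zero]
    have := hr z
    positivity
  by_contra hcon
  push Not at hcon
  have hsep : ∀ y ∈ Y, (r z + r y) / 4 ≤ ‖z - y‖ := by
    intro y hy
    have h1 := hcon y hy
    have h2 := abs_le.1 (hlip z y)
    linarith [h2.2]
  have hins : CpouSep r x ρ0 (insert z Y) := by
    refine ⟨?_, ?_⟩
    · intro y hy
      rcases Finset.mem_insert.1 hy with rfl | hy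
      · exact hz
      · exact hY.1 y hy
    · intro y hy y' hy' hne
      rcases Finset.mem_insert.1 hy with h1 | h1 <;> rcases Finset.mem_insert.1 hy' with h2 | h2
      · exact absurd (h1.trans h2.symm) hne
      · rw [h1]; exact hsep y' h2
      · rw [h2, norm_sub_rev, add_comm]; exact hsep y h1
      · exact hY.2 y h1 y' h2 hne
  have := hmax _ hins
  rw [Finset.card_insert_of_notMem hzY] at this
  omega

open Classical in
theorem cpou_overlap (hr : ∀ y, 0 < r y) (hlip : ∀ y y', |r y - r y'| ≤ 1 / 16 * ‖y - y'‖)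
    {Y : Finset E} (hY : CpouSep r x ρ0 Y) (z : E) :
    (Y.filter fun y => z ∈ ball y (4 * r y)).card ≤ 28 ^ finrank ℝ E := by
  have hz := hr z
  have key := cpou_packing (Y.filter fun y => z ∈ ball y (4 * r y)) z (δ := r z / 5) 27
    (by positivity) ?_ ?_
  · simpa using key
  · intro c hc
    rw [Finset.mem_filter, mem_ball, dist_eq_norm, norm_sub_rev] at hc
    have h2 := abs_le.1 (hlip c z)
    push_cast
    linarith [h2.2, hc.2]
  · intro c hc d hd hcd
    rw [Finset.mem_filter, mem_ball, dist_eq_norm, norm_sub_rev] at hc hd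
    have h2 := abs_le.1 (hlip c z)
    have h3 := abs_le.1 (hlip d z)
    have := hY.2 c hc.1 d hd.1 hcd
    linarith [h2.1, h3.1, hc.2, hd.2]

/-- the bump of the cell `y`. -/
noncomputable def cpouPsi (r : E → ℝ) (y z : E) : ℝ := max 0 (min 1 (4 * (1 - ‖z - y‖ / r y)))

theorem cpouPsi_nonneg (r : E → ℝ) (y z : E) : 0 ≤ cpouPsi r y z := le_max_left _ _

theorem cpouPsi_le_one (r : E → ℝ) (y z : E) : cpouPsi r y z ≤ 1 :=
  max_le zero_le_one (min_le_left _ _)

theorem cpouPsi_eq_one (hr : ∀ y, 0 < r y) {y z : E} (h : ‖z - y‖ ≤ 3 / 4 * r y) :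
    cpouPsi r y z = 1 := by
  have h1 : ‖z - y‖ / r y ≤ 3 / 4 := by rw [div_le_iff₀ (hr y)]; exact h
  unfold cpouPsi
  rw [min_eq_left (by linarith), max_eq_right zero_le_one]

theorem cpouPsi_ne_zero (hr : ∀ y, 0 < r y) {y z : E} (h : cpouPsi r y z ≠ 0) : ‖z - y‖ < r y := by
  by_contra hcon
  rw [not_lt] at hcon
  apply h
  have h1 : 1 ≤ ‖z - y‖ / r y := by rw [le_div_iff₀ (hr y)]; linarith
  unfold cpouPsi
  rw [max_eq_left]
  exact (min_le_right _ _).trans (by linarith)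

theorem cpouPsi_lip (hr : ∀ y, 0 < r y) (y z z' : E) :
    |cpouPsi r y z - cpouPsi r y z'| ≤ 4 / r y * ‖z - z'‖ := by
  unfold cpouPsi
  have hmax : ∀ A B : ℝ, |max 0 A - max 0 B| ≤ |A - B| := fun A B => by
    rw [max_comm 0 A, max_comm 0 B]; exact abs_max_sub_max_le_abs A B 0
  have hmin : ∀ A B : ℝ, |min 1 A - min 1 B| ≤ |A - B| := fun A B =>
    (abs_min_sub_min_le_max 1 A 1 B).trans
      (by rw [sub_self, abs_zero]; exact (max_eq_right (abs_nonneg _)).le)
  refine (hmax _ _).trans ((hmin _ _).trans ?_)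
  have e : 4 * (1 - ‖z - y‖ / r y) - 4 * (1 - ‖z' - y‖ / r y)
      = 4 / r y * (‖z' - y‖ - ‖z - y‖) := by
    have := (hr y).ne'
    field_simp
    ring
  rw [e, abs_mul, abs_of_pos (by have := hr y; positivity)]
  apply mul_le_mul_of_nonneg_left _ (by have := hr y; positivity)
  have := abs_norm_sub_norm_le (z' - y) (z - y)
  rw [sub_sub_sub_cancel_right] at this
  rwa [norm_sub_rev z z']

theorem cpou_quot {a a' S S' : ℝ} (hS : 1 ≤ S) (hS' : 1 ≤ S') (ha' : 0 ≤ a') :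
    |a / S - a' / S'| ≤ |a - a'| + a' * |S - S'| := by
  have hS0 : 0 < S := by linarith
  have hS0' : 0 < S' := by linarith
  have e : a / S - a' / S' = (a - a') / S + a' * ((S' - S) / (S * S')) := by
    field_simp
    ring
  rw [e]
  refine (abs_add_le _ _).trans (add_le_add ?_ ?_)
  · rw [abs_div, abs_of_pos hS0]
    exact div_le_self (abs_nonneg _) hS
  · rw [abs_mul, abs_of_nonneg ha']
    apply mul_le_mul_of_nonneg_left _ ha'
    rw [abs_div, abs_of_pos (by positivity : 0 < S * S'), abs_sub_comm]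
    exact div_le_self (abs_nonneg _) (by nlinarith)

/-- the denominator. -/
noncomputable def cpouS (r : E → ℝ) (Y : Finset E) (z : E) : ℝ := max 1 (∑ y ∈ Y, cpouPsi r y z)

/-- the partition functions. -/
noncomputable def cpouPhi (r : E → ℝ) (Y : Finset E) (y z : E) : ℝ :=
  cpouPsi r y z / cpouS r Y z

theorem cpouS_ge (r : E → ℝ) (Y : Finset E) (z : E) : 1 ≤ cpouS r Y z := le_max_left _ _

theorem cpouPhi_nonneg (r : E → ℝ) (Y : Finset E) (y z : E) : 0 ≤ cpouPhi r Y y z :=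
  div_nonneg (cpouPsi_nonneg r y z) (zero_le_one.trans (cpouS_ge r Y z))

theorem cpouPhi_le_one (r : E → ℝ) (Y : Finset E) (y z : E) : cpouPhi r Y y z ≤ 1 :=
  (div_le_self (cpouPsi_nonneg r y z) (cpouS_ge r Y z)).trans (cpouPsi_le_one r y z)

open Classical in
theorem cpouS_lip (hr : ∀ y, 0 < r y) (hlip : ∀ y y', |r y - r y'| ≤ 1 / 16 * ‖y - y'‖)
    {Y : Finset E} {Cov : ℕ} (hcov : ∀ z, (Y.filter fun y => z ∈ ball y (4 * r y)).card ≤ Cov)
    {y z z' : E} (hz' : ‖z' - y‖ < r y) (hzz : ‖z - z'‖ < r y) :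
    |cpouS r Y z - cpouS r Y z'| ≤ 16 * Cov / r y * ‖z - z'‖ := by
  have hry := hr y
  unfold cpouS
  have h0 : ∀ A B : ℝ, |max 1 A - max 1 B| ≤ |A - B| := fun A B => by
    rw [max_comm 1 A, max_comm 1 B]; exact abs_max_sub_max_le_abs A B 1
  refine (h0 _ _).trans ?_
  rw [← Finset.sum_sub_distrib]
  refine (Finset.abs_sum_le_sum_abs _ _).trans ?_
  set T : Finset E := (Y.filter fun y => z ∈ ball y (4 * r y)) ∪
    (Y.filter fun y => z' ∈ ball y (4 * r y)) with hTdef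
  have hT : T ⊆ Y := Finset.union_subset (Finset.filter_subset _ _) (Finset.filter_subset _ _)
  have hzero : ∀ y' ∈ Y, y' ∉ T → |cpouPsi r y' z - cpouPsi r y' z'| = 0 := by
    intro y' hy' hnT
    have h1 : cpouPsi r y' z = 0 := by
      by_contra hne
      have h := cpouPsi_ne_zero hr hne
      apply hnT
      apply Finset.mem_union_left
      rw [Finset.mem_filter, mem_ball, dist_eq_norm]
      exact ⟨hy', by linarith [hr y']⟩
    have h2 : cpouPsi r y' z' = 0 := by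
      by_contra hne
      have h := cpouPsi_ne_zero hr hne
      apply hnT
      apply Finset.mem_union_right
      rw [Finset.mem_filter, mem_ball, dist_eq_norm]
      exact ⟨hy', by linarith [hr y']⟩
    rw [h1, h2, sub_self, abs_zero]
  rw [← Finset.sum_subset hT hzero]
  have hterm : ∀ y' ∈ T, |cpouPsi r y' z - cpouPsi r y' z'| ≤ 8 / r y * ‖z - z'‖ := by
    intro y' _
    by_cases hne : cpouPsi r y' z = 0 ∧ cpouPsi r y' z' = 0
    · rw [hne.1, hne.2, sub_self, abs_zero]; positivity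
    · have hd : ‖y - y'‖ < 2 * r y + r y' := by
        rw [not_and_or] at hne
        rcases hne with h | h
        · have h1 := cpouPsi_ne_zero hr h
          have e : y - y' = -(z' - y) + (-(z - z') + (z - y')) := by abel
          have h2 : ‖y - y'‖ ≤ ‖z' - y‖ + (‖z - z'‖ + ‖z - y'‖) := by
            rw [e]
            refine (norm_add_le _ _).trans ?_
            rw [norm_neg]
            refine add_le_add le_rfl ((norm_add_le _ _).trans ?_)
            rw [norm_neg]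
          linarith
        · have h1 := cpouPsi_ne_zero hr h
          have e : y - y' = -(z' - y) + (z' - y') := by abel
          have h2 : ‖y - y'‖ ≤ ‖z' - y‖ + ‖z' - y'‖ := by
            rw [e]
            refine (norm_add_le _ _).trans ?_
            rw [norm_neg]
          linarith
      have h2 := abs_le.1 (hlip y y')
      have hry' : r y / 2 ≤ r y' := by linarith [h2.2, hr y']
      refine (cpouPsi_lip hr y' z z').trans ?_
      apply mul_le_mul_of_nonneg_right _ (norm_nonneg _)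
      rw [div_le_div_iff₀ (hr y') hry]
      linarith
  refine (Finset.sum_le_card_nsmul T _ _ hterm).trans ?_
  have hcard : T.card ≤ 2 * Cov := (Finset.card_union_le _ _).trans (by
    have h1 := hcov z
    have h2 := hcov z'
    omega)
  rw [nsmul_eq_mul]
  have hc : (T.card : ℝ) ≤ 2 * Cov := by exact_mod_cast hcard
  calc (T.card : ℝ) * (8 / r y * ‖z - z'‖) ≤ (2 * Cov) * (8 / r y * ‖z - z'‖) :=
        mul_le_mul_of_nonneg_right hc (by positivity)
    _ = 16 * Cov / r y * ‖z - z'‖ := by ring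

open Classical in
theorem cpouPhi_lip (hr : ∀ y, 0 < r y) (hlip : ∀ y y', |r y - r y'| ≤ 1 / 16 * ‖y - y'‖)
    {Y : Finset E} {Cov : ℕ} (hcov : ∀ z, (Y.filter fun y => z ∈ ball y (4 * r y)).card ≤ Cov)
    (y z z' : E) :
    |cpouPhi r Y y z - cpouPhi r Y y z'| ≤ (4 + 16 * Cov) / r y * ‖z - z'‖ := by
  have hry := hr y
  have hCov : (0 : ℝ) ≤ Cov := Nat.cast_nonneg _
  by_cases hfar : r y ≤ ‖z - z'‖
  · have h1 : |cpouPhi r Y y z - cpouPhi r Y y z'| ≤ 1 := by
      have a1 := cpouPhi_nonneg r Y y z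
      have a2 := cpouPhi_le_one r Y y z
      have a3 := cpouPhi_nonneg r Y y z'
      have a4 := cpouPhi_le_one r Y y z'
      rw [abs_le]; constructor <;> linarith
    have h2 : 1 ≤ (4 + 16 * Cov) / r y * ‖z - z'‖ := by
      rw [div_mul_eq_mul_div, le_div_iff₀ hry]
      nlinarith [norm_nonneg (z - z')]
    exact h1.trans h2
  · rw [not_le] at hfar
    unfold cpouPhi
    refine (cpou_quot (cpouS_ge r Y z) (cpouS_ge r Y z') (cpouPsi_nonneg r y z')).trans ?_
    have h1 := cpouPsi_lip hr y z z'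
    by_cases h0 : cpouPsi r y z' = 0
    · rw [h0] at h1 ⊢
      rw [zero_mul, add_zero]
      refine h1.trans ?_
      apply mul_le_mul_of_nonneg_right _ (norm_nonneg _)
      apply div_le_div_of_nonneg_right _ hry.le
      linarith
    · have hz' := cpouPsi_ne_zero hr h0
      have h2 := cpouS_lip hr hlip hcov hz' hfar
      have h3 : cpouPsi r y z' * |cpouS r Y z - cpouS r Y z'| ≤ 16 * Cov / r y * ‖z - z'‖ :=
        (mul_le_of_le_one_left (abs_nonneg _) (cpouPsi_le_one r y z')).trans h2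
      calc |cpouPsi r y z - cpouPsi r y z'| + cpouPsi r y z' * |cpouS r Y z - cpouS r Y z'|
          ≤ 4 / r y * ‖z - z'‖ + 16 * Cov / r y * ‖z - z'‖ := add_le_add h1 h3
        _ = (4 + 16 * Cov) / r y * ‖z - z'‖ := by ring

open Classical in
/-- **Lipschitz partition of unity subordinate to a slowly varying radius function.** -/
theorem cpou_main (r : E → ℝ) (hr : ∀ y, 0 < r y)
    (hlip : ∀ y y', |r y - r y'| ≤ 1 / 16 * ‖y - y'‖) (x : E) (ρ0 rmin : ℝ) (hrmin : 0 < rmin)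
    (hmin : ∀ y, ‖y - x‖ ≤ ρ0 → rmin ≤ r y) :
    ∃ (Y : Finset E) (φ : E → E → ℝ),
      (∀ y ∈ Y, ‖y - x‖ ≤ ρ0) ∧
      (∀ y ∈ Y, ∀ z, 0 ≤ φ y z ∧ φ y z ≤ 1) ∧
      (∀ y ∈ Y, Function.support (φ y) ⊆ ball y (r y)) ∧
      (∀ y ∈ Y, ∀ z z', |φ y z - φ y z'|
        ≤ (4 + 16 * ((28 ^ finrank ℝ E : ℕ) : ℝ)) / r y * ‖z - z'‖) ∧
      (∀ z, ‖z - x‖ ≤ ρ0 → ∑ y ∈ Y, φ y z = 1) ∧
      (∀ z, ∑ y ∈ Y, φ y z ≤ 1) ∧
      (∀ z, (Y.filter fun y => z ∈ ball y (4 * r y)).card ≤ 28 ^ finrank ℝ E) := by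
  obtain ⟨Y, hY, hmax⟩ := cpou_exists_max r x ρ0 rmin hrmin hmin
  have hcov := cpou_overlap hr hlip hY
  have hsum : ∀ z, ∑ y ∈ Y, cpouPhi r Y y z = (∑ y ∈ Y, cpouPsi r y z) / cpouS r Y z := fun z => by
    unfold cpouPhi
    rw [Finset.sum_div]
  refine ⟨Y, cpouPhi r Y, hY.1, fun y _ z => ⟨cpouPhi_nonneg r Y y z, cpouPhi_le_one r Y y z⟩,
    ?_, fun y _ z z' => cpouPhi_lip hr hlip hcov y z z', ?_, ?_, hcov⟩
  · intro y _ z hz
    rw [Function.mem_support] at hz
    have h1 : cpouPsi r y z ≠ 0 := by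
      intro h0
      apply hz
      unfold cpouPhi
      rw [h0, zero_div]
    rw [mem_ball, dist_eq_norm]
    exact cpouPsi_ne_zero hr h1
  · intro z hz
    obtain ⟨y, hy, hzy⟩ := cpou_cover hr hlip hY hmax z hz
    have h1 : 1 ≤ ∑ y ∈ Y, cpouPsi r y z := by
      rw [← cpouPsi_eq_one hr hzy]
      exact Finset.single_le_sum (f := fun y => cpouPsi r y z) (fun y _ => cpouPsi_nonneg r y z) hy
    rw [hsum]
    unfold cpouS
    rw [max_eq_right h1]
    exact div_self (by linarith)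
  · intro z
    rw [hsum]
    exact (div_le_one (by linarith [cpouS_ge r Y z])).2 (le_max_right _ _)

end packing

end Claimed.Agent.R322.Sx.Sep
end

/- ===== packed: Claimed.Agent.R322.Sx.Sep.Cells ===== -/
section
/-!
# R322 / Sx / Sep / Cells : Gaussian cells AE (4.31) (leaves `L-Sep-CellsA`, `L-Sep-CellsB`)

No geometry.  The radius function `r(y) = cellR c1 x s y = c1 s/(1 + |y - x|/s)` is `c1`-Lipschitz.

Part A, `gauss_cells`: a LIPSCHITZ partition of unity of the body `|y - x| ≤ Rc s`, indexed by a finite set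
`Y` of centres.  Construction: `Y` = maximal subset of `closedBall x (Rc s)` with pairwise disjoint balls
`B_{r(y)/4}(y)` (finite: radii bounded below); then `B_{0.6 r(y)}(y)` cover the body; bumps
`ψ_y = clamp ((0.9 r(y) - |z - y|)/(0.3 r(y)))`; `φ_y = ψ_y / max 1 (∑ ψ)`.  Radii of intersecting enlarged balls
are comparable (`c1 ≤ 1/16`), which gives the overlap bound (volume packing) and the Lipschitz bound.

Part B: normalised child weights and Gaussian comparability on a cell.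
-/

set_option autoImplicit false
set_option linter.unusedVariables false

namespace Claimed.Agent.R322.Sx.Sep

open MeasureTheory Set Metric
open scoped ENNReal NNReal InnerProductSpace

variable {m : ℕ}

theorem cellR_pos {c1 s : ℝ} (hc : 0 < c1) (hs : 0 < s) (x y : E m) : 0 < cellR c1 x s y := by
  unfold cellR
  positivity

theorem cellR_le {c1 s : ℝ} (hc : 0 < c1) (hs : 0 < s) (x y : E m) : cellR c1 x s y ≤ c1 * s := by
  unfold cellR
  apply div_le_self (by positivity)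
  have : 0 ≤ ‖y - x‖ / s := by positivity
  linarith

/-- the radius function is `c1`-Lipschitz. -/
theorem cellR_lip {c1 s : ℝ} (hc : 0 < c1) (hs : 0 < s) (x y y' : E m) :
    |cellR c1 x s y - cellR c1 x s y'| ≤ c1 * ‖y - y'‖ := by
  unfold cellR
  obtain ⟨A, hAdef⟩ : ∃ A : ℝ, A = 1 + ‖y - x‖ / s := ⟨_, rfl⟩
  obtain ⟨B, hBdef⟩ : ∃ B : ℝ, B = 1 + ‖y' - x‖ / s := ⟨_, rfl⟩
  rw [← hAdef, ← hBdef]
  have hA : 1 ≤ A := by
    have : 0 ≤ ‖y - x‖ / s := by positivity
    linarith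
  have hB : 1 ≤ B := by
    have : 0 ≤ ‖y' - x‖ / s := by positivity
    linarith
  have hA0 : 0 < A := by linarith
  have hB0 : 0 < B := by linarith
  have e : c1 * s / A - c1 * s / B = c1 * s * ((B - A) / (A * B)) := by
    field_simp
  rw [e, abs_mul, abs_of_pos (by positivity : 0 < c1 * s)]
  have h1 : |(B - A) / (A * B)| ≤ |B - A| := by
    rw [abs_div, abs_of_pos (by positivity : 0 < A * B)]
    exact div_le_self (abs_nonneg _) (by nlinarith)
  have h2 : |B - A| ≤ ‖y - y'‖ / s := by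
    have e2 : B - A = (‖y' - x‖ - ‖y - x‖) / s := by rw [hAdef, hBdef]; ring
    rw [e2, abs_div, abs_of_pos hs]
    apply div_le_div_of_nonneg_right _ hs.le
    have h3 := abs_norm_sub_norm_le (y' - x) (y - x)
    rw [sub_sub_sub_cancel_right] at h3
    rwa [norm_sub_rev y y']
  calc c1 * s * |(B - A) / (A * B)| ≤ c1 * s * (‖y - y'‖ / s) :=
        mul_le_mul_of_nonneg_left (h1.trans h2) (by positivity)
    _ = c1 * ‖y - y'‖ := by field_simp

open Classical in
/-- **Gaussian cells.** -/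
theorem gauss_cells (m : ℕ) (hm : 1 ≤ m) (c1 : ℝ) (hc1 : 0 < c1) (hc1' : c1 ≤ 1 / 16) :
    ∃ (Cov : ℕ) (Clip : ℝ), 0 < Clip ∧ ∀ (x : E m) (s Rc : ℝ), 0 < s → 1 ≤ Rc →
      ∃ (Y : Finset (E m)) (φ : E m → E m → ℝ),
        (∀ y ∈ Y, ‖y - x‖ ≤ Rc * s) ∧
        (∀ y ∈ Y, ∀ z, 0 ≤ φ y z ∧ φ y z ≤ 1) ∧
        (∀ y ∈ Y, Function.support (φ y) ⊆ ball y (cellR c1 x s y)) ∧
        (∀ y ∈ Y, ∀ z z', |φ y z - φ y z'| ≤ Clip / cellR c1 x s y * ‖z - z'‖) ∧
        (∀ z, ‖z - x‖ ≤ Rc * s → ∑ y ∈ Y, φ y z = 1) ∧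
        (∀ z, ∑ y ∈ Y, φ y z ≤ 1) ∧
        (∀ z, (Y.filter fun y => z ∈ ball y (4 * cellR c1 x s y)).card ≤ Cov) := by
  refine ⟨28 ^ Module.finrank ℝ (E m), 4 + 16 * ((28 ^ Module.finrank ℝ (E m) : ℕ) : ℝ),
    by positivity, ?_⟩
  intro x s Rc hs hRc
  have hr : ∀ y, 0 < cellR c1 x s y := cellR_pos hc1 hs x
  have hlip : ∀ y y', |cellR c1 x s y - cellR c1 x s y'| ≤ 1 / 16 * ‖y - y'‖ := fun y y' =>
    (cellR_lip hc1 hs x y y').trans (mul_le_mul_of_nonneg_right hc1' (norm_nonneg _))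
  have hmin : ∀ y, ‖y - x‖ ≤ Rc * s → c1 * s / (1 + Rc) ≤ cellR c1 x s y := by
    intro y hy
    unfold cellR
    apply div_le_div_of_nonneg_left (by positivity) (by positivity)
    have : ‖y - x‖ / s ≤ Rc := by rw [div_le_iff₀ hs]; exact hy
    linarith
  exact cpou_main (cellR c1 x s) hr hlip x (Rc * s) (c1 * s / (1 + Rc)) (by positivity) hmin

theorem clb_cellR_mul (c1 : ℝ) {s : ℝ} (hs : 0 < s) (x y : E m) :
    cellR c1 x s y * (s + ‖y - x‖) = c1 * s ^ 2 := by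
  unfold cellR
  have h : 1 + ‖y - x‖ / s = (s + ‖y - x‖) / s := by field_simp
  have h2 : 0 < s + ‖y - x‖ := by positivity
  rw [h]
  field_simp

theorem clb_sq_aux {a b d s : ℝ} (ha0 : 0 ≤ a) (hb0 : 0 ≤ b) (hd0 : 0 ≤ d) (hs : 0 < s)
    (hab : |b - a| ≤ d) (h1 : d * (s + a) < s ^ 2 / 4) : |b ^ 2 - a ^ 2| ≤ s ^ 2 / 2 := by
  have hd4 : d < s / 4 := by
    have : d * s ≤ d * (s + a) := mul_le_mul_of_nonneg_left (by linarith) hd0
    nlinarith
  obtain ⟨h2, h3⟩ := abs_le.1 hab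
  have e : b ^ 2 - a ^ 2 = (b - a) * (b + a) := by ring
  have h4 : |b ^ 2 - a ^ 2| ≤ d * (2 * a + d) := by
    rw [e, abs_mul, abs_of_nonneg (by positivity : 0 ≤ b + a)]
    exact mul_le_mul hab (by linarith) (by positivity) hd0
  have h5 : d * (2 * a + d) ≤ 2 * (d * (s + a)) := by nlinarith
  linarith

/-- squares of the distances to `x` on the enlarged cell. -/
theorem clb_sq_diff {c1 s : ℝ} (hc1 : 0 < c1) (hc1' : c1 ≤ 1 / 16) (hs : 0 < s)
    (x y z : E m) (hz : z ∈ ball y (4 * cellR c1 x s y)) :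
    |‖z - x‖ ^ 2 - ‖y - x‖ ^ 2| ≤ s ^ 2 / 2 := by
  have hd : ‖z - y‖ < 4 * cellR c1 x s y := by rwa [mem_ball, dist_eq_norm] at hz
  have hmul := clb_cellR_mul c1 hs x y
  have hab : |‖z - x‖ - ‖y - x‖| ≤ ‖z - y‖ := by
    have := abs_norm_sub_norm_le (z - x) (y - x)
    rwa [sub_sub_sub_cancel_right] at this
  have hsa : 0 < s + ‖y - x‖ := by positivity
  refine clb_sq_aux (norm_nonneg _) (norm_nonneg _) (norm_nonneg _) hs hab ?_
  calc ‖z - y‖ * (s + ‖y - x‖) < 4 * cellR c1 x s y * (s + ‖y - x‖) :=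
        mul_lt_mul_of_pos_right hd hsa
    _ = 4 * (c1 * s ^ 2) := by rw [mul_assoc, hmul]
    _ ≤ s ^ 2 / 4 := by nlinarith [sq_nonneg s]

theorem clb_gauss_le_exp_mul {s : ℝ} (hs : 0 < s) (u v : E m) (h : ‖v‖ ^ 2 - ‖u‖ ^ 2 ≤ 2 * s ^ 2) :
    gauss m s u ≤ Real.exp 1 * gauss m s v := by
  unfold gauss
  have hK : 0 ≤ (2 * Real.pi * s ^ 2) ^ (-(m : ℝ) / 2) := by positivity
  rw [mul_left_comm, ← Real.exp_add]
  apply mul_le_mul_of_nonneg_left _ hK
  apply Real.exp_le_exp.2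
  have hs2 : 0 < 2 * s ^ 2 := by positivity
  have : (‖v‖ ^ 2 - ‖u‖ ^ 2) / (2 * s ^ 2) ≤ 1 := by rw [div_le_one hs2]; exact h
  have e : 1 + -‖v‖ ^ 2 / (2 * s ^ 2) - -‖u‖ ^ 2 / (2 * s ^ 2)
      = 1 - (‖v‖ ^ 2 - ‖u‖ ^ 2) / (2 * s ^ 2) := by ring
  linarith

/-- Gaussian comparability on the enlarged cell. -/
theorem gauss_cell_comparable {c1 s : ℝ} (hc1 : 0 < c1) (hc1' : c1 ≤ 1 / 16) (hs : 0 < s)
    (x y z : E m) (hz : z ∈ ball y (4 * cellR c1 x s y)) :
    gauss m s (y - x) ≤ Real.exp 1 * gauss m s (z - x) ∧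
      gauss m s (z - x) ≤ Real.exp 1 * gauss m s (y - x) := by
  have h := abs_le.1 (clb_sq_diff hc1 hc1' hs x y z hz)
  have hs2 : 0 < s ^ 2 := by positivity
  exact ⟨clb_gauss_le_exp_mul hs _ _ (by linarith [h.2]), clb_gauss_le_exp_mul hs _ _ (by linarith [h.1])⟩

theorem clb_abs_exp_neg_sub_le (p q : ℝ) :
    |Real.exp (-p) - Real.exp (-q)| ≤ |p - q| * max (Real.exp (-p)) (Real.exp (-q)) := by
  have key : ∀ p q : ℝ, p ≤ q →
      |Real.exp (-p) - Real.exp (-q)| ≤ |p - q| * max (Real.exp (-p)) (Real.exp (-q)) := by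
    intro p q hpq
    have h1 : Real.exp (-q) ≤ Real.exp (-p) := Real.exp_le_exp.2 (by linarith)
    rw [abs_of_nonneg (by linarith), max_eq_left h1, abs_of_nonpos (by linarith)]
    have e : Real.exp (-q) = Real.exp (-p) * Real.exp (-(q - p)) := by
      rw [← Real.exp_add]; congr 1; ring
    have h2 := Real.add_one_le_exp (-(q - p))
    rw [e]
    have h3 := Real.exp_pos (-p)
    nlinarith
  rcases le_total p q with h | h
  · exact key p q h
  · rw [abs_sub_comm, abs_sub_comm p q, max_comm]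
    exact key q p h

theorem clb_abs_gauss_sub_le {s : ℝ} (hs : 0 < s) (u v : E m) :
    |gauss m s u - gauss m s v|
      ≤ |‖u‖ ^ 2 - ‖v‖ ^ 2| / (2 * s ^ 2) * max (gauss m s u) (gauss m s v) := by
  unfold gauss
  have hK : 0 ≤ (2 * Real.pi * s ^ 2) ^ (-(m : ℝ) / 2) := by positivity
  have hs2 : 0 < 2 * s ^ 2 := by positivity
  rw [← mul_sub, abs_mul, abs_of_nonneg hK, ← mul_max_of_nonneg _ _ hK, mul_left_comm]
  apply mul_le_mul_of_nonneg_left _ hK
  have h := clb_abs_exp_neg_sub_le (‖u‖ ^ 2 / (2 * s ^ 2)) (‖v‖ ^ 2 / (2 * s ^ 2))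
  rw [← sub_div, abs_div, abs_of_pos hs2, ← neg_div, ← neg_div] at h
  exact h

/-- the normalised child weight `w_j = χ_j G_s(· - x) / (C_w G_s(y_j - x))` is admissible, with
`C_w = e (Clip + 1)`. -/
theorem cell_weight {c1 s Clip : ℝ} (hc1 : 0 < c1) (hc1' : c1 ≤ 1 / 16) (hs : 0 < s)
    (hClip : 0 < Clip) (x y : E m) (φ : E m → ℝ) (h01 : ∀ z, 0 ≤ φ z ∧ φ z ≤ 1)
    (hsupp : Function.support φ ⊆ ball y (cellR c1 x s y))
    (hlip : ∀ z z', |φ z - φ z'| ≤ Clip / cellR c1 x s y * ‖z - z'‖) :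
    IsWeight (fun z => φ z * gauss m s (z - x) / (Real.exp 1 * (Clip + 1) * gauss m s (y - x))) y
      (cellR c1 x s y) := by
  have hmul := clb_cellR_mul c1 hs x y
  have hrle := cellR_le hc1 hs x y
  have hcmp := fun z => gauss_cell_comparable hc1 hc1' hs x y z
  obtain ⟨r, hr⟩ : ∃ r : ℝ, r = cellR c1 x s y := ⟨_, rfl⟩
  rw [← hr] at hsupp hlip hmul hrle ⊢
  simp only [← hr] at hcmp
  have hr0 : 0 < r := hr ▸ cellR_pos hc1 hs x y
  obtain ⟨Gy, hGy⟩ : ∃ Gy : ℝ, Gy = gauss m s (y - x) := ⟨_, rfl⟩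
  rw [← hGy]
  simp only [← hGy] at hcmp
  have hGy0 : 0 < Gy := hGy ▸ gauss_pos m hs _
  obtain ⟨N, hN⟩ : ∃ N : ℝ, N = Real.exp 1 * (Clip + 1) * Gy := ⟨_, rfl⟩
  rw [← hN]
  have he0 : 0 < Real.exp 1 := Real.exp_pos 1
  have hN0 : 0 < N := by rw [hN]; positivity
  have hG : ∀ z, z ∈ ball y r → gauss m s (z - x) ≤ Real.exp 1 * Gy := fun z hz =>
    (hcmp z (ball_subset_ball (by linarith) hz)).2
  have hφ0 : ∀ z, z ∉ ball y r → φ z = 0 := fun z hz => by
    by_contra h; exact hz (hsupp h)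
  have hGpos : ∀ z, 0 < gauss m s (z - x) := fun z => gauss_pos m hs _
  have hout : ∀ z z', z ∉ ball y r →
      |φ z * gauss m s (z - x) - φ z' * gauss m s (z' - x)| ≤ N * (r⁻¹ * ‖z - z'‖) := by
    intro z z' hz
    rw [hφ0 z hz, zero_mul, zero_sub, abs_neg]
    by_cases hz' : z' ∈ ball y r
    · have h1 := hlip z z'
      rw [hφ0 z hz, zero_sub, abs_neg, abs_of_nonneg (h01 z').1] at h1
      rw [abs_of_nonneg (mul_nonneg (h01 z').1 (hGpos z').le)]
      calc φ z' * gauss m s (z' - x) ≤ (Clip / r * ‖z - z'‖) * (Real.exp 1 * Gy) :=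
            mul_le_mul h1 (hG z' hz') (hGpos z').le (by positivity)
        _ = Real.exp 1 * Clip * Gy * (r⁻¹ * ‖z - z'‖) := by rw [div_eq_mul_inv]; ring
        _ ≤ N * (r⁻¹ * ‖z - z'‖) := by
            rw [hN]
            apply mul_le_mul_of_nonneg_right _ (by positivity)
            apply mul_le_mul_of_nonneg_right _ hGy0.le
            apply mul_le_mul_of_nonneg_left _ he0.le
            linarith
    · rw [hφ0 z' hz', zero_mul, abs_zero]; positivity
  refine ⟨?_, ?_, ?_, ?_⟩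
  · intro z
    exact div_nonneg (mul_nonneg (h01 z).1 (hGpos z).le) hN0.le
  · intro z
    rw [div_le_one hN0]
    by_cases hz : z ∈ ball y r
    · calc φ z * gauss m s (z - x) ≤ 1 * (Real.exp 1 * Gy) :=
            mul_le_mul (h01 z).2 (hG z hz) (hGpos z).le zero_le_one
        _ = Real.exp 1 * 1 * Gy := by ring
        _ ≤ N := by
            rw [hN]
            apply mul_le_mul_of_nonneg_right _ hGy0.le
            apply mul_le_mul_of_nonneg_left _ he0.le
            linarith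
    · rw [hφ0 z hz, zero_mul]; exact hN0.le
  · intro z z'
    rw [← sub_div, abs_div, abs_of_pos hN0, div_le_iff₀ hN0, mul_comm _ N]
    by_cases hz : z ∈ ball y r
    · by_cases hz' : z' ∈ ball y r
      · have hb : ∀ w, w ∈ ball y r → ‖w - x‖ ≤ ‖y - x‖ + r := by
          intro w hw
          rw [mem_ball, dist_eq_norm] at hw
          have e : w - x = (w - y) + (y - x) := by abel
          rw [e]
          refine (norm_add_le _ _).trans ?_
          linarith
        have hbb : |‖z - x‖ - ‖z' - x‖| ≤ ‖z - z'‖ := by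
          have := abs_norm_sub_norm_le (z - x) (z' - x)
          rwa [sub_sub_sub_cancel_right] at this
        have hsq : |‖z - x‖ ^ 2 - ‖z' - x‖ ^ 2| ≤ ‖z - z'‖ * (2 * (‖y - x‖ + r)) := by
          have e : ‖z - x‖ ^ 2 - ‖z' - x‖ ^ 2 = (‖z - x‖ - ‖z' - x‖) * (‖z - x‖ + ‖z' - x‖) := by
            ring
          rw [e, abs_mul, abs_of_nonneg (by positivity : 0 ≤ ‖z - x‖ + ‖z' - x‖)]
          exact mul_le_mul hbb (by linarith [hb z hz, hb z' hz']) (by positivity) (norm_nonneg _)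
        have hs2 : 0 < 2 * s ^ 2 := by positivity
        have hGd : |gauss m s (z - x) - gauss m s (z' - x)|
            ≤ ‖z - z'‖ * (2 * (‖y - x‖ + r)) / (2 * s ^ 2) * (Real.exp 1 * Gy) :=
          (clb_abs_gauss_sub_le hs _ _).trans
            (mul_le_mul (div_le_div_of_nonneg_right hsq hs2.le) (max_le (hG z hz) (hG z' hz'))
              (le_max_of_le_left (hGpos z).le) (by positivity))
        have hfrac : ‖z - z'‖ * (2 * (‖y - x‖ + r)) / (2 * s ^ 2) ≤ r⁻¹ * ‖z - z'‖ := by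
          have h1 : (2 * (‖y - x‖ + r)) / (2 * s ^ 2) ≤ r⁻¹ := by
            rw [div_le_iff₀ hs2, inv_mul_eq_div, le_div_iff₀ hr0]
            have h2 : r * r ≤ r * s := mul_le_mul_of_nonneg_left (by nlinarith) hr0.le
            nlinarith [sq_nonneg s]
          calc ‖z - z'‖ * (2 * (‖y - x‖ + r)) / (2 * s ^ 2)
              = (2 * (‖y - x‖ + r)) / (2 * s ^ 2) * ‖z - z'‖ := by ring
            _ ≤ r⁻¹ * ‖z - z'‖ := mul_le_mul_of_nonneg_right h1 (norm_nonneg _)
        have hGd' : |gauss m s (z - x) - gauss m s (z' - x)|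
            ≤ r⁻¹ * ‖z - z'‖ * (Real.exp 1 * Gy) :=
          hGd.trans (mul_le_mul_of_nonneg_right hfrac (by positivity))
        have e : φ z * gauss m s (z - x) - φ z' * gauss m s (z' - x)
            = (φ z - φ z') * gauss m s (z - x)
              + φ z' * (gauss m s (z - x) - gauss m s (z' - x)) := by ring
        rw [e]
        refine (abs_add_le _ _).trans ?_
        rw [abs_mul, abs_mul, abs_of_pos (hGpos z), abs_of_nonneg (h01 z').1]
        have t1 : |φ z - φ z'| * gauss m s (z - x) ≤ (Clip / r * ‖z - z'‖) * (Real.exp 1 * Gy) :=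
          mul_le_mul (hlip z z') (hG z hz) (hGpos z).le (by positivity)
        have t2 : φ z' * |gauss m s (z - x) - gauss m s (z' - x)|
            ≤ 1 * (r⁻¹ * ‖z - z'‖ * (Real.exp 1 * Gy)) :=
          mul_le_mul (h01 z').2 hGd' (abs_nonneg _) zero_le_one
        calc |φ z - φ z'| * gauss m s (z - x) + φ z' * |gauss m s (z - x) - gauss m s (z' - x)|
            ≤ (Clip / r * ‖z - z'‖) * (Real.exp 1 * Gy)
              + 1 * (r⁻¹ * ‖z - z'‖ * (Real.exp 1 * Gy)) := add_le_add t1 t2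
          _ = N * (r⁻¹ * ‖z - z'‖) := by rw [hN, div_eq_mul_inv]; ring
      · have := hout z' z hz'
        rwa [abs_sub_comm, norm_sub_rev] at this
    · exact hout z z' hz
  · intro z hz
    apply hsupp
    rw [Function.mem_support] at hz ⊢
    intro h0
    apply hz
    rw [h0, zero_mul, zero_div]

open Classical in
/-- the Gaussian-weighted sum of the masses of the enlarged cells. -/
theorem clb_sum_aux {c1 s : ℝ} (hc1 : 0 < c1) (hc1' : c1 ≤ 1 / 16) (hs : 0 < s) (Cov : ℕ)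
    (ν : Measure (E m)) (x : E m) (hint : Integrable (fun z => gauss m s (z - x)) ν)
    (hfin : ∀ y r, ν (ball y r) ≠ ∞) (Y : Finset (E m))
    (hcov : ∀ z, (Y.filter fun y => z ∈ ball y (4 * cellR c1 x s y)).card ≤ Cov) :
    ∑ y ∈ Y, gauss m s (y - x) * (ν (ball y (4 * cellR c1 x s y))).toReal
      ≤ Real.exp 1 * Cov * ∫ z, gauss m s (z - x) ∂ν := by
  have h1 : ∀ y ∈ Y, gauss m s (y - x) * (ν (ball y (4 * cellR c1 x s y))).toReal
      ≤ Real.exp 1 * ∫ z, (ball y (4 * cellR c1 x s y)).indicator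
          (fun z => gauss m s (z - x)) z ∂ν := by
    intro y _
    rw [integral_indicator measurableSet_ball, ← integral_const_mul]
    have e : gauss m s (y - x) * (ν (ball y (4 * cellR c1 x s y))).toReal
        = ∫ _ in ball y (4 * cellR c1 x s y), gauss m s (y - x) ∂ν := by
      rw [setIntegral_const, smul_eq_mul, mul_comm]
      rfl
    rw [e]
    apply setIntegral_mono_on
    · exact integrableOn_const (hfin _ _)
    · exact (hint.const_mul _).integrableOn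
    · exact measurableSet_ball
    · intro z hz
      exact (gauss_cell_comparable hc1 hc1' hs x y z hz).1
  have hind : ∀ y ∈ Y, Integrable (fun z => (ball y (4 * cellR c1 x s y)).indicator
      (fun z => gauss m s (z - x)) z) ν := fun y _ => hint.indicator measurableSet_ball
  calc ∑ y ∈ Y, gauss m s (y - x) * (ν (ball y (4 * cellR c1 x s y))).toReal
      ≤ ∑ y ∈ Y, Real.exp 1 * ∫ z, (ball y (4 * cellR c1 x s y)).indicator
          (fun z => gauss m s (z - x)) z ∂ν := Finset.sum_le_sum h1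
    _ = Real.exp 1 * ∫ z, ∑ y ∈ Y, (ball y (4 * cellR c1 x s y)).indicator
          (fun z => gauss m s (z - x)) z ∂ν := by
        rw [← Finset.mul_sum, integral_finsetSum _ hind]
    _ ≤ Real.exp 1 * ∫ z, (Cov : ℝ) * gauss m s (z - x) ∂ν := by
        apply mul_le_mul_of_nonneg_left _ (Real.exp_pos 1).le
        apply integral_mono (integrable_finsetSum _ hind) (hint.const_mul _)
        intro z
        have e : ∑ y ∈ Y, (ball y (4 * cellR c1 x s y)).indicator
            (fun z => gauss m s (z - x)) z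
            = ((Y.filter fun y => z ∈ ball y (4 * cellR c1 x s y)).card : ℝ)
              * gauss m s (z - x) := by
          simp only [Set.indicator_apply]
          rw [← Finset.sum_filter, Finset.sum_const, nsmul_eq_mul]
        show ∑ y ∈ Y, (ball y (4 * cellR c1 x s y)).indicator
            (fun z => gauss m s (z - x)) z ≤ (Cov : ℝ) * gauss m s (z - x)
        rw [e]
        exact mul_le_mul_of_nonneg_right (by exact_mod_cast hcov z) (gauss_pos m hs _).le
    _ = Real.exp 1 * Cov * ∫ z, gauss m s (z - x) ∂ν := by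
        rw [integral_const_mul]; ring

open Classical in
/-- AE (4.32): summation of the cell budgets with Gaussian weights. -/
theorem cell_sum (m : ℕ) (hm : 1 ≤ m) (c1 : ℝ) (hc1 : 0 < c1) (hc1' : c1 ≤ 1 / 16) (Cov : ℕ) :
    ∃ C : ℝ, 0 < C ∧ ∀ (μ : Measure (E m)) [IsFiniteMeasure μ] (x : E m) (s d : ℝ) (Y : Finset (E m)),
      0 < s → 0 ≤ d →
      (∀ z, (Y.filter fun y => z ∈ ball y (4 * cellR c1 x s y)).card ≤ Cov) →
      ∑ y ∈ Y, gauss m s (y - x)
          * ((μ (ball y (4 * cellR c1 x s y))).toReal + d * cellR c1 x s y ^ m)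
        ≤ C * (gav μ s x + d) := by
  obtain ⟨ω, hωdef⟩ : ∃ ω : ℝ, ω = (volume (ball (0 : E m) 1)).toReal := ⟨_, rfl⟩
  have hω : 0 < ω := by
    rw [hωdef]
    exact ENNReal.toReal_pos (measure_ball_pos _ _ one_pos).ne' measure_ball_lt_top.ne
  have he0 : 0 < Real.exp 1 := Real.exp_pos 1
  refine ⟨Real.exp 1 * Cov * (1 + 1 / ω) + 1, by positivity, ?_⟩
  intro μ _ x s d Y hs hd hcov
  have A := clb_sum_aux hc1 hc1' hs Cov μ x (gauss_integrable μ hs x)
    (fun y r => measure_ne_top _ _) Y hcov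
  have Bv := clb_sum_aux hc1 hc1' hs Cov volume x (gauss_integrable_volume hs x)
    (fun y r => measure_ball_lt_top.ne) Y hcov
  have hgv : ∫ z, gauss m s (z - x) ∂(volume : Measure (E m)) = 1 := gav_volume hs x
  rw [hgv, mul_one] at Bv
  have hgav : ∫ z, gauss m s (z - x) ∂μ = gav μ s x := rfl
  rw [hgav] at A
  have hg0 : 0 ≤ gav μ s x := gav_nonneg μ hs x
  have hr : ∀ y, cellR c1 x s y ^ m
      ≤ (volume (ball y (4 * cellR c1 x s y))).toReal / ω := by
    intro y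
    have hp := cellR_pos hc1 hs x y
    rw [Measure.addHaar_ball_of_pos _ _ (by positivity : 0 < 4 * cellR c1 x s y),
      finrank_euclideanSpace_fin, ENNReal.toReal_mul, ENNReal.toReal_ofReal (by positivity),
      ← hωdef, mul_div_assoc, div_self hω.ne', mul_one]
    exact pow_le_pow_left₀ hp.le (by linarith) m
  have h2 : ∑ y ∈ Y, gauss m s (y - x) * cellR c1 x s y ^ m ≤ Real.exp 1 * Cov / ω := by
    calc ∑ y ∈ Y, gauss m s (y - x) * cellR c1 x s y ^ m
        ≤ ∑ y ∈ Y, gauss m s (y - x) * (volume (ball y (4 * cellR c1 x s y))).toReal / ω := by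
          apply Finset.sum_le_sum
          intro y _
          rw [mul_div_assoc]
          exact mul_le_mul_of_nonneg_left (hr y) (gauss_pos m hs _).le
      _ = (∑ y ∈ Y, gauss m s (y - x) * (volume (ball y (4 * cellR c1 x s y))).toReal) / ω := by
          rw [Finset.sum_div]
      _ ≤ Real.exp 1 * Cov / ω := div_le_div_of_nonneg_right Bv hω.le
  have e : ∑ y ∈ Y, gauss m s (y - x)
        * ((μ (ball y (4 * cellR c1 x s y))).toReal + d * cellR c1 x s y ^ m)
      = ∑ y ∈ Y, gauss m s (y - x) * (μ (ball y (4 * cellR c1 x s y))).toReal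
        + d * ∑ y ∈ Y, gauss m s (y - x) * cellR c1 x s y ^ m := by
    rw [Finset.mul_sum, ← Finset.sum_add_distrib]
    refine Finset.sum_congr rfl fun y _ => ?_
    ring
  rw [e]
  have h3 : d * ∑ y ∈ Y, gauss m s (y - x) * cellR c1 x s y ^ m ≤ d * (Real.exp 1 * Cov / ω) :=
    mul_le_mul_of_nonneg_left h2 hd
  have hK : 0 ≤ Real.exp 1 * Cov := by positivity
  have hKω : 0 ≤ Real.exp 1 * Cov / ω := by positivity
  have e2 : (Real.exp 1 * Cov * (1 + 1 / ω) + 1) * (gav μ s x + d)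
      = Real.exp 1 * Cov * gav μ s x + d * (Real.exp 1 * Cov / ω)
        + (Real.exp 1 * Cov / ω * gav μ s x + Real.exp 1 * Cov * d + (gav μ s x + d)) := by
    ring
  rw [e2]
  have h4 : 0 ≤ Real.exp 1 * Cov / ω * gav μ s x + Real.exp 1 * Cov * d + (gav μ s x + d) := by
    positivity
  linarith

end Claimed.Agent.R322.Sx.Sep
end
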