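/- Packed by merge_tool.py (helper293): 4 modules of Claimed.Agent.R322 in one file, same declarations.
   Old modules, in this order: Tube.Defs, Tube.GeomDefs, Tube.Geom.Split, Sx.Sep.Charge -/
import Claimed.Agent.R322.Basic
import Claimed.Agent.R322.Base.Area.LinProj
import Claimed.Agent.R322.Sx.Sep.GaussK

/- ===== packed: Claimed.Agent.R322.Tube.Defs ===== -/
section
/-!
# Normal cylinders over a reference graph: geometric vocabulary (AE Section 2, CO Section 3)

The reference disk is always a graph `S = {(y, u y)}` of a GLOBAL function `u : E m → E n`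
over the horizontal plane (rotate / cut off beforehand).  Base points are described by the graph
coordinate `y ∈ E m`; measures "on `S`" are measures on `E m`.
All tensors are ambient operators on `E (m+n)`.
-/

set_option autoImplicit false

open scoped ENNReal ContDiff
open MeasureTheory

namespace Claimed.Agent.R322.Tube

variable {m n : ℕ}

/-- inclusion of the horizontal plane -/
noncomputable def inH (m n : ℕ) : E m →L[ℝ] E (m + n) := ContinuousLinearMap.adjoint (prH m n)

/-- inclusion of the vertical plane -/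
noncomputable def inV (m n : ℕ) : E n →L[ℝ] E (m + n) := ContinuousLinearMap.adjoint (prV m n)

/-- graph map `F y = (y, u y)` -/
noncomputable def Fg (u : E m → E n) (y : E m) : E (m + n) := mkHV y (u y)

/-- differential of a graph map with slope `A` -/
noncomputable def dF (A : E m →L[ℝ] E n) : E m →L[ℝ] E (m + n) := inH m n + inV m n ∘L A

/-- metric `g = I + Aᵀ A` of a graph with slope `A` -/
noncomputable def gmat (A : E m →L[ℝ] E n) : E m →L[ℝ] E m :=
  ContinuousLinearMap.id ℝ (E m) + ContinuousLinearMap.adjoint A ∘L A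

/-- volume density `sqrt det g` -/
noncomputable def vdens (A : E m →L[ℝ] E n) : ℝ :=
  Real.sqrt (LinearMap.det ((gmat A : E m →L[ℝ] E m) : E m →ₗ[ℝ] E m))

/-- orthogonal projection onto the tangent plane of a graph with slope `A` -/
noncomputable def PhA (A : E m →L[ℝ] E n) : E (m + n) →L[ℝ] E (m + n) :=
  (LinearMap.range ((dF A : E m →L[ℝ] E (m + n)) : E m →ₗ[ℝ] E (m + n))).starProjection

/-- horizontal projection `P_h(y)` (onto `T_y S`) -/
noncomputable def Ph (u : E m → E n) (y : E m) : E (m + n) →L[ℝ] E (m + n) := PhA (fderiv ℝ u y)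

/-- vertical projection `P_v(y)` (onto `N_y S`) -/
noncomputable def Pv (u : E m → E n) (y : E m) : E (m + n) →L[ℝ] E (m + n) :=
  ContinuousLinearMap.id ℝ _ - Ph u y

/-- second derivative of `u` -/
noncomputable def D2 (u : E m → E n) (y : E m) : E m →L[ℝ] E m →L[ℝ] E n :=
  fderiv ℝ (fderiv ℝ u) y

/-- second fundamental form in graph coordinates: `II(a,b) = (∂_a ∂_b F)^⊥` -/
noncomputable def II (u : E m → E n) (y : E m) (a b : E m) : E (m + n) :=
  Pv u y (inV m n (D2 u y a b))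

/-- mean curvature vector `H_S = g^{ab} II_{ab}` -/
noncomputable def HS (u : E m → E n) (y : E m) : E (m + n) :=
  ∑ a : Fin m, II u y ((gmat (fderiv ℝ u y)).inverse (EuclideanSpace.single a 1))
    (EuclideanSpace.single a 1)

/-- normal derivative of the mean curvature in the coordinate direction `a` -/
noncomputable def DHS (u : E m → E n) (y : E m) (a : E m) : E (m + n) :=
  Pv u y (fderiv ℝ (HS u) y a)

/-- `|∇^⊥ H_S|² = g^{ab} ⟨∇^⊥_a H, ∇^⊥_b H⟩` -/
noncomputable def DHSsq (u : E m → E n) (y : E m) : ℝ :=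
  ∑ a : Fin m, inner ℝ (DHS u y ((gmat (fderiv ℝ u y)).inverse (EuclideanSpace.single a 1)))
    (DHS u y (EuclideanSpace.single a 1))

/-- graph coordinate of a nearest point of `S` (unique in the tube) -/
noncomputable def npr (u : E m → E n) (X : E (m + n)) : E m :=
  Classical.epsilon (fun y : E m => ∀ y' : E m, ‖X - Fg u y‖ ≤ ‖X - Fg u y'‖)

/-- normal displacement `z = X - π X` -/
noncomputable def zz (u : E m → E n) (X : E (m + n)) : E (m + n) := X - Fg u (npr u X)

/-- the class of reference graphs: `C^J`, slope `≤ ε`, derivatives of order `2..J` bounded by `K` -/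
structure RefGraph (J : ℕ) (K ε : ℝ) (u : E m → E n) : Prop where
  smooth : ContDiff ℝ J u
  slope : ∀ y, ‖fderiv ℝ u y‖ ≤ ε
  bound : ∀ j : ℕ, 2 ≤ j → j ≤ J → ∀ y, ‖iteratedFDeriv ℝ j u y‖ ≤ K

/-- open normal cylinder of height `h` over the base set `Ω` -/
def Cyl (u : E m → E n) (Ω : Set (E m)) (h : ℝ) : Set (E (m + n)) :=
  {X | npr u X ∈ Ω ∧ ‖zz u X‖ < h}

/-- tilt `e = tr (P_T P_v)` of the plane with projection `P` at the point `X` -/
noncomputable def tilt (u : E m → E n) (P : E (m + n) →L[ℝ] E (m + n)) (X : E (m + n)) : ℝ :=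
  tdiv P (Pv u (npr u X))

/-- `B = P_h (I - P_T) P_h` as an ambient operator -/
noncomputable def Bop (u : E m → E n) (P : E (m + n) →L[ℝ] E (m + n)) (X : E (m + n)) :
    E (m + n) →L[ℝ] E (m + n) :=
  Ph u (npr u X) ∘L (ContinuousLinearMap.id ℝ _ - P) ∘L Ph u (npr u X)

/-- `P_vh = P_v P_T P_h` as an ambient operator -/
noncomputable def Pvh (u : E m → E n) (P : E (m + n) →L[ℝ] E (m + n)) (X : E (m + n)) :
    E (m + n) →L[ℝ] E (m + n) :=
  Pv u (npr u X) ∘L P ∘L Ph u (npr u X)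

/-- geometric error density `λ = |z|² + |H_S|² + |∇^⊥ H_S|²` (in the current = physical units) -/
noncomputable def lam (u : E m → E n) (X : E (m + n)) : ℝ :=
  ‖zz u X‖ ^ 2 + ‖HS u (npr u X)‖ ^ 2 + DHSsq u (npr u X)

/-- **Interior normal cylinder.**  `W` restricted to `Cyl u Ω h` has a support-free gap
`h' ≤ |z| < h` at the artificial vertical boundary. -/
structure NCyl (m n : ℕ) where
  W : SIV m n
  u : E m → E n
  Ω : Set (E m)
  h : ℝ
  h' : ℝ
  Q : ℕ
  isOpen_Ω : IsOpen Ω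
  h'_pos : 0 < h'
  h'_lt : h' < h
  Q_pos : 1 ≤ Q
  cyl_sub : Cyl u Ω h ⊆ W.U
  gap : ∀ X ∈ W.support, X ∈ Cyl u Ω h → ‖zz u X‖ < h'

namespace NCyl

/-- restricted weight -/
noncomputable def μ (N : NCyl m n) : Measure (E (m + n)) := N.W.μ.restrict (Cyl N.u N.Ω N.h)

/-- projected mass `ν = π_# μ` (measure on the base, graph coordinates) -/
noncomputable def nu (N : NCyl m n) : Measure (E m) := N.μ.map (npr N.u)

/-- reference volume `vol_S = sqrt(det g) dy` on `Ω` -/
noncomputable def volS (N : NCyl m n) : Measure (E m) :=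
  ((μH[(m : ℝ)]).restrict N.Ω).withDensity (fun y => ENNReal.ofReal (vdens (fderiv ℝ N.u y)))

/-- tilt measure `D = π_# (e μ)` -/
noncomputable def Dm (N : NCyl m n) : Measure (E m) :=
  (N.μ.withDensity (fun X => ENNReal.ofReal (tilt N.u (N.W.P X) X))).map (npr N.u)

/-- geometric error measure `Λ = π_# (λ μ)` -/
noncomputable def Lm (N : NCyl m n) : Measure (E m) :=
  (N.μ.withDensity (fun X => ENNReal.ofReal (lam N.u X))).map (npr N.u)

/-- total variation `|M|` of `M = ν - Q vol_S` on `Ω`, through the Lebesgue decomposition of `ν`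
with respect to `μH[m]` (same shape as `Sx.Sys.absM`). -/
noncomputable def Mabs (N : NCyl m n) : Measure (E m) :=
  (N.nu.singularPart (μH[(m : ℝ)]) + (μH[(m : ℝ)]).withDensity fun y =>
    ENNReal.ofReal |(N.nu.rnDeriv (μH[(m : ℝ)]) y).toReal - N.Q * vdens (fderiv ℝ N.u y)|).restrict
      N.Ω

/-- `τ = |M| + D + Λ` -/
noncomputable def tau (N : NCyl m n) : Measure (E m) := N.Mabs + N.Dm + N.Lm

/-- `∫ η dM` -/
noncomputable def intM (N : NCyl m n) (η : E m → ℝ) : ℝ :=
  ∫ y, η y ∂N.nu - N.Q * ∫ y, η y ∂N.volS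

/-- projected count `N(y)`: points of the normal fibre over `y`, with multiplicity -/
noncomputable def cnt (N : NCyl m n) (y : E m) : ℝ≥0∞ :=
  ∑' X : {X // X ∈ N.W.M ∩ Cyl N.u N.Ω N.h ∧ npr N.u X = y}, (N.W.θ X : ℝ≥0∞)

/-- supremum of the support height over a base set -/
noncomputable def supz (N : NCyl m n) (A : Set (E m)) : ℝ :=
  sSup {t : ℝ | ∃ X ∈ N.W.support, X ∈ Cyl N.u N.Ω N.h ∧ npr N.u X ∈ A ∧ t = ‖zz N.u X‖}

end NCyl

/-- the rate `F_Q(T) = exp_{2Q} (sqrt (log_{2Q} T))` -/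
noncomputable def FQ (Q : ℕ) (T : ℝ) : ℝ :=
  Real.exp^[2 * Q] (Real.sqrt (Real.log^[2 * Q] T))

end Claimed.Agent.R322.Tube
end

/- ===== packed: Claimed.Agent.R322.Tube.GeomDefs ===== -/
section
/-!
# Tube geometry over a graph: the operators (definitions for `Tube/Geom.lean`); list of facts: (AE Lemmas 2.2, 2.3, (7.9); CO (6.4)-(6.6))

Everything is written with ambient operators on `E (m+n)`; no frames, no geodesics.
`y = npr u X`, `z = zz u X`.

* `dFp A = g⁻¹ dFᵀ` (pseudo-inverse of the differential of the graph map);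
* `Shp u y w` = shape operator `A_w` (`⟨A_w a, b⟩ = ⟨II(a,b), w⟩`), extended by `0` on normal vectors;
  formula `A_w a = (D_α P_h)(P_v w)`, `α = dFp a`;
* `Jz u X = 1 - A_z`, `Kz u X = Jz⁻¹`;
* `lift u Xc X = J_z dF(y) Xc(y)` the lift of the tangent field with chart components `Xc`;
* `divS`, `nabS` divergence and covariant derivative on `S`.

The statements below are the interface of the package `BP-Tube-geom`; constants depend only on
`m, n`.  The geometric bound is `κ₂ ≥ |D²u| + |D³u|` (everywhere), `κ₂ ≤ 1`, slope `≤ 1/2`.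
-/

set_option autoImplicit false

open scoped ENNReal ContDiff
open MeasureTheory

namespace Claimed.Agent.R322.Tube

variable {m n : ℕ}

/-- trace of an ambient operator -/
noncomputable def trc {N : ℕ} (A : E N →L[ℝ] E N) : ℝ :=
  LinearMap.trace ℝ (E N) (A : E N →ₗ[ℝ] E N)

/-- pseudo-inverse `g⁻¹ dFᵀ` of `dF A` -/
noncomputable def dFp (A : E m →L[ℝ] E n) : E (m + n) →L[ℝ] E m :=
  (gmat A).inverse ∘L ContinuousLinearMap.adjoint (dF A)

/-- shape operator `A_w` at the base point `y` (ambient operator, zero on normal vectors) -/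
noncomputable def Shp (u : E m → E n) (y : E m) (w : E (m + n)) : E (m + n) →L[ℝ] E (m + n) :=
  ((fderiv ℝ (Ph u) y).flip (Pv u y w)) ∘L dFp (fderiv ℝ u y)

/-- `J_z = 1 - A_z` at the point `X` of the tube -/
noncomputable def Jz (u : E m → E n) (X : E (m + n)) : E (m + n) →L[ℝ] E (m + n) :=
  ContinuousLinearMap.id ℝ _ - Shp u (npr u X) (zz u X)

/-- `K_z = J_z⁻¹` -/
noncomputable def Kz (u : E m → E n) (X : E (m + n)) : E (m + n) →L[ℝ] E (m + n) :=
  (Jz u X).inverse

/-- the tangent field of `S` with chart components `Xc`, as an ambient vector at `F y` -/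
noncomputable def tanF (u : E m → E n) (Xc : E m → E m) (y : E m) : E (m + n) :=
  dF (fderiv ℝ u y) (Xc y)

/-- lift `J_z X` of a tangent field to the tube -/
noncomputable def lift (u : E m → E n) (Xc : E m → E m) (X : E (m + n)) : E (m + n) :=
  Jz u X (tanF u Xc (npr u X))

/-- divergence on `S` in the graph chart: `(1/√g) ∂_i (√g X^i)` -/
noncomputable def divS (u : E m → E n) (Xc : E m → E m) (y : E m) : ℝ :=
  trc (fderiv ℝ Xc y) + fderiv ℝ (fun y' => Real.log (vdens (fderiv ℝ u y'))) y (Xc y)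

/-- covariant derivative `∇^S X` as an ambient operator (`a ↦ P_h D_a X`, zero on normal vectors) -/
noncomputable def nabS (u : E m → E n) (Xc : E m → E m) (y : E m) : E (m + n) →L[ℝ] E (m + n) :=
  Ph u y ∘L fderiv ℝ (tanF u Xc) y ∘L dFp (fderiv ℝ u y)

/-- open tube of radius `h` around the graph -/
def Tub (u : E m → E n) (h : ℝ) : Set (E (m + n)) := {X | ∃ y : E m, ‖X - Fg u y‖ < h}

/-- bounded geometry used in the pointwise formulas -/
structure Geo (κ₂ : ℝ) (u : E m → E n) : Prop where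
  smooth : ContDiff ℝ 4 u
  slope : ∀ y, ‖fderiv ℝ u y‖ ≤ 1 / 2
  d2 : ∀ y, ‖iteratedFDeriv ℝ 2 u y‖ ≤ κ₂
  d3 : ∀ y, ‖iteratedFDeriv ℝ 3 u y‖ ≤ κ₂
  le_one : κ₂ ≤ 1

end Claimed.Agent.R322.Tube
end

/- ===== packed: Claimed.Agent.R322.Tube.Geom.Split ===== -/
section
/-!
# Row 322, Tube/Geom/Split: the splitting `E (m+n) = E m ⊕ E n` and the linear algebra of a graph

`A : E m →L E n` is the slope.  `dF A = (1, A)`, `gmat A = 1 + AᵀA`, `dFp A = g⁻¹ dFᵀ`,
`PhA A = dF g⁻¹ dFᵀ` (orthogonal projection onto the range of `dF A`).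
-/

set_option autoImplicit false

open scoped ENNReal ContDiff Topology
open MeasureTheory

namespace Claimed.Agent.R322.Tube

variable {m n : ℕ}

local notation "adj" => ContinuousLinearMap.adjoint

/-! ### the splitting -/

theorem prH_apply (x : E (m + n)) (i : Fin m) : prH m n x i = x (Fin.castAdd n i) := rfl

theorem prV_apply (x : E (m + n)) (i : Fin n) : prV m n x i = x (Fin.natAdd m i) := rfl

theorem prH_mkHV (y : E m) (z : E n) : prH m n (mkHV y z) = y := by
  ext i
  simp [prH_apply, mkHV]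

theorem prV_mkHV (y : E m) (z : E n) : prV m n (mkHV y z) = z := by
  ext i
  simp [prV_apply, mkHV]

theorem mkHV_prH_prV (X : E (m + n)) : mkHV (prH m n X) (prV m n X) = X := by
  ext i
  refine Fin.addCases (fun j => ?_) (fun j => ?_) i <;> simp [mkHV, prH_apply, prV_apply]

theorem inner_mkHV (y y' : E m) (z z' : E n) :
    inner ℝ (mkHV y z) (mkHV y' z') = inner ℝ y y' + inner ℝ z z' := by
  simp only [PiLp.inner_apply, mkHV, Fin.sum_univ_add]
  simp

theorem norm_sq_mkHV (y : E m) (z : E n) : ‖mkHV y z‖ ^ 2 = ‖y‖ ^ 2 + ‖z‖ ^ 2 := by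
  rw [← real_inner_self_eq_norm_sq, ← real_inner_self_eq_norm_sq, ← real_inner_self_eq_norm_sq,
    inner_mkHV]

theorem mkHV_add (y y' : E m) (z z' : E n) : mkHV (y + y') (z + z') = mkHV y z + mkHV y' z' := by
  ext i
  refine Fin.addCases (fun j => ?_) (fun j => ?_) i <;> simp [mkHV]

theorem mkHV_sub (y y' : E m) (z z' : E n) : mkHV (y - y') (z - z') = mkHV y z - mkHV y' z' := by
  ext i
  refine Fin.addCases (fun j => ?_) (fun j => ?_) i <;> simp [mkHV]

theorem inH_apply (y : E m) : inH m n y = mkHV y 0 := by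
  refine ext_inner_right ℝ fun x => ?_
  rw [inH, ContinuousLinearMap.adjoint_inner_left]
  conv_rhs => rw [← mkHV_prH_prV x, inner_mkHV]
  simp

theorem inV_apply (z : E n) : inV m n z = mkHV 0 z := by
  refine ext_inner_right ℝ fun x => ?_
  rw [inV, ContinuousLinearMap.adjoint_inner_left]
  conv_rhs => rw [← mkHV_prH_prV x, inner_mkHV]
  simp

theorem mkHV_eq (y : E m) (z : E n) : mkHV y z = inH m n y + inV m n z := by
  rw [inH_apply, inV_apply, ← mkHV_add, add_zero, zero_add]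

theorem prH_inH (y : E m) : prH m n (inH m n y) = y := by rw [inH_apply, prH_mkHV]

theorem prV_inV (z : E n) : prV m n (inV m n z) = z := by rw [inV_apply, prV_mkHV]

theorem prH_inV (z : E n) : prH m n (inV m n z) = 0 := by rw [inV_apply, prH_mkHV]

theorem prV_inH (y : E m) : prV m n (inH m n y) = 0 := by rw [inH_apply, prV_mkHV]

theorem inH_prH_add_inV_prV (X : E (m + n)) : inH m n (prH m n X) + inV m n (prV m n X) = X := by
  rw [← mkHV_eq, mkHV_prH_prV]

theorem norm_inH (y : E m) : ‖inH m n y‖ = ‖y‖ := by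
  have := norm_sq_mkHV y (0 : E n)
  rw [norm_zero, zero_pow two_ne_zero, add_zero, ← inH_apply] at this
  exact (sq_eq_sq₀ (norm_nonneg _) (norm_nonneg _)).1 this

theorem norm_inV (z : E n) : ‖inV m n z‖ = ‖z‖ := by
  have := norm_sq_mkHV (0 : E m) z
  rw [norm_zero, zero_pow two_ne_zero, zero_add, ← inV_apply] at this
  exact (sq_eq_sq₀ (norm_nonneg _) (norm_nonneg _)).1 this

theorem norm_sq_eq_prH_prV (X : E (m + n)) : ‖X‖ ^ 2 = ‖prH m n X‖ ^ 2 + ‖prV m n X‖ ^ 2 := by
  conv_lhs => rw [← mkHV_prH_prV X]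
  exact norm_sq_mkHV _ _

theorem norm_prH_le (X : E (m + n)) : ‖prH m n X‖ ≤ ‖X‖ := by
  have := norm_sq_eq_prH_prV X
  exact abs_le_of_sq_le_sq' (by nlinarith [sq_nonneg ‖prV m n X‖]) (norm_nonneg _) |>.2

theorem norm_prV_le (X : E (m + n)) : ‖prV m n X‖ ≤ ‖X‖ := by
  have := norm_sq_eq_prH_prV X
  exact abs_le_of_sq_le_sq' (by nlinarith [sq_nonneg ‖prH m n X‖]) (norm_nonneg _) |>.2

theorem inner_inV_left (z : E n) (X : E (m + n)) : inner ℝ (inV m n z) X = inner ℝ z (prV m n X) :=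
  ContinuousLinearMap.adjoint_inner_left _ _ _

theorem inner_inH_left (y : E m) (X : E (m + n)) : inner ℝ (inH m n y) X = inner ℝ y (prH m n X) :=
  ContinuousLinearMap.adjoint_inner_left _ _ _

/-! ### the differential of the graph map -/

theorem dF_apply (A : E m →L[ℝ] E n) (v : E m) : dF A v = mkHV v (A v) := by
  rw [mkHV_eq]
  rfl

theorem prH_dF (A : E m →L[ℝ] E n) (v : E m) : prH m n (dF A v) = v := by
  rw [dF_apply, prH_mkHV]

theorem prV_dF (A : E m →L[ℝ] E n) (v : E m) : prV m n (dF A v) = A v := by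
  rw [dF_apply, prV_mkHV]

theorem prH_comp_dF (A : E m →L[ℝ] E n) : prH m n ∘L dF A = ContinuousLinearMap.id ℝ (E m) := by
  ext1 v
  exact prH_dF A v

theorem prV_comp_dF (A : E m →L[ℝ] E n) : prV m n ∘L dF A = A := by
  ext1 v
  exact prV_dF A v

theorem dF_injective (A : E m →L[ℝ] E n) : Function.Injective (dF A) := by
  intro v w h
  have := congrArg (prH m n) h
  rwa [prH_dF, prH_dF] at this

theorem adjoint_dF (A : E m →L[ℝ] E n) : adj (dF A) = prH m n + adj A ∘L prV m n := by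
  unfold dF inH inV
  rw [map_add, ContinuousLinearMap.adjoint_comp, ContinuousLinearMap.adjoint_adjoint,
    ContinuousLinearMap.adjoint_adjoint]

theorem adjoint_dF_apply (A : E m →L[ℝ] E n) (X : E (m + n)) :
    adj (dF A) X = prH m n X + adj A (prV m n X) := by
  rw [adjoint_dF]
  rfl

theorem norm_le_norm_dF (A : E m →L[ℝ] E n) (v : E m) : ‖v‖ ≤ ‖dF A v‖ := by
  have := norm_prH_le (dF A v)
  rwa [prH_dF] at this

theorem norm_dF_apply_le (A : E m →L[ℝ] E n) (v : E m) : ‖dF A v‖ ≤ (1 + ‖A‖) * ‖v‖ := by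
  have h1 : dF A v = inH m n v + inV m n (A v) := rfl
  rw [h1]
  refine (norm_add_le _ _).trans ?_
  rw [norm_inH, norm_inV, add_mul, one_mul]
  gcongr
  exact A.le_opNorm v

theorem norm_dF_le (A : E m →L[ℝ] E n) : ‖dF A‖ ≤ 1 + ‖A‖ :=
  ContinuousLinearMap.opNorm_le_bound _ (by positivity) (norm_dF_apply_le A)

/-! ### the metric -/

theorem adjoint_dF_comp_dF (A : E m →L[ℝ] E n) : adj (dF A) ∘L dF A = gmat A := by
  ext1 v
  rw [ContinuousLinearMap.comp_apply, adjoint_dF_apply, prH_dF, prV_dF]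
  rfl

theorem inner_gmat (A : E m →L[ℝ] E n) (v w : E m) :
    inner ℝ (gmat A v) w = inner ℝ v w + inner ℝ (A v) (A w) := by
  unfold gmat
  rw [add_apply, inner_add_left, ContinuousLinearMap.comp_apply,
    ContinuousLinearMap.adjoint_inner_left]
  rfl

theorem isUnit_gmat (A : E m →L[ℝ] E n) : IsUnit (gmat A) := by
  rw [← adjoint_dF_comp_dF]
  exact Base.Area.isUnit_gram _ (dF_injective A)

theorem gmat_inverse_eq (A : E m →L[ℝ] E n) : (gmat A).inverse = Ring.inverse (gmat A) := by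
  rw [ContinuousLinearMap.ringInverse_eq_inverse]

theorem gmat_inverse_comp (A : E m →L[ℝ] E n) :
    (gmat A).inverse ∘L gmat A = ContinuousLinearMap.id ℝ (E m) := by
  rw [gmat_inverse_eq]
  exact Ring.inverse_mul_cancel _ (isUnit_gmat A)

theorem gmat_comp_inverse (A : E m →L[ℝ] E n) :
    gmat A ∘L (gmat A).inverse = ContinuousLinearMap.id ℝ (E m) := by
  rw [gmat_inverse_eq]
  exact Ring.mul_inverse_cancel _ (isUnit_gmat A)

theorem gmat_inverse_apply_gmat (A : E m →L[ℝ] E n) (v : E m) :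
    (gmat A).inverse (gmat A v) = v :=
  congrArg (fun T : E m →L[ℝ] E m => T v) (gmat_inverse_comp A)

theorem gmat_apply_inverse (A : E m →L[ℝ] E n) (v : E m) :
    gmat A ((gmat A).inverse v) = v :=
  congrArg (fun T : E m →L[ℝ] E m => T v) (gmat_comp_inverse A)

theorem gmat_symm (A : E m →L[ℝ] E n) (v w : E m) :
    inner ℝ (gmat A v) w = inner ℝ v (gmat A w) := by
  rw [inner_gmat, real_inner_comm (gmat A w) v, inner_gmat, real_inner_comm v w,
    real_inner_comm (A v) (A w)]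

theorem gmat_inverse_symm (A : E m →L[ℝ] E n) (v w : E m) :
    inner ℝ ((gmat A).inverse v) w = inner ℝ v ((gmat A).inverse w) := by
  conv_lhs => rw [← gmat_apply_inverse A w]
  rw [← gmat_symm, gmat_apply_inverse]

theorem adjoint_gmat_inverse (A : E m →L[ℝ] E n) : adj (gmat A).inverse = (gmat A).inverse := by
  ext1 v
  refine ext_inner_right ℝ fun w => ?_
  rw [ContinuousLinearMap.adjoint_inner_left, gmat_inverse_symm]

theorem norm_le_norm_gmat (A : E m →L[ℝ] E n) (v : E m) : ‖v‖ ≤ ‖gmat A v‖ := by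
  have h1 : ‖v‖ ^ 2 ≤ inner ℝ (gmat A v) v := by
    rw [inner_gmat, real_inner_self_eq_norm_sq, real_inner_self_eq_norm_sq]
    nlinarith [sq_nonneg ‖A v‖]
  have h2 := real_inner_le_norm (gmat A v) v
  by_cases hv : ‖v‖ = 0
  · rw [hv]; exact norm_nonneg _
  · have hpos : 0 < ‖v‖ := lt_of_le_of_ne (norm_nonneg _) (Ne.symm hv)
    nlinarith

theorem norm_gmat_inverse_apply_le (A : E m →L[ℝ] E n) (v : E m) :
    ‖(gmat A).inverse v‖ ≤ ‖v‖ := by
  have := norm_le_norm_gmat A ((gmat A).inverse v)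
  rwa [gmat_apply_inverse] at this

theorem norm_gmat_inverse_le (A : E m →L[ℝ] E n) : ‖(gmat A).inverse‖ ≤ 1 :=
  ContinuousLinearMap.opNorm_le_bound _ zero_le_one fun v => by
    rw [one_mul]; exact norm_gmat_inverse_apply_le A v

/-- `g⁻¹` is positive. -/
theorem inner_gmat_inverse_nonneg (A : E m →L[ℝ] E n) (v : E m) :
    0 ≤ inner ℝ ((gmat A).inverse v) v := by
  conv_rhs => rw [← gmat_apply_inverse A v, real_inner_comm, inner_gmat]
  rw [gmat_apply_inverse]
  exact add_nonneg real_inner_self_nonneg real_inner_self_nonneg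

/-! ### the pseudo-inverse and the tangent projection -/

theorem dFp_comp_dF (A : E m →L[ℝ] E n) : dFp A ∘L dF A = ContinuousLinearMap.id ℝ (E m) := by
  unfold dFp
  rw [ContinuousLinearMap.comp_assoc, adjoint_dF_comp_dF, gmat_inverse_comp]

theorem dFp_dF (A : E m →L[ℝ] E n) (v : E m) : dFp A (dF A v) = v :=
  congrArg (fun T : E m →L[ℝ] E m => T v) (dFp_comp_dF A)

theorem projR_dF (A : E m →L[ℝ] E n) : Base.Area.projR (dF A) = dF A ∘L dFp A := by
  unfold Base.Area.projR dFp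
  rw [adjoint_dF_comp_dF, gmat_inverse_eq]

theorem PhA_eq (A : E m →L[ℝ] E n) : PhA A = dF A ∘L dFp A := by
  ext1 x
  unfold PhA
  refine Submodule.eq_starProjection_of_mem_of_inner_eq_zero
    (v := (dF A ∘L dFp A) x) (LinearMap.mem_range.2 ⟨dFp A x, rfl⟩) ?_
  rintro _ ⟨v, rfl⟩
  change inner ℝ (x - dF A (dFp A x)) (dF A v) = 0
  rw [← ContinuousLinearMap.adjoint_inner_left, map_sub]
  have : adj (dF A) (dF A (dFp A x)) = adj (dF A) x := by
    change (adj (dF A) ∘L dF A) (dFp A x) = _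
    rw [adjoint_dF_comp_dF]
    exact gmat_apply_inverse A _
  rw [this, sub_self, inner_zero_left]

theorem PhA_eq_projR (A : E m →L[ℝ] E n) : PhA A = Base.Area.projR (dF A) := by
  rw [PhA_eq, projR_dF]

theorem isProj_PhA (A : E m →L[ℝ] E n) : IsProj m (PhA A) := by
  rw [PhA_eq_projR]
  exact Base.Area.projR_isProj _ (dF_injective A)

theorem PhA_comp_dF (A : E m →L[ℝ] E n) : PhA A ∘L dF A = dF A := by
  rw [PhA_eq_projR]
  exact Base.Area.projR_comp_self _ (dF_injective A)

theorem PhA_dF (A : E m →L[ℝ] E n) (v : E m) : PhA A (dF A v) = dF A v :=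
  congrArg (fun T : E m →L[ℝ] E (m + n) => T v) (PhA_comp_dF A)

theorem dFp_comp_PhA (A : E m →L[ℝ] E n) : dFp A ∘L PhA A = dFp A := by
  rw [PhA_eq, ← ContinuousLinearMap.comp_assoc, dFp_comp_dF, ContinuousLinearMap.id_comp]

theorem adjoint_PhA (A : E m →L[ℝ] E n) : adj (PhA A) = PhA A := by
  rw [PhA_eq_projR]
  exact Base.Area.adjoint_projR _ (dF_injective A)

/-- `dFᵀ P_h = dFᵀ`. -/
theorem adjoint_dF_comp_PhA (A : E m →L[ℝ] E n) : adj (dF A) ∘L PhA A = adj (dF A) := by
  have h := congrArg adj (PhA_comp_dF A)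
  rwa [ContinuousLinearMap.adjoint_comp, adjoint_PhA] at h

/-- `dFᵀ (1 - P_h) = 0`. -/
theorem adjoint_dF_comp_sub (A : E m →L[ℝ] E n) :
    adj (dF A) ∘L (ContinuousLinearMap.id ℝ (E (m + n)) - PhA A) = 0 := by
  rw [ContinuousLinearMap.comp_sub, ContinuousLinearMap.comp_id, adjoint_dF_comp_PhA, sub_self]

/-- a vector is normal iff `dFᵀ` kills it. -/
theorem PhA_eq_zero_iff (A : E m →L[ℝ] E n) (w : E (m + n)) :
    PhA A w = 0 ↔ adj (dF A) w = 0 := by
  constructor
  · intro h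
    have := congrArg (fun T : E (m + n) →L[ℝ] E m => T w) (adjoint_dF_comp_PhA A)
    simp only [ContinuousLinearMap.comp_apply, h, map_zero] at this
    exact this.symm
  · intro h
    rw [PhA_eq]
    simp only [ContinuousLinearMap.comp_apply, dFp, h, map_zero]

theorem norm_dFp_le (A : E m →L[ℝ] E n) : ‖dFp A‖ ≤ 1 + ‖A‖ := by
  unfold dFp
  refine (ContinuousLinearMap.opNorm_comp_le _ _).trans ?_
  rw [LinearIsometryEquiv.norm_map]
  calc ‖(gmat A).inverse‖ * ‖dF A‖ ≤ 1 * (1 + ‖A‖) := by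
        gcongr
        · exact norm_gmat_inverse_le A
        · exact norm_dF_le A
    _ = 1 + ‖A‖ := one_mul _

end Claimed.Agent.R322.Tube
end

/- ===== packed: Claimed.Agent.R322.Sx.Sep.Charge ===== -/
section
/-!
# R322 / Sx / Sep / Charge : the two charging steps of AE Proposition 4.3 (leaves `L-Sep-Bad`, `L-Sep-Good`)

No geometry: measures on `E m`.  The value of a measure on an arbitrary set is its outer measure, so no measurable
selection is needed.

`bad_total` = AE (4.34)-(4.37), "First charging step".  `ν = τ' + d dy`.  Steps: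
1. layer cake: `μ_s(x) = (2π)^{-m/2} s^{-m} ∫_0^∞ t e^{-t²/2} μ(closedBall x (t s)) dt` for `μ = h, ν`;
2. at a bad contact the part `t ≤ J` of `ν_s` is `≤ h_s/(A0 p)`, hence `h_s ≤ 2 C0 p 𝒯_{J,s} ν`,
   `𝒯_{J,s} ν (x) = (2π)^{-m/2} s^{-m} ∫_J^∞ t e^{-t²/2} ν(closedBall x (t s)) dt`;
3. `h(closedBall x (5 s)) ≤ C s^m h_s(x)` (`measure_ball_le_gav'`);
4. Vitali (`Vitali.exists_disjoint_subfamily_covering_enlargement_closedBall`) for the balls `closedBall x s`;
5. dyadic bins of the scales (`≤ 1 + log₂(ρ/a)` bins); in a bin, disjointness gives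
   `∑_j 1_{closedBall x_j (t s_j)} ≤ C (1 + t)^m`; all these balls lie in `ball xs (R + t ρ + …)`, of `ν`-mass
   `≤ C (1 + t)^m (τ'(univ) + d R^m)`;  Tonelli;  `∫_J^∞ t (1+t)^{2m} e^{-t²/2} dt ≤ C (1+J)^{2m} e^{-J²/2}`.

`good_total` = AE (4.41), "Second charging step": Besicovitch (`Besicovitch.exist_disjoint_covering_families`
with the ball package indexed by `𝒢`; `E m` has the Besicovitch covering property), original balls.

Proofs: helper116 (helper lemmas prefix `chg`).
-/

set_option autoImplicit false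

namespace Claimed.Agent.R322.Sx.Sep

open MeasureTheory Set Metric
open scoped ENNReal NNReal

/-- **Second charging step.** -/
theorem good_total (m : ℕ) :
    ∃ Nm : ℕ, ∀ (h ν : Measure (E m)) (𝒢 : Set (E m × ℝ)) (Ev : Set (E m)) (c rmax : ℝ),
      (∀ z ∈ 𝒢, 0 < z.2 ∧ z.2 ≤ rmax ∧ closedBall z.1 z.2 ⊆ Ev ∧
        h (closedBall z.1 z.2) ≤ ENNReal.ofReal c * ν (closedBall z.1 z.2)) →
      h (Prod.fst '' 𝒢) ≤ (Nm : ℝ≥0∞) * ENNReal.ofReal c * ν Ev := by
  obtain ⟨N, τ, hτ, hN⟩ := HasBesicovitchCovering.no_satelliteConfig (α := E m)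
  refine ⟨N, fun h ν 𝒢 Ev c rmax H => ?_⟩
  let q : Besicovitch.BallPackage 𝒢 (E m) :=
    { c := fun z => z.1.1
      r := fun z => z.1.2
      rpos := fun z => (H z.1 z.2).1
      r_bound := rmax
      r_le := fun z => (H z.1 z.2).2.1 }
  obtain ⟨s, hs1, hs2⟩ := Besicovitch.exist_disjoint_covering_families hτ hN q
  have hsub : Prod.fst '' 𝒢 ⊆ ⋃ i : Fin N, ⋃ j ∈ s i, ball (q.c j) (q.r j) := by
    refine subset_trans ?_ hs2
    rintro _ ⟨z, hz, rfl⟩
    exact ⟨⟨z, hz⟩, rfl⟩
  have hi : ∀ i : Fin N, h (⋃ j ∈ s i, ball (q.c j) (q.r j)) ≤ ENNReal.ofReal c * ν Ev := by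
    intro i
    have hc : (s i).Countable := (hs1 i).countable_of_nonempty_interior (fun j _ => by
      rw [interior_closedBall _ (q.rpos j).ne']
      exact nonempty_ball.2 (q.rpos j))
    calc h (⋃ j ∈ s i, ball (q.c j) (q.r j)) ≤ ∑' j : s i, h (ball (q.c j) (q.r j)) :=
          measure_biUnion_le _ hc _
      _ ≤ ∑' j : s i, ENNReal.ofReal c * ν (closedBall (q.c j) (q.r j)) :=
          ENNReal.tsum_le_tsum fun j =>
            (measure_mono ball_subset_closedBall).trans (H j.1.1 j.1.2).2.2.2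
      _ = ENNReal.ofReal c * ∑' j : s i, ν (closedBall (q.c j) (q.r j)) := ENNReal.tsum_mul_left
      _ = ENNReal.ofReal c * ν (⋃ j ∈ s i, closedBall (q.c j) (q.r j)) := by
          rw [measure_biUnion hc (hs1 i) (fun _ _ => measurableSet_closedBall)]
      _ ≤ ENNReal.ofReal c * ν Ev := by
          gcongr
          exact iUnion₂_subset fun j _ => (H j.1 j.2).2.2.1
  calc h (Prod.fst '' 𝒢) ≤ h (⋃ i : Fin N, ⋃ j ∈ s i, ball (q.c j) (q.r j)) := measure_mono hsub
    _ ≤ ∑ i : Fin N, h (⋃ j ∈ s i, ball (q.c j) (q.r j)) := measure_iUnion_fintype_le _ _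
    _ ≤ ∑ _i : Fin N, ENNReal.ofReal c * ν Ev := Finset.sum_le_sum fun i _ => hi i
    _ = (N : ℝ≥0∞) * ENNReal.ofReal c * ν Ev := by simp [mul_assoc]

/-! ## tools for the first charging step -/

/-- FTC on a half line, in `lintegral` form -/
theorem chg_lintegral_Ioi {g g' : ℝ → ℝ} {a l : ℝ} (hderiv : ∀ x ∈ Ici a, HasDerivAt g (g' x) x)
    (g'pos : ∀ x ∈ Ioi a, 0 ≤ g' x) (hg : Filter.Tendsto g Filter.atTop (nhds l)) :
    ∫⁻ x in Ioi a, ENNReal.ofReal (g' x) = ENNReal.ofReal (l - g a) := by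
  rw [← integral_Ioi_of_hasDerivAt_of_nonneg' hderiv g'pos hg]
  rw [ofReal_integral_eq_lintegral_ofReal (integrableOn_Ioi_deriv_of_nonneg' hderiv g'pos hg)]
  exact (ae_restrict_iff' measurableSet_Ioi).2 (Filter.Eventually.of_forall g'pos)

/-- the radial weight -/
noncomputable def chgW (t : ℝ) : ℝ≥0∞ := ENNReal.ofReal (t * Real.exp (-t ^ 2 / 2))

theorem chgW_measurable : Measurable chgW := by
  unfold chgW
  fun_prop

theorem chgW_of_nonpos {t : ℝ} (ht : t ≤ 0) : chgW t = 0 := by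
  unfold chgW
  exact ENNReal.ofReal_of_nonpos (mul_nonpos_of_nonpos_of_nonneg ht (Real.exp_pos _).le)

theorem chg_tendsto_exp_sq : Filter.Tendsto (fun t : ℝ => -Real.exp (-t ^ 2 / 2)) Filter.atTop (nhds 0) := by
  have h1 : Filter.Tendsto (fun t : ℝ => t ^ 2 / 2) Filter.atTop Filter.atTop :=
    (Filter.tendsto_pow_atTop (by norm_num)).atTop_div_const (by norm_num)
  have h2 := Real.tendsto_exp_neg_atTop_nhds_zero.comp h1
  have h3 := h2.neg
  simp only [neg_zero] at h3
  refine h3.congr fun t => ?_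
  simp only [Function.comp]
  congr 2
  ring

theorem chgW_lintegral_Ioi {r : ℝ} (hr : 0 ≤ r) :
    ∫⁻ t in Ioi r, chgW t = ENNReal.ofReal (Real.exp (-r ^ 2 / 2)) := by
  have h := chg_lintegral_Ioi (g := fun t : ℝ => -Real.exp (-t ^ 2 / 2))
    (g' := fun t => t * Real.exp (-t ^ 2 / 2)) (a := r) (l := 0)
    (fun t _ => by
      have h1 : HasDerivAt (fun t : ℝ => -t ^ 2 / 2) (-t) t := by
        have := ((hasDerivAt_pow 2 t).neg).div_const 2
        refine this.congr_deriv ?_
        simp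
        ring
      refine h1.exp.neg.congr_deriv ?_
      ring)
    (fun t ht => mul_nonneg (hr.trans (le_of_lt ht)) (Real.exp_pos _).le)
    chg_tendsto_exp_sq
  rw [zero_sub, neg_neg] at h
  exact h

theorem chgW_lintegral_Ici {r : ℝ} (hr : 0 ≤ r) :
    ∫⁻ t in Ici r, chgW t = ENNReal.ofReal (Real.exp (-r ^ 2 / 2)) := by
  rw [← chgW_lintegral_Ioi hr]
  exact setLIntegral_congr Ioi_ae_eq_Ici.symm

theorem chgW_lintegral : ∫⁻ t, chgW t = 1 := by
  have h1 : ∫⁻ t, chgW t = ∫⁻ t in Ioi 0, chgW t := by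
    rw [← lintegral_indicator measurableSet_Ioi]
    congr 1
    ext t
    by_cases ht : t ∈ Ioi (0 : ℝ)
    · rw [indicator_of_mem ht]
    · rw [indicator_of_notMem ht, chgW_of_nonpos (not_lt.1 ht)]
  rw [h1, chgW_lintegral_Ioi le_rfl]
  simp


variable {m : ℕ}

theorem chg_measurableSet_cone (x : E m) (s : ℝ) :
    MeasurableSet {p : E m × ℝ | ‖p.1 - x‖ ≤ p.2 * s} :=
  (isClosed_le (by fun_prop) (by fun_prop)).measurableSet

/-- layer cake for the Gaussian profile -/
theorem chg_layer (μ : Measure (E m)) [SFinite μ] {s : ℝ} (hs : 0 < s) (x : E m) :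
    ∫⁻ y, ENNReal.ofReal (Real.exp (-‖y - x‖ ^ 2 / (2 * s ^ 2))) ∂μ =
      ∫⁻ t, chgW t * μ (closedBall x (t * s)) := by
  have h1 : ∀ y : E m, ENNReal.ofReal (Real.exp (-‖y - x‖ ^ 2 / (2 * s ^ 2))) =
      ∫⁻ t, chgW t * indicator {p : E m × ℝ | ‖p.1 - x‖ ≤ p.2 * s} (fun _ => (1 : ℝ≥0∞)) (y, t) := by
    intro y
    have hr : 0 ≤ ‖y - x‖ / s := by positivity
    have e : -‖y - x‖ ^ 2 / (2 * s ^ 2) = -(‖y - x‖ / s) ^ 2 / 2 := by field_simp
    rw [e, ← chgW_lintegral_Ici hr, ← lintegral_indicator measurableSet_Ici]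
    congr 1
    ext t
    by_cases ht : ‖y - x‖ / s ≤ t
    · rw [indicator_of_mem (show t ∈ Ici _ from ht), indicator_of_mem, mul_one]
      show ‖y - x‖ ≤ t * s
      rwa [div_le_iff₀ hs] at ht
    · rw [indicator_of_notMem (show t ∉ Ici _ from ht), indicator_of_notMem, mul_zero]
      show ¬ ‖y - x‖ ≤ t * s
      rwa [div_le_iff₀ hs] at ht
  simp_rw [h1]
  rw [lintegral_lintegral_swap]
  · congr 1
    ext t
    rw [lintegral_const_mul]
    · congr 1
      have : (fun y : E m => indicator {p : E m × ℝ | ‖p.1 - x‖ ≤ p.2 * s} (fun _ => (1 : ℝ≥0∞)) (y, t))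
          = indicator (closedBall x (t * s)) 1 := by
        ext y
        simp [indicator, mem_closedBall, dist_eq_norm]
      rw [this, lintegral_indicator_one measurableSet_closedBall]
    · exact (measurable_const.indicator (chg_measurableSet_cone x s)).comp (by fun_prop)
  · refine Measurable.aemeasurable ?_
    exact (chgW_measurable.comp measurable_snd).mul
      (measurable_const.indicator (chg_measurableSet_cone x s))

/-- Gaussian averages in layer-cake form -/
theorem chg_ofReal_gav (μ : Measure (E m)) [SFinite μ] {s : ℝ} (hs : 0 < s) (x : E m)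
    (hint : Integrable (fun y => gauss m s (y - x)) μ) :
    ENNReal.ofReal (gav μ s x) =
      ENNReal.ofReal ((2 * Real.pi * s ^ 2) ^ (-(m : ℝ) / 2)) * ∫⁻ t, chgW t * μ (closedBall x (t * s)) := by
  unfold gav
  rw [ofReal_integral_eq_lintegral_ofReal hint
    (Filter.Eventually.of_forall fun y => (gauss_pos m hs _).le), ← chg_layer μ hs x,
    ← lintegral_const_mul _ (by fun_prop)]
  congr 1
  ext y
  unfold gauss
  rw [ENNReal.ofReal_mul (gk_coef_pos m hs).le]

theorem chg_measurable_ball (μ : Measure (E m)) (x : E m) {s : ℝ} (hs : 0 ≤ s) :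
    Measurable fun t : ℝ => μ (closedBall x (t * s)) := by
  apply Monotone.measurable
  intro t t' h
  exact measure_mono (closedBall_subset_closedBall (mul_le_mul_of_nonneg_right h hs))

/-- lower bound of the layer-cake integral by the mass of a ball -/
theorem chg_ball_le (μ : Measure (E m)) (x : E m) {s k : ℝ} (hs : 0 ≤ s) (hk : 0 ≤ k) :
    ENNReal.ofReal (Real.exp (-k ^ 2 / 2)) * μ (closedBall x (k * s)) ≤
      ∫⁻ t, chgW t * μ (closedBall x (t * s)) := by
  calc ENNReal.ofReal (Real.exp (-k ^ 2 / 2)) * μ (closedBall x (k * s))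
      = ∫⁻ t in Ici k, chgW t * μ (closedBall x (k * s)) := by
        rw [lintegral_mul_const _ chgW_measurable, chgW_lintegral_Ici hk]
    _ ≤ ∫⁻ t in Ici k, chgW t * μ (closedBall x (t * s)) := by
        refine setLIntegral_mono' measurableSet_Ici fun t ht => ?_
        gcongr
        exact ht
    _ ≤ _ := setLIntegral_le_lintegral _ _


/-- the tail functional `𝒯_{J,s} ν (x)` (without the normalising constant) -/
noncomputable def chgT (ν : Measure (E m)) (J : ℝ) (z : E m × ℝ) : ℝ≥0∞ :=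
  ∫⁻ t in Ioi J, chgW t * ν (closedBall z.1 (t * z.2))

theorem chg_contact (h τ' : Measure (E m)) [IsFiniteMeasure h] [IsFiniteMeasure τ'] {x : E m}
    {s J pp C0 A0 d : ℝ} (hs : 0 < s) (hpp : 0 < pp) (hC0 : 0 < C0) (hA : 2 * C0 ≤ A0) (hd : 0 ≤ d)
    (h1 : gav h s x ≤ C0 * pp * (gav τ' s x + d))
    (h2 : ∀ r, 0 < r → r ≤ J * s →
      ENNReal.ofReal (A0 * pp) * (τ' + ENNReal.ofReal d • (volume : Measure (E m))) (closedBall x r)
        ≤ h (closedBall x r)) :
    ∫⁻ t, chgW t * h (closedBall x (t * s)) ≤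
      2 * (ENNReal.ofReal (C0 * pp) * chgT (τ' + ENNReal.ofReal d • (volume : Measure (E m))) J (x, s)) := by
  set ν : Measure (E m) := τ' + ENNReal.ofReal d • (volume : Measure (E m)) with hν
  set Hs : ℝ≥0∞ := ∫⁻ t, chgW t * h (closedBall x (t * s)) with hHs
  set Ns : ℝ≥0∞ := ∫⁻ t, chgW t * ν (closedBall x (t * s)) with hNs
  have hHfin : Hs ≠ ⊤ := by
    have : Hs ≤ ∫⁻ t, chgW t * h univ := by
      refine lintegral_mono fun t => ?_
      gcongr
      exact subset_univ _
    rw [lintegral_mul_const _ chgW_measurable, chgW_lintegral, one_mul] at this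
    exact ne_top_of_le_ne_top (measure_ne_top h univ) this
  have hintν : Integrable (fun y => gauss m s (y - x)) ν :=
    (gauss_integrable τ' hs x).add_measure
      ((gauss_integrable_volume hs x).smul_measure ENNReal.ofReal_ne_top)
  -- Step A
  have hA1 : Hs ≤ ENNReal.ofReal (C0 * pp) * Ns := by
    have e1 : gav h s x ≤ C0 * pp * gav ν s x := by
      rw [hν, gav_add_volume τ' hd hs x]
      exact h1
    have e2 := ENNReal.ofReal_le_ofReal e1
    rw [ENNReal.ofReal_mul (by positivity), chg_ofReal_gav h hs x (gauss_integrable h hs x),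
      chg_ofReal_gav ν hs x hintν] at e2
    have e3 : ENNReal.ofReal ((2 * Real.pi * s ^ 2) ^ (-(m : ℝ) / 2)) * Hs ≤
        ENNReal.ofReal ((2 * Real.pi * s ^ 2) ^ (-(m : ℝ) / 2)) * (ENNReal.ofReal (C0 * pp) * Ns) := by
      refine e2.trans (le_of_eq ?_)
      rw [← mul_assoc, ← mul_assoc, mul_comm (ENNReal.ofReal (C0 * pp))]
    exact (ENNReal.mul_le_mul_iff_right (by simpa using gk_coef_pos m hs) ENNReal.ofReal_ne_top).1 e3
  -- Step B
  have hB : Ns = (∫⁻ t in Iic J, chgW t * ν (closedBall x (t * s))) + chgT ν J (x, s) := by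
    rw [hNs, ← lintegral_add_compl _ (measurableSet_Iic (a := J)), compl_Iic]
    rfl
  -- Step C
  have hC : ENNReal.ofReal (A0 * pp) * (∫⁻ t in Iic J, chgW t * ν (closedBall x (t * s))) ≤ Hs := by
    have hmeas : Measurable fun t : ℝ => chgW t * ν (closedBall x (t * s)) :=
      chgW_measurable.mul (chg_measurable_ball ν x hs.le)
    rw [← lintegral_const_mul _ hmeas]
    refine le_trans (setLIntegral_mono' measurableSet_Iic fun t ht => ?_) (setLIntegral_le_lintegral _ _)
    by_cases ht0 : t ≤ 0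
    · rw [chgW_of_nonpos ht0]
      simp
    · have ht0' : 0 < t := not_le.1 ht0
      have := h2 (t * s) (by positivity) (mul_le_mul_of_nonneg_right ht hs.le)
      calc ENNReal.ofReal (A0 * pp) * (chgW t * ν (closedBall x (t * s)))
          = chgW t * (ENNReal.ofReal (A0 * pp) * ν (closedBall x (t * s))) := by ring
        _ ≤ _ := by gcongr
  -- Step D
  have hD : 2 * (ENNReal.ofReal (C0 * pp) * (∫⁻ t in Iic J, chgW t * ν (closedBall x (t * s)))) ≤ Hs := by
    refine le_trans ?_ hC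
    rw [← mul_assoc]
    gcongr
    have : (2 : ℝ≥0∞) = ENNReal.ofReal 2 := by simp
    rw [this, ← ENNReal.ofReal_mul (by norm_num)]
    apply ENNReal.ofReal_le_ofReal
    nlinarith
  -- Step E
  rw [hB, mul_add] at hA1
  have hE : Hs + Hs ≤ Hs + 2 * (ENNReal.ofReal (C0 * pp) * chgT ν J (x, s)) := by
    calc Hs + Hs = 2 * Hs := (two_mul _).symm
      _ ≤ 2 * (ENNReal.ofReal (C0 * pp) * (∫⁻ t in Iic J, chgW t * ν (closedBall x (t * s))) +
            ENNReal.ofReal (C0 * pp) * chgT ν J (x, s)) := by gcongr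
      _ = 2 * (ENNReal.ofReal (C0 * pp) * (∫⁻ t in Iic J, chgW t * ν (closedBall x (t * s)))) +
            2 * (ENNReal.ofReal (C0 * pp) * chgT ν J (x, s)) := mul_add _ _ _
      _ ≤ _ := by gcongr
  exact (ENNReal.add_le_add_iff_left hHfin).1 hE

theorem chg_five (h τ' : Measure (E m)) [IsFiniteMeasure h] [IsFiniteMeasure τ'] {x : E m}
    {s J pp C0 A0 d : ℝ} (hs : 0 < s) (hpp : 0 < pp) (hC0 : 0 < C0) (hA : 2 * C0 ≤ A0) (hd : 0 ≤ d)
    (h1 : gav h s x ≤ C0 * pp * (gav τ' s x + d))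
    (h2 : ∀ r, 0 < r → r ≤ J * s →
      ENNReal.ofReal (A0 * pp) * (τ' + ENNReal.ofReal d • (volume : Measure (E m))) (closedBall x r)
        ≤ h (closedBall x r)) :
    h (closedBall x (5 * s)) ≤ ENNReal.ofReal (Real.exp (25 / 2)) *
      (2 * (ENNReal.ofReal (C0 * pp) * chgT (τ' + ENNReal.ofReal d • (volume : Measure (E m))) J (x, s))) := by
  have k1 := chg_ball_le h x (s := s) (k := 5) hs.le (by norm_num)
  have k2 := k1.trans (chg_contact h τ' hs hpp hC0 hA hd h1 h2)
  have e : ENNReal.ofReal (Real.exp (25 / 2)) * ENNReal.ofReal (Real.exp (-5 ^ 2 / 2)) = 1 := by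
    rw [← ENNReal.ofReal_mul (Real.exp_pos _).le, ← Real.exp_add]
    norm_num
  calc h (closedBall x (5 * s))
      = ENNReal.ofReal (Real.exp (25 / 2)) * (ENNReal.ofReal (Real.exp (-5 ^ 2 / 2)) * h (closedBall x (5 * s))) := by
        rw [← mul_assoc, e, one_mul]
    _ ≤ _ := by gcongr

theorem chg_vol_closedBall (x : E m) {r : ℝ} (hr : 0 ≤ r) :
    volume (closedBall x r) = ENNReal.ofReal (r ^ m) * volume (closedBall (0 : E m) 1) := by
  have := Measure.addHaar_closedBall' (volume : Measure (E m)) x hr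
  rwa [finrank_euclideanSpace, Fintype.card_fin] at this

theorem chg_omega_pos : (volume (closedBall (0 : E m) 1)) ≠ 0 :=
  (measure_closedBall_pos volume _ one_pos).ne'

theorem chg_omega_top : (volume (closedBall (0 : E m) 1)) ≠ ⊤ :=
  measure_closedBall_lt_top.ne

/-- packing: overlap of the dilated balls inside one dyadic bin -/
theorem chg_overlap_bin {v : Set (E m × ℝ)} (hv : v.PairwiseDisjoint fun b => closedBall b.1 b.2)
    {σ t : ℝ} (hσ : 0 < σ) (ht : 0 ≤ t) (hbin : ∀ b ∈ v, σ ≤ b.2 ∧ b.2 ≤ 2 * σ) (y : E m) :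
    ∑' b : v, indicator (closedBall b.1.1 (t * b.1.2)) (fun _ => (1 : ℝ≥0∞)) y
      ≤ ENNReal.ofReal ((2 * t + 1) ^ m) := by
  set v' : Set (E m × ℝ) := {b ∈ v | y ∈ closedBall b.1 (t * b.2)} with hv'
  have hsub : v' ⊆ v := fun b hb => hb.1
  have e1 : ∑' b : v, indicator (closedBall b.1.1 (t * b.1.2)) (fun _ => (1 : ℝ≥0∞)) y
      = ∑' _b : v', (1 : ℝ≥0∞) := by
    rw [tsum_subtype v (fun b : E m × ℝ => indicator (closedBall b.1 (t * b.2)) (fun _ => (1 : ℝ≥0∞)) y),
      tsum_subtype v' (fun _ : E m × ℝ => (1 : ℝ≥0∞))]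
    congr 1
    ext b
    by_cases hb : b ∈ v
    · by_cases hy : y ∈ closedBall b.1 (t * b.2)
      · rw [indicator_of_mem hb, indicator_of_mem hy, indicator_of_mem (show b ∈ v' from ⟨hb, hy⟩)]
      · rw [indicator_of_mem hb, indicator_of_notMem hy, indicator_of_notMem (fun h : b ∈ v' => hy h.2)]
    · rw [indicator_of_notMem hb, indicator_of_notMem (fun h : b ∈ v' => hb h.1)]
  have hdisj : v'.PairwiseDisjoint fun b => closedBall b.1 σ :=
    (hv.subset hsub).mono_on fun b hb => closedBall_subset_closedBall (hbin b hb.1).1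
  have hcount : v'.Countable := hdisj.countable_of_nonempty_interior fun b _ => by
    rw [interior_closedBall _ hσ.ne']
    exact nonempty_ball.2 hσ
  set V : ℝ≥0∞ := ENNReal.ofReal (σ ^ m) * volume (closedBall (0 : E m) 1) with hV
  have hV0 : V ≠ 0 := mul_ne_zero (by simpa using pow_pos hσ m) chg_omega_pos
  have hVt : V ≠ ⊤ := ENNReal.mul_ne_top ENNReal.ofReal_ne_top chg_omega_top
  have e2 : (∑' _b : v', (1 : ℝ≥0∞)) * V ≤ ENNReal.ofReal ((2 * t + 1) ^ m) * V := by
    calc (∑' _b : v', (1 : ℝ≥0∞)) * V = ∑' b : v', volume (closedBall b.1.1 σ) := by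
          rw [← ENNReal.tsum_mul_right]
          congr 1
          ext b
          rw [one_mul, chg_vol_closedBall _ hσ.le]
      _ = volume (⋃ b ∈ v', closedBall b.1 σ) := by
          rw [measure_biUnion hcount hdisj fun _ _ => measurableSet_closedBall]
      _ ≤ volume (closedBall y ((2 * t + 1) * σ)) := by
          refine measure_mono (iUnion₂_subset fun b hb => ?_)
          intro z hz
          rw [mem_closedBall] at hz ⊢
          have h1 : dist y b.1 ≤ t * b.2 := mem_closedBall.1 hb.2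
          have h2 := (hbin b hb.1).2
          have h3 : t * b.2 ≤ t * (2 * σ) := mul_le_mul_of_nonneg_left h2 ht
          calc dist z y ≤ dist z b.1 + dist b.1 y := dist_triangle _ _ _
            _ ≤ σ + t * (2 * σ) := by rw [dist_comm b.1 y]; linarith
            _ = _ := by ring
      _ = ENNReal.ofReal ((2 * t + 1) ^ m) * V := by
          rw [chg_vol_closedBall _ (by positivity), mul_pow, ENNReal.ofReal_mul (by positivity), hV,
            mul_assoc]
  rw [e1]
  exact (ENNReal.mul_le_mul_iff_left hV0 hVt).1 e2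

/-- overlap of the dilated balls, all bins -/
theorem chg_overlap {u : Set (E m × ℝ)} (hu : u.PairwiseDisjoint fun b => closedBall b.1 b.2)
    {a ρ t : ℝ} (ha : 0 < a) (ht : 0 ≤ t) (hrad : ∀ b ∈ u, a ≤ b.2 ∧ b.2 ≤ ρ) (y : E m) :
    ∑' b : u, indicator (closedBall b.1.1 (t * b.1.2)) (fun _ => (1 : ℝ≥0∞)) y
      ≤ ENNReal.ofReal (1 + Real.logb 2 (ρ / a)) * ENNReal.ofReal ((2 * t + 1) ^ m) := by
  rcases u.eq_empty_or_nonempty with rfl | ⟨b0, hb0⟩
  · simp
  have haρ : a ≤ ρ := (hrad b0 hb0).1.trans (hrad b0 hb0).2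
  have hρa : 1 ≤ ρ / a := by rwa [one_le_div ha]
  have hlog : 0 ≤ Real.logb 2 (ρ / a) := Real.logb_nonneg (by norm_num) hρa
  set K : ℕ := ⌊Real.logb 2 (ρ / a)⌋₊ with hK
  set bin : ℕ → Set (E m × ℝ) := fun k => {b ∈ u | a * 2 ^ k ≤ b.2 ∧ b.2 ≤ 2 * (a * 2 ^ k)} with hbin
  set g : E m × ℝ → ℝ≥0∞ := fun b => indicator (closedBall b.1 (t * b.2)) (fun _ => (1 : ℝ≥0∞)) y with hg
  have hcover : u ⊆ ⋃ k ∈ Finset.range (K + 1), bin k := by
    intro b hb
    obtain ⟨h1, h2⟩ := hrad b hb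
    have hx : 1 ≤ b.2 / a := by rwa [one_le_div ha]
    obtain ⟨k, hk1, hk2⟩ := exists_nat_pow_near hx (by norm_num : (1 : ℝ) < 2)
    have hkK : k ≤ K := by
      apply Nat.le_floor
      have h3 : (2 : ℝ) ^ k ≤ ρ / a := hk1.trans (by gcongr)
      have h4 := Real.logb_le_logb_of_le (b := 2) (by norm_num) (by positivity) h3
      rwa [Real.logb_pow, Real.logb_self_eq_one (by norm_num), mul_one] at h4
    refine mem_iUnion₂.2 ⟨k, Finset.mem_range.2 (by omega), hb, ?_, ?_⟩
    · rw [le_div_iff₀ ha] at hk1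
      linarith
    · rw [div_lt_iff₀ ha, pow_succ] at hk2
      linarith
  calc ∑' b : u, g b ≤ ∑' b : (⋃ k ∈ Finset.range (K + 1), bin k : Set (E m × ℝ)), g b :=
        ENNReal.tsum_mono_subtype g hcover
    _ ≤ ∑ k ∈ Finset.range (K + 1), ∑' b : bin k, g b := ENNReal.tsum_biUnion_le g _ _
    _ ≤ ∑ _k ∈ Finset.range (K + 1), ENNReal.ofReal ((2 * t + 1) ^ m) := by
        refine Finset.sum_le_sum fun k _ => ?_
        exact chg_overlap_bin (hu.subset fun b hb => hb.1) (σ := a * 2 ^ k) (by positivity) ht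
          (fun b hb => hb.2) y
    _ = ((K + 1 : ℕ) : ℝ≥0∞) * ENNReal.ofReal ((2 * t + 1) ^ m) := by
        rw [Finset.sum_const, Finset.card_range, nsmul_eq_mul]
    _ ≤ _ := by
        gcongr
        rw [← ENNReal.ofReal_natCast]
        apply ENNReal.ofReal_le_ofReal
        push_cast
        have := Nat.floor_le hlog
        linarith

/-- sum of the masses of the dilated balls -/
theorem chg_sum_le (ν : Measure (E m)) {u : Set (E m × ℝ)}
    (hu : u.PairwiseDisjoint fun b => closedBall b.1 b.2) (huc : u.Countable)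
    {a ρ R t : ℝ} {xs : E m} (ha : 0 < a) (ht : 0 ≤ t)
    (hrad : ∀ b ∈ u, b.1 ∈ ball xs R ∧ a ≤ b.2 ∧ b.2 ≤ ρ) :
    ∑' b : u, ν (closedBall b.1.1 (t * b.1.2)) ≤
      ENNReal.ofReal (1 + Real.logb 2 (ρ / a)) * ENNReal.ofReal ((2 * t + 1) ^ m)
        * ν (closedBall xs (R + t * ρ)) := by
  have : Countable u := huc.to_subtype
  have e1 : ∑' b : u, ν (closedBall b.1.1 (t * b.1.2)) =
      ∫⁻ y, ∑' b : u, indicator (closedBall b.1.1 (t * b.1.2)) (fun _ => (1 : ℝ≥0∞)) y ∂ν := by
    rw [lintegral_tsum fun b => (measurable_const.indicator measurableSet_closedBall).aemeasurable]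
    congr 1
    ext b
    rw [lintegral_indicator measurableSet_closedBall, setLIntegral_const, one_mul]
  rw [e1]
  calc ∫⁻ y, ∑' b : u, indicator (closedBall b.1.1 (t * b.1.2)) (fun _ => (1 : ℝ≥0∞)) y ∂ν
      ≤ ∫⁻ y, indicator (closedBall xs (R + t * ρ)) (fun _ =>
          ENNReal.ofReal (1 + Real.logb 2 (ρ / a)) * ENNReal.ofReal ((2 * t + 1) ^ m)) y ∂ν := by
        refine lintegral_mono fun y => ?_
        by_cases hy : y ∈ closedBall xs (R + t * ρ)
        · rw [indicator_of_mem hy]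
          exact chg_overlap hu ha ht (fun b hb => (hrad b hb).2) y
        · rw [indicator_of_notMem hy]
          refine le_of_eq (ENNReal.tsum_eq_zero.2 fun b => ?_)
          apply indicator_of_notMem
          intro hyb
          apply hy
          obtain ⟨h1, h2, h3⟩ := hrad b.1 b.2
          rw [mem_closedBall] at hyb ⊢
          rw [mem_ball] at h1
          have h4 : t * b.1.2 ≤ t * ρ := mul_le_mul_of_nonneg_left h3 ht
          calc dist y xs ≤ dist y b.1.1 + dist b.1.1 xs := dist_triangle _ _ _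
            _ ≤ _ := by linarith
    _ = _ := by
        rw [lintegral_indicator measurableSet_closedBall, setLIntegral_const]


/-- the mass of the big ball -/
theorem chg_big_le (τ' : Measure (E m)) [IsFiniteMeasure τ'] {d R ρ t : ℝ} (hd : 0 ≤ d) (hρ : 0 ≤ ρ)
    (hρR : ρ ≤ R) (ht : 0 ≤ t) (xs : E m) :
    (τ' + ENNReal.ofReal d • (volume : Measure (E m))) (closedBall xs (R + t * ρ)) ≤
      ENNReal.ofReal ((1 + t) ^ m) * ((1 + volume (closedBall (0 : E m) 1)) *
        ENNReal.ofReal ((τ' univ).toReal + d * R ^ m)) := by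
  have hR : 0 ≤ R := hρ.trans hρR
  set ω : ℝ≥0∞ := volume (closedBall (0 : E m) 1) with hω
  have h1 : (1 : ℝ) ≤ (1 + t) ^ m := one_le_pow₀ (by linarith)
  have h2 : (R + t * ρ) ^ m ≤ (1 + t) ^ m * R ^ m := by
    rw [← mul_pow]
    apply pow_le_pow_left₀ (by positivity)
    nlinarith
  rw [Measure.add_apply, Measure.smul_apply, smul_eq_mul, chg_vol_closedBall _ (by positivity)]
  have e1 : τ' (closedBall xs (R + t * ρ)) ≤
      ENNReal.ofReal ((1 + t) ^ m) * (1 * ENNReal.ofReal ((τ' univ).toReal)) := by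
    rw [one_mul, ENNReal.ofReal_toReal (measure_ne_top τ' univ)]
    calc τ' (closedBall xs (R + t * ρ)) ≤ 1 * τ' univ := by
          rw [one_mul]; exact measure_mono (subset_univ _)
      _ ≤ _ := by
          gcongr
          rw [← ENNReal.ofReal_one]
          exact ENNReal.ofReal_le_ofReal h1
  have e2 : ENNReal.ofReal d * (ENNReal.ofReal ((R + t * ρ) ^ m) * ω) ≤
      ENNReal.ofReal ((1 + t) ^ m) * (ω * ENNReal.ofReal (d * R ^ m)) := by
    calc ENNReal.ofReal d * (ENNReal.ofReal ((R + t * ρ) ^ m) * ω)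
        ≤ ENNReal.ofReal d * (ENNReal.ofReal ((1 + t) ^ m * R ^ m) * ω) := by
          gcongr
      _ = _ := by
          rw [ENNReal.ofReal_mul (by positivity), ENNReal.ofReal_mul hd]
          ring
  calc τ' (closedBall xs (R + t * ρ)) + ENNReal.ofReal d * (ENNReal.ofReal ((R + t * ρ) ^ m) * ω)
      ≤ ENNReal.ofReal ((1 + t) ^ m) * (1 * ENNReal.ofReal ((τ' univ).toReal)) +
          ENNReal.ofReal ((1 + t) ^ m) * (ω * ENNReal.ofReal (d * R ^ m)) := add_le_add e1 e2
    _ = ENNReal.ofReal ((1 + t) ^ m) * (1 * ENNReal.ofReal ((τ' univ).toReal) +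
          ω * ENNReal.ofReal (d * R ^ m)) := by rw [mul_add]
    _ ≤ _ := by
        gcongr
        rw [ENNReal.ofReal_add ENNReal.toReal_nonneg (by positivity), add_mul, mul_add, mul_add]
        calc 1 * ENNReal.ofReal ((τ' univ).toReal) + ω * ENNReal.ofReal (d * R ^ m)
            ≤ (1 * ENNReal.ofReal ((τ' univ).toReal) + 1 * ENNReal.ofReal (d * R ^ m)) +
              (ω * ENNReal.ofReal ((τ' univ).toReal) + ω * ENNReal.ofReal (d * R ^ m)) := by
              refine add_le_add le_self_add le_add_self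

theorem chg_lintegral_exp_half (J : ℝ) :
    ∫⁻ t in Ioi J, ENNReal.ofReal (Real.exp (-(t - J) / 2)) = 2 := by
  have h := chg_lintegral_Ioi (g := fun t : ℝ => -2 * Real.exp (-(t - J) / 2))
    (g' := fun t => Real.exp (-(t - J) / 2)) (a := J) (l := 0)
    (fun t _ => by
      have h1 : HasDerivAt (fun t : ℝ => -(t - J) / 2) (-1 / 2) t := by
        have := (((hasDerivAt_id t).sub_const J).neg).div_const 2
        exact this
      refine (h1.exp.const_mul (-2)).congr_deriv ?_
      ring)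
    (fun t _ => (Real.exp_pos _).le)
    (by
      have h1 : Filter.Tendsto (fun t : ℝ => (t - J) / 2) Filter.atTop Filter.atTop :=
        (Filter.tendsto_atTop_add_const_right _ (-J) Filter.tendsto_id).atTop_div_const (by norm_num)
      have h2 := (Real.tendsto_exp_neg_atTop_nhds_zero.comp h1).const_mul (-2)
      rw [mul_zero] at h2
      refine h2.congr fun t => ?_
      simp only [Function.comp]
      congr 2
      ring)
  rw [h]
  simp

/-- pointwise bound of the tail integrand -/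
theorem chg_tail_pointwise (m : ℕ) {J t : ℝ} (hJ : 1 ≤ J) (ht : J < t) :
    t * Real.exp (-t ^ 2 / 2) * ((2 * t + 1) ^ m * (1 + t) ^ m) ≤
      (2 ^ m * ((2 * m + 1).factorial * 2 ^ (2 * m + 1)) * Real.exp (1 / 2)) *
        ((1 + J) ^ (2 * m + 1) * Real.exp (-J ^ 2 / 2)) * Real.exp (-(t - J) / 2) := by
  set u : ℝ := t - J with hu
  have hu0 : 0 < u := by rw [hu]; linarith
  have htu : t = J + u := by rw [hu]; ring
  have ht0 : 0 < t := by linarith
  set n : ℕ := 2 * m + 1 with hn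
  have h1 : t * ((2 * t + 1) ^ m * (1 + t) ^ m) ≤ 2 ^ m * (1 + t) ^ n := by
    have a1 : (2 * t + 1) ^ m ≤ (2 * (1 + t)) ^ m := pow_le_pow_left₀ (by positivity) (by linarith) m
    have a2 : (2 * (1 + t)) ^ m = 2 ^ m * (1 + t) ^ m := mul_pow _ _ _
    have a3 : (1 + t) ^ n = (1 + t) * ((1 + t) ^ m * (1 + t) ^ m) := by rw [hn]; ring
    rw [a3]
    have a4 : 0 < (1 + t) ^ m := by positivity
    calc t * ((2 * t + 1) ^ m * (1 + t) ^ m) ≤ (1 + t) * ((2 ^ m * (1 + t) ^ m) * (1 + t) ^ m) := by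
          rw [← a2]
          gcongr
          linarith
      _ = _ := by ring
  have h2 : (1 + t) ^ n ≤ (1 + J) ^ n * (1 + u) ^ n := by
    rw [← mul_pow]
    apply pow_le_pow_left₀ (by positivity)
    rw [htu]
    nlinarith
  have h3 : (1 + u) ^ n ≤ (n.factorial * 2 ^ n) * Real.exp ((1 + u) / 2) := by
    have := Real.pow_div_factorial_le_exp ((1 + u) / 2) (by positivity) n
    rw [div_le_iff₀ (by positivity), div_pow, div_le_iff₀ (by positivity)] at this
    linarith
  have h4 : Real.exp (-t ^ 2 / 2) ≤ Real.exp (-J ^ 2 / 2) * Real.exp (-u) := by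
    rw [← Real.exp_add, Real.exp_le_exp, htu]
    nlinarith
  have h5 : Real.exp ((1 + u) / 2) * Real.exp (-u) = Real.exp (1 / 2) * Real.exp (-u / 2) := by
    rw [← Real.exp_add, ← Real.exp_add]
    congr 1
    ring
  have hE := Real.exp_pos (-t ^ 2 / 2)
  calc t * Real.exp (-t ^ 2 / 2) * ((2 * t + 1) ^ m * (1 + t) ^ m)
      = (t * ((2 * t + 1) ^ m * (1 + t) ^ m)) * Real.exp (-t ^ 2 / 2) := by ring
    _ ≤ (2 ^ m * ((1 + J) ^ n * ((n.factorial * 2 ^ n) * Real.exp ((1 + u) / 2)))) *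
          (Real.exp (-J ^ 2 / 2) * Real.exp (-u)) := by
        refine mul_le_mul (h1.trans ?_) h4 hE.le (by positivity)
        refine mul_le_mul_of_nonneg_left (h2.trans ?_) (by positivity)
        exact mul_le_mul_of_nonneg_left h3 (by positivity)
    _ = (2 ^ m * (n.factorial * 2 ^ n)) * ((1 + J) ^ n * Real.exp (-J ^ 2 / 2)) *
          (Real.exp ((1 + u) / 2) * Real.exp (-u)) := by ring
    _ = _ := by rw [h5]; ring

/-- the tail integral -/
theorem chg_tail_le (m : ℕ) {J : ℝ} (hJ : 1 ≤ J) :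
    ∫⁻ t in Ioi J, chgW t * (ENNReal.ofReal ((2 * t + 1) ^ m) * ENNReal.ofReal ((1 + t) ^ m)) ≤
      ENNReal.ofReal ((2 ^ m * ((2 * m + 1).factorial * 2 ^ (2 * m + 1)) * Real.exp (1 / 2)) *
        ((1 + J) ^ (2 * m + 1) * Real.exp (-J ^ 2 / 2))) * 2 := by
  rw [← chg_lintegral_exp_half J, ← lintegral_const_mul _ (by fun_prop)]
  refine setLIntegral_mono' measurableSet_Ioi fun t ht => ?_
  have ht' : J < t := ht
  have ht0 : 0 < t := by linarith
  unfold chgW
  rw [← ENNReal.ofReal_mul (by positivity), ← ENNReal.ofReal_mul (by positivity),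
    ← ENNReal.ofReal_mul (by positivity)]
  exact ENNReal.ofReal_le_ofReal (chg_tail_pointwise m hJ ht')


/-- sum of the tail functionals over a disjoint family -/
theorem chg_sum_tail_le (τ' : Measure (E m)) [IsFiniteMeasure τ'] {u : Set (E m × ℝ)}
    (hu : u.PairwiseDisjoint fun b => closedBall b.1 b.2) (huc : u.Countable)
    {a ρ R J d : ℝ} {xs : E m} (ha : 0 < a) (hρR : ρ ≤ R) (haρ : a ≤ ρ) (hJ : 1 ≤ J) (hd : 0 ≤ d)
    (hrad : ∀ b ∈ u, b.1 ∈ ball xs R ∧ a ≤ b.2 ∧ b.2 ≤ ρ) :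
    ∑' b : u, chgT (τ' + ENNReal.ofReal d • (volume : Measure (E m))) J b.1 ≤
      (ENNReal.ofReal (1 + Real.logb 2 (ρ / a)) * ((1 + volume (closedBall (0 : E m) 1)) *
        ENNReal.ofReal ((τ' univ).toReal + d * R ^ m))) *
      (ENNReal.ofReal ((2 ^ m * ((2 * m + 1).factorial * 2 ^ (2 * m + 1)) * Real.exp (1 / 2)) *
        ((1 + J) ^ (2 * m + 1) * Real.exp (-J ^ 2 / 2))) * 2) := by
  set ν : Measure (E m) := τ' + ENNReal.ofReal d • (volume : Measure (E m)) with hν
  have : Countable u := huc.to_subtype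
  have hρ : 0 ≤ ρ := ha.le.trans haρ
  unfold chgT
  have hmeas : ∀ b : u, AEMeasurable (fun t : ℝ => chgW t * ν (closedBall b.1.1 (t * b.1.2)))
      (volume.restrict (Ioi J)) := fun b =>
    (chgW_measurable.mul (chg_measurable_ball ν b.1.1 (ha.le.trans (hrad b.1 b.2).2.1))).aemeasurable
  rw [← lintegral_tsum hmeas]
  refine le_trans ?_ (mul_le_mul_right (chg_tail_le m hJ) _)
  rw [← lintegral_const_mul _ (by
    have := chgW_measurable
    fun_prop)]
  refine setLIntegral_mono' measurableSet_Ioi fun t ht => ?_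
  have ht' : J < t := ht
  have ht0 : 0 ≤ t := by linarith
  rw [ENNReal.tsum_mul_left]
  calc chgW t * ∑' b : u, ν (closedBall b.1.1 (t * b.1.2))
      ≤ chgW t * (ENNReal.ofReal (1 + Real.logb 2 (ρ / a)) * ENNReal.ofReal ((2 * t + 1) ^ m)
          * (ENNReal.ofReal ((1 + t) ^ m) * ((1 + volume (closedBall (0 : E m) 1)) *
              ENNReal.ofReal ((τ' univ).toReal + d * R ^ m)))) := by
        gcongr
        exact (chg_sum_le ν hu huc ha ht0 hrad).trans
          (mul_le_mul_right (chg_big_le τ' hd hρ hρR ht0 xs) _)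
    _ = _ := by ring

theorem chg_ofReal_prod {e c L w T X : ℝ} (he : 0 ≤ e) (hc : 0 ≤ c) (hL : 0 ≤ L) (hw : 0 ≤ w)
    (hX : 0 ≤ X) :
    ENNReal.ofReal e * (2 * (ENNReal.ofReal c * ((ENNReal.ofReal L * (ENNReal.ofReal w *
      ENNReal.ofReal T)) * (ENNReal.ofReal X * 2)))) = ENNReal.ofReal (e * 2 * c * L * w * X * 2 * T) := by
  have h2e : (2 : ℝ≥0∞) = ENNReal.ofReal 2 := by simp
  rw [ENNReal.ofReal_mul (by positivity), ENNReal.ofReal_mul (by positivity),
    ENNReal.ofReal_mul (by positivity), ENNReal.ofReal_mul (by positivity),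
    ENNReal.ofReal_mul (by positivity), ENNReal.ofReal_mul (by positivity),
    ENNReal.ofReal_mul (by positivity), ← h2e]
  ring

/-- **First charging step.** -/
theorem bad_total (m : ℕ) (hm : 1 ≤ m) :
    ∃ C : ℝ, 0 < C ∧ ∀ (h τ' : Measure (E m)) [IsFiniteMeasure h] [IsFiniteMeasure τ']
      (𝒮b : Set (E m × ℝ)) (xs : E m) (R a ρ J pp C0 A0 d : ℝ),
      0 < a → a ≤ ρ → ρ ≤ R → 1 ≤ J → 0 < pp → 0 < C0 → 2 * C0 ≤ A0 → 0 ≤ d →
      (∀ z ∈ 𝒮b, z.1 ∈ ball xs R ∧ a ≤ z.2 ∧ z.2 ≤ ρ ∧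
        gav h z.2 z.1 ≤ C0 * pp * (gav τ' z.2 z.1 + d) ∧
        ∀ r, 0 < r → r ≤ J * z.2 →
          ENNReal.ofReal (A0 * pp)
              * (τ' + ENNReal.ofReal d • (volume : Measure (E m))) (closedBall z.1 r)
            ≤ h (closedBall z.1 r)) →
      h (Prod.fst '' 𝒮b)
        ≤ ENNReal.ofReal (C * C0 * pp * (1 + Real.logb 2 (ρ / a)) * (1 + J) ^ (2 * m + 1)
            * Real.exp (-J ^ 2 / 2) * ((τ' univ).toReal + d * R ^ m)) := by
  set ω : ℝ≥0∞ := volume (closedBall (0 : E m) 1) with hω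
  set Cm : ℝ := 2 ^ m * ((2 * m + 1).factorial * 2 ^ (2 * m + 1)) * Real.exp (1 / 2) with hCm
  have hCm0 : 0 < Cm := by positivity
  refine ⟨Real.exp (25 / 2) * 2 * (1 + ω.toReal) * Cm * 2, by positivity, ?_⟩
  intro h τ' _ _ 𝒮b xs R a ρ J pp C0 A0 d ha haρ hρR hJ hpp hC0 hA hd H
  set ν : Measure (E m) := τ' + ENNReal.ofReal d • (volume : Measure (E m)) with hν
  have hpos : ∀ z ∈ 𝒮b, 0 < z.2 := fun z hz => lt_of_lt_of_le ha (H z hz).2.1
  obtain ⟨u, hu𝒮, hudisj, hucov⟩ := Vitali.exists_disjoint_subfamily_covering_enlargement_closedBall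
    𝒮b (fun z => z.1) (fun z => z.2) ρ (fun z hz => (H z hz).2.2.1) 5 (by norm_num)
  have hucount : u.Countable := hudisj.countable_of_nonempty_interior fun b hb => by
    rw [interior_closedBall _ (hpos b (hu𝒮 hb)).ne']
    exact nonempty_ball.2 (hpos b (hu𝒮 hb))
  have hcover : Prod.fst '' 𝒮b ⊆ ⋃ b ∈ u, closedBall b.1 (5 * b.2) := by
    rintro _ ⟨z, hz, rfl⟩
    obtain ⟨b, hb, hsub⟩ := hucov z hz
    exact mem_iUnion₂.2 ⟨b, hb, hsub (mem_closedBall_self (hpos z hz).le)⟩
  have hlog : 0 ≤ Real.logb 2 (ρ / a) :=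
    Real.logb_nonneg (by norm_num) (by rwa [one_le_div ha])
  have hT : 0 ≤ (τ' univ).toReal + d * R ^ m := by
    have : 0 ≤ R := (ha.le.trans haρ).trans hρR
    positivity
  have hωe : 1 + ω = ENNReal.ofReal (1 + ω.toReal) := by
    rw [ENNReal.ofReal_add zero_le_one ENNReal.toReal_nonneg, ENNReal.ofReal_one,
      ENNReal.ofReal_toReal chg_omega_top]
  calc h (Prod.fst '' 𝒮b) ≤ h (⋃ b ∈ u, closedBall b.1 (5 * b.2)) := measure_mono hcover
    _ ≤ ∑' b : u, h (closedBall b.1.1 (5 * b.1.2)) := measure_biUnion_le _ hucount _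
    _ ≤ ∑' b : u, ENNReal.ofReal (Real.exp (25 / 2)) *
          (2 * (ENNReal.ofReal (C0 * pp) * chgT ν J b.1)) := by
        refine ENNReal.tsum_le_tsum fun b => ?_
        have hb := H b.1 (hu𝒮 b.2)
        exact chg_five h τ' (hpos b.1 (hu𝒮 b.2)) hpp hC0 hA hd hb.2.2.2.1 hb.2.2.2.2
    _ = ENNReal.ofReal (Real.exp (25 / 2)) *
          (2 * (ENNReal.ofReal (C0 * pp) * ∑' b : u, chgT ν J b.1)) := by
        rw [ENNReal.tsum_mul_left, ENNReal.tsum_mul_left, ENNReal.tsum_mul_left]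
    _ ≤ ENNReal.ofReal (Real.exp (25 / 2)) * (2 * (ENNReal.ofReal (C0 * pp) *
          ((ENNReal.ofReal (1 + Real.logb 2 (ρ / a)) * ((1 + ω) *
            ENNReal.ofReal ((τ' univ).toReal + d * R ^ m))) *
          (ENNReal.ofReal (Cm * ((1 + J) ^ (2 * m + 1) * Real.exp (-J ^ 2 / 2))) * 2)))) := by
        gcongr
        exact chg_sum_tail_le τ' hudisj hucount ha hρR haρ hJ hd
          fun b hb => ⟨(H b (hu𝒮 hb)).1, (H b (hu𝒮 hb)).2.1, (H b (hu𝒮 hb)).2.2.1⟩
    _ = _ := by
        have hJ0 : 0 ≤ 1 + J := by linarith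
        rw [hωe, chg_ofReal_prod (Real.exp_pos _).le (by positivity) (by positivity) (by positivity)
          (by positivity)]
        congr 1
        ring

end Claimed.Agent.R322.Sx.Sep
end
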