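/- Packed by merge_tool.py (helper293): 5 modules of Claimed.Agent.R322 in one file, same declarations.
   Old modules, in this order: Tube.Geom.Trace, Tube.Geom.Block, Tube.Geom.Reg, Tube.Geom.Near, Tube.Geom.Iso -/
import Claimed.Agent.R322.Pack010
import Claimed.Agent.R322.Base.Area.LinProj
import Mathlib.Analysis.InnerProductSpace.Trace
import Claimed.Agent.R322.Pack037
import Claimed.Agent.R322.Pack034

/- ===== packed: Claimed.Agent.R322.Tube.Geom.Trace ===== -/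
section
/-!
# Row 322, Tube/Geom/Trace: traces of ambient operators
-/

set_option autoImplicit false

open scoped ENNReal ContDiff Topology
open MeasureTheory

namespace Claimed.Agent.R322.Tube

local notation "adj" => ContinuousLinearMap.adjoint

variable {N N' : ℕ}

theorem trc_add (A B : E N →L[ℝ] E N) : trc (A + B) = trc A + trc B := by
  unfold trc
  rw [ContinuousLinearMap.toLinearMap_add, map_add]

theorem trc_sub (A B : E N →L[ℝ] E N) : trc (A - B) = trc A - trc B := by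
  unfold trc
  rw [ContinuousLinearMap.toLinearMap_sub, map_sub]

theorem trc_neg (A : E N →L[ℝ] E N) : trc (-A) = -trc A := by
  unfold trc
  rw [ContinuousLinearMap.toLinearMap_neg, map_neg]

theorem trc_smul (c : ℝ) (A : E N →L[ℝ] E N) : trc (c • A) = c * trc A := by
  unfold trc
  rw [ContinuousLinearMap.toLinearMap_smul, map_smul, smul_eq_mul]

theorem trc_zero : trc (0 : E N →L[ℝ] E N) = 0 := by
  unfold trc
  simp

theorem trc_id : trc (ContinuousLinearMap.id ℝ (E N)) = N := by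
  unfold trc
  have : ((ContinuousLinearMap.id ℝ (E N) : E N →L[ℝ] E N) : E N →ₗ[ℝ] E N) = LinearMap.id := rfl
  rw [this, LinearMap.trace_id]
  simp

/-- cyclicity of the trace (rectangular factors). -/
theorem trc_comp_comm (A : E N' →L[ℝ] E N) (B : E N →L[ℝ] E N') :
    trc (A ∘L B) = trc (B ∘L A) :=
  LinearMap.trace_comp_comm' (B : E N →ₗ[ℝ] E N') (A : E N' →ₗ[ℝ] E N)

theorem trc_eq_sum (A : E N →L[ℝ] E N) :
    trc A = ∑ i : Fin N, inner ℝ (A (EuclideanSpace.single i 1)) (EuclideanSpace.single i 1) := by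
  unfold trc
  rw [LinearMap.trace_eq_sum_inner _ (EuclideanSpace.basisFun (Fin N) ℝ)]
  refine Finset.sum_congr rfl fun i _ => ?_
  rw [EuclideanSpace.basisFun_apply, real_inner_comm]
  rfl

theorem trc_adjoint (A : E N →L[ℝ] E N) : trc (adj A) = trc A := by
  rw [trc_eq_sum, trc_eq_sum]
  refine Finset.sum_congr rfl fun i _ => ?_
  rw [ContinuousLinearMap.adjoint_inner_left, real_inner_comm]

theorem abs_trc_le (A : E N →L[ℝ] E N) : |trc A| ≤ N * ‖A‖ := by
  rw [trc_eq_sum]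
  refine (Finset.abs_sum_le_sum_abs _ _).trans ?_
  have : ∀ i ∈ (Finset.univ : Finset (Fin N)),
      |inner ℝ (A (EuclideanSpace.single i 1)) (EuclideanSpace.single i (1 : ℝ))| ≤ ‖A‖ := by
    intro i _
    refine (abs_real_inner_le_norm _ _).trans ?_
    have h1 : ‖(EuclideanSpace.single i (1 : ℝ) : E N)‖ = 1 := by simp
    have h2 := A.le_opNorm (EuclideanSpace.single i (1 : ℝ))
    rw [h1, mul_one] at h2
    rw [h1, mul_one]
    exact h2
  refine (Finset.sum_le_sum this).trans ?_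
  simp

theorem tdiv_eq_trc (P A : E N →L[ℝ] E N) : tdiv P A = trc (P ∘L A) := rfl

/-- Hilbert–Schmidt square. -/
theorem trc_adjoint_comp_self (C : E N →L[ℝ] E N') :
    trc (adj C ∘L C) = ∑ i : Fin N, ‖C (EuclideanSpace.single i 1)‖ ^ 2 := by
  rw [trc_eq_sum]
  refine Finset.sum_congr rfl fun i _ => ?_
  rw [ContinuousLinearMap.comp_apply, ContinuousLinearMap.adjoint_inner_left,
    real_inner_self_eq_norm_sq]

theorem trc_adjoint_comp_self_nonneg (C : E N →L[ℝ] E N') : 0 ≤ trc (adj C ∘L C) := by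
  rw [trc_adjoint_comp_self]
  exact Finset.sum_nonneg fun i _ => sq_nonneg _

/-- the operator norm is bounded by the Hilbert–Schmidt norm. -/
theorem norm_sq_apply_le_trc (C : E N →L[ℝ] E N') (v : E N) :
    ‖C v‖ ^ 2 ≤ trc (adj C ∘L C) * ‖v‖ ^ 2 := by
  rw [trc_adjoint_comp_self]
  have hv : v = ∑ i : Fin N, v i • (EuclideanSpace.single i (1 : ℝ) : E N) := by
    conv_lhs => rw [← tdv_sum_single v]
    refine Finset.sum_congr rfl fun i _ => ?_
    congr 1
    simp [EuclideanSpace.inner_single_left]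
  have h1 : C v = ∑ i : Fin N, v i • C (EuclideanSpace.single i (1 : ℝ)) := by
    conv_lhs => rw [hv]
    rw [map_sum]
    exact Finset.sum_congr rfl fun i _ => map_smul _ _ _
  have h2 : ‖C v‖ ≤ ∑ i : Fin N, |v i| * ‖C (EuclideanSpace.single i (1 : ℝ))‖ := by
    rw [h1]
    refine (norm_sum_le _ _).trans (le_of_eq ?_)
    exact Finset.sum_congr rfl fun i _ => by rw [norm_smul, Real.norm_eq_abs]
  have h3 := Finset.sum_mul_sq_le_sq_mul_sq Finset.univ (fun i : Fin N => |v i|)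
    (fun i => ‖C (EuclideanSpace.single i (1 : ℝ))‖)
  have h4 : ∑ i : Fin N, |v i| ^ 2 = ‖v‖ ^ 2 := by
    rw [EuclideanSpace.norm_sq_eq]
    exact Finset.sum_congr rfl fun i _ => by rw [Real.norm_eq_abs]
  rw [h4] at h3
  calc ‖C v‖ ^ 2 ≤ (∑ i : Fin N, |v i| * ‖C (EuclideanSpace.single i (1 : ℝ))‖) ^ 2 := by
        gcongr
    _ ≤ ‖v‖ ^ 2 * ∑ i : Fin N, ‖C (EuclideanSpace.single i (1 : ℝ))‖ ^ 2 := h3
    _ = (∑ i : Fin N, ‖C (EuclideanSpace.single i (1 : ℝ))‖ ^ 2) * ‖v‖ ^ 2 := mul_comm _ _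

/-- `|tr (CᵀC X)| ≤ tr (CᵀC) ‖X‖`. -/
theorem abs_trc_gram_comp_le (C : E N →L[ℝ] E N') (X : E N →L[ℝ] E N) :
    |trc ((adj C ∘L C) ∘L X)| ≤ trc (adj C ∘L C) * ‖X‖ := by
  have h1 : trc ((adj C ∘L C) ∘L X) = trc ((C ∘L X) ∘L adj C) := by
    rw [ContinuousLinearMap.comp_assoc, trc_comp_comm]
  have h2 : trc (adj C ∘L C) = trc (adj (adj C) ∘L adj C) := by
    rw [ContinuousLinearMap.adjoint_adjoint, trc_comp_comm]
  rw [h1, h2, trc_adjoint_comp_self, trc_eq_sum, Finset.sum_mul]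
  refine (Finset.abs_sum_le_sum_abs _ _).trans (Finset.sum_le_sum fun i _ => ?_)
  simp only [ContinuousLinearMap.comp_apply]
  rw [← ContinuousLinearMap.adjoint_inner_right]
  refine (abs_real_inner_le_norm _ _).trans ?_
  have := X.le_opNorm (adj C (EuclideanSpace.single i (1 : ℝ)))
  calc ‖X (adj C (EuclideanSpace.single i 1))‖ * ‖adj C (EuclideanSpace.single i 1)‖
      ≤ (‖X‖ * ‖adj C (EuclideanSpace.single i 1)‖) * ‖adj C (EuclideanSpace.single i 1)‖ := by
        gcongr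
    _ = ‖adj C (EuclideanSpace.single i 1)‖ ^ 2 * ‖X‖ := by ring

end Claimed.Agent.R322.Tube
end

/- ===== packed: Claimed.Agent.R322.Tube.Geom.Block ===== -/
section
/-!
# Row 322, Tube/Geom/Block: blocks of a projection with respect to another projection (G6)

`H` = reference projection (`P_h`), `P` = tangent projection of the varifold, both of rank `m`.
`e = tr (P (1-H))`, `B = H (1-P) H = CᵀC` with `C = (1-P) H`, `P_vh = (1-H) P H`.
-/

set_option autoImplicit false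

open scoped ENNReal ContDiff Topology
open MeasureTheory

namespace Claimed.Agent.R322.Tube

local notation "adj" => ContinuousLinearMap.adjoint
local notation "𝟙" => ContinuousLinearMap.id ℝ _

variable {m N : ℕ} {H P : E N →L[ℝ] E N}

theorem IsProj.adjoint_eq (hP : IsProj m P) : adj P = P := Base.isProj_adjoint_eq hP

theorem IsProj.trc_eq (hP : IsProj m P) : trc P = m := hP.tr

theorem IsProj.adjoint_compl (hP : IsProj m P) : adj (𝟙 - P) = 𝟙 - P := by
  rw [map_sub, IsProj.adjoint_eq hP, ContinuousLinearMap.adjoint_id]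

theorem IsProj.compl_idem (hP : IsProj m P) : (𝟙 - P) ∘L (𝟙 - P) = 𝟙 - P := by
  rw [ContinuousLinearMap.comp_sub, ContinuousLinearMap.sub_comp, ContinuousLinearMap.sub_comp,
    hP.idem]
  simp

theorem IsProj.comp_compl (hP : IsProj m P) : P ∘L (𝟙 - P) = 0 := by
  rw [ContinuousLinearMap.comp_sub, hP.idem]
  simp

theorem IsProj.compl_comp (hP : IsProj m P) : (𝟙 - P) ∘L P = 0 := by
  rw [ContinuousLinearMap.sub_comp, hP.idem]
  simp

/-- `B = CᵀC`. -/
theorem block_B_eq (hH : IsProj m H) (hP : IsProj m P) :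
    H ∘L (𝟙 - P) ∘L H = adj ((𝟙 - P) ∘L H) ∘L ((𝟙 - P) ∘L H) := by
  rw [ContinuousLinearMap.adjoint_comp, IsProj.adjoint_eq hH, IsProj.adjoint_compl hP,
    ContinuousLinearMap.comp_assoc, ← ContinuousLinearMap.comp_assoc (𝟙 - P) (𝟙 - P) H,
    IsProj.compl_idem hP]

theorem trc_comp_nonneg (hH : IsProj m H) (hP : IsProj m P) : 0 ≤ trc (P ∘L H) := by
  have h1 : trc (P ∘L H) = trc (adj (H ∘L P) ∘L (H ∘L P)) := by
    rw [ContinuousLinearMap.adjoint_comp, IsProj.adjoint_eq hH, IsProj.adjoint_eq hP,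
      ContinuousLinearMap.comp_assoc, ← ContinuousLinearMap.comp_assoc H H P, hH.idem,
      trc_comp_comm P (H ∘L P), ContinuousLinearMap.comp_assoc, hP.idem, trc_comp_comm]
  rw [h1]
  exact trc_adjoint_comp_self_nonneg _

theorem block_tilt_eq (hH : IsProj m H) (hP : IsProj m P) :
    tdiv P (𝟙 - H) = m - trc (P ∘L H) := by
  rw [tdiv_eq_trc, ContinuousLinearMap.comp_sub, trc_sub, ContinuousLinearMap.comp_id,
    IsProj.trc_eq hP]

theorem block_trc_B (hH : IsProj m H) (hP : IsProj m P) :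
    trc (H ∘L (𝟙 - P) ∘L H) = m - trc (P ∘L H) := by
  rw [trc_comp_comm, ContinuousLinearMap.comp_assoc, hH.idem, ContinuousLinearMap.sub_comp,
    trc_sub, ContinuousLinearMap.id_comp, IsProj.trc_eq hH]

theorem block_inner_B (hH : IsProj m H) (hP : IsProj m P) (a : E N) :
    inner ℝ ((H ∘L (𝟙 - P) ∘L H) a) a = ‖((𝟙 - P) ∘L H) a‖ ^ 2 := by
  rw [block_B_eq hH hP, ContinuousLinearMap.comp_apply, ContinuousLinearMap.adjoint_inner_left,
    real_inner_self_eq_norm_sq]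

/-- **(G6)** for two projections of the same rank. -/
theorem block_facts_aux (hH : IsProj m H) (hP : IsProj m P) :
    0 ≤ tdiv P (𝟙 - H) ∧ tdiv P (𝟙 - H) ≤ m ∧ tdiv P (𝟙 - H) = trc (H ∘L (𝟙 - P) ∘L H) ∧
    (∀ a, 0 ≤ inner ℝ ((H ∘L (𝟙 - P) ∘L H) a) a) ∧
    (∀ a, ‖((𝟙 - H) ∘L P ∘L H) a‖ ^ 2
      = inner ℝ ((H ∘L (𝟙 - P) ∘L H) a) a - ‖(H ∘L (𝟙 - P) ∘L H) a‖ ^ 2) ∧
    ‖(𝟙 - H) ∘L P ∘L H‖ ^ 2 ≤ tdiv P (𝟙 - H) := by
  have hte : tdiv P (𝟙 - H) = trc (H ∘L (𝟙 - P) ∘L H) := by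
    rw [block_tilt_eq hH hP, block_trc_B hH hP]
  have h0 : 0 ≤ tdiv P (𝟙 - H) := by
    rw [hte, block_B_eq hH hP]
    exact trc_adjoint_comp_self_nonneg _
  have hid : ∀ a, ‖((𝟙 - H) ∘L P ∘L H) a‖ ^ 2
      = inner ℝ ((H ∘L (𝟙 - P) ∘L H) a) a - ‖(H ∘L (𝟙 - P) ∘L H) a‖ ^ 2 := by
    intro a
    set b := H a with hb
    have hHb : H b = b := hH.apply_apply a
    have e1 : ((𝟙 - H) ∘L P ∘L H) a = P b - H (P b) := rfl
    have e2 : (H ∘L (𝟙 - P) ∘L H) a = b - H (P b) := by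
      change H (b - P b) = _
      rw [map_sub, hHb]
    rw [e1, e2]
    have i1 : inner ℝ (H (P b)) (P b) = ‖H (P b)‖ ^ 2 := hH.inner_apply_self _
    have i2 : inner ℝ (P b) b = ‖P b‖ ^ 2 := hP.inner_apply_self _
    have i3 : inner ℝ (H (P b)) b = ‖P b‖ ^ 2 := by rw [hH.symm, hHb, i2]
    have i4 : inner ℝ b a = ‖b‖ ^ 2 := hH.inner_apply_self a
    have i5 : inner ℝ (H (P b)) a = ‖P b‖ ^ 2 := by rw [hH.symm, ← hb, i2]
    rw [norm_sub_sq_real, norm_sub_sq_real, inner_sub_left, i4, i5, real_inner_comm, i1,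
      real_inner_comm, i3]
    ring
  refine ⟨h0, ?_, hte, fun a => ?_, hid, ?_⟩
  · rw [block_tilt_eq hH hP]
    linarith [trc_comp_nonneg hH hP]
  · rw [block_inner_B hH hP]
    exact sq_nonneg _
  · have hb : ∀ a, ‖((𝟙 - H) ∘L P ∘L H) a‖ ≤ Real.sqrt (tdiv P (𝟙 - H)) * ‖a‖ := by
      intro a
      have h1 : ‖((𝟙 - H) ∘L P ∘L H) a‖ ^ 2 ≤ tdiv P (𝟙 - H) * ‖a‖ ^ 2 := by
        rw [hid a, block_inner_B hH hP, hte, block_B_eq hH hP]
        have := norm_sq_apply_le_trc ((𝟙 - P) ∘L H) a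
        nlinarith [sq_nonneg ‖(adj ((𝟙 - P) ∘L H) ∘L ((𝟙 - P) ∘L H)) a‖]
      have h2 : tdiv P (𝟙 - H) * ‖a‖ ^ 2 = (Real.sqrt (tdiv P (𝟙 - H)) * ‖a‖) ^ 2 := by
        rw [mul_pow, Real.sq_sqrt h0]
      rw [h2] at h1
      exact abs_le_of_sq_le_sq' h1 (by positivity) |>.2
    have h3 := ContinuousLinearMap.opNorm_le_bound _ (Real.sqrt_nonneg _) hb
    calc ‖(𝟙 - H) ∘L P ∘L H‖ ^ 2 ≤ Real.sqrt (tdiv P (𝟙 - H)) ^ 2 := by gcongr
      _ = tdiv P (𝟙 - H) := Real.sq_sqrt h0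

/-- `|tr (B X)| ≤ e ‖X‖`. -/
theorem abs_trc_B_comp_le (hH : IsProj m H) (hP : IsProj m P) (X : E N →L[ℝ] E N) :
    |trc ((H ∘L (𝟙 - P) ∘L H) ∘L X)| ≤ tdiv P (𝟙 - H) * ‖X‖ := by
  rw [(block_facts_aux hH hP).2.2.1, block_B_eq hH hP]
  exact abs_trc_gram_comp_le _ _

end Claimed.Agent.R322.Tube
end

/- ===== packed: Claimed.Agent.R322.Tube.Geom.Reg ===== -/
section
/-!
# Row 322, Tube/Geom/Reg: smooth dependence of the graph operators on the slope and on the point
-/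

set_option autoImplicit false

open scoped ENNReal ContDiff Topology
open MeasureTheory

namespace Claimed.Agent.R322.Tube

local notation "adj" => ContinuousLinearMap.adjoint

variable {m n : ℕ}

/-- the adjoint as a continuous `ℝ`-linear map. -/
noncomputable def adjL (a b : ℕ) : (E a →L[ℝ] E b) →L[ℝ] (E b →L[ℝ] E a) :=
  LinearMap.toContinuousLinearMap
    { toFun := fun A => adj A
      map_add' := fun A B => map_add _ A B
      map_smul' := fun c A => by simp }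

theorem adjL_apply {a b : ℕ} (A : E a →L[ℝ] E b) : adjL a b A = adj A := rfl

theorem contDiff_adjoint {a b : ℕ} {k : ℕ∞ω} :
    ContDiff ℝ k (fun A : E a →L[ℝ] E b => adj A) :=
  (adjL a b).contDiff

theorem contDiff_dFA {k : ℕ∞ω} : ContDiff ℝ k (dF : (E m →L[ℝ] E n) → _) := by
  unfold dF
  exact contDiff_const.add (contDiff_const.clm_comp contDiff_id)

theorem contDiff_gmatA {k : ℕ∞ω} : ContDiff ℝ k (gmat : (E m →L[ℝ] E n) → _) := by
  unfold gmat
  exact contDiff_const.add (contDiff_adjoint.clm_comp contDiff_id)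

theorem isInvertible_gmat (A : E m →L[ℝ] E n) : (gmat A).IsInvertible :=
  ContinuousLinearMap.IsInvertible.of_inverse (gmat_comp_inverse A) (gmat_inverse_comp A)

theorem contDiff_gmatA_inverse {k : ℕ∞ω} :
    ContDiff ℝ k (fun A : E m →L[ℝ] E n => (gmat A).inverse) := by
  rw [contDiff_iff_contDiffAt]
  intro A
  exact (isInvertible_gmat A).contDiffAt_map_inverse.comp A contDiff_gmatA.contDiffAt

theorem contDiff_dFpA {k : ℕ∞ω} : ContDiff ℝ k (dFp : (E m →L[ℝ] E n) → _) := by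
  unfold dFp
  exact contDiff_gmatA_inverse.clm_comp (contDiff_adjoint.comp contDiff_dFA)

theorem contDiff_PhA {k : ℕ∞ω} : ContDiff ℝ k (PhA : (E m →L[ℝ] E n) → _) := by
  have : (PhA : (E m →L[ℝ] E n) → _) = fun A => dF A ∘L dFp A := funext PhA_eq
  rw [this]
  exact contDiff_dFA.clm_comp contDiff_dFpA

/-! ### fields along a graph -/

variable {u : E m → E n}

theorem contDiff_Du {k : ℕ} (hu : ContDiff ℝ (k + 1 : ℕ) u) : ContDiff ℝ k (fderiv ℝ u) :=
  hu.fderiv_right (by norm_cast)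

theorem contDiff_dF_Du {k : ℕ} (hu : ContDiff ℝ (k + 1 : ℕ) u) :
    ContDiff ℝ k (fun y => dF (fderiv ℝ u y)) :=
  contDiff_dFA.comp (contDiff_Du hu)

theorem contDiff_dFp_Du {k : ℕ} (hu : ContDiff ℝ (k + 1 : ℕ) u) :
    ContDiff ℝ k (fun y => dFp (fderiv ℝ u y)) :=
  contDiff_dFpA.comp (contDiff_Du hu)

theorem contDiff_gmat_inverse_Du {k : ℕ} (hu : ContDiff ℝ (k + 1 : ℕ) u) :
    ContDiff ℝ k (fun y => (gmat (fderiv ℝ u y)).inverse) :=
  contDiff_gmatA_inverse.comp (contDiff_Du hu)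

theorem contDiff_Ph_of {k : ℕ} (hu : ContDiff ℝ (k + 1 : ℕ) u) : ContDiff ℝ k (Ph u) :=
  contDiff_PhA.comp (contDiff_Du hu)

theorem contDiff_Pv_of {k : ℕ} (hu : ContDiff ℝ (k + 1 : ℕ) u) : ContDiff ℝ k (Pv u) :=
  contDiff_const.sub (contDiff_Ph_of hu)

theorem Fg_eq (u : E m → E n) (y : E m) : Fg u y = inH m n y + inV m n (u y) := mkHV_eq _ _

theorem contDiff_Fg_of {k : ℕ∞ω} (hu : ContDiff ℝ k u) : ContDiff ℝ k (Fg u) := by
  have : Fg u = fun y => inH m n y + inV m n (u y) := funext (Fg_eq u)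
  rw [this]
  exact (inH m n).contDiff.add ((inV m n).contDiff.comp hu)

theorem hasFDerivAt_Fg {y : E m} (hu : DifferentiableAt ℝ u y) :
    HasFDerivAt (Fg u) (dF (fderiv ℝ u y)) y := by
  have : Fg u = fun y => inH m n y + inV m n (u y) := funext (Fg_eq u)
  rw [this]
  exact (inH m n).hasFDerivAt.add ((inV m n).hasFDerivAt.comp y hu.hasFDerivAt)

theorem hasFDerivAt_Du {y : E m} (hu : ContDiff ℝ 2 u) :
    HasFDerivAt (fderiv ℝ u) (D2 u y) y :=
  ((contDiff_Du (k := 1) (by exact_mod_cast hu)).differentiable (by norm_num) y).hasFDerivAt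

/-- derivative of `y ↦ dF (Du y)`. -/
theorem hasFDerivAt_dF_Du {y : E m} (hu : ContDiff ℝ 2 u) :
    HasFDerivAt (fun y => dF (fderiv ℝ u y))
      ((ContinuousLinearMap.compL ℝ (E m) (E n) (E (m + n)) (inV m n)) ∘L D2 u y) y := by
  unfold dF
  have h1 := ((ContinuousLinearMap.compL ℝ (E m) (E n) (E (m + n)) (inV m n)).hasFDerivAt.comp y
    (hasFDerivAt_Du (y := y) hu))
  exact h1.const_add (inH m n)

theorem D2_symm (hu : ContDiff ℝ 2 u) (y a b : E m) : D2 u y a b = D2 u y b a := by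
  have h := (hu.contDiffAt (x := y)).isSymmSndFDerivAt (by simp)
  exact h a b

theorem norm_D2_eq (u : E m → E n) (y : E m) : ‖D2 u y‖ = ‖iteratedFDeriv ℝ 2 u y‖ := by
  unfold D2
  rw [← norm_iteratedFDeriv_one, norm_iteratedFDeriv_fderiv]

set_option maxSynthPendingDepth 4 in
theorem norm_D3_apply_le (u : E m → E n) (y α : E m) :
    ‖fderiv ℝ (D2 u) y α‖ ≤ ‖iteratedFDeriv ℝ 3 u y‖ * ‖α‖ := by
  have h : ‖fderiv ℝ (D2 u) y‖ = ‖iteratedFDeriv ℝ 3 u y‖ := by
    have : D2 u = fderiv ℝ (fderiv ℝ u) := rfl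
    rw [this, ← norm_iteratedFDeriv_one, norm_iteratedFDeriv_fderiv, norm_iteratedFDeriv_fderiv]
  rw [← h]
  exact (fderiv ℝ (D2 u) y).le_opNorm α

end Claimed.Agent.R322.Tube
end

/- ===== packed: Claimed.Agent.R322.Tube.Geom.Near ===== -/
section
/-!
# Row 322, Tube/Geom/Near: the nearest point projection onto a graph (G1)
-/

set_option autoImplicit false

open scoped ENNReal ContDiff Topology
open MeasureTheory Filter

namespace Claimed.Agent.R322.Tube

local notation "adj" => ContinuousLinearMap.adjoint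

variable {m n : ℕ} {u : E m → E n} {κ₂ : ℝ}

theorem Geo.c2 (hu : Geo κ₂ u) : ContDiff ℝ 2 u := hu.smooth.of_le (by norm_num)

theorem Geo.differentiable (hu : Geo κ₂ u) : Differentiable ℝ u :=
  hu.smooth.differentiable (by norm_num)

theorem Geo.norm_D2_le (hu : Geo κ₂ u) (y : E m) : ‖D2 u y‖ ≤ κ₂ := by
  rw [norm_D2_eq]; exact hu.d2 y

theorem Geo.nonneg (hu : Geo κ₂ u) : 0 ≤ κ₂ := (norm_nonneg _).trans (hu.d2 0)

/-- the slope is `κ₂`-Lipschitz. -/
theorem Geo.norm_Du_sub_le (hu : Geo κ₂ u) (y y' : E m) :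
    ‖fderiv ℝ u y' - fderiv ℝ u y‖ ≤ κ₂ * ‖y' - y‖ :=
  Convex.norm_image_sub_le_of_norm_fderiv_le (s := Set.univ)
    (fun x _ => (hasFDerivAt_Du (y := x) hu.c2).differentiableAt)
    (fun x _ => hu.norm_D2_le x) convex_univ (Set.mem_univ _) (Set.mem_univ _)

/-- first order Taylor remainder. -/
theorem Geo.taylor (hu : Geo κ₂ u) (y y' : E m) :
    ‖u y' - u y - fderiv ℝ u y (y' - y)‖ ≤ κ₂ * ‖y' - y‖ ^ 2 := by
  set v : E m → E n := fun t => u t - fderiv ℝ u y t with hv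
  have hd : ∀ t, HasFDerivAt v (fderiv ℝ u t - fderiv ℝ u y) t := fun t =>
    (hu.differentiable t).hasFDerivAt.sub (fderiv ℝ u y).hasFDerivAt
  have h1 := Convex.norm_image_sub_le_of_norm_hasFDerivWithin_le
    (f := v) (f' := fun t => fderiv ℝ u t - fderiv ℝ u y) (C := κ₂ * ‖y' - y‖)
    (s := Metric.closedBall y ‖y' - y‖) (x := y) (y := y')
    (fun t _ => (hd t).hasFDerivWithinAt)
    (fun t ht => by
      refine (hu.norm_Du_sub_le y t).trans ?_
      have : ‖t - y‖ ≤ ‖y' - y‖ := by rwa [← dist_eq_norm]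
      exact mul_le_mul_of_nonneg_left this hu.nonneg)
    (convex_closedBall _ _) (Metric.mem_closedBall_self (norm_nonneg _))
    (by rw [Metric.mem_closedBall, dist_eq_norm])
  have h2 : v y' - v y = u y' - u y - fderiv ℝ u y (y' - y) := by
    simp only [hv, map_sub]; abel
  rw [h2] at h1
  calc _ ≤ κ₂ * ‖y' - y‖ * ‖y' - y‖ := h1
    _ = κ₂ * ‖y' - y‖ ^ 2 := by ring

theorem Fg_sub (u : E m → E n) (y y' : E m) :
    Fg u y' - Fg u y = dF (fderiv ℝ u y) (y' - y)
      + inV m n (u y' - u y - fderiv ℝ u y (y' - y)) := by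
  rw [Fg_eq, Fg_eq]
  have : dF (fderiv ℝ u y) (y' - y) = inH m n (y' - y) + inV m n (fderiv ℝ u y (y' - y)) := rfl
  rw [this]
  simp only [map_sub]
  abel

theorem norm_sub_le_norm_Fg_sub (u : E m → E n) (y y' : E m) : ‖y' - y‖ ≤ ‖Fg u y' - Fg u y‖ := by
  have := norm_prH_le (Fg u y' - Fg u y)
  rwa [map_sub, Fg, Fg, prH_mkHV, prH_mkHV] at this

/-- **key inequality.** -/
theorem Geo.norm_sq_ge (hu : Geo κ₂ u) {y : E m} {w : E (m + n)}
    (hw : adj (dF (fderiv ℝ u y)) w = 0) (y' : E m) :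
    ‖w‖ ^ 2 + (1 - 2 * κ₂ * ‖w‖) * ‖y' - y‖ ^ 2 ≤ ‖Fg u y + w - Fg u y'‖ ^ 2 := by
  have h1 : Fg u y + w - Fg u y' = w - (Fg u y' - Fg u y) := by abel
  rw [h1, norm_sub_sq_real w]
  have h2 : inner ℝ w (Fg u y' - Fg u y)
      = inner ℝ w (inV m n (u y' - u y - fderiv ℝ u y (y' - y))) := by
    rw [Fg_sub, inner_add_right, ← ContinuousLinearMap.adjoint_inner_left, hw, inner_zero_left,
      zero_add]
  have h3 : inner ℝ w (Fg u y' - Fg u y) ≤ ‖w‖ * (κ₂ * ‖y' - y‖ ^ 2) := by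
    rw [h2]
    refine (real_inner_le_norm _ _).trans ?_
    rw [norm_inV]
    exact mul_le_mul_of_nonneg_left (hu.taylor y y') (norm_nonneg _)
  have h4 : ‖y' - y‖ ^ 2 ≤ ‖Fg u y' - Fg u y‖ ^ 2 := by
    have := norm_sub_le_norm_Fg_sub u y y'
    gcongr
  nlinarith

/-- existence of a nearest point. -/
theorem exists_nearest (hu : Continuous u) (X : E (m + n)) :
    ∃ y : E m, ∀ y' : E m, ‖X - Fg u y‖ ≤ ‖X - Fg u y'‖ := by
  have hc : Continuous fun y => ‖X - Fg u y‖ := by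
    have : Continuous (Fg u) := by
      have h : Fg u = fun y => inH m n y + inV m n (u y) := funext (Fg_eq u)
      rw [h]
      exact (inH m n).continuous.add ((inV m n).continuous.comp hu)
    exact (continuous_const.sub this).norm
  refine hc.exists_forall_le ?_
  have h1 : Tendsto (fun y : E m => ‖y‖ - ‖X‖) (cocompact (E m)) atTop :=
    tendsto_atTop_add_const_right _ _ (tendsto_norm_cocompact_atTop (E := E m))
  refine tendsto_atTop_mono (fun y => ?_) h1
  have h2 : ‖y‖ ≤ ‖Fg u y‖ := by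
    have := norm_prH_le (Fg u y)
    rwa [Fg, prH_mkHV] at this
  have h3 : ‖Fg u y‖ - ‖X‖ ≤ ‖X - Fg u y‖ := by
    rw [norm_sub_rev]; exact norm_sub_norm_le _ _
  linarith

theorem npr_spec (hu : Continuous u) (X : E (m + n)) (y' : E m) :
    ‖X - Fg u (npr u X)‖ ≤ ‖X - Fg u y'‖ :=
  Classical.epsilon_spec (p := fun y : E m => ∀ y' : E m, ‖X - Fg u y‖ ≤ ‖X - Fg u y'‖)
    (exists_nearest hu X) y'

/-- first order condition at a nearest point. -/
theorem adjoint_dF_eq_zero_of_nearest (hu : Differentiable ℝ u) {X : E (m + n)} {y : E m}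
    (hy : ∀ y', ‖X - Fg u y‖ ≤ ‖X - Fg u y'‖) : adj (dF (fderiv ℝ u y)) (X - Fg u y) = 0 := by
  have h1 : HasFDerivAt (fun t => X - Fg u t) (-dF (fderiv ℝ u y)) y :=
    (hasFDerivAt_Fg (hu y)).const_sub X
  have h2 := h1.norm_sq
  have hmin : IsLocalMin (fun t => ‖X - Fg u t‖ ^ 2) y :=
    Filter.Eventually.of_forall fun t => by
      have := hy t
      simp only
      gcongr
  have h3 := hmin.hasFDerivAt_eq_zero h2
  refine ext_inner_right ℝ fun α => ?_
  rw [ContinuousLinearMap.adjoint_inner_left, inner_zero_left]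
  have h4 := congrArg (fun T : E m →L[ℝ] ℝ => T α) h3
  simp only [smul_apply, ContinuousLinearMap.comp_apply, neg_apply,
    innerSL_apply_apply, inner_neg_right, zero_apply, nsmul_eq_mul] at h4
  push_cast at h4
  linarith

/-- **(G1)** for every radius `h ≤ 1/4`. -/
theorem tube_unique_of_le (hu : Geo κ₂ u) {h : ℝ} (hh : h ≤ 1 / 4) {X : E (m + n)}
    (hX : X ∈ Tub u h) :
    (∀ y', ‖X - Fg u (npr u X)‖ ≤ ‖X - Fg u y'‖) ∧
      (∀ y', (∀ y'', ‖X - Fg u y'‖ ≤ ‖X - Fg u y''‖) → y' = npr u X) ∧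
      Ph u (npr u X) (zz u X) = 0 ∧ ‖zz u X‖ < h ∧
      (∀ (y : E m) (w : E (m + n)), Ph u y w = 0 → ‖w‖ < h → X = Fg u y + w →
        npr u X = y ∧ zz u X = w) := by
  have hc : Continuous u := hu.differentiable.continuous
  have hmin := npr_spec hc X
  have hz : ‖zz u X‖ < h := by
    obtain ⟨y, hy⟩ := hX
    exact lt_of_le_of_lt (hmin y) hy
  have hκ := hu.nonneg
  have hκ1 := hu.le_one
  -- a normal foot point with small height is the unique nearest point
  have key : ∀ (y : E m) (w : E (m + n)), adj (dF (fderiv ℝ u y)) w = 0 → ‖w‖ < h →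
      X = Fg u y + w → ∀ y', ‖X - Fg u y'‖ ≤ ‖w‖ → y' = y := by
    intro y w hw hwh hXw y' hy'
    have h1 := hu.norm_sq_ge hw y'
    rw [← hXw] at h1
    have h2 : ‖X - Fg u y'‖ ^ 2 ≤ ‖w‖ ^ 2 := by gcongr
    have h3 : 2 * κ₂ * ‖w‖ ≤ 1 / 2 := by nlinarith [norm_nonneg w]
    have h4 : ‖y' - y‖ ^ 2 ≤ 0 := by nlinarith [sq_nonneg ‖y' - y‖]
    have h5 : ‖y' - y‖ = 0 := by
      have := sq_nonneg ‖y' - y‖
      exact pow_eq_zero_iff two_ne_zero |>.1 (le_antisymm h4 this)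
    exact sub_eq_zero.1 (norm_eq_zero.1 h5)
  have hfo : adj (dF (fderiv ℝ u (npr u X))) (zz u X) = 0 :=
    adjoint_dF_eq_zero_of_nearest hu.differentiable hmin
  have hXz : X = Fg u (npr u X) + zz u X := by unfold zz; abel
  refine ⟨hmin, fun y' hy' => ?_, (PhA_eq_zero_iff _ _).2 hfo, hz, fun y w hw hwh hXw => ?_⟩
  · exact key _ _ hfo hz hXz y' (hy' _)
  · have hw' := (PhA_eq_zero_iff _ _).1 hw
    have h1 : npr u X = y := by
      refine key y w hw' hwh hXw _ ?_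
      have := hmin y
      rwa [show X - Fg u y = w by rw [hXw]; abel] at this
    refine ⟨h1, ?_⟩
    unfold zz
    rw [h1, hXw]
    abel

end Claimed.Agent.R322.Tube
end

/- ===== packed: Claimed.Agent.R322.Tube.Geom.Iso ===== -/
section
/-!
# Row 322, Tube/Geom/Iso: an isometric parametrisation of the range of a projection;
determinants of symmetric contractions
-/

set_option autoImplicit false

open scoped ENNReal ContDiff Topology
open MeasureTheory

namespace Claimed.Agent.R322.Tube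

local notation "adj" => ContinuousLinearMap.adjoint
local notation "𝟙" => ContinuousLinearMap.id ℝ _

/-- determinant of an operator. -/
noncomputable def dtm {N : ℕ} (A : E N →L[ℝ] E N) : ℝ := LinearMap.det (A : E N →ₗ[ℝ] E N)

theorem dtm_comp {N : ℕ} (A B : E N →L[ℝ] E N) : dtm (A ∘L B) = dtm A * dtm B :=
  LinearMap.det_comp _ _

theorem dtm_id {N : ℕ} : dtm (𝟙 : E N →L[ℝ] E N) = 1 := LinearMap.det_id

theorem finrank_range_of_isProj {m N : ℕ} {P : E N →L[ℝ] E N} (hP : IsProj m P) :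
    Module.finrank ℝ (LinearMap.range (P : E N →ₗ[ℝ] E N)) = m := by
  have h1 : LinearMap.IsProj (LinearMap.range (P : E N →ₗ[ℝ] E N)) (P : E N →ₗ[ℝ] E N) :=
    ⟨fun x => ⟨x, rfl⟩, by rintro _ ⟨x, rfl⟩; exact hP.apply_apply x⟩
  have h2 := h1.trace
  rw [hP.tr] at h2
  exact_mod_cast h2.symm

/-- the range of a rank `m` orthogonal projection is isometrically parametrised by `E m`. -/
theorem IsProj.exists_iso {m N : ℕ} {P : E N →L[ℝ] E N} (hP : IsProj m P) :
    ∃ ι : E m →L[ℝ] E N, adj ι ∘L ι = 𝟙 ∧ ι ∘L adj ι = P := by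
  set p := LinearMap.range (P : E N →ₗ[ℝ] E N) with hp
  have hfr : Module.finrank ℝ p = m := finrank_range_of_isProj hP
  let b : OrthonormalBasis (Fin m) ℝ p := (stdOrthonormalBasis ℝ p).reindex (finCongr hfr)
  let ι₀ : E m →ₗᵢ[ℝ] E N := p.subtypeₗᵢ.comp b.repr.symm.toLinearIsometry
  set ι : E m →L[ℝ] E N := ι₀.toContinuousLinearMap with hι
  have h1 : adj ι ∘L ι = 𝟙 := by
    ext1 x
    refine ext_inner_right ℝ fun y => ?_
    rw [ContinuousLinearMap.comp_apply, ContinuousLinearMap.adjoint_inner_left]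
    exact ι₀.inner_map_map x y
  have hmem : ∀ x, ι x ∈ p := fun x => (b.repr.symm x).2
  have hPι : P ∘L ι = ι := by
    ext1 x
    obtain ⟨w, hw⟩ := hmem x
    change P (ι x) = ι x
    rw [← hw]
    exact hP.apply_apply w
  have hsurj : ∀ x, ∃ c, P x = ι c := fun x =>
    ⟨b.repr ⟨P x, ⟨x, rfl⟩⟩, by
      change P x = ((b.repr.symm (b.repr ⟨P x, ⟨x, rfl⟩⟩) : p) : E N)
      rw [LinearIsometryEquiv.symm_apply_apply]⟩
  have hQP : (ι ∘L adj ι) ∘L P = P := by
    ext1 x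
    obtain ⟨c, hc⟩ := hsurj x
    change ι (adj ι (P x)) = P x
    rw [hc]
    have := congrArg (fun T : E m →L[ℝ] E m => T c) h1
    change adj ι (ι c) = c at this
    rw [this]
  have hPQ : P ∘L (ι ∘L adj ι) = ι ∘L adj ι := by
    rw [← ContinuousLinearMap.comp_assoc, hPι]
  have hadj : adj (ι ∘L adj ι) = ι ∘L adj ι := by
    rw [ContinuousLinearMap.adjoint_comp, ContinuousLinearMap.adjoint_adjoint]
  have h3 := congrArg adj hPQ
  rw [ContinuousLinearMap.adjoint_comp, hadj, IsProj.adjoint_eq hP, hQP] at h3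
  exact ⟨ι, h1, h3.symm⟩

theorem injective_of_adjoint_comp_self {m N : ℕ} {ι : E m →L[ℝ] E N} (h1 : adj ι ∘L ι = 𝟙) :
    Function.Injective ι := by
  intro x y hxy
  have hx := congrArg (fun T : E m →L[ℝ] E m => T x) h1
  have hy := congrArg (fun T : E m →L[ℝ] E m => T y) h1
  change adj ι (ι x) = x at hx
  change adj ι (ι y) = y at hy
  rw [← hx, ← hy, hxy]

/-- the tangential Jacobian through the parametrisation. -/
theorem tanJac_sq_of_iso {m N k : ℕ} {ι : E m →L[ℝ] E N} (h1 : adj ι ∘L ι = 𝟙)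
    (L : E N →L[ℝ] E k) :
    tanJac (ι ∘L adj ι) L ^ 2 = dtm (adj (L ∘L ι) ∘L (L ∘L ι)) := by
  have hinj := injective_of_adjoint_comp_self h1
  have h2 := Base.Area.nd_comp_eq_tanJac ι hinj L
  have h3 : Base.Area.projR ι = ι ∘L adj ι := by
    unfold Base.Area.projR
    rw [h1]
    have : Ring.inverse (𝟙 : E m →L[ℝ] E m) = 𝟙 := Ring.inverse_one _
    rw [this, ContinuousLinearMap.id_comp]
  have h4 : Base.Area.nd ι = 1 := by
    have h5 := Base.Area.nd_sq ι
    rw [h1] at h5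
    have h6 : (𝟙 : E m →L[ℝ] E m).det = 1 := LinearMap.det_id
    rw [h6] at h5
    have h7 := Base.Area.nd_nonneg ι
    nlinarith
  rw [h3, h4, mul_one] at h2
  rw [← h2, Base.Area.nd_sq]
  rfl

/-- Weierstrass product inequality. -/
theorem one_sub_sum_le_prod {α : Type*} (s : Finset α) (f : α → ℝ) (h0 : ∀ i ∈ s, 0 ≤ f i)
    (h1 : ∀ i ∈ s, f i ≤ 1) : 1 - ∑ i ∈ s, (1 - f i) ≤ ∏ i ∈ s, f i := by
  classical
  induction s using Finset.induction_on with
  | empty => simp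
  | insert a s ha ih =>
    rw [Finset.sum_insert ha, Finset.prod_insert ha]
    have ih' := ih (fun i hi => h0 i (Finset.mem_insert_of_mem hi))
      (fun i hi => h1 i (Finset.mem_insert_of_mem hi))
    have ha0 := h0 a (Finset.mem_insert_self a s)
    have ha1 := h1 a (Finset.mem_insert_self a s)
    have hs : 0 ≤ ∑ i ∈ s, (1 - f i) :=
      Finset.sum_nonneg fun i hi => by linarith [h1 i (Finset.mem_insert_of_mem hi)]
    nlinarith

/-- determinant of a symmetric operator with `0 ≤ Q ≤ 1`. -/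
theorem dtm_bounds_of_symm {m : ℕ} (Q : E m →L[ℝ] E m)
    (hs : ∀ v w, inner ℝ (Q v) w = inner ℝ v (Q w)) (h0 : ∀ v, 0 ≤ inner ℝ (Q v) v)
    (h1 : ∀ v, inner ℝ (Q v) v ≤ ‖v‖ ^ 2) :
    0 ≤ dtm Q ∧ dtm Q ≤ 1 ∧ 1 - (m - trc Q) ≤ dtm Q := by
  have hS : (Q : E m →ₗ[ℝ] E m).IsSymmetric := hs
  have hn : Module.finrank ℝ (E m) = m := finrank_euclideanSpace_fin
  have hdet : dtm Q = ∏ i, hS.eigenvalues hn i := by
    have := hS.det_eq_prod_eigenvalues hn
    simpa [dtm] using this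
  have htr : trc Q = ∑ i, hS.eigenvalues hn i := by
    have := hS.trace_eq_sum_eigenvalues hn
    simpa [trc] using this
  have hev : ∀ i, hS.eigenvalues hn i
      = inner ℝ (Q (hS.eigenvectorBasis hn i)) (hS.eigenvectorBasis hn i) := by
    intro i
    have h2 : Q (hS.eigenvectorBasis hn i)
        = (hS.eigenvalues hn i : ℝ) • hS.eigenvectorBasis hn i := hS.apply_eigenvectorBasis hn i
    rw [h2, inner_smul_left, real_inner_self_eq_norm_sq, (hS.eigenvectorBasis hn).norm_eq_one]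
    simp
  have hl0 : ∀ i, 0 ≤ hS.eigenvalues hn i := fun i => by rw [hev]; exact h0 _
  have hl1 : ∀ i, hS.eigenvalues hn i ≤ 1 := fun i => by
    rw [hev]
    refine (h1 _).trans ?_
    rw [(hS.eigenvectorBasis hn).norm_eq_one]
    norm_num
  refine ⟨?_, ?_, ?_⟩
  · rw [hdet]; exact Finset.prod_nonneg fun i _ => hl0 i
  · rw [hdet]; exact Finset.prod_le_one (fun i _ => hl0 i) fun i _ => hl1 i
  · rw [hdet, htr]
    have := one_sub_sum_le_prod Finset.univ (hS.eigenvalues hn) (fun i _ => hl0 i)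
      fun i _ => hl1 i
    rw [Finset.sum_sub_distrib] at this
    simpa using this

end Claimed.Agent.R322.Tube
end
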