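/- Packed by merge_tool.py (helper293): 9 modules of Claimed.Agent.R322 in one file, same declarations.
   Old modules, in this order: Tube.Geom.DPh, Tube.Geom.Shape, Tube.Geom.JK, Tube.Geom.Proj, Tube.Geom.NTrace, Tube.Geom.Jac, Tube.Geom.Jacobi, Tube.Geom.D2Ph, Tube.Geom.Codazzi -/
import Mathlib.Analysis.Calculus.ImplicitContDiff
import Claimed.Agent.R322.Pack012

/- ===== packed: Claimed.Agent.R322.Tube.Geom.DPh ===== -/
section
/-!
# Row 322, Tube/Geom/DPh: the derivative of the tangent projection field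

At a point `y`: `T = dF (Du y)`, `T⁺ = dFp (Du y)`, `H = Ph u y`, `V = Pv u y`,
`W_α = inV ∘ D²u(α,·)`, `Ṗ_α = D_α (Ph u)`.  Then

* `Ṗ_α T = V W_α`, `Ṗ_α` is symmetric, `Ṗ_α = Ṗ_α H + H Ṗ_α`;
* `Ṗ_α = Z_α + Z_αᵀ` with `Z_α = V W_α T⁺`.
-/

set_option autoImplicit false

open scoped ENNReal ContDiff Topology
open MeasureTheory Filter

namespace Claimed.Agent.R322.Tube

local notation "adj" => ContinuousLinearMap.adjoint
local notation "𝟙" => ContinuousLinearMap.id ℝ _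

variable {m n : ℕ} {u : E m → E n}

/-- `W_α = inV ∘ D²u(α,·)`, the derivative of `dF (Du)` in the direction `α`. -/
noncomputable def Wop (u : E m → E n) (y α : E m) : E m →L[ℝ] E (m + n) := inV m n ∘L D2 u y α

/-- `Ṗ_α`. -/
noncomputable def dPh (u : E m → E n) (y α : E m) : E (m + n) →L[ℝ] E (m + n) :=
  fderiv ℝ (Ph u) y α

/-- `Z_α = V W_α T⁺`. -/
noncomputable def Zop (u : E m → E n) (y α : E m) : E (m + n) →L[ℝ] E (m + n) :=
  Pv u y ∘L Wop u y α ∘L dFp (fderiv ℝ u y)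

theorem hasFDerivAt_Ph (hu : ContDiff ℝ 2 u) (y : E m) :
    HasFDerivAt (Ph u) (fderiv ℝ (Ph u) y) y :=
  ((contDiff_Ph_of (k := 1) (by exact_mod_cast hu)).differentiable (by norm_num) y).hasFDerivAt

theorem isProj_Ph (u : E m → E n) (y : E m) : IsProj m (Ph u y) := isProj_PhA _

theorem Ph_comp_dF (u : E m → E n) (y : E m) :
    Ph u y ∘L dF (fderiv ℝ u y) = dF (fderiv ℝ u y) := PhA_comp_dF _

theorem Pv_comp_dF (u : E m → E n) (y : E m) : Pv u y ∘L dF (fderiv ℝ u y) = 0 := by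
  unfold Pv
  rw [ContinuousLinearMap.sub_comp, Ph_comp_dF, ContinuousLinearMap.id_comp, sub_self]

theorem dFp_comp_Ph (u : E m → E n) (y : E m) :
    dFp (fderiv ℝ u y) ∘L Ph u y = dFp (fderiv ℝ u y) := dFp_comp_PhA _

theorem dFp_comp_Pv (u : E m → E n) (y : E m) : dFp (fderiv ℝ u y) ∘L Pv u y = 0 := by
  unfold Pv
  rw [ContinuousLinearMap.comp_sub, dFp_comp_Ph, ContinuousLinearMap.comp_id, sub_self]

theorem Ph_eq (u : E m → E n) (y : E m) :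
    Ph u y = dF (fderiv ℝ u y) ∘L dFp (fderiv ℝ u y) := PhA_eq _

theorem adjoint_Ph (u : E m → E n) (y : E m) : adj (Ph u y) = Ph u y := adjoint_PhA _

theorem adjoint_Pv (u : E m → E n) (y : E m) : adj (Pv u y) = Pv u y :=
  IsProj.adjoint_compl (isProj_Ph u y)

theorem Ph_comp_Ph (u : E m → E n) (y : E m) : Ph u y ∘L Ph u y = Ph u y := (isProj_Ph u y).idem

theorem Pv_comp_Pv (u : E m → E n) (y : E m) : Pv u y ∘L Pv u y = Pv u y :=
  IsProj.compl_idem (isProj_Ph u y)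

theorem Ph_comp_Pv (u : E m → E n) (y : E m) : Ph u y ∘L Pv u y = 0 :=
  IsProj.comp_compl (isProj_Ph u y)

theorem Pv_comp_Ph (u : E m → E n) (y : E m) : Pv u y ∘L Ph u y = 0 :=
  IsProj.compl_comp (isProj_Ph u y)

theorem norm_Pv_apply_le (u : E m → E n) (y : E m) (w : E (m + n)) : ‖Pv u y w‖ ≤ ‖w‖ :=
  (isProj_Ph u y).norm_sub_apply_le w

theorem norm_Ph_apply_le (u : E m → E n) (y : E m) (w : E (m + n)) : ‖Ph u y w‖ ≤ ‖w‖ :=
  (isProj_Ph u y).norm_apply_le w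

theorem norm_Pv_le (u : E m → E n) (y : E m) : ‖Pv u y‖ ≤ 1 :=
  ContinuousLinearMap.opNorm_le_bound _ zero_le_one fun w => by
    rw [one_mul]; exact norm_Pv_apply_le u y w

theorem norm_Ph_le (u : E m → E n) (y : E m) : ‖Ph u y‖ ≤ 1 :=
  ContinuousLinearMap.opNorm_le_bound _ zero_le_one fun w => by
    rw [one_mul]; exact norm_Ph_apply_le u y w

/-- **(P1)** `Ṗ_α T = V W_α`. -/
theorem dPh_comp_dF (hu : ContDiff ℝ 2 u) (y α : E m) :
    dPh u y α ∘L dF (fderiv ℝ u y) = Pv u y ∘L Wop u y α := by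
  have h1 := (hasFDerivAt_Ph hu y).clm_comp (hasFDerivAt_dF_Du (y := y) hu)
  have h2 : (fun y => Ph u y ∘L dF (fderiv ℝ u y)) = fun y => dF (fderiv ℝ u y) :=
    funext (Ph_comp_dF u)
  rw [h2] at h1
  have h3 := congrArg (fun T => T α) (h1.unique (hasFDerivAt_dF_Du (y := y) hu))
  simp only [add_apply, ContinuousLinearMap.comp_apply, ContinuousLinearMap.compL_apply,
    ContinuousLinearMap.flip_apply] at h3
  unfold Pv dPh Wop
  rw [ContinuousLinearMap.sub_comp, ContinuousLinearMap.id_comp]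
  exact eq_sub_of_add_eq' h3

/-- **(P2)** `Ṗ_α` is symmetric. -/
theorem adjoint_dPh (hu : ContDiff ℝ 2 u) (y α : E m) : adj (dPh u y α) = dPh u y α := by
  have h1 := (adjL (m + n) (m + n)).hasFDerivAt.comp y (hasFDerivAt_Ph hu y)
  have h2 : (adjL (m + n) (m + n)) ∘ Ph u = Ph u := funext fun y => adjoint_Ph u y
  rw [h2] at h1
  exact congrArg (fun T => T α) (h1.unique (hasFDerivAt_Ph hu y))

/-- **(P3)** `Ṗ_α = H Ṗ_α + Ṗ_α H`. -/
theorem dPh_eq_add (hu : ContDiff ℝ 2 u) (y α : E m) :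
    dPh u y α = Ph u y ∘L dPh u y α + dPh u y α ∘L Ph u y := by
  have h1 := (hasFDerivAt_Ph hu y).clm_comp (hasFDerivAt_Ph hu y)
  have h2 : (fun y => Ph u y ∘L Ph u y) = Ph u := funext (Ph_comp_Ph u)
  rw [h2] at h1
  have h3 := congrArg (fun T => T α) (h1.unique (hasFDerivAt_Ph hu y))
  simp only [add_apply, ContinuousLinearMap.comp_apply, ContinuousLinearMap.compL_apply,
    ContinuousLinearMap.flip_apply] at h3
  exact h3.symm

theorem dPh_comp_Ph (hu : ContDiff ℝ 2 u) (y α : E m) : dPh u y α ∘L Ph u y = Zop u y α := by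
  rw [Ph_eq, ← ContinuousLinearMap.comp_assoc, dPh_comp_dF hu, ContinuousLinearMap.comp_assoc]
  rfl

theorem Ph_comp_dPh (hu : ContDiff ℝ 2 u) (y α : E m) :
    Ph u y ∘L dPh u y α = adj (Zop u y α) := by
  rw [← dPh_comp_Ph hu, ContinuousLinearMap.adjoint_comp, adjoint_Ph, adjoint_dPh hu]

/-- **(P4)** `Ṗ_α = Z_α + Z_αᵀ`. -/
theorem dPh_eq (hu : ContDiff ℝ 2 u) (y α : E m) :
    dPh u y α = Zop u y α + adj (Zop u y α) := by
  conv_lhs => rw [dPh_eq_add hu, Ph_comp_dPh hu, dPh_comp_Ph hu]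
  exact add_comm _ _

theorem Zop_comp_Pv (u : E m → E n) (y α : E m) : Zop u y α ∘L Pv u y = 0 := by
  unfold Zop
  rw [ContinuousLinearMap.comp_assoc, ContinuousLinearMap.comp_assoc, dFp_comp_Pv]
  simp

theorem Ph_comp_Zop (u : E m → E n) (y α : E m) : Ph u y ∘L Zop u y α = 0 := by
  unfold Zop
  rw [← ContinuousLinearMap.comp_assoc, Ph_comp_Pv]
  simp

theorem Pv_comp_Zop (u : E m → E n) (y α : E m) : Pv u y ∘L Zop u y α = Zop u y α := by
  unfold Zop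
  rw [← ContinuousLinearMap.comp_assoc, Pv_comp_Pv]

theorem Zop_comp_Ph (u : E m → E n) (y α : E m) : Zop u y α ∘L Ph u y = Zop u y α := by
  unfold Zop
  rw [ContinuousLinearMap.comp_assoc, ContinuousLinearMap.comp_assoc, dFp_comp_Ph]

/-- on normal vectors `Ṗ_α = Z_αᵀ`. -/
theorem dPh_comp_Pv (hu : ContDiff ℝ 2 u) (y α : E m) :
    dPh u y α ∘L Pv u y = adj (Zop u y α) := by
  rw [dPh_eq hu, ContinuousLinearMap.add_comp, Zop_comp_Pv, zero_add]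
  have := congrArg adj (Pv_comp_Zop u y α)
  rwa [ContinuousLinearMap.adjoint_comp, adjoint_Pv] at this

theorem norm_Wop_le (u : E m → E n) (y α : E m) : ‖Wop u y α‖ ≤ ‖D2 u y‖ * ‖α‖ := by
  refine ContinuousLinearMap.opNorm_le_bound _ (by positivity) fun β => ?_
  change ‖inV m n (D2 u y α β)‖ ≤ _
  rw [norm_inV]
  exact ((D2 u y α).le_opNorm β).trans (by gcongr; exact (D2 u y).le_opNorm α)

end Claimed.Agent.R322.Tube
end

/- ===== packed: Claimed.Agent.R322.Tube.Geom.Shape ===== -/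
section
/-!
# Row 322, Tube/Geom/Shape: the shape operator (G3) and the operators `J = 1 - A_w`, `K = J⁻¹`

`Sop u y ν` is the symmetric operator on the chart with `⟨S_ν α, β⟩ = ⟨ν, inV (D²u(α,β))⟩`, and
`Shp u y w = (T⁺)ᵀ S_{V w} T⁺`.
-/

set_option autoImplicit false

open scoped ENNReal ContDiff Topology
open MeasureTheory Filter

namespace Claimed.Agent.R322.Tube

local notation "adj" => ContinuousLinearMap.adjoint
local notation "𝟙" => ContinuousLinearMap.id ℝ _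

variable {m n : ℕ} {u : E m → E n}

/-- `S_ν α = (D²u(α,·))ᵀ (prV ν)`. -/
noncomputable def Sop (u : E m → E n) (y : E m) (ν : E (m + n)) : E m →L[ℝ] E m :=
  ((adjL m n ∘L D2 u y).flip (prV m n ν))

theorem Sop_apply (u : E m → E n) (y : E m) (ν : E (m + n)) (α : E m) :
    Sop u y ν α = adj (D2 u y α) (prV m n ν) := rfl

theorem inner_Sop (u : E m → E n) (y : E m) (ν : E (m + n)) (α β : E m) :
    inner ℝ (Sop u y ν α) β = inner ℝ ν (inV m n (D2 u y α β)) := by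
  rw [Sop_apply, ContinuousLinearMap.adjoint_inner_left, real_inner_comm, ← inner_inV_left,
    real_inner_comm]

theorem Sop_eq_adjoint_Wop (u : E m → E n) (y : E m) (ν : E (m + n)) (α : E m) :
    Sop u y ν α = adj (Wop u y α) ν := by
  refine ext_inner_right ℝ fun β => ?_
  rw [inner_Sop, ContinuousLinearMap.adjoint_inner_left]
  rfl

theorem Sop_symm (hu : ContDiff ℝ 2 u) (y : E m) (ν : E (m + n)) (α β : E m) :
    inner ℝ (Sop u y ν α) β = inner ℝ α (Sop u y ν β) := by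
  rw [inner_Sop, real_inner_comm (Sop u y ν β) α, inner_Sop, D2_symm hu]

theorem adjoint_Sop (hu : ContDiff ℝ 2 u) (y : E m) (ν : E (m + n)) :
    adj (Sop u y ν) = Sop u y ν := by
  ext1 α
  refine ext_inner_right ℝ fun β => ?_
  rw [ContinuousLinearMap.adjoint_inner_left, Sop_symm hu]

theorem norm_Sop_le (u : E m → E n) (y : E m) (ν : E (m + n)) :
    ‖Sop u y ν‖ ≤ ‖D2 u y‖ * ‖ν‖ := by
  refine ContinuousLinearMap.opNorm_le_bound _ (by positivity) fun α => ?_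
  rw [Sop_apply]
  refine ((adj (D2 u y α)).le_opNorm _).trans ?_
  rw [LinearIsometryEquiv.norm_map]
  calc ‖D2 u y α‖ * ‖prV m n ν‖ ≤ (‖D2 u y‖ * ‖α‖) * ‖ν‖ := by
        gcongr
        · exact (D2 u y).le_opNorm α
        · exact norm_prV_le ν
    _ = ‖D2 u y‖ * ‖ν‖ * ‖α‖ := by ring

theorem Shp_apply (hu : ContDiff ℝ 2 u) (y : E m) (w a : E (m + n)) :
    Shp u y w a = adj (dFp (fderiv ℝ u y)) (Sop u y (Pv u y w) (dFp (fderiv ℝ u y) a)) := by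
  have h1 : Shp u y w a = (dPh u y (dFp (fderiv ℝ u y) a) ∘L Pv u y) w := rfl
  rw [h1, dPh_comp_Pv hu, Sop_eq_adjoint_Wop]
  unfold Zop
  rw [ContinuousLinearMap.adjoint_comp, ContinuousLinearMap.adjoint_comp, adjoint_Pv]
  rfl

/-- `A_w = (T⁺)ᵀ S_{V w} T⁺`. -/
theorem Shp_eq (hu : ContDiff ℝ 2 u) (y : E m) (w : E (m + n)) :
    Shp u y w = adj (dFp (fderiv ℝ u y)) ∘L Sop u y (Pv u y w) ∘L dFp (fderiv ℝ u y) := by
  ext1 a
  exact Shp_apply hu y w a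

theorem inner_Shp (hu : ContDiff ℝ 2 u) (y : E m) (w a b : E (m + n)) :
    inner ℝ (Shp u y w a) b
      = inner ℝ (Sop u y (Pv u y w) (dFp (fderiv ℝ u y) a)) (dFp (fderiv ℝ u y) b) := by
  rw [Shp_apply hu, ContinuousLinearMap.adjoint_inner_left]

theorem Shp_symm (hu : ContDiff ℝ 2 u) (y : E m) (w a b : E (m + n)) :
    inner ℝ (Shp u y w a) b = inner ℝ a (Shp u y w b) := by
  rw [inner_Shp hu, real_inner_comm (Shp u y w b) a, inner_Shp hu, Sop_symm hu, real_inner_comm]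

theorem adjoint_Shp (hu : ContDiff ℝ 2 u) (y : E m) (w : E (m + n)) :
    adj (Shp u y w) = Shp u y w := by
  ext1 a
  refine ext_inner_right ℝ fun b => ?_
  rw [ContinuousLinearMap.adjoint_inner_left, Shp_symm hu]

theorem Shp_comp_Ph (u : E m → E n) (y : E m) (w : E (m + n)) :
    Shp u y w ∘L Ph u y = Shp u y w := by
  unfold Shp
  rw [ContinuousLinearMap.comp_assoc, dFp_comp_Ph]

theorem Ph_comp_Shp (hu : ContDiff ℝ 2 u) (y : E m) (w : E (m + n)) :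
    Ph u y ∘L Shp u y w = Shp u y w := by
  have h := congrArg adj (Shp_comp_Ph u y w)
  rwa [ContinuousLinearMap.adjoint_comp, adjoint_Ph, adjoint_Shp hu] at h

theorem Shp_comp_Pv (u : E m → E n) (y : E m) (w : E (m + n)) :
    Shp u y w ∘L Pv u y = 0 := by
  unfold Pv
  rw [ContinuousLinearMap.comp_sub, Shp_comp_Ph, ContinuousLinearMap.comp_id, sub_self]

theorem Pv_comp_Shp (hu : ContDiff ℝ 2 u) (y : E m) (w : E (m + n)) :
    Pv u y ∘L Shp u y w = 0 := by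
  unfold Pv
  rw [ContinuousLinearMap.sub_comp, Ph_comp_Shp hu, ContinuousLinearMap.id_comp, sub_self]

theorem inner_Pv_left (u : E m → E n) (y : E m) (a b : E (m + n)) :
    inner ℝ (Pv u y a) b = inner ℝ a (Pv u y b) := by
  rw [← ContinuousLinearMap.adjoint_inner_right, adjoint_Pv]

theorem inner_Sop_Pv (u : E m → E n) (y : E m) (w : E (m + n)) (α β : E m) :
    inner ℝ (Sop u y (Pv u y w) α) β = inner ℝ (II u y α β) w := by
  rw [inner_Sop, inner_Pv_left, real_inner_comm]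
  rfl

theorem inner_Shp_dF (hu : ContDiff ℝ 2 u) (y : E m) (w : E (m + n)) (α β : E m) :
    inner ℝ (Shp u y w (dF (fderiv ℝ u y) α)) (dF (fderiv ℝ u y) β) = inner ℝ (II u y α β) w := by
  rw [inner_Shp hu, dFp_dF, dFp_dF, inner_Sop_Pv]

/-- `T⁺ (T⁺)ᵀ = g⁻¹`. -/
theorem dFp_comp_adjoint_dFp (A : E m →L[ℝ] E n) : dFp A ∘L adj (dFp A) = (gmat A).inverse := by
  have h1 : adj (dFp A) = dF A ∘L (gmat A).inverse := by
    unfold dFp
    rw [ContinuousLinearMap.adjoint_comp, ContinuousLinearMap.adjoint_adjoint,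
      adjoint_gmat_inverse]
  rw [h1, ← ContinuousLinearMap.comp_assoc, dFp_comp_dF, ContinuousLinearMap.id_comp]

theorem adjoint_dFp (A : E m →L[ℝ] E n) : adj (dFp A) = dF A ∘L (gmat A).inverse := by
  unfold dFp
  rw [ContinuousLinearMap.adjoint_comp, ContinuousLinearMap.adjoint_adjoint,
    adjoint_gmat_inverse]

theorem trc_Sop_comp (u : E m → E n) (y : E m) (w : E (m + n)) :
    trc (Sop u y (Pv u y w) ∘L (gmat (fderiv ℝ u y)).inverse) = inner ℝ (HS u y) w := by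
  rw [trc_eq_sum]
  unfold HS
  rw [sum_inner]
  exact Finset.sum_congr rfl fun a _ => inner_Sop_Pv u y w _ _

theorem trc_Shp (hu : ContDiff ℝ 2 u) (y : E m) (w : E (m + n)) :
    trc (Shp u y w) = inner ℝ (HS u y) w := by
  rw [Shp_eq hu, trc_comp_comm, ContinuousLinearMap.comp_assoc, dFp_comp_adjoint_dFp,
    trc_Sop_comp]

theorem norm_Shp_le (hu : ContDiff ℝ 2 u) (y : E m) (w : E (m + n)) :
    ‖Shp u y w‖ ≤ (1 + ‖fderiv ℝ u y‖) ^ 2 * ‖D2 u y‖ * ‖w‖ := by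
  rw [Shp_eq hu]
  refine (ContinuousLinearMap.opNorm_comp_le _ _).trans ?_
  rw [LinearIsometryEquiv.norm_map]
  have h1 := norm_dFp_le (fderiv ℝ u y)
  have h2 : ‖Sop u y (Pv u y w) ∘L dFp (fderiv ℝ u y)‖
      ≤ (‖D2 u y‖ * ‖w‖) * (1 + ‖fderiv ℝ u y‖) := by
    refine (ContinuousLinearMap.opNorm_comp_le _ _).trans ?_
    gcongr
    exact (norm_Sop_le u y _).trans (by gcongr; exact norm_Pv_apply_le u y w)
  calc ‖dFp (fderiv ℝ u y)‖ * ‖Sop u y (Pv u y w) ∘L dFp (fderiv ℝ u y)‖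
      ≤ (1 + ‖fderiv ℝ u y‖) * ((‖D2 u y‖ * ‖w‖) * (1 + ‖fderiv ℝ u y‖)) := by gcongr
    _ = _ := by ring

theorem Geo.norm_Shp_le {κ₂ : ℝ} (hu : Geo κ₂ u) (y : E m) (w : E (m + n)) :
    ‖Shp u y w‖ ≤ 9 / 4 * κ₂ * ‖w‖ := by
  refine (Tube.norm_Shp_le hu.c2 y w).trans ?_
  have h1 := hu.slope y
  have h2 := hu.norm_D2_le y
  have h3 : (1 + ‖fderiv ℝ u y‖) ^ 2 ≤ 9 / 4 := by nlinarith [norm_nonneg (fderiv ℝ u y)]
  gcongr

/-- **(G3)** -/
theorem shape_facts_aux (m n : ℕ) : ∃ C : ℝ, 0 < C ∧ ∀ (κ₂ : ℝ) (u : E m → E n), Geo κ₂ u →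
    ∀ (y : E m) (w : E (m + n)),
      (∀ a b, inner ℝ (Shp u y w a) b = inner ℝ a (Shp u y w b)) ∧
      Ph u y ∘L Shp u y w = Shp u y w ∧ Shp u y w ∘L Ph u y = Shp u y w ∧
      (∀ α β : E m, inner ℝ (Shp u y w (dF (fderiv ℝ u y) α)) (dF (fderiv ℝ u y) β)
        = inner ℝ (II u y α β) w) ∧
      trc (Shp u y w) = inner ℝ (HS u y) w ∧
      ‖Shp u y w‖ ≤ C * κ₂ * ‖w‖ :=
  ⟨9 / 4, by norm_num, fun _ u hu y w =>
    ⟨Shp_symm hu.c2 y w, Ph_comp_Shp hu.c2 y w, Shp_comp_Ph u y w, inner_Shp_dF hu.c2 y w,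
      trc_Shp hu.c2 y w, hu.norm_Shp_le y w⟩⟩

end Claimed.Agent.R322.Tube
end

/- ===== packed: Claimed.Agent.R322.Tube.Geom.JK ===== -/
section
/-!
# Row 322, Tube/Geom/JK: the operators `J_w = 1 - A_w`, `K_w = J_w⁻¹` at a base point
-/

set_option autoImplicit false

open scoped ENNReal ContDiff Topology
open MeasureTheory Filter

namespace Claimed.Agent.R322.Tube

local notation "adj" => ContinuousLinearMap.adjoint
local notation "𝟙" => ContinuousLinearMap.id ℝ _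

variable {m n : ℕ} {u : E m → E n}

/-- Neumann: `1 - A` is invertible for `‖A‖ ≤ 1/2`, the inverse has norm `≤ 2`. -/
theorem one_sub_inverse {N : ℕ} (A : E N →L[ℝ] E N) (hA : ‖A‖ ≤ 1 / 2) :
    (𝟙 - A) ∘L (𝟙 - A).inverse = 𝟙 ∧ (𝟙 - A).inverse ∘L (𝟙 - A) = 𝟙 ∧
      ‖(𝟙 - A).inverse‖ ≤ 2 := by
  have hu : IsUnit ((1 : E N →L[ℝ] E N) - A) := (Units.oneSub A (by linarith)).isUnit
  have h1 : (𝟙 - A) ∘L (𝟙 - A).inverse = 𝟙 := by
    rw [← ContinuousLinearMap.ringInverse_eq_inverse]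
    exact Ring.mul_inverse_cancel _ hu
  have h2 : (𝟙 - A).inverse ∘L (𝟙 - A) = 𝟙 := by
    rw [← ContinuousLinearMap.ringInverse_eq_inverse]
    exact Ring.inverse_mul_cancel _ hu
  refine ⟨h1, h2, ContinuousLinearMap.opNorm_le_bound _ (by norm_num) fun b => ?_⟩
  set a := (𝟙 - A).inverse b with ha
  have h3 : b = a - A a := (congrArg (fun T : E N →L[ℝ] E N => T b) h1).symm
  have h4 : ‖A a‖ ≤ 1 / 2 * ‖a‖ := (A.le_opNorm a).trans (by gcongr)
  have h5 : ‖a‖ - ‖A a‖ ≤ ‖b‖ := by rw [h3]; exact norm_sub_norm_le _ _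
  linarith

/-- `J_w = 1 - A_w` at the base point `y`. -/
noncomputable def Jw (u : E m → E n) (y : E m) (w : E (m + n)) : E (m + n) →L[ℝ] E (m + n) :=
  𝟙 - Shp u y w

/-- `K_w = J_w⁻¹`. -/
noncomputable def Kw (u : E m → E n) (y : E m) (w : E (m + n)) : E (m + n) →L[ℝ] E (m + n) :=
  (Jw u y w).inverse

theorem Jz_eq (u : E m → E n) (X : E (m + n)) : Jz u X = Jw u (npr u X) (zz u X) := rfl

theorem Kz_eq (u : E m → E n) (X : E (m + n)) : Kz u X = Kw u (npr u X) (zz u X) := rfl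

section
variable {y : E m} {w : E (m + n)}

theorem Jw_comp_Kw (h : ‖Shp u y w‖ ≤ 1 / 2) : Jw u y w ∘L Kw u y w = 𝟙 :=
  (one_sub_inverse _ h).1

theorem Kw_comp_Jw (h : ‖Shp u y w‖ ≤ 1 / 2) : Kw u y w ∘L Jw u y w = 𝟙 :=
  (one_sub_inverse _ h).2.1

theorem norm_Kw_le (h : ‖Shp u y w‖ ≤ 1 / 2) : ‖Kw u y w‖ ≤ 2 :=
  (one_sub_inverse _ h).2.2

theorem norm_Jw_le (h : ‖Shp u y w‖ ≤ 1 / 2) : ‖Jw u y w‖ ≤ 2 := by
  unfold Jw
  refine (norm_sub_le _ _).trans ?_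
  have := ContinuousLinearMap.norm_id_le (𝕜 := ℝ) (E := E (m + n))
  linarith

theorem Kw_eq_add (h : ‖Shp u y w‖ ≤ 1 / 2) : Kw u y w = 𝟙 + Shp u y w ∘L Kw u y w := by
  have h1 := Jw_comp_Kw h
  unfold Jw at h1
  rw [ContinuousLinearMap.sub_comp, ContinuousLinearMap.id_comp] at h1
  rw [← h1]
  abel

theorem Kw_eq_add' (h : ‖Shp u y w‖ ≤ 1 / 2) : Kw u y w = 𝟙 + Kw u y w ∘L Shp u y w := by
  have h1 := Kw_comp_Jw h
  unfold Jw at h1
  rw [ContinuousLinearMap.comp_sub, ContinuousLinearMap.comp_id] at h1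
  rw [← h1]
  abel

theorem Ph_comp_Jw (hu : ContDiff ℝ 2 u) : Ph u y ∘L Jw u y w = Jw u y w ∘L Ph u y := by
  unfold Jw
  rw [ContinuousLinearMap.comp_sub, ContinuousLinearMap.sub_comp, Ph_comp_Shp hu, Shp_comp_Ph,
    ContinuousLinearMap.comp_id, ContinuousLinearMap.id_comp]

theorem Ph_comp_Kw (hu : ContDiff ℝ 2 u) (h : ‖Shp u y w‖ ≤ 1 / 2) :
    Ph u y ∘L Kw u y w = Kw u y w ∘L Ph u y := by
  calc Ph u y ∘L Kw u y w = (Kw u y w ∘L Jw u y w) ∘L Ph u y ∘L Kw u y w := by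
        rw [Kw_comp_Jw h, ContinuousLinearMap.id_comp]
    _ = Kw u y w ∘L (Jw u y w ∘L Ph u y) ∘L Kw u y w := by
        simp only [ContinuousLinearMap.comp_assoc]
    _ = Kw u y w ∘L Ph u y ∘L (Jw u y w ∘L Kw u y w) := by
        rw [← Ph_comp_Jw hu]; simp only [ContinuousLinearMap.comp_assoc]
    _ = Kw u y w ∘L Ph u y := by rw [Jw_comp_Kw h, ContinuousLinearMap.comp_id]

theorem adjoint_Jw (hu : ContDiff ℝ 2 u) : adj (Jw u y w) = Jw u y w := by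
  unfold Jw
  rw [map_sub, adjoint_Shp hu]
  congr 1
  exact ContinuousLinearMap.adjoint_id

theorem adjoint_Kw (hu : ContDiff ℝ 2 u) (h : ‖Shp u y w‖ ≤ 1 / 2) :
    adj (Kw u y w) = Kw u y w := by
  have h1 := congrArg adj (Jw_comp_Kw h)
  rw [ContinuousLinearMap.adjoint_comp, adjoint_Jw hu] at h1
  have h2 : adj (𝟙 : E (m + n) →L[ℝ] E (m + n)) = 𝟙 := ContinuousLinearMap.adjoint_id
  rw [h2] at h1
  calc adj (Kw u y w) = adj (Kw u y w) ∘L (Jw u y w ∘L Kw u y w) := by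
        rw [Jw_comp_Kw h, ContinuousLinearMap.comp_id]
    _ = (adj (Kw u y w) ∘L Jw u y w) ∘L Kw u y w := by rw [ContinuousLinearMap.comp_assoc]
    _ = Kw u y w := by rw [h1, ContinuousLinearMap.id_comp]

/-- `g T⁺ J_w = (g - S_{V w}) T⁺`. -/
theorem gmat_comp_dFp_comp_Jw (hu : ContDiff ℝ 2 u) :
    gmat (fderiv ℝ u y) ∘L dFp (fderiv ℝ u y) ∘L Jw u y w
      = (gmat (fderiv ℝ u y) - Sop u y (Pv u y w)) ∘L dFp (fderiv ℝ u y) := by
  unfold Jw
  rw [ContinuousLinearMap.comp_sub, ContinuousLinearMap.comp_id, Shp_eq hu,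
    ← ContinuousLinearMap.comp_assoc (dFp (fderiv ℝ u y)), dFp_comp_adjoint_dFp,
    ContinuousLinearMap.comp_sub, ContinuousLinearMap.sub_comp,
    ← ContinuousLinearMap.comp_assoc (gmat (fderiv ℝ u y)), gmat_comp_inverse,
    ContinuousLinearMap.id_comp]

theorem gmat_comp_dFp (A : E m →L[ℝ] E n) : gmat A ∘L dFp A = adj (dF A) := by
  unfold dFp
  rw [← ContinuousLinearMap.comp_assoc, gmat_comp_inverse, ContinuousLinearMap.id_comp]

/-- `(g - S_{V w}) T⁺ K_w H = Tᵀ`. -/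
theorem sub_Sop_comp (hu : ContDiff ℝ 2 u) (h : ‖Shp u y w‖ ≤ 1 / 2) :
    (gmat (fderiv ℝ u y) - Sop u y (Pv u y w)) ∘L
      (dFp (fderiv ℝ u y) ∘L Kw u y w ∘L Ph u y) = adj (dF (fderiv ℝ u y)) := by
  rw [← ContinuousLinearMap.comp_assoc, ← gmat_comp_dFp_comp_Jw hu]
  have h1 : (gmat (fderiv ℝ u y) ∘L dFp (fderiv ℝ u y) ∘L Jw u y w) ∘L Kw u y w ∘L Ph u y
      = gmat (fderiv ℝ u y) ∘L dFp (fderiv ℝ u y) ∘L (Jw u y w ∘L Kw u y w) ∘L Ph u y := by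
    simp only [ContinuousLinearMap.comp_assoc]
  rw [h1, Jw_comp_Kw h, ContinuousLinearMap.id_comp, dFp_comp_Ph, gmat_comp_dFp]

end

theorem Geo.norm_Shp_le_half {κ₂ : ℝ} (hu : Geo κ₂ u) (y : E m) {w : E (m + n)}
    (hw : ‖w‖ ≤ 2 / 9) : ‖Shp u y w‖ ≤ 1 / 2 := by
  refine (hu.norm_Shp_le y w).trans ?_
  have h1 := hu.le_one
  have h2 := hu.nonneg
  nlinarith [norm_nonneg w]

end Claimed.Agent.R322.Tube
end

/- ===== packed: Claimed.Agent.R322.Tube.Geom.Proj ===== -/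
section
/-!
# Row 322, Tube/Geom/Proj: regularity and derivative of the nearest point projection (G2)
-/

set_option autoImplicit false

open scoped ENNReal ContDiff Topology
open MeasureTheory Filter

namespace Claimed.Agent.R322.Tube

local notation "adj" => ContinuousLinearMap.adjoint
local notation "𝟙" => ContinuousLinearMap.id ℝ _

variable {m n : ℕ} {u : E m → E n} {κ₂ : ℝ}

/-- the first order condition `Tᵀ(y) (X - F y)`. -/
noncomputable def foc (u : E m → E n) (p : E (m + n) × E m) : E m :=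
  adj (dF (fderiv ℝ u p.2)) (p.1 - Fg u p.2)

theorem contDiff_foc (hu : ContDiff ℝ 4 u) : ContDiff ℝ 3 (foc u) := by
  have h1 : ContDiff ℝ 3 fun p : E (m + n) × E m => adj (dF (fderiv ℝ u p.2)) :=
    contDiff_adjoint.comp ((contDiff_dF_Du (k := 3) (by exact_mod_cast hu)).comp contDiff_snd)
  have h2 : ContDiff ℝ 3 fun p : E (m + n) × E m => p.1 - Fg u p.2 :=
    contDiff_fst.sub ((contDiff_Fg_of (hu.of_le (by norm_num))).comp contDiff_snd)
  exact h1.clm_apply h2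

theorem hasFDerivAt_foc (hu : ContDiff ℝ 2 u) (X : E (m + n)) (y : E m) :
    HasFDerivAt (foc u)
      (adj (dF (fderiv ℝ u y)) ∘L ContinuousLinearMap.fst ℝ (E (m + n)) (E m)
        - (gmat (fderiv ℝ u y) - Sop u y (X - Fg u y)) ∘L
            ContinuousLinearMap.snd ℝ (E (m + n)) (E m)) (X, y) := by
  have hs : HasFDerivAt (fun p : E (m + n) × E m => p.2)
      (ContinuousLinearMap.snd ℝ (E (m + n)) (E m)) (X, y) := hasFDerivAt_snd
  have h0 : HasFDerivAt (fun p : E (m + n) × E m => dF (fderiv ℝ u p.2))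
      (((ContinuousLinearMap.compL ℝ (E m) (E n) (E (m + n)) (inV m n))
        ∘L D2 u y) ∘L ContinuousLinearMap.snd ℝ (E (m + n)) (E m)) (X, y) :=
    HasFDerivAt.comp (g := fun y => dF (fderiv ℝ u y)) (X, y) (hasFDerivAt_dF_Du (y := y) hu) hs
  have h1 : HasFDerivAt (fun p : E (m + n) × E m => adj (dF (fderiv ℝ u p.2)))
      (adjL m (m + n) ∘L ((ContinuousLinearMap.compL ℝ (E m) (E n) (E (m + n)) (inV m n))
        ∘L D2 u y) ∘L ContinuousLinearMap.snd ℝ (E (m + n)) (E m)) (X, y) :=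
    (adjL m (m + n)).hasFDerivAt.comp (X, y) h0
  have h2' : HasFDerivAt (fun p : E (m + n) × E m => Fg u p.2)
      (dF (fderiv ℝ u y) ∘L ContinuousLinearMap.snd ℝ (E (m + n)) (E m)) (X, y) :=
    HasFDerivAt.comp (g := Fg u) (X, y)
      (hasFDerivAt_Fg (y := y) (hu.differentiable (by norm_num) y)) hs
  have h2 : HasFDerivAt (fun p : E (m + n) × E m => p.1 - Fg u p.2)
      (ContinuousLinearMap.fst ℝ (E (m + n)) (E m)
        - dF (fderiv ℝ u y) ∘L ContinuousLinearMap.snd ℝ (E (m + n)) (E m)) (X, y) :=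
    hasFDerivAt_fst.sub h2'
  have h3 := h1.clm_apply h2
  refine h3.congr_fderiv (ContinuousLinearMap.ext fun p => ?_)
  obtain ⟨ξ, α⟩ := p
  have h4 : adj (dF (fderiv ℝ u y)) (dF (fderiv ℝ u y) α) = gmat (fderiv ℝ u y) α :=
    congrArg (fun T : E m →L[ℝ] E m => T α) (adjoint_dF_comp_dF _)
  simp only [add_apply, sub_apply, ContinuousLinearMap.comp_apply,
    ContinuousLinearMap.flip_apply, ContinuousLinearMap.coe_fst', ContinuousLinearMap.coe_snd',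
    map_sub, h4, Sop_eq_adjoint_Wop]
  have h5 : adjL m (m + n) ((ContinuousLinearMap.compL ℝ (E m) (E n) (E (m + n)) (inV m n))
      (D2 u y α)) = adj (Wop u y α) := rfl
  rw [h5]
  abel

theorem isInvertible_of_injective {N : ℕ} (M : E N →L[ℝ] E N) (h : Function.Injective M) :
    M.IsInvertible :=
  ⟨(LinearEquiv.ofInjectiveEndo (M : E N →ₗ[ℝ] E N) h).toContinuousLinearEquiv, by ext; rfl⟩

theorem injective_gmat_sub (A : E m →L[ℝ] E n) (S : E m →L[ℝ] E m) (hS : ‖S‖ ≤ 1 / 2) :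
    Function.Injective (gmat A - S) := by
  refine (injective_iff_map_eq_zero _).2 fun α hα => ?_
  have h1 : inner ℝ (gmat A α) α = inner ℝ (S α) α := by
    rw [sub_apply, sub_eq_zero] at hα
    rw [hα]
  rw [inner_gmat, real_inner_self_eq_norm_sq, real_inner_self_eq_norm_sq] at h1
  have h2 : inner ℝ (S α) α ≤ 1 / 2 * ‖α‖ * ‖α‖ :=
    (real_inner_le_norm _ _).trans (by gcongr; exact (S.le_opNorm α).trans (by gcongr))
  have h3 : ‖α‖ ^ 2 ≤ 0 := by nlinarith [sq_nonneg ‖A α‖]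
  exact norm_eq_zero.1 (pow_eq_zero_iff two_ne_zero |>.1 (le_antisymm h3 (sq_nonneg _)))

theorem isOpen_Tub (u : E m → E n) (h : ℝ) : IsOpen (Tub u h) := by
  have : Tub u h = ⋃ y : E m, Metric.ball (Fg u y) h := by
    ext X
    simp [Tub, Metric.mem_ball, dist_eq_norm]
  rw [this]
  exact isOpen_iUnion fun _ => Metric.isOpen_ball

theorem Geo.norm_Sop_le_half (hu : Geo κ₂ u) (y : E m) {w : E (m + n)} (hw : ‖w‖ ≤ 1 / 2) :
    ‖Sop u y w‖ ≤ 1 / 2 := by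
  refine (norm_Sop_le u y w).trans ?_
  have h1 := hu.norm_D2_le y
  have h2 := hu.le_one
  have h3 := hu.nonneg
  nlinarith [norm_nonneg w, norm_nonneg (D2 u y)]

theorem Pv_zz (hu : Geo κ₂ u) {h : ℝ} (hh : h ≤ 1 / 4) {X : E (m + n)} (hX : X ∈ Tub u h) :
    Pv u (npr u X) (zz u X) = zz u X := by
  have := (tube_unique_of_le hu hh hX).2.2.1
  unfold Pv
  rw [sub_apply, this, sub_zero]
  rfl

/-- **local form of (G2)**. -/
theorem npr_local (hu : Geo κ₂ u) {h : ℝ} (hh : h ≤ 2 / 9) {X₀ : E (m + n)}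
    (hX₀ : X₀ ∈ Tub u h) :
    ContDiffAt ℝ 3 (npr u) X₀ ∧
      HasFDerivAt (npr u)
        (dFp (fderiv ℝ u (npr u X₀)) ∘L Kz u X₀ ∘L Ph u (npr u X₀)) X₀ := by
  have hh4 : h ≤ 1 / 4 := hh.trans (by norm_num)
  obtain ⟨-, -, hPh, hz, -⟩ := tube_unique_of_le hu hh4 hX₀
  set y₀ := npr u X₀ with hy₀
  have hzz : X₀ - Fg u y₀ = zz u X₀ := rfl
  have hfd := hasFDerivAt_foc hu.c2 X₀ y₀
  have cdf : ContDiffAt ℝ 3 (foc u) (X₀, y₀) := (contDiff_foc hu.smooth).contDiffAt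
  have hS : ‖Sop u y₀ (zz u X₀)‖ ≤ 1 / 2 := hu.norm_Sop_le_half y₀ (by linarith)
  have hinr : fderiv ℝ (foc u) (X₀, y₀) ∘L ContinuousLinearMap.inr ℝ (E (m + n)) (E m)
      = -(gmat (fderiv ℝ u y₀) - Sop u y₀ (zz u X₀)) := by
    rw [hfd.fderiv, hzz]
    ext1 α
    simp
  have hinl : fderiv ℝ (foc u) (X₀, y₀) ∘L ContinuousLinearMap.inl ℝ (E (m + n)) (E m)
      = adj (dF (fderiv ℝ u y₀)) := by
    rw [hfd.fderiv]
    ext1 α
    simp
  have hinj : Function.Injective (-(gmat (fderiv ℝ u y₀) - Sop u y₀ (zz u X₀))) := by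
    intro a b hab
    rw [neg_apply, neg_apply, neg_inj] at hab
    exact injective_gmat_sub _ _ hS hab
  have if₂ : (fderiv ℝ (foc u) (X₀, y₀) ∘L
      ContinuousLinearMap.inr ℝ (E (m + n)) (E m)).IsInvertible := by
    rw [hinr]
    exact isInvertible_of_injective _ hinj
  have pn : (3 : ℕ∞ω) ≠ 0 := by norm_num
  set ψ := cdf.implicitFunction pn if₂ with hψ
  have hψ0 : ψ X₀ = y₀ := cdf.implicitFunction_apply_self pn if₂
  have hψe : ∀ᶠ X in 𝓝 X₀, foc u (X, ψ X) = foc u (X₀, y₀) :=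
    cdf.eventually_apply_implicitFunction pn if₂
  have hψc : ContDiffAt ℝ 3 ψ X₀ := cdf.contDiffAt_implicitFunction pn if₂
  have hψd := (cdf.hasStrictFDerivAt_implicitFunction pn if₂).hasFDerivAt
  have hfoc0 : foc u (X₀, y₀) = 0 := (PhA_eq_zero_iff _ _).1 hPh
  have hcont : ContinuousAt (fun X => ‖X - Fg u (ψ X)‖) X₀ := by
    have hF : Continuous (Fg u) := (contDiff_Fg_of hu.smooth).continuous
    exact (continuousAt_id.sub (hF.continuousAt.comp hψc.continuousAt)).norm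
  have hsmall : ∀ᶠ X in 𝓝 X₀, ‖X - Fg u (ψ X)‖ < h := by
    refine hcont.eventually_lt continuousAt_const ?_
    rw [hψ0]
    exact hz
  have heq : npr u =ᶠ[𝓝 X₀] ψ := by
    filter_upwards [hψe, hsmall] with X h1 h2
    have hX : X ∈ Tub u h := ⟨ψ X, h2⟩
    rw [hfoc0] at h1
    exact ((tube_unique_of_le hu hh4 hX).2.2.2.2 (ψ X) (X - Fg u (ψ X))
      ((PhA_eq_zero_iff _ _).2 h1) h2 (by abel)).1
  refine ⟨hψc.congr_of_eventuallyEq heq, ?_⟩
  refine (hψd.congr_of_eventuallyEq heq).congr_fderiv ?_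
  change -(fderiv ℝ (foc u) (X₀, y₀) ∘L ContinuousLinearMap.inr ℝ (E (m + n)) (E m)).inverse ∘L
    (fderiv ℝ (foc u) (X₀, y₀) ∘L ContinuousLinearMap.inl ℝ (E (m + n)) (E m)) = _
  have hShp : ‖Shp u y₀ (zz u X₀)‖ ≤ 1 / 2 := hu.norm_Shp_le_half y₀ (by linarith)
  have hkey := sub_Sop_comp (y := y₀) (w := zz u X₀) hu.c2 hShp
  rw [Pv_zz hu hh4 hX₀] at hkey
  have hinv := if₂.inverse_comp_self
  rw [hinl, ← hkey]
  rw [hinr] at hinv ⊢
  set M := gmat (fderiv ℝ u y₀) - Sop u y₀ (zz u X₀) with hM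
  have : -(-M).inverse ∘L M ∘L dFp (fderiv ℝ u y₀) ∘L Kw u y₀ (zz u X₀) ∘L Ph u y₀
      = ((-M).inverse ∘L (-M)) ∘L dFp (fderiv ℝ u y₀) ∘L Kw u y₀ (zz u X₀) ∘L Ph u y₀ := by
    ext1 a
    simp
  rw [this, hinv, ContinuousLinearMap.id_comp]
  rfl

theorem Geo.norm_Shp_zz_le_half (hu : Geo κ₂ u) {h : ℝ} (hh : h ≤ 2 / 9) {X : E (m + n)}
    (hX : X ∈ Tub u h) : ‖Shp u (npr u X) (zz u X)‖ ≤ 1 / 2 :=
  hu.norm_Shp_le_half _
    (((tube_unique_of_le hu (hh.trans (by norm_num)) hX).2.2.2.1).le.trans hh)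

theorem zz_local (hu : Geo κ₂ u) {h : ℝ} (hh : h ≤ 2 / 9) {X₀ : E (m + n)}
    (hX₀ : X₀ ∈ Tub u h) :
    ContDiffAt ℝ 3 (zz u) X₀ ∧
      HasFDerivAt (zz u) (𝟙 - Kz u X₀ ∘L Ph u (npr u X₀)) X₀ := by
  obtain ⟨h1, h2⟩ := npr_local hu hh hX₀
  have hF : ContDiff ℝ 3 (Fg u) := contDiff_Fg_of (hu.smooth.of_le (by norm_num))
  refine ⟨contDiffAt_id.sub (hF.contDiffAt.comp X₀ h1), ?_⟩
  have h3 := (hasFDerivAt_id X₀).sub
    ((hasFDerivAt_Fg (y := npr u X₀) (hu.differentiable _)).comp X₀ h2)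
  refine h3.congr_fderiv ?_
  congr 1
  rw [← ContinuousLinearMap.comp_assoc, ← Ph_eq, ← ContinuousLinearMap.comp_assoc, Kz_eq,
    Ph_comp_Kw hu.c2 (hu.norm_Shp_zz_le_half hh hX₀), ContinuousLinearMap.comp_assoc, Ph_comp_Ph]

/-- **(G2)** -/
theorem tube_deriv_of_le (hu : Geo κ₂ u) {h : ℝ} (hh : h ≤ 2 / 9) :
    IsOpen (Tub u h) ∧ ContDiffOn ℝ 3 (npr u) (Tub u h) ∧ ContDiffOn ℝ 3 (zz u) (Tub u h) ∧
    ∀ X ∈ Tub u h,
      Jz u X ∘L Kz u X = ContinuousLinearMap.id ℝ _ ∧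
      Kz u X ∘L Jz u X = ContinuousLinearMap.id ℝ _ ∧
      fderiv ℝ (npr u) X = dFp (fderiv ℝ u (npr u X)) ∘L Kz u X ∘L Ph u (npr u X) ∧
      fderiv ℝ (zz u) X = ContinuousLinearMap.id ℝ _ - Kz u X ∘L Ph u (npr u X) :=
  ⟨isOpen_Tub u h, fun X hX => (npr_local hu hh hX).1.contDiffWithinAt,
    fun X hX => (zz_local hu hh hX).1.contDiffWithinAt, fun X hX =>
    ⟨Jw_comp_Kw (hu.norm_Shp_zz_le_half hh hX), Kw_comp_Jw (hu.norm_Shp_zz_le_half hh hX),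
      (npr_local hu hh hX).2.fderiv, (zz_local hu hh hX).2.fderiv⟩⟩

end Claimed.Agent.R322.Tube
end

/- ===== packed: Claimed.Agent.R322.Tube.Geom.NTrace ===== -/
section
/-!
# Row 322, Tube/Geom/NTrace: the normal trace formula (G4)
-/

set_option autoImplicit false

open scoped ENNReal ContDiff Topology
open MeasureTheory Filter

namespace Claimed.Agent.R322.Tube

local notation "adj" => ContinuousLinearMap.adjoint
local notation "𝟙" => ContinuousLinearMap.id ℝ _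

/-- `tr (P X) = tr X - tr (B X)` for `X = H X H`. -/
theorem trc_proj_comp {N : ℕ} {H P X : E N →L[ℝ] E N} (hX1 : H ∘L X = X) (hX2 : X ∘L H = X) :
    trc (P ∘L X) = trc X - trc ((H ∘L (𝟙 - P) ∘L H) ∘L X) := by
  have h1 : (H ∘L (𝟙 - P) ∘L H) ∘L X = H ∘L ((𝟙 - P) ∘L X) := by
    rw [ContinuousLinearMap.comp_assoc, ContinuousLinearMap.comp_assoc, hX1]
  rw [h1, trc_comp_comm H ((𝟙 - P) ∘L X), ContinuousLinearMap.comp_assoc, hX2,
    ContinuousLinearMap.sub_comp, trc_sub, ContinuousLinearMap.id_comp]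
  ring

theorem norm_comp_le {a b c : ℕ} (A : E b →L[ℝ] E c) (B : E a →L[ℝ] E b) {x y : ℝ}
    (hA : ‖A‖ ≤ x) (hB : ‖B‖ ≤ y) : ‖A ∘L B‖ ≤ x * y :=
  (ContinuousLinearMap.opNorm_comp_le _ _).trans
    (mul_le_mul hA hB (norm_nonneg _) ((norm_nonneg _).trans hA))

variable {m n : ℕ} {u : E m → E n} {κ₂ : ℝ}

theorem tilt_nonneg (u : E m → E n) {P : E (m + n) →L[ℝ] E (m + n)} (hP : IsProj m P)
    (X : E (m + n)) : 0 ≤ tilt u P X := (block_facts_aux (isProj_Ph u (npr u X)) hP).1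

theorem tilt_le (u : E m → E n) {P : E (m + n) →L[ℝ] E (m + n)} (hP : IsProj m P)
    (X : E (m + n)) : tilt u P X ≤ m := (block_facts_aux (isProj_Ph u (npr u X)) hP).2.1

theorem abs_trc_Bop_comp_le (u : E m → E n) {P : E (m + n) →L[ℝ] E (m + n)} (hP : IsProj m P)
    (X : E (m + n)) (Y : E (m + n) →L[ℝ] E (m + n)) :
    |trc (Bop u P X ∘L Y)| ≤ tilt u P X * ‖Y‖ :=
  abs_trc_B_comp_le (isProj_Ph u (npr u X)) hP Y

/-- **(G4)** for every radius `h ≤ 2/9`. -/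
theorem normal_trace_of_le (hu : Geo κ₂ u) {h : ℝ} (hh : h ≤ 2 / 9) {X : E (m + n)}
    (hX : X ∈ Tub u h) {P : E (m + n) →L[ℝ] E (m + n)} (hP : IsProj m P) :
    tdiv P (fderiv ℝ (zz u) X)
        = tilt u P X - trc (P ∘L Shp u (npr u X) (zz u X) ∘L Kz u X ∘L Ph u (npr u X)) ∧
      |tdiv P (fderiv ℝ (zz u) X) - (tilt u P X - inner ℝ (HS u (npr u X)) (zz u X))|
        ≤ (11 * ((m + n : ℕ) : ℝ) + 3) *
          (κ₂ ^ 2 * ‖zz u X‖ ^ 2 + κ₂ * tilt u P X * ‖zz u X‖) := by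
  have hA := hu.norm_Shp_zz_le_half hh hX
  have hAn := hu.norm_Shp_le (npr u X) (zz u X)
  have hK := norm_Kw_le hA
  have hKe := Kw_eq_add hA
  have hAH := Shp_comp_Ph u (npr u X) (zz u X)
  have hHA := Ph_comp_Shp hu.c2 (npr u X) (zz u X)
  have htr := trc_Shp hu.c2 (npr u X) (zz u X)
  have hB := abs_trc_Bop_comp_le u hP X (Shp u (npr u X) (zz u X))
  have hH := norm_Ph_le u (npr u X)
  have he := tilt_nonneg u hP X
  have hPn : ‖P‖ ≤ 1 := hP.norm_le_one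
  have hκ := hu.nonneg
  rw [← Kz_eq] at hK hKe
  set y := npr u X with hy
  set z := zz u X with hz
  set A := Shp u y z with hAdef
  set K := Kz u X with hKdef
  set H := Ph u y with hHdef
  have h1 : tdiv P (fderiv ℝ (zz u) X) = tilt u P X - trc (P ∘L A ∘L K ∘L H) := by
    rw [(zz_local hu hh hX).2.fderiv, tdiv_eq_trc]
    have e1 : (𝟙 - Kz u X ∘L Ph u (npr u X) : E (m + n) →L[ℝ] E (m + n))
        = Pv u y - A ∘L K ∘L H := by
      change 𝟙 - K ∘L H = (𝟙 - H) - A ∘L K ∘L H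
      conv_lhs => rw [hKe, ContinuousLinearMap.add_comp, ContinuousLinearMap.id_comp,
        ContinuousLinearMap.comp_assoc]
      abel
    rw [e1, ContinuousLinearMap.comp_sub, trc_sub]
    rfl
  refine ⟨h1, ?_⟩
  have e2 : A ∘L K ∘L H = A + A ∘L A ∘L K ∘L H := by
    conv_lhs => rw [hKe, ContinuousLinearMap.add_comp, ContinuousLinearMap.id_comp,
      ContinuousLinearMap.comp_add, hAH, ContinuousLinearMap.comp_assoc]
  have e3 : trc (P ∘L A) = inner ℝ (HS u y) z - trc (Bop u P X ∘L A) := by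
    rw [trc_proj_comp (H := H) hHA hAH, htr]
    rfl
  have e4 : tdiv P (fderiv ℝ (zz u) X) - (tilt u P X - inner ℝ (HS u y) z)
      = trc (Bop u P X ∘L A) - trc (P ∘L A ∘L A ∘L K ∘L H) := by
    have e5 : trc (P ∘L A ∘L K ∘L H) = trc (P ∘L A) + trc (P ∘L A ∘L A ∘L K ∘L H) := by
      conv_lhs => rw [e2, ContinuousLinearMap.comp_add, trc_add]
    rw [h1, e5, e3]
    ring
  rw [e4]
  have b1 : ‖P ∘L A ∘L A ∘L K ∘L H‖ ≤ 1 * ((9 / 4 * κ₂ * ‖z‖) * ((9 / 4 * κ₂ * ‖z‖) * (2 * 1))) :=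
    norm_comp_le _ _ hPn (norm_comp_le _ _ hAn (norm_comp_le _ _ hAn (norm_comp_le _ _ hK hH)))
  have b2 := abs_trc_le (P ∘L A ∘L A ∘L K ∘L H)
  have b3 : |trc (Bop u P X ∘L A)| ≤ tilt u P X * (9 / 4 * κ₂ * ‖z‖) :=
    hB.trans (by gcongr)
  have hN : (0 : ℝ) ≤ ((m + n : ℕ) : ℝ) := Nat.cast_nonneg _
  have b4 : |trc (P ∘L A ∘L A ∘L K ∘L H)|
      ≤ ((m + n : ℕ) : ℝ) * (1 * ((9 / 4 * κ₂ * ‖z‖) * ((9 / 4 * κ₂ * ‖z‖) * (2 * 1)))) :=
    b2.trans (by gcongr)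
  have b5 : 0 ≤ κ₂ ^ 2 * ‖z‖ ^ 2 := by positivity
  have b6 : 0 ≤ κ₂ * tilt u P X * ‖z‖ := by positivity
  calc |trc (Bop u P X ∘L A) - trc (P ∘L A ∘L A ∘L K ∘L H)|
      ≤ |trc (Bop u P X ∘L A)| + |trc (P ∘L A ∘L A ∘L K ∘L H)| := abs_sub _ _
    _ ≤ tilt u P X * (9 / 4 * κ₂ * ‖z‖)
        + ((m + n : ℕ) : ℝ) * (1 * ((9 / 4 * κ₂ * ‖z‖) * ((9 / 4 * κ₂ * ‖z‖) * (2 * 1)))) :=
      add_le_add b3 b4
    _ = 9 / 4 * (κ₂ * tilt u P X * ‖z‖) + 81 / 8 * ((m + n : ℕ) : ℝ) * (κ₂ ^ 2 * ‖z‖ ^ 2) := by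
      ring
    _ ≤ (11 * ((m + n : ℕ) : ℝ) + 3) * (κ₂ ^ 2 * ‖z‖ ^ 2 + κ₂ * tilt u P X * ‖z‖) := by
      nlinarith [mul_nonneg hN b5, mul_nonneg hN b6]

end Claimed.Agent.R322.Tube
end

/- ===== packed: Claimed.Agent.R322.Tube.Geom.Jac ===== -/
section
/-!
# Row 322, Tube/Geom/Jac: the Jacobian of the nearest point projection (G7)

`Jπ = tanJac P (D npr) · √det g` satisfies `(D · Jπ)² = det (ιᵀ H ι)` with
`D = det (1 - g⁻¹ S_z)`, `P = ι ιᵀ`.
-/

set_option autoImplicit false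

open scoped ENNReal ContDiff Topology
open MeasureTheory Filter

namespace Claimed.Agent.R322.Tube

local notation "adj" => ContinuousLinearMap.adjoint
local notation "𝟙" => ContinuousLinearMap.id ℝ _

variable {m n : ℕ} {u : E m → E n} {κ₂ : ℝ}

theorem adjoint_gmat (A : E m →L[ℝ] E n) : adj (gmat A) = gmat A := by
  ext1 v
  refine ext_inner_right ℝ fun w => ?_
  rw [ContinuousLinearMap.adjoint_inner_left, gmat_symm]

theorem dtm_gmat_nonneg (A : E m →L[ℝ] E n) : 0 ≤ dtm (gmat A) := by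
  have h := Base.Area.nd_sq (dF A)
  rw [adjoint_dF_comp_dF] at h
  have h2 : (gmat A).det = dtm (gmat A) := rfl
  rw [← h2, ← h]
  exact sq_nonneg _

theorem vdens_sq (A : E m →L[ℝ] E n) : vdens A ^ 2 = dtm (gmat A) :=
  Real.sq_sqrt (dtm_gmat_nonneg A)

theorem vdens_nonneg (A : E m →L[ℝ] E n) : 0 ≤ vdens A := Real.sqrt_nonneg _

theorem jac_det_identity (A₀ : E m →L[ℝ] E n) (S : E m →L[ℝ] E m) (hS : adj S = S)
    (L : E (m + n) →L[ℝ] E m) (hL : (gmat A₀ - S) ∘L L = adj (dF A₀))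
    (ι : E m →L[ℝ] E (m + n)) :
    dtm (adj ι ∘L PhA A₀ ∘L ι)
      = dtm (adj (L ∘L ι) ∘L (L ∘L ι)) * dtm (gmat A₀)
        * dtm (𝟙 - (gmat A₀).inverse ∘L S) ^ 2 := by
  set M := L ∘L ι with hM
  set G := gmat A₀ - S with hG
  have hY : adj (dF A₀) ∘L ι = G ∘L M := by
    rw [← hL, ContinuousLinearMap.comp_assoc]
  have hadjG : adj G = G := by rw [hG, map_sub, adjoint_gmat, hS]
  have h1 : adj ι ∘L PhA A₀ ∘L ι
      = adj (adj (dF A₀) ∘L ι) ∘L (gmat A₀).inverse ∘L (adj (dF A₀) ∘L ι) := by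
    rw [PhA_eq, ContinuousLinearMap.adjoint_comp, ContinuousLinearMap.adjoint_adjoint]
    unfold dFp
    simp only [ContinuousLinearMap.comp_assoc]
  have h2 : G = gmat A₀ ∘L (𝟙 - (gmat A₀).inverse ∘L S) := by
    rw [ContinuousLinearMap.comp_sub, ContinuousLinearMap.comp_id,
      ← ContinuousLinearMap.comp_assoc, gmat_comp_inverse, ContinuousLinearMap.id_comp]
  have h3 : dtm (gmat A₀).inverse * dtm (gmat A₀) = 1 := by
    rw [← dtm_comp, gmat_inverse_comp, dtm_id]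
  have h4 : dtm G = dtm (gmat A₀) * dtm (𝟙 - (gmat A₀).inverse ∘L S) := by
    conv_lhs => rw [h2, dtm_comp]
  rw [h1, hY, ContinuousLinearMap.adjoint_comp, hadjG]
  simp only [dtm_comp]
  rw [h4]
  linear_combination (dtm (adj M) * dtm M * dtm (gmat A₀)
    * dtm (𝟙 - (gmat A₀).inverse ∘L S) ^ 2) * h3

theorem jac_real {D J q e r : ℝ} (hJ : 0 ≤ J) (hD : 1 / 2 ≤ D) (hDr : |D - 1| ≤ r)
    (hq1 : q ≤ 1) (hqe : 1 - e ≤ q) (he : 0 ≤ e) (hDJ : (D * J) ^ 2 = q) :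
    |J - 1| ≤ 2 * e + 2 * r ∧ 2 * (1 - J) - e ≤ e ^ 2 + 8 * r := by
  set s := D * J with hs
  have hs0 : 0 ≤ s := by positivity
  have hs1 : s ≤ 1 := by nlinarith
  have hse : 1 - s ≤ e := by nlinarith
  have hr : 0 ≤ r := (abs_nonneg _).trans hDr
  obtain ⟨hr1, hr2⟩ := abs_le.1 hDr
  constructor
  · rw [abs_le]
    constructor <;> nlinarith
  · have h1 : 2 * (1 - s) - e ≤ e ^ 2 := by
      by_cases he1 : e ≤ 1
      · by_contra hcon
        push Not at hcon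
        have ht : s < 1 - e / 2 - e ^ 2 / 2 := by linarith
        have h2 : s ^ 2 < (1 - e / 2 - e ^ 2 / 2) ^ 2 := by nlinarith
        have h3 : (1 - e / 2 - e ^ 2 / 2) ^ 2 ≤ 1 - e := by
          have : (1 - e / 2 - e ^ 2 / 2) ^ 2 - (1 - e) = e ^ 2 * ((e + 3) * (e - 1)) / 4 := by ring
          nlinarith [mul_nonneg (sq_nonneg e) (mul_nonneg (by linarith : 0 ≤ e + 3)
            (by linarith : 0 ≤ 1 - e))]
        linarith
      · push Not at he1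
        nlinarith
    have h2 : 1 - J ≤ (1 - s) + 4 * r := by
      have h3 : D * (1 - J) ≤ D * ((1 - s) + 4 * r) := by
        have : D * (1 - J) = D - s := by rw [hs]; ring
        rw [this]
        nlinarith
      exact le_of_mul_le_mul_left h3 (by linarith)
    linarith

/-- the determinant `D = det (1 - g⁻¹ S_z)`. -/
theorem exists_det_bound (m n : ℕ) : ∃ h₁ C₁ : ℝ, 0 < h₁ ∧ 0 ≤ C₁ ∧
    ∀ (κ₂ : ℝ) (u : E m → E n), Geo κ₂ u → ∀ (y : E m) (z : E (m + n)), Pv u y z = z →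
      ‖z‖ ≤ h₁ →
      1 / 2 ≤ dtm (𝟙 - (gmat (fderiv ℝ u y)).inverse ∘L Sop u y z) ∧
      |dtm (𝟙 - (gmat (fderiv ℝ u y)).inverse ∘L Sop u y z) - 1|
        ≤ C₁ * (‖z‖ ^ 2 + ‖HS u y‖ ^ 2) := by
  obtain ⟨δ, hδ, Kc, hK, hb⟩ := Base.det_one_add_bound m
  refine ⟨min δ (1 / (2 * (m + Kc + 1))), Kc + 1, by positivity, by positivity,
    fun κ₂ u hu y z hz hzh => ?_⟩
  have hz1 : ‖z‖ ≤ δ := hzh.trans (min_le_left _ _)
  have hz2 : ‖z‖ ≤ 1 / (2 * (m + Kc + 1)) := hzh.trans (min_le_right _ _)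
  set B : E m →L[ℝ] E m := -((gmat (fderiv ℝ u y)).inverse ∘L Sop u y z) with hB
  have hBn : ‖B‖ ≤ ‖z‖ := by
    rw [hB, norm_neg]
    have h1 : ‖Sop u y z‖ ≤ ‖z‖ := by
      refine (norm_Sop_le u y z).trans ?_
      have := (hu.norm_D2_le y).trans hu.le_one
      nlinarith [norm_nonneg z]
    have := norm_comp_le _ _ (norm_gmat_inverse_le (fderiv ℝ u y)) h1
    linarith
  have h1 := hb B (hBn.trans hz1)
  have e1 : (𝟙 + B : E m →L[ℝ] E m) = 𝟙 - (gmat (fderiv ℝ u y)).inverse ∘L Sop u y z := by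
    rw [hB]; abel
  have e2 : LinearMap.trace ℝ (E m) (B : E m →ₗ[ℝ] E m) = -inner ℝ (HS u y) z := by
    change trc B = _
    rw [hB, trc_neg, trc_comp_comm]
    have := trc_Sop_comp u y z
    rw [hz] at this
    rw [this]
  rw [e1] at h1
  change |dtm (𝟙 - (gmat (fderiv ℝ u y)).inverse ∘L Sop u y z) - 1
    - LinearMap.trace ℝ (E m) (B : E m →ₗ[ℝ] E m)| ≤ _ at h1
  set D := dtm (𝟙 - (gmat (fderiv ℝ u y)).inverse ∘L Sop u y z) with hD
  have h2 : Kc * ‖B‖ ^ 2 ≤ Kc * ‖z‖ ^ 2 := by gcongr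
  have h3 : |LinearMap.trace ℝ (E m) (B : E m →ₗ[ℝ] E m)| ≤ m * ‖z‖ :=
    (abs_trc_le B).trans (by gcongr)
  have hm : (0 : ℝ) ≤ m := Nat.cast_nonneg _
  obtain ⟨h1a, h1b⟩ := abs_le.1 h1
  obtain ⟨h3a, h3b⟩ := abs_le.1 h3
  have hz0 := norm_nonneg z
  have hpos : 0 < 2 * (m + Kc + 1) := by positivity
  have hz3 : ‖z‖ * (2 * (m + Kc + 1)) ≤ 1 := by
    rwa [le_div_iff₀ hpos] at hz2
  have hz4 : ‖z‖ ≤ 1 := by nlinarith
  have hz5 : ‖z‖ ^ 2 ≤ ‖z‖ := by nlinarith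
  constructor
  · nlinarith
  · rw [e2] at h1a h1b
    have h4 : |inner ℝ (HS u y) z| ≤ (‖HS u y‖ ^ 2 + ‖z‖ ^ 2) / 2 := by
      refine (abs_real_inner_le_norm _ _).trans ?_
      nlinarith [sq_nonneg (‖HS u y‖ - ‖z‖)]
    obtain ⟨h4a, h4b⟩ := abs_le.1 h4
    rw [abs_le]
    constructor <;> nlinarith [sq_nonneg ‖HS u y‖, sq_nonneg ‖z‖]

/-- **(G7)** -/
theorem jacobian_facts_aux (m n : ℕ) : ∃ h₀ C : ℝ, 0 < h₀ ∧ 0 < C ∧
    ∀ (κ₂ : ℝ) (u : E m → E n), Geo κ₂ u → ∀ X ∈ Tub u h₀, ∀ P : E (m + n) →L[ℝ] E (m + n),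
      IsProj m P →
      |tanJac P (fderiv ℝ (npr u) X) * vdens (fderiv ℝ u (npr u X)) - 1|
        ≤ C * (tilt u P X + ‖zz u X‖ ^ 2 + ‖HS u (npr u X)‖ ^ 2) ∧
      2 * (1 - tanJac P (fderiv ℝ (npr u) X) * vdens (fderiv ℝ u (npr u X))) - tilt u P X
        ≤ C * (tilt u P X ^ 2 + ‖zz u X‖ ^ 2 + ‖HS u (npr u X)‖ ^ 2) := by
  obtain ⟨h₁, C₁, hh₁, hC₁, hdet⟩ := exists_det_bound m n
  refine ⟨min (2 / 9) h₁, 8 * C₁ + 2, by positivity, by positivity,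
    fun κ₂ u hu X hX P hP => ?_⟩
  have hh : min (2 / 9) h₁ ≤ 2 / 9 := min_le_left _ _
  have hh4 : min (2 / 9) h₁ ≤ 1 / 4 := hh.trans (by norm_num)
  have hz : ‖zz u X‖ ≤ h₁ := ((tube_unique_of_le hu hh4 hX).2.2.2.1).le.trans (min_le_right _ _)
  have hPv := Pv_zz hu hh4 hX
  obtain ⟨hD1, hD2⟩ := hdet κ₂ u hu (npr u X) (zz u X) hPv hz
  have hkey := sub_Sop_comp (y := npr u X) (w := zz u X) hu.c2 (hu.norm_Shp_zz_le_half hh hX)
  rw [hPv] at hkey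
  obtain ⟨ι, hι1, hι2⟩ := IsProj.exists_iso hP
  have hfd := (npr_local hu hh hX).2.fderiv
  have hid := jac_det_identity (fderiv ℝ u (npr u X)) (Sop u (npr u X) (zz u X))
    (adjoint_Sop hu.c2 _ _) (fderiv ℝ (npr u) X) (by rw [hfd]; exact hkey) ι
  have htj := tanJac_sq_of_iso hι1 (fderiv ℝ (npr u) X)
  rw [hι2] at htj
  rw [← htj, ← vdens_sq] at hid
  set Q := adj ι ∘L PhA (fderiv ℝ u (npr u X)) ∘L ι with hQ
  have hH := isProj_PhA (fderiv ℝ u (npr u X))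
  have hιn : ∀ v, ‖ι v‖ = ‖v‖ := by
    intro v
    have h1 : ‖ι v‖ ^ 2 = ‖v‖ ^ 2 := by
      rw [← real_inner_self_eq_norm_sq, ← ContinuousLinearMap.adjoint_inner_left]
      have := congrArg (fun T : E m →L[ℝ] E m => T v) hι1
      change adj ι (ι v) = v at this
      rw [this, real_inner_self_eq_norm_sq]
    exact (sq_eq_sq₀ (norm_nonneg _) (norm_nonneg _)).1 h1
  have hQi : ∀ v w, inner ℝ (Q v) w
      = inner ℝ (PhA (fderiv ℝ u (npr u X)) (ι v)) (ι w) := fun v w => by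
    rw [hQ, ContinuousLinearMap.comp_apply, ContinuousLinearMap.adjoint_inner_left]
    rfl
  have hQb := dtm_bounds_of_symm Q
    (fun v w => by rw [hQi, real_inner_comm (Q w) v, hQi, hH.symm, real_inner_comm])
    (fun v => by rw [hQi, hH.inner_apply_self]; exact sq_nonneg _)
    (fun v => by
      rw [hQi, hH.inner_apply_self, ← hιn v]
      have := hH.norm_apply_le (ι v)
      gcongr)
  have htr : (m : ℝ) - trc Q = tilt u P X := by
    have h1 : trc Q = trc (P ∘L PhA (fderiv ℝ u (npr u X))) := by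
      rw [hQ, trc_comp_comm, ContinuousLinearMap.comp_assoc, hι2, trc_comp_comm]
    rw [h1]
    exact (block_tilt_eq hH hP).symm
  rw [htr] at hQb
  have hJ0 : 0 ≤ tanJac P (fderiv ℝ (npr u) X) * vdens (fderiv ℝ u (npr u X)) :=
    mul_nonneg (Base.tanJac_nonneg _ _) (vdens_nonneg _)
  have hfin := jac_real hJ0 hD1 hD2 hQb.2.1 hQb.2.2 (tilt_nonneg u hP X)
    (by rw [hid]; ring)
  have hq : 0 ≤ ‖zz u X‖ ^ 2 + ‖HS u (npr u X)‖ ^ 2 := by positivity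
  have he := tilt_nonneg u hP X
  constructor
  · refine hfin.1.trans ?_
    nlinarith [mul_nonneg hC₁ hq, mul_nonneg hC₁ he]
  · refine hfin.2.trans ?_
    nlinarith [mul_nonneg hC₁ hq, mul_nonneg hC₁ (sq_nonneg (tilt u P X)),
      sq_nonneg (tilt u P X)]

end Claimed.Agent.R322.Tube
end

/- ===== packed: Claimed.Agent.R322.Tube.Geom.Jacobi ===== -/
section
/-!
# Row 322, Tube/Geom/Jacobi: Jacobi's formula for the volume density; `tr ∇^S X = div_S X`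
-/

set_option autoImplicit false

open scoped ENNReal ContDiff Topology
open MeasureTheory Filter

namespace Claimed.Agent.R322.Tube

local notation "adj" => ContinuousLinearMap.adjoint
local notation "𝟙" => ContinuousLinearMap.id ℝ _

/-- the trace as a continuous linear form. -/
noncomputable def trcL (N : ℕ) : (E N →L[ℝ] E N) →L[ℝ] ℝ :=
  LinearMap.toContinuousLinearMap
    { toFun := trc
      map_add' := trc_add
      map_smul' := fun c A => by simp [trc_smul] }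

theorem trcL_apply {N : ℕ} (A : E N →L[ℝ] E N) : trcL N A = trc A := rfl

theorem hasFDerivAt_dtm_one (N : ℕ) :
    HasFDerivAt (dtm : (E N →L[ℝ] E N) → ℝ) (trcL N) (𝟙 : E N →L[ℝ] E N) := by
  have h1 : DifferentiableAt ℝ (dtm : (E N →L[ℝ] E N) → ℝ) (𝟙 : E N →L[ℝ] E N) :=
    (Base.contDiff_det N).differentiable (by simp) _
  refine h1.hasFDerivAt.congr_fderiv ?_
  ext1 B
  exact Base.fderiv_det_one N B

/-- **Jacobi's formula.** -/
theorem hasFDerivAt_dtm {N : ℕ} {G Gi : E N →L[ℝ] E N} (h1 : G ∘L Gi = 𝟙) (h2 : Gi ∘L G = 𝟙) :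
    HasFDerivAt (dtm : (E N →L[ℝ] E N) → ℝ)
      (dtm G • (trcL N ∘L ContinuousLinearMap.compL ℝ (E N) (E N) (E N) Gi)) G := by
  have e1 : (dtm : (E N →L[ℝ] E N) → ℝ)
      = fun B => dtm G * dtm (ContinuousLinearMap.compL ℝ (E N) (E N) (E N) Gi B) := by
    funext B
    rw [ContinuousLinearMap.compL_apply, ← dtm_comp, ← ContinuousLinearMap.comp_assoc, h1,
      ContinuousLinearMap.id_comp]
  have h3 : HasFDerivAt (dtm : (E N →L[ℝ] E N) → ℝ) (trcL N)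
      (ContinuousLinearMap.compL ℝ (E N) (E N) (E N) Gi G) := by
    rw [ContinuousLinearMap.compL_apply, h2]
    exact hasFDerivAt_dtm_one N
  have h4 := (h3.comp G (ContinuousLinearMap.compL ℝ (E N) (E N) (E N) Gi).hasFDerivAt).const_mul
    (dtm G)
  have h5 : HasFDerivAt
      (fun B => dtm G * dtm (ContinuousLinearMap.compL ℝ (E N) (E N) (E N) Gi B))
      (dtm G • (trcL N ∘L ContinuousLinearMap.compL ℝ (E N) (E N) (E N) Gi)) G := h4
  rwa [← e1] at h5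

variable {m n : ℕ} {u : E m → E n}

/-- `α ↦ tr (T⁺ W_α)`. -/
noncomputable def trW (u : E m → E n) (y : E m) : E m →L[ℝ] ℝ :=
  trcL m ∘L (ContinuousLinearMap.compL ℝ (E m) (E (m + n)) (E m) (dFp (fderiv ℝ u y))) ∘L
    (ContinuousLinearMap.compL ℝ (E m) (E n) (E (m + n)) (inV m n)) ∘L D2 u y

theorem trW_apply (u : E m → E n) (y α : E m) :
    trW u y α = trc (dFp (fderiv ℝ u y) ∘L Wop u y α) := rfl

theorem hasFDerivAt_gmat_Du (hu : ContDiff ℝ 2 u) (y : E m) :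
    ∃ D : E m →L[ℝ] E m →L[ℝ] E m, HasFDerivAt (fun y => gmat (fderiv ℝ u y)) D y ∧
      ∀ α, D α = adj (dF (fderiv ℝ u y)) ∘L Wop u y α + adj (Wop u y α) ∘L dF (fderiv ℝ u y) := by
  have h0 := hasFDerivAt_dF_Du (y := y) hu
  have h1 := ((adjL m (m + n)).hasFDerivAt.comp y h0).clm_comp h0
  have e1 : (fun y => ((adjL m (m + n)) ∘ fun y => dF (fderiv ℝ u y)) y ∘L dF (fderiv ℝ u y))
      = fun y => gmat (fderiv ℝ u y) := funext fun y => adjoint_dF_comp_dF _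
  rw [e1] at h1
  refine ⟨_, h1, fun α => ?_⟩
  simp only [add_apply, ContinuousLinearMap.comp_apply, ContinuousLinearMap.compL_apply,
    ContinuousLinearMap.flip_apply, Function.comp]
  rfl

theorem dtm_gmat_pos (A : E m →L[ℝ] E n) : 0 < dtm (gmat A) := by
  have h3 : dtm (gmat A).inverse * dtm (gmat A) = 1 := by
    rw [← dtm_comp, gmat_inverse_comp, dtm_id]
  have h4 := dtm_gmat_nonneg A
  rcases h4.lt_or_eq with h | h
  · exact h
  · rw [← h, mul_zero] at h3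
    exact absurd h3 (by norm_num)

theorem vdens_pos (A : E m →L[ℝ] E n) : 0 < vdens A := Real.sqrt_pos.2 (dtm_gmat_pos A)

theorem hasFDerivAt_dtm_gmat (hu : ContDiff ℝ 2 u) (y : E m) :
    HasFDerivAt (fun y => dtm (gmat (fderiv ℝ u y)))
      ((2 * dtm (gmat (fderiv ℝ u y))) • trW u y) y := by
  obtain ⟨D, hD, hDα⟩ := hasFDerivAt_gmat_Du hu y
  have h1 := (hasFDerivAt_dtm (gmat_comp_inverse (fderiv ℝ u y))
    (gmat_inverse_comp (fderiv ℝ u y))).comp y hD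
  refine h1.congr_fderiv ?_
  ext1 α
  simp only [smul_apply, ContinuousLinearMap.comp_apply, ContinuousLinearMap.compL_apply, hDα,
    trcL_apply, trW_apply, smul_eq_mul]
  set T := dF (fderiv ℝ u y) with hT
  set gi := (gmat (fderiv ℝ u y)).inverse with hgi
  set W := Wop u y α with hW
  have e1 : trc (gi ∘L adj W ∘L T) = trc (gi ∘L adj T ∘L W) := by
    have : gi ∘L adj W ∘L T = adj ((adj T ∘L W) ∘L gi) := by
      rw [ContinuousLinearMap.adjoint_comp, ContinuousLinearMap.adjoint_comp,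
        ContinuousLinearMap.adjoint_adjoint, hgi, adjoint_gmat_inverse]
    rw [this, trc_adjoint, trc_comp_comm]
  have e2 : dFp (fderiv ℝ u y) ∘L W = gi ∘L adj T ∘L W := by
    unfold dFp
    rw [ContinuousLinearMap.comp_assoc]
  rw [ContinuousLinearMap.comp_add, trc_add, e1, e2]
  ring

/-- **Jacobi's formula** for the volume density. -/
theorem hasFDerivAt_vdens (hu : ContDiff ℝ 2 u) (y : E m) :
    HasFDerivAt (fun y => vdens (fderiv ℝ u y)) (vdens (fderiv ℝ u y) • trW u y) y := by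
  have h1 := (hasFDerivAt_dtm_gmat hu y).sqrt (dtm_gmat_pos _).ne'
  refine h1.congr_fderiv ?_
  have hv := vdens_pos (fderiv ℝ u y)
  have hs := vdens_sq (fderiv ℝ u y)
  change (1 / (2 * vdens (fderiv ℝ u y))) • ((2 * dtm (gmat (fderiv ℝ u y))) • trW u y) = _
  rw [smul_smul, ← hs]
  congr 1
  field_simp

theorem hasFDerivAt_log_vdens (hu : ContDiff ℝ 2 u) (y : E m) :
    HasFDerivAt (fun y => Real.log (vdens (fderiv ℝ u y))) (trW u y) y := by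
  have h1 := (hasFDerivAt_vdens hu y).log (vdens_pos _).ne'
  refine h1.congr_fderiv ?_
  rw [smul_smul, inv_mul_cancel₀ (vdens_pos _).ne', one_smul]

/-- derivative of the tangent field `τ = T ξ`. -/
theorem hasFDerivAt_tanF (hu : ContDiff ℝ 2 u) {Xc : E m → E m} {y : E m}
    (hX : DifferentiableAt ℝ Xc y) :
    HasFDerivAt (tanF u Xc) (dF (fderiv ℝ u y) ∘L fderiv ℝ Xc y + Wop u y (Xc y)) y := by
  have h1 := (hasFDerivAt_dF_Du (y := y) hu).clm_apply hX.hasFDerivAt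
  refine h1.congr_fderiv ?_
  ext1 α
  simp only [add_apply, ContinuousLinearMap.comp_apply, ContinuousLinearMap.compL_apply,
    ContinuousLinearMap.flip_apply]
  congr 1
  change inV m n (D2 u y α (Xc y)) = inV m n (D2 u y (Xc y) α)
  rw [D2_symm hu]

/-- `tr ∇^S X = div_S X`. -/
theorem trc_nabS (hu : ContDiff ℝ 2 u) {Xc : E m → E m} {y : E m}
    (hX : DifferentiableAt ℝ Xc y) : trc (nabS u Xc y) = divS u Xc y := by
  unfold nabS divS
  rw [(hasFDerivAt_log_vdens hu y).fderiv, (hasFDerivAt_tanF hu hX).fderiv, trc_comp_comm,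
    ContinuousLinearMap.comp_assoc, dFp_comp_Ph, trc_comp_comm, ContinuousLinearMap.comp_add,
    trc_add, ← ContinuousLinearMap.comp_assoc, dFp_comp_dF, ContinuousLinearMap.id_comp,
    trW_apply]

end Claimed.Agent.R322.Tube
end

/- ===== packed: Claimed.Agent.R322.Tube.Geom.D2Ph ===== -/
section
/-!
# Row 322, Tube/Geom/D2Ph: the second derivative of the tangent projection field

`P̈(α,ξ) = ddPh u y α ξ`.  Symmetry, the identity `V P̈ V = V (Ṗ_α Ṗ_ξ + Ṗ_ξ Ṗ_α) V`, the derivative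
of the pseudo-inverse `T⁺`, the explicit formula for `D_α Z_ξ` and the bound
`‖P̈(α,ξ)‖ ≤ 26 κ₂ |α| |ξ|`.
-/

set_option autoImplicit false

open scoped ENNReal ContDiff Topology
open MeasureTheory Filter

namespace Claimed.Agent.R322.Tube

local notation "adj" => ContinuousLinearMap.adjoint
local notation "𝟙" => ContinuousLinearMap.id ℝ _

variable {m n : ℕ} {u : E m → E n} {κ₂ : ℝ}

/-- `P̈(ξ,·)`. -/
noncomputable def ddPh (u : E m → E n) (y ξ : E m) : E m →L[ℝ] E (m + n) →L[ℝ] E (m + n) :=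
  fderiv ℝ (fderiv ℝ (Ph u)) y ξ

theorem contDiff_fderiv_Ph (hu : ContDiff ℝ 3 u) : ContDiff ℝ 1 (fderiv ℝ (Ph u)) :=
  (contDiff_Ph_of (k := 2) (by exact_mod_cast hu)).fderiv_right (m := 1) (by norm_num)

theorem hasFDerivAt_fderiv_Ph (hu : ContDiff ℝ 3 u) (y : E m) :
    HasFDerivAt (fderiv ℝ (Ph u)) (fderiv ℝ (fderiv ℝ (Ph u)) y) y :=
  ((contDiff_fderiv_Ph hu).differentiable (by norm_num) y).hasFDerivAt

theorem ddPh_symm (hu : ContDiff ℝ 3 u) (y ξ α : E m) : ddPh u y ξ α = ddPh u y α ξ := by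
  have h2 : ContDiff ℝ 2 (Ph u) := contDiff_Ph_of (k := 2) (by exact_mod_cast hu)
  have h := (h2.contDiffAt (x := y)).isSymmSndFDerivAt (by simp)
  exact h ξ α

/-- derivative of `y ↦ Ṗ_ξ(y)` for a fixed direction `ξ`. -/
theorem hasFDerivAt_dPh (hu : ContDiff ℝ 3 u) (y ξ : E m) :
    HasFDerivAt (fun y => dPh u y ξ) (ddPh u y ξ) y := by
  have h1 := (hasFDerivAt_fderiv_Ph hu y).clm_apply (hasFDerivAt_const ξ y)
  refine h1.congr_fderiv ?_
  ext1 α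
  simp only [add_apply, ContinuousLinearMap.comp_apply, zero_apply, map_zero,
    ContinuousLinearMap.flip_apply, zero_add]
  exact ddPh_symm hu y α ξ

theorem c2_of_c3 (hu : ContDiff ℝ 3 u) : ContDiff ℝ 2 u := hu.of_le (by norm_num)

/-- **(D1)** differentiating `Ṗ_ξ = H Ṗ_ξ + Ṗ_ξ H`. -/
theorem ddPh_eq_add (hu : ContDiff ℝ 3 u) (y ξ α : E m) :
    ddPh u y ξ α = (dPh u y α ∘L dPh u y ξ + Ph u y ∘L ddPh u y ξ α)
      + (ddPh u y ξ α ∘L Ph u y + dPh u y ξ ∘L dPh u y α) := by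
  have hu2 := c2_of_c3 hu
  have h1 := ((hasFDerivAt_Ph hu2 y).clm_comp (hasFDerivAt_dPh hu y ξ)).add
    ((hasFDerivAt_dPh hu y ξ).clm_comp (hasFDerivAt_Ph hu2 y))
  have h2 : (fun y => Ph u y ∘L dPh u y ξ + dPh u y ξ ∘L Ph u y) = fun y => dPh u y ξ :=
    funext fun y => (dPh_eq_add hu2 y ξ).symm
  have h1' : HasFDerivAt (fun y => Ph u y ∘L dPh u y ξ + dPh u y ξ ∘L Ph u y) _ y := h1
  rw [h2] at h1'
  have h3 := congrArg (fun T => T α) (h1'.unique (hasFDerivAt_dPh hu y ξ))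
  simp only [add_apply, ContinuousLinearMap.comp_apply, ContinuousLinearMap.compL_apply,
    ContinuousLinearMap.flip_apply] at h3
  have h4 : Ph u y ∘L ddPh u y ξ α + dPh u y α ∘L dPh u y ξ
      + (dPh u y ξ ∘L dPh u y α + ddPh u y ξ α ∘L Ph u y) = ddPh u y ξ α := h3
  conv_lhs => rw [← h4]
  abel

/-- **(D2)** `V P̈ V = V (Ṗ_α Ṗ_ξ + Ṗ_ξ Ṗ_α) V`. -/
theorem Pv_ddPh_Pv (hu : ContDiff ℝ 3 u) (y ξ α : E m) :
    Pv u y ∘L ddPh u y ξ α ∘L Pv u y
      = Pv u y ∘L (dPh u y α ∘L dPh u y ξ + dPh u y ξ ∘L dPh u y α) ∘L Pv u y := by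
  conv_lhs => rw [ddPh_eq_add hu]
  simp only [ContinuousLinearMap.comp_add, ContinuousLinearMap.add_comp]
  have e1 : Pv u y ∘L (Ph u y ∘L ddPh u y ξ α) ∘L Pv u y = 0 := by
    rw [ContinuousLinearMap.comp_assoc, ← ContinuousLinearMap.comp_assoc (Pv u y), Pv_comp_Ph]
    simp
  have e2 : Pv u y ∘L (ddPh u y ξ α ∘L Ph u y) ∘L Pv u y = 0 := by
    rw [ContinuousLinearMap.comp_assoc, Ph_comp_Pv]
    simp
  rw [e1, e2]
  abel

/-- `D_α T⁺ = T⁺ Ṗ_α - T⁺ W_α T⁺`. -/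
noncomputable def dTp (u : E m → E n) (y α : E m) : E (m + n) →L[ℝ] E m :=
  dFp (fderiv ℝ u y) ∘L dPh u y α - dFp (fderiv ℝ u y) ∘L Wop u y α ∘L dFp (fderiv ℝ u y)

theorem hasFDerivAt_dFp_Du (hu : ContDiff ℝ 2 u) (y : E m) :
    HasFDerivAt (fun y => dFp (fderiv ℝ u y)) (fderiv ℝ (fun y => dFp (fderiv ℝ u y)) y) y :=
  ((contDiff_dFp_Du (k := 1) (by exact_mod_cast hu)).differentiable (by norm_num) y).hasFDerivAt

/-- **(D3)** -/
theorem fderiv_dFp_Du (hu : ContDiff ℝ 2 u) (y α : E m) :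
    fderiv ℝ (fun y => dFp (fderiv ℝ u y)) y α = dTp u y α := by
  have h1 := (hasFDerivAt_dF_Du (y := y) hu).clm_comp (hasFDerivAt_dFp_Du hu y)
  have h2 : (fun y => dF (fderiv ℝ u y) ∘L dFp (fderiv ℝ u y)) = Ph u :=
    funext fun y => (Ph_eq u y).symm
  rw [h2] at h1
  have h3 := congrArg (fun T => T α) (h1.unique (hasFDerivAt_Ph hu y))
  simp only [add_apply, ContinuousLinearMap.comp_apply, ContinuousLinearMap.compL_apply,
    ContinuousLinearMap.flip_apply] at h3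
  set D := fderiv ℝ (fun y => dFp (fderiv ℝ u y)) y α with hD
  have h4 : dF (fderiv ℝ u y) ∘L D + Wop u y α ∘L dFp (fderiv ℝ u y) = dPh u y α := h3
  have h5 : dFp (fderiv ℝ u y) ∘L (dF (fderiv ℝ u y) ∘L D) = D := by
    rw [← ContinuousLinearMap.comp_assoc, dFp_comp_dF, ContinuousLinearMap.id_comp]
  unfold dTp
  rw [← h4, ContinuousLinearMap.comp_add, h5]
  abel

/-! ### the explicit formula -/

/-- `W'_{α,ξ} = inV ∘ D³u(α,ξ,·)`. -/
noncomputable def W3op (u : E m → E n) (y α ξ : E m) : E m →L[ℝ] E (m + n) :=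
  inV m n ∘L (fderiv ℝ (D2 u) y α ξ)

theorem hasFDerivAt_D2 (hu : ContDiff ℝ 3 u) (y : E m) :
    HasFDerivAt (D2 u) (fderiv ℝ (D2 u) y) y := by
  have h1 : ContDiff ℝ 1 (D2 u) :=
    (contDiff_Du (k := 2) (by exact_mod_cast hu)).fderiv_right (m := 1) (by norm_num)
  exact (h1.differentiable (by norm_num) y).hasFDerivAt

theorem hasFDerivAt_Wop (hu : ContDiff ℝ 3 u) (y ξ : E m) :
    HasFDerivAt (fun y => Wop u y ξ)
      ((ContinuousLinearMap.compL ℝ (E m) (E n) (E (m + n)) (inV m n))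
        ∘L ((fderiv ℝ (D2 u) y).flip ξ)) y := by
  have h1 : HasFDerivAt (fun y => D2 u y ξ) ((fderiv ℝ (D2 u) y).flip ξ) y := by
    have h := (hasFDerivAt_D2 hu y).clm_apply (hasFDerivAt_const ξ y)
    refine h.congr_fderiv ?_
    ext1 α
    simp
  exact (ContinuousLinearMap.compL ℝ (E m) (E n) (E (m + n)) (inV m n)).hasFDerivAt.comp y h1

theorem hasFDerivAt_Pv (hu : ContDiff ℝ 2 u) (y : E m) :
    HasFDerivAt (Pv u) (-fderiv ℝ (Ph u) y) y :=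
  (hasFDerivAt_Ph hu y).const_sub _

/-- `D_α Z_ξ`. -/
noncomputable def dZop (u : E m → E n) (y α ξ : E m) : E (m + n) →L[ℝ] E (m + n) :=
  -(dPh u y α ∘L Wop u y ξ ∘L dFp (fderiv ℝ u y))
    + Pv u y ∘L W3op u y α ξ ∘L dFp (fderiv ℝ u y) + Pv u y ∘L Wop u y ξ ∘L dTp u y α

theorem hasFDerivAt_Zop (hu : ContDiff ℝ 3 u) (y ξ : E m) :
    ∃ D : E m →L[ℝ] E (m + n) →L[ℝ] E (m + n),
      HasFDerivAt (fun y => Zop u y ξ) D y ∧ ∀ α, D α = dZop u y α ξ := by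
  have hu2 := c2_of_c3 hu
  have h := (hasFDerivAt_Pv hu2 y).clm_comp
    ((hasFDerivAt_Wop hu y ξ).clm_comp (hasFDerivAt_dFp_Du hu2 y))
  refine ⟨_, h, fun α => ?_⟩
  simp only [add_apply, ContinuousLinearMap.comp_apply, ContinuousLinearMap.compL_apply,
    ContinuousLinearMap.flip_apply, neg_apply, fderiv_dFp_Du hu2]
  unfold dZop W3op dPh
  rw [ContinuousLinearMap.comp_add, ContinuousLinearMap.neg_comp]
  abel

/-- **(D4)** `P̈(ξ,α) = D_α Z_ξ + (D_α Z_ξ)ᵀ`. -/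
theorem ddPh_eq (hu : ContDiff ℝ 3 u) (y ξ α : E m) :
    ddPh u y ξ α = dZop u y α ξ + adj (dZop u y α ξ) := by
  obtain ⟨D, hD, hDα⟩ := hasFDerivAt_Zop hu y ξ
  have h1 := hD.add ((adjL (m + n) (m + n)).hasFDerivAt.comp y hD)
  have h2 : ((fun y => Zop u y ξ) + (adjL (m + n) (m + n)) ∘ fun y => Zop u y ξ)
      = fun y => dPh u y ξ := funext fun y => (dPh_eq (c2_of_c3 hu) y ξ).symm
  rw [h2] at h1
  have h3 := congrArg (fun T => T α) (h1.unique (hasFDerivAt_dPh hu y ξ))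
  simp only [add_apply, ContinuousLinearMap.comp_apply, hDα] at h3
  exact h3.symm

/-! ### bounds -/

theorem Geo.c3 (hu : Geo κ₂ u) : ContDiff ℝ 3 u := hu.smooth.of_le (by norm_num)

theorem Geo.norm_dFp_le (hu : Geo κ₂ u) (y : E m) : ‖dFp (fderiv ℝ u y)‖ ≤ 3 / 2 :=
  (Tube.norm_dFp_le _).trans (by linarith [hu.slope y])

theorem Geo.norm_dF_le (hu : Geo κ₂ u) (y : E m) : ‖dF (fderiv ℝ u y)‖ ≤ 3 / 2 :=
  (Tube.norm_dF_le _).trans (by linarith [hu.slope y])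

theorem Geo.norm_Wop_le (hu : Geo κ₂ u) (y α : E m) : ‖Wop u y α‖ ≤ κ₂ * ‖α‖ :=
  (Tube.norm_Wop_le u y α).trans (by gcongr; exact hu.norm_D2_le y)

theorem norm_comp_le' {a b c : ℕ} (A : E b →L[ℝ] E c) (B : E a →L[ℝ] E b) {x y : ℝ}
    (hA : ‖A‖ ≤ x) (hB : ‖B‖ ≤ y) : ‖A ∘L B‖ ≤ x * y :=
  (ContinuousLinearMap.opNorm_comp_le _ _).trans
    (mul_le_mul hA hB (norm_nonneg _) ((norm_nonneg _).trans hA))

theorem Geo.norm_Zop_le (hu : Geo κ₂ u) (y α : E m) : ‖Zop u y α‖ ≤ 3 / 2 * κ₂ * ‖α‖ := by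
  have := norm_comp_le' _ _ (norm_Pv_le u y)
    (norm_comp_le' _ _ (hu.norm_Wop_le y α) (hu.norm_dFp_le y))
  unfold Zop
  linarith

theorem Geo.norm_dPh_le (hu : Geo κ₂ u) (y α : E m) : ‖dPh u y α‖ ≤ 3 * κ₂ * ‖α‖ := by
  rw [dPh_eq hu.c2]
  refine (norm_add_le _ _).trans ?_
  rw [LinearIsometryEquiv.norm_map]
  linarith [hu.norm_Zop_le y α]

theorem Geo.norm_dTp_le (hu : Geo κ₂ u) (y α : E m) : ‖dTp u y α‖ ≤ 27 / 4 * κ₂ * ‖α‖ := by
  unfold dTp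
  refine (norm_sub_le _ _).trans ?_
  have h1 := norm_comp_le' _ _ (hu.norm_dFp_le y) (hu.norm_dPh_le y α)
  have h2 := norm_comp_le' _ _ (hu.norm_dFp_le y)
    (norm_comp_le' _ _ (hu.norm_Wop_le y α) (hu.norm_dFp_le y))
  linarith

theorem Geo.norm_W3op_le (hu : Geo κ₂ u) (y α ξ : E m) :
    ‖W3op u y α ξ‖ ≤ κ₂ * ‖α‖ * ‖ξ‖ := by
  refine ContinuousLinearMap.opNorm_le_bound _
    (mul_nonneg (mul_nonneg hu.nonneg (norm_nonneg _)) (norm_nonneg _)) fun β => ?_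
  change ‖inV m n (fderiv ℝ (D2 u) y α ξ β)‖ ≤ _
  rw [norm_inV]
  have h1 : ‖fderiv ℝ (D2 u) y α‖ ≤ κ₂ * ‖α‖ :=
    (norm_D3_apply_le u y α).trans (by gcongr; exact hu.d3 y)
  have h2 : ‖fderiv ℝ (D2 u) y α ξ‖ ≤ κ₂ * ‖α‖ * ‖ξ‖ :=
    ((fderiv ℝ (D2 u) y α).le_opNorm ξ).trans (by gcongr)
  exact ((fderiv ℝ (D2 u) y α ξ).le_opNorm β).trans (by gcongr)

theorem Geo.norm_dZop_le (hu : Geo κ₂ u) (y α ξ : E m) :
    ‖dZop u y α ξ‖ ≤ 51 / 4 * κ₂ * ‖α‖ * ‖ξ‖ := by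
  unfold dZop
  have h1 := norm_comp_le' _ _ (hu.norm_dPh_le y α)
    (norm_comp_le' _ _ (hu.norm_Wop_le y ξ) (hu.norm_dFp_le y))
  have h2 := norm_comp_le' _ _ (norm_Pv_le u y)
    (norm_comp_le' _ _ (hu.norm_W3op_le y α ξ) (hu.norm_dFp_le y))
  have h3 := norm_comp_le' _ _ (norm_Pv_le u y)
    (norm_comp_le' _ _ (hu.norm_Wop_le y ξ) (hu.norm_dTp_le y α))
  refine (norm_add_le _ _).trans ?_
  have h4 := norm_add_le (-(dPh u y α ∘L Wop u y ξ ∘L dFp (fderiv ℝ u y)))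
    (Pv u y ∘L W3op u y α ξ ∘L dFp (fderiv ℝ u y))
  rw [norm_neg] at h4
  have hκ := hu.nonneg
  have hκ1 := hu.le_one
  have hp : 0 ≤ κ₂ * ‖α‖ * ‖ξ‖ := by positivity
  have hq : κ₂ * (κ₂ * ‖α‖ * ‖ξ‖) ≤ κ₂ * ‖α‖ * ‖ξ‖ := by nlinarith
  nlinarith

theorem Geo.norm_ddPh_le (hu : Geo κ₂ u) (y ξ α : E m) :
    ‖ddPh u y ξ α‖ ≤ 26 * κ₂ * ‖α‖ * ‖ξ‖ := by
  rw [ddPh_eq hu.c3]
  refine (norm_add_le _ _).trans ?_
  rw [LinearIsometryEquiv.norm_map]
  have := hu.norm_dZop_le y α ξ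
  have hp : 0 ≤ κ₂ * ‖α‖ * ‖ξ‖ := mul_nonneg (mul_nonneg hu.nonneg (norm_nonneg _)) (norm_nonneg _)
  linarith

end Claimed.Agent.R322.Tube
end

/- ===== packed: Claimed.Agent.R322.Tube.Geom.Codazzi ===== -/
section
/-!
# Row 322, Tube/Geom/Codazzi: the normal derivative of the mean curvature

* `norm_DHS_le`: `|∇^⊥_ξ H| ≤ (1 + |Du|) √(|∇^⊥ H|²) |ξ|`;
* `trc_L3op` (Codazzi): `tr (H P̈(ξ, T⁺·) z - A_z W_ξ T⁺) = ⟨∇^⊥_ξ H, z⟩` for normal `z`, obtained by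
  differentiating `tr A_w = ⟨H_S, w⟩`.
-/

set_option autoImplicit false

open scoped ENNReal ContDiff Topology
open MeasureTheory Filter

namespace Claimed.Agent.R322.Tube

local notation "adj" => ContinuousLinearMap.adjoint
local notation "𝟙" => ContinuousLinearMap.id ℝ _

variable {m n : ℕ} {u : E m → E n} {κ₂ : ℝ}

/-! ### the size of `∇^⊥ H` -/

/-- `∇^⊥ H` as an operator. -/
noncomputable def DHSop (u : E m → E n) (y : E m) : E m →L[ℝ] E (m + n) :=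
  Pv u y ∘L fderiv ℝ (HS u) y

theorem DHS_eq (u : E m → E n) (y a : E m) : DHS u y a = DHSop u y a := rfl

theorem DHSsq_eq (u : E m → E n) (y : E m) :
    DHSsq u y = trc (adj (DHSop u y ∘L dFp (fderiv ℝ u y)) ∘L
      (DHSop u y ∘L dFp (fderiv ℝ u y))) := by
  have h1 : adj (DHSop u y ∘L dFp (fderiv ℝ u y)) ∘L (DHSop u y ∘L dFp (fderiv ℝ u y))
      = adj (dFp (fderiv ℝ u y)) ∘L ((adj (DHSop u y) ∘L DHSop u y) ∘L dFp (fderiv ℝ u y)) := by
    rw [ContinuousLinearMap.adjoint_comp]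
    simp only [ContinuousLinearMap.comp_assoc]
  rw [h1, trc_comp_comm, ContinuousLinearMap.comp_assoc, dFp_comp_adjoint_dFp, trc_eq_sum]
  unfold DHSsq
  refine Finset.sum_congr rfl fun a _ => ?_
  rw [ContinuousLinearMap.comp_apply, ContinuousLinearMap.comp_apply,
    ContinuousLinearMap.adjoint_inner_left]
  rfl

theorem DHSsq_nonneg (u : E m → E n) (y : E m) : 0 ≤ DHSsq u y := by
  rw [DHSsq_eq]
  exact trc_adjoint_comp_self_nonneg _

theorem norm_DHS_le (u : E m → E n) (y ξ : E m) :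
    ‖DHS u y ξ‖ ≤ Real.sqrt (DHSsq u y) * ((1 + ‖fderiv ℝ u y‖) * ‖ξ‖) := by
  have h1 := norm_sq_apply_le_trc (DHSop u y ∘L dFp (fderiv ℝ u y)) (dF (fderiv ℝ u y) ξ)
  rw [← DHSsq_eq, ContinuousLinearMap.comp_apply, dFp_dF, ← DHS_eq] at h1
  have h2 : ‖DHS u y ξ‖ ≤ Real.sqrt (DHSsq u y) * ‖dF (fderiv ℝ u y) ξ‖ := by
    have h3 : DHSsq u y * ‖dF (fderiv ℝ u y) ξ‖ ^ 2
        = (Real.sqrt (DHSsq u y) * ‖dF (fderiv ℝ u y) ξ‖) ^ 2 := by
      rw [mul_pow, Real.sq_sqrt (DHSsq_nonneg u y)]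
    rw [h3] at h1
    exact abs_le_of_sq_le_sq' h1 (by positivity) |>.2
  exact h2.trans (by gcongr; exact norm_dF_apply_le _ _)

/-! ### regularity of `H_S` -/

theorem contDiff_D2 {k : ℕ} (hu : ContDiff ℝ (k + 2 : ℕ) u) : ContDiff ℝ k (D2 u) :=
  (contDiff_Du (k := k + 1) hu).fderiv_right (by norm_cast)

theorem contDiff_HS {k : ℕ} (hu : ContDiff ℝ (k + 2 : ℕ) u) : ContDiff ℝ k (HS u) := by
  have hu1 : ContDiff ℝ (k + 1 : ℕ) u := hu.of_le (by norm_cast; omega)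
  unfold HS II
  refine ContDiff.sum fun a _ => ?_
  refine (contDiff_Pv_of hu1).clm_apply ((inV m n).contDiff.comp ?_)
  exact ((contDiff_D2 hu).clm_apply
    ((contDiff_gmat_inverse_Du hu1).clm_apply contDiff_const)).clm_apply contDiff_const

/-! ### differentiating the shape operator -/

/-- `R₀(w) α = Ṗ_α w`. -/
noncomputable def R0op (u : E m → E n) (y : E m) (w : E (m + n)) : E m →L[ℝ] E (m + n) :=
  (fderiv ℝ (Ph u) y).flip w

theorem R0op_apply (u : E m → E n) (y : E m) (w : E (m + n)) (α : E m) :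
    R0op u y w α = dPh u y α w := rfl

theorem Shp_eq_R0op (u : E m → E n) (y : E m) (w : E (m + n)) :
    Shp u y w = R0op u y (Pv u y w) ∘L dFp (fderiv ℝ u y) := rfl

/-- the derivative of `y ↦ A_w(y)` in the direction `ξ`. -/
noncomputable def MSop (u : E m → E n) (y ξ : E m) (w : E (m + n)) :
    E (m + n) →L[ℝ] E (m + n) :=
  (ddPh u y ξ).flip (Pv u y w) ∘L dFp (fderiv ℝ u y) + R0op u y (Pv u y w) ∘L dTp u y ξ
    - R0op u y (dPh u y ξ w) ∘L dFp (fderiv ℝ u y)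

theorem hasFDerivAt_Shp_apply (hu : ContDiff ℝ 3 u) (y : E m) (w a : E (m + n)) :
    ∃ D : E m →L[ℝ] E (m + n), HasFDerivAt (fun y => Shp u y w a) D y ∧
      ∀ ξ, D ξ = MSop u y ξ w a := by
  have hu2 := c2_of_c3 hu
  have h1 := (hasFDerivAt_dFp_Du hu2 y).clm_apply (hasFDerivAt_const a y)
  have h2 := (hasFDerivAt_fderiv_Ph hu y).clm_apply h1
  have h3 := (hasFDerivAt_Pv hu2 y).clm_apply (hasFDerivAt_const w y)
  have h4 := h2.clm_apply h3
  refine ⟨_, h4, fun ξ => ?_⟩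
  simp only [add_apply, sub_apply, ContinuousLinearMap.comp_apply, zero_apply, map_zero,
    ContinuousLinearMap.flip_apply, zero_add, neg_apply, map_neg, fderiv_dFp_Du hu2, MSop,
    R0op_apply]
  unfold ddPh dPh
  abel

theorem hasFDerivAt_inner_HS (hu : ContDiff ℝ 3 u) (y ξ : E m) (w : E (m + n)) :
    inner ℝ (fderiv ℝ (HS u) y ξ) w = trc (MSop u y ξ w) := by
  have hHS : HasFDerivAt (HS u) (fderiv ℝ (HS u) y) y :=
    ((contDiff_HS (k := 1) (by exact_mod_cast hu)).differentiable (by norm_num) y).hasFDerivAt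
  have h1 : HasFDerivAt (fun y => inner ℝ (HS u y) w) _ y := hHS.inner ℝ (hasFDerivAt_const w y)
  choose D hD hDξ using fun a => hasFDerivAt_Shp_apply hu y w a
  have h2 : HasFDerivAt (fun y => ∑ i : Fin (m + n),
      inner ℝ (Shp u y w (EuclideanSpace.single i 1)) (EuclideanSpace.single i (1 : ℝ))) _ y :=
    HasFDerivAt.fun_sum fun i _ =>
      (hD (EuclideanSpace.single i 1)).inner ℝ (hasFDerivAt_const (EuclideanSpace.single i 1) y)
  have e1 : (fun y => ∑ i : Fin (m + n),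
      inner ℝ (Shp u y w (EuclideanSpace.single i 1)) (EuclideanSpace.single i (1 : ℝ)))
      = fun y => inner ℝ (HS u y) w := by
    funext y
    rw [← trc_Shp (c2_of_c3 hu), trc_eq_sum]
  rw [e1] at h2
  have h3 := congrArg (fun T : E m →L[ℝ] ℝ => T ξ) (h1.unique h2)
  simp only [ContinuousLinearMap.comp_apply, zero_apply,
    sum_apply, fderivInnerCLM_apply, ContinuousLinearMap.prod_apply,
    inner_zero_right, zero_add, hDξ] at h3
  rw [trc_eq_sum, ← h3]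

/-! ### Codazzi -/

/-- `L₃ = H P̈(ξ, T⁺·) z - A_z W_ξ T⁺`. -/
noncomputable def L3op (u : E m → E n) (y ξ : E m) (z : E (m + n)) :
    E (m + n) →L[ℝ] E (m + n) :=
  Ph u y ∘L (ddPh u y ξ).flip z ∘L dFp (fderiv ℝ u y)
    - Shp u y z ∘L Wop u y ξ ∘L dFp (fderiv ℝ u y)

theorem Ph_comp_dPh_comp_Ph (hu : ContDiff ℝ 2 u) (y ξ : E m) :
    Ph u y ∘L dPh u y ξ ∘L Ph u y = 0 := by
  rw [dPh_comp_Ph hu, Ph_comp_Zop]

/-- an operator `Y = V Y = Y H` has trace zero. -/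
theorem trc_eq_zero_of_Pv_Ph (u : E m → E n) (y : E m) {Y : E (m + n) →L[ℝ] E (m + n)}
    (h1 : Pv u y ∘L Y = Y) (h2 : Y ∘L Ph u y = Y) : trc Y = 0 := by
  rw [← h1, ← h2, ← ContinuousLinearMap.comp_assoc, trc_comp_comm,
    ← ContinuousLinearMap.comp_assoc, Ph_comp_Pv]
  simp [trc_zero]

theorem Ph_dPh_of_normal (hu : ContDiff ℝ 2 u) {y : E m} {z : E (m + n)} (hz : Pv u y z = z)
    (ξ : E m) : Ph u y (dPh u y ξ z) = dPh u y ξ z := by
  have h1 : dPh u y ξ z = adj (Zop u y ξ) z := by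
    conv_lhs => rw [← hz]
    exact congrArg (fun T : E (m + n) →L[ℝ] E (m + n) => T z) (dPh_comp_Pv hu y ξ)
  have h2 : Ph u y ∘L adj (Zop u y ξ) = adj (Zop u y ξ) := by
    have := congrArg adj (Zop_comp_Ph u y ξ)
    rwa [ContinuousLinearMap.adjoint_comp, adjoint_Ph] at this
  rw [h1]
  exact congrArg (fun T : E (m + n) →L[ℝ] E (m + n) => T z) h2

/-- **Codazzi.** -/
theorem trc_L3op (hu : ContDiff ℝ 3 u) {y : E m} {z : E (m + n)} (hz : Pv u y z = z) (ξ : E m) :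
    trc (L3op u y ξ z) = inner ℝ (DHS u y ξ) z := by
  have hu2 := c2_of_c3 hu
  have h0 : inner ℝ (DHS u y ξ) z = inner ℝ (fderiv ℝ (HS u) y ξ) z := by
    unfold DHS
    rw [inner_Pv_left, hz]
  rw [h0, hasFDerivAt_inner_HS hu]
  unfold MSop L3op
  rw [hz]
  have hA : R0op u y z ∘L dFp (fderiv ℝ u y) = Shp u y z := by rw [Shp_eq_R0op, hz]
  -- the middle term
  have e1 : R0op u y z ∘L dTp u y ξ
      = Shp u y z ∘L dPh u y ξ - Shp u y z ∘L Wop u y ξ ∘L dFp (fderiv ℝ u y) := by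
    unfold dTp
    rw [ContinuousLinearMap.comp_sub, ← ContinuousLinearMap.comp_assoc,
      ← ContinuousLinearMap.comp_assoc (R0op u y z), hA]
  have e2 : trc (Shp u y z ∘L dPh u y ξ) = 0 := by
    have : Shp u y z ∘L dPh u y ξ = Ph u y ∘L ((Shp u y z ∘L Ph u y) ∘L dPh u y ξ) := by
      rw [Shp_comp_Ph, ← ContinuousLinearMap.comp_assoc, Ph_comp_Shp hu2]
    rw [this, trc_comp_comm]
    have h3 : ((Shp u y z ∘L Ph u y) ∘L dPh u y ξ) ∘L Ph u y
        = Shp u y z ∘L (Ph u y ∘L dPh u y ξ ∘L Ph u y) := by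
      simp only [ContinuousLinearMap.comp_assoc]
    rw [h3, Ph_comp_dPh_comp_Ph hu2]
    simp [trc_zero]
  -- the last term
  have e3 : trc (R0op u y (dPh u y ξ z) ∘L dFp (fderiv ℝ u y)) = 0 := by
    refine trc_eq_zero_of_Pv_Ph u y ?_ ?_
    · ext1 a
      change Pv u y (dPh u y (dFp (fderiv ℝ u y) a) (dPh u y ξ z))
        = dPh u y (dFp (fderiv ℝ u y) a) (dPh u y ξ z)
      rw [← Ph_dPh_of_normal hu2 hz ξ]
      have h4 : ∀ α t, dPh u y α (Ph u y t) = Zop u y α t := fun α t =>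
        congrArg (fun T : E (m + n) →L[ℝ] E (m + n) => T t) (dPh_comp_Ph hu2 y α)
      rw [h4]
      exact congrArg (fun T : E (m + n) →L[ℝ] E (m + n) => T (dPh u y ξ z)) (Pv_comp_Zop u y _)
    · rw [ContinuousLinearMap.comp_assoc, dFp_comp_Ph]
  have e4 : trc (Ph u y ∘L (ddPh u y ξ).flip z ∘L dFp (fderiv ℝ u y))
      = trc ((ddPh u y ξ).flip z ∘L dFp (fderiv ℝ u y)) := by
    rw [trc_comp_comm, ContinuousLinearMap.comp_assoc, dFp_comp_Ph]
  rw [trc_sub, trc_sub, trc_add, e1, trc_sub, e2, e3, e4]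
  ring

theorem Ph_comp_L3op (hu : ContDiff ℝ 2 u) (y ξ : E m) (z : E (m + n)) :
    Ph u y ∘L L3op u y ξ z = L3op u y ξ z := by
  unfold L3op
  rw [ContinuousLinearMap.comp_sub, ← ContinuousLinearMap.comp_assoc, Ph_comp_Ph,
    ← ContinuousLinearMap.comp_assoc (Ph u y) (Shp u y z), Ph_comp_Shp hu]

theorem L3op_comp_Ph (u : E m → E n) (y ξ : E m) (z : E (m + n)) :
    L3op u y ξ z ∘L Ph u y = L3op u y ξ z := by
  unfold L3op
  simp only [ContinuousLinearMap.sub_comp, ContinuousLinearMap.comp_assoc, dFp_comp_Ph]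

theorem Geo.norm_ddPh_flip_le (hu : Geo κ₂ u) (y ξ : E m) (z : E (m + n)) :
    ‖(ddPh u y ξ).flip z‖ ≤ 26 * κ₂ * ‖ξ‖ * ‖z‖ := by
  refine ContinuousLinearMap.opNorm_le_bound _
    (mul_nonneg (mul_nonneg (mul_nonneg (by norm_num) hu.nonneg) (norm_nonneg _))
      (norm_nonneg _)) fun α => ?_
  rw [ContinuousLinearMap.flip_apply]
  refine ((ddPh u y ξ α).le_opNorm z).trans ?_
  have := hu.norm_ddPh_le y ξ α
  calc ‖ddPh u y ξ α‖ * ‖z‖ ≤ (26 * κ₂ * ‖α‖ * ‖ξ‖) * ‖z‖ := by gcongr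
    _ = 26 * κ₂ * ‖ξ‖ * ‖z‖ * ‖α‖ := by ring

theorem Geo.norm_L3op_le (hu : Geo κ₂ u) (y ξ : E m) (z : E (m + n)) :
    ‖L3op u y ξ z‖ ≤ 43 * κ₂ * ‖ξ‖ * ‖z‖ := by
  unfold L3op
  refine (norm_sub_le _ _).trans ?_
  have h1 := norm_comp_le' _ _ (norm_Ph_le u y)
    (norm_comp_le' _ _ (hu.norm_ddPh_flip_le y ξ z) (hu.norm_dFp_le y))
  have h2 := norm_comp_le' _ _ (hu.norm_Shp_le y z)
    (norm_comp_le' _ _ (hu.norm_Wop_le y ξ) (hu.norm_dFp_le y))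
  have hκ := hu.nonneg
  have hκ1 := hu.le_one
  have hp : 0 ≤ κ₂ * ‖ξ‖ * ‖z‖ := by positivity
  have hq : κ₂ * (κ₂ * ‖ξ‖ * ‖z‖) ≤ κ₂ * ‖ξ‖ * ‖z‖ := by nlinarith
  nlinarith

/-- the normal part of `P̈(ξ,·) z` is quadratic in the curvature. -/
theorem Geo.norm_Pv_ddPh_flip_le (hu : Geo κ₂ u) {y : E m} {z : E (m + n)} (hz : Pv u y z = z)
    (ξ : E m) : ‖Pv u y ∘L (ddPh u y ξ).flip z‖ ≤ 18 * κ₂ ^ 2 * ‖ξ‖ * ‖z‖ := by
  refine ContinuousLinearMap.opNorm_le_bound _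
    (mul_nonneg (mul_nonneg (mul_nonneg (by norm_num) (sq_nonneg _)) (norm_nonneg _))
      (norm_nonneg _)) fun α => ?_
  have h1 : (Pv u y ∘L (ddPh u y ξ).flip z) α = (Pv u y ∘L ddPh u y ξ α ∘L Pv u y) z := by
    change Pv u y (ddPh u y ξ α z) = Pv u y (ddPh u y ξ α (Pv u y z))
    rw [hz]
  rw [h1, Pv_ddPh_Pv hu.c3]
  have h2 := norm_comp_le' _ _ (hu.norm_dPh_le y α) (hu.norm_dPh_le y ξ)
  have h3 := norm_comp_le' _ _ (hu.norm_dPh_le y ξ) (hu.norm_dPh_le y α)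
  have h4 : ‖dPh u y α ∘L dPh u y ξ + dPh u y ξ ∘L dPh u y α‖ ≤ 18 * κ₂ ^ 2 * ‖ξ‖ * ‖α‖ := by
    refine (norm_add_le _ _).trans ?_
    nlinarith
  have h5 := norm_comp_le' _ _ (norm_Pv_le u y) (norm_comp_le' _ _ h4 (norm_Pv_le u y))
  refine (ContinuousLinearMap.le_opNorm _ z).trans ?_
  calc _ ≤ (1 * (18 * κ₂ ^ 2 * ‖ξ‖ * ‖α‖ * 1)) * ‖z‖ := by gcongr
    _ = 18 * κ₂ ^ 2 * ‖ξ‖ * ‖z‖ * ‖α‖ := by ring

end Claimed.Agent.R322.Tube
end
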