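/- Packed by merge_tool.py (helper293): 11 modules of Claimed.Agent.R322 in one file, same declarations.
   Old modules, in this order: CZ.Defs, CZ.Newton, CZ.KerEx, CZ.Conv, CZ.Cube, CZ.Stop, CZ.Push, CZ.Good, CZ.Bad, CZ.Weak, CZ.Repr -/
import Claimed.Agent.R322.Basic

/- ===== packed: Claimed.Agent.R322.CZ.Defs ===== -/
section
/-!
# R322 / CZ / Defs : vocabulary of the scalar potential estimate (AE Lemma 2.4)

ROUTE (differs from AE: no fundamental solution on the whole space, no harmonic remainder, no Fourier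
transform, no separate mollification).  Fix `R = (1 - θ)/2`.

* `Ker m R` : a smooth vector field `V` on `E m`, curl free, equal to the Newtonian gradient kernel
  `z |z|^{-m} / (m |B_1|)` outside `B_R`; `η = div V` is a smooth unit-integral bump in `B_R`.
* `sca w n f z = 2^{n w} f (2^n z)`.  `Z n j = sca (m-1) n (V j) - V j` is smooth, supported in `B_R`,
  curl free, and `div (Z n) = sca m n η - η`.
* Testing equation `j` with `y ↦ Z n j (x - y)` and summing over `j` gives, for `x ∈ B_θ`,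
  `(η_n * v)(x) - (η * v)(x) = Σ_ij (∂_i Z n j * F_ij)(x) + Σ_j (Z n j * g_j)(x)`   (`Sol.repr`).
* `η * v` has gradient `≤ C ε` on `B_θ` (`Sol.remainder`); `c = (η * v)(0)`.
* `∂_i Z n j *` is of weak type (1,1) on finite measures, uniformly in `n` (`weak11` : L² bound by
  integration by parts, Hormander condition by telescoping in `n`, Calderon-Zygmund decomposition of
  the measure along dyadic cubes of generations `0..N`).
* `η_n * v → v_ac` a.e. (`ae_tendsto_moll`) and weakly (`dist_moll`).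
-/

set_option autoImplicit false

namespace Claimed.Agent.R322.CZ

open MeasureTheory Set Metric
open scoped ENNReal ContDiff

/-- partial derivative -/
noncomputable def pd {m : ℕ} (i : Fin m) (φ : E m → ℝ) (y : E m) : ℝ :=
  fderiv ℝ φ y (EuclideanSpace.single i (1 : ℝ))

/-- pairing of `f` with the signed measure `μp - μm`. -/
noncomputable def pr {m : ℕ} (μp μm : Measure (E m)) (f : E m → ℝ) : ℝ :=
  (∫ y, f y ∂μp) - ∫ y, f y ∂μm

/-- convolution of the kernel `k` with the signed measure `μp - μm`. -/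
noncomputable def cv {m : ℕ} (k : E m → ℝ) (μp μm : Measure (E m)) (x : E m) : ℝ :=
  (∫ y, k (x - y) ∂μp) - ∫ y, k (x - y) ∂μm

/-- total mass of the pair, as a real number. -/
noncomputable def ms {m : ℕ} (μp μm : Measure (E m)) : ℝ :=
  (μp univ).toReal + (μm univ).toReal

/-- dyadic rescaling of weight `w`: `z ↦ 2^{n w} f (2^n z)`. -/
noncomputable def sca {m : ℕ} (w n : ℕ) (f : E m → ℝ) (z : E m) : ℝ :=
  (2 : ℝ) ^ (n * w) * f ((2 : ℝ) ^ n • z)

/-- **Truncated Newtonian gradient kernel.** -/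
structure Ker (m : ℕ) (R : ℝ) where
  /-- the vector field -/
  V : Fin m → E m → ℝ
  smooth : ∀ j, ContDiff ℝ ∞ (V j)
  symm : ∀ i j z, pd i (V j) z = pd j (V i) z
  homog : ∀ (j : Fin m) (n : ℕ) (z : E m), R ≤ ‖z‖ → sca (m - 1) n (V j) z = V j z
  div_zero : ∀ z : E m, R ≤ ‖z‖ → ∑ j, pd j (V j) z = 0
  mass : ∫ z, ∑ j, pd j (V j) z = 1

namespace Ker

variable {m : ℕ} {R : ℝ}

/-- the bump `η = div V`. -/
noncomputable def eta (K : Ker m R) (z : E m) : ℝ := ∑ j, pd j (K.V j) z

/-- the compactly supported potential field `Z n = V_n - V`. -/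
noncomputable def Z (K : Ker m R) (n : ℕ) (j : Fin m) (z : E m) : ℝ :=
  sca (m - 1) n (K.V j) z - K.V j z

/-- the singular kernels `∂_i Z n j`. -/
noncomputable def kk (K : Ker m R) (n : ℕ) (i j : Fin m) (z : E m) : ℝ := pd i (K.Z n j) z

end Ker

/-- **The data of AE Lemma 2.4** (signed measures = pairs of positive measures). -/
structure Sol (m : ℕ) where
  vp : Measure (E m)
  vm : Measure (E m)
  Fp : Fin m → Fin m → Measure (E m)
  Fm : Fin m → Fin m → Measure (E m)
  gp : Fin m → Measure (E m)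
  gm : Fin m → Measure (E m)
  ε : ℝ
  ε_nonneg : 0 ≤ ε
  fin_vp : IsFiniteMeasure vp
  fin_vm : IsFiniteMeasure vm
  mass : (∑ i, ∑ j, (Fp i j univ + Fm i j univ)) + ∑ j, (gp j univ + gm j univ)
    ≤ ENNReal.ofReal ε
  eqn : ∀ (j : Fin m) (φ : E m → ℝ), ContDiff ℝ ∞ φ → HasCompactSupport φ →
    tsupport φ ⊆ ball (0 : E m) 1 →
    (∫ y, pd j φ y ∂vp) - ∫ y, pd j φ y ∂vm
      = (∑ i, ((∫ y, pd i φ y ∂(Fp i j)) - ∫ y, pd i φ y ∂(Fm i j)))
        - ((∫ y, φ y ∂(gp j)) - ∫ y, φ y ∂(gm j))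

/-! ### dyadic cubes and the stopping construction -/

section Dyadic

variable {m : ℕ}

/-- index of the dyadic cube of generation `n` (side `2^{-n}`) containing `x`. -/
noncomputable def cell (n : ℕ) (x : E m) : Fin m → ℤ := fun i => ⌊(2 : ℝ) ^ n * x i⌋

/-- the dyadic cube of generation `n` and index `k`. -/
def cube (n : ℕ) (k : Fin m → ℤ) : Set (E m) := {x | cell n x = k}

/-- its centre. -/
noncomputable def ctr (n : ℕ) (k : Fin m → ℤ) : E m :=
  WithLp.toLp 2 (fun i => ((k i : ℝ) + 1 / 2) / (2 : ℝ) ^ n)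

/-- dyadic average of the measure `lam` at generation `n`. -/
noncomputable def avg (lam : Measure (E m)) (n : ℕ) (x : E m) : ℝ≥0∞ :=
  (2 : ℝ≥0∞) ^ (n * m) * lam (cube n (cell n x))

/-- stopping generation: the first `n` with average `> t`, or `N` if there is none below `N`. -/
noncomputable def stop (lam : Measure (E m)) (t : ℝ≥0∞) (N : ℕ) (x : E m) : ℕ :=
  sInf {n : ℕ | t < avg lam n x ∨ N ≤ n}

/-- label of the stopped cube of `x`. -/
noncomputable def scell (lam : Measure (E m)) (t : ℝ≥0∞) (N : ℕ) (x : E m) :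
    ℕ × (Fin m → ℤ) :=
  (stop lam t N x, cell (stop lam t N x) x)

/-- centre of the stopped cube of `x`. -/
noncomputable def sctr (lam : Measure (E m)) (t : ℝ≥0∞) (N : ℕ) (x : E m) : E m :=
  ctr (stop lam t N x) (cell (stop lam t N x) x)

/-- density of the measure `μ` averaged over the stopped cubes. -/
noncomputable def gd (lam : Measure (E m)) (t : ℝ≥0∞) (N : ℕ) (μ : Measure (E m)) (x : E m) :
    ℝ≥0∞ :=
  (2 : ℝ≥0∞) ^ (stop lam t N x * m) * μ (cube (stop lam t N x) (cell (stop lam t N x) x))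

/-- union of the selected cubes. -/
def Om (lam : Measure (E m)) (t : ℝ≥0∞) (N : ℕ) : Set (E m) :=
  {x | t < avg lam (stop lam t N x) x}

/-- union of the enlarged selected cubes (balls of radius `√m 2^{-n}` about the centres). -/
def OmS (lam : Measure (E m)) (t : ℝ≥0∞) (N : ℕ) : Set (E m) :=
  {x | ∃ y ∈ Om lam t N, ‖x - sctr lam t N y‖ < Real.sqrt m / (2 : ℝ) ^ (stop lam t N y)}

end Dyadic

end Claimed.Agent.R322.CZ
end

/- ===== packed: Claimed.Agent.R322.CZ.Newton ===== -/
section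
/-!
# R322 / CZ / Newton : the truncated Newtonian gradient kernel
(leaves L-CZ-NewtonA = `V0_smooth, V0_symm, V0_homog, V0_div, V0_div_zero`; L-CZ-NewtonB = `V0_mass`;
the glue `exists_ker` is in `KerEx.lean`)

`V0 R j z = z_j |z|^{-m} J(|z|²)`, `J = Jc R` smooth, `= 0` for `4 s ≤ R²`, `= 1` for `R² ≤ 2 s`.
PLAN A. Near a point with `2 ‖z‖ < R` the function vanishes identically (open set); at `z ≠ 0` all factors
are smooth (`contDiffAt_norm`, `ContDiffAt.inv`, `contDiff_norm_sq`, `Real.smoothTransition.contDiff`).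
At `z ≠ 0`: `V0 j = z_j β`, `fderiv β z = γ(z) ⟪z, ·⟫` with
`γ = - m |z|^{-m-2} J + 2 |z|^{-m} J'`; so `pd i (V0 j) = δ_ij β + z_i z_j γ` (symmetric) and
`Σ_j pd j (V0 j) = m β + |z|² γ = 2 |z|^{2-m} J'(|z|²)`.  For `R ≤ ‖z‖`, `J` is constant near `|z|²`.
PLAN B. `V0_div` + `MeasureTheory.Measure.integral_fun_norm_addHaar` (`∫ f ‖x‖ = dim • μ.real (ball 0 1) • ∫_{y>0}
y^(dim-1) • f y`), `y^(m-1) · 2 y² (y^m)⁻¹ J'(y²) = 2 y J'(y²) = d/dy J(y²)`, and
`integral_Ioi_of_hasDerivAt_of_tendsto` (or FTC on `[0,R]`): the integral is `1 - J 0 = 1`.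
-/

set_option autoImplicit false

namespace Claimed.Agent.R322.CZ

open MeasureTheory Set Metric
open scoped ENNReal ContDiff

variable {m : ℕ}

/-- radial cutoff profile. -/
noncomputable def Jc (R s : ℝ) : ℝ := Real.smoothTransition ((4 * s - R ^ 2) / R ^ 2)

/-- un-normalised truncated kernel. -/
noncomputable def V0 (R : ℝ) (j : Fin m) (z : E m) : ℝ := z j * (‖z‖ ^ m)⁻¹ * Jc R (‖z‖ ^ 2)

/-! ### the profile -/

theorem Jc_contDiff (R : ℝ) : ContDiff ℝ ∞ (Jc R) :=
  Real.smoothTransition.contDiff.comp (by fun_prop)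

theorem Jc_zero {R : ℝ} (hR : 0 < R) {s : ℝ} (h : 4 * s ≤ R ^ 2) : Jc R s = 0 :=
  Real.smoothTransition.zero_of_nonpos (div_nonpos_of_nonpos_of_nonneg (by linarith) (by positivity))

theorem Jc_one {R : ℝ} (hR : 0 < R) {s : ℝ} (h : R ^ 2 ≤ 2 * s) : Jc R s = 1 :=
  Real.smoothTransition.one_of_one_le (by rw [le_div_iff₀ (by positivity)]; linarith)

theorem Jc_deriv_zero_of_lt {R : ℝ} (hR : 0 < R) {s : ℝ} (h : 4 * s < R ^ 2) :
    deriv (Jc R) s = 0 := by
  have hopen : IsOpen {s : ℝ | 4 * s < R ^ 2} := isOpen_lt (by fun_prop) continuous_const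
  have hev : Jc R =ᶠ[nhds s] fun _ => (0 : ℝ) := by
    filter_upwards [hopen.mem_nhds h] with y hy
    exact Jc_zero hR (le_of_lt hy)
  rw [hev.deriv_eq]; simp

theorem Jc_deriv_zero_of_gt {R : ℝ} (hR : 0 < R) {s : ℝ} (h : R ^ 2 < 2 * s) :
    deriv (Jc R) s = 0 := by
  have hopen : IsOpen {s : ℝ | R ^ 2 < 2 * s} := isOpen_lt continuous_const (by fun_prop)
  have hev : Jc R =ᶠ[nhds s] fun _ => (1 : ℝ) := by
    filter_upwards [hopen.mem_nhds h] with y hy
    exact Jc_one hR (le_of_lt hy)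
  rw [hev.deriv_eq]; simp

/-- the radial factor as a function of `s = |z|²`. -/
noncomputable def Bf (m : ℕ) (R s : ℝ) : ℝ := s ^ (-(m : ℝ) / 2) * Jc R s

theorem Bf_eventually_zero (m : ℕ) {R : ℝ} (hR : 0 < R) {s : ℝ} (h : 4 * s < R ^ 2) :
    Bf m R =ᶠ[nhds s] fun _ => (0 : ℝ) := by
  have hopen : IsOpen {s : ℝ | 4 * s < R ^ 2} := isOpen_lt (by fun_prop) continuous_const
  filter_upwards [hopen.mem_nhds h] with y hy
  rw [Bf, Jc_zero hR (le_of_lt hy), mul_zero]

theorem Bf_contDiff (m : ℕ) {R : ℝ} (hR : 0 < R) : ContDiff ℝ ∞ (Bf m R) := by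
  rw [contDiff_iff_contDiffAt]
  intro s
  rcases lt_or_ge (4 * s) (R ^ 2) with h | h
  · exact contDiffAt_const.congr_of_eventuallyEq (Bf_eventually_zero m hR h)
  · have hs : s ≠ 0 := by
      have : 0 < R ^ 2 := by positivity
      intro h0; rw [h0] at h; linarith
    exact (Real.contDiffAt_rpow_const_of_ne hs).mul (Jc_contDiff R).contDiffAt

theorem rpow_norm_sq (z : E m) (hz : z ≠ 0) : (‖z‖ ^ 2) ^ (-(m : ℝ) / 2) = (‖z‖ ^ m)⁻¹ := by
  have h0 : 0 < ‖z‖ := norm_pos_iff.2 hz
  rw [← Real.rpow_natCast ‖z‖ 2, ← Real.rpow_mul h0.le, ← Real.rpow_natCast ‖z‖ m,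
    ← Real.rpow_neg h0.le]
  congr 1
  push_cast
  ring

theorem V0_eq (R : ℝ) (j : Fin m) (z : E m) : V0 R j z = z j * Bf m R (‖z‖ ^ 2) := by
  rcases eq_or_ne z 0 with rfl | hz
  · simp [V0]
  · rw [V0, Bf, rpow_norm_sq z hz, mul_assoc]

/-- the key identity `m B + 2 s B' = 2 s s^{-m/2} J'`. -/
theorem Bf_identity (m : ℕ) {R : ℝ} (hR : 0 < R) (s : ℝ) :
    m * Bf m R s + 2 * s * deriv (Bf m R) s = 2 * s * s ^ (-(m : ℝ) / 2) * deriv (Jc R) s := by
  rcases lt_or_ge (4 * s) (R ^ 2) with h | h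
  · have h1 := Bf_eventually_zero m hR h
    rw [h1.deriv_eq, h1.eq_of_nhds, Jc_deriv_zero_of_lt hR h]
    simp
  · have hs : 0 < s := by
      have : 0 < R ^ 2 := by positivity
      linarith
    have hJ : HasDerivAt (Jc R) (deriv (Jc R) s) s :=
      ((Jc_contDiff R).differentiable (by simp) s).hasDerivAt
    have hP := Real.hasDerivAt_rpow_const (x := s) (p := -(m : ℝ) / 2) (Or.inl hs.ne')
    have hB : deriv (Bf m R) s = _ := (hP.mul hJ).deriv
    have e : s * s ^ (-(m : ℝ) / 2 - 1) = s ^ (-(m : ℝ) / 2) := by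
      rw [Real.rpow_sub_one hs.ne']; field_simp
    rw [hB, Bf]
    linear_combination (-(m : ℝ) * Jc R s) * e

/-! ### derivatives of `V0` -/

theorem hasFDerivAt_V0 {R : ℝ} (hR : 0 < R) (j : Fin m) (z : E m) :
    HasFDerivAt (V0 R j)
      (z j • (deriv (Bf m R) (‖z‖ ^ 2) • (2 • innerSL ℝ z)) +
        Bf m R (‖z‖ ^ 2) • (EuclideanSpace.proj j : E m →L[ℝ] ℝ)) z := by
  have h1 : HasFDerivAt (fun z : E m => z j) (EuclideanSpace.proj j : E m →L[ℝ] ℝ) z :=
    (EuclideanSpace.proj j : E m →L[ℝ] ℝ).hasFDerivAt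
  have h2 : HasFDerivAt (fun z : E m => ‖z‖ ^ 2) (2 • innerSL ℝ z) z :=
    (hasStrictFDerivAt_norm_sq z).hasFDerivAt
  have h3 : HasDerivAt (Bf m R) (deriv (Bf m R) (‖z‖ ^ 2)) (‖z‖ ^ 2) :=
    ((Bf_contDiff m hR).differentiable (by simp) _).hasDerivAt
  have h4 := h1.mul (h3.comp_hasFDerivAt z h2)
  have e : V0 R j = fun z : E m => z j * Bf m R (‖z‖ ^ 2) := funext fun z => V0_eq R j z
  rw [e]
  exact h4

theorem pd_V0 {R : ℝ} (hR : 0 < R) (i j : Fin m) (z : E m) :
    pd i (V0 R j) z = z j * (deriv (Bf m R) (‖z‖ ^ 2) * (2 * z i)) +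
      Bf m R (‖z‖ ^ 2) * (if j = i then 1 else 0) := by
  rw [pd, (hasFDerivAt_V0 hR j z).fderiv]
  simp [EuclideanSpace.inner_single_right]

theorem V0_smooth {R : ℝ} (hR : 0 < R) (j : Fin m) : ContDiff ℝ ∞ (V0 R j) := by
  have e : V0 R j = fun z : E m => z j * Bf m R (‖z‖ ^ 2) := funext fun z => V0_eq R j z
  rw [e]
  exact (EuclideanSpace.proj j : E m →L[ℝ] ℝ).contDiff.mul
    ((Bf_contDiff m hR).comp (contDiff_norm_sq ℝ))

theorem V0_symm {R : ℝ} (hR : 0 < R) (i j : Fin m) (z : E m) :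
    pd i (V0 R j) z = pd j (V0 R i) z := by
  rw [pd_V0 hR, pd_V0 hR]
  have : (if j = i then (1 : ℝ) else 0) = if i = j then 1 else 0 := by
    simp only [eq_comm]
  rw [this]; ring

theorem V0_homog (hm : 1 ≤ m) {R : ℝ} (hR : 0 < R) (j : Fin m) (n : ℕ) (z : E m)
    (hz : R ≤ ‖z‖) : sca (m - 1) n (V0 R j) z = V0 R j z := by
  have h0 : 0 < ‖z‖ := lt_of_lt_of_le hR hz
  have h1 : (1 : ℝ) ≤ 2 ^ n := one_le_pow₀ (by norm_num)
  have hn : ‖(2 : ℝ) ^ n • z‖ = 2 ^ n * ‖z‖ := by
    rw [norm_smul, Real.norm_eq_abs, abs_of_pos (by positivity)]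
  have hJ1 : Jc R (‖z‖ ^ 2) = 1 := Jc_one hR (by nlinarith)
  have hJ2 : Jc R (‖(2 : ℝ) ^ n • z‖ ^ 2) = 1 := by
    apply Jc_one hR
    rw [hn]
    have : ‖z‖ ≤ 2 ^ n * ‖z‖ := by nlinarith
    nlinarith
  rw [sca, V0, V0, hJ1, hJ2, hn]
  obtain ⟨k, rfl⟩ : ∃ k, m = k + 1 := ⟨m - 1, by omega⟩
  simp only [Nat.add_sub_cancel, PiLp.smul_apply, smul_eq_mul, mul_one, mul_pow]
  rw [← pow_mul]
  have e : (2 : ℝ) ^ (n * (k + 1)) = 2 ^ (n * k) * 2 ^ n := by rw [← pow_add]; congr 1
  rw [e]
  field_simp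

theorem V0_div {R : ℝ} (hR : 0 < R) (z : E m) :
    ∑ j, pd j (V0 R j) z = 2 * ‖z‖ ^ 2 * (‖z‖ ^ m)⁻¹ * deriv (Jc R) (‖z‖ ^ 2) := by
  have h1 : ∑ j, pd j (V0 R j) z =
      m * Bf m R (‖z‖ ^ 2) + 2 * ‖z‖ ^ 2 * deriv (Bf m R) (‖z‖ ^ 2) := by
    simp only [pd_V0 hR, if_true, mul_one, Finset.sum_add_distrib, Finset.sum_const,
      Finset.card_univ, Fintype.card_fin, nsmul_eq_mul]
    rw [EuclideanSpace.real_norm_sq_eq, Finset.mul_sum, Finset.sum_mul, add_comm]
    congr 1
    refine Finset.sum_congr rfl fun j _ => ?_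
    ring
  rw [h1, Bf_identity m hR]
  rcases eq_or_ne z 0 with rfl | hz
  · simp
  · rw [rpow_norm_sq z hz]

theorem V0_div_zero {R : ℝ} (hR : 0 < R) (z : E m) (hz : R ≤ ‖z‖) :
    ∑ j, pd j (V0 R j) z = 0 := by
  rw [V0_div hR, Jc_deriv_zero_of_gt hR (by nlinarith), mul_zero]

/-! ### the mass -/

theorem integral_Jc_radial {R : ℝ} (hR : 0 < R) :
    ∫ y in Ioi (0 : ℝ), deriv (Jc R) (y ^ 2) * (2 * y) = 1 := by
  have hd : ∀ y : ℝ, HasDerivAt (fun y : ℝ => Jc R (y ^ 2)) (deriv (Jc R) (y ^ 2) * (2 * y)) y := by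
    intro y
    have h1 : HasDerivAt (Jc R) (deriv (Jc R) (y ^ 2)) (y ^ 2) :=
      ((Jc_contDiff R).differentiable (by simp) _).hasDerivAt
    have h2 : HasDerivAt (fun y : ℝ => y ^ 2) (2 * y) y := by
      simpa using hasDerivAt_pow 2 y
    exact HasDerivAt.comp (h₂ := Jc R) (h := fun y : ℝ => y ^ 2) y h1 h2
  have hcont : Continuous fun y : ℝ => deriv (Jc R) (y ^ 2) * (2 * y) :=
    (((Jc_contDiff R).continuous_deriv (by simp)).comp (by fun_prop)).mul (by fun_prop)
  have hsupp : HasCompactSupport fun y : ℝ => deriv (Jc R) (y ^ 2) * (2 * y) := by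
    refine HasCompactSupport.intro (isCompact_closedBall (0 : ℝ) R) fun y hy => ?_
    have hy' : R < |y| := by simpa using hy
    have : R ^ 2 < 2 * y ^ 2 := by
      have h3 : R ^ 2 < |y| ^ 2 := by nlinarith
      rw [sq_abs] at h3
      nlinarith
    rw [Jc_deriv_zero_of_gt hR this, zero_mul]
  have hlim : Filter.Tendsto (fun y : ℝ => Jc R (y ^ 2)) Filter.atTop (nhds 1) := by
    refine tendsto_const_nhds.congr' ?_
    filter_upwards [Filter.eventually_ge_atTop R] with y hy
    exact (Jc_one hR (by nlinarith)).symm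
  rw [integral_Ioi_of_hasDerivAt_of_tendsto' (fun y _ => hd y)
    (hcont.integrable_of_hasCompactSupport hsupp).integrableOn hlim]
  have : Jc R ((0 : ℝ) ^ 2) = 0 := Jc_zero hR (by have : 0 < R ^ 2 := by positivity
                                                  nlinarith)
  rw [this, sub_zero]

theorem V0_mass (hm : 1 ≤ m) {R : ℝ} (hR : 0 < R) :
    ∫ z : E m, ∑ j, pd j (V0 R j) z = m * (volume (ball (0 : E m) 1)).toReal := by
  simp only [V0_div hR]
  have : Nonempty (Fin m) := ⟨⟨0, hm⟩⟩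
  have : Nontrivial (E m) := inferInstance
  rw [integral_fun_norm_addHaar (volume : Measure (E m))
    (fun y : ℝ => 2 * y ^ 2 * (y ^ m)⁻¹ * deriv (Jc R) (y ^ 2)), finrank_euclideanSpace_fin]
  have e : ∫ y in Ioi (0 : ℝ), y ^ (m - 1) • (2 * y ^ 2 * (y ^ m)⁻¹ * deriv (Jc R) (y ^ 2)) = 1 := by
    rw [← integral_Jc_radial hR]
    refine setIntegral_congr_fun measurableSet_Ioi fun y hy => ?_
    have hy0 : (0 : ℝ) < y := hy
    obtain ⟨k, rfl⟩ : ∃ k, m = k + 1 := ⟨m - 1, by omega⟩
    simp only [Nat.add_sub_cancel, smul_eq_mul]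
    field_simp
    ring
  rw [e]
  simp [Measure.real]

end Claimed.Agent.R322.CZ
end

/- ===== packed: Claimed.Agent.R322.CZ.KerEx ===== -/
section
/-!
# R322 / CZ / KerEx : existence of the kernel `Ker m R`   (glue; helper117)

Normalisation of `V0` by `m |B_1|`.
-/

set_option autoImplicit false

namespace Claimed.Agent.R322.CZ

open MeasureTheory Set Metric
open scoped ENNReal ContDiff

theorem pd_const_mul {m : ℕ} (c : ℝ) {f : E m → ℝ} (hf : Differentiable ℝ f) (i : Fin m) (z : E m) :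
    pd i (fun z => c * f z) z = c * pd i f z := by
  unfold pd
  rw [fderiv_const_mul (hf z)]
  simp

/-- **Existence of the kernel.** -/
theorem exists_ker (m : ℕ) (hm : 1 ≤ m) (R : ℝ) (hR : 0 < R) : Nonempty (Ker m R) := by
  set om : ℝ := (volume (ball (0 : E m) 1)).toReal with hom
  have hom0 : 0 < om :=
    ENNReal.toReal_pos (measure_ball_pos volume (0 : E m) one_pos).ne' measure_ball_lt_top.ne
  have hm0 : (0 : ℝ) < m := by exact_mod_cast hm
  have hκ : (m : ℝ) * om ≠ 0 := by positivity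
  have hd : ∀ j : Fin m, Differentiable ℝ (V0 R j) := fun j =>
    (V0_smooth hR j).differentiable (by simp)
  refine ⟨⟨fun j z => ((m : ℝ) * om)⁻¹ * V0 R j z, ?_, ?_, ?_, ?_, ?_⟩⟩
  · intro j
    exact contDiff_const.mul (V0_smooth hR j)
  · intro i j z
    rw [pd_const_mul _ (hd j), pd_const_mul _ (hd i), V0_symm hR]
  · intro j n z hz
    have := V0_homog hm hR j n z hz
    unfold sca at this ⊢
    rw [← this]
    ring
  · intro z hz
    simp only [pd_const_mul _ (hd _)]
    rw [← Finset.mul_sum, V0_div_zero hR z hz, mul_zero]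
  · simp only [pd_const_mul _ (hd _)]
    simp only [← Finset.mul_sum]
    rw [integral_const_mul, V0_mass hm hR]
    exact inv_mul_cancel₀ hκ

end Claimed.Agent.R322.CZ
end

/- ===== packed: Claimed.Agent.R322.CZ.Conv ===== -/
section
/-!
# R322 / CZ / Conv : elementary facts on convolutions with finite measures   (leaf L-CZ-Conv)

PLAN. Continuity: `continuous_of_dominated` (a continuous compactly supported kernel is bounded:
`Continuous.bounded_above_of_compact_support` / `HasCompactSupport.exists_bound_of_continuous`).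
`∫ y, k (x - y) * g y` is `(g ⋆[ContinuousLinearMap.mul ℝ ℝ, volume] k) x` up to commutativity: use
`HasCompactSupport.continuous_convolution_right`, `HasCompactSupport.convolution`.
`cheb_cv`: `∫⁻ x, |∫ f (x - y) dμ| ≤ ∫⁻ y ∫⁻ x |f (x - y)| = ‖f‖₁ μ(univ)` (Tonelli
`lintegral_lintegral_swap`, translation invariance `lintegral_sub_right_eq_self`), then
`mul_meas_ge_le_lintegral₀` / `meas_ge_le_lintegral_div`.
`meas_le_of_eventually`: `S ⊆ᵐ ⋃ N, ⋂ n ≥ N, Sn n`, an increasing union (`Monotone.measure_iUnion`).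
-/

set_option autoImplicit false

namespace Claimed.Agent.R322.CZ

open MeasureTheory Set Metric Filter Topology
open scoped ENNReal

variable {m : ℕ}

theorem continuous_conv_meas (k : E m → ℝ) (hk : Continuous k) (hc : HasCompactSupport k)
    (μ : Measure (E m)) [IsFiniteMeasure μ] : Continuous (fun x => ∫ y, k (x - y) ∂μ) := by
  obtain ⟨C, hC⟩ := hc.exists_bound_of_continuous hk
  refine continuous_of_dominated (bound := fun _ => C) (fun x => ?_) (fun x => ?_)
    (integrable_const C) ?_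
  · exact (hk.comp (continuous_const.sub continuous_id)).aestronglyMeasurable
  · exact Eventually.of_forall fun y => hC _
  · exact Eventually.of_forall fun y => hk.comp (continuous_id.sub continuous_const)

theorem continuous_cv (k : E m → ℝ) (hk : Continuous k) (hc : HasCompactSupport k)
    (μp μm : Measure (E m)) [IsFiniteMeasure μp] [IsFiniteMeasure μm] :
    Continuous (cv k μp μm) :=
  (continuous_conv_meas k hk hc μp).sub (continuous_conv_meas k hk hc μm)

theorem integrable_conv_meas (k : E m → ℝ) (hk : Continuous k) (hc : HasCompactSupport k)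
    (μ : Measure (E m)) [IsFiniteMeasure μ] (x : E m) : Integrable (fun y => k (x - y)) μ := by
  obtain ⟨C, hC⟩ := hc.exists_bound_of_continuous hk
  exact Integrable.of_bound (hk.comp (continuous_const.sub continuous_id)).aestronglyMeasurable C
    (Eventually.of_forall fun y => hC _)

theorem abs_cv_le (k : E m → ℝ) (B : ℝ) (hB : ∀ z, |k z| ≤ B)
    (μp μm : Measure (E m)) [IsFiniteMeasure μp] [IsFiniteMeasure μm] (x : E m) :
    |cv k μp μm x| ≤ B * ms μp μm := by
  have h : ∀ μ : Measure (E m), [IsFiniteMeasure μ] →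
      |∫ y, k (x - y) ∂μ| ≤ B * (μ univ).toReal := fun μ _ => by
    have := norm_integral_le_of_norm_le_const (μ := μ) (f := fun y => k (x - y)) (C := B)
      (Eventually.of_forall fun y => hB _)
    exact this
  rw [cv, ms, mul_add]
  exact (abs_sub _ _).trans (add_le_add (h μp) (h μm))

theorem integrable_of_bdd_compact (g : E m → ℝ) (hg : Measurable g) (hb : ∃ M, ∀ x, |g x| ≤ M)
    (hgc : HasCompactSupport g) : Integrable g := by
  obtain ⟨M, hM⟩ := hb
  rw [← integrableOn_iff_integrable_of_support_subset (subset_tsupport g)]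
  exact Measure.integrableOn_of_bounded hgc.isCompact.measure_lt_top.ne hg.aestronglyMeasurable
    (Eventually.of_forall fun x => hM x)

theorem continuous_conv_fun (k : E m → ℝ) (hk : Continuous k) (hc : HasCompactSupport k)
    (g : E m → ℝ) (hg : Measurable g) (hb : ∃ M, ∀ x, |g x| ≤ M) (hgc : HasCompactSupport g) :
    Continuous (fun x => ∫ y, k (x - y) * g y) := by
  obtain ⟨C, hC⟩ := hc.exists_bound_of_continuous hk
  have hgi := integrable_of_bdd_compact g hg hb hgc
  refine continuous_of_dominated (bound := fun y => C * |g y|) (fun x => ?_) (fun x => ?_)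
    (hgi.abs.const_mul C) ?_
  · exact ((hk.comp (continuous_const.sub continuous_id)).measurable.mul hg).aestronglyMeasurable
  · refine Eventually.of_forall fun y => ?_
    rw [norm_mul, Real.norm_eq_abs (g y)]
    exact mul_le_mul_of_nonneg_right (hC _) (abs_nonneg _)
  · exact Eventually.of_forall fun y =>
      (hk.comp (continuous_id.sub continuous_const)).mul continuous_const

theorem hasCompactSupport_conv_fun (k : E m → ℝ) (hc : HasCompactSupport k)
    (g : E m → ℝ) (hgc : HasCompactSupport g) :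
    HasCompactSupport (fun x => ∫ y, k (x - y) * g y) := by
  refine HasCompactSupport.intro (hc.isCompact.add hgc.isCompact) fun x hx => ?_
  have : ∀ y, k (x - y) * g y = 0 := by
    intro y
    by_cases hy : y ∈ tsupport g
    · have : x - y ∉ tsupport k := fun h => hx ⟨x - y, h, y, hy, sub_add_cancel x y⟩
      rw [image_eq_zero_of_notMem_tsupport this, zero_mul]
    · rw [image_eq_zero_of_notMem_tsupport hy, mul_zero]
  simp [this]

/-- Chebyshev for an integrable kernel. -/
theorem cheb_cv (f : E m → ℝ) (hf : Continuous f) (hc : HasCompactSupport f)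
    (μp μm : Measure (E m)) [IsFiniteMeasure μp] [IsFiniteMeasure μm] (t : ℝ) (ht : 0 < t) :
    volume {x | t < |cv f μp μm x|} ≤ ENNReal.ofReal ((∫ z, |f z|) * ms μp μm / t) := by
  have hfi : Integrable f := hf.integrable_of_hasCompactSupport hc
  set I : ℝ≥0∞ := ∫⁻ z, ENNReal.ofReal |f z| with hI
  have hIe : I = ENNReal.ofReal (∫ z, |f z|) :=
    (ofReal_integral_eq_lintegral_ofReal hfi.abs (Eventually.of_forall fun z => abs_nonneg _)).symm
  have hGm : Measurable (Function.uncurry fun x y : E m => ENNReal.ofReal |f (x - y)|) :=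
    ENNReal.measurable_ofReal.comp (continuous_abs.measurable.comp
      (hf.measurable.comp (measurable_fst.sub measurable_snd)))
  have hT : ∀ (ρ : Measure (E m)) [IsFiniteMeasure ρ],
      ∫⁻ x, ∫⁻ y, ENNReal.ofReal |f (x - y)| ∂ρ = I * ρ univ := by
    intro ρ _
    rw [lintegral_lintegral_swap hGm.aemeasurable]
    have : ∀ y : E m, ∫⁻ x, ENNReal.ofReal |f (x - y)| = I := fun y =>
      lintegral_sub_right_eq_self (fun z => ENNReal.ofReal |f z|) y
    simp only [this, lintegral_const]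
  have hpt : ∀ x, ENNReal.ofReal |cv f μp μm x| ≤
      (∫⁻ y, ENNReal.ofReal |f (x - y)| ∂μp) + ∫⁻ y, ENNReal.ofReal |f (x - y)| ∂μm := by
    intro x
    have e2 : ∀ ρ : Measure (E m),
        ENNReal.ofReal |∫ y, f (x - y) ∂ρ| ≤ ∫⁻ y, ENNReal.ofReal |f (x - y)| ∂ρ := by
      intro ρ
      rw [← Real.enorm_eq_ofReal_abs]
      refine (enorm_integral_le_lintegral_enorm _).trans (le_of_eq ?_)
      exact lintegral_congr fun y => Real.enorm_eq_ofReal_abs _
    calc ENNReal.ofReal |cv f μp μm x|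
        ≤ ENNReal.ofReal (|∫ y, f (x - y) ∂μp| + |∫ y, f (x - y) ∂μm|) :=
          ENNReal.ofReal_le_ofReal (abs_sub _ _)
      _ = ENNReal.ofReal |∫ y, f (x - y) ∂μp| + ENNReal.ofReal |∫ y, f (x - y) ∂μm| :=
          ENNReal.ofReal_add (abs_nonneg _) (abs_nonneg _)
      _ ≤ _ := add_le_add (e2 μp) (e2 μm)
  have htot : ∫⁻ x, ENNReal.ofReal |cv f μp μm x| ≤ I * (μp univ + μm univ) := by
    calc ∫⁻ x, ENNReal.ofReal |cv f μp μm x|
        ≤ ∫⁻ x, ((∫⁻ y, ENNReal.ofReal |f (x - y)| ∂μp) +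
            ∫⁻ y, ENNReal.ofReal |f (x - y)| ∂μm) := lintegral_mono hpt
      _ = (∫⁻ x, ∫⁻ y, ENNReal.ofReal |f (x - y)| ∂μp) +
            ∫⁻ x, ∫⁻ y, ENNReal.ofReal |f (x - y)| ∂μm :=
          lintegral_add_left hGm.lintegral_prod_right' _
      _ = I * (μp univ + μm univ) := by rw [hT μp, hT μm, mul_add]
  have hmeas : AEMeasurable (fun x => ENNReal.ofReal |cv f μp μm x|) volume :=
    (ENNReal.measurable_ofReal.comp (continuous_cv f hf hc μp μm).abs.measurable).aemeasurable
  have ht0 : ENNReal.ofReal t ≠ 0 := by simpa using ht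
  calc volume {x | t < |cv f μp μm x|}
      ≤ volume {x | ENNReal.ofReal t ≤ ENNReal.ofReal |cv f μp μm x|} :=
        measure_mono fun x hx => ENNReal.ofReal_le_ofReal (le_of_lt hx)
    _ ≤ (∫⁻ x, ENNReal.ofReal |cv f μp μm x|) / ENNReal.ofReal t :=
        meas_ge_le_lintegral_div hmeas ht0 ENNReal.ofReal_ne_top
    _ ≤ I * (μp univ + μm univ) / ENNReal.ofReal t := by gcongr
    _ = ENNReal.ofReal ((∫ z, |f z|) * ms μp μm / t) := by
        rw [ENNReal.ofReal_div_of_pos ht, ENNReal.ofReal_mul (integral_nonneg fun z => abs_nonneg _),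
          hIe, ms, ENNReal.ofReal_add ENNReal.toReal_nonneg ENNReal.toReal_nonneg,
          ENNReal.ofReal_toReal (measure_ne_top _ _), ENNReal.ofReal_toReal (measure_ne_top _ _)]

/-- the kernel sees only the ball of radius `ρ + r`. -/
theorem cv_restrict (k : E m → ℝ) (r ρ : ℝ) (hk : ∀ z, r ≤ ‖z‖ → k z = 0)
    (μp μm : Measure (E m)) (x : E m) (hx : ‖x‖ < ρ) :
    cv k (μp.restrict (ball 0 (ρ + r))) (μm.restrict (ball 0 (ρ + r))) x = cv k μp μm x := by
  have h : ∀ y, y ∉ ball (0 : E m) (ρ + r) → k (x - y) = 0 := by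
    intro y hy
    rw [mem_ball_zero_iff, not_lt] at hy
    apply hk
    have := norm_sub_norm_le y x
    rw [norm_sub_rev] at this
    linarith
  rw [cv, cv, setIntegral_eq_integral_of_forall_compl_eq_zero h,
    setIntegral_eq_integral_of_forall_compl_eq_zero h]

/-- Fatou for sets. -/
theorem meas_le_of_eventually {α : Type*} [MeasurableSpace α] (μ : Measure α) (S : Set α)
    (Sn : ℕ → Set α) (b : ℝ≥0∞) (h : ∀ᵐ x ∂μ, x ∈ S → ∀ᶠ n in atTop, x ∈ Sn n)
    (hb : ∀ n, μ (Sn n) ≤ b) : μ S ≤ b := by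
  set T : ℕ → Set α := fun N => ⋂ n ≥ N, Sn n with hT
  have hmono : Monotone T := by
    intro N N' hNN x hx
    simp only [hT, mem_iInter] at hx ⊢
    exact fun n hn => hx n (le_trans hNN hn)
  have hsub : S ≤ᵐ[μ] ⋃ N, T N := by
    filter_upwards [h] with x hx hxS
    obtain ⟨N, hN⟩ := eventually_atTop.1 (hx hxS)
    exact mem_iUnion.2 ⟨N, mem_iInter₂.2 hN⟩
  calc μ S ≤ μ (⋃ N, T N) := measure_mono_ae hsub
    _ = ⨆ N, μ (T N) := hmono.measure_iUnion
    _ ≤ b := iSup_le fun N => (measure_mono (biInter_subset_of_mem (le_refl N))).trans (hb N)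

end Claimed.Agent.R322.CZ
end

/- ===== packed: Claimed.Agent.R322.CZ.Cube ===== -/
section
/-!
# R322 / CZ / Cube : dyadic cubes of `E m`   (leaf L-CZ-Cube)

`cell n x i = ⌊2^n x_i⌋`, `cube n k = {cell n = k}`.  Elementary facts.
PLAN. `volume_cube`: `cube n k` is the preimage under `EuclideanSpace.measurableEquiv` (volume
preserving: `EuclideanSpace.volume_preserving_measurableEquiv` / `PiLp.volume_preserving_ofLp`) of
`Set.pi univ (fun i => Ico (k i / 2^n) ((k i + 1) / 2^n))` (`Int.floor_eq_iff`), then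
`Real.volume_pi_Ico` or `volume_pi_pi` + `Real.volume_Ico`.
`cell_eq_of_le`: induction from `⌊2^n x⌋ = ⌊2^(n+1) x⌋ / 2` (`Int.floor_div_natCast`-type lemma, or directly
from `Int.floor_eq_iff`).  `norm_sub_ctr_le`: `EuclideanSpace.norm_eq`, each coordinate `≤ 1/2^(n+1)`.
-/

set_option autoImplicit false

namespace Claimed.Agent.R322.CZ

open MeasureTheory Set Metric
open scoped ENNReal

variable {m : ℕ}

theorem measurable_cell (n : ℕ) : Measurable (cell n : E m → Fin m → ℤ) := by
  refine measurable_pi_iff.2 fun i => ?_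
  have h : Measurable fun x : E m => (2 : ℝ) ^ n * x i := by fun_prop
  exact Int.measurable_floor.comp h

theorem measurableSet_cube (n : ℕ) (k : Fin m → ℤ) : MeasurableSet (cube n k : Set (E m)) :=
  measurable_cell n (measurableSet_singleton k)

theorem mem_cube_self (n : ℕ) (x : E m) : x ∈ cube n (cell n x) := rfl

theorem cube_eq_preimage (n : ℕ) (k : Fin m → ℤ) :
    (cube n k : Set (E m)) = (@WithLp.ofLp 2 (Fin m → ℝ)) ⁻¹'
      (Set.pi univ fun i => Ico ((k i : ℝ) / 2 ^ n) (((k i : ℝ) + 1) / 2 ^ n)) := by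
  have h2 : (0 : ℝ) < 2 ^ n := by positivity
  ext x
  simp only [cube, Set.mem_ofPred_eq, mem_preimage, mem_pi, mem_univ, true_implies, mem_Ico]
  constructor
  · intro h i
    have := Int.floor_eq_iff.1 (congrFun h i)
    rw [div_le_iff₀ h2, lt_div_iff₀ h2]
    constructor <;> nlinarith [this.1, this.2]
  · intro h
    funext i
    have := h i
    rw [div_le_iff₀ h2, lt_div_iff₀ h2] at this
    exact Int.floor_eq_iff.2 ⟨by nlinarith [this.1], by nlinarith [this.2]⟩

theorem volume_cube (n : ℕ) (k : Fin m → ℤ) :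
    volume (cube n k : Set (E m)) = ((2 : ℝ≥0∞) ^ (n * m))⁻¹ := by
  have h2 : (0 : ℝ) < 2 ^ n := by positivity
  rw [cube_eq_preimage, (PiLp.volume_preserving_ofLp (Fin m)).measure_preimage
    (MeasurableSet.univ_pi fun i => measurableSet_Ico).nullMeasurableSet, Real.volume_pi_Ico]
  have : ∀ i : Fin m, ENNReal.ofReal (((k i : ℝ) + 1) / 2 ^ n - (k i : ℝ) / 2 ^ n) =
      ((2 : ℝ≥0∞) ^ n)⁻¹ := by
    intro i
    rw [← sub_div, add_sub_cancel_left, one_div, ENNReal.ofReal_inv_of_pos h2,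
      ENNReal.ofReal_pow (by norm_num)]
    norm_num
  simp only [this, Finset.prod_const, Finset.card_univ, Fintype.card_fin]
  rw [pow_mul, ← ENNReal.inv_pow]

theorem cell_eq_of_le {n n' : ℕ} (h : n ≤ n') {x y : E m} (hxy : cell n' x = cell n' y) :
    cell n x = cell n y := by
  have key : ∀ z : E m, ∀ i, cell n z i = cell n' z i / ((2 ^ (n' - n) : ℕ) : ℤ) := by
    intro z i
    simp only [cell]
    rw [← Int.floor_div_natCast]
    congr 1
    have : (2 : ℝ) ^ n' = 2 ^ n * 2 ^ (n' - n) := by rw [← pow_add]; congr 1; omega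
    rw [this]; push_cast; field_simp
  funext i
  rw [key x i, key y i, hxy]

theorem cube_subset_cube {n n' : ℕ} (h : n ≤ n') (x : E m) :
    cube n' (cell n' x) ⊆ cube n (cell n x) := fun _ hy => cell_eq_of_le h hy

theorem norm_sub_ctr_le {n : ℕ} {k : Fin m → ℤ} {x : E m} (hx : x ∈ cube n k) :
    ‖x - ctr n k‖ ≤ Real.sqrt m / (2 : ℝ) ^ (n + 1) := by
  have h2 : (0 : ℝ) < 2 ^ n := by positivity
  have hc : ∀ i, ‖(x - ctr n k) i‖ ^ 2 ≤ (1 / (2 : ℝ) ^ (n + 1)) ^ 2 := by
    intro i
    have h1 := Int.floor_eq_iff.1 (congrFun hx i)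
    have e : (x - ctr n k) i = (2 ^ n * x i - (k i : ℝ) - 1 / 2) / 2 ^ n := by
      simp only [ctr, PiLp.sub_apply]
      field_simp
      ring
    have h3 : (2 ^ n * x i - (k i : ℝ) - 1 / 2) ^ 2 ≤ 1 / 4 := by nlinarith [h1.1, h1.2]
    have h4 : (0 : ℝ) < (2 ^ n) ^ 2 := by positivity
    have e2 : (1 / (2 : ℝ) ^ (n + 1)) ^ 2 = (1 / 4) / (2 ^ n) ^ 2 := by
      rw [pow_succ]; field_simp; ring
    rw [e, Real.norm_eq_abs, sq_abs, div_pow, e2]
    exact div_le_div_of_nonneg_right h3 h4.le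
  rw [EuclideanSpace.norm_eq]
  calc Real.sqrt (∑ i, ‖(x - ctr n k) i‖ ^ 2)
      ≤ Real.sqrt (∑ _i : Fin m, (1 / (2 : ℝ) ^ (n + 1)) ^ 2) :=
        Real.sqrt_le_sqrt (Finset.sum_le_sum fun i _ => hc i)
    _ = Real.sqrt m / (2 : ℝ) ^ (n + 1) := by
        rw [Finset.sum_const, Finset.card_univ, Fintype.card_fin, nsmul_eq_mul,
          Real.sqrt_mul (by positivity), Real.sqrt_sq (by positivity)]
        ring

end Claimed.Agent.R322.CZ
end

/- ===== packed: Claimed.Agent.R322.CZ.Stop ===== -/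
section
/-!
# R322 / CZ / Stop : the stopping generation   (leaf L-CZ-Stop)

`stop lam t N x = sInf {n | t < avg lam n x ∨ N ≤ n}` (the set contains `N`: `Nat.sInf_mem`,
`Nat.sInf_le`, `Nat.notMem_of_lt_sInf`).  The stopped cubes form a countable measurable partition:
`stop` is constant on the stopped cube because `avg lam n` depends only on `cell n`, and `cell n` for
`n ≤ stop x` is constant on the cube of generation `stop x` (`cell_eq_of_le`).
`measurable_scell`: `measurable_to_countable'` + `scell_preimage` (a fibre is empty or a cube).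
-/

set_option autoImplicit false

namespace Claimed.Agent.R322.CZ

open MeasureTheory Set Metric
open scoped ENNReal

variable {m : ℕ} (lam : Measure (E m)) (t : ℝ≥0∞) (N : ℕ)

theorem stop_le (x : E m) : stop lam t N x ≤ N :=
  Nat.sInf_le (show N ∈ {n : ℕ | t < avg lam n x ∨ N ≤ n} from Or.inr le_rfl)

theorem stop_mem (x : E m) : t < avg lam (stop lam t N x) x ∨ N ≤ stop lam t N x :=
  Nat.sInf_mem (s := {n : ℕ | t < avg lam n x ∨ N ≤ n}) ⟨N, Or.inr le_rfl⟩

theorem stop_spec (x : E m) : t < avg lam (stop lam t N x) x ∨ stop lam t N x = N :=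
  (stop_mem lam t N x).imp id fun h => le_antisymm (stop_le lam t N x) h

variable {lam t N} in
theorem not_mem_of_lt_stop {n : ℕ} {x : E m} (h : n < stop lam t N x) :
    ¬ (t < avg lam n x ∨ N ≤ n) :=
  Nat.notMem_of_lt_sInf (s := {n : ℕ | t < avg lam n x ∨ N ≤ n}) h

theorem avg_le_of_lt_stop {n : ℕ} {x : E m} (h : n < stop lam t N x) : avg lam n x ≤ t :=
  not_lt.1 fun h' => not_mem_of_lt_stop h (Or.inl h')

theorem avg_succ_le (n : ℕ) (x : E m) : avg lam (n + 1) x ≤ (2 : ℝ≥0∞) ^ m * avg lam n x := by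
  have h : lam (cube (n + 1) (cell (n + 1) x)) ≤ lam (cube n (cell n x)) :=
    measure_mono (cube_subset_cube (Nat.le_succ n) x)
  calc avg lam (n + 1) x = (2 : ℝ≥0∞) ^ ((n + 1) * m) * lam (cube (n + 1) (cell (n + 1) x)) := rfl
    _ ≤ (2 : ℝ≥0∞) ^ ((n + 1) * m) * lam (cube n (cell n x)) := by gcongr
    _ = (2 : ℝ≥0∞) ^ m * avg lam n x := by
      rw [avg, ← mul_assoc, ← pow_add]; congr 2; ring

theorem avg_stop_le (h0 : lam univ ≤ t) (x : E m) :
    avg lam (stop lam t N x) x ≤ (2 : ℝ≥0∞) ^ m * t := by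
  have h1 : (1 : ℝ≥0∞) ≤ 2 ^ m := one_le_pow₀ (by norm_num)
  rcases Nat.eq_zero_or_pos (stop lam t N x) with h | h
  · rw [h]
    calc avg lam 0 x = lam (cube 0 (cell 0 x)) := by simp [avg]
      _ ≤ lam univ := measure_mono (subset_univ _)
      _ ≤ t := h0
      _ = 1 * t := (one_mul t).symm
      _ ≤ (2 : ℝ≥0∞) ^ m * t := by gcongr
  · obtain ⟨k, hk⟩ := Nat.exists_eq_succ_of_ne_zero h.ne'
    rw [hk]
    refine (avg_succ_le lam k x).trans ?_
    have : avg lam k x ≤ t := avg_le_of_lt_stop lam t N (by omega)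
    gcongr

theorem stop_eq_of_cell_eq {x y : E m}
    (h : cell (stop lam t N x) y = cell (stop lam t N x) x) :
    stop lam t N y = stop lam t N x := by
  have ha : ∀ n, n ≤ stop lam t N x → avg lam n y = avg lam n x := fun n hn => by
    rw [avg, avg, cell_eq_of_le hn h]
  apply le_antisymm
  · refine Nat.sInf_le (show stop lam t N x ∈ {n : ℕ | t < avg lam n y ∨ N ≤ n} from ?_)
    rw [Set.mem_ofPred_eq, ha _ le_rfl]
    exact stop_mem lam t N x
  · by_contra hlt
    rw [not_le] at hlt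
    have h1 := stop_mem lam t N y
    rw [ha _ hlt.le] at h1
    exact not_mem_of_lt_stop hlt h1

theorem scell_preimage (x : E m) :
    scell lam t N ⁻¹' {scell lam t N x} = cube (stop lam t N x) (cell (stop lam t N x) x) := by
  ext y
  simp only [mem_preimage, mem_singleton_iff, scell, Prod.mk.injEq, cube, Set.mem_ofPred_eq]
  constructor
  · rintro ⟨h1, h2⟩
    rw [h1] at h2
    exact h2
  · intro h
    have h1 := stop_eq_of_cell_eq lam t N h
    exact ⟨h1, by rw [h1]; exact h⟩

theorem measurable_scell : Measurable (scell lam t N) := by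
  refine measurable_to_countable' fun c => ?_
  by_cases hc : ∃ x, scell lam t N x = c
  · obtain ⟨x, rfl⟩ := hc
    rw [scell_preimage]
    exact measurableSet_cube _ _
  · have : scell lam t N ⁻¹' {c} = ∅ := by
      ext y
      simp only [mem_preimage, mem_singleton_iff, mem_empty_iff_false, iff_false]
      exact fun h => hc ⟨y, h⟩
    rw [this]
    exact MeasurableSet.empty

theorem stop_of_notMem_Om {x : E m} (hx : x ∉ Om lam t N) :
    stop lam t N x = N ∧ avg lam N x ≤ t := by
  have h1 : ¬ t < avg lam (stop lam t N x) x := hx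
  have h2 : stop lam t N x = N := (stop_spec lam t N x).resolve_left h1
  rw [h2] at h1
  exact ⟨h2, not_lt.1 h1⟩

end Claimed.Agent.R322.CZ
end

/- ===== packed: Claimed.Agent.R322.CZ.Push ===== -/
section
/-!
# R322 / CZ / Push : averaging a measure over the stopped cubes   (leaf L-CZ-Push)

`gd lam t N μ` is the density of the measure which has on every stopped cube the same mass as `μ`.
PLAN. `gd`, `sctr`, membership in `Om` are functions of `scell` (measurable into a countable type), hence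
measurable.  `map_scell_eq`: `Measure.ext_iff_singleton` (countable type); a fibre is empty or the cube `P`
of generation `n` (`scell_preimage`), where `gd = 2^{nm} μ P` is constant and `volume P = 2^{-nm}`.
`lintegral_gd`: evaluate `map_scell_eq` on `univ`.  `volume_Om_le`: on `Om`, `t < gd lam t N lam`.
`volume_OmS_le`: `OmS ⊆ ⋃ over selected labels of ball (ctr) (√m 2^{-n})`, `Measure.addHaar_ball`, and
`Om` is the disjoint union of the selected cubes.
-/

set_option autoImplicit false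

namespace Claimed.Agent.R322.CZ

open MeasureTheory Set Metric
open scoped ENNReal

variable {m : ℕ} (lam : Measure (E m)) (t : ℝ≥0∞) (N : ℕ)

theorem measurable_gd (μ : Measure (E m)) : Measurable (gd lam t N μ) :=
  (measurable_of_countable fun c : ℕ × (Fin m → ℤ) =>
    (2 : ℝ≥0∞) ^ (c.1 * m) * μ (cube c.1 c.2)).comp (measurable_scell lam t N)

theorem measurable_sctr : Measurable (sctr lam t N) :=
  (measurable_of_countable fun c : ℕ × (Fin m → ℤ) => (ctr c.1 c.2 : E m)).comp
    (measurable_scell lam t N)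

/-- the labels of the selected cubes. -/
def selLab : Set (ℕ × (Fin m → ℤ)) := {c | t < (2 : ℝ≥0∞) ^ (c.1 * m) * lam (cube c.1 c.2)}

theorem Om_eq_preimage : Om lam t N = scell lam t N ⁻¹' selLab lam t := rfl

theorem measurableSet_Om : MeasurableSet (Om lam t N) :=
  measurable_scell lam t N (Set.to_countable (selLab lam t)).measurableSet

theorem isOpen_OmS : IsOpen (OmS lam t N) := by
  have : OmS lam t N = ⋃ y ∈ Om lam t N,
      ball (sctr lam t N y) (Real.sqrt m / (2 : ℝ) ^ (stop lam t N y)) := by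
    ext x
    simp only [OmS, Set.mem_ofPred_eq, mem_iUnion, mem_ball_iff_norm, exists_prop]
  rw [this]
  exact isOpen_biUnion fun y _ => isOpen_ball

theorem gd_eq_of_mem {x y : E m} (μ : Measure (E m))
    (hy : y ∈ cube (stop lam t N x) (cell (stop lam t N x) x)) :
    gd lam t N μ y = gd lam t N μ x := by
  have h1 : stop lam t N y = stop lam t N x := stop_eq_of_cell_eq lam t N hy
  have h2 : cell (stop lam t N x) y = cell (stop lam t N x) x := hy
  rw [gd, gd, h1, h2]

theorem two_pow_mul_inv (k : ℕ) (a : ℝ≥0∞) : (2 : ℝ≥0∞) ^ k * a * ((2 : ℝ≥0∞) ^ k)⁻¹ = a := by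
  rw [mul_comm ((2 : ℝ≥0∞) ^ k) a, mul_assoc,
    ENNReal.mul_inv_cancel (by positivity) (ENNReal.pow_ne_top (by norm_num)), mul_one]

theorem map_scell_eq (μ : Measure (E m)) :
    Measure.map (scell lam t N) (volume.withDensity (gd lam t N μ))
      = Measure.map (scell lam t N) μ := by
  refine Measure.ext_iff_singleton.2 fun c => ?_
  rw [Measure.map_apply (measurable_scell lam t N) (measurableSet_singleton c),
    Measure.map_apply (measurable_scell lam t N) (measurableSet_singleton c)]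
  by_cases hc : ∃ x, scell lam t N x = c
  · obtain ⟨x, rfl⟩ := hc
    rw [scell_preimage, withDensity_apply _ (measurableSet_cube _ _),
      setLIntegral_congr_fun (measurableSet_cube _ _) (fun y hy => gd_eq_of_mem lam t N μ hy),
      setLIntegral_const, volume_cube, gd, two_pow_mul_inv]
  · have : scell lam t N ⁻¹' {c} = ∅ := by
      ext y
      simp only [mem_preimage, mem_singleton_iff, mem_empty_iff_false, iff_false]
      exact fun h => hc ⟨y, h⟩
    rw [this, measure_empty, measure_empty]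

theorem lintegral_gd (μ : Measure (E m)) : ∫⁻ x, gd lam t N μ x = μ univ := by
  have h := congrArg (fun ν => ν univ) (map_scell_eq lam t N μ)
  simp only [Measure.map_apply (measurable_scell lam t N) MeasurableSet.univ, preimage_univ,
    withDensity_apply _ MeasurableSet.univ, Measure.restrict_univ] at h
  exact h

theorem gd_le (μ : Measure (E m)) (h : μ ≤ lam) (h0 : lam univ ≤ t) (x : E m) :
    gd lam t N μ x ≤ (2 : ℝ≥0∞) ^ m * t := by
  refine le_trans ?_ (avg_stop_le lam t N h0 x)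
  rw [gd, avg]
  gcongr

theorem gd_add (μ ν : Measure (E m)) (x : E m) :
    gd lam t N (μ + ν) x = gd lam t N μ x + gd lam t N ν x := by
  simp only [gd, Measure.add_apply, mul_add]

theorem volume_Om_le : t * volume (Om lam t N) ≤ lam univ := by
  calc t * volume (Om lam t N) = ∫⁻ _x in Om lam t N, t := (setLIntegral_const _ _).symm
    _ ≤ ∫⁻ x in Om lam t N, gd lam t N lam x :=
        setLIntegral_mono (measurable_gd lam t N lam) fun x hx => le_of_lt hx
    _ ≤ ∫⁻ x, gd lam t N lam x := setLIntegral_le_lintegral _ _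
    _ = lam univ := lintegral_gd lam t N lam

theorem volume_OmS_le :
    volume (OmS lam t N)
      ≤ ENNReal.ofReal (Real.sqrt m ^ m) * volume (ball (0 : E m) 1) * volume (Om lam t N) := by
  set S : Set (ℕ × (Fin m → ℤ)) := scell lam t N '' Om lam t N with hS
  have hSc : S.Countable := Set.to_countable _
  have hsub : OmS lam t N ⊆ ⋃ c ∈ S, ball (ctr c.1 c.2 : E m) (Real.sqrt m / (2 : ℝ) ^ c.1) := by
    rintro x ⟨y, hy, hxy⟩
    exact mem_biUnion (mem_image_of_mem _ hy) (mem_ball_iff_norm.2 hxy)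
  have hball : ∀ c ∈ S, volume (ball (ctr c.1 c.2 : E m) (Real.sqrt m / (2 : ℝ) ^ c.1)) ≤
      ENNReal.ofReal (Real.sqrt m ^ m) * volume (ball (0 : E m) 1) *
        volume (scell lam t N ⁻¹' {c}) := by
    rintro c ⟨y, -, rfl⟩
    rcases Nat.eq_zero_or_pos m with hm | hm
    · subst hm
      simp
    · have hm' : (0 : ℝ) < m := by exact_mod_cast hm
      refine le_of_eq ?_
      rw [scell_preimage, volume_cube, Measure.addHaar_ball_of_pos _ _ (by positivity),
        finrank_euclideanSpace_fin, div_pow, div_eq_mul_inv,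
        ENNReal.ofReal_mul (by positivity), ENNReal.ofReal_inv_of_pos (by positivity), ← pow_mul,
        ENNReal.ofReal_pow (p := (2 : ℝ)) (by norm_num) ((scell lam t N y).1 * m)]
      simp only [scell, ENNReal.ofReal_ofNat]
      ring
  have hOm : Om lam t N = ⋃ c ∈ S, scell lam t N ⁻¹' {c} := by
    ext x
    simp only [mem_iUnion, mem_preimage, mem_singleton_iff, exists_prop, exists_eq_right']
    constructor
    · exact fun hx => mem_image_of_mem _ hx
    · rintro ⟨y, hy, hxy⟩
      rw [Om_eq_preimage, mem_preimage] at hy ⊢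
      rwa [← hxy]
  have hdisj : S.PairwiseDisjoint fun c => scell lam t N ⁻¹' {c} := by
    intro c _ c' _ hne
    exact Disjoint.preimage _ (disjoint_singleton.2 hne)
  calc volume (OmS lam t N)
      ≤ volume (⋃ c ∈ S, ball (ctr c.1 c.2 : E m) (Real.sqrt m / (2 : ℝ) ^ c.1)) :=
        measure_mono hsub
    _ ≤ ∑' c : S, volume (ball (ctr c.1.1 c.1.2 : E m) (Real.sqrt m / (2 : ℝ) ^ c.1.1)) :=
        measure_biUnion_le _ hSc _
    _ ≤ ∑' c : S, ENNReal.ofReal (Real.sqrt m ^ m) * volume (ball (0 : E m) 1) *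
          volume (scell lam t N ⁻¹' {c.1}) := ENNReal.tsum_le_tsum fun c => hball c.1 c.2
    _ = ENNReal.ofReal (Real.sqrt m ^ m) * volume (ball (0 : E m) 1) *
          ∑' c : S, volume (scell lam t N ⁻¹' {c.1}) := ENNReal.tsum_mul_left
    _ = ENNReal.ofReal (Real.sqrt m ^ m) * volume (ball (0 : E m) 1) * volume (Om lam t N) := by
        rw [hOm, measure_biUnion hSc hdisj fun c _ =>
          measurable_scell lam t N (measurableSet_singleton c)]

end Claimed.Agent.R322.CZ
end

/- ===== packed: Claimed.Agent.R322.CZ.Good ===== -/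
section
/-!
# R322 / CZ / Good : the good function of the Calderon-Zygmund decomposition   (leaf L-CZ-Good)

`gf = (density of averaged μp) - (density of averaged μm)`, with `lam = μp + μm`.
PLAN. `abs_gf_le`: both densities lie in `[0, 2^m t]` (`gd_le`, `Measure.le_add_right`).
`hasCompactSupport_gf`: if `gf x ≠ 0` the stopped cube of `x` has positive `lam` mass, hence meets
`ball 0 2`; its diameter is `≤ √m` (`norm_sub_ctr_le` twice), so `‖x‖ ≤ 2 + √m`;
`HasCompactSupport.of_support_subset_isCompact` / `HasCompactSupport.intro` with `isCompact_closedBall`.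
`integral_gf_sq_le`: `gf² ≤ 2^m t (gd μp + gd μm).toReal`, `lintegral_gd`, `integral_toReal`.
`conv_gf`: `integral_withDensity_eq_integral_toReal_smul` (densities finite since the measures are).
-/

set_option autoImplicit false

namespace Claimed.Agent.R322.CZ

open MeasureTheory Set Metric
open scoped ENNReal

variable {m : ℕ}

/-- the good function. -/
noncomputable def gf (lam : Measure (E m)) (t : ℝ≥0∞) (N : ℕ) (μp μm : Measure (E m)) (x : E m) :
    ℝ :=
  (gd lam t N μp x).toReal - (gd lam t N μm x).toReal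

theorem measurable_gf (lam : Measure (E m)) (t : ℝ≥0∞) (N : ℕ) (μp μm : Measure (E m)) :
    Measurable (gf lam t N μp μm) :=
  (measurable_gd lam t N μp).ennreal_toReal.sub (measurable_gd lam t N μm).ennreal_toReal

theorem gd_toReal_le (lam μ : Measure (E m)) (h : μ ≤ lam) (t : ℝ) (ht : 0 ≤ t)
    (h0 : lam univ ≤ ENNReal.ofReal t) (N : ℕ) (x : E m) :
    (gd lam (ENNReal.ofReal t) N μ x).toReal ≤ 2 ^ m * t := by
  refine ENNReal.toReal_le_of_le_ofReal (by positivity) ?_
  rw [ENNReal.ofReal_mul (by positivity), ENNReal.ofReal_pow (by norm_num), ENNReal.ofReal_ofNat]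
  exact gd_le lam _ N μ h h0 x

theorem abs_gf_le (μp μm : Measure (E m)) (t : ℝ) (ht : 0 ≤ t)
    (h0 : (μp + μm) univ ≤ ENNReal.ofReal t) (N : ℕ) (x : E m) :
    |gf (μp + μm) (ENNReal.ofReal t) N μp μm x| ≤ 2 ^ m * t := by
  have h1 := gd_toReal_le (μp + μm) μp (Measure.le_add_right le_rfl) t ht h0 N x
  have h2 := gd_toReal_le (μp + μm) μm (Measure.le_add_left le_rfl) t ht h0 N x
  have h3 : 0 ≤ (gd (μp + μm) (ENNReal.ofReal t) N μp x).toReal := ENNReal.toReal_nonneg
  have h4 : 0 ≤ (gd (μp + μm) (ENNReal.ofReal t) N μm x).toReal := ENNReal.toReal_nonneg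
  rw [gf, abs_le]
  constructor <;> linarith

theorem hasCompactSupport_gf (μp μm : Measure (E m)) (t : ℝ≥0∞) (N : ℕ)
    (hs : (μp + μm) (ball (0 : E m) 2)ᶜ = 0) :
    HasCompactSupport (gf (μp + μm) t N μp μm) := by
  refine HasCompactSupport.intro (isCompact_closedBall (0 : E m) (2 + Real.sqrt m)) fun x hx => ?_
  by_contra hne
  apply hx
  set n := stop (μp + μm) t N x with hn
  set P : Set (E m) := cube n (cell n x) with hP
  have hpos : (μp + μm) P ≠ 0 := by
    intro h0
    have h1 : μp P = 0 := le_antisymm ((Measure.le_add_right le_rfl P).trans h0.le) bot_le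
    have h2 : μm P = 0 := le_antisymm ((Measure.le_add_left le_rfl P).trans h0.le) bot_le
    apply hne
    simp only [gf, gd, ← hn, ← hP, h1, h2, mul_zero, ENNReal.toReal_zero, sub_zero]
  have hmeet : ∃ z, z ∈ P ∧ z ∈ ball (0 : E m) 2 := by
    by_contra hno
    push Not at hno
    exact hpos (le_antisymm ((measure_mono fun z hz => hno z hz).trans hs.le) bot_le)
  obtain ⟨z, hzP, hz2⟩ := hmeet
  have h1 := norm_sub_ctr_le (x := x) (mem_cube_self n x)
  have h2 := norm_sub_ctr_le hzP
  have h3 : Real.sqrt m / (2 : ℝ) ^ (n + 1) ≤ Real.sqrt m / 2 := by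
    apply div_le_div_of_nonneg_left (Real.sqrt_nonneg _) (by norm_num)
    calc (2 : ℝ) = 2 ^ 1 := (pow_one 2).symm
      _ ≤ 2 ^ (n + 1) := pow_le_pow_right₀ (by norm_num) (by omega)
  rw [mem_ball_zero_iff] at hz2
  rw [mem_closedBall_zero_iff]
  calc ‖x‖ = ‖(x - ctr n (cell n x)) - (z - ctr n (cell n x)) + z‖ := by congr 1; abel
    _ ≤ ‖x - ctr n (cell n x)‖ + ‖z - ctr n (cell n x)‖ + ‖z‖ :=
        (norm_add_le _ _).trans (by gcongr; exact norm_sub_le _ _)
    _ ≤ 2 + Real.sqrt m := by linarith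

theorem gd_lt_top (lam : Measure (E m)) (t : ℝ≥0∞) (N : ℕ) (μ : Measure (E m))
    [IsFiniteMeasure μ] (x : E m) : gd lam t N μ x < ∞ :=
  ENNReal.mul_lt_top (ENNReal.pow_lt_top (by norm_num)) (measure_lt_top μ _)

theorem integrable_gd_toReal (lam : Measure (E m)) (t : ℝ≥0∞) (N : ℕ) (μ : Measure (E m))
    [IsFiniteMeasure μ] : Integrable fun x => (gd lam t N μ x).toReal :=
  integrable_toReal_of_lintegral_ne_top (measurable_gd lam t N μ).aemeasurable
    (by rw [lintegral_gd]; exact measure_ne_top μ univ)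

theorem integral_gd_toReal (lam : Measure (E m)) (t : ℝ≥0∞) (N : ℕ) (μ : Measure (E m))
    [IsFiniteMeasure μ] : ∫ x, (gd lam t N μ x).toReal = (μ univ).toReal := by
  rw [integral_toReal (measurable_gd lam t N μ).aemeasurable
    (Filter.Eventually.of_forall (gd_lt_top lam t N μ)), lintegral_gd]

theorem integral_gf_sq_le (μp μm : Measure (E m)) [IsFiniteMeasure μp] [IsFiniteMeasure μm]
    (t : ℝ) (ht : 0 ≤ t) (h0 : (μp + μm) univ ≤ ENNReal.ofReal t) (N : ℕ) :
    ∫ x, (gf (μp + μm) (ENNReal.ofReal t) N μp μm x) ^ 2 ≤ 2 ^ m * t * ms μp μm := by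
  set lam := μp + μm
  set T := ENNReal.ofReal t
  have hi : Integrable fun x => 2 ^ m * t * ((gd lam T N μp x).toReal + (gd lam T N μm x).toReal) :=
    ((integrable_gd_toReal lam T N μp).add (integrable_gd_toReal lam T N μm)).const_mul _
  calc ∫ x, (gf lam T N μp μm x) ^ 2
      ≤ ∫ x, 2 ^ m * t * ((gd lam T N μp x).toReal + (gd lam T N μm x).toReal) := by
        refine integral_mono_of_nonneg (Filter.Eventually.of_forall fun x => sq_nonneg _) hi
          (Filter.Eventually.of_forall fun x => ?_)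
        have h1 := abs_gf_le μp μm t ht h0 N x
        have h3 : 0 ≤ (gd lam T N μp x).toReal := ENNReal.toReal_nonneg
        have h4 : 0 ≤ (gd lam T N μm x).toReal := ENNReal.toReal_nonneg
        have h5 : |gf lam T N μp μm x| ≤ (gd lam T N μp x).toReal + (gd lam T N μm x).toReal := by
          rw [gf, abs_le]; constructor <;> linarith
        show (gf lam T N μp μm x) ^ 2 ≤ _
        rw [← sq_abs, sq]
        exact mul_le_mul h1 h5 (abs_nonneg _) (by positivity)
    _ = 2 ^ m * t * ms μp μm := by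
        rw [integral_const_mul, integral_add (integrable_gd_toReal lam T N μp)
          (integrable_gd_toReal lam T N μm), integral_gd_toReal, integral_gd_toReal, ms]

theorem isFiniteMeasure_gd (lam : Measure (E m)) (t : ℝ≥0∞) (N : ℕ) (μ : Measure (E m))
    [IsFiniteMeasure μ] : IsFiniteMeasure (volume.withDensity (gd lam t N μ)) :=
  ⟨by rw [withDensity_apply _ MeasurableSet.univ, Measure.restrict_univ, lintegral_gd]
      exact measure_lt_top μ univ⟩

theorem conv_gf (k : E m → ℝ) (hk : Continuous k) (hc : HasCompactSupport k)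
    (lam : Measure (E m)) (t : ℝ≥0∞) (N : ℕ)
    (μp μm : Measure (E m)) [IsFiniteMeasure μp] [IsFiniteMeasure μm] (x : E m) :
    ∫ y, k (x - y) * gf lam t N μp μm y
      = cv k (volume.withDensity (gd lam t N μp)) (volume.withDensity (gd lam t N μm)) x := by
  obtain ⟨C, hC⟩ := hc.exists_bound_of_continuous hk
  have hkm : AEStronglyMeasurable (fun y : E m => k (x - y)) volume :=
    (hk.comp (continuous_const.sub continuous_id)).aestronglyMeasurable
  have hi : ∀ μ : Measure (E m), [IsFiniteMeasure μ] →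
      Integrable fun y => (gd lam t N μ y).toReal • k (x - y) := fun μ _ =>
    (integrable_gd_toReal lam t N μ).mul_bdd hkm (Filter.Eventually.of_forall fun y => hC _)
  rw [cv, integral_withDensity_eq_integral_toReal_smul (measurable_gd lam t N μp)
      (Filter.Eventually.of_forall (gd_lt_top lam t N μp)),
    integral_withDensity_eq_integral_toReal_smul (measurable_gd lam t N μm)
      (Filter.Eventually.of_forall (gd_lt_top lam t N μm)), ← integral_sub (hi μp) (hi μm)]
  refine integral_congr_ae (Filter.Eventually.of_forall fun y => ?_)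
  simp only [gf, smul_eq_mul]
  ring

end Claimed.Agent.R322.CZ
end

/- ===== packed: Claimed.Agent.R322.CZ.Bad ===== -/
section
/-!
# R322 / CZ / Bad : the bad part of the Calderon-Zygmund decomposition
(leaves L-CZ-BadKernel = `bad_kernel`, L-CZ-BadEst = `bad_estimate`)

`ν = volume.withDensity (gd lam t N μ)` has the same mass as `μ` on every stopped cube.
`bad_kernel`.  Fix `y`, `c = sctr y`, `n = stop y`; `‖y - c‖ ≤ √m/2^(n+1)` (`norm_sub_ctr_le`).
 * `y ∈ Om`: for `x ∉ OmS`, `‖x - c‖ ≥ √m/2^n ≥ 2 ‖y - c‖`; translate by `c`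
   (`lintegral_sub_right_eq_self` / `measurePreserving_sub_right`), use the Hormander hypothesis
   (`ofReal_integral_eq_lintegral_ofReal`; the integrand is continuous with compact support).
 * `y ∉ Om`: `n = N` (`stop_of_notMem_Om`), the integrand is `≤ L √m / 2^(N+1)` on `ball 0 1`.
`bad_estimate`.  By `map_scell_eq` and `integral_map`, `∫ k (x - sctr y) dμ = ∫ k (x - sctr y) dν`
(`sctr` is a function of `scell`).  Hence the difference is `∫ Δ dμ - ∫ Δ dν`,
`Δ(x,y) = k (x - y) - k (x - sctr y)`; bound by `∫⁻ |Δ| dμ + ∫⁻ |Δ| dν`, Tonelli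
(`lintegral_lintegral_swap`; joint measurability from `measurable_sctr` and continuity of `k`),
`bad_kernel`, and `ν univ = μ univ` (`lintegral_gd`).
-/

set_option autoImplicit false

namespace Claimed.Agent.R322.CZ

open MeasureTheory Set Metric
open scoped ENNReal

variable {m : ℕ}

theorem continuous_of_lip (k : E m → ℝ) (L : ℝ) (hL : 0 ≤ L)
    (hk : ∀ x y, |k x - k y| ≤ L * ‖x - y‖) : Continuous k := by
  have : LipschitzWith L.toNNReal k := LipschitzWith.of_dist_le_mul fun x y => by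
    rw [Real.dist_eq, dist_eq_norm, Real.coe_toNNReal _ hL]
    exact hk x y
  exact this.continuous

theorem norm_sub_sctr_le (lam : Measure (E m)) (t : ℝ≥0∞) (N : ℕ) (y : E m) :
    ‖y - sctr lam t N y‖ ≤ Real.sqrt m / (2 : ℝ) ^ (stop lam t N y + 1) :=
  norm_sub_ctr_le (mem_cube_self _ y)

theorem bad_kernel (k : E m → ℝ) (H L : ℝ) (hH : 0 ≤ H) (hL : 0 ≤ L)
    (hk : ∀ x y, |k x - k y| ≤ L * ‖x - y‖) (hc : HasCompactSupport k)
    (hHor : ∀ y, ∫ x in {x : E m | 2 * ‖y‖ ≤ ‖x‖}, |k (x - y) - k x| ≤ H)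
    (lam : Measure (E m)) (t : ℝ≥0∞) (N : ℕ) (y : E m) :
    ∫⁻ x in ball (0 : E m) 1 \ OmS lam t N,
        ENNReal.ofReal |k (x - y) - k (x - sctr lam t N y)|
      ≤ ENNReal.ofReal
          (H + L * (Real.sqrt m / 2 ^ (N + 1)) * (volume (ball (0 : E m) 1)).toReal) := by
  have hkc : Continuous k := continuous_of_lip k L hL hk
  have hA : MeasurableSet (ball (0 : E m) 1 \ OmS lam t N) :=
    measurableSet_ball.diff (isOpen_OmS lam t N).measurableSet
  set c := sctr lam t N y with hcdef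
  have hyc := norm_sub_sctr_le lam t N y
  have hE : 0 ≤ L * (Real.sqrt m / 2 ^ (N + 1)) * (volume (ball (0 : E m) 1)).toReal := by
    positivity
  by_cases hy : y ∈ Om lam t N
  · -- selected cube: Hormander
    set w := y - c with hw
    set S' : Set (E m) := {x | 2 * ‖w‖ ≤ ‖x‖} with hS'
    have hS'm : MeasurableSet S' :=
      (isClosed_le continuous_const continuous_norm).measurableSet
    set F : E m → ℝ≥0∞ := S'.indicator fun x => ENNReal.ofReal |k (x - w) - k x| with hF
    have hpt : ∀ x ∈ ball (0 : E m) 1 \ OmS lam t N,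
        ENNReal.ofReal |k (x - y) - k (x - c)| ≤ F (x - c) := by
      intro x hx
      have hx2 : ¬ ‖x - c‖ < Real.sqrt m / (2 : ℝ) ^ (stop lam t N y) := fun h =>
        hx.2 ⟨y, hy, h⟩
      have hmem : x - c ∈ S' := by
        show 2 * ‖w‖ ≤ ‖x - c‖
        have e : 2 * (Real.sqrt m / (2 : ℝ) ^ (stop lam t N y + 1)) =
            Real.sqrt m / (2 : ℝ) ^ (stop lam t N y) := by
          rw [pow_succ]; field_simp
        linarith [not_lt.1 hx2]
      rw [hF, indicator_of_mem hmem]
      have e : x - c - w = x - y := by rw [hw]; abel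
      rw [e]
    have hint : Integrable (fun x => |k (x - w) - k x|) (volume.restrict S') := by
      have h1 : Continuous fun x => |k (x - w) - k x| :=
        ((hkc.comp (continuous_id.sub continuous_const)).sub hkc).abs
      have h2 : HasCompactSupport fun x => |k (x - w) - k x| := by
        have h3 : HasCompactSupport fun x => k (x - w) :=
          hc.comp_homeomorph (Homeomorph.subRight w)
        exact (h3.sub hc).comp_left (g := fun a : ℝ => |a|) abs_zero
      exact (h1.integrable_of_hasCompactSupport h2).restrict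
    calc ∫⁻ x in ball (0 : E m) 1 \ OmS lam t N, ENNReal.ofReal |k (x - y) - k (x - c)|
        ≤ ∫⁻ x in ball (0 : E m) 1 \ OmS lam t N, F (x - c) := setLIntegral_mono' hA hpt
      _ ≤ ∫⁻ x, F (x - c) := setLIntegral_le_lintegral _ _
      _ = ∫⁻ x, F x := lintegral_sub_right_eq_self F c
      _ = ∫⁻ x in S', ENNReal.ofReal |k (x - w) - k x| := lintegral_indicator hS'm _
      _ = ENNReal.ofReal (∫ x in S', |k (x - w) - k x|) :=
          (ofReal_integral_eq_lintegral_ofReal hint
            (Filter.Eventually.of_forall fun x => abs_nonneg _)).symm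
      _ ≤ ENNReal.ofReal (H + L * (Real.sqrt m / 2 ^ (N + 1)) *
            (volume (ball (0 : E m) 1)).toReal) :=
          ENNReal.ofReal_le_ofReal ((hHor w).trans (by linarith))
  · -- unselected finest cube: Lipschitz
    have hN : stop lam t N y = N := (stop_of_notMem_Om lam t N hy).1
    rw [hN] at hyc
    have hpt : ∀ x ∈ ball (0 : E m) 1 \ OmS lam t N,
        ENNReal.ofReal |k (x - y) - k (x - c)| ≤
          ENNReal.ofReal (L * (Real.sqrt m / 2 ^ (N + 1))) := by
      intro x _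
      refine ENNReal.ofReal_le_ofReal ((hk _ _).trans ?_)
      have e : x - y - (x - c) = -(y - c) := by abel
      rw [e, norm_neg]
      gcongr
    have hfin : volume (ball (0 : E m) 1) ≠ ∞ := measure_ball_lt_top.ne
    calc ∫⁻ x in ball (0 : E m) 1 \ OmS lam t N, ENNReal.ofReal |k (x - y) - k (x - c)|
        ≤ ∫⁻ _x in ball (0 : E m) 1 \ OmS lam t N,
            ENNReal.ofReal (L * (Real.sqrt m / 2 ^ (N + 1))) := setLIntegral_mono' hA hpt
      _ = ENNReal.ofReal (L * (Real.sqrt m / 2 ^ (N + 1))) *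
            volume (ball (0 : E m) 1 \ OmS lam t N) := setLIntegral_const _ _
      _ ≤ ENNReal.ofReal (L * (Real.sqrt m / 2 ^ (N + 1))) * volume (ball (0 : E m) 1) := by
          gcongr; exact sdiff_subset
      _ = ENNReal.ofReal (L * (Real.sqrt m / 2 ^ (N + 1)) *
            (volume (ball (0 : E m) 1)).toReal) := by
          rw [ENNReal.ofReal_mul (p := L * (Real.sqrt m / 2 ^ (N + 1))) (by positivity),
            ENNReal.ofReal_toReal hfin]
      _ ≤ ENNReal.ofReal (H + L * (Real.sqrt m / 2 ^ (N + 1)) *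
            (volume (ball (0 : E m) 1)).toReal) := ENNReal.ofReal_le_ofReal (by linarith)

/-- functions of the label have the same integral against `μ` and against the averaged measure. -/
theorem integral_label_eq (lam : Measure (E m)) (t : ℝ≥0∞) (N : ℕ) (μ : Measure (E m))
    (g : ℕ × (Fin m → ℤ) → ℝ) :
    ∫ y, g (scell lam t N y) ∂μ
      = ∫ y, g (scell lam t N y) ∂(volume.withDensity (gd lam t N μ)) := by
  have hg : ∀ ρ : Measure (ℕ × (Fin m → ℤ)), AEStronglyMeasurable g ρ := fun ρ =>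
    (measurable_of_countable g).aestronglyMeasurable
  rw [← integral_map (measurable_scell lam t N).aemeasurable (hg _),
    ← integral_map (measurable_scell lam t N).aemeasurable (hg _), map_scell_eq]

theorem bad_estimate (k : E m → ℝ) (H L : ℝ) (hH : 0 ≤ H) (hL : 0 ≤ L)
    (hk : ∀ x y, |k x - k y| ≤ L * ‖x - y‖) (hc : HasCompactSupport k)
    (hHor : ∀ y, ∫ x in {x : E m | 2 * ‖y‖ ≤ ‖x‖}, |k (x - y) - k x| ≤ H)
    (lam : Measure (E m)) (t : ℝ≥0∞) (N : ℕ) (μ : Measure (E m)) [IsFiniteMeasure μ] :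
    ∫⁻ x in ball (0 : E m) 1 \ OmS lam t N,
        ENNReal.ofReal |(∫ y, k (x - y) ∂μ)
          - ∫ y, k (x - y) ∂(volume.withDensity (gd lam t N μ))|
      ≤ ENNReal.ofReal
          (2 * (H + L * (Real.sqrt m / 2 ^ (N + 1)) * (volume (ball (0 : E m) 1)).toReal))
        * μ univ := by
  have hkc : Continuous k := continuous_of_lip k L hL hk
  obtain ⟨C, hC⟩ := hc.exists_bound_of_continuous hkc
  set ν := volume.withDensity (gd lam t N μ) with hν
  have : IsFiniteMeasure ν := isFiniteMeasure_gd lam t N μ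
  have hνu : ν univ = μ univ := by
    rw [hν, withDensity_apply _ MeasurableSet.univ, Measure.restrict_univ, lintegral_gd]
  set A := ball (0 : E m) 1 \ OmS lam t N with hA
  set K0 := H + L * (Real.sqrt m / 2 ^ (N + 1)) * (volume (ball (0 : E m) 1)).toReal with hK0
  have hK0n : 0 ≤ K0 := by positivity
  set G : E m → E m → ℝ≥0∞ := fun x y => ENNReal.ofReal |k (x - y) - k (x - sctr lam t N y)|
    with hG
  have hGm : Measurable (Function.uncurry G) := by
    have h1 : Measurable fun p : E m × E m => k (p.1 - p.2) :=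
      hkc.measurable.comp (measurable_fst.sub measurable_snd)
    have h2 : Measurable fun p : E m × E m => k (p.1 - sctr lam t N p.2) :=
      hkc.measurable.comp (measurable_fst.sub ((measurable_sctr lam t N).comp measurable_snd))
    exact ENNReal.measurable_ofReal.comp (continuous_abs.measurable.comp (h1.sub h2))
  -- integrability
  have hi1 : ∀ (ρ : Measure (E m)) [IsFiniteMeasure ρ] (x : E m),
      Integrable (fun y => k (x - y)) ρ := fun ρ _ x => integrable_conv_meas k hkc hc ρ x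
  have hi2 : ∀ (ρ : Measure (E m)) [IsFiniteMeasure ρ] (x : E m),
      Integrable (fun y => k (x - sctr lam t N y)) ρ := fun ρ _ x =>
    Integrable.of_bound (hkc.measurable.comp
      (measurable_const.sub (measurable_sctr lam t N))).aestronglyMeasurable C
      (Filter.Eventually.of_forall fun y => hC _)
  -- pointwise bound
  have hpt : ∀ x, ENNReal.ofReal |(∫ y, k (x - y) ∂μ) - ∫ y, k (x - y) ∂ν| ≤
      (∫⁻ y, G x y ∂μ) + ∫⁻ y, G x y ∂ν := by
    intro x
    have e0 : ∫ y, k (x - sctr lam t N y) ∂μ = ∫ y, k (x - sctr lam t N y) ∂ν :=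
      integral_label_eq lam t N μ fun c => k (x - ctr c.1 c.2)
    have e1 : (∫ y, k (x - y) ∂μ) - ∫ y, k (x - y) ∂ν =
        (∫ y, (k (x - y) - k (x - sctr lam t N y)) ∂μ) -
          ∫ y, (k (x - y) - k (x - sctr lam t N y)) ∂ν := by
      rw [integral_sub (hi1 μ x) (hi2 μ x), integral_sub (hi1 ν x) (hi2 ν x), e0]
      ring
    have e2 : ∀ ρ : Measure (E m),
        ENNReal.ofReal |∫ y, (k (x - y) - k (x - sctr lam t N y)) ∂ρ| ≤ ∫⁻ y, G x y ∂ρ := by
      intro ρ
      rw [← Real.enorm_eq_ofReal_abs]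
      refine (enorm_integral_le_lintegral_enorm _).trans (le_of_eq ?_)
      refine lintegral_congr fun y => ?_
      rw [Real.enorm_eq_ofReal_abs]
    rw [e1]
    calc ENNReal.ofReal |(∫ y, (k (x - y) - k (x - sctr lam t N y)) ∂μ) -
          ∫ y, (k (x - y) - k (x - sctr lam t N y)) ∂ν|
        ≤ ENNReal.ofReal (|∫ y, (k (x - y) - k (x - sctr lam t N y)) ∂μ| +
          |∫ y, (k (x - y) - k (x - sctr lam t N y)) ∂ν|) :=
          ENNReal.ofReal_le_ofReal (abs_sub _ _)
      _ = ENNReal.ofReal |∫ y, (k (x - y) - k (x - sctr lam t N y)) ∂μ| +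
          ENNReal.ofReal |∫ y, (k (x - y) - k (x - sctr lam t N y)) ∂ν| :=
          ENNReal.ofReal_add (abs_nonneg _) (abs_nonneg _)
      _ ≤ (∫⁻ y, G x y ∂μ) + ∫⁻ y, G x y ∂ν := add_le_add (e2 μ) (e2 ν)
  -- Tonelli
  have hT : ∀ (ρ : Measure (E m)) [IsFiniteMeasure ρ],
      ∫⁻ x in A, ∫⁻ y, G x y ∂ρ ≤ ENNReal.ofReal K0 * ρ univ := by
    intro ρ _
    rw [lintegral_lintegral_swap hGm.aemeasurable]
    calc ∫⁻ y, (∫⁻ x in A, G x y) ∂ρ ≤ ∫⁻ _y, ENNReal.ofReal K0 ∂ρ :=
          lintegral_mono fun y => bad_kernel k H L hH hL hk hc hHor lam t N y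
      _ = ENNReal.ofReal K0 * ρ univ := lintegral_const _
  calc ∫⁻ x in A, ENNReal.ofReal |(∫ y, k (x - y) ∂μ) - ∫ y, k (x - y) ∂ν|
      ≤ ∫⁻ x in A, ((∫⁻ y, G x y ∂μ) + ∫⁻ y, G x y ∂ν) := lintegral_mono fun x => hpt x
    _ = (∫⁻ x in A, ∫⁻ y, G x y ∂μ) + ∫⁻ x in A, ∫⁻ y, G x y ∂ν :=
        lintegral_add_left hGm.lintegral_prod_right' _
    _ ≤ ENNReal.ofReal K0 * μ univ + ENNReal.ofReal K0 * ν univ := add_le_add (hT μ) (hT ν)
    _ = ENNReal.ofReal (2 * K0) * μ univ := by
        rw [hνu, ENNReal.ofReal_mul (by norm_num), ENNReal.ofReal_ofNat]; ring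

end Claimed.Agent.R322.CZ
end

/- ===== packed: Claimed.Agent.R322.CZ.Weak ===== -/
section
/-!
# R322 / CZ / Weak : the weak type (1,1) estimate for finite measures   (glue; helper117)

`k` Lipschitz, supported in the unit ball, bounded on `L²` with constant `A` (squared norm), Hormander
constant `H`.  Then `|{x ∈ B_1 : |k * μ| > t}| ≤ C_m (A + H + 1) |μ| / t`; the Lipschitz constant does not
enter the bound (it only fixes the finest generation `N`).
-/

set_option autoImplicit false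

namespace Claimed.Agent.R322.CZ

open MeasureTheory Set Metric
open scoped ENNReal

variable {m : ℕ}

theorem weak_ms_eq (μp μm : Measure (E m)) [IsFiniteMeasure μp] [IsFiniteMeasure μm] :
    (μp + μm) univ = ENNReal.ofReal (ms μp μm) := by
  unfold ms
  rw [ENNReal.ofReal_add ENNReal.toReal_nonneg ENNReal.toReal_nonneg,
    ENNReal.ofReal_toReal (measure_ne_top _ _), ENNReal.ofReal_toReal (measure_ne_top _ _)]
  rfl

/-- Chebyshev on the complement of the enlarged cubes. -/
theorem weak_cheb_bad (D : E m → ℝ) (hD : Continuous D) (s : Set (E m)) (hs : MeasurableSet s)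
    (b t : ℝ) (ht : 0 < t) (h : ∫⁻ x in s, ENNReal.ofReal |D x| ≤ ENNReal.ofReal b) :
    volume {x | x ∈ s ∧ t ≤ |D x|} ≤ ENNReal.ofReal (b / t) := by
  have hme : AEMeasurable (fun x => ENNReal.ofReal |D x|) (volume.restrict s) :=
    (ENNReal.measurable_ofReal.comp hD.abs.measurable).aemeasurable
  have h1 := meas_ge_le_lintegral_div hme (ε := ENNReal.ofReal t)
    (ENNReal.ofReal_pos.mpr ht).ne' ENNReal.ofReal_ne_top
  rw [Measure.restrict_apply' hs] at h1
  calc volume {x | x ∈ s ∧ t ≤ |D x|}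
      ≤ volume ({x | ENNReal.ofReal t ≤ ENNReal.ofReal |D x|} ∩ s) := by
        apply measure_mono
        rintro x ⟨hx, hx2⟩
        exact ⟨ENNReal.ofReal_le_ofReal hx2, hx⟩
    _ ≤ (∫⁻ x in s, ENNReal.ofReal |D x|) / ENNReal.ofReal t := h1
    _ ≤ ENNReal.ofReal b / ENNReal.ofReal t := ENNReal.div_le_div_right h _
    _ = ENNReal.ofReal (b / t) := (ENNReal.ofReal_div_of_pos ht).symm

/-- Chebyshev for the square. -/
theorem weak_cheb_sq (G : E m → ℝ) (hG : Continuous G) (hGc : HasCompactSupport G)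
    (b t : ℝ) (ht : 0 < t) (h : ∫ x, (G x) ^ 2 ≤ b) :
    volume {x | t ≤ |G x|} ≤ ENNReal.ofReal (b / t ^ 2) := by
  have hint : Integrable (fun x => (G x) ^ 2) := by
    have h2 : (fun x => (G x) ^ 2) = fun x => G x * G x := by funext x; ring
    rw [h2]
    exact (hG.mul hG).integrable_of_hasCompactSupport hGc.mul_right
  have hme : AEMeasurable (fun x => ENNReal.ofReal ((G x) ^ 2)) (volume : Measure (E m)) :=
    (ENNReal.measurable_ofReal.comp (hG.pow 2).measurable).aemeasurable
  have ht2 : 0 < t ^ 2 := by positivity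
  have h1 := meas_ge_le_lintegral_div hme (ε := ENNReal.ofReal (t ^ 2))
    (ENNReal.ofReal_pos.mpr ht2).ne' ENNReal.ofReal_ne_top
  rw [← ofReal_integral_eq_lintegral_ofReal hint (Filter.Eventually.of_forall (fun x => sq_nonneg _))]
    at h1
  calc volume {x | t ≤ |G x|}
      ≤ volume {x | ENNReal.ofReal (t ^ 2) ≤ ENNReal.ofReal ((G x) ^ 2)} := by
        apply measure_mono
        intro x hx
        apply ENNReal.ofReal_le_ofReal
        rw [← sq_abs (G x)]
        exact pow_le_pow_left₀ ht.le hx 2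
    _ ≤ ENNReal.ofReal (∫ x, (G x) ^ 2) / ENNReal.ofReal (t ^ 2) := h1
    _ ≤ ENNReal.ofReal b / ENNReal.ofReal (t ^ 2) :=
        ENNReal.div_le_div_right (ENNReal.ofReal_le_ofReal h) _
    _ = ENNReal.ofReal (b / t ^ 2) := (ENNReal.ofReal_div_of_pos ht2).symm


/-- main case: measures carried by `ball 0 2`, `t` above the total mass. -/
theorem weak11_aux (k : E m → ℝ) (A H L : ℝ) (hA : 0 ≤ A) (hH : 0 ≤ H) (hL : 0 ≤ L)
    (hk : ∀ x y, |k x - k y| ≤ L * ‖x - y‖) (hs : ∀ x, 1 ≤ ‖x‖ → k x = 0)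
    (hl2 : ∀ g : E m → ℝ, Measurable g → (∃ M, ∀ x, |g x| ≤ M) → HasCompactSupport g →
      ∫ x, (∫ y, k (x - y) * g y) ^ 2 ≤ A * ∫ x, (g x) ^ 2)
    (hHor : ∀ y, ∫ x in {x : E m | 2 * ‖y‖ ≤ ‖x‖}, |k (x - y) - k x| ≤ H)
    (μp μm : Measure (E m)) [IsFiniteMeasure μp] [IsFiniteMeasure μm]
    (hsupp : (μp + μm) (ball (0 : E m) 2)ᶜ = 0) (t : ℝ) (ht : 0 < t)
    (h0 : (μp + μm) univ ≤ ENNReal.ofReal t) :
    volume {x | x ∈ ball (0 : E m) 1 ∧ t < |cv k μp μm x|}
      ≤ ENNReal.ofReal ((Real.sqrt m ^ m * (volume (ball (0 : E m) 1)).toReal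
          + 4 * 2 ^ m * A + 8 * (H + 1)) * ms μp μm / t) := by
  set om : ℝ := (volume (ball (0 : E m) 1)).toReal with hom
  have hom0 : 0 ≤ om := ENNReal.toReal_nonneg
  have hms0 : 0 ≤ ms μp μm := add_nonneg ENNReal.toReal_nonneg ENNReal.toReal_nonneg
  -- the finest generation
  obtain ⟨N, hN⟩ : ∃ N : ℕ, L * (Real.sqrt m / 2 ^ (N + 1)) * om ≤ 1 := by
    obtain ⟨N, hN⟩ := pow_unbounded_of_one_lt (L * Real.sqrt m * om) (by norm_num : (1 : ℝ) < 2)
    refine ⟨N, ?_⟩
    have h2 : (0 : ℝ) < 2 ^ (N + 1) := by positivity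
    have h3 : (2 : ℝ) ^ N ≤ 2 ^ (N + 1) := pow_le_pow_right₀ (by norm_num) (Nat.le_succ N)
    have : L * (Real.sqrt m / 2 ^ (N + 1)) * om = L * Real.sqrt m * om / 2 ^ (N + 1) := by ring
    rw [this, div_le_one h2]
    linarith
  have hkc : Continuous k := by
    have : LipschitzWith (Real.toNNReal L) k := by
      apply LipschitzWith.of_dist_le_mul
      intro x y
      rw [Real.dist_eq, dist_eq_norm, Real.coe_toNNReal L hL]
      exact hk x y
    exact this.continuous
  have hc : HasCompactSupport k := by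
    refine HasCompactSupport.intro (isCompact_closedBall (0 : E m) 1) ?_
    intro x hx
    simp only [mem_closedBall, dist_zero_right, not_le] at hx
    exact hs x hx.le
  set lam : Measure (E m) := μp + μm with hlam
  set T : ℝ≥0∞ := ENNReal.ofReal t with hT
  have := isFiniteMeasure_gd lam T N μp
  have := isFiniteMeasure_gd lam T N μm
  set g : E m → ℝ := gf lam T N μp μm with hg
  set G : E m → ℝ := fun x => ∫ y, k (x - y) * g y with hGdef
  set Dp : E m → ℝ := fun x => (∫ y, k (x - y) ∂μp)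
    - ∫ y, k (x - y) ∂(volume.withDensity (gd lam T N μp)) with hDp
  set Dm : E m → ℝ := fun x => (∫ y, k (x - y) ∂μm)
    - ∫ y, k (x - y) ∂(volume.withDensity (gd lam T N μm)) with hDm
  have hdec : ∀ x, cv k μp μm x = Dp x - Dm x + G x := by
    intro x
    simp only [hGdef, hg, conv_gf k hkc hc lam T N μp μm x, hDp, hDm]
    unfold cv
    ring
  have hgm : Measurable g := measurable_gf lam T N μp μm
  have hgb : ∃ M, ∀ x, |g x| ≤ M := ⟨2 ^ m * t, abs_gf_le μp μm t ht.le h0 N⟩
  have hgc : HasCompactSupport g := hasCompactSupport_gf μp μm T N hsupp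
  have hGc : Continuous G := continuous_conv_fun k hkc hc g hgm hgb hgc
  have hGs : HasCompactSupport G := hasCompactSupport_conv_fun k hc g hgc
  have hDpc : Continuous Dp :=
    (continuous_conv_meas k hkc hc μp).sub (continuous_conv_meas k hkc hc _)
  have hDmc : Continuous Dm :=
    (continuous_conv_meas k hkc hc μm).sub (continuous_conv_meas k hkc hc _)
  set s : Set (E m) := ball (0 : E m) 1 \ OmS lam T N with hsdef
  have hsm : MeasurableSet s := measurableSet_ball.diff (isOpen_OmS lam T N).measurableSet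
  -- inclusion
  have hsub : {x | x ∈ ball (0 : E m) 1 ∧ t < |cv k μp μm x|}
      ⊆ OmS lam T N ∪ {x | t / 2 ≤ |G x|} ∪ {x | x ∈ s ∧ t / 4 ≤ |Dp x|}
        ∪ {x | x ∈ s ∧ t / 4 ≤ |Dm x|} := by
    rintro x ⟨hx, hlt⟩
    by_contra hcon
    simp only [mem_union, Set.mem_ofPred_eq, not_or, not_and, not_le] at hcon
    obtain ⟨⟨⟨h1, h2⟩, h3⟩, h4⟩ := hcon
    have hxs : x ∈ s := ⟨hx, h1⟩
    have h3' := h3 hxs
    have h4' := h4 hxs
    rw [hdec x] at hlt
    have : |Dp x - Dm x + G x| ≤ |Dp x| + |Dm x| + |G x| :=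
      (abs_add_le _ _).trans (add_le_add_left (abs_sub _ _) _)
    linarith
  -- the four measures
  have hδ : 2 * (H + L * (Real.sqrt m / 2 ^ (N + 1)) * om) ≤ 2 * (H + 1) := by linarith
  have hm1 : volume (OmS lam T N) ≤ ENNReal.ofReal (Real.sqrt m ^ m * om * ms μp μm / t) := by
    have h1 := volume_OmS_le lam T N
    have h2 := volume_Om_le lam T N
    have h3 : volume (Om lam T N) ≤ ENNReal.ofReal (ms μp μm / t) := by
      rw [ENNReal.ofReal_div_of_pos ht, ← weak_ms_eq μp μm]
      rw [ENNReal.le_div_iff_mul_le (Or.inl (ENNReal.ofReal_pos.mpr ht).ne')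
        (Or.inl ENNReal.ofReal_ne_top), mul_comm]
      exact h2
    calc volume (OmS lam T N)
        ≤ ENNReal.ofReal (Real.sqrt m ^ m) * volume (ball (0 : E m) 1) * volume (Om lam T N) := h1
      _ ≤ ENNReal.ofReal (Real.sqrt m ^ m) * ENNReal.ofReal om * ENNReal.ofReal (ms μp μm / t) := by
          rw [hom, ENNReal.ofReal_toReal measure_ball_lt_top.ne]
          exact mul_le_mul_right h3 _
      _ = ENNReal.ofReal (Real.sqrt m ^ m * om * ms μp μm / t) := by
          rw [← ENNReal.ofReal_mul (by positivity), ← ENNReal.ofReal_mul (by positivity)]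
          congr 1
          ring
  have hm2 : volume {x | t / 2 ≤ |G x|} ≤ ENNReal.ofReal (4 * 2 ^ m * A * ms μp μm / t) := by
    have h1 : ∫ x, (G x) ^ 2 ≤ A * (2 ^ m * t * ms μp μm) :=
      (hl2 g hgm hgb hgc).trans
        (mul_le_mul_of_nonneg_left (integral_gf_sq_le μp μm t ht.le h0 N) hA)
    have h2 := weak_cheb_sq G hGc hGs _ (t / 2) (by positivity) h1
    refine h2.trans (le_of_eq ?_)
    congr 1
    field_simp
    ring
  have hm3 : volume {x | x ∈ s ∧ t / 4 ≤ |Dp x|}
      ≤ ENNReal.ofReal (8 * (H + 1) * (μp univ).toReal / t) := by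
    have h1 := bad_estimate k H L hH hL hk hc hHor lam T N μp
    have h2 : ∫⁻ x in s, ENNReal.ofReal |Dp x|
        ≤ ENNReal.ofReal (2 * (H + 1) * (μp univ).toReal) := by
      refine h1.trans ?_
      have e : ENNReal.ofReal (2 * (H + 1) * (μp univ).toReal)
          = ENNReal.ofReal (2 * (H + 1)) * μp univ := by
        rw [ENNReal.ofReal_mul (by positivity), ENNReal.ofReal_toReal (measure_ne_top _ _)]
      rw [e]
      exact mul_le_mul_left (ENNReal.ofReal_le_ofReal hδ) _
    refine (weak_cheb_bad Dp hDpc s hsm _ (t / 4) (by positivity) h2).trans (le_of_eq ?_)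
    congr 1
    field_simp
    ring
  have hm4 : volume {x | x ∈ s ∧ t / 4 ≤ |Dm x|}
      ≤ ENNReal.ofReal (8 * (H + 1) * (μm univ).toReal / t) := by
    have h1 := bad_estimate k H L hH hL hk hc hHor lam T N μm
    have h2 : ∫⁻ x in s, ENNReal.ofReal |Dm x|
        ≤ ENNReal.ofReal (2 * (H + 1) * (μm univ).toReal) := by
      refine h1.trans ?_
      have e : ENNReal.ofReal (2 * (H + 1) * (μm univ).toReal)
          = ENNReal.ofReal (2 * (H + 1)) * μm univ := by
        rw [ENNReal.ofReal_mul (by positivity), ENNReal.ofReal_toReal (measure_ne_top _ _)]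
      rw [e]
      exact mul_le_mul_left (ENNReal.ofReal_le_ofReal hδ) _
    refine (weak_cheb_bad Dm hDmc s hsm _ (t / 4) (by positivity) h2).trans (le_of_eq ?_)
    congr 1
    field_simp
    ring
  calc volume {x | x ∈ ball (0 : E m) 1 ∧ t < |cv k μp μm x|}
      ≤ volume (OmS lam T N ∪ {x | t / 2 ≤ |G x|} ∪ {x | x ∈ s ∧ t / 4 ≤ |Dp x|}
        ∪ {x | x ∈ s ∧ t / 4 ≤ |Dm x|}) := measure_mono hsub
    _ ≤ volume (OmS lam T N) + volume {x | t / 2 ≤ |G x|} + volume {x | x ∈ s ∧ t / 4 ≤ |Dp x|}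
        + volume {x | x ∈ s ∧ t / 4 ≤ |Dm x|} := by
        refine (measure_union_le _ _).trans (add_le_add_left ?_ _)
        refine (measure_union_le _ _).trans (add_le_add_left ?_ _)
        exact measure_union_le _ _
    _ ≤ ENNReal.ofReal (Real.sqrt m ^ m * om * ms μp μm / t)
        + ENNReal.ofReal (4 * 2 ^ m * A * ms μp μm / t)
        + ENNReal.ofReal (8 * (H + 1) * (μp univ).toReal / t)
        + ENNReal.ofReal (8 * (H + 1) * (μm univ).toReal / t) :=
        add_le_add (add_le_add (add_le_add hm1 hm2) hm3) hm4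
    _ = ENNReal.ofReal ((Real.sqrt m ^ m * om + 4 * 2 ^ m * A + 8 * (H + 1)) * ms μp μm / t) := by
        rw [← ENNReal.ofReal_add (by positivity) (by positivity),
          ← ENNReal.ofReal_add (by positivity) (by positivity),
          ← ENNReal.ofReal_add (by positivity) (by positivity)]
        congr 1
        unfold ms
        ring


/-- **Weak type (1,1).** -/
theorem weak11 (m : ℕ) : ∃ C : ℝ, 0 < C ∧ ∀ (k : E m → ℝ) (A H L : ℝ), 0 ≤ A → 0 ≤ H → 0 ≤ L →
    (∀ x y, |k x - k y| ≤ L * ‖x - y‖) → (∀ x, 1 ≤ ‖x‖ → k x = 0) →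
    (∀ g : E m → ℝ, Measurable g → (∃ M, ∀ x, |g x| ≤ M) → HasCompactSupport g →
      ∫ x, (∫ y, k (x - y) * g y) ^ 2 ≤ A * ∫ x, (g x) ^ 2) →
    (∀ y, ∫ x in {x : E m | 2 * ‖y‖ ≤ ‖x‖}, |k (x - y) - k x| ≤ H) →
    ∀ (μp μm : Measure (E m)) [IsFiniteMeasure μp] [IsFiniteMeasure μm] (t : ℝ), 0 < t →
      volume {x | x ∈ ball (0 : E m) 1 ∧ t < |cv k μp μm x|}
        ≤ ENNReal.ofReal (C * (A + H + 1) * ms μp μm / t) := by
  set om : ℝ := (volume (ball (0 : E m) 1)).toReal with hom
  have hom0 : 0 ≤ om := ENNReal.toReal_nonneg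
  have hq0 : 0 ≤ Real.sqrt m ^ m * om := by positivity
  refine ⟨Real.sqrt m ^ m * om + 4 * 2 ^ m + 8 + om + 1, by positivity, ?_⟩
  intro k A H L hA hH hL hk hs hl2 hHor μp μm _ _ t ht
  have hms0 : 0 ≤ ms μp μm := add_nonneg ENNReal.toReal_nonneg ENNReal.toReal_nonneg
  have h2m : (0 : ℝ) ≤ 4 * 2 ^ m := by positivity
  by_cases h0 : ms μp μm ≤ t
  · have hcv : ∀ x ∈ ball (0 : E m) 1,
        cv k (μp.restrict (ball 0 2)) (μm.restrict (ball 0 2)) x = cv k μp μm x := by
      intro x hx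
      have := cv_restrict k 1 1 hs μp μm x (by simpa using hx)
      rwa [show (1 : ℝ) + 1 = 2 by norm_num] at this
    have hsupp : (μp.restrict (ball 0 2) + μm.restrict (ball 0 2)) (ball (0 : E m) 2)ᶜ = 0 := by
      rw [Measure.add_apply, Measure.restrict_apply measurableSet_ball.compl,
        Measure.restrict_apply measurableSet_ball.compl]
      simp
    have hms : ms (μp.restrict (ball 0 2)) (μm.restrict (ball 0 2)) ≤ ms μp μm := by
      unfold ms
      apply add_le_add
      · exact ENNReal.toReal_mono (measure_ne_top _ _) (Measure.restrict_le_self _)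
      · exact ENNReal.toReal_mono (measure_ne_top _ _) (Measure.restrict_le_self _)
    have h0' : (μp.restrict (ball 0 2) + μm.restrict (ball 0 2)) univ ≤ ENNReal.ofReal t := by
      rw [weak_ms_eq]
      exact ENNReal.ofReal_le_ofReal (hms.trans h0)
    have h1 := weak11_aux k A H L hA hH hL hk hs hl2 hHor (μp.restrict (ball 0 2))
      (μm.restrict (ball 0 2)) hsupp t ht h0'
    refine le_trans (measure_mono ?_) (h1.trans ?_)
    · rintro x ⟨hx, hlt⟩
      exact ⟨hx, by rw [hcv x hx]; exact hlt⟩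
    · apply ENNReal.ofReal_le_ofReal
      apply div_le_div_of_nonneg_right _ ht.le
      have hms0' : 0 ≤ ms (μp.restrict (ball 0 2)) (μm.restrict (ball 0 2)) :=
        add_nonneg ENNReal.toReal_nonneg ENNReal.toReal_nonneg
      have hc1 : Real.sqrt m ^ m * om + 4 * 2 ^ m * A + 8 * (H + 1)
          ≤ (Real.sqrt m ^ m * om + 4 * 2 ^ m + 8 + om + 1) * (A + H + 1) := by
        nlinarith [mul_nonneg hq0 hA, mul_nonneg hq0 hH, mul_nonneg h2m hH, mul_nonneg hom0 hA,
          mul_nonneg hom0 hH]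
      calc (Real.sqrt m ^ m * om + 4 * 2 ^ m * A + 8 * (H + 1))
            * ms (μp.restrict (ball 0 2)) (μm.restrict (ball 0 2))
          ≤ (Real.sqrt m ^ m * om + 4 * 2 ^ m * A + 8 * (H + 1)) * ms μp μm :=
            mul_le_mul_of_nonneg_left hms (by positivity)
        _ ≤ (Real.sqrt m ^ m * om + 4 * 2 ^ m + 8 + om + 1) * (A + H + 1) * ms μp μm :=
            mul_le_mul_of_nonneg_right hc1 hms0
  · have h0' : t < ms μp μm := not_le.mp h0
    calc volume {x | x ∈ ball (0 : E m) 1 ∧ t < |cv k μp μm x|}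
        ≤ volume (ball (0 : E m) 1) := measure_mono (fun x hx => hx.1)
      _ = ENNReal.ofReal om := by rw [hom, ENNReal.ofReal_toReal measure_ball_lt_top.ne]
      _ ≤ ENNReal.ofReal ((Real.sqrt m ^ m * om + 4 * 2 ^ m + 8 + om + 1) * (A + H + 1)
            * ms μp μm / t) := by
          apply ENNReal.ofReal_le_ofReal
          rw [le_div_iff₀ ht]
          have hc1 : om ≤ (Real.sqrt m ^ m * om + 4 * 2 ^ m + 8 + om + 1) * (A + H + 1) := by
            nlinarith [mul_nonneg hq0 hA, mul_nonneg hq0 hH, mul_nonneg h2m hH, mul_nonneg hom0 hA,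
              mul_nonneg hom0 hH, mul_nonneg h2m hA]
          calc om * t ≤ om * ms μp μm := mul_le_mul_of_nonneg_left h0'.le hom0
            _ ≤ _ := mul_le_mul_of_nonneg_right hc1 hms0

end Claimed.Agent.R322.CZ
end

/- ===== packed: Claimed.Agent.R322.CZ.Repr ===== -/
section
/-!
# R322 / CZ / Repr : testing the gradient equation with translated kernels
(leaves L-CZ-Repr = `fin_*`, `mass_real`, `repr`; L-CZ-Remainder = `remainder`)

`repr`.  `φ_j y = W j (x - y)` is smooth, `tsupport φ_j ⊆ closedBall x R ⊆ ball 0 1`,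
`pd i φ_j y = - pd i (W j) (x - y)` (`fderiv_comp_sub_left`-type chain rule).  Insert in `S.eqn j`, change the
signs, sum over `j`; the sum over `j` enters the `v` integrals by `integral_finsetSum` (integrability:
`integrable_conv_meas`, the `pd j (W j)` are continuous with compact support).
`remainder`.  `u = cv η vp vm` is differentiable with `fderiv u x e = Σ_l e_l cv (pd l η) vp vm x`
(`hasFDerivAt_integral_of_dominated_of_fderiv_le`, or `HasCompactSupport.hasFDerivAt_convolution_right` with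
`f = 1` and the measure `vp`).  By `repr` with `W j = if j = l then η else 0`:
`cv (pd l η) v x = Σ_i cv (pd i η) F_il x + cv η g_l x`, of modulus `≤ B (Σ_i ms F_il + ms g_l)` (`abs_cv_le`).
So `‖fderiv u x‖ ≤ B ε` on the convex set `ball 0 θ` (`mass_real`, `|e_l| ≤ ‖e‖`);
`Convex.norm_image_sub_le_of_norm_fderiv_le`, `‖x‖ < θ < 1`.
-/

set_option autoImplicit false

namespace Claimed.Agent.R322.CZ

open MeasureTheory Set Metric
open scoped ENNReal ContDiff

namespace Sol

variable {m : ℕ} (S : Sol m)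

theorem F_le (i j : Fin m) : S.Fp i j univ + S.Fm i j univ ≤ ENNReal.ofReal S.ε := by
  refine le_trans ?_ S.mass
  refine le_trans ?_ le_self_add
  refine le_trans ?_ (Finset.single_le_sum (f := fun i => ∑ j, (S.Fp i j univ + S.Fm i j univ))
    (fun _ _ => zero_le) (Finset.mem_univ i))
  exact Finset.single_le_sum (f := fun j => S.Fp i j univ + S.Fm i j univ)
    (fun _ _ => zero_le) (Finset.mem_univ j)

theorem g_le (j : Fin m) : S.gp j univ + S.gm j univ ≤ ENNReal.ofReal S.ε := by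
  refine le_trans ?_ S.mass
  refine le_trans ?_ le_add_self
  exact Finset.single_le_sum (f := fun j => S.gp j univ + S.gm j univ)
    (fun _ _ => zero_le) (Finset.mem_univ j)

theorem fin_Fp (i j : Fin m) : IsFiniteMeasure (S.Fp i j) :=
  ⟨lt_of_le_of_lt (le_self_add.trans (S.F_le i j)) ENNReal.ofReal_lt_top⟩

theorem fin_Fm (i j : Fin m) : IsFiniteMeasure (S.Fm i j) :=
  ⟨lt_of_le_of_lt (le_add_self.trans (S.F_le i j)) ENNReal.ofReal_lt_top⟩

theorem fin_gp (j : Fin m) : IsFiniteMeasure (S.gp j) :=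
  ⟨lt_of_le_of_lt (le_self_add.trans (S.g_le j)) ENNReal.ofReal_lt_top⟩

theorem fin_gm (j : Fin m) : IsFiniteMeasure (S.gm j) :=
  ⟨lt_of_le_of_lt (le_add_self.trans (S.g_le j)) ENNReal.ofReal_lt_top⟩

theorem mass_real :
    (∑ i, ∑ j, ms (S.Fp i j) (S.Fm i j)) + ∑ j, ms (S.gp j) (S.gm j) ≤ S.ε := by
  have hF : ∀ i j, S.Fp i j univ + S.Fm i j univ ≠ (⊤ : ℝ≥0∞) := fun i j =>
    (lt_of_le_of_lt (S.F_le i j) ENNReal.ofReal_lt_top).ne
  have hg : ∀ j, S.gp j univ + S.gm j univ ≠ (⊤ : ℝ≥0∞) := fun j =>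
    (lt_of_le_of_lt (S.g_le j) ENNReal.ofReal_lt_top).ne
  have h := ENNReal.toReal_le_of_le_ofReal S.ε_nonneg S.mass
  rw [ENNReal.toReal_add (ENNReal.sum_ne_top.2 fun i _ => ENNReal.sum_ne_top.2 fun j _ => hF i j)
    (ENNReal.sum_ne_top.2 fun j _ => hg j),
    ENNReal.toReal_sum fun i _ => ENNReal.sum_ne_top.2 fun j _ => hF i j,
    ENNReal.toReal_sum fun j _ => hg j] at h
  refine le_trans (le_of_eq ?_) h
  congr 1
  · refine Finset.sum_congr rfl fun i _ => ?_
    rw [ENNReal.toReal_sum fun j _ => hF i j]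
    refine Finset.sum_congr rfl fun j _ => ?_
    rw [ms, ENNReal.toReal_add (ne_top_of_le_ne_top (hF i j) le_self_add)
      (ne_top_of_le_ne_top (hF i j) le_add_self)]
  · refine Finset.sum_congr rfl fun j _ => ?_
    rw [ms, ENNReal.toReal_add (ne_top_of_le_ne_top (hg j) le_self_add)
      (ne_top_of_le_ne_top (hg j) le_add_self)]

end Sol

variable {m : ℕ}

/-- chain rule for the reflected translate. -/
theorem pd_refl (i : Fin m) {w : E m → ℝ} (hw : Differentiable ℝ w) (x y : E m) :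
    pd i (fun y => w (x - y)) y = -pd i w (x - y) := by
  have h := (hw (x - y)).hasFDerivAt.comp y ((hasFDerivAt_const x y).sub (hasFDerivAt_id y))
  have h' : fderiv ℝ (fun y => w (x - y)) y = _ := h.fderiv
  rw [pd, h']
  simp [pd]

theorem hasCompactSupport_of_zero {w : E m → ℝ} {R : ℝ} (hws : ∀ z, R ≤ ‖z‖ → w z = 0) :
    HasCompactSupport w :=
  HasCompactSupport.intro (isCompact_closedBall (0 : E m) R) fun z hz =>
    hws z (le_of_lt (by simpa using hz))

namespace Sol

variable (S : Sol m)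

/-- the equation `j` tested with `y ↦ w (x - y)`. -/
theorem repr1 {θ R : ℝ} (hθR : θ + R < 1) (j : Fin m) (w : E m → ℝ)
    (hw : ContDiff ℝ ∞ w) (hws : ∀ z, R ≤ ‖z‖ → w z = 0)
    (x : E m) (hx : x ∈ ball (0 : E m) θ) :
    cv (pd j w) S.vp S.vm x
      = (∑ i, cv (pd i w) (S.Fp i j) (S.Fm i j) x) + cv w (S.gp j) (S.gm j) x := by
  have hd : Differentiable ℝ w := hw.differentiable (by simp)
  have hsub : Function.support (fun y => w (x - y)) ⊆ closedBall x R := by
    intro y hy
    by_contra hn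
    apply hy
    apply hws
    rw [mem_closedBall, not_le, dist_eq_norm, norm_sub_rev] at hn
    exact hn.le
  have hts : tsupport (fun y => w (x - y)) ⊆ closedBall x R :=
    closure_minimal hsub isClosed_closedBall
  have h1 : HasCompactSupport fun y => w (x - y) :=
    (isCompact_closedBall x R).of_isClosed_subset (isClosed_tsupport _) hts
  have h2 : tsupport (fun y => w (x - y)) ⊆ ball (0 : E m) 1 := by
    intro y hy
    have hy' := hts hy
    rw [mem_closedBall, dist_eq_norm] at hy'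
    rw [mem_ball_zero_iff] at hx ⊢
    calc ‖y‖ = ‖(y - x) + x‖ := by congr 1; abel
      _ ≤ ‖y - x‖ + ‖x‖ := norm_add_le _ _
      _ < 1 := by linarith
  have h := S.eqn j (fun y => w (x - y)) (hw.comp (contDiff_const.sub contDiff_id)) h1 h2
  simp only [pd_refl _ hd, integral_neg] at h
  simp only [cv]
  have e : ∑ i, (-∫ y, pd i w (x - y) ∂S.Fp i j - -∫ y, pd i w (x - y) ∂S.Fm i j) =
      -∑ i, ((∫ y, pd i w (x - y) ∂S.Fp i j) - ∫ y, pd i w (x - y) ∂S.Fm i j) := by
    rw [← Finset.sum_neg_distrib]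
    exact Finset.sum_congr rfl fun i _ => by ring
  rw [e] at h
  linarith

theorem continuous_pd' {w : E m → ℝ} (hw : ContDiff ℝ ∞ w) (i : Fin m) : Continuous (pd i w) :=
  (hw.continuous_fderiv (by simp)).clm_apply continuous_const

/-- **Representation identity.** -/
theorem repr {θ R : ℝ} (hθ : 0 < θ) (hR : 0 < R) (hθR : θ + R < 1) (W : Fin m → E m → ℝ)
    (hW : ∀ j, ContDiff ℝ ∞ (W j)) (hWs : ∀ j z, R ≤ ‖z‖ → W j z = 0)
    (x : E m) (hx : x ∈ ball (0 : E m) θ) :
    cv (fun z => ∑ j, pd j (W j) z) S.vp S.vm x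
      = (∑ j, ∑ i, cv (pd i (W j)) (S.Fp i j) (S.Fm i j) x)
        + ∑ j, cv (W j) (S.gp j) (S.gm j) x := by
  have := S.fin_vp
  have := S.fin_vm
  have hi : ∀ (μ : Measure (E m)) [IsFiniteMeasure μ] (j : Fin m),
      Integrable (fun y => pd j (W j) (x - y)) μ := fun μ _ j =>
    integrable_conv_meas _ (continuous_pd' (hW j) j)
      ((hasCompactSupport_of_zero (hWs j)).fderiv_apply (𝕜 := ℝ) _) μ x
  rw [← Finset.sum_add_distrib]
  simp only [← S.repr1 hθR _ _ (hW _) (hWs _) x hx]
  simp only [cv]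
  rw [integral_finsetSum _ fun j _ => hi S.vp j, integral_finsetSum _ fun j _ => hi S.vm j,
    Finset.sum_sub_distrib]

end Sol

/-- differentiation of a convolution with a finite measure. -/
theorem hasFDerivAt_conv_meas (η : E m → ℝ) (hη : ContDiff ℝ ∞ η) (hc : HasCompactSupport η)
    (μ : Measure (E m)) [IsFiniteMeasure μ] (x : E m) :
    HasFDerivAt (fun x => ∫ y, η (x - y) ∂μ) (∫ y, fderiv ℝ η (x - y) ∂μ) x := by
  have hcf : Continuous (fderiv ℝ η) := hη.continuous_fderiv (by simp)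
  obtain ⟨C, hC⟩ := (hc.fderiv (𝕜 := ℝ)).exists_bound_of_continuous hcf
  have hd : Differentiable ℝ η := hη.differentiable (by simp)
  refine hasFDerivAt_integral_of_dominated_of_fderiv_le (s := univ) (bound := fun _ => C)
    (F := fun x y => η (x - y)) (F' := fun x y => fderiv ℝ η (x - y))
    Filter.univ_mem (Filter.Eventually.of_forall fun x' => ?_)
    (integrable_conv_meas η hη.continuous hc μ x) ?_
    (Filter.Eventually.of_forall fun y x' _ => hC _) (integrable_const C)
    (Filter.Eventually.of_forall fun y x' _ => ?_)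
  · exact (hη.continuous.comp (continuous_const.sub continuous_id)).aestronglyMeasurable
  · exact (hcf.comp (continuous_const.sub continuous_id)).aestronglyMeasurable
  · exact (hasFDerivAt_comp_sub y).2 (hd (x' - y)).hasFDerivAt

theorem fderiv_eq_sum_pd (η : E m → ℝ) (z e : E m) :
    fderiv ℝ η z e = ∑ l, e l * pd l η z := by
  have he : e = ∑ l, e l • (EuclideanSpace.single l (1 : ℝ) : E m) := by
    ext i
    simp [Finset.sum_apply, Pi.single_apply]
  conv_lhs => rw [he]
  simp [pd, map_sum]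

theorem fderiv_conv_meas_apply (η : E m → ℝ) (hη : ContDiff ℝ ∞ η) (hc : HasCompactSupport η)
    (μ : Measure (E m)) [IsFiniteMeasure μ] (x e : E m) :
    (∫ y, fderiv ℝ η (x - y) ∂μ) e = ∑ l, e l * ∫ y, pd l η (x - y) ∂μ := by
  have hcf : Continuous (fderiv ℝ η) := hη.continuous_fderiv (by simp)
  obtain ⟨C, hC⟩ := (hc.fderiv (𝕜 := ℝ)).exists_bound_of_continuous hcf
  have hi : Integrable (fun y => fderiv ℝ η (x - y)) μ :=
    Integrable.of_bound (hcf.comp (continuous_const.sub continuous_id)).aestronglyMeasurable C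
      (Filter.Eventually.of_forall fun y => hC _)
  rw [ContinuousLinearMap.integral_apply hi]
  simp only [fderiv_eq_sum_pd]
  rw [integral_finsetSum _ fun l _ => (integrable_conv_meas _ (Sol.continuous_pd' hη l)
    (hc.fderiv_apply (𝕜 := ℝ) _) μ x).const_mul _]
  simp only [integral_const_mul]

namespace Sol

variable (S : Sol m)

/-- **The smooth remainder is constant up to `B ε`.** -/
theorem remainder {θ R : ℝ} (hθ : 0 < θ) (hR : 0 < R) (hθR : θ + R < 1) (η : E m → ℝ)
    (hη : ContDiff ℝ ∞ η) (hηs : ∀ z, R ≤ ‖z‖ → η z = 0) (B : ℝ) (hB : ∀ z, |η z| ≤ B)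
    (hB' : ∀ i z, |pd i η z| ≤ B) (x : E m) (hx : x ∈ ball (0 : E m) θ) :
    |cv η S.vp S.vm x - cv η S.vp S.vm 0| ≤ B * S.ε := by
  have := S.fin_vp
  have := S.fin_vm
  have hc : HasCompactSupport η := hasCompactSupport_of_zero hηs
  have hB0 : 0 ≤ B := (abs_nonneg _).trans (hB 0)
  have hder : ∀ x, HasFDerivAt (cv η S.vp S.vm)
      ((∫ y, fderiv ℝ η (x - y) ∂S.vp) - ∫ y, fderiv ℝ η (x - y) ∂S.vm) x := fun x =>
    (hasFDerivAt_conv_meas η hη hc S.vp x).sub (hasFDerivAt_conv_meas η hη hc S.vm x)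
  set M : Fin m → ℝ := fun l => (∑ i, ms (S.Fp i l) (S.Fm i l)) + ms (S.gp l) (S.gm l) with hM
  have hMsum : ∑ l, M l ≤ S.ε := by
    rw [hM, Finset.sum_add_distrib, Finset.sum_comm]
    exact S.mass_real
  have hcv : ∀ x ∈ ball (0 : E m) θ, ∀ l, |cv (pd l η) S.vp S.vm x| ≤ B * M l := by
    intro x hx l
    rw [S.repr1 hθR l η hη hηs x hx, hM, mul_add, Finset.mul_sum]
    refine (abs_add_le _ _).trans (add_le_add ((Finset.abs_sum_le_sum_abs _ _).trans
      (Finset.sum_le_sum fun i _ => ?_)) ?_)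
    · have := S.fin_Fp i l
      have := S.fin_Fm i l
      exact abs_cv_le _ B (hB' i) _ _ x
    · have := S.fin_gp l
      have := S.fin_gm l
      exact abs_cv_le _ B hB _ _ x
  have hbound : ∀ x ∈ ball (0 : E m) θ, ‖fderiv ℝ (cv η S.vp S.vm) x‖ ≤ B * S.ε := by
    intro x hx
    rw [(hder x).fderiv]
    refine ContinuousLinearMap.opNorm_le_bound _ (mul_nonneg hB0 S.ε_nonneg) fun e => ?_
    rw [sub_apply, fderiv_conv_meas_apply η hη hc, fderiv_conv_meas_apply η hη hc,
      ← Finset.sum_sub_distrib, Real.norm_eq_abs]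
    calc |∑ l, (e l * ∫ y, pd l η (x - y) ∂S.vp - e l * ∫ y, pd l η (x - y) ∂S.vm)|
        ≤ ∑ l, |e l * ∫ y, pd l η (x - y) ∂S.vp - e l * ∫ y, pd l η (x - y) ∂S.vm| :=
          Finset.abs_sum_le_sum_abs _ _
      _ ≤ ∑ l, ‖e‖ * (B * M l) := by
          refine Finset.sum_le_sum fun l _ => ?_
          rw [← mul_sub, abs_mul]
          exact mul_le_mul (PiLp.norm_apply_le e l) (hcv x hx l) (abs_nonneg _) (norm_nonneg _)
      _ = B * (∑ l, M l) * ‖e‖ := by rw [← Finset.mul_sum, ← Finset.mul_sum]; ring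
      _ ≤ B * S.ε * ‖e‖ := by gcongr
  have h0 : (0 : E m) ∈ ball (0 : E m) θ := mem_ball_self hθ
  have hmv := (convex_ball (0 : E m) θ).norm_image_sub_le_of_norm_fderiv_le
    (fun x _ => (hder x).differentiableAt) hbound h0 hx
  rw [Real.norm_eq_abs, sub_zero] at hmv
  rw [mem_ball_zero_iff] at hx
  calc |cv η S.vp S.vm x - cv η S.vp S.vm 0| ≤ B * S.ε * ‖x‖ := hmv
    _ ≤ B * S.ε * 1 := by
        have : 0 ≤ B * S.ε := mul_nonneg hB0 S.ε_nonneg
        gcongr
        linarith
    _ = B * S.ε := mul_one _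

end Sol

end Claimed.Agent.R322.CZ
end
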