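/- Packed by merge_tool.py (helper293): 8 modules of Claimed.Agent.R322 in one file, same declarations.
   Old modules, in this order: CZ.Scale, CZ.Tele, CZ.Young, CZ.L2Id, CZ.KerB, CZ.Leb, CZ.Dist, CZ.Main -/
import Claimed.Agent.R322.Pack003

/- ===== packed: Claimed.Agent.R322.CZ.Scale ===== -/
section
/-!
# R322 / CZ / Scale : dyadic rescaling and the first properties of `Ker`   (leaf L-CZ-Scale)

`sca w n f z = 2^{n w} f (2^n z)`.
PLAN. `pd_sca`: chain rule (`fderiv_comp_smul` or `HasFDerivAt.comp` with `z ↦ 2^n • z`), `pow_succ`,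
`Nat.mul_succ`.  `integral_sca`: `MeasureTheory.Measure.integral_comp_smul` with `finrank ℝ (E m) = m`.
`Z_zero` = `K.homog`.  `kk_zero`: `K.Z n j` vanishes on the open set `{R < ‖z‖}`, so does its derivative
(`Filter.EventuallyEq.fderiv_eq`).  `Z_div`: `pd_sca` with `m - 1 + 1 = m`.
`Z_tele`: induction on `n`, `sca w (n+1) f = sca w n (sca w 1 f)`; `kk_tele`: differentiate `Z_tele`
(`fderiv_fun_sum`, `pd_sca`).
-/

set_option autoImplicit false

namespace Claimed.Agent.R322.CZ

open MeasureTheory Set Metric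
open scoped ENNReal ContDiff

variable {m : ℕ}

theorem sca_zero (w : ℕ) (f : E m → ℝ) : sca w 0 f = f := by
  funext z; simp [sca]

theorem sca_succ (w n : ℕ) (f : E m → ℝ) (z : E m) :
    sca w (n + 1) f z = sca w n (sca w 1 f) z := by
  simp only [sca, smul_smul, one_mul, pow_one]
  rw [← mul_assoc, ← pow_add, Nat.succ_mul, pow_succ' (2 : ℝ) n]

theorem sca_sub (w n : ℕ) (f g : E m → ℝ) (z : E m) :
    sca w n (fun z => f z - g z) z = sca w n f z - sca w n g z := by
  simp only [sca, mul_sub]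

theorem contDiff_sca {r : ℕ∞ω} (w n : ℕ) {f : E m → ℝ} (hf : ContDiff ℝ r f) :
    ContDiff ℝ r (sca w n f) :=
  contDiff_const.mul (hf.comp (contDiff_id.const_smul _))

theorem pd_sca (w n : ℕ) (i : Fin m) {f : E m → ℝ} (hf : Differentiable ℝ f) (z : E m) :
    pd i (sca w n f) z = sca (w + 1) n (pd i f) z := by
  have h1 : HasFDerivAt (fun z : E m => (2 : ℝ) ^ n • z)
      ((2 : ℝ) ^ n • ContinuousLinearMap.id ℝ (E m)) z :=
    ((2 : ℝ) ^ n • ContinuousLinearMap.id ℝ (E m)).hasFDerivAt
  have h2 := ((hf ((2 : ℝ) ^ n • z)).hasFDerivAt.comp z h1).const_mul ((2 : ℝ) ^ (n * w))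
  have h3 : fderiv ℝ (sca w n f) z = _ := h2.fderiv
  rw [pd, h3]
  simp only [sca, pd, smul_apply, ContinuousLinearMap.comp_apply,
    ContinuousLinearMap.id_apply, map_smul, smul_eq_mul]
  rw [Nat.mul_succ, pow_add]
  ring

theorem integral_sca (n : ℕ) (f : E m → ℝ) : ∫ z, sca m n f z = ∫ z, f z := by
  simp only [sca]
  rw [integral_const_mul, Measure.integral_comp_smul, finrank_euclideanSpace_fin, smul_eq_mul,
    ← mul_assoc, abs_of_pos (by positivity), ← pow_mul, mul_inv_cancel₀ (by positivity), one_mul]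

theorem abs_sca (w n : ℕ) (f : E m → ℝ) (z : E m) : |sca w n f z| = sca w n (fun z => |f z|) z := by
  simp only [sca, abs_mul, abs_of_pos (show (0 : ℝ) < 2 ^ (n * w) by positivity)]

theorem integral_abs_sca (n : ℕ) (f : E m → ℝ) : ∫ z, |sca m n f z| = ∫ z, |f z| := by
  simp only [abs_sca]
  exact integral_sca n _

theorem sca_eq_zero (w n : ℕ) {f : E m → ℝ} {R : ℝ} (hf : ∀ z, R ≤ ‖z‖ → f z = 0) {z : E m}
    (hz : R ≤ ‖z‖) : sca w n f z = 0 := by
  have h1 : (1 : ℝ) ≤ 2 ^ n := one_le_pow₀ (by norm_num)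
  have h2 : R ≤ ‖(2 : ℝ) ^ n • z‖ := by
    rw [norm_smul, Real.norm_eq_abs, abs_of_pos (by positivity)]
    nlinarith [norm_nonneg z]
  rw [sca, hf _ h2, mul_zero]

theorem contDiff_pd {f : E m → ℝ} (hf : ContDiff ℝ ∞ f) (i : Fin m) : ContDiff ℝ ∞ (pd i f) :=
  (hf.fderiv_right (m := ∞) (by simp)).clm_apply contDiff_const

theorem pd_sub (i : Fin m) {f g : E m → ℝ} (hf : Differentiable ℝ f) (hg : Differentiable ℝ g)
    (z : E m) : pd i (fun z => f z - g z) z = pd i f z - pd i g z := by
  rw [pd, fderiv_fun_sub (hf z) (hg z)]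
  rfl

theorem pd_sum {ι : Type*} (s : Finset ι) (i : Fin m) {f : ι → E m → ℝ}
    (hf : ∀ l ∈ s, Differentiable ℝ (f l)) (z : E m) :
    pd i (fun z => ∑ l ∈ s, f l z) z = ∑ l ∈ s, pd i (f l) z := by
  rw [pd, fderiv_fun_sum fun l hl => hf l hl z]
  simp [pd]

theorem sca_sum {ι : Type*} (s : Finset ι) (w n : ℕ) (f : ι → E m → ℝ) (z : E m) :
    sca w n (fun z => ∑ l ∈ s, f l z) z = ∑ l ∈ s, sca w n (f l) z := by
  simp only [sca, Finset.mul_sum]

namespace Ker

variable {R : ℝ} (K : Ker m R)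

theorem V_diff (j : Fin m) : Differentiable ℝ (K.V j) := (K.smooth j).differentiable (by simp)

theorem eta_smooth : ContDiff ℝ ∞ K.eta :=
  ContDiff.sum fun j _ => contDiff_pd (K.smooth j) j

theorem eta_zero {z : E m} (h : R ≤ ‖z‖) : K.eta z = 0 := K.div_zero z h

theorem eta_mass : ∫ z, K.eta z = 1 := K.mass

theorem eta_hasCompactSupport : HasCompactSupport K.eta :=
  HasCompactSupport.intro (isCompact_closedBall (0 : E m) R) fun z hz =>
    K.eta_zero (le_of_lt (by simpa using hz))

theorem Z_smooth (n : ℕ) (j : Fin m) : ContDiff ℝ ∞ (K.Z n j) :=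
  (contDiff_sca _ _ (K.smooth j)).sub (K.smooth j)

theorem Z_diff (n : ℕ) (j : Fin m) : Differentiable ℝ (K.Z n j) :=
  (K.Z_smooth n j).differentiable (by simp)

theorem Z_zero (n : ℕ) (j : Fin m) {z : E m} (h : R ≤ ‖z‖) : K.Z n j z = 0 := by
  rw [Z, K.homog j n z h, sub_self]

theorem Z_hasCompactSupport (n : ℕ) (j : Fin m) : HasCompactSupport (K.Z n j) :=
  HasCompactSupport.intro (isCompact_closedBall (0 : E m) R) fun z hz =>
    K.Z_zero n j (le_of_lt (by simpa using hz))

theorem pd_Z (n : ℕ) (i j : Fin m) (z : E m) :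
    pd i (K.Z n j) z = sca (m - 1 + 1) n (pd i (K.V j)) z - pd i (K.V j) z := by
  have h : K.Z n j = fun z => sca (m - 1) n (K.V j) z - K.V j z := rfl
  rw [h, pd_sub i ((contDiff_sca _ _ (K.smooth j)).differentiable (by simp)) (K.V_diff j),
    pd_sca _ _ _ (K.V_diff j)]

theorem Z_symm (n : ℕ) (i j : Fin m) (z : E m) : pd i (K.Z n j) z = pd j (K.Z n i) z := by
  rw [pd_Z, pd_Z, K.symm i j z]
  simp only [sca, K.symm i j]

theorem Z_div (hm : 1 ≤ m) (n : ℕ) (z : E m) :
    ∑ j, pd j (K.Z n j) z = sca m n K.eta z - K.eta z := by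
  simp only [pd_Z, Finset.sum_sub_distrib, Nat.sub_add_cancel hm]
  rw [← sca_sum]
  rfl

theorem kk_smooth (n : ℕ) (i j : Fin m) : ContDiff ℝ ∞ (K.kk n i j) :=
  contDiff_pd (K.Z_smooth n j) i

theorem kk_zero (n : ℕ) (i j : Fin m) {z : E m} (h : R < ‖z‖) : K.kk n i j z = 0 := by
  have hopen : IsOpen {z : E m | R < ‖z‖} := isOpen_lt continuous_const continuous_norm
  have hev : K.Z n j =ᶠ[nhds z] fun _ => (0 : ℝ) := by
    filter_upwards [hopen.mem_nhds h] with y hy
    exact K.Z_zero n j (le_of_lt hy)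
  rw [kk, pd, hev.fderiv_eq]
  simp

theorem kk_hasCompactSupport (n : ℕ) (i j : Fin m) : HasCompactSupport (K.kk n i j) :=
  HasCompactSupport.intro (isCompact_closedBall (0 : E m) R) fun z hz =>
    K.kk_zero n i j (by simpa using hz)

theorem Z_tele (n : ℕ) (j : Fin m) (z : E m) :
    K.Z n j z = ∑ l ∈ Finset.range n, sca (m - 1) l (K.Z 1 j) z := by
  induction n with
  | zero => simp [Z, sca_zero]
  | succ n ih =>
    rw [Finset.sum_range_succ, ← ih]
    have h : K.Z 1 j = fun z => sca (m - 1) 1 (K.V j) z - K.V j z := rfl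
    rw [h, sca_sub, ← sca_succ]
    simp only [Z]
    ring

theorem kk_tele (hm : 1 ≤ m) (n : ℕ) (i j : Fin m) (z : E m) :
    K.kk n i j z = ∑ l ∈ Finset.range n, sca m l (K.kk 1 i j) z := by
  have h : K.Z n j = fun z => ∑ l ∈ Finset.range n, sca (m - 1) l (K.Z 1 j) z :=
    funext fun z => K.Z_tele n j z
  rw [kk, h, pd_sum _ _ fun l _ => (contDiff_sca _ _ (K.Z_smooth 1 j)).differentiable (by simp)]
  refine Finset.sum_congr rfl fun l _ => ?_
  rw [pd_sca _ _ _ (K.Z_diff 1 j), Nat.sub_add_cancel hm]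
  rfl

end Ker

end Claimed.Agent.R322.CZ
end

/- ===== packed: Claimed.Agent.R322.CZ.Tele ===== -/
section
/-!
# R322 / CZ / Tele : uniform bounds for telescoping sums of rescaled bumps
(leaves L-CZ-TeleHor = `hormander_tele`, L-CZ-TeleL1 = `l1_tele`)

`hormander_tele`.  Bound the integrand by `Σ_l |sca m l ψ (x - y) - sca m l ψ x|` and integrate termwise.
Term `l`, on `{2‖y‖ ≤ ‖x‖}` (there `‖x - y‖ ≥ ‖y‖`):
 * if `R ≤ 2^l ‖y‖` both values vanish;
 * otherwise the integrand is `≤ 2^{l m} Λ 2^l ‖y‖` and vanishes off `ball 0 (R/2^l) ∪ ball y (R/2^l)`, of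
   volume `≤ 2 (R/2^l)^m |B_1|` (`Measure.addHaar_ball`); so the term is `≤ 2 Λ R^m |B_1| c_l`,
   `c_l = if 2^l ‖y‖ < R then 2^l ‖y‖ else 0`.
 * `Σ_{l<n} c_l ≤ min (2^n ‖y‖) (2 R)` by induction on `n`.
`l1_tele`.  `|sca (m-1) l Y| ≤ 2^{l(m-1)} M` on `ball 0 (R/2^l)`, zero outside: `∫ ≤ 2^{-l} M R^m |B_1|`;
`Σ_l 2^{-l} ≤ 2`.
-/

set_option autoImplicit false

namespace Claimed.Agent.R322.CZ

open MeasureTheory Set Metric
open scoped ENNReal

variable {m : ℕ}

/-- volume of a ball -/
theorem tele_vol_ball (x : E m) {r : ℝ} (hr : 0 < r) :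
    (volume (ball x r)).toReal = r ^ m * (volume (ball (0 : E m) 1)).toReal := by
  rw [Measure.addHaar_ball_of_pos _ x hr, finrank_euclideanSpace_fin, ENNReal.toReal_mul,
    ENNReal.toReal_ofReal (pow_nonneg hr.le _)]

theorem tele_integrable_ind (x : E m) (r a : ℝ) :
    Integrable ((ball x r).indicator fun _ => a) (volume : Measure (E m)) := by
  rw [integrable_indicator_iff measurableSet_ball]
  exact integrableOn_const measure_ball_lt_top.ne

theorem tele_integral_ind (x : E m) {r : ℝ} (hr : 0 < r) (a : ℝ) :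
    ∫ z, (ball x r).indicator (fun _ => a) z = a * (r ^ m * (volume (ball (0 : E m) 1)).toReal) := by
  rw [integral_indicator_const a measurableSet_ball, smul_eq_mul, Measure.real, tele_vol_ball x hr,
    mul_comm]

theorem tele_norm_smul (l : ℕ) (z : E m) : ‖(2 : ℝ) ^ l • z‖ = 2 ^ l * ‖z‖ := by
  rw [norm_smul, Real.norm_of_nonneg (by positivity)]

/-- a rescaled function vanishes off the rescaled ball -/
theorem tele_zero_off {f : E m → ℝ} {R : ℝ} (hs : ∀ z, R ≤ ‖z‖ → f z = 0) (l : ℕ) {z : E m}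
    (hz : R / 2 ^ l ≤ ‖z‖) : f ((2 : ℝ) ^ l • z) = 0 := by
  apply hs
  rw [tele_norm_smul]
  rwa [div_le_iff₀' (by positivity)] at hz

theorem l1_tele (hm : 1 ≤ m) (Y : E m → ℝ) (M R : ℝ) (hR : 0 < R) (hY : Continuous Y)
    (hM : ∀ z, |Y z| ≤ M) (hs : ∀ z, R ≤ ‖z‖ → Y z = 0) (n : ℕ) :
    ∫ z, |∑ l ∈ Finset.range n, sca (m - 1) l Y z|
      ≤ 2 * M * R ^ m * (volume (ball (0 : E m) 1)).toReal := by
  have hM0 : 0 ≤ M := (abs_nonneg _).trans (hM 0)
  set B := (volume (ball (0 : E m) 1)).toReal with hB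
  have hB0 : 0 ≤ B := ENNReal.toReal_nonneg
  have hr : ∀ l : ℕ, 0 < R / 2 ^ l := fun l => by positivity
  set G : E m → ℝ := fun z => ∑ l ∈ Finset.range n,
    (ball (0 : E m) (R / 2 ^ l)).indicator (fun _ => (2 : ℝ) ^ (l * (m - 1)) * M) z with hG
  have hGi : Integrable G volume := integrable_finsetSum _ fun l _ => tele_integrable_ind _ _ _
  have hle : ∀ z, |∑ l ∈ Finset.range n, sca (m - 1) l Y z| ≤ G z := by
    intro z
    refine (Finset.abs_sum_le_sum_abs _ _).trans (Finset.sum_le_sum fun l _ => ?_)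
    unfold sca
    by_cases hz : z ∈ ball (0 : E m) (R / 2 ^ l)
    · rw [indicator_of_mem hz, abs_mul, abs_of_nonneg (by positivity)]
      exact mul_le_mul_of_nonneg_left (hM _) (by positivity)
    · rw [indicator_of_notMem hz]
      rw [mem_ball_zero_iff, not_lt] at hz
      rw [tele_zero_off hs l hz]
      simp
  refine (integral_mono_of_nonneg (Filter.Eventually.of_forall fun z => abs_nonneg _) hGi
    (Filter.Eventually.of_forall hle)).trans ?_
  rw [hG, integral_finsetSum _ fun l _ => tele_integrable_ind _ _ _]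
  have e : ∀ l ∈ Finset.range n,
      ∫ z, (ball (0 : E m) (R / 2 ^ l)).indicator (fun _ => (2 : ℝ) ^ (l * (m - 1)) * M) z
        = M * R ^ m * B * (1 / 2) ^ l := by
    intro l _
    rw [tele_integral_ind _ (hr l), ← hB]
    have h1 : (2 : ℝ) ^ (l * m) = 2 ^ (l * (m - 1)) * 2 ^ l := by
      rw [← pow_add]
      congr 1
      obtain ⟨k, rfl⟩ : ∃ k, m = k + 1 := ⟨m - 1, by omega⟩
      simp
      ring
    rw [div_pow, ← pow_mul, h1, one_div, inv_pow]
    field_simp
  rw [Finset.sum_congr rfl e, ← Finset.mul_sum]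
  have h2 := sum_geometric_two_le n
  have h3 : 0 ≤ M * R ^ m * B := by positivity
  calc M * R ^ m * B * ∑ l ∈ Finset.range n, (1 / 2 : ℝ) ^ l ≤ M * R ^ m * B * 2 :=
        mul_le_mul_of_nonneg_left h2 h3
    _ = 2 * M * R ^ m * B := by ring

/-- the geometric sum of the active terms -/
theorem tele_sum_c (t R : ℝ) (ht : 0 ≤ t) (hR : 0 < R) (n : ℕ) :
    ∑ l ∈ Finset.range n, (if 2 ^ l * t < R then 2 ^ l * t else 0) ≤ min (2 ^ n * t) (2 * R) := by
  induction n with
  | zero => simp; exact ⟨ht, hR.le⟩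
  | succ n ih =>
    rw [Finset.sum_range_succ]
    obtain ⟨h1, h2⟩ := le_min_iff.1 ih
    have h3 : 0 ≤ 2 ^ n * t := by positivity
    rw [pow_succ]
    split_ifs with h
    · exact le_min (by linarith) (by linarith)
    · exact le_min (by linarith) (by linarith)

theorem hormander_tele (ψ : E m → ℝ) (Λ R : ℝ) (hΛ : 0 ≤ Λ) (hR : 0 < R)
    (hψ : ∀ x y, |ψ x - ψ y| ≤ Λ * ‖x - y‖) (hs : ∀ z, R ≤ ‖z‖ → ψ z = 0) (n : ℕ) (y : E m) :
    ∫ x in {x : E m | 2 * ‖y‖ ≤ ‖x‖},
        |(∑ l ∈ Finset.range n, sca m l ψ (x - y)) - ∑ l ∈ Finset.range n, sca m l ψ x|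
      ≤ 4 * Λ * R ^ (m + 1) * (volume (ball (0 : E m) 1)).toReal := by
  set B := (volume (ball (0 : E m) 1)).toReal with hB
  have hB0 : 0 ≤ B := ENNReal.toReal_nonneg
  have hr : ∀ l : ℕ, 0 < R / 2 ^ l := fun l => by positivity
  set c : ℕ → ℝ := fun l => if 2 ^ l * ‖y‖ < R then 2 ^ l * ‖y‖ else 0 with hc
  have hc0 : ∀ l, 0 ≤ c l := by
    intro l
    simp only [hc]
    split_ifs
    · positivity
    · exact le_rfl
  set a : ℕ → ℝ := fun l => (2 : ℝ) ^ (l * m) * (Λ * c l) with ha
  have ha0 : ∀ l, 0 ≤ a l := fun l => mul_nonneg (by positivity) (mul_nonneg hΛ (hc0 l))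
  set G : E m → ℝ := fun x => ∑ l ∈ Finset.range n,
    ((ball (0 : E m) (R / 2 ^ l)).indicator (fun _ => a l) x
      + (ball y (R / 2 ^ l)).indicator (fun _ => a l) x) with hG
  have hGi : Integrable G volume := integrable_finsetSum _ fun l _ =>
    (tele_integrable_ind _ _ _).add (tele_integrable_ind _ _ _)
  have hG0 : ∀ x, 0 ≤ G x := fun x => Finset.sum_nonneg fun l _ =>
    add_nonneg (indicator_nonneg (fun _ _ => ha0 l) x) (indicator_nonneg (fun _ _ => ha0 l) x)
  have hSm : MeasurableSet {x : E m | 2 * ‖y‖ ≤ ‖x‖} :=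
    (isClosed_le continuous_const continuous_norm).measurableSet
  have hle : ∀ x ∈ {x : E m | 2 * ‖y‖ ≤ ‖x‖},
      |(∑ l ∈ Finset.range n, sca m l ψ (x - y)) - ∑ l ∈ Finset.range n, sca m l ψ x| ≤ G x := by
    intro x hx
    change 2 * ‖y‖ ≤ ‖x‖ at hx
    have hy0 : 0 ≤ ‖y‖ := norm_nonneg y
    have hxy : ‖y‖ ≤ ‖x - y‖ := by
      have := norm_sub_norm_le x y
      linarith
    rw [← Finset.sum_sub_distrib]
    refine (Finset.abs_sum_le_sum_abs _ _).trans (Finset.sum_le_sum fun l _ => ?_)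
    have hi0 : 0 ≤ (ball (0 : E m) (R / 2 ^ l)).indicator (fun _ => a l) x :=
      indicator_nonneg (fun _ _ => ha0 l) x
    have hiy : 0 ≤ (ball y (R / 2 ^ l)).indicator (fun _ => a l) x :=
      indicator_nonneg (fun _ _ => ha0 l) x
    unfold sca
    rw [← mul_sub, abs_mul, abs_of_nonneg (by positivity)]
    have h2l : (0 : ℝ) < 2 ^ l := by positivity
    by_cases hl : 2 ^ l * ‖y‖ < R
    · have hal : a l = (2 : ℝ) ^ (l * m) * (Λ * (2 ^ l * ‖y‖)) := by
        simp only [ha, hc]
        rw [if_pos hl]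
      have hlip : (2 : ℝ) ^ (l * m) * |ψ ((2 : ℝ) ^ l • (x - y)) - ψ ((2 : ℝ) ^ l • x)| ≤ a l := by
        rw [hal]
        refine mul_le_mul_of_nonneg_left ((hψ _ _).trans (le_of_eq ?_)) (by positivity)
        rw [← smul_sub, tele_norm_smul]
        congr 2
        rw [sub_sub_cancel_left, norm_neg]
      by_cases h0 : x ∈ ball (0 : E m) (R / 2 ^ l)
      · rw [indicator_of_mem h0]
        linarith
      · by_cases h1 : x ∈ ball y (R / 2 ^ l)
        · rw [indicator_of_mem h1]
          linarith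
        · rw [mem_ball_zero_iff, not_lt] at h0
          rw [mem_ball, dist_eq_norm, not_lt] at h1
          rw [tele_zero_off hs l h0, tele_zero_off hs l h1]
          simp only [sub_self, abs_zero, mul_zero]
          linarith
    · rw [not_lt] at hl
      have h0 : R / 2 ^ l ≤ ‖x‖ := by
        rw [div_le_iff₀' h2l]
        nlinarith
      have h1 : R / 2 ^ l ≤ ‖x - y‖ := by
        rw [div_le_iff₀' h2l]
        nlinarith
      rw [tele_zero_off hs l h0, tele_zero_off hs l h1]
      simp only [sub_self, abs_zero, mul_zero]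
      linarith
  have step1 : ∫ x in {x : E m | 2 * ‖y‖ ≤ ‖x‖},
      |(∑ l ∈ Finset.range n, sca m l ψ (x - y)) - ∑ l ∈ Finset.range n, sca m l ψ x|
      ≤ ∫ x in {x : E m | 2 * ‖y‖ ≤ ‖x‖}, G x :=
    integral_mono_of_nonneg (Filter.Eventually.of_forall fun z => abs_nonneg _) hGi.integrableOn
      ((ae_restrict_iff' hSm).2 (Filter.Eventually.of_forall hle))
  refine step1.trans ((setIntegral_le_integral hGi (Filter.Eventually.of_forall hG0)).trans ?_)
  have hint : ∀ l ∈ Finset.range n, Integrable (fun x : E m =>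
      (ball (0 : E m) (R / 2 ^ l)).indicator (fun _ => a l) x
        + (ball y (R / 2 ^ l)).indicator (fun _ => a l) x) volume := fun l _ =>
    (tele_integrable_ind _ _ _).add (tele_integrable_ind _ _ _)
  rw [hG, integral_finsetSum _ hint]
  have e : ∀ l ∈ Finset.range n,
      ∫ x, ((ball (0 : E m) (R / 2 ^ l)).indicator (fun _ => a l) x
        + (ball y (R / 2 ^ l)).indicator (fun _ => a l) x) = 2 * Λ * R ^ m * B * c l := by
    intro l _
    rw [integral_add (tele_integrable_ind _ _ _) (tele_integrable_ind _ _ _),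
      tele_integral_ind _ (hr l), tele_integral_ind _ (hr l), ← hB]
    simp only [ha]
    rw [div_pow, ← pow_mul]
    field_simp
    ring
  rw [Finset.sum_congr rfl e, ← Finset.mul_sum]
  have h2 := (tele_sum_c ‖y‖ R (norm_nonneg y) hR n).trans (min_le_right _ _)
  have h3 : 0 ≤ 2 * Λ * R ^ m * B := by positivity
  calc 2 * Λ * R ^ m * B * ∑ l ∈ Finset.range n, c l ≤ 2 * Λ * R ^ m * B * (2 * R) :=
        mul_le_mul_of_nonneg_left h2 h3
    _ = 4 * Λ * R ^ (m + 1) * B := by ring

end Claimed.Agent.R322.CZ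
end

/- ===== packed: Claimed.Agent.R322.CZ.Young ===== -/
section
/-!
# R322 / CZ / Young : the `L¹ * L² ⊆ L²` convolution inequality   (leaf L-CZ-Young)

PLAN. Pointwise Cauchy-Schwarz with the weight `|D (x - y)| dy`:
`(∫ D (x-y) g y)² ≤ (∫ |D (x-y)| dy) (∫ |D (x-y)| (g y)² dy) = ‖D‖₁ (|D| * g²)(x)`
(e.g. `integral_mul_le_Lp_mul_Lq_of_nonneg` with `p = q = 2` applied to `√|D| ` and `√|D| |g|`, or the
discriminant trick `0 ≤ ∫ |D (x-y)| (|g y| - s)²` for all `s`), `integral_sub_left_eq_self`.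
Then integrate in `x`: `∫ (|D| * g²) = ‖D‖₁ ∫ g²` (`MeasureTheory.integral_convolution`, or
`integral_integral_swap` + translation invariance).  All functions are bounded, measurable, compactly
supported, so integrable.
-/

set_option autoImplicit false

namespace Claimed.Agent.R322.CZ

open MeasureTheory Set Metric
open scoped ENNReal Convolution

variable {m : ℕ}

/-- Cauchy-Schwarz with a nonnegative weight. -/
theorem young_cs {α : Type*} [MeasurableSpace α] (μ : Measure α) (w g : α → ℝ) (hw : ∀ y, 0 ≤ w y)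
    (h0 : Integrable w μ) (h1 : Integrable (fun y => w y * g y) μ)
    (h2 : Integrable (fun y => w y * g y ^ 2) μ) :
    (∫ y, w y * g y ∂μ) ^ 2 ≤ (∫ y, w y ∂μ) * ∫ y, w y * g y ^ 2 ∂μ := by
  have key : ∀ s : ℝ, 0 ≤ (∫ y, w y ∂μ) * (s * s) + (-2 * ∫ y, w y * g y ∂μ) * s +
      ∫ y, w y * g y ^ 2 ∂μ := by
    intro s
    have e : ∫ y, w y * (g y - s) ^ 2 ∂μ = (∫ y, w y ∂μ) * (s * s) + (-2 * ∫ y, w y * g y ∂μ) * s +
        ∫ y, w y * g y ^ 2 ∂μ := by
      have e1 : ∀ y, w y * (g y - s) ^ 2 = w y * g y ^ 2 - (2 * s) * (w y * g y) + (s * s) * w y := by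
        intro y; ring
      simp_rw [e1]
      have i1 : Integrable (fun y => (2 * s) * (w y * g y)) μ := h1.const_mul _
      have i2 : Integrable (fun y => (s * s) * w y) μ := h0.const_mul _
      have i3 : Integrable (fun y => w y * g y ^ 2 - (2 * s) * (w y * g y)) μ := h2.sub i1
      rw [integral_add i3 i2, integral_sub h2 i1,
        integral_const_mul, integral_const_mul]
      ring
    rw [← e]
    exact integral_nonneg fun y => mul_nonneg (hw y) (sq_nonneg _)
  have hd := discrim_le_zero key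
  unfold discrim at hd
  nlinarith

theorem young (D : E m → ℝ) (hD : Continuous D) (hc : HasCompactSupport D)
    (g : E m → ℝ) (hg : Measurable g) (hb : ∃ M, ∀ x, |g x| ≤ M) (hgc : HasCompactSupport g) :
    ∫ x, (∫ y, D (x - y) * g y) ^ 2 ≤ (∫ z, |D z|) ^ 2 * ∫ x, (g x) ^ 2 := by
  obtain ⟨M, hM⟩ := hb
  have hM0 : 0 ≤ M := (abs_nonneg _).trans (hM 0)
  -- integrability
  have hDi : Integrable (fun z => |D z|) := (hD.integrable_of_hasCompactSupport hc).abs
  have hg2i : Integrable (fun y => g y ^ 2) := by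
    have h1 : IntegrableOn (fun y => g y ^ 2) (tsupport g) := by
      refine Measure.integrableOn_of_bounded (M := M ^ 2) hgc.isCompact.measure_lt_top.ne
        (hg.pow_const 2).aestronglyMeasurable (Filter.Eventually.of_forall fun y => ?_)
      rw [Real.norm_eq_abs, abs_pow]
      exact pow_le_pow_left₀ (abs_nonneg _) (hM y) 2
    refine (integrableOn_iff_integrable_of_support_subset ?_).1 h1
    intro y hy
    apply subset_tsupport
    intro h0
    apply hy
    simp [h0]
  have hw : ∀ x, Integrable (fun y => |D (x - y)|) := fun x => hDi.comp_sub_left x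
  have hwA : ∀ x, ∫ y, |D (x - y)| = ∫ z, |D z| := fun x =>
    integral_sub_left_eq_self (fun z => |D z|) volume x
  have hmw : ∀ x, Measurable fun y => |D (x - y)| := fun x =>
    (hD.measurable.comp (measurable_const.sub measurable_id)).abs
  have hw1 : ∀ x, Integrable (fun y => |D (x - y)| * |g y|) := by
    intro x
    refine Integrable.mono' ((hw x).mul_const M) ((hmw x).mul hg.abs).aestronglyMeasurable
      (Filter.Eventually.of_forall fun y => ?_)
    rw [Real.norm_eq_abs, abs_mul, abs_abs, abs_abs]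
    exact mul_le_mul_of_nonneg_left (hM y) (abs_nonneg _)
  have hw2 : ∀ x, Integrable (fun y => |D (x - y)| * |g y| ^ 2) := by
    intro x
    refine Integrable.mono' ((hw x).mul_const (M ^ 2))
      ((hmw x).mul (hg.abs.pow_const 2)).aestronglyMeasurable
      (Filter.Eventually.of_forall fun y => ?_)
    rw [Real.norm_eq_abs, abs_mul, abs_abs, abs_pow, abs_abs]
    exact mul_le_mul_of_nonneg_left (pow_le_pow_left₀ (abs_nonneg _) (hM y) 2) (abs_nonneg _)
  -- pointwise bound
  have hpt : ∀ x, (∫ y, D (x - y) * g y) ^ 2 ≤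
      (∫ z, |D z|) * ((fun y => g y ^ 2) ⋆[ContinuousLinearMap.mul ℝ ℝ, volume] (fun z => |D z|)) x := by
    intro x
    have h1 : |∫ y, D (x - y) * g y| ≤ ∫ y, |D (x - y)| * |g y| := by
      refine (abs_integral_le_integral_abs).trans (le_of_eq ?_)
      refine integral_congr_ae (Filter.Eventually.of_forall fun y => ?_)
      exact abs_mul _ _
    have h2 := young_cs volume (fun y => |D (x - y)|) (fun y => |g y|) (fun y => abs_nonneg _) (hw x)
      (hw1 x) (hw2 x)
    rw [hwA x] at h2
    have h3 : ((fun y => g y ^ 2) ⋆[ContinuousLinearMap.mul ℝ ℝ, volume] (fun z => |D z|)) x =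
        ∫ y, |D (x - y)| * |g y| ^ 2 := by
      unfold convolution
      refine integral_congr_ae (Filter.Eventually.of_forall fun y => ?_)
      simp only [ContinuousLinearMap.mul_apply', sq_abs]
      ring
    rw [h3]
    refine le_trans ?_ h2
    rw [← sq_abs]
    exact pow_le_pow_left₀ (abs_nonneg _) h1 2
  have hconv : Integrable ((fun y => g y ^ 2) ⋆[ContinuousLinearMap.mul ℝ ℝ, volume] (fun z => |D z|)) :=
    hg2i.integrable_convolution (ContinuousLinearMap.mul ℝ ℝ) hDi
  calc ∫ x, (∫ y, D (x - y) * g y) ^ 2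
      ≤ ∫ x, (∫ z, |D z|) *
          ((fun y => g y ^ 2) ⋆[ContinuousLinearMap.mul ℝ ℝ, volume] (fun z => |D z|)) x :=
        integral_mono_of_nonneg (Filter.Eventually.of_forall fun x => sq_nonneg _)
          (hconv.const_mul _) (Filter.Eventually.of_forall hpt)
    _ = (∫ z, |D z|) ^ 2 * ∫ x, (g x) ^ 2 := by
        rw [integral_const_mul, integral_convolution (ContinuousLinearMap.mul ℝ ℝ) hg2i hDi]
        simp only [ContinuousLinearMap.mul_apply']
        ring

end Claimed.Agent.R322.CZ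
end

/- ===== packed: Claimed.Agent.R322.CZ.L2Id ===== -/
section
/-!
# R322 / CZ / L2Id : the `L²` identity for curl free fields   (leaf L-CZ-L2Id)

`w_j = W_j * g` is smooth with compact support (`HasCompactSupport.contDiff_convolution_right` with
`f = g` locally integrable, `HasCompactSupport.convolution`), and
`pd i w_j x = ∫ pd i (W j) (x - y) g y` (`HasCompactSupport.hasFDerivAt_convolution_right`).
By `hsym`, `pd i w_j = pd j w_i`.  Hence
`Σ_ij ∫ (pd i w_j)² = Σ_ij ∫ pd i w_j · pd j w_i = Σ_ij ∫ pd j w_j · pd i w_i = ∫ (Σ_j pd j w_j)²`;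
the middle step is two integrations by parts (`integral_mul_fderiv_eq_neg_fderiv_mul_of_integrable`) and
the symmetry of second derivatives (`ContDiffAt.isSymmSndFDerivAt` / `second_derivative_symmetric`):
`∫ ∂_i a · ∂_j b = - ∫ a ∂_i ∂_j b = - ∫ a ∂_j ∂_i b = ∫ ∂_j a · ∂_i b` for `a, b ∈ C²_c`
(state and prove this as a lemma first).
-/

set_option autoImplicit false

namespace Claimed.Agent.R322.CZ

open MeasureTheory Set Metric
open scoped ENNReal ContDiff Convolution

variable {m : ℕ}

/-- `pd j b` is `C¹` for `b ∈ C²`. -/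
theorem contDiff_pd_one {b : E m → ℝ} (hb : ContDiff ℝ 2 b) (j : Fin m) :
    ContDiff ℝ 1 (pd j b) :=
  (hb.fderiv_right (m := 1) (by norm_num)).clm_apply contDiff_const

theorem continuous_pd {b : E m → ℝ} (hb : ContDiff ℝ 1 b) (j : Fin m) : Continuous (pd j b) :=
  (hb.continuous_fderiv (by norm_num)).clm_apply continuous_const

/-- second partial derivatives commute. -/
theorem pd_pd_comm {b : E m → ℝ} (hb : ContDiff ℝ 2 b) (i j : Fin m) (x : E m) :
    pd i (pd j b) x = pd j (pd i b) x := by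
  have hd : DifferentiableAt ℝ (fderiv ℝ b) x :=
    ((hb.fderiv_right (m := 1) (by norm_num)).differentiable (by norm_num)) x
  have key : ∀ i j : Fin m, pd i (pd j b) x =
      fderiv ℝ (fderiv ℝ b) x (EuclideanSpace.single i (1 : ℝ)) (EuclideanSpace.single j (1 : ℝ)) := by
    intro i j
    have h := (ContinuousLinearMap.apply ℝ ℝ (EuclideanSpace.single j (1 : ℝ) : E m)).hasFDerivAt.comp
      x hd.hasFDerivAt
    have h' : fderiv ℝ (pd j b) x = _ := h.fderiv
    rw [pd, h']
    rfl
  rw [key i j, key j i]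
  exact (hb.contDiffAt.isSymmSndFDerivAt (by simp)) _ _

/-- exchange of derivatives under the integral. -/
theorem integral_pd_mul_pd_comm (a b : E m → ℝ) (ha : ContDiff ℝ 2 a) (hb : ContDiff ℝ 2 b)
    (hac : HasCompactSupport a) (i j : Fin m) :
    ∫ x, pd i a x * pd j b x = ∫ x, pd j a x * pd i b x := by
  have hac' : ∀ i : Fin m, HasCompactSupport (pd i a) := fun i => hac.fderiv_apply (𝕜 := ℝ) _
  have ha1 : ContDiff ℝ 1 a := ha.of_le (by norm_num)
  have hb1 : ContDiff ℝ 1 b := hb.of_le (by norm_num)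
  have key : ∀ i j : Fin m, ∫ x, pd i a x * pd j b x = -∫ x, a x * pd i (pd j b) x := by
    intro i j
    have h1 : Integrable fun x => fderiv ℝ a x (EuclideanSpace.single i (1 : ℝ)) * pd j b x :=
      ((continuous_pd ha1 i).mul (continuous_pd hb1 j)).integrable_of_hasCompactSupport
        (hac' i).mul_right
    have h2 : Integrable fun x =>
        a x * fderiv ℝ (pd j b) x (EuclideanSpace.single i (1 : ℝ)) :=
      (ha.continuous.mul (continuous_pd (contDiff_pd_one hb j) i)).integrable_of_hasCompactSupport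
        hac.mul_right
    have h3 : Integrable fun x => a x * pd j b x :=
      (ha.continuous.mul (continuous_pd hb1 j)).integrable_of_hasCompactSupport hac.mul_right
    have := integral_mul_fderiv_eq_neg_fderiv_mul_of_integrable (μ := (volume : Measure (E m))) h1 h2 h3
      (fun x _ => (ha.differentiable (by norm_num)) x)
      (fun x _ => ((contDiff_pd_one hb j).differentiable (by norm_num)) x)
    simp only [pd] at this ⊢
    rw [this, neg_neg]
  rw [key i j, key j i]
  simp only [pd_pd_comm hb i j]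

theorem locallyIntegrable_of_bdd (g : E m → ℝ) (hg : Measurable g) (hb : ∃ M, ∀ x, |g x| ≤ M)
    (hgc : HasCompactSupport g) : LocallyIntegrable g :=
  (integrable_of_bdd_compact g hg hb hgc).locallyIntegrable

theorem conv_eq (W g : E m → ℝ) :
    (fun x => ∫ y, W (x - y) * g y) = (g ⋆[ContinuousLinearMap.mul ℝ ℝ, volume] W) := by
  funext x
  rw [convolution_def]
  refine integral_congr_ae (Filter.Eventually.of_forall fun y => ?_)
  simp [mul_comm]

/-- derivative of a convolution. -/
theorem pd_conv (W : E m → ℝ) (hW : ContDiff ℝ ∞ W) (hc : HasCompactSupport W)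
    (g : E m → ℝ) (hg : Measurable g) (hb : ∃ M, ∀ x, |g x| ≤ M) (hgc : HasCompactSupport g)
    (i : Fin m) (x : E m) :
    pd i (fun x => ∫ y, W (x - y) * g y) x = ∫ y, pd i W (x - y) * g y := by
  have hl := locallyIntegrable_of_bdd g hg hb hgc
  have hW1 : ContDiff ℝ 1 W := hW.of_le (by simp)
  have h := hc.hasFDerivAt_convolution_right (ContinuousLinearMap.mul ℝ ℝ) hl hW1 x
  rw [pd, conv_eq, h.fderiv, convolution_precompR_apply _ hl (hc.fderiv (𝕜 := ℝ))
    (hW1.continuous_fderiv (by norm_num)), ← conv_eq]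
  rfl

theorem contDiff_conv (W : E m → ℝ) (hW : ContDiff ℝ ∞ W) (hc : HasCompactSupport W)
    (g : E m → ℝ) (hg : Measurable g) (hb : ∃ M, ∀ x, |g x| ≤ M) (hgc : HasCompactSupport g) :
    ContDiff ℝ ∞ (fun x => ∫ y, W (x - y) * g y) := by
  rw [conv_eq]
  exact hc.contDiff_convolution_right _ (locallyIntegrable_of_bdd g hg hb hgc) hW

theorem l2_identity (W : Fin m → E m → ℝ) (hW : ∀ j, ContDiff ℝ ∞ (W j))
    (hc : ∀ j, HasCompactSupport (W j)) (hsym : ∀ i j z, pd i (W j) z = pd j (W i) z)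
    (g : E m → ℝ) (hg : Measurable g) (hb : ∃ M, ∀ x, |g x| ≤ M) (hgc : HasCompactSupport g) :
    ∑ i, ∑ j, ∫ x, (∫ y, pd i (W j) (x - y) * g y) ^ 2
      = ∫ x, (∫ y, (∑ j, pd j (W j) (x - y)) * g y) ^ 2 := by
  set w : Fin m → E m → ℝ := fun j x => ∫ y, W j (x - y) * g y with hwdef
  have hw : ∀ j, ContDiff ℝ ∞ (w j) := fun j => contDiff_conv (W j) (hW j) (hc j) g hg hb hgc
  have hw2 : ∀ j, ContDiff ℝ 2 (w j) := fun j => (hw j).of_le (by norm_cast)
  have hw1 : ∀ j, ContDiff ℝ 1 (w j) := fun j => (hw j).of_le (by simp)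
  have hwc : ∀ j, HasCompactSupport (w j) := fun j => hasCompactSupport_conv_fun (W j) (hc j) g hgc
  have hpd : ∀ i j x, pd i (w j) x = ∫ y, pd i (W j) (x - y) * g y := fun i j x =>
    pd_conv (W j) (hW j) (hc j) g hg hb hgc i x
  have hs : ∀ i j x, pd i (w j) x = pd j (w i) x := fun i j x => by
    rw [hpd, hpd]; simp only [hsym i j]
  have e1 : ∀ i j, ∫ x, (∫ y, pd i (W j) (x - y) * g y) ^ 2 =
      ∫ x, pd j (w j) x * pd i (w i) x := by
    intro i j
    calc ∫ x, (∫ y, pd i (W j) (x - y) * g y) ^ 2 = ∫ x, pd i (w j) x * pd j (w i) x := by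
          refine integral_congr_ae (Filter.Eventually.of_forall fun x => ?_)
          show (∫ y, pd i (W j) (x - y) * g y) ^ 2 = pd i (w j) x * pd j (w i) x
          rw [← hpd, sq, hs j i]
      _ = ∫ x, pd j (w j) x * pd i (w i) x :=
          integral_pd_mul_pd_comm (w j) (w i) (hw2 j) (hw2 i) (hwc j) i j
  have hgi := integrable_of_bdd_compact g hg hb hgc
  have e2 : ∀ x, ∫ y, (∑ j, pd j (W j) (x - y)) * g y = ∑ j, pd j (w j) x := by
    intro x
    simp only [hpd, Finset.sum_mul]
    refine integral_finsetSum _ fun j _ => ?_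
    have hcont : Continuous (pd j (W j)) := continuous_pd ((hW j).of_le (by simp)) j
    obtain ⟨C, hC⟩ := ((hc j).fderiv_apply (𝕜 := ℝ) _).exists_bound_of_continuous hcont
    exact hgi.bdd_mul (hcont.comp (continuous_const.sub continuous_id)).aestronglyMeasurable
      (Filter.Eventually.of_forall fun y => hC _)
  have hint : ∀ i j, Integrable fun x => pd j (w j) x * pd i (w i) x := fun i j =>
    ((continuous_pd (hw1 j) j).mul (continuous_pd (hw1 i) i)).integrable_of_hasCompactSupport
      ((hwc j).fderiv_apply (𝕜 := ℝ) _).mul_right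
  simp only [e1, e2]
  simp only [sq, Finset.sum_mul_sum]
  rw [integral_finsetSum _ fun j _ => integrable_finsetSum _ fun i _ => hint i j,
    Finset.sum_comm]
  refine Finset.sum_congr rfl fun j _ => ?_
  rw [integral_finsetSum _ fun i _ => hint i j]

end Claimed.Agent.R322.CZ
end

/- ===== packed: Claimed.Agent.R322.CZ.KerB ===== -/
section
/-!
# R322 / CZ / KerB : uniform bounds for the kernels of `Ker`   (glue; helper117)

All constants depend only on `K` (hence on `m`, `R`), not on the generation `n`.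
-/

set_option autoImplicit false

namespace Claimed.Agent.R322.CZ

open MeasureTheory Set Metric
open scoped ENNReal ContDiff

/-- a finite family of bounded functions has a common bound. -/
theorem exists_common_bound {ι α : Type*} [Fintype ι] (f : ι → α → ℝ)
    (h : ∀ i, ∃ C, ∀ x, |f i x| ≤ C) : ∃ C : ℝ, 0 ≤ C ∧ ∀ i x, |f i x| ≤ C := by
  choose C hC using h
  refine ⟨∑ i, |C i|, Finset.sum_nonneg (fun i _ => abs_nonneg _), ?_⟩
  intro i x
  calc |f i x| ≤ C i := hC i x
    _ ≤ |C i| := le_abs_self _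
    _ ≤ ∑ i, |C i| := Finset.single_le_sum (f := fun i => |C i|) (fun i _ => abs_nonneg _)
        (Finset.mem_univ i)

theorem exists_abs_bound {m : ℕ} (f : E m → ℝ) (hf : Continuous f) (hc : HasCompactSupport f) :
    ∃ C, ∀ x, |f x| ≤ C := by
  obtain ⟨C, hC⟩ := hc.exists_bound_of_continuous hf
  exact ⟨C, fun x => by simpa using hC x⟩

namespace Ker

variable {m : ℕ} {R : ℝ} (K : Ker m R)

theorem exists_bounds (hm : 1 ≤ m) (hR : 0 < R) : ∃ C : ℝ, 0 ≤ C ∧
    (∀ z, |K.eta z| ≤ C) ∧ (∀ i z, |pd i K.eta z| ≤ C) ∧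
    (∀ n, ∫ z, |sca m n K.eta z| ≤ C) ∧ (∀ n j, ∫ z, |K.Z n j z| ≤ C) := by
  obtain ⟨C1, hC1⟩ := exists_abs_bound K.eta K.eta_smooth.continuous K.eta_hasCompactSupport
  obtain ⟨C2, hC20, hC2⟩ := exists_common_bound (fun i => pd i K.eta) (fun i =>
    exists_abs_bound _ (contDiff_pd K.eta_smooth i).continuous
      (K.eta_hasCompactSupport.fderiv_apply (𝕜 := ℝ) _))
  obtain ⟨M, hM0, hM⟩ := exists_common_bound (fun j => K.Z 1 j) (fun j =>
    exists_abs_bound _ (K.Z_smooth 1 j).continuous (K.Z_hasCompactSupport 1 j))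
  have hC10 : 0 ≤ C1 := (abs_nonneg _).trans (hC1 0)
  set om : ℝ := (volume (ball (0 : E m) 1)).toReal with hom
  have hom0 : 0 ≤ om := ENNReal.toReal_nonneg
  have hI0 : 0 ≤ ∫ z, |K.eta z| := integral_nonneg (fun z => abs_nonneg _)
  have hT0 : 0 ≤ 2 * M * R ^ m * om := by positivity
  refine ⟨C1 + C2 + (∫ z, |K.eta z|) + 2 * M * R ^ m * om, by positivity, ?_, ?_, ?_, ?_⟩
  · intro z
    linarith [hC1 z]
  · intro i z
    linarith [hC2 i z]
  · intro n
    rw [integral_abs_sca]
    linarith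
  · intro n j
    have h1 := l1_tele hm (K.Z 1 j) M R hR (K.Z_smooth 1 j).continuous (hM j)
      (fun z hz => K.Z_zero 1 j hz) n
    simp only [← K.Z_tele n j] at h1
    linarith

theorem kk_lipschitz (n : ℕ) (i j : Fin m) :
    ∃ L : ℝ, 0 ≤ L ∧ ∀ x y, |K.kk n i j x - K.kk n i j y| ≤ L * ‖x - y‖ := by
  obtain ⟨C, hC⟩ := ContDiff.lipschitzWith_of_hasCompactSupport (𝕂 := ℝ)
    (K.kk_hasCompactSupport n i j) (K.kk_smooth n i j) (by simp)
  refine ⟨C, C.coe_nonneg, ?_⟩
  intro x y
  have := hC.dist_le_mul x y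
  rwa [Real.dist_eq, dist_eq_norm] at this

theorem hormander (hm : 1 ≤ m) (hR : 0 < R) : ∃ H : ℝ, 0 ≤ H ∧ ∀ (n : ℕ) (i j : Fin m) (y : E m),
    ∫ x in {x : E m | 2 * ‖y‖ ≤ ‖x‖}, |K.kk n i j (x - y) - K.kk n i j x| ≤ H := by
  choose L hL0 hL using fun p : Fin m × Fin m => K.kk_lipschitz 1 p.1 p.2
  set om : ℝ := (volume (ball (0 : E m) 1)).toReal with hom
  have hom0 : 0 ≤ om := ENNReal.toReal_nonneg
  refine ⟨∑ p, 4 * L p * (2 * R) ^ (m + 1) * om,
    Finset.sum_nonneg (fun p _ => by have := hL0 p; positivity), ?_⟩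
  intro n i j y
  have h1 := hormander_tele (K.kk 1 i j) (L (i, j)) (2 * R) (hL0 (i, j)) (by positivity)
    (hL (i, j)) (fun z hz => K.kk_zero 1 i j (by linarith)) n y
  simp only [← K.kk_tele hm n i j] at h1
  refine h1.trans ?_
  exact Finset.single_le_sum (f := fun p : Fin m × Fin m => 4 * L p * (2 * R) ^ (m + 1) * om)
    (fun p _ => by have := hL0 p; positivity) (Finset.mem_univ (i, j))

theorem l2 (hm : 1 ≤ m) (hR : 0 < R) : ∃ A : ℝ, 0 ≤ A ∧ ∀ (n : ℕ) (i j : Fin m) (g : E m → ℝ),
    Measurable g → (∃ M, ∀ x, |g x| ≤ M) → HasCompactSupport g →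
    ∫ x, (∫ y, K.kk n i j (x - y) * g y) ^ 2 ≤ A * ∫ x, (g x) ^ 2 := by
  obtain ⟨C, hC0, -, -, hC3, -⟩ := K.exists_bounds hm hR
  refine ⟨(2 * C) ^ 2, by positivity, ?_⟩
  intro n i j g hg hb hgc
  have hid := l2_identity (K.Z n) (K.Z_smooth n) (K.Z_hasCompactSupport n) (K.Z_symm n) g hg hb hgc
  have hD : (fun z => ∑ j, pd j (K.Z n j) z) = fun z => sca m n K.eta z - K.eta z :=
    funext (K.Z_div hm n)
  have hsc : HasCompactSupport (sca m n K.eta) := by
    refine HasCompactSupport.intro (isCompact_closedBall (0 : E m) R) ?_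
    intro z hz
    refine sca_eq_zero m n (fun z hz => K.eta_zero hz) ?_
    simp only [mem_closedBall, dist_zero_right, not_le] at hz
    exact hz.le
  have hscc : Continuous (sca m n K.eta) := (contDiff_sca m n K.eta_smooth).continuous
  have hDc : Continuous (fun z => sca m n K.eta z - K.eta z) := hscc.sub K.eta_smooth.continuous
  have hDs : HasCompactSupport (fun z => sca m n K.eta z - K.eta z) :=
    hsc.sub K.eta_hasCompactSupport
  have hy := young (fun z => sca m n K.eta z - K.eta z) hDc hDs g hg hb hgc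
  have hD1 : ∫ z, |sca m n K.eta z - K.eta z| ≤ 2 * C := by
    have i1 : Integrable (fun z => |sca m n K.eta z|) :=
      (hscc.integrable_of_hasCompactSupport hsc).abs
    have i2 : Integrable (fun z => |K.eta z|) :=
      (K.eta_smooth.continuous.integrable_of_hasCompactSupport K.eta_hasCompactSupport).abs
    calc ∫ z, |sca m n K.eta z - K.eta z| ≤ ∫ z, (|sca m n K.eta z| + |K.eta z|) :=
          integral_mono (hDc.integrable_of_hasCompactSupport hDs).abs (i1.add i2)
            (fun z => abs_sub _ _)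
      _ = (∫ z, |sca m n K.eta z|) + ∫ z, |K.eta z| := integral_add i1 i2
      _ ≤ C + C := by
          have h0 := hC3 0
          rw [sca_zero] at h0
          exact add_le_add (hC3 n) h0
      _ = 2 * C := by ring
  have hg2 : 0 ≤ ∫ x, (g x) ^ 2 := integral_nonneg (fun x => sq_nonneg _)
  have hD0 : 0 ≤ ∫ z, |sca m n K.eta z - K.eta z| := integral_nonneg (fun z => abs_nonneg _)
  have hterm : ∫ x, (∫ y, K.kk n i j (x - y) * g y) ^ 2
      ≤ ∑ i, ∑ j, ∫ x, (∫ y, pd i (K.Z n j) (x - y) * g y) ^ 2 := by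
    have h1 : ∫ x, (∫ y, K.kk n i j (x - y) * g y) ^ 2
        ≤ ∑ j, ∫ x, (∫ y, pd i (K.Z n j) (x - y) * g y) ^ 2 :=
      Finset.single_le_sum (f := fun j => ∫ x, (∫ y, pd i (K.Z n j) (x - y) * g y) ^ 2)
        (fun j _ => integral_nonneg (fun x => sq_nonneg _)) (Finset.mem_univ j)
    refine h1.trans ?_
    exact Finset.single_le_sum
      (f := fun i => ∑ j, ∫ x, (∫ y, pd i (K.Z n j) (x - y) * g y) ^ 2)
      (fun i _ => Finset.sum_nonneg (fun j _ => integral_nonneg (fun x => sq_nonneg _)))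
      (Finset.mem_univ i)
  refine hterm.trans ?_
  rw [hid]
  simp only [K.Z_div hm n]
  refine hy.trans ?_
  apply mul_le_mul_of_nonneg_right _ hg2
  exact pow_le_pow_left₀ hD0 hD1 2

end Ker

end Claimed.Agent.R322.CZ
end

/- ===== packed: Claimed.Agent.R322.CZ.Leb ===== -/
section
/-!
# R322 / CZ / Leb : mollifications of a finite measure converge a.e. to its density   (leaf L-CZ-Leb)

PLAN. `μ = μ.singularPart volume + volume.withDensity (μ.rnDeriv volume)`
(`Measure.haveLebesgueDecomposition_add`), `f = (μ.rnDeriv volume ·).toReal` integrable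
(`Measure.integrable_toReal_rnDeriv`).  With `r_n = R / 2^n`, `B = sup |η|`, `sca m n η (x - ·)` is bounded
by `2^{nm} B` and vanishes off `closedBall x r_n`, whose volume is `r_n^m |B_1|`
(`Measure.addHaar_closedBall`).  Hence
 * `|∫ sca m n η (x - y) dμ_s| ≤ B R^m |B_1| · μ_s (closedBall x r_n) / volume (closedBall x r_n) → 0` a.e.
   (`VitaliFamily.ae_eventually_measure_zero_of_singular` / `ae_tendsto_div` for
   `Besicovitch.vitaliFamily volume` (or `IsUnifLocDoublingMeasure.vitaliFamily`) and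
   `Besicovitch.tendsto_filterAt`; `Measure.mutuallySingular_singularPart`);
 * `|∫ sca m n η (x - y) f y dy - f x| = |∫ sca m n η (x - y) (f y - f x) dy|
     ≤ B R^m |B_1| ⨍_{closedBall x r_n} |f - f x| → 0` a.e. (`∫ sca m n η (x - ·) = 1`;
   `VitaliFamily.ae_tendsto_average_norm_sub`, or `IsUnifLocDoublingMeasure.ae_tendsto_average_norm_sub`).
-/

set_option autoImplicit false

namespace Claimed.Agent.R322.CZ

open MeasureTheory Set Metric Filter Topology
open scoped ENNReal

variable {m : ℕ}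

theorem leb_vol_closedBall (x : E m) {r : ℝ} (hr : 0 ≤ r) :
    (volume (closedBall x r)).toReal = r ^ m * (volume (ball (0 : E m) 1)).toReal := by
  rw [Measure.addHaar_closedBall _ x hr, finrank_euclideanSpace_fin, ENNReal.toReal_mul,
    ENNReal.toReal_ofReal (pow_nonneg hr _)]

/-- pointwise majorant of the rescaled kernel -/
theorem leb_abs_sca_le {η : E m → ℝ} {R B : ℝ} (hs : ∀ z, R ≤ ‖z‖ → η z = 0) (hB : ∀ z, ‖η z‖ ≤ B)
    (n : ℕ) (x y : E m) :
    |sca m n η (x - y)| ≤ (closedBall x (R / 2 ^ n)).indicator (fun _ => (2 : ℝ) ^ (n * m) * B) y := by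
  unfold sca
  by_cases hy : y ∈ closedBall x (R / 2 ^ n)
  · rw [indicator_of_mem hy, abs_mul, abs_of_nonneg (by positivity)]
    exact mul_le_mul_of_nonneg_left (hB _) (by positivity)
  · rw [indicator_of_notMem hy]
    rw [mem_closedBall, dist_comm, dist_eq_norm, not_le] at hy
    rw [hs, mul_zero, abs_zero]
    rw [norm_smul, Real.norm_of_nonneg (by positivity)]
    rw [div_lt_iff₀' (by positivity)] at hy
    exact hy.le

theorem ae_tendsto_moll (hm : 1 ≤ m) (η : E m → ℝ) (hη : Continuous η) (R : ℝ)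
    (hs : ∀ z, R ≤ ‖z‖ → η z = 0) (h1 : ∫ z, η z = 1) (μ : Measure (E m)) [IsFiniteMeasure μ] :
    ∀ᵐ x ∂(volume : Measure (E m)),
      Tendsto (fun n : ℕ => ∫ y, sca m n η (x - y) ∂μ) atTop
        (𝓝 (μ.rnDeriv volume x).toReal) := by
  have hR : 0 < R := by
    by_contra hR
    have h0 : ∀ z, η z = 0 := fun z => hs z ((not_lt.1 hR).trans (norm_nonneg z))
    simp [h0] at h1
  have hηc : HasCompactSupport η :=
    HasCompactSupport.intro (isCompact_closedBall (0 : E m) R) fun z hz => hs z (by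
      rw [mem_closedBall_zero_iff, not_le] at hz
      exact hz.le)
  obtain ⟨B, hB⟩ := hηc.exists_bound_of_continuous hη
  have hB0 : 0 ≤ B := (norm_nonneg _).trans (hB 0)
  set μs := μ.singularPart volume with hμs
  set f : E m → ℝ := fun y => (μ.rnDeriv volume y).toReal with hf
  have hfi : Integrable f := Measure.integrable_toReal_rnDeriv
  have hsing : μs ⟂ₘ volume := Measure.mutuallySingular_singularPart μ volume
  have hr : Tendsto (fun n : ℕ => R / 2 ^ n) atTop (𝓝[>] 0) := by
    rw [tendsto_nhdsWithin_iff]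
    refine ⟨tendsto_const_nhds.div_atTop (tendsto_pow_atTop_atTop_of_one_lt one_lt_two),
      Eventually.of_forall fun n => ?_⟩
    exact div_pos hR (by positivity)
  set V1 := (volume (ball (0 : E m) 1)).toReal with hV1
  have hV1pos : 0 < V1 :=
    ENNReal.toReal_pos (measure_ball_pos _ _ one_pos).ne' measure_ball_lt_top.ne
  set c : ℝ := B * (R ^ m * V1) with hc
  filter_upwards [(Besicovitch.vitaliFamily (volume : Measure (E m))).ae_eventually_measure_zero_of_singular
      hsing,
    (Besicovitch.vitaliFamily (volume : Measure (E m))).ae_tendsto_average_norm_sub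
      hfi.locallyIntegrable] with x hx1 hx2
  have t1 := (ENNReal.tendsto_toReal ENNReal.zero_ne_top).comp
    ((hx1.comp (Besicovitch.tendsto_filterAt volume x)).comp hr)
  have t2 := (hx2.comp (Besicovitch.tendsto_filterAt volume x)).comp hr
  have key : ∀ n : ℕ, ‖(∫ y, sca m n η (x - y) ∂μ) - f x‖
      ≤ c * ((μs (closedBall x (R / 2 ^ n)) / volume (closedBall x (R / 2 ^ n))).toReal
        + ⨍ y in closedBall x (R / 2 ^ n), ‖f y - f x‖) := by
    intro n
    set r := R / 2 ^ n with hrn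
    have hr0 : 0 < r := div_pos hR (by positivity)
    set a : ℝ := (2 : ℝ) ^ (n * m) * B with ha
    have ha0 : 0 ≤ a := by positivity
    have hvol : (volume (closedBall x r)).toReal = r ^ m * V1 := leb_vol_closedBall x hr0.le
    have hvolpos : 0 < (volume (closedBall x r)).toReal := by rw [hvol]; positivity
    have hac : a * (volume (closedBall x r)).toReal = c := by
      rw [hvol, ha, hc, hrn, div_pow, ← pow_mul]
      field_simp
    set g : E m → ℝ := fun y => sca m n η (x - y) with hg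
    have hgc : Continuous g := by
      simp only [hg]
      unfold sca
      exact continuous_const.mul (hη.comp ((continuous_const_smul _).comp
        (continuous_const.sub continuous_id)))
    have hgle : ∀ y, |g y| ≤ (closedBall x r).indicator (fun _ => a) y :=
      fun y => leb_abs_sca_le hs hB n x y
    have hgb : ∀ y, ‖g y‖ ≤ a := by
      intro y
      refine (hgle y).trans ?_
      by_cases hy : y ∈ closedBall x r
      · rw [indicator_of_mem hy]
      · rw [indicator_of_notMem hy]; exact ha0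
    have hgμ : Integrable g μ :=
      Integrable.of_bound hgc.aestronglyMeasurable a (Eventually.of_forall hgb)
    have hdec : μ = μs + volume.withDensity (μ.rnDeriv volume) :=
      Measure.haveLebesgueDecomposition_add μ volume
    have hgμ' : Integrable g (μs + volume.withDensity (μ.rnDeriv volume)) := by
      rw [← hdec]; exact hgμ
    obtain ⟨hg1, hg2⟩ := integrable_add_measure.1 hgμ'
    have e1 : ∫ y, g y ∂μ = (∫ y, g y ∂μs) + ∫ y, f y * g y := by
      conv_lhs => rw [hdec]
      rw [integral_add_measure hg1 hg2, integral_withDensity_eq_integral_toReal_smul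
        (Measure.measurable_rnDeriv μ volume) (Measure.rnDeriv_lt_top μ volume)]
      rfl
    have hgint : ∫ y, g y = 1 := by
      simp only [hg]
      rw [integral_sub_left_eq_self (sca m n η) volume x, integral_sca, h1]
    have hgi : Integrable g := by
      refine hgc.integrable_of_hasCompactSupport
        (HasCompactSupport.intro (isCompact_closedBall x r) fun y hy => ?_)
      have := hgle y
      rw [indicator_of_notMem hy] at this
      exact abs_nonpos_iff.1 this
    have hfg : Integrable fun y => f y * g y :=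
      hfi.mul_bdd (c := a) hgc.aestronglyMeasurable (Eventually.of_forall hgb)
    have e2 : (∫ y, f y * g y) - f x = ∫ y, (f y - f x) * g y := by
      have : f x = ∫ y, f x * g y := by rw [integral_const_mul, hgint, mul_one]
      conv_lhs => rw [this]
      rw [← integral_sub hfg (hgi.const_mul _)]
      refine integral_congr_ae (Eventually.of_forall fun y => ?_)
      simp only [sub_mul]
    -- singular part
    have b1 : ‖∫ y, g y ∂μs‖ ≤ c * (μs (closedBall x r) / volume (closedBall x r)).toReal := by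
      have hi : Integrable ((closedBall x r).indicator fun _ => a) μs :=
        (integrable_const a).indicator measurableSet_closedBall
      refine (norm_integral_le_of_norm_le hi (Eventually.of_forall hgle)).trans (le_of_eq ?_)
      rw [integral_indicator_const a measurableSet_closedBall, smul_eq_mul, Measure.real,
        ENNReal.toReal_div, ← hac]
      field_simp
    -- absolutely continuous part
    have b2 : ‖∫ y, (f y - f x) * g y‖ ≤ c * ⨍ y in closedBall x r, ‖f y - f x‖ := by
      have hion : IntegrableOn (fun y => a * ‖f y - f x‖) (closedBall x r) :=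
        ((hfi.integrableOn.sub (integrableOn_const measure_closedBall_lt_top.ne)).norm).const_mul a
      have hi : Integrable ((closedBall x r).indicator fun y => a * ‖f y - f x‖) :=
        hion.integrable_indicator measurableSet_closedBall
      refine (norm_integral_le_of_norm_le hi (Eventually.of_forall fun y => ?_)).trans (le_of_eq ?_)
      · rw [norm_mul, mul_comm]
        by_cases hy : y ∈ closedBall x r
        · rw [indicator_of_mem hy]
          exact mul_le_mul_of_nonneg_right (hgb y) (norm_nonneg _)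
        · have := hgle y
          rw [indicator_of_notMem hy] at this ⊢
          rw [Real.norm_eq_abs, abs_nonpos_iff.1 this]
          simp
      · rw [integral_indicator measurableSet_closedBall, integral_const_mul, setAverage_eq,
          smul_eq_mul, Measure.real, ← hac]
        field_simp
    calc ‖(∫ y, g y ∂μ) - f x‖ = ‖(∫ y, g y ∂μs) + ∫ y, (f y - f x) * g y‖ := by
          rw [e1, add_sub_assoc, e2]
      _ ≤ ‖∫ y, g y ∂μs‖ + ‖∫ y, (f y - f x) * g y‖ := norm_add_le _ _
      _ ≤ _ := by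
          rw [mul_add]
          exact add_le_add b1 b2
  rw [tendsto_iff_norm_sub_tendsto_zero]
  refine squeeze_zero (fun n => norm_nonneg _) key ?_
  have := (t1.add t2).const_mul c
  simpa using this

end Claimed.Agent.R322.CZ
end

/- ===== packed: Claimed.Agent.R322.CZ.Dist ===== -/
section
/-!
# R322 / CZ / Dist : pairing the convolutions with a `C¹` test function
(leaves L-CZ-DistKer = `dist_kernel0`, `dist_kernel`; L-CZ-DistMoll = `dist_moll`)

PLAN. Fubini (`integral_integral_swap`; the integrand `φ x * W (x - y)` is continuous, bounded, and supported in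
`tsupport φ × univ`, so integrable for `volume.prod μ`):
`∫ φ x (∫ W (x - y) dμ y) dx = ∫ (∫ φ x W (x - y) dx) dμ y`.
 * `dist_kernel0`: inner integral `≤ A ∫ |W|` (translation invariance).
 * `dist_kernel`: `∫ φ x pd i W (x - y) dx = - ∫ pd i φ x W (x - y) dx`
   (`integral_mul_fderiv_eq_neg_fderiv_mul_of_integrable`), `|pd i φ| ≤ ‖fderiv φ‖ ≤ A`.
 * `dist_moll`: `∫ φ x sca m n η (x - y) dx - φ y = ∫ (φ x - φ y) sca m n η (x - y) dx`, of modulus
   `≤ A (R / 2^n) ∫ |η|` (`integral_sca`, `integral_abs_sca` of `Scale.lean` may be imported), uniformly in `y`.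
-/

set_option autoImplicit false

namespace Claimed.Agent.R322.CZ

open MeasureTheory Set Metric Filter Topology
open scoped ENNReal ContDiff

variable {m : ℕ}

theorem dist_integrable_prod (K φ : E m → ℝ) (hK : Continuous K) (hKc : HasCompactSupport K)
    (hφ : Continuous φ) (hφc : HasCompactSupport φ) (μ : Measure (E m)) [IsFiniteMeasure μ] :
    Integrable (Function.uncurry fun x y => φ x * K (x - y)) ((volume : Measure (E m)).prod μ) := by
  obtain ⟨C, hC⟩ := hKc.exists_bound_of_continuous hK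
  have hφi : Integrable φ := hφ.integrable_of_hasCompactSupport hφc
  have h1 : Integrable (fun z : E m × E m => φ z.1 * C) ((volume : Measure (E m)).prod μ) :=
    hφi.mul_prod (integrable_const C)
  refine h1.mono ?_ (Eventually.of_forall fun z => ?_)
  · exact ((hφ.comp continuous_fst).mul
      (hK.comp (continuous_fst.sub continuous_snd))).aestronglyMeasurable
  · simp only [Function.uncurry, norm_mul]
    refine mul_le_mul_of_nonneg_left ((hC _).trans (le_abs_self C)) (norm_nonneg _)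

/-- Fubini -/
theorem dist_swap (K φ : E m → ℝ) (hK : Continuous K) (hKc : HasCompactSupport K)
    (hφ : Continuous φ) (hφc : HasCompactSupport φ) (μ : Measure (E m)) [IsFiniteMeasure μ] :
    ∫ x, φ x * ∫ y, K (x - y) ∂μ = ∫ y, (∫ x, φ x * K (x - y)) ∂μ := by
  have h := integral_integral_swap (dist_integrable_prod K φ hK hKc hφ hφc μ)
  simp only [integral_const_mul] at h
  exact h

theorem dist_integrable_inner (K φ : E m → ℝ) (hK : Continuous K) (hKc : HasCompactSupport K)
    (hφ : Continuous φ) (hφc : HasCompactSupport φ) (μ : Measure (E m)) [IsFiniteMeasure μ] :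
    Integrable (fun y => ∫ x, φ x * K (x - y)) μ :=
  (dist_integrable_prod K φ hK hKc hφ hφc μ).integral_prod_right

/-- the pairing as a pairing of the measures with the transposed convolution -/
theorem dist_eq_pr (K φ : E m → ℝ) (hK : Continuous K) (hKc : HasCompactSupport K)
    (hφ : Continuous φ) (hφc : HasCompactSupport φ)
    (μp μm : Measure (E m)) [IsFiniteMeasure μp] [IsFiniteMeasure μm] :
    ∫ x, φ x * cv K μp μm x = pr μp μm fun y => ∫ x, φ x * K (x - y) := by
  have hi : ∀ (μ : Measure (E m)) [IsFiniteMeasure μ],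
      Integrable (fun x => φ x * ∫ y, K (x - y) ∂μ) := fun μ _ =>
    (hφ.mul (continuous_conv_meas K hK hKc μ)).integrable_of_hasCompactSupport hφc.mul_right
  unfold cv pr
  simp only [mul_sub]
  rw [integral_sub (hi μp) (hi μm), dist_swap K φ hK hKc hφ hφc μp, dist_swap K φ hK hKc hφ hφc μm]

theorem dist_pr_abs_le (f : E m → ℝ) (c : ℝ) (hf : ∀ y, |f y| ≤ c)
    (μp μm : Measure (E m)) [IsFiniteMeasure μp] [IsFiniteMeasure μm] :
    |pr μp μm f| ≤ c * ms μp μm := by
  have h : ∀ μ : Measure (E m), [IsFiniteMeasure μ] → |∫ y, f y ∂μ| ≤ c * (μ univ).toReal :=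
    fun μ _ => norm_integral_le_of_norm_le_const (μ := μ) (f := f) (C := c)
      (Eventually.of_forall fun y => hf y)
  rw [pr, ms, mul_add]
  exact (abs_sub _ _).trans (add_le_add (h μp) (h μm))

/-- `|∫ f(x) W(x-y) dx| ≤ A ∫ |W|` -/
theorem dist_inner_le (W f : E m → ℝ) (hW : Continuous W) (hc : HasCompactSupport W) (A : ℝ)
    (hA : ∀ x, |f x| ≤ A) (y : E m) : |∫ x, f x * W (x - y)| ≤ A * ∫ z, |W z| := by
  have hWi : Integrable W := hW.integrable_of_hasCompactSupport hc
  have hWy : Integrable (fun x => |W (x - y)|) := (hWi.comp_sub_right y).abs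
  calc |∫ x, f x * W (x - y)| ≤ ∫ x, A * |W (x - y)| := by
        rw [← Real.norm_eq_abs]
        refine norm_integral_le_of_norm_le (hWy.const_mul A) (Eventually.of_forall fun x => ?_)
        rw [norm_mul, Real.norm_eq_abs, Real.norm_eq_abs]
        exact mul_le_mul_of_nonneg_right (hA x) (abs_nonneg _)
    _ = A * ∫ z, |W z| := by
        rw [integral_const_mul, integral_sub_right_eq_self (fun z => |W z|) y]

theorem dist_kernel0 (W : E m → ℝ) (hW : Continuous W) (hc : HasCompactSupport W)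
    (φ : E m → ℝ) (hφ : Continuous φ) (hφc : HasCompactSupport φ) (A : ℝ) (hA : ∀ y, |φ y| ≤ A)
    (μp μm : Measure (E m)) [IsFiniteMeasure μp] [IsFiniteMeasure μm] :
    |∫ x, φ x * cv W μp μm x| ≤ A * (∫ z, |W z|) * ms μp μm := by
  rw [dist_eq_pr W φ hW hc hφ hφc μp μm]
  exact dist_pr_abs_le _ _ (fun y => dist_inner_le W φ hW hc A hA y) μp μm

theorem dist_continuous_pd {W : E m → ℝ} (hW : ContDiff ℝ 1 W) (i : Fin m) : Continuous (pd i W) :=
  (hW.continuous_fderiv one_ne_zero).clm_apply continuous_const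

theorem dist_hasCompactSupport_pd {W : E m → ℝ} (hc : HasCompactSupport W) (i : Fin m) :
    HasCompactSupport (pd i W) := by
  have h := hc.fderiv (𝕜 := ℝ)
  refine h.mono fun x hx => ?_
  intro h0
  apply hx
  unfold pd
  rw [h0]
  rfl

theorem dist_abs_pd_le {φ : E m → ℝ} {A : ℝ} (hA : ∀ y, ‖fderiv ℝ φ y‖ ≤ A) (i : Fin m) (y : E m) :
    |pd i φ y| ≤ A := by
  unfold pd
  have h1 := (fderiv ℝ φ y).le_opNorm (EuclideanSpace.single i (1 : ℝ))
  rw [PiLp.norm_single, norm_one, mul_one, Real.norm_eq_abs] at h1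
  exact h1.trans (hA y)

theorem dist_kernel (W : E m → ℝ) (hW : ContDiff ℝ 1 W) (hc : HasCompactSupport W)
    (φ : E m → ℝ) (hφ : ContDiff ℝ 1 φ) (hφc : HasCompactSupport φ) (A : ℝ)
    (hA : ∀ y, ‖fderiv ℝ φ y‖ ≤ A) (i : Fin m)
    (μp μm : Measure (E m)) [IsFiniteMeasure μp] [IsFiniteMeasure μm] :
    |∫ x, φ x * cv (pd i W) μp μm x| ≤ A * (∫ z, |W z|) * ms μp μm := by
  rw [dist_eq_pr (pd i W) φ (dist_continuous_pd hW i) (dist_hasCompactSupport_pd hc i)
    hφ.continuous hφc μp μm]
  refine dist_pr_abs_le _ _ (fun y => ?_) μp μm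
  have hWy : ContDiff ℝ 1 (fun x => W (x - y)) := hW.comp (contDiff_id.sub contDiff_const)
  have hfd : ∀ x, fderiv ℝ (fun x => W (x - y)) x (EuclideanSpace.single i (1 : ℝ))
      = pd i W (x - y) := by
    intro x
    unfold pd
    rw [fderiv_comp_sub]
  have hcs : Continuous fun x : E m => x - y := continuous_id.sub continuous_const
  have key := integral_mul_fderiv_eq_neg_fderiv_mul_of_integrable (μ := (volume : Measure (E m)))
    (f := φ) (g := fun x => W (x - y)) (v := EuclideanSpace.single i (1 : ℝ))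
    (((dist_continuous_pd hφ i).mul (hW.continuous.comp hcs)).integrable_of_hasCompactSupport
      (dist_hasCompactSupport_pd hφc i).mul_right)
    (by
      simp only [hfd]
      exact (hφ.continuous.mul ((dist_continuous_pd hW i).comp hcs)).integrable_of_hasCompactSupport
        hφc.mul_right)
    ((hφ.continuous.mul (hW.continuous.comp hcs)).integrable_of_hasCompactSupport hφc.mul_right)
    (fun x _ => (hφ.differentiable one_ne_zero) x) (fun x _ => (hWy.differentiable one_ne_zero) x)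
  simp only [hfd] at key
  rw [key, abs_neg]
  exact dist_inner_le W (pd i φ) hW.continuous hc A (dist_abs_pd_le hA i) y

theorem dist_continuous_sca (w n : ℕ) {f : E m → ℝ} (hf : Continuous f) : Continuous (sca w n f) := by
  unfold sca
  exact continuous_const.mul (hf.comp (continuous_const_smul _))

theorem dist_sca_zero_off (w n : ℕ) {f : E m → ℝ} {R : ℝ} (hs : ∀ z, R ≤ ‖z‖ → f z = 0) {z : E m}
    (hz : R / 2 ^ n ≤ ‖z‖) : sca w n f z = 0 := by
  unfold sca
  rw [hs, mul_zero]
  rw [norm_smul, Real.norm_of_nonneg (by positivity)]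
  rwa [div_le_iff₀' (by positivity)] at hz

theorem dist_hasCompactSupport_sca (w n : ℕ) {f : E m → ℝ} {R : ℝ}
    (hs : ∀ z, R ≤ ‖z‖ → f z = 0) : HasCompactSupport (sca w n f) := by
  refine HasCompactSupport.intro (isCompact_closedBall (0 : E m) (R / 2 ^ n)) fun z hz => ?_
  rw [mem_closedBall_zero_iff, not_le] at hz
  exact dist_sca_zero_off w n hs hz.le

/-- uniform convergence of the transposed mollification -/
theorem dist_moll_inner (η : E m → ℝ) (hη : Continuous η) (R : ℝ) (hs : ∀ z, R ≤ ‖z‖ → η z = 0)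
    (h1 : ∫ z, η z = 1) (φ : E m → ℝ) (hφ : Continuous φ) (A : ℝ) (hA0 : 0 ≤ A)
    (hA : ∀ x y, |φ x - φ y| ≤ A * ‖x - y‖) (n : ℕ) (y : E m) :
    |(∫ x, φ x * sca m n η (x - y)) - φ y| ≤ A * (R / 2 ^ n) * ∫ z, |η z| := by
  have hc : Continuous (sca m n η) := dist_continuous_sca m n hη
  have hcs : HasCompactSupport (sca m n η) := dist_hasCompactSupport_sca m n hs
  have hi : Integrable (sca m n η) := hc.integrable_of_hasCompactSupport hcs
  have hsub : Continuous fun x : E m => x - y := continuous_id.sub continuous_const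
  have hcy : Continuous fun x => sca m n η (x - y) := hc.comp hsub
  have hcsy : HasCompactSupport fun x => sca m n η (x - y) :=
    hcs.comp_homeomorph (Homeomorph.subRight y)
  have e1 : ∫ x, sca m n η (x - y) = 1 := by
    rw [integral_sub_right_eq_self (sca m n η) y, integral_sca, h1]
  have e2 : φ y = ∫ x, φ y * sca m n η (x - y) := by
    rw [integral_const_mul, e1, mul_one]
  have i1 : Integrable fun x => φ x * sca m n η (x - y) :=
    (hφ.mul hcy).integrable_of_hasCompactSupport hcsy.mul_left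
  have i2 : Integrable fun x => φ y * sca m n η (x - y) := (hi.comp_sub_right y).const_mul _
  have e3 : (∫ x, φ x * sca m n η (x - y)) - φ y = ∫ x, (φ x - φ y) * sca m n η (x - y) := by
    conv_lhs => rw [e2]
    rw [← integral_sub i1 i2]
    refine integral_congr_ae (Eventually.of_forall fun x => ?_)
    simp only [sub_mul]
  rw [e3, ← Real.norm_eq_abs]
  have i3 : Integrable fun x => A * (R / 2 ^ n) * |sca m n η (x - y)| :=
    ((hi.comp_sub_right y).abs).const_mul _
  refine (norm_integral_le_of_norm_le i3 (Eventually.of_forall fun x => ?_)).trans (le_of_eq ?_)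
  · rw [norm_mul, Real.norm_eq_abs, Real.norm_eq_abs]
    rcases le_or_gt (R / 2 ^ n) ‖x - y‖ with h | h
    · rw [dist_sca_zero_off m n hs h]
      simp
    · refine mul_le_mul_of_nonneg_right ((hA x y).trans ?_) (abs_nonneg _)
      exact mul_le_mul_of_nonneg_left h.le hA0
  · rw [integral_const_mul, integral_sub_right_eq_self (fun z => |sca m n η z|) y, integral_abs_sca]

theorem dist_moll (η : E m → ℝ) (hη : Continuous η) (R : ℝ) (hs : ∀ z, R ≤ ‖z‖ → η z = 0)
    (h1 : ∫ z, η z = 1) (φ : E m → ℝ) (hφ : ContDiff ℝ 1 φ) (hφc : HasCompactSupport φ)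
    (μp μm : Measure (E m)) [IsFiniteMeasure μp] [IsFiniteMeasure μm] :
    Tendsto (fun n : ℕ => ∫ x, φ x * cv (sca m n η) μp μm x) atTop (𝓝 (pr μp μm φ)) := by
  obtain ⟨A, hA⟩ := (hφc.fderiv (𝕜 := ℝ)).exists_bound_of_continuous
    (hφ.continuous_fderiv one_ne_zero)
  have hA0 : 0 ≤ A := (norm_nonneg _).trans (hA 0)
  have hlip : ∀ x y, |φ x - φ y| ≤ A * ‖x - y‖ := by
    intro x y
    have := Convex.norm_image_sub_le_of_norm_fderiv_le (𝕜 := ℝ) (f := φ) (s := univ) (C := A)
      (fun z _ => (hφ.differentiable one_ne_zero) z) (fun z _ => hA z) convex_univ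
      (mem_univ y) (mem_univ x)
    rwa [Real.norm_eq_abs] at this
  obtain ⟨Cφ, hCφ⟩ := hφc.exists_bound_of_continuous hφ.continuous
  have hφi : ∀ (μ : Measure (E m)) [IsFiniteMeasure μ], Integrable φ μ := fun μ _ =>
    Integrable.of_bound hφ.continuous.aestronglyMeasurable Cφ (Eventually.of_forall hCφ)
  have key : ∀ n : ℕ, ‖(∫ x, φ x * cv (sca m n η) μp μm x) - pr μp μm φ‖
      ≤ (A * R * (∫ z, |η z|) * ms μp μm) / 2 ^ n := by
    intro n
    have hc : Continuous (sca m n η) := dist_continuous_sca m n hη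
    have hcs : HasCompactSupport (sca m n η) := dist_hasCompactSupport_sca m n hs
    rw [dist_eq_pr (sca m n η) φ hc hcs hφ.continuous hφc μp μm]
    have e : pr μp μm (fun y => ∫ x, φ x * sca m n η (x - y)) - pr μp μm φ
        = pr μp μm fun y => (∫ x, φ x * sca m n η (x - y)) - φ y := by
      unfold pr
      rw [integral_sub (dist_integrable_inner _ φ hc hcs hφ.continuous hφc μp) (hφi μp),
        integral_sub (dist_integrable_inner _ φ hc hcs hφ.continuous hφc μm) (hφi μm)]
      ring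
    rw [e, Real.norm_eq_abs]
    refine (dist_pr_abs_le _ _ (fun y => dist_moll_inner η hη R hs h1 φ hφ.continuous A hA0 hlip n y)
      μp μm).trans (le_of_eq ?_)
    ring
  rw [tendsto_iff_norm_sub_tendsto_zero]
  refine squeeze_zero (fun n => norm_nonneg _) key ?_
  exact tendsto_const_nhds.div_atTop (tendsto_pow_atTop_atTop_of_one_lt one_lt_two)

end Claimed.Agent.R322.CZ
end

/- ===== packed: Claimed.Agent.R322.CZ.Main ===== -/
section
/-!
# R322 / CZ / Main : the scalar potential estimate (AE Lemma 2.4)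

Self-contained analysis package.  Signed measures are given as differences of finite positive
measures on `E m`; only their restrictions to the unit ball matter.  The equation
`∂_j v = Σ_i ∂_i F_ij + g_j` holds in the sense of distributions on `ball 0 1`; the conclusions hold
on `ball 0 θ`, for any fixed `θ < 1` ("fixed changes of the radii").  Other balls: by translation and
dilation (done by the user).

Route: see `CZ/Defs.lean`.  (`0 ≤ ε` was added to the first version of the statement: for `ε < 0` and zero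
measures the second conclusion would read `0 ≤ C ε A < 0`.)
-/

set_option autoImplicit false

namespace Claimed.Agent.R322.CZ

open MeasureTheory Set Metric Filter Topology
open scoped ENNReal ContDiff

theorem cv_sub {m : ℕ} (f g : E m → ℝ) (hf : Continuous f) (hfc : HasCompactSupport f)
    (hg : Continuous g) (hgc : HasCompactSupport g)
    (μp μm : Measure (E m)) [IsFiniteMeasure μp] [IsFiniteMeasure μm] (x : E m) :
    cv (fun z => f z - g z) μp μm x = cv f μp μm x - cv g μp μm x := by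
  unfold cv
  rw [integral_sub (integrable_conv_meas f hf hfc μp x) (integrable_conv_meas g hg hgc μp x),
    integral_sub (integrable_conv_meas f hf hfc μm x) (integrable_conv_meas g hg hgc μm x)]
  ring

/-- index type of the terms of the representation. -/
abbrev Ix (m : ℕ) := (Fin m × Fin m) ⊕ (Fin m ⊕ Unit)

/-- the terms of the representation of `η_n * v - c`. -/
noncomputable def term {m : ℕ} {R : ℝ} (K : Ker m R) (S : Sol m) (n : ℕ) : Ix m → E m → ℝ
  | Sum.inl p => cv (K.kk n p.2 p.1) (S.Fp p.2 p.1) (S.Fm p.2 p.1)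
  | Sum.inr (Sum.inl j) => cv (K.Z n j) (S.gp j) (S.gm j)
  | Sum.inr (Sum.inr _) => fun y => cv K.eta S.vp S.vm y - cv K.eta S.vp S.vm 0

/-- their weights. -/
noncomputable def wgt {m : ℕ} (S : Sol m) : Ix m → ℝ
  | Sum.inl p => ms (S.Fp p.2 p.1) (S.Fm p.2 p.1)
  | Sum.inr (Sum.inl j) => ms (S.gp j) (S.gm j)
  | Sum.inr (Sum.inr _) => S.ε

theorem ms_nonneg {m : ℕ} (μp μm : Measure (E m)) : 0 ≤ ms μp μm :=
  add_nonneg ENNReal.toReal_nonneg ENNReal.toReal_nonneg

theorem wgt_nonneg {m : ℕ} (S : Sol m) (p : Ix m) : 0 ≤ wgt S p := by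
  rcases p with p | j | u
  · exact ms_nonneg _ _
  · exact ms_nonneg _ _
  · exact S.ε_nonneg

theorem sum_wgt_le {m : ℕ} (S : Sol m) : ∑ p, wgt S p ≤ 2 * S.ε := by
  have h := S.mass_real
  rw [Fintype.sum_sum_type, Fintype.sum_sum_type, Fintype.sum_prod_type]
  simp only [wgt, Finset.univ_unique, Finset.sum_const, Finset.card_singleton, one_smul]
  rw [Finset.sum_comm] at h
  linarith

theorem sum_term {m : ℕ} {R θ : ℝ} (hm : 1 ≤ m) (K : Ker m R) (S : Sol m) (hθ : 0 < θ) (hR : 0 < R)
    (hθR : θ + R < 1) (n : ℕ) (x : E m) (hx : x ∈ ball (0 : E m) θ) :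
    ∑ p, term K S n p x = cv (sca m n K.eta) S.vp S.vm x - cv K.eta S.vp S.vm 0 := by
  have := S.fin_vp
  have := S.fin_vm
  have h := S.repr hθ hR hθR (K.Z n) (K.Z_smooth n) (fun j z hz => K.Z_zero n j hz) x hx
  have h1 : (fun z => ∑ j, pd j (K.Z n j) z) = fun z => sca m n K.eta z - K.eta z :=
    funext (K.Z_div hm n)
  have hsc : HasCompactSupport (sca m n K.eta) := by
    refine HasCompactSupport.intro (isCompact_closedBall (0 : E m) R) ?_
    intro z hz
    refine sca_eq_zero m n (fun z hz => K.eta_zero hz) ?_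
    simp only [mem_closedBall, dist_zero_right, not_le] at hz
    exact hz.le
  rw [h1, cv_sub _ _ (contDiff_sca m n K.eta_smooth).continuous hsc K.eta_smooth.continuous
    K.eta_hasCompactSupport] at h
  rw [Fintype.sum_sum_type, Fintype.sum_sum_type, Fintype.sum_prod_type]
  simp only [term, Finset.univ_unique, Finset.sum_const, Finset.card_singleton, one_smul]
  have h2 : ∀ i j, pd i (K.Z n j) = K.kk n i j := fun i j => rfl
  simp only [h2] at h
  linarith


/-- weak type bound of every term. -/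
theorem weak_term {m : ℕ} {R θ : ℝ} (hm : 1 ≤ m) (K : Ker m R) (hθ : 0 < θ) (hR : 0 < R)
    (hθR : θ + R < 1) : ∃ C : ℝ, 0 ≤ C ∧ ∀ (S : Sol m) (n : ℕ) (p : Ix m) (τ : ℝ), 0 < τ →
      volume {y | y ∈ ball (0 : E m) θ ∧ τ < |term K S n p y|}
        ≤ ENNReal.ofReal (C * wgt S p / τ) := by
  obtain ⟨Cb, hCb0, hb1, hb2, -, hb4⟩ := K.exists_bounds hm hR
  obtain ⟨H, hH0, hH⟩ := K.hormander hm hR
  obtain ⟨A, hA0, hA⟩ := K.l2 hm hR
  obtain ⟨Cw, hCw0, hw⟩ := weak11 m
  set om : ℝ := (volume (ball (0 : E m) 1)).toReal with hom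
  have hom0 : 0 ≤ om := ENNReal.toReal_nonneg
  have hθ1 : θ ≤ 1 := by linarith
  have hP1 : 0 ≤ Cw * (A + H + 1) := by positivity
  have hP2 : 0 ≤ om * Cb := by positivity
  refine ⟨Cw * (A + H + 1) + Cb + om * Cb, by positivity, ?_⟩
  intro S n p τ hτ
  have hmono : ∀ a : ℝ, 0 ≤ a → a ≤ Cw * (A + H + 1) + Cb + om * Cb →
      ENNReal.ofReal (a * wgt S p / τ)
        ≤ ENNReal.ofReal ((Cw * (A + H + 1) + Cb + om * Cb) * wgt S p / τ) := by
    intro a _ ha
    apply ENNReal.ofReal_le_ofReal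
    apply div_le_div_of_nonneg_right _ hτ.le
    exact mul_le_mul_of_nonneg_right ha (wgt_nonneg S p)
  rcases p with p | j | u
  · have := S.fin_Fp p.2 p.1
    have := S.fin_Fm p.2 p.1
    obtain ⟨L, hL0, hL⟩ := K.kk_lipschitz n p.2 p.1
    have h1 := hw (K.kk n p.2 p.1) A H L hA0 hH0 hL0 hL
      (fun x hx => K.kk_zero n p.2 p.1 (by linarith)) (hA n p.2 p.1) (hH n p.2 p.1)
      (S.Fp p.2 p.1) (S.Fm p.2 p.1) τ hτ
    refine le_trans (measure_mono ?_) (h1.trans ?_)
    · rintro y ⟨hy, hlt⟩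
      exact ⟨ball_subset_ball hθ1 hy, hlt⟩
    · exact hmono _ hP1 (by linarith)
  · have := S.fin_gp j
    have := S.fin_gm j
    have h1 := cheb_cv (K.Z n j) (K.Z_smooth n j).continuous (K.Z_hasCompactSupport n j)
      (S.gp j) (S.gm j) τ hτ
    refine le_trans (measure_mono ?_) (h1.trans ?_)
    · rintro y ⟨_, hlt⟩
      exact hlt
    · refine le_trans ?_ (hmono Cb hCb0 (by linarith))
      apply ENNReal.ofReal_le_ofReal
      apply div_le_div_of_nonneg_right _ hτ.le
      exact mul_le_mul_of_nonneg_right (hb4 n j) (ms_nonneg _ _)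
  · have hrem : ∀ y ∈ ball (0 : E m) θ, |term K S n (Sum.inr (Sum.inr u)) y| ≤ Cb * S.ε :=
      fun y hy => S.remainder hθ hR hθR K.eta K.eta_smooth (fun z hz => K.eta_zero hz) Cb hb1 hb2 y hy
    refine le_trans ?_ (hmono (om * Cb) hP2 (by linarith))
    by_cases hcase : τ < Cb * S.ε
    · calc volume {y | y ∈ ball (0 : E m) θ ∧ τ < |term K S n (Sum.inr (Sum.inr u)) y|}
          ≤ volume (ball (0 : E m) 1) :=
            measure_mono (fun y hy => ball_subset_ball hθ1 hy.1)
        _ = ENNReal.ofReal om := by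
            rw [hom, ENNReal.ofReal_toReal measure_ball_lt_top.ne]
        _ ≤ ENNReal.ofReal (om * Cb * wgt S (Sum.inr (Sum.inr u)) / τ) := by
            apply ENNReal.ofReal_le_ofReal
            rw [le_div_iff₀ hτ]
            have : wgt S (Sum.inr (Sum.inr u)) = S.ε := rfl
            rw [this]
            nlinarith
    · have : {y | y ∈ ball (0 : E m) θ ∧ τ < |term K S n (Sum.inr (Sum.inr u)) y|} = ∅ := by
        ext y
        simp only [Set.mem_ofPred_eq, mem_empty_iff_false, iff_false, not_and, not_lt]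
        intro hy
        exact (hrem y hy).trans (not_lt.mp hcase)
      rw [this]
      simp


theorem continuous_term {m : ℕ} {R : ℝ} (K : Ker m R) (S : Sol m) (n : ℕ) (p : Ix m) :
    Continuous (term K S n p) := by
  rcases p with p | j | u
  · have := S.fin_Fp p.2 p.1
    have := S.fin_Fm p.2 p.1
    exact continuous_cv _ (K.kk_smooth n p.2 p.1).continuous (K.kk_hasCompactSupport n p.2 p.1) _ _
  · have := S.fin_gp j
    have := S.fin_gm j
    exact continuous_cv _ (K.Z_smooth n j).continuous (K.Z_hasCompactSupport n j) _ _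
  · have := S.fin_vp
    have := S.fin_vm
    exact (continuous_cv _ K.eta_smooth.continuous K.eta_hasCompactSupport _ _).sub
      continuous_const

/-- distributional bound of every term. -/
theorem dist_term {m : ℕ} {R θ : ℝ} (hm : 1 ≤ m) (K : Ker m R) (hθ : 0 < θ) (hR : 0 < R)
    (hθR : θ + R < 1) : ∃ C : ℝ, 0 ≤ C ∧ ∀ (S : Sol m) (n : ℕ) (p : Ix m) (φ : E m → ℝ) (A : ℝ),
      ContDiff ℝ 1 φ → tsupport φ ⊆ ball (0 : E m) θ →
      (∀ y, |φ y| ≤ A) → (∀ y, ‖fderiv ℝ φ y‖ ≤ A) →
      |∫ x, φ x * term K S n p x| ≤ C * A * wgt S p := by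
  obtain ⟨Cb, hCb0, hb1, hb2, -, hb4⟩ := K.exists_bounds hm hR
  set om : ℝ := (volume (ball (0 : E m) 1)).toReal with hom
  have hom0 : 0 ≤ om := ENNReal.toReal_nonneg
  have hθ1 : θ ≤ 1 := by linarith
  have hP2 : 0 ≤ om * Cb := by positivity
  refine ⟨Cb + om * Cb, by positivity, ?_⟩
  intro S n p φ A hφ hsupp hA0 hA1
  have hAnn : 0 ≤ A := (abs_nonneg _).trans (hA0 0)
  have hφc : HasCompactSupport φ :=
    IsCompact.of_isClosed_subset (isCompact_closedBall (0 : E m) θ) (isClosed_tsupport φ)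
      (hsupp.trans ball_subset_closedBall)
  rcases p with p | j | u
  · have := S.fin_Fp p.2 p.1
    have := S.fin_Fm p.2 p.1
    have h1 := dist_kernel (K.Z n p.1) ((K.Z_smooth n p.1).of_le (by norm_num))
      (K.Z_hasCompactSupport n p.1) φ hφ hφc A hA1 p.2 (S.Fp p.2 p.1) (S.Fm p.2 p.1)
    refine h1.trans ?_
    have hw : wgt S (Sum.inl p) = ms (S.Fp p.2 p.1) (S.Fm p.2 p.1) := rfl
    rw [hw]
    have h2 := hb4 n p.1
    have h3 := ms_nonneg (S.Fp p.2 p.1) (S.Fm p.2 p.1)
    apply mul_le_mul_of_nonneg_right _ h3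
    nlinarith [mul_nonneg hP2 hAnn]
  · have := S.fin_gp j
    have := S.fin_gm j
    have h1 := dist_kernel0 (K.Z n j) (K.Z_smooth n j).continuous
      (K.Z_hasCompactSupport n j) φ hφ.continuous hφc A hA0 (S.gp j) (S.gm j)
    refine h1.trans ?_
    have hw : wgt S (Sum.inr (Sum.inl j)) = ms (S.gp j) (S.gm j) := rfl
    rw [hw]
    have h2 := hb4 n j
    have h3 := ms_nonneg (S.gp j) (S.gm j)
    apply mul_le_mul_of_nonneg_right _ h3
    nlinarith [mul_nonneg hP2 hAnn]
  · have hrem : ∀ y ∈ ball (0 : E m) θ, |term K S n (Sum.inr (Sum.inr u)) y| ≤ Cb * S.ε :=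
      fun y hy => S.remainder hθ hR hθR K.eta K.eta_smooth (fun z hz => K.eta_zero hz) Cb hb1 hb2 y hy
    have hw : wgt S (Sum.inr (Sum.inr u)) = S.ε := rfl
    rw [hw]
    have hz : ∀ x, x ∉ ball (0 : E m) 1 → φ x * term K S n (Sum.inr (Sum.inr u)) x = 0 := by
      intro x hx
      have : φ x = 0 := by
        apply image_eq_zero_of_notMem_tsupport
        intro h
        exact hx (ball_subset_ball hθ1 (hsupp h))
      rw [this, zero_mul]
    rw [← setIntegral_eq_integral_of_forall_compl_eq_zero hz, ← Real.norm_eq_abs]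
    have hbd : ∀ x ∈ ball (0 : E m) 1, ‖φ x * term K S n (Sum.inr (Sum.inr u)) x‖
        ≤ A * (Cb * S.ε) := by
      intro x _
      by_cases hx : x ∈ ball (0 : E m) θ
      · rw [norm_mul, Real.norm_eq_abs, Real.norm_eq_abs]
        exact mul_le_mul (hA0 x) (hrem x hx) (abs_nonneg _) hAnn
      · have : φ x = 0 := by
          apply image_eq_zero_of_notMem_tsupport
          intro h
          exact hx (hsupp h)
        rw [this, zero_mul, norm_zero]
        exact mul_nonneg hAnn (mul_nonneg hCb0 S.ε_nonneg)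
    have h1 := norm_setIntegral_le_of_norm_le_const (μ := (volume : Measure (E m)))
      measure_ball_lt_top hbd
    refine h1.trans ?_
    have : (volume : Measure (E m)).real (ball (0 : E m) 1) = om := rfl
    rw [this]
    have := S.ε_nonneg
    nlinarith [mul_nonneg (mul_nonneg hCb0 hAnn) this]


/-- union bound for a finite sum of functions. -/
theorem meas_sum_bound {α ι : Type*} [MeasurableSpace α] (μ : Measure α) (s : Finset ι)
    (f : ι → α → ℝ) (a : ι → ℝ≥0∞) (Bs : Set α) (τ : ℝ)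
    (h : ∀ i ∈ s, μ {y | y ∈ Bs ∧ τ < |f i y|} ≤ a i) :
    μ {y | y ∈ Bs ∧ (s.card : ℝ) * τ < |∑ i ∈ s, f i y|} ≤ ∑ i ∈ s, a i := by
  have hsub : {y | y ∈ Bs ∧ (s.card : ℝ) * τ < |∑ i ∈ s, f i y|}
      ⊆ ⋃ i ∈ s, {y | y ∈ Bs ∧ τ < |f i y|} := by
    rintro y ⟨hy, hlt⟩
    by_contra hcon
    simp only [mem_iUnion, Set.mem_ofPred_eq, not_exists, not_and, not_lt] at hcon
    have : |∑ i ∈ s, f i y| ≤ s.card * τ := calc
      |∑ i ∈ s, f i y| ≤ ∑ i ∈ s, |f i y| := Finset.abs_sum_le_sum_abs _ _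
      _ ≤ ∑ _i ∈ s, τ := Finset.sum_le_sum (fun i hi => hcon i hi hy)
      _ = s.card * τ := by simp [nsmul_eq_mul]
    linarith
  calc μ {y | y ∈ Bs ∧ (s.card : ℝ) * τ < |∑ i ∈ s, f i y|}
      ≤ μ (⋃ i ∈ s, {y | y ∈ Bs ∧ τ < |f i y|}) := measure_mono hsub
    _ ≤ ∑ i ∈ s, μ {y | y ∈ Bs ∧ τ < |f i y|} := measure_biUnion_finset_le _ _
    _ ≤ ∑ i ∈ s, a i := Finset.sum_le_sum h

/-- the two conclusions for bundled data. -/
theorem potential_sol (m : ℕ) (hm : 1 ≤ m) (θ : ℝ) (hθ0 : 0 < θ) (hθ1 : θ < 1) :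
    ∃ C : ℝ, 0 < C ∧ ∀ S : Sol m, ∃ c : ℝ,
        (∀ t : ℝ, 0 < t →
          volume {y : E m | y ∈ ball (0 : E m) θ ∧
              t < |(S.vp.rnDeriv volume y).toReal - (S.vm.rnDeriv volume y).toReal - c|}
            ≤ ENNReal.ofReal (C * S.ε / t)) ∧
        (∀ (φ : E m → ℝ) (A : ℝ), ContDiff ℝ 1 φ → tsupport φ ⊆ ball (0 : E m) θ →
          (∀ y, |φ y| ≤ A) → (∀ y, ‖fderiv ℝ φ y‖ ≤ A) →
          |pr S.vp S.vm φ - c * ∫ y, φ y| ≤ C * S.ε * A) := by
  have hR : 0 < (1 - θ) / 2 := by linarith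
  have hθR : θ + (1 - θ) / 2 < 1 := by linarith
  obtain ⟨K⟩ := exists_ker m hm ((1 - θ) / 2) hR
  obtain ⟨C1, hC1, hweak⟩ := weak_term hm K hθ0 hR hθR
  obtain ⟨C2, hC2, hdist⟩ := dist_term hm K hθ0 hR hθR
  set cd : ℝ := ((Finset.univ : Finset (Ix m)).card : ℝ) with hcd
  have hcd0 : 0 < cd := by
    rw [hcd]
    have : 0 < (Finset.univ : Finset (Ix m)).card :=
      Finset.card_pos.mpr ⟨Sum.inr (Sum.inr ()), Finset.mem_univ _⟩
    exact_mod_cast this
  refine ⟨2 * C1 * cd + 2 * C2 + 1, by positivity, ?_⟩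
  intro S
  have := S.fin_vp
  have := S.fin_vm
  have hε := S.ε_nonneg
  set c : ℝ := cv K.eta S.vp S.vm 0 with hc
  have hsw := sum_wgt_le S
  refine ⟨c, ?_, ?_⟩
  · intro t ht
    -- bound at generation `n`
    have hn : ∀ n : ℕ, volume {y : E m | y ∈ ball (0 : E m) θ ∧
        t < |cv (sca m n K.eta) S.vp S.vm y - c|}
        ≤ ENNReal.ofReal ((2 * C1 * cd + 2 * C2 + 1) * S.ε / t) := by
      intro n
      have hτ : 0 < t / cd := by positivity
      have h1 := meas_sum_bound (volume : Measure (E m)) (Finset.univ : Finset (Ix m))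
        (term K S n) (fun p => ENNReal.ofReal (C1 * wgt S p / (t / cd))) (ball (0 : E m) θ) (t / cd)
        (fun p _ => hweak S n p (t / cd) hτ)
      have h2 : ((Finset.univ : Finset (Ix m)).card : ℝ) * (t / cd) = t := by
        rw [← hcd]; field_simp
      rw [h2] at h1
      refine le_trans (measure_mono ?_) (h1.trans ?_)
      · rintro y ⟨hy, hlt⟩
        refine ⟨hy, ?_⟩
        rw [sum_term hm K S hθ0 hR hθR n y hy]
        exact hlt
      · rw [← ENNReal.ofReal_sum_of_nonneg
          (fun p _ => div_nonneg (mul_nonneg hC1 (wgt_nonneg S p)) hτ.le)]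
        apply ENNReal.ofReal_le_ofReal
        rw [← Finset.sum_div, ← Finset.mul_sum, div_div_eq_mul_div]
        apply div_le_div_of_nonneg_right _ ht.le
        have h3 : C1 * ∑ p, wgt S p ≤ C1 * (2 * S.ε) := mul_le_mul_of_nonneg_left hsw hC1
        have h4 : C1 * (∑ p, wgt S p) * cd ≤ C1 * (2 * S.ε) * cd :=
          mul_le_mul_of_nonneg_right h3 hcd0.le
        nlinarith [mul_nonneg hC2 hε]
    refine meas_le_of_eventually volume _ _ _ ?_ hn
    have hp := ae_tendsto_moll hm K.eta K.eta_smooth.continuous ((1 - θ) / 2)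
      (fun z hz => K.eta_zero hz) K.eta_mass S.vp
    have hq := ae_tendsto_moll hm K.eta K.eta_smooth.continuous ((1 - θ) / 2)
      (fun z hz => K.eta_zero hz) K.eta_mass S.vm
    filter_upwards [hp, hq] with y hyp hyq
    rintro ⟨hy, hlt⟩
    have hlim : Tendsto (fun n : ℕ => |cv (sca m n K.eta) S.vp S.vm y - c|) atTop
        (𝓝 |(S.vp.rnDeriv volume y).toReal - (S.vm.rnDeriv volume y).toReal - c|) :=
      ((hyp.sub hyq).sub tendsto_const_nhds).abs
    filter_upwards [hlim.eventually (lt_mem_nhds hlt)] with n hn'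
    exact ⟨hy, hn'⟩
  · intro φ A hφ hsupp hA0 hA1
    have hAnn : 0 ≤ A := (abs_nonneg _).trans (hA0 0)
    have hφc : HasCompactSupport φ :=
      IsCompact.of_isClosed_subset (isCompact_closedBall (0 : E m) θ) (isClosed_tsupport φ)
        (hsupp.trans ball_subset_closedBall)
    have hlim := dist_moll K.eta K.eta_smooth.continuous ((1 - θ) / 2)
      (fun z hz => K.eta_zero hz) K.eta_mass φ hφ hφc S.vp S.vm
    have hlim2 : Tendsto (fun n : ℕ => |(∫ x, φ x * cv (sca m n K.eta) S.vp S.vm x)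
        - c * ∫ y, φ y|) atTop (𝓝 |pr S.vp S.vm φ - c * ∫ y, φ y|) :=
      (hlim.sub tendsto_const_nhds).abs
    refine le_of_tendsto hlim2 (Eventually.of_forall ?_)
    intro n
    have hsc : HasCompactSupport (sca m n K.eta) := by
      refine HasCompactSupport.intro (isCompact_closedBall (0 : E m) ((1 - θ) / 2)) ?_
      intro z hz
      refine sca_eq_zero m n (fun z hz => K.eta_zero hz) ?_
      simp only [mem_closedBall, dist_zero_right, not_le] at hz
      exact hz.le
    have hint : ∀ f : E m → ℝ, Continuous f → Integrable (fun x => φ x * f x) := fun f hf =>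
      (hφ.continuous.mul hf).integrable_of_hasCompactSupport hφc.mul_right
    have hI1 := hint _ (continuous_cv (sca m n K.eta) (contDiff_sca m n K.eta_smooth).continuous hsc
      S.vp S.vm)
    have hI2 : Integrable (fun x => φ x * c) := hint _ continuous_const
    have e1 : (∫ x, φ x * cv (sca m n K.eta) S.vp S.vm x) - c * ∫ y, φ y
        = ∫ x, φ x * ∑ p, term K S n p x := by
      rw [mul_comm c, ← integral_mul_const, ← integral_sub hI1 hI2]
      apply integral_congr_ae
      refine Eventually.of_forall (fun x => ?_)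
      by_cases hx : x ∈ ball (0 : E m) θ
      · simp only [sum_term hm K S hθ0 hR hθR n x hx]
        ring
      · have : φ x = 0 := by
          apply image_eq_zero_of_notMem_tsupport
          intro h
          exact hx (hsupp h)
        simp [this]
    have e2 : ∫ x, φ x * ∑ p, term K S n p x = ∑ p, ∫ x, φ x * term K S n p x := by
      simp only [Finset.mul_sum]
      exact integral_finsetSum _ (fun p _ => hint _ (continuous_term K S n p))
    rw [e1, e2]
    calc |∑ p, ∫ x, φ x * term K S n p x| ≤ ∑ p, |∫ x, φ x * term K S n p x| :=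
          Finset.abs_sum_le_sum_abs _ _
      _ ≤ ∑ p, C2 * A * wgt S p :=
          Finset.sum_le_sum (fun p _ => hdist S n p φ A hφ hsupp hA0 hA1)
      _ = C2 * A * ∑ p, wgt S p := by rw [Finset.mul_sum]
      _ ≤ C2 * A * (2 * S.ε) := mul_le_mul_of_nonneg_left hsw (mul_nonneg hC2 hAnn)
      _ ≤ (2 * C1 * cd + 2 * C2 + 1) * S.ε * A := by
          have : 0 ≤ (2 * C1 * cd + 1) * (S.ε * A) := by positivity
          nlinarith

/-- **AE Lemma 2.4 (scalar potential estimate).** -/
theorem potential (m : ℕ) (hm : 1 ≤ m) (θ : ℝ) (hθ0 : 0 < θ) (hθ1 : θ < 1) :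
    ∃ C : ℝ, 0 < C ∧
    ∀ (vp vm : Measure (E m)) (Fp Fm : Fin m → Fin m → Measure (E m))
      (gp gm : Fin m → Measure (E m)) (ε : ℝ),
      IsFiniteMeasure vp → IsFiniteMeasure vm → 0 ≤ ε →
      (∑ i, ∑ j, (Fp i j univ + Fm i j univ)) + ∑ j, (gp j univ + gm j univ)
        ≤ ENNReal.ofReal ε →
      (∀ (j : Fin m) (φ : E m → ℝ), ContDiff ℝ ∞ φ → HasCompactSupport φ →
        tsupport φ ⊆ ball (0 : E m) 1 →
        (∫ y, pd j φ y ∂vp) - ∫ y, pd j φ y ∂vm
          = (∑ i, ((∫ y, pd i φ y ∂(Fp i j)) - ∫ y, pd i φ y ∂(Fm i j)))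
            - ((∫ y, φ y ∂(gp j)) - ∫ y, φ y ∂(gm j))) →
      ∃ c : ℝ,
        (∀ t : ℝ, 0 < t →
          volume {y : E m | y ∈ ball (0 : E m) θ ∧
              t < |(vp.rnDeriv volume y).toReal - (vm.rnDeriv volume y).toReal - c|}
            ≤ ENNReal.ofReal (C * ε / t)) ∧
        (∀ (φ : E m → ℝ) (A : ℝ), ContDiff ℝ 3 φ → tsupport φ ⊆ ball (0 : E m) θ →
          (∀ j : ℕ, j ≤ 3 → ∀ y, ‖iteratedFDeriv ℝ j φ y‖ ≤ A) →
          |(∫ y, φ y ∂vp) - (∫ y, φ y ∂vm) - c * ∫ y, φ y| ≤ C * ε * A) := by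
  obtain ⟨C, hC, h⟩ := potential_sol m hm θ hθ0 hθ1
  refine ⟨C, hC, ?_⟩
  intro vp vm Fp Fm gp gm ε hvp hvm hε hmass heq
  obtain ⟨c, h1, h2⟩ := h ⟨vp, vm, Fp, Fm, gp, gm, ε, hε, hvp, hvm, hmass, heq⟩
  refine ⟨c, h1, ?_⟩
  intro φ A hφ hsupp hA
  refine h2 φ A (hφ.of_le (by norm_num)) hsupp ?_ ?_
  · intro y
    have := hA 0 (by norm_num) y
    rwa [norm_iteratedFDeriv_zero, Real.norm_eq_abs] at this
  · intro y
    have := hA 1 (by norm_num) y
    rwa [norm_iteratedFDeriv_one] at this

end Claimed.Agent.R322.CZ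
end
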