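/- Packed by merge_tool.py (helper293): 3 modules of Claimed.Agent.R322 in one file, same declarations.
   Old modules, in this order: Sx.Defs, Sx.Tr, Sx.OpsA -/
import Claimed.Agent.R322.Basic

/- ===== packed: Claimed.Agent.R322.Sx.Defs ===== -/
section
/-!
# R322 / Sx / Defs : abstract sheeted systems

Source: AE = "Almost-everywhere regularity of stationary integral varifolds", Section 2
(`sections/local.tex`).  AE Sections 2.4-2.9, 3, 4, 5, 6 (the signed-excess theorem 3.1) and the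
frequency identities of CO Section 4 never use the varifold itself: they only use

* the mass measure `μ` in a product chart `(y, ζ) ∈ E m × E n` (base variable `y`, SCALED height `ζ`),
* the blocks `B = 1 - P_hh`, `P_vh`, `P_vv` of the tangent projection in the chosen frames,
* the two first-variation identities for horizontal fields `X(y, ζ)` and normal fields `v(y, ζ)`
  with compact base support, AE (2.21), (2.22), with the curved errors (2.6), (2.25), (2.26)
  (product fields `f(ζ) X(y)`, `φ(y) v(ζ)`: `Valid.horiz_prod`, `Valid.normal_prod` in `Ops.lean`),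
* the projection Jacobian and the integer fibre count, AE Lemma 2.3,
* the lower mass bound AE (2.1) (used once, in AE Lemma 2.6), also for height-gap restrictions,
* properness (heights bounded over compact subsets of the base).

`Sys m n` is the bare data, `Sys.Valid` the list of axioms.  The class is closed under
`Sys.rescale` (interior rescaling in the inherited frames, same `γ`) and `Sys.restr`
(restriction to a height region isolated by a gap; this lowers the reference count `Q`).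
The reference count `Q` is NOT part of the data: it is an argument of `absM`, `tau`, `intM`, `intL`.

Curved errors are kept as explicit coefficient fields `E1 … E6`, so both first-variation axioms are
EQUALITIES, linear in the test objects; only the sizes of the coefficient fields are estimated:
quadratic errors `≤ Cg γ (e + λ)`, first-order flux errors `≤ Cg γ (√e + √λ)`.
Flat instance: `γ = 0`, `lam = 0`, `a = 1`, `E1 = … = E6 = 0`.

Normalisation: the reference measure on the base `E m` is `volume` (Lebesgue), and `μ` is normalised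
so that a multiplicity-one plane `{ζ = c}` has `π_# μ = volume` (i.e. the weight `SIV.μ`, which is
built on `μH[m]`, is divided by the Haar constant `μH[m] = c • volume` on `E m`, and by `l ^ m`).
-/

set_option autoImplicit false

namespace Claimed.Agent.R322.Sx

open MeasureTheory Set Metric
open scoped ENNReal NNReal InnerProductSpace

/-- Trace of an endomorphism of `E k`, as the sum of the diagonal entries. -/
noncomputable def tr {k : ℕ} (A : E k →L[ℝ] E k) : ℝ :=
  ∑ i : Fin k, A (EuclideanSpace.single i (1 : ℝ)) i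

/-- Divergence of a vector field on `E k`. -/
noncomputable def dvg {k : ℕ} (X : E k → E k) (y : E k) : ℝ := tr (fderiv ℝ X y)

/-- The Gaussian `G_s(z) = (2 π s²)^{-m/2} exp(-|z|²/(2 s²))` of AE Corollary 2.7. -/
noncomputable def gauss (m : ℕ) (s : ℝ) (z : E m) : ℝ :=
  (2 * Real.pi * s ^ 2) ^ (-(m : ℝ) / 2) * Real.exp (-‖z‖ ^ 2 / (2 * s ^ 2))

/-- Gaussian average at `x`, scale `s`, of a positive measure on the base (Euclidean kernel). -/
noncomputable def gav {m : ℕ} (ρ : Measure (E m)) (s : ℝ) (x : E m) : ℝ :=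
  ∫ y, gauss m s (y - x) ∂ρ

/-- Partial derivative in the base variable. -/
noncomputable def D1 {m n : ℕ} {G : Type*} [NormedAddCommGroup G] [NormedSpace ℝ G]
    (F : E m × E n → G) (q : E m × E n) : E m →L[ℝ] G :=
  (fderiv ℝ F q).comp (ContinuousLinearMap.inl ℝ (E m) (E n))

/-- Partial derivative in the height variable. -/
noncomputable def D2 {m n : ℕ} {G : Type*} [NormedAddCommGroup G] [NormedSpace ℝ G]
    (F : E m × E n → G) (q : E m × E n) : E n →L[ℝ] G :=
  (fderiv ℝ F q).comp (ContinuousLinearMap.inr ℝ (E m) (E n))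

/-- `F(y, ζ)` vanishes unless `y` lies in a compact subset of `Ω` (no condition on heights). -/
def BaseCpt {m n : ℕ} {G : Type*} [Zero G] (Ω : Set (E m)) (F : E m × E n → G) : Prop :=
  ∃ K : Set (E m), IsCompact K ∧ K ⊆ Ω ∧ ∀ q : E m × E n, q.1 ∉ K → F q = 0

/-- `χ` is a smooth chart cutoff: `χ = 1` on `B_R(x0)`, support in `closedBall x0 (R + h)`,
`|∇χ| ≤ 4/h`. -/
structure IsCutoff {m : ℕ} (χ : E m → ℝ) (x0 : E m) (R h : ℝ) : Prop where
  smooth : ContDiff ℝ 2 χ
  nonneg : ∀ y, 0 ≤ χ y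
  le_one : ∀ y, χ y ≤ 1
  eq_one : ∀ y ∈ ball x0 R, χ y = 1
  supp : tsupport χ ⊆ closedBall x0 (R + h)
  grad : ∀ y, ‖fderiv ℝ χ y‖ ≤ 4 / h

/-- Bare data of a sheeted system in a product chart. -/
structure Sys (m n : ℕ) where
  /-- base domain (an open subset of `E m`) -/
  Ω : Set (E m)
  /-- mass measure in the chart -/
  μ : Measure (E m × E n)
  /-- `B = 1 - P_hh` -/
  B : E m × E n → E m →L[ℝ] E m
  /-- mixed block `P_vh` -/
  Pvh : E m × E n → E m →L[ℝ] E n
  /-- vertical block `P_vv` -/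
  Pvv : E m × E n → E n →L[ℝ] E n
  /-- geometric error density `λ = |z_phys|² + |H_S|² + |∇^⊥ H_S|²` (physical units) -/
  lam : E m × E n → ℝ
  /-- tangential Jacobian of the projection to the base -/
  Jpi : E m × E n → ℝ
  /-- density of the reference volume: `vol_S = a dy` -/
  a : E m → ℝ
  /-- fibre over `y`: heights of the points of nonzero projection Jacobian, with multiplicity -/
  fib : E m → Multiset (E n)
  /-- inherited geometric smallness parameter `γ = l + sup |z_phys|` -/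
  γ : ℝ
  /-- the constant in all structural bounds -/
  Cg : ℝ
  /-- error coefficient of `f · DX` in the horizontal identity -/
  E1 : E m × E n → E m →L[ℝ] E m
  /-- error coefficient of `f · X` in the horizontal identity -/
  E2 : E m × E n → E m
  /-- error coefficient of `Df ⊗ X` in the horizontal identity -/
  E3 : E m × E n → E m →L[ℝ] E n
  /-- error coefficient of `φ · Dv` in the normal identity -/
  E4 : E m × E n → E n →L[ℝ] E n
  /-- error coefficient of `φ · v` in the normal identity -/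
  E5 : E m × E n → E n
  /-- error coefficient of `v ⊗ ∇φ` in the normal identity -/
  E6 : E m × E n → E m →L[ℝ] E n

namespace Sys

variable {m n : ℕ} (S : Sys m n)

/-- tilt density `e = tr B = tr P_vv`. -/
noncomputable def e (q : E m × E n) : ℝ := tr (S.B q)

/-- projected mass `ν = π_# μ`. -/
noncomputable def nu : Measure (E m) := S.μ.map Prod.fst

/-- projected tilt `D = π_# (e μ)`. -/
noncomputable def Dm : Measure (E m) :=
  (S.μ.withDensity fun q => ENNReal.ofReal (S.e q)).map Prod.fst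

/-- projected geometric error `Λ = π_# (λ μ)`. -/
noncomputable def Lm : Measure (E m) :=
  (S.μ.withDensity fun q => ENNReal.ofReal (S.lam q)).map Prod.fst

/-- reference volume `vol_S = a dy` on `Ω`. -/
noncomputable def volS : Measure (E m) :=
  (volume.restrict S.Ω).withDensity fun y => ENNReal.ofReal (S.a y)

/-- total variation `|M|` of `M = ν - Q vol_S` on `Ω`, through the Lebesgue decomposition of `ν`. -/
noncomputable def absM (Q : ℕ) : Measure (E m) :=
  (S.nu.singularPart volume + volume.withDensity fun y =>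
    ENNReal.ofReal |(S.nu.rnDeriv volume y).toReal - Q * S.a y|).restrict S.Ω

/-- positive part `M⁺` of `M = ν - Q vol_S` on `Ω`. -/
noncomputable def Mpos (Q : ℕ) : Measure (E m) :=
  (S.nu.singularPart volume + volume.withDensity fun y =>
    ENNReal.ofReal ((S.nu.rnDeriv volume y).toReal - Q * S.a y)).restrict S.Ω

/-- negative part `M⁻` of `M = ν - Q vol_S` on `Ω`. -/
noncomputable def Mneg (Q : ℕ) : Measure (E m) :=
  (volume.withDensity fun y =>
    ENNReal.ofReal (Q * S.a y - (S.nu.rnDeriv volume y).toReal)).restrict S.Ω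

/-- `τ = |M| + D + Λ`. -/
noncomputable def tau (Q : ℕ) : Measure (E m) := S.absM Q + S.Dm + S.Lm

/-- integer count `N(y)`. -/
def N (y : E m) : ℕ := Multiset.card (S.fib y)

/-- support of `μ` (the metric of `E m × E n` is the sup metric: balls are cylinders). -/
def spt : Set (E m × E n) := {q | ∀ ε : ℝ, 0 < ε → 0 < S.μ (ball q ε)}

/-- `∫ w dM`. -/
noncomputable def intM (Q : ℕ) (w : E m → ℝ) : ℝ :=
  (∫ q, w q.1 ∂S.μ) - Q * ∫ y in S.Ω, w y * S.a y

/-- `∫ w dD`. -/
noncomputable def intD (w : E m → ℝ) : ℝ := ∫ q, w q.1 * S.e q ∂S.μ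

/-- `∫ w dΛ`. -/
noncomputable def intLam (w : E m → ℝ) : ℝ := ∫ q, w q.1 * S.lam q ∂S.μ

/-- `∫ w dL`, `L = 2 M - D`. -/
noncomputable def intL (Q : ℕ) (w : E m → ℝ) : ℝ := 2 * S.intM Q w - S.intD w

/-- sum of `g` over the fibre above `y`. -/
noncomputable def fibSum (g : E m × E n → ℝ≥0∞) (y : E m) : ℝ≥0∞ :=
  ((S.fib y).map fun ζ => g (y, ζ)).sum

/-- A height region `O` is isolated over `Ω'`: no mass within `δ` of its frontier. -/
def Gap (Ω' : Set (E m)) (O : Set (E n)) : Prop :=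
  ∃ δ : ℝ, 0 < δ ∧ S.μ (Ω' ×ˢ thickening δ (frontier O)) = 0

/-- The axioms of a sheeted system. -/
structure Valid : Prop where
  /- domain, finiteness, properness, measurability -/
  isOpen_Ω : IsOpen S.Ω
  conc : S.μ (S.Ω ×ˢ (univ : Set (E n)))ᶜ = 0
  finite_mass : ∀ K : Set (E m), IsCompact K → K ⊆ S.Ω → S.μ (K ×ˢ (univ : Set (E n))) < ∞
  proper : ∀ K : Set (E m), IsCompact K → K ⊆ S.Ω → ∃ H : ℝ, S.μ (K ×ˢ {ζ : E n | H < ‖ζ‖}) = 0
  meas_B : Measurable S.B
  meas_Pvh : Measurable S.Pvh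
  meas_Pvv : Measurable S.Pvv
  meas_lam : Measurable S.lam
  meas_Jpi : Measurable S.Jpi
  meas_E1 : Measurable S.E1
  meas_E2 : Measurable S.E2
  meas_E3 : Measurable S.E3
  meas_E4 : Measurable S.E4
  meas_E5 : Measurable S.E5
  meas_E6 : Measurable S.E6
  /- constants -/
  one_le_Cg : 1 ≤ S.Cg
  γ_nonneg : 0 ≤ S.γ
  γ_le_one : S.γ ≤ 1
  /- the blocks are those of an orthogonal projection of rank `m`, AE (2.3)-(2.4) -/
  B_symm : ∀ q u v, ⟪S.B q u, v⟫_ℝ = ⟪u, S.B q v⟫_ℝ
  B_nonneg : ∀ q u, 0 ≤ ⟪S.B q u, u⟫_ℝ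
  B_le : ∀ q u, ⟪S.B q u, u⟫_ℝ ≤ ‖u‖ ^ 2
  Pvv_symm : ∀ q ξ η, ⟪S.Pvv q ξ, η⟫_ℝ = ⟪ξ, S.Pvv q η⟫_ℝ
  Pvv_nonneg : ∀ q ξ, 0 ≤ ⟪S.Pvv q ξ, ξ⟫_ℝ
  Pvv_le : ∀ q ξ, ⟪S.Pvv q ξ, ξ⟫_ℝ ≤ ‖ξ‖ ^ 2
  hv_vh : ∀ q u v, ⟪S.Pvh q u, S.Pvh q v⟫_ℝ = ⟪S.B q u, v⟫_ℝ - ⟪S.B q u, S.B q v⟫_ℝ
  vh_hv : ∀ q ξ η, ⟪(S.Pvh q).adjoint ξ, (S.Pvh q).adjoint η⟫_ℝ
      = ⟪S.Pvv q ξ, η⟫_ℝ - ⟪S.Pvv q ξ, S.Pvv q η⟫_ℝ
  vv_vh : ∀ q u, S.Pvv q (S.Pvh q u) = S.Pvh q (S.B q u)
  tr_B_eq : ∀ q, tr (S.B q) = tr (S.Pvv q)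
  /- geometric error density -/
  lam_nonneg : ∀ q, 0 ≤ S.lam q
  lam_le : ∀ q, S.lam q ≤ S.Cg
  /- reference volume density -/
  a_contDiff : ContDiff ℝ 4 S.a
  a_close : ∀ y, |S.a y - 1| ≤ S.Cg * S.γ
  a_lower : ∀ y, 1 / 2 ≤ S.a y
  a_upper : ∀ y, S.a y ≤ 2
  a_deriv : ∀ (j : ℕ), 1 ≤ j → j ≤ 4 → ∀ y, ‖iteratedFDeriv ℝ j S.a y‖ ≤ S.Cg * S.γ
  /- projection Jacobian, AE (2.7), (2.9) -/
  Jpi_nonneg : ∀ q, 0 ≤ S.Jpi q
  Jpi_close : ∀ q, |S.Jpi q - 1| ≤ S.Cg * (S.e q + S.lam q)
  Jpi_signed : ∀ q, 2 * (1 - S.Jpi q) - S.e q ≤ S.Cg * (S.e q ^ 2 + S.lam q)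
  /- area formula for the projection: `π_# (g J_π μ) = (Σ_{fibre} g) vol_S`, AE (2.8) -/
  count_meas : ∀ g : E m × E n → ℝ≥0∞, Measurable g →
    AEMeasurable (S.fibSum g) (volume.restrict S.Ω)
  count : ∀ g : E m × E n → ℝ≥0∞, Measurable g →
    ∫⁻ q, g q * ENNReal.ofReal (S.Jpi q) ∂S.μ
      = ∫⁻ y in S.Ω, S.fibSum g y * ENNReal.ofReal (S.a y)
  /- the part of deficient projection rank projects to a Lebesgue null set (used in AE Lemma 5.1) -/
  defic : ∃ Z : Set (E m), MeasurableSet Z ∧ volume Z = 0 ∧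
    S.μ ({q | S.Jpi q = 0} ∩ (Zᶜ ×ˢ (univ : Set (E n)))) = 0
  /- sizes of the curved error coefficients, AE (2.6), (2.25), (2.26) -/
  E1_le : ∀ q, ‖S.E1 q‖ ≤ S.Cg * S.γ * (S.e q + S.lam q)
  E2_le : ∀ q, ‖S.E2 q‖ ≤ S.Cg * S.γ * (S.e q + S.lam q)
  E3_le : ∀ q, ‖S.E3 q‖ ≤ S.Cg * S.γ * (Real.sqrt (S.e q) + Real.sqrt (S.lam q))
  E4_le : ∀ q, ‖S.E4 q‖ ≤ S.Cg * S.γ * Real.sqrt (S.e q * S.lam q)
  E5_le : ∀ q, ‖S.E5 q‖ ≤ S.Cg * S.γ * (Real.sqrt (S.e q) + Real.sqrt (S.lam q))
  E6_le : ∀ q, ‖S.E6 q‖ ≤ S.Cg * S.γ * Real.sqrt (S.e q)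
  /-- horizontal first variation, AE (2.5), (2.21) (covariant divergence `div X + ∇ log a · X`),
  for a horizontal field `X(y, ζ)` depending on both variables. -/
  horiz : ∀ X : E m × E n → E m, ContDiff ℝ 1 X → BaseCpt S.Ω X →
    ∫ q, (tr (D1 X q) + (S.a q.1)⁻¹ * fderiv ℝ S.a q.1 (X q) - tr (S.B q ∘L D1 X q)
          + tr (D2 X q ∘L S.Pvh q)) ∂S.μ
      = ∫ q, (tr (S.E1 q ∘L D1 X q) + ⟪S.E2 q, X q⟫_ℝ + tr (D2 X q ∘L S.E3 q)) ∂S.μ
  /-- normal first variation, AE (2.22), for a normal field `v(y, ζ)`. -/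
  normal : ∀ v : E m × E n → E n, ContDiff ℝ 1 v → BaseCpt S.Ω v →
    ∫ q, (tr (S.Pvv q ∘L D2 v q) + tr ((S.Pvh q).adjoint ∘L D1 v q)) ∂S.μ
      = ∫ q, (tr (S.E4 q ∘L D2 v q) + ⟪S.E5 q, v q⟫_ℝ + tr ((S.E6 q).adjoint ∘L D1 v q)) ∂S.μ
  /-- lower mass bound AE (2.1) in chart cylinders, for every height-gap restriction. -/
  lower : ∀ (Ω' : Set (E m)) (O : Set (E n)), IsOpen Ω' → Ω' ⊆ S.Ω → IsOpen O → S.Gap Ω' O →
    ∀ (q : E m × E n) (r : ℝ), q ∈ S.spt → q.2 ∈ O → 0 < r → closedBall q.1 r ⊆ Ω' →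
      ENNReal.ofReal (r ^ m / S.Cg) ≤ S.μ (ball q.1 r ×ˢ (ball q.2 r ∩ O))

/-- Interior rescaling `T_{x,s}(y, ζ) = ((y - x)/s, ζ/s)`, `μ' = s^{-m} (T_{x,s})_# μ`,
in the inherited frames (AE Lemma 2.9, last part): same `γ`, `λ` still in physical units. -/
noncomputable def rescale (x : E m) (s : ℝ) : Sys m n where
  Ω := {y | x + s • y ∈ S.Ω}
  μ := (ENNReal.ofReal (s ^ m))⁻¹ • S.μ.map fun q => (s⁻¹ • (q.1 - x), s⁻¹ • q.2)
  B := fun q => S.B (x + s • q.1, s • q.2)
  Pvh := fun q => S.Pvh (x + s • q.1, s • q.2)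
  Pvv := fun q => S.Pvv (x + s • q.1, s • q.2)
  lam := fun q => S.lam (x + s • q.1, s • q.2)
  Jpi := fun q => S.Jpi (x + s • q.1, s • q.2)
  a := fun y => S.a (x + s • y)
  fib := fun y => (S.fib (x + s • y)).map fun ζ => s⁻¹ • ζ
  γ := S.γ
  Cg := S.Cg
  E1 := fun q => S.E1 (x + s • q.1, s • q.2)
  E2 := fun q => s • S.E2 (x + s • q.1, s • q.2)
  E3 := fun q => S.E3 (x + s • q.1, s • q.2)
  E4 := fun q => S.E4 (x + s • q.1, s • q.2)
  E5 := fun q => s • S.E5 (x + s • q.1, s • q.2)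
  E6 := fun q => S.E6 (x + s • q.1, s • q.2)

open Classical in
/-- Restriction to the base region `Ω'` and the height region `O`. -/
noncomputable def restr (Ω' : Set (E m)) (O : Set (E n)) : Sys m n :=
  { S with
    Ω := Ω'
    μ := S.μ.restrict (Ω' ×ˢ O)
    fib := fun y => (S.fib y).filter fun ζ => ζ ∈ O }

/-! ### Gaussian averages with a chart cutoff `χ`

All Gaussian averages downstream of AE Lemma 4.2 are EUCLIDEAN averages of the measures truncated by
a chart cutoff `χ : E m → ℝ` (`0 ≤ χ ≤ 1`, compact support in `Ω`): `M_s(x) = ∫ χ(y) G_s(y - x) dM(y)`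
etc.  A SMOOTH `χ` (see `IsCutoff`) is used, so that the only chart tails in the first-variation
identities are the terms containing `∇χ`; a sharp restriction to `W` is `χ = W.indicator 1`.
Periodisation on a torus is internal to the contact package (AE Lemmas 4.1-4.2). -/

/-- the kernel `y ↦ χ(y) G_s(y - x)`. -/
noncomputable def ker (χ : E m → ℝ) (s : ℝ) (x : E m) : E m → ℝ :=
  fun y => χ y * gauss m s (y - x)

/-- `M_s(x)`. -/
noncomputable def Mav (Q : ℕ) (χ : E m → ℝ) (s : ℝ) (x : E m) : ℝ := S.intM Q (ker χ s x)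

/-- `D_s(x)`. -/
noncomputable def Dav (χ : E m → ℝ) (s : ℝ) (x : E m) : ℝ := S.intD (ker χ s x)

/-- `Λ_s(x)`. -/
noncomputable def Lamav (χ : E m → ℝ) (s : ℝ) (x : E m) : ℝ := S.intLam (ker χ s x)

/-- `L_s(x) = 2 M_s(x) - D_s(x)`. -/
noncomputable def Lav (Q : ℕ) (χ : E m → ℝ) (s : ℝ) (x : E m) : ℝ := S.intL Q (ker χ s x)

/-- `τ_s(x)`. -/
noncomputable def tauav (Q : ℕ) (χ : E m → ℝ) (s : ℝ) (x : E m) : ℝ :=
  ∫ y, ker χ s x y ∂(S.tau Q)

/-- `|M|_s(x)`. -/
noncomputable def absMav (Q : ℕ) (χ : E m → ℝ) (s : ℝ) (x : E m) : ℝ :=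
  ∫ y, ker χ s x y ∂(S.absM Q)

/-- Gaussian average of a function of the point, `⟨g⟩_s = ∫ χ(y) G_s(y - x) g(y, ζ) dμ`. -/
noncomputable def avg (χ : E m → ℝ) (s : ℝ) (x : E m) (g : E m × E n → ℝ) : ℝ :=
  ∫ q, ker χ s x q.1 * g q ∂S.μ

/-- radial term `R_s(x) = ∫ χ G_s(y - x) B[u, u] dμ`, `u = (y - x)/s`, AE Lemma 2.8. -/
noncomputable def Rav (χ : E m → ℝ) (s : ℝ) (x : E m) : ℝ :=
  S.avg χ s x fun q => ⟪S.B q (s⁻¹ • (q.1 - x)), s⁻¹ • (q.1 - x)⟫_ℝ

/-! ### Configurations (AE Lemma 2.6 and Section 4.3) -/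

/-- two lists of `Q` heights match within `r` (`d_∞(𝒜, ℬ) ≤ r`). -/
def Matched {Q : ℕ} (A A' : Fin Q → E n) (r : ℝ) : Prop :=
  ∃ σ : Equiv.Perm (Fin Q), ∀ j, ‖A j - A' (σ j)‖ ≤ r

/-- the multiset `F` has exactly `Q` entries and they match the list `A` within `r`. -/
def FibMatch {Q : ℕ} (F : Multiset (E n)) (A : Fin Q → E n) (r : ℝ) : Prop :=
  ∃ L : Fin Q → E n, (Multiset.ofList (List.ofFn L)) = F ∧ ∀ j, ‖L j - A j‖ ≤ r

/-- distance of a height to a configuration. -/
noncomputable def distA {Q : ℕ} (A : Fin Q → E n) (ζ : E n) : ℝ := infDist ζ (range A)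

/-- `A` is a majority configuration on `B_s(x)`: outside a set of reference volume at most
`δ vol_S(B_s(x))` the fibre has exactly `Q` entries, matched to `A` within `r`. -/
def IsMajority {Q : ℕ} (x : E m) (s δ r : ℝ) (A : Fin Q → E n) : Prop :=
  S.volS {y | y ∈ ball x s ∧ ¬ FibMatch (S.fib y) A r} ≤ ENNReal.ofReal δ * S.volS (ball x s)

/-- a partition `grp` of the entries of `A` into groups is separated by `δ`. -/
def Separated {Q : ℕ} {ι : Type*} (A : Fin Q → E n) (grp : Fin Q → ι) (δ : ℝ) : Prop :=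
  ∀ i j, grp i ≠ grp j → δ ≤ ‖A i - A j‖

end Sys

end Claimed.Agent.R322.Sx
end

/- ===== packed: Claimed.Agent.R322.Sx.Tr ===== -/
section
/-!
# R322 / Sx / Tr : tools for the trace `tr`, the divergence `dvg` and the partial derivatives `D1`, `D2`

* linearity of `tr`, `tr A = ∑ ⟪A e_i, e_i⟫ = LinearMap.trace`, trace of a rank one map, `|tr A| ≤ k ‖A‖`,
  continuity / measurability;
* symmetric positive semidefinite `A`: Cauchy-Schwarz, `⟪A u, u⟫ ≤ tr A ‖u‖²`, `‖A‖ ≤ tr A`.
-/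

set_option autoImplicit false

namespace Claimed.Agent.R322.Sx

open MeasureTheory Set Metric
open scoped ENNReal NNReal InnerProductSpace

variable {k : ℕ}

/-- the standard basis vector. -/
noncomputable abbrev ebas (i : Fin k) : E k := EuclideanSpace.single i (1 : ℝ)

theorem tr_def (A : E k →L[ℝ] E k) : tr A = ∑ i : Fin k, A (ebas i) i := rfl

theorem coord_eq_inner (v : E k) (i : Fin k) : v i = ⟪v, ebas i⟫_ℝ := by
  rw [EuclideanSpace.inner_single_right]
  simp

theorem tr_eq_sum_inner (A : E k →L[ℝ] E k) : tr A = ∑ i : Fin k, ⟪A (ebas i), ebas i⟫_ℝ := by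
  rw [tr_def]
  exact Finset.sum_congr rfl fun i _ => coord_eq_inner _ i

@[simp] theorem tr_zero : tr (0 : E k →L[ℝ] E k) = 0 := by simp [tr]

theorem tr_add (A B : E k →L[ℝ] E k) : tr (A + B) = tr A + tr B := by
  simp [tr, Finset.sum_add_distrib]

theorem tr_sub (A B : E k →L[ℝ] E k) : tr (A - B) = tr A - tr B := by
  simp [tr, Finset.sum_sub_distrib]

theorem tr_neg (A : E k →L[ℝ] E k) : tr (-A) = -tr A := by
  simp [tr]

theorem tr_smul (c : ℝ) (A : E k →L[ℝ] E k) : tr (c • A) = c * tr A := by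
  simp [tr, Finset.mul_sum]

theorem tr_id : tr (ContinuousLinearMap.id ℝ (E k)) = k := by
  simp [tr]

theorem tr_eq_trace (A : E k →L[ℝ] E k) : tr A = LinearMap.trace ℝ (E k) (A : E k →ₗ[ℝ] E k) := by
  rw [LinearMap.trace_eq_sum_inner _ (EuclideanSpace.basisFun (Fin k) ℝ), tr_eq_sum_inner]
  refine Finset.sum_congr rfl fun i _ => ?_
  rw [EuclideanSpace.basisFun_apply, real_inner_comm]
  rfl

/-- the trace in an arbitrary orthonormal basis. -/
theorem tr_eq_sum_onb {ι : Type*} [Fintype ι] (A : E k →L[ℝ] E k) (b : OrthonormalBasis ι ℝ (E k)) :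
    tr A = ∑ i, ⟪A (b i), b i⟫_ℝ := by
  rw [tr_eq_trace, LinearMap.trace_eq_sum_inner _ b]
  refine Finset.sum_congr rfl fun i _ => ?_
  rw [real_inner_comm]
  rfl

theorem sum_coord_smul_eb (v : E k) : ∑ i : Fin k, v i • ebas i = v := by
  have := (EuclideanSpace.basisFun (Fin k) ℝ).sum_repr v
  simpa using this

/-- trace of a rank one map `u ↦ φ(u) v`. -/
theorem tr_smulRight (φ : E k →L[ℝ] ℝ) (v : E k) : tr (φ.smulRight v) = φ v := by
  rw [tr_def]
  conv_rhs => rw [← sum_coord_smul_eb v, map_sum]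
  refine Finset.sum_congr rfl fun i _ => ?_
  simp [mul_comm]

/-- `tr (A ∘ B) = tr (B ∘ A)` for maps between different Euclidean spaces. -/
theorem tr_comp_comm {l : ℕ} (A : E l →L[ℝ] E k) (B : E k →L[ℝ] E l) : tr (A ∘L B) = tr (B ∘L A) := by
  rw [tr_eq_trace, tr_eq_trace]
  exact (LinearMap.trace_comp_comm' (A : E l →ₗ[ℝ] E k) (B : E k →ₗ[ℝ] E l)).symm

theorem abs_tr_le (A : E k →L[ℝ] E k) : |tr A| ≤ k * ‖A‖ := by
  rw [tr_eq_sum_inner]
  calc |∑ i : Fin k, ⟪A (ebas i), ebas i⟫_ℝ| ≤ ∑ i : Fin k, |⟪A (ebas i), ebas i⟫_ℝ| := Finset.abs_sum_le_sum_abs _ _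
    _ ≤ ∑ _i : Fin k, ‖A‖ := by
        refine Finset.sum_le_sum fun i _ => ?_
        have h1 : ‖ebas i‖ = 1 := by simp
        calc |⟪A (ebas i), ebas i⟫_ℝ| ≤ ‖A (ebas i)‖ * ‖ebas i‖ := abs_real_inner_le_norm _ _
          _ ≤ ‖A‖ * ‖ebas i‖ * ‖ebas i‖ := mul_le_mul_of_nonneg_right (A.le_opNorm _) (norm_nonneg _)
          _ = ‖A‖ := by rw [h1]; ring
    _ = k * ‖A‖ := by simp

theorem continuous_tr : Continuous (tr : (E k →L[ℝ] E k) → ℝ) := by
  unfold tr
  refine continuous_finsetSum _ fun i _ => ?_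
  have h1 : Continuous fun A : E k →L[ℝ] E k => A (ebas i) := (ContinuousLinearMap.apply ℝ (E k) (ebas i)).continuous
  exact (EuclideanSpace.proj i).continuous.comp h1

theorem measurable_tr : Measurable (tr : (E k →L[ℝ] E k) → ℝ) := continuous_tr.measurable

/-! ### symmetric positive semidefinite maps -/

section PSD

variable {A : E k →L[ℝ] E k}

/-- Cauchy-Schwarz for a symmetric positive semidefinite form. -/
theorem psd_cauchy_schwarz (hs : ∀ u v, ⟪A u, v⟫_ℝ = ⟪u, A v⟫_ℝ) (hp : ∀ u, 0 ≤ ⟪A u, u⟫_ℝ) (u v : E k) :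
    ⟪A u, v⟫_ℝ ^ 2 ≤ ⟪A u, u⟫_ℝ * ⟪A v, v⟫_ℝ := by
  have h : ∀ t : ℝ, 0 ≤ ⟪A v, v⟫_ℝ * (t * t) + 2 * ⟪A u, v⟫_ℝ * t + ⟪A u, u⟫_ℝ := by
    intro t
    have h1 := hp (u + t • v)
    have h2 : ⟪A (u + t • v), u + t • v⟫_ℝ
        = ⟪A v, v⟫_ℝ * (t * t) + 2 * ⟪A u, v⟫_ℝ * t + ⟪A u, u⟫_ℝ := by
      rw [map_add, map_smul, inner_add_left, inner_add_right, inner_add_right, inner_smul_left, inner_smul_left,
        inner_smul_right, inner_smul_right]
      have h3 : ⟪A v, u⟫_ℝ = ⟪A u, v⟫_ℝ := by rw [hs v u, real_inner_comm]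
      rw [h3]
      simp only [RCLike.conj_to_real]
      ring
    rwa [h2] at h1
  have := discrim_le_zero h
  unfold discrim at this
  nlinarith

theorem psd_inner_le_tr (hp : ∀ u, 0 ≤ ⟪A u, u⟫_ℝ) (u : E k) : ⟪A u, u⟫_ℝ ≤ tr A * ‖u‖ ^ 2 := by
  by_cases hu : u = 0
  · simp [hu]
  have hn : 0 < ‖u‖ := norm_pos_iff.2 hu
  obtain ⟨w, hw⟩ : ∃ w : E k, w = ‖u‖⁻¹ • u := ⟨_, rfl⟩
  have hw1 : ‖w‖ = 1 := by
    rw [hw, norm_smul, norm_inv, norm_norm, inv_mul_cancel₀ hn.ne']
  have horth : Orthonormal ℝ ((↑) : ({w} : Set (E k)) → E k) := by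
    rw [orthonormal_subtype_iff_ite]
    intro a ha b hb
    rw [mem_singleton_iff] at ha hb
    subst ha
    subst hb
    simp [hw1]
  obtain ⟨s, b, hsub, hb⟩ := horth.exists_orthonormalBasis_extension
  have hws : w ∈ s := by
    have := hsub (mem_singleton w)
    exact_mod_cast this
  have h1 : ⟪A w, w⟫_ℝ ≤ tr A := by
    rw [tr_eq_sum_onb A b]
    have h2 : ⟪A w, w⟫_ℝ = ⟪A (b ⟨w, hws⟩), b ⟨w, hws⟩⟫_ℝ := by rw [hb]
    rw [h2]
    exact Finset.single_le_sum (f := fun i => ⟪A (b i), b i⟫_ℝ) (fun i _ => hp _) (Finset.mem_univ _)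
  have h3 : u = ‖u‖ • w := by
    rw [hw, smul_smul, mul_inv_cancel₀ hn.ne', one_smul]
  have h4 : ⟪A u, u⟫_ℝ = ‖u‖ ^ 2 * ⟪A w, w⟫_ℝ := by
    conv_lhs => rw [h3, map_smul, inner_smul_left, inner_smul_right]
    simp only [RCLike.conj_to_real]
    ring
  rw [h4, mul_comm]
  exact mul_le_mul_of_nonneg_right h1 (by positivity)

theorem psd_tr_nonneg (hp : ∀ u, 0 ≤ ⟪A u, u⟫_ℝ) : 0 ≤ tr A := by
  rw [tr_eq_sum_inner]
  exact Finset.sum_nonneg fun i _ => hp _

theorem psd_norm_le_tr (hs : ∀ u v, ⟪A u, v⟫_ℝ = ⟪u, A v⟫_ℝ) (hp : ∀ u, 0 ≤ ⟪A u, u⟫_ℝ) : ‖A‖ ≤ tr A := by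
  have ht := psd_tr_nonneg hp
  refine A.opNorm_le_bound ht fun u => ?_
  by_cases h0 : A u = 0
  · rw [h0, norm_zero]
    positivity
  have hn : 0 < ‖A u‖ := norm_pos_iff.2 h0
  have h1 := psd_cauchy_schwarz hs hp u (A u)
  rw [real_inner_self_eq_norm_sq] at h1
  have h2 := psd_inner_le_tr hp u
  have h3 := psd_inner_le_tr hp (A u)
  have h4 : (‖A u‖ ^ 2) ^ 2 ≤ (tr A * ‖u‖ ^ 2) * (tr A * ‖A u‖ ^ 2) :=
    h1.trans (mul_le_mul h2 h3 (hp _) (by positivity))
  have h5 : ‖A u‖ ^ 2 ≤ (tr A * ‖u‖) ^ 2 := by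
    have h6 : ‖A u‖ ^ 2 * ‖A u‖ ^ 2 ≤ (tr A * ‖u‖) ^ 2 * ‖A u‖ ^ 2 := by nlinarith
    exact le_of_mul_le_mul_right h6 (by positivity)
  exact abs_le_of_sq_le_sq' h5 (by positivity) |>.2

end PSD

/-! ### partial derivatives, divergence -/

section Partial

variable {m n : ℕ} {G : Type*} [NormedAddCommGroup G] [NormedSpace ℝ G]

theorem D1_apply (F : E m × E n → G) (q : E m × E n) (u : E m) : D1 F q u = fderiv ℝ F q (u, 0) := rfl

theorem D2_apply (F : E m × E n → G) (q : E m × E n) (u : E n) : D2 F q u = fderiv ℝ F q (0, u) := rfl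

theorem D1_smul {c : E m × E n → ℝ} {F : E m × E n → G} {q : E m × E n} (hc : DifferentiableAt ℝ c q)
    (hF : DifferentiableAt ℝ F q) :
    D1 (fun q => c q • F q) q = c q • D1 F q + (D1 c q).smulRight (F q) := by
  unfold D1
  have e : fderiv ℝ (fun q => c q • F q) q = c q • fderiv ℝ F q + (fderiv ℝ c q).smulRight (F q) :=
    (hc.hasFDerivAt.smul hF.hasFDerivAt).fderiv
  rw [e]
  ext u
  simp

theorem D2_smul {c : E m × E n → ℝ} {F : E m × E n → G} {q : E m × E n} (hc : DifferentiableAt ℝ c q)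
    (hF : DifferentiableAt ℝ F q) :
    D2 (fun q => c q • F q) q = c q • D2 F q + (D2 c q).smulRight (F q) := by
  unfold D2
  have e : fderiv ℝ (fun q => c q • F q) q = c q • fderiv ℝ F q + (fderiv ℝ c q).smulRight (F q) :=
    (hc.hasFDerivAt.smul hF.hasFDerivAt).fderiv
  rw [e]
  ext u
  simp

theorem D1_comp_fst {X : E m → G} {q : E m × E n} (hX : DifferentiableAt ℝ X q.1) :
    D1 (fun q : E m × E n => X q.1) q = fderiv ℝ X q.1 := by
  unfold D1
  have e : fderiv ℝ (fun q : E m × E n => X q.1) q = fderiv ℝ X q.1 ∘L ContinuousLinearMap.fst ℝ (E m) (E n) :=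
    (hX.hasFDerivAt.comp q hasFDerivAt_fst).fderiv
  rw [e]
  ext u
  simp

theorem D2_comp_fst {X : E m → G} {q : E m × E n} (hX : DifferentiableAt ℝ X q.1) :
    D2 (fun q : E m × E n => X q.1) q = 0 := by
  unfold D2
  have e : fderiv ℝ (fun q : E m × E n => X q.1) q = fderiv ℝ X q.1 ∘L ContinuousLinearMap.fst ℝ (E m) (E n) :=
    (hX.hasFDerivAt.comp q hasFDerivAt_fst).fderiv
  rw [e]
  ext u
  simp

theorem D1_comp_snd {X : E n → G} {q : E m × E n} (hX : DifferentiableAt ℝ X q.2) :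
    D1 (fun q : E m × E n => X q.2) q = 0 := by
  unfold D1
  have e : fderiv ℝ (fun q : E m × E n => X q.2) q = fderiv ℝ X q.2 ∘L ContinuousLinearMap.snd ℝ (E m) (E n) :=
    (hX.hasFDerivAt.comp q hasFDerivAt_snd).fderiv
  rw [e]
  ext u
  simp

theorem D2_comp_snd {X : E n → G} {q : E m × E n} (hX : DifferentiableAt ℝ X q.2) :
    D2 (fun q : E m × E n => X q.2) q = fderiv ℝ X q.2 := by
  unfold D2
  have e : fderiv ℝ (fun q : E m × E n => X q.2) q = fderiv ℝ X q.2 ∘L ContinuousLinearMap.snd ℝ (E m) (E n) :=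
    (hX.hasFDerivAt.comp q hasFDerivAt_snd).fderiv
  rw [e]
  ext u
  simp

end Partial

theorem tr_comp_smul {k : ℕ} (A B : E k →L[ℝ] E k) (c : ℝ) : tr (A ∘L (c • B)) = c * tr (A ∘L B) := by
  rw [ContinuousLinearMap.comp_smul, tr_smul]

/-- `tr ((φ ⊗ v) ∘ A) = φ (A v)`. -/
theorem tr_smulRight_comp {k l : ℕ} (φ : E l →L[ℝ] ℝ) (v : E k) (A : E k →L[ℝ] E l) :
    tr (φ.smulRight v ∘L A) = φ (A v) := by
  have : φ.smulRight v ∘L A = (φ ∘L A).smulRight v := by
    ext u
    simp
  rw [this, tr_smulRight]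
  rfl

/-- `tr (A ∘ (φ ⊗ v)) = φ (A v)`. -/
theorem tr_comp_smulRight {k l : ℕ} (φ : E k →L[ℝ] ℝ) (v : E l) (A : E l →L[ℝ] E k) :
    tr (A ∘L φ.smulRight v) = φ (A v) := by
  have : A ∘L φ.smulRight v = φ.smulRight (A v) := by
    ext u
    simp
  rw [this, tr_smulRight]

section Dvg

variable {k : ℕ}

theorem integral_fderiv_apply_eq_zero {g : E k → ℝ} (hg : ContDiff ℝ 1 g) (hc : HasCompactSupport g)
    (v : E k) : ∫ z, fderiv ℝ g z v = 0 := by
  have hcont : Continuous fun z => fderiv ℝ g z v :=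
    (hg.continuous_fderiv one_ne_zero).clm_apply continuous_const
  have hint : Integrable fun z => fderiv ℝ g z v :=
    hcont.integrable_of_hasCompactSupport (hc.fderiv_apply (𝕜 := ℝ) v)
  have h := integral_mul_fderiv_eq_neg_fderiv_mul_of_integrable (μ := (volume : Measure (E k)))
    (f := fun _ : E k => (1 : ℝ)) (g := g) (v := v) (by simp)
    (by simpa using hint)
    (by simpa using hg.continuous.integrable_of_hasCompactSupport hc)
    (fun x _ => differentiableAt_const _) (fun x _ => (hg.differentiable one_ne_zero) x)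
  simpa using h

theorem dvg_eq_sum {Y : E k → E k} {y : E k} (hY : DifferentiableAt ℝ Y y) :
    dvg Y y = ∑ i : Fin k, fderiv ℝ (fun z => Y z i) y (ebas i) := by
  unfold dvg
  rw [tr_def]
  refine Finset.sum_congr rfl fun i _ => ?_
  have e : fderiv ℝ (fun z => Y z i) y = (EuclideanSpace.proj i : E k →L[ℝ] ℝ) ∘L fderiv ℝ Y y :=
    ((EuclideanSpace.proj i : E k →L[ℝ] ℝ).hasFDerivAt.comp y hY.hasFDerivAt).fderiv
  rw [e]
  rfl

theorem integral_dvg_eq_zero {Y : E k → E k} (hY : ContDiff ℝ 1 Y) (hc : HasCompactSupport Y) :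
    ∫ y, dvg Y y = 0 := by
  have h1 : ∀ y, dvg Y y = ∑ i : Fin k, fderiv ℝ (fun z => Y z i) y (ebas i) :=
    fun y => dvg_eq_sum ((hY.differentiable one_ne_zero) y)
  simp only [h1]
  have hci : ∀ i : Fin k, ContDiff ℝ 1 fun z => Y z i := fun i =>
    (EuclideanSpace.proj i : E k →L[ℝ] ℝ).contDiff.comp hY
  have hcc : ∀ i : Fin k, HasCompactSupport fun z => Y z i := fun i =>
    hc.comp_left (g := fun v : E k => v i) rfl
  rw [integral_finsetSum]
  · exact Finset.sum_eq_zero fun i _ => integral_fderiv_apply_eq_zero (hci i) (hcc i) _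
  · intro i _
    exact (((hci i).continuous_fderiv one_ne_zero).clm_apply continuous_const).integrable_of_hasCompactSupport
      ((hcc i).fderiv_apply (𝕜 := ℝ) _)

theorem dvg_smul {a : E k → ℝ} {X : E k → E k} {y : E k} (ha : DifferentiableAt ℝ a y)
    (hX : DifferentiableAt ℝ X y) :
    dvg (fun z => a z • X z) y = a y * dvg X y + fderiv ℝ a y (X y) := by
  unfold dvg
  have e : fderiv ℝ (fun z => a z • X z) y = a y • fderiv ℝ X y + (fderiv ℝ a y).smulRight (X y) :=
    (ha.hasFDerivAt.smul hX.hasFDerivAt).fderiv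
  rw [e, tr_add, tr_smul, tr_smulRight]

theorem continuous_dvg {X : E k → E k} (hX : ContDiff ℝ 1 X) : Continuous (dvg X) :=
  continuous_tr.comp (hX.continuous_fderiv one_ne_zero)

theorem measurable_tr_comp {α : Type*} [MeasurableSpace α] {l : ℕ} {A : α → E l →L[ℝ] E k}
    {B : α → E k →L[ℝ] E l} (hA : Measurable A) (hB : Measurable B) : Measurable fun x => tr (A x ∘L B x) := by
  have h1 : Continuous fun p : (E l →L[ℝ] E k) × (E k →L[ℝ] E l) => p.1 ∘L p.2 :=
    isBoundedBilinearMap_comp.continuous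
  exact measurable_tr.comp (h1.measurable2 hA hB)

theorem abs_tr_comp_le {l : ℕ} (A : E l →L[ℝ] E k) (B : E k →L[ℝ] E l) : |tr (A ∘L B)| ≤ k * (‖A‖ * ‖B‖) :=
  (abs_tr_le _).trans (mul_le_mul_of_nonneg_left (ContinuousLinearMap.opNorm_comp_le _ _) (Nat.cast_nonneg _))

end Dvg

end Claimed.Agent.R322.Sx
end

/- ===== packed: Claimed.Agent.R322.Sx.OpsA ===== -/
section
/-!
# R322 / Sx / OpsA : elementary consequences of the axioms of a sheeted system, part 1

Block estimates, the projected mass `ν`, integrability, Jordan decomposition of `M = ν - Q vol_S`.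
(Package A of `Sx/Ops.lean`; statements verbatim from there.)
-/

set_option autoImplicit false

namespace Claimed.Agent.R322.Sx

open MeasureTheory Set Metric
open scoped ENNReal NNReal InnerProductSpace

namespace Sys

variable {m n : ℕ} {S : Sys m n}

theorem Valid.e_nonneg (h : S.Valid) (q : E m × E n) : 0 ≤ S.e q :=
  psd_tr_nonneg (h.B_nonneg q)

theorem Valid.e_le (h : S.Valid) (q : E m × E n) : S.e q ≤ m := by
  unfold Sys.e
  rw [tr_eq_sum_inner]
  calc ∑ i : Fin m, ⟪S.B q (ebas i), ebas i⟫_ℝ ≤ ∑ _i : Fin m, (1 : ℝ) := by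
        refine Finset.sum_le_sum fun i _ => ?_
        have := h.B_le q (ebas i)
        simpa using this
    _ = m := by simp

/-- AE (2.4): `|P_vh a|² ≤ B[a, a]`. -/
theorem Valid.Pvh_sq_le (h : S.Valid) (q : E m × E n) (u : E m) :
    ‖S.Pvh q u‖ ^ 2 ≤ ⟪S.B q u, u⟫_ℝ := by
  have h1 := h.hv_vh q u u
  rw [real_inner_self_eq_norm_sq, real_inner_self_eq_norm_sq] at h1
  have : 0 ≤ ‖S.B q u‖ ^ 2 := by positivity
  linarith

/-- AE (2.4): `|P_vh| ≤ √e`. -/
theorem Valid.norm_Pvh_le (h : S.Valid) (q : E m × E n) : ‖S.Pvh q‖ ≤ Real.sqrt (S.e q) := by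
  refine (S.Pvh q).opNorm_le_bound (Real.sqrt_nonneg _) fun u => ?_
  have h1 := (h.Pvh_sq_le q u).trans (psd_inner_le_tr (h.B_nonneg q) u)
  have h2 : ‖S.Pvh q u‖ ^ 2 ≤ (Real.sqrt (S.e q) * ‖u‖) ^ 2 := by
    rw [mul_pow, Real.sq_sqrt (h.e_nonneg q)]
    exact h1
  exact (abs_le_of_sq_le_sq' h2 (by positivity)).2

theorem Valid.norm_B_le (h : S.Valid) (q : E m × E n) : ‖S.B q‖ ≤ S.e q :=
  psd_norm_le_tr (h.B_symm q) (h.B_nonneg q)

theorem Valid.norm_Pvv_le (h : S.Valid) (q : E m × E n) : ‖S.Pvv q‖ ≤ S.e q := by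
  unfold Sys.e
  rw [h.tr_B_eq q]
  exact psd_norm_le_tr (h.Pvv_symm q) (h.Pvv_nonneg q)

theorem Valid.meas_e (h : S.Valid) : Measurable S.e := measurable_tr.comp h.meas_B

/-! #### the projected mass -/

theorem exists_compact_exhaustion {U : Set (E m)} (hU : IsOpen U) :
    ∃ K : ℕ → Set (E m), (∀ j, IsCompact (K j)) ∧ (∀ j, K j ⊆ U) ∧ ⋃ j, K j = U := by
  obtain ⟨F, hFc, hFs, hFu, hFm⟩ := hU.exists_iUnion_isClosed
  refine ⟨fun j => F j ∩ closedBall 0 j, fun j => (isCompact_closedBall _ _).inter_left (hFc j),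
    fun j => inter_subset_left.trans (hFs j), ?_⟩
  apply Subset.antisymm
  · exact iUnion_subset fun j => inter_subset_left.trans (hFs j)
  · intro y hy
    rw [← hFu] at hy
    obtain ⟨j0, hj0⟩ := mem_iUnion.1 hy
    obtain ⟨j1, hj1⟩ := exists_nat_ge ‖y‖
    refine mem_iUnion.2 ⟨max j0 j1, hFm (le_max_left _ _) hj0, ?_⟩
    rw [mem_closedBall, dist_zero_right]
    refine hj1.trans ?_
    exact_mod_cast le_max_right j0 j1

theorem nu_apply (S : Sys m n) {A : Set (E m)} (hA : MeasurableSet A) : S.nu A = S.μ (A ×ˢ (univ : Set (E n))) := by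
  unfold Sys.nu
  rw [Measure.map_apply measurable_fst hA]
  congr 1
  ext q
  simp

theorem Valid.nu_compl (h : S.Valid) : S.nu S.Ωᶜ = 0 := by
  rw [nu_apply S h.isOpen_Ω.measurableSet.compl, ← h.conc]
  congr 1
  ext q
  simp

theorem Valid.nu_compact_lt_top (h : S.Valid) {K : Set (E m)} (hK : IsCompact K) (hKΩ : K ⊆ S.Ω) : S.nu K < ∞ := by
  rw [nu_apply S hK.measurableSet]
  exact h.finite_mass K hK hKΩ

theorem Valid.sigmaFinite_nu (h : S.Valid) : SigmaFinite S.nu := by
  obtain ⟨K, hKc, hKs, hKu⟩ := exists_compact_exhaustion h.isOpen_Ω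
  refine ⟨⟨⟨fun j => S.Ωᶜ ∪ K j, fun _ => trivial, fun j => ?_, ?_⟩⟩⟩
  · refine lt_of_le_of_lt (measure_union_le _ _) ?_
    rw [h.nu_compl, zero_add]
    exact h.nu_compact_lt_top (hKc j) (hKs j)
  · rw [← union_iUnion, hKu, compl_union_self]

/-- bounded measurable integrands with compact base support are integrable. -/
theorem Valid.integrable_of_baseCpt (h : S.Valid) {g : E m × E n → ℝ} (hg : Measurable g)
    (hc : BaseCpt S.Ω g) (C : ℝ) (hb : ∀ᵐ q ∂S.μ, |g q| ≤ C) : Integrable g S.μ := by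
  obtain ⟨K, hK, hKΩ, hz⟩ := hc
  have hsupp : Function.support g ⊆ K ×ˢ (univ : Set (E n)) := by
    intro q hq
    by_contra hcon
    exact hq (hz q (fun h1 => hcon ⟨h1, mem_univ _⟩))
  rw [← integrableOn_iff_integrable_of_support_subset hsupp]
  exact Measure.integrableOn_of_bounded (M := C) (h.finite_mass K hK hKΩ).ne hg.aestronglyMeasurable
    (ae_restrict_of_ae hb)

/-- continuous integrands with compact base support are integrable (properness). -/
theorem Valid.integrable_of_continuous (h : S.Valid) {g : E m × E n → ℝ} (hg : Continuous g)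
    (hc : BaseCpt S.Ω g) : Integrable g S.μ := by
  obtain ⟨K, hK, hKΩ, hz⟩ := hc
  obtain ⟨H, hH⟩ := h.proper K hK hKΩ
  obtain ⟨C, hC⟩ := (hK.prod (isCompact_closedBall (0 : E n) H)).exists_bound_of_continuousOn hg.continuousOn
  refine h.integrable_of_baseCpt hg.measurable ⟨K, hK, hKΩ, hz⟩ (max C 0) ?_
  rw [ae_iff]
  refine measure_mono_null ?_ hH
  intro q hq
  have hq' : ¬ |g q| ≤ max C 0 := hq
  have h1 : q.1 ∈ K := by
    by_contra hcon
    apply hq'
    rw [hz q hcon, abs_zero]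
    exact le_max_right _ _
  refine ⟨h1, ?_⟩
  by_contra hcon
  apply hq'
  have h2 : q.2 ∈ closedBall (0 : E n) H := by
    rw [mem_closedBall, dist_zero_right]
    exact not_lt.1 hcon
  exact (hC q ⟨h1, h2⟩).trans (le_max_left _ _)

/-! #### the Jordan decomposition of `M` -/

/-- the density of the absolutely continuous part of `ν`. -/
noncomputable def fac (S : Sys m n) (y : E m) : ℝ := (S.nu.rnDeriv volume y).toReal

theorem measurable_fac (S : Sys m n) : Measurable S.fac := (Measure.measurable_rnDeriv _ _).ennreal_toReal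

theorem fac_nonneg (S : Sys m n) (y : E m) : 0 ≤ S.fac y := ENNReal.toReal_nonneg

theorem Valid.measurable_a (h : S.Valid) : Measurable S.a := h.a_contDiff.continuous.measurable

theorem Valid.a_pos (h : S.Valid) (y : E m) : 0 < S.a y := lt_of_lt_of_le (by norm_num) (h.a_lower y)

theorem Mpos_def (S : Sys m n) (Q : ℕ) : S.Mpos Q = (S.nu.singularPart volume + volume.withDensity fun y =>
    ENNReal.ofReal (S.fac y - Q * S.a y)).restrict S.Ω := rfl

theorem Mneg_def (S : Sys m n) (Q : ℕ) : S.Mneg Q = (volume.withDensity fun y =>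
    ENNReal.ofReal (Q * S.a y - S.fac y)).restrict S.Ω := rfl

theorem absM_def (S : Sys m n) (Q : ℕ) : S.absM Q = (S.nu.singularPart volume + volume.withDensity fun y =>
    ENNReal.ofReal |S.fac y - Q * S.a y|).restrict S.Ω := rfl

theorem ofReal_abs_eq (t : ℝ) : ENNReal.ofReal |t| = ENNReal.ofReal t + ENNReal.ofReal (-t) := by
  rcases le_total 0 t with ht | ht
  · rw [abs_of_nonneg ht, ENNReal.ofReal_of_nonpos (by linarith : -t ≤ 0), add_zero]
  · rw [abs_of_nonpos ht, ENNReal.ofReal_of_nonpos ht, zero_add]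

/-- Jordan decomposition of `M`. -/
theorem Valid.absM_eq (h : S.Valid) (Q : ℕ) : S.absM Q = S.Mpos Q + S.Mneg Q := by
  unfold Sys.absM Sys.Mpos Sys.Mneg
  rw [← Measure.restrict_add, add_assoc]
  congr 2
  have hm1 : Measurable fun y => ENNReal.ofReal ((S.nu.rnDeriv volume y).toReal - Q * S.a y) :=
    (S.measurable_fac.sub (measurable_const.mul h.measurable_a)).ennreal_ofReal
  rw [← withDensity_add_left hm1]
  congr 1
  funext y
  rw [ofReal_abs_eq, Pi.add_apply, neg_sub]

theorem integral_withDensity_ofReal {α : Type*} [MeasurableSpace α] (μ : Measure α) {g : α → ℝ} (hg : Measurable g)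
    (w : α → ℝ) :
    ∫ x, w x ∂(μ.withDensity fun x => ENNReal.ofReal (g x)) = ∫ x, max (g x) 0 * w x ∂μ := by
  rw [integral_withDensity_eq_integral_toReal_smul hg.ennreal_ofReal
    (Filter.Eventually.of_forall fun _ => ENNReal.ofReal_lt_top)]
  simp only [ENNReal.toReal_ofReal', smul_eq_mul]

theorem integrable_withDensity_ofReal {α : Type*} [MeasurableSpace α] (μ : Measure α) {g : α → ℝ}
    (hg : Measurable g) (w : α → ℝ) :
    Integrable w (μ.withDensity fun x => ENNReal.ofReal (g x)) ↔ Integrable (fun x => max (g x) 0 * w x) μ := by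
  rw [integrable_withDensity_iff_integrable_smul' hg.ennreal_ofReal
    (Filter.Eventually.of_forall fun _ => ENNReal.ofReal_lt_top)]
  simp only [ENNReal.toReal_ofReal', smul_eq_mul]

/-- bounded measurable functions with support in a set of finite measure are integrable. -/
theorem integrable_of_bdd_support {α : Type*} [MeasurableSpace α] {μ : Measure α} {w : α → ℝ} (hw : Measurable w)
    {K : Set α} (hK : μ K < ∞) (hs : Function.support w ⊆ K) (C : ℝ) (hb : ∀ y, |w y| ≤ C) : Integrable w μ := by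
  rw [← integrableOn_iff_integrable_of_support_subset hs]
  exact Measure.integrableOn_of_bounded (M := C) hK.ne hw.aestronglyMeasurable
    (Filter.Eventually.of_forall hb)

section Jordan

variable (h : S.Valid) (Q : ℕ) {w : E m → ℝ} (hw : Measurable w) {K : Set (E m)} (hK : IsCompact K)
  (hKΩ : K ⊆ S.Ω) (hs : Function.support w ⊆ K) (C : ℝ) (hb : ∀ y, |w y| ≤ C)

include h hw hK hKΩ hs hb

theorem Valid.integrable_nu : Integrable w S.nu :=
  integrable_of_bdd_support hw (h.nu_compact_lt_top hK hKΩ) hs C hb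

theorem Valid.integrable_sing : Integrable w (S.nu.singularPart volume) :=
  (h.integrable_nu hw hK hKΩ hs C hb).mono_measure (Measure.singularPart_le _ _)

theorem Valid.integrable_fac_mul : Integrable (fun y => S.fac y * w y) volume := by
  have := h.sigmaFinite_nu
  have h1 : Integrable w (volume.withDensity (S.nu.rnDeriv volume)) :=
    (h.integrable_nu hw hK hKΩ hs C hb).mono_measure (Measure.withDensity_rnDeriv_le _ _)
  rw [integrable_withDensity_iff_integrable_smul' (Measure.measurable_rnDeriv _ _)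
    (Measure.rnDeriv_lt_top _ _)] at h1
  exact h1

omit h hKΩ in
theorem integrable_vol_of_cpt : Integrable w (volume : Measure (E m)) :=
  integrable_of_bdd_support hw hK.measure_lt_top hs C hb

theorem Valid.integrable_a_mul : Integrable (fun y => S.a y * w y) volume := by
  refine (integrable_vol_of_cpt hw hK hs C hb).bdd_mul (c := 2) h.measurable_a.aestronglyMeasurable ?_
  refine Filter.Eventually.of_forall fun y => ?_
  rw [Real.norm_of_nonneg (h.a_pos y).le]
  exact h.a_upper y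

theorem Valid.integrable_pos_mul : Integrable (fun y => max (S.fac y - Q * S.a y) 0 * w y) volume := by
  have h1 := (h.integrable_fac_mul hw hK hKΩ hs C hb).norm
  refine Integrable.mono' h1 ?_ ?_
  · exact (((S.measurable_fac.sub (measurable_const.mul h.measurable_a)).max measurable_const).mul
      hw).aestronglyMeasurable
  · refine Filter.Eventually.of_forall fun y => ?_
    rw [norm_mul, norm_mul]
    apply mul_le_mul_of_nonneg_right _ (norm_nonneg _)
    rw [Real.norm_of_nonneg (le_max_right _ _), Real.norm_of_nonneg (S.fac_nonneg y)]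
    apply max_le _ (S.fac_nonneg y)
    have : 0 ≤ (Q : ℝ) * S.a y := mul_nonneg (Nat.cast_nonneg Q) (h.a_pos y).le
    linarith

theorem Valid.integrable_neg_mul : Integrable (fun y => max (Q * S.a y - S.fac y) 0 * w y) volume := by
  have h1 := ((h.integrable_a_mul hw hK hKΩ hs C hb).const_mul (Q : ℝ)).norm
  refine Integrable.mono' h1 ?_ ?_
  · exact ((((measurable_const.mul h.measurable_a).sub S.measurable_fac).max measurable_const).mul
      hw).aestronglyMeasurable
  · refine Filter.Eventually.of_forall fun y => ?_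
    rw [← mul_assoc, norm_mul, norm_mul ((Q : ℝ) * S.a y)]
    apply mul_le_mul_of_nonneg_right _ (norm_nonneg _)
    have h0 : 0 ≤ (Q : ℝ) * S.a y := mul_nonneg (Nat.cast_nonneg Q) (h.a_pos y).le
    rw [Real.norm_of_nonneg (le_max_right _ _), Real.norm_of_nonneg h0]
    apply max_le _ h0
    linarith [S.fac_nonneg y]

theorem Valid.integrable_Mpos : Integrable w (S.Mpos Q) := by
  unfold Sys.Mpos
  apply Integrable.restrict
  refine (h.integrable_sing hw hK hKΩ hs C hb).add_measure ?_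
  exact (integrable_withDensity_ofReal volume (S.measurable_fac.sub (measurable_const.mul h.measurable_a)) w).2
    (h.integrable_pos_mul Q hw hK hKΩ hs C hb)

theorem Valid.integrable_Mneg : Integrable w (S.Mneg Q) := by
  unfold Sys.Mneg
  apply Integrable.restrict
  exact (integrable_withDensity_ofReal volume ((measurable_const.mul h.measurable_a).sub S.measurable_fac) w).2
    (h.integrable_neg_mul Q hw hK hKΩ hs C hb)

theorem Valid.intM_eq :
    S.intM Q w = (∫ y, w y ∂(S.Mpos Q)) - ∫ y, w y ∂(S.Mneg Q) := by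
  have hσ := h.sigmaFinite_nu
  have hzero : ∀ y, y ∉ S.Ω → w y = 0 := by
    intro y hy
    by_contra hcon
    exact hy (hKΩ (hs hcon))
  have hm1 : Measurable fun y => S.fac y - Q * S.a y := S.measurable_fac.sub (measurable_const.mul h.measurable_a)
  have hm2 : Measurable fun y => Q * S.a y - S.fac y := (measurable_const.mul h.measurable_a).sub S.measurable_fac
  have i1 := h.integrable_sing hw hK hKΩ hs C hb
  have i2 := h.integrable_fac_mul hw hK hKΩ hs C hb
  have i3 := h.integrable_a_mul hw hK hKΩ hs C hb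
  have i4 := h.integrable_pos_mul Q hw hK hKΩ hs C hb
  have i5 := h.integrable_neg_mul Q hw hK hKΩ hs C hb
  -- left side
  have e1 : ∫ q, w q.1 ∂S.μ = ∫ y, w y ∂S.nu := by
    unfold Sys.nu
    rw [integral_map measurable_fst.aemeasurable hw.aestronglyMeasurable]
  have e2 : ∫ y, w y ∂S.nu = (∫ y, w y ∂(S.nu.singularPart volume)) + ∫ y, S.fac y * w y := by
    conv_lhs => rw [Measure.haveLebesgueDecomposition_add S.nu volume]
    rw [integral_add_measure i1 ((h.integrable_nu hw hK hKΩ hs C hb).mono_measure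
      (Measure.withDensity_rnDeriv_le _ _)),
      integral_withDensity_eq_integral_toReal_smul (Measure.measurable_rnDeriv _ _) (Measure.rnDeriv_lt_top _ _)]
    rfl
  have e3 : ∫ y in S.Ω, w y * S.a y = ∫ y, S.a y * w y := by
    rw [setIntegral_eq_integral_of_forall_compl_eq_zero (fun y hy => by rw [hzero y hy, zero_mul])]
    exact integral_congr_ae (Filter.Eventually.of_forall fun y => mul_comm _ _)
  -- right side
  have e4 : ∫ y, w y ∂(S.Mpos Q)
      = (∫ y, w y ∂(S.nu.singularPart volume)) + ∫ y, max (S.fac y - Q * S.a y) 0 * w y := by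
    rw [Mpos_def, setIntegral_eq_integral_of_forall_compl_eq_zero hzero,
      integral_add_measure i1 ((integrable_withDensity_ofReal volume hm1 w).2 i4)]
    congr 1
    exact integral_withDensity_ofReal volume hm1 w
  have e5 : ∫ y, w y ∂(S.Mneg Q) = ∫ y, max (Q * S.a y - S.fac y) 0 * w y := by
    rw [Mneg_def, setIntegral_eq_integral_of_forall_compl_eq_zero hzero]
    exact integral_withDensity_ofReal volume hm2 w
  have e6 : (∫ y, max (S.fac y - Q * S.a y) 0 * w y) - ∫ y, max (Q * S.a y - S.fac y) 0 * w y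
      = (∫ y, S.fac y * w y) - Q * ∫ y, S.a y * w y := by
    rw [← integral_sub i4 i5, ← integral_const_mul, ← integral_sub i2 (i3.const_mul _)]
    refine integral_congr_ae (Filter.Eventually.of_forall fun y => ?_)
    simp only
    rcases le_total (S.fac y) (Q * S.a y) with h1 | h1
    · rw [max_eq_right (by linarith), max_eq_left (by linarith)]
      ring
    · rw [max_eq_left (by linarith), max_eq_right (by linarith)]
      ring
  unfold Sys.intM
  rw [e1, e2, e3, e4, e5]
  linarith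

/-- `|∫ w dM| ≤ ∫ |w| d|M|`. -/
theorem Valid.abs_intM_le : |S.intM Q w| ≤ ∫ y, |w y| ∂(S.absM Q) := by
  rw [h.intM_eq Q hw hK hKΩ hs C hb, h.absM_eq Q]
  have i1 := h.integrable_Mpos Q hw hK hKΩ hs C hb
  have i2 := h.integrable_Mneg Q hw hK hKΩ hs C hb
  rw [integral_add_measure i1.abs i2.abs]
  have h1 : |∫ y, w y ∂(S.Mpos Q)| ≤ ∫ y, |w y| ∂(S.Mpos Q) := abs_integral_le_integral_abs
  have h2 : |∫ y, w y ∂(S.Mneg Q)| ≤ ∫ y, |w y| ∂(S.Mneg Q) := abs_integral_le_integral_abs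
  calc |(∫ y, w y ∂(S.Mpos Q)) - ∫ y, w y ∂(S.Mneg Q)|
      ≤ |∫ y, w y ∂(S.Mpos Q)| + |∫ y, w y ∂(S.Mneg Q)| := abs_sub _ _
    _ ≤ _ := add_le_add h1 h2

end Jordan

/-! #### comparison of measures -/

theorem Valid.nu_restrict (h : S.Valid) : S.nu.restrict S.Ω = S.nu := by
  apply Measure.restrict_eq_self_of_ae_mem
  rw [ae_iff]
  exact h.nu_compl

theorem Valid.volS_eq (h : S.Valid) :
    S.volS = (volume.withDensity fun y => ENNReal.ofReal (S.a y)).restrict S.Ω := by
  unfold Sys.volS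
  rw [restrict_withDensity h.isOpen_Ω.measurableSet]

theorem Valid.meas_ofReal_a (h : S.Valid) : Measurable fun y => ENNReal.ofReal (S.a y) :=
  h.measurable_a.ennreal_ofReal

/-- `ν ≤ |M| + Q vol_S`. -/
theorem Valid.nu_le (h : S.Valid) (Q : ℕ) : S.nu ≤ S.absM Q + (Q : ℝ≥0∞) • S.volS := by
  have hσ := h.sigmaFinite_nu
  rw [h.volS_eq, absM_def, ← Measure.restrict_smul, ← Measure.restrict_add]
  conv_lhs => rw [← h.nu_restrict]
  apply Measure.restrict_mono le_rfl
  conv_lhs => rw [Measure.haveLebesgueDecomposition_add S.nu volume]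
  rw [add_assoc]
  apply add_le_add le_rfl
  rw [← withDensity_smul _ h.meas_ofReal_a, ← withDensity_add_right _ (h.meas_ofReal_a.const_smul _)]
  apply withDensity_mono
  filter_upwards [Measure.rnDeriv_lt_top S.nu volume] with y hy
  have h1 : S.nu.rnDeriv volume y = ENNReal.ofReal (S.fac y) := (ENNReal.ofReal_toReal hy.ne).symm
  have h2 : ((Q : ℝ≥0∞)) = ENNReal.ofReal (Q : ℝ) := (ENNReal.ofReal_natCast Q).symm
  simp only [Pi.add_apply, Pi.smul_apply, smul_eq_mul]
  rw [h1, h2, ← ENNReal.ofReal_mul (Nat.cast_nonneg Q), ← ENNReal.ofReal_add (abs_nonneg _)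
    (mul_nonneg (Nat.cast_nonneg Q) (h.a_pos y).le)]
  apply ENNReal.ofReal_le_ofReal
  linarith [le_abs_self (S.fac y - Q * S.a y)]

theorem absM_ge (S : Sys m n) (Q : ℕ) :
    (volume.withDensity fun y => ENNReal.ofReal |S.fac y - Q * S.a y|).restrict S.Ω ≤ S.absM Q := by
  rw [absM_def]
  apply Measure.restrict_mono le_rfl
  exact Measure.le_add_left le_rfl

/-- `|Q - Q'| vol_S ≤ |M_Q| + |M_{Q'}|`: two reference counts cannot both have small defect. -/
theorem Valid.count_unique (h : S.Valid) (Q Q' : ℕ) :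
    ENNReal.ofReal |(Q : ℝ) - Q'| • S.volS ≤ S.absM Q + S.absM Q' := by
  refine le_trans ?_ (add_le_add (S.absM_ge Q) (S.absM_ge Q'))
  have hm : ∀ Q : ℕ, Measurable fun y => ENNReal.ofReal |S.fac y - Q * S.a y| := fun Q =>
    ((S.measurable_fac.sub (measurable_const.mul h.measurable_a)).abs).ennreal_ofReal
  rw [h.volS_eq, ← Measure.restrict_smul, ← Measure.restrict_add]
  apply Measure.restrict_mono le_rfl
  rw [← withDensity_smul _ h.meas_ofReal_a, ← withDensity_add_right _ (hm Q')]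
  apply withDensity_mono
  refine Filter.Eventually.of_forall fun y => ?_
  simp only [Pi.add_apply, Pi.smul_apply, smul_eq_mul]
  rw [← ENNReal.ofReal_mul (abs_nonneg _), ← ENNReal.ofReal_add (abs_nonneg _) (abs_nonneg _)]
  apply ENNReal.ofReal_le_ofReal
  have h1 : |(Q : ℝ) - Q'| * S.a y = |(S.fac y - Q' * S.a y) - (S.fac y - Q * S.a y)| := by
    rw [← abs_of_pos (h.a_pos y), ← abs_mul, abs_of_pos (h.a_pos y)]
    congr 1
    ring
  rw [h1]
  have := abs_sub (S.fac y - Q' * S.a y) (S.fac y - Q * S.a y)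
  linarith

theorem Valid.intD_eq (h : S.Valid) {w : E m → ℝ} (hw : Measurable w) :
    S.intD w = ∫ y, w y ∂S.Dm := by
  unfold Sys.intD Sys.Dm
  rw [integral_map measurable_fst.aemeasurable hw.aestronglyMeasurable,
    integral_withDensity_ofReal _ h.meas_e]
  refine integral_congr_ae (Filter.Eventually.of_forall fun q => ?_)
  simp only
  rw [max_eq_left (h.e_nonneg q), mul_comm]

theorem Valid.intLam_eq (h : S.Valid) {w : E m → ℝ} (hw : Measurable w) :
    S.intLam w = ∫ y, w y ∂S.Lm := by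
  unfold Sys.intLam Sys.Lm
  rw [integral_map measurable_fst.aemeasurable hw.aestronglyMeasurable,
    integral_withDensity_ofReal _ h.meas_lam]
  refine integral_congr_ae (Filter.Eventually.of_forall fun q => ?_)
  simp only
  rw [max_eq_left (h.lam_nonneg q), mul_comm]

/-- a.e. fibre consists of points of positive projection Jacobian. -/
theorem Valid.fib_Jpi_pos (h : S.Valid) :
    ∀ᵐ y ∂(volume.restrict S.Ω), ∀ ζ ∈ S.fib y, 0 < S.Jpi (y, ζ) := by
  have hZ : MeasurableSet {q | S.Jpi q = 0} := h.meas_Jpi (measurableSet_singleton 0)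
  have hg : Measurable ({q | S.Jpi q = 0}.indicator (fun _ => (1 : ℝ≥0∞))) := measurable_const.indicator hZ
  have h1 := h.count _ hg
  have h2 : ∫⁻ q, {q | S.Jpi q = 0}.indicator (fun _ => (1 : ℝ≥0∞)) q * ENNReal.ofReal (S.Jpi q) ∂S.μ = 0 := by
    rw [← lintegral_zero (μ := S.μ)]
    refine lintegral_congr fun q => ?_
    by_cases hq : S.Jpi q = 0
    · rw [hq]; simp
    · rw [indicator_of_notMem (show q ∉ {q | S.Jpi q = 0} from hq), zero_mul]
  rw [h2] at h1
  have h3 := (lintegral_eq_zero_iff' ((h.count_meas _ hg).mul h.meas_ofReal_a.aemeasurable)).1 h1.symm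
  filter_upwards [h3] with y hy ζ hζ
  have h4 : S.fibSum ({q | S.Jpi q = 0}.indicator (fun _ => (1 : ℝ≥0∞))) y = 0 := by
    rcases mul_eq_zero.1 hy with h5 | h5
    · exact h5
    · exact absurd (ENNReal.ofReal_eq_zero.1 h5) (not_le.2 (h.a_pos y))
  unfold Sys.fibSum at h4
  rw [Multiset.sum_eq_zero_iff] at h4
  have h5 := h4 _ (Multiset.mem_map_of_mem _ hζ)
  refine lt_of_le_of_ne (h.Jpi_nonneg _) fun hcon => ?_
  rw [indicator_of_mem (show (y, ζ) ∈ {q | S.Jpi q = 0} from hcon.symm)] at h5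
  exact one_ne_zero h5

/-! #### the fibre count -/

theorem fibSum_base (S : Sys m n) (g : E m → ℝ≥0∞) (y : E m) :
    S.fibSum (fun q => g q.1) y = S.N y * g y := by
  unfold Sys.fibSum Sys.N
  simp [Multiset.map_const', Multiset.sum_replicate, nsmul_eq_mul]

theorem Valid.aemeas_N_enn (h : S.Valid) :
    AEMeasurable (fun y => (S.N y : ℝ≥0∞)) (volume.restrict S.Ω) := by
  refine (h.count_meas (fun _ => 1) measurable_const).congr (Filter.Eventually.of_forall fun y => ?_)
  have := S.fibSum_base (fun _ => 1) y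
  simpa using this

theorem Valid.aemeas_N_real (h : S.Valid) :
    AEMeasurable (fun y => (S.N y : ℝ)) (volume.restrict S.Ω) := by
  refine h.aemeas_N_enn.ennreal_toReal.congr (Filter.Eventually.of_forall fun y => ?_)
  simp

theorem Valid.count_base (h : S.Valid) {g : E m → ℝ≥0∞} (hg : Measurable g) :
    ∫⁻ q, g q.1 * ENNReal.ofReal (S.Jpi q) ∂S.μ = ∫⁻ y in S.Ω, S.N y * g y * ENNReal.ofReal (S.a y) := by
  rw [h.count (fun q => g q.1) (hg.comp measurable_fst)]
  simp only [fibSum_base]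

theorem Valid.count_nonneg (h : S.Valid) {u : E m → ℝ} (hu : Measurable u) (hu0 : ∀ y, 0 ≤ u y) :
    ∫⁻ q, ENNReal.ofReal (u q.1 * S.Jpi q) ∂S.μ = ∫⁻ y in S.Ω, ENNReal.ofReal (u y * S.N y * S.a y) := by
  have h1 := h.count_base hu.ennreal_ofReal
  have e1 : ∀ q : E m × E n, ENNReal.ofReal (u q.1 * S.Jpi q)
      = ENNReal.ofReal (u q.1) * ENNReal.ofReal (S.Jpi q) := fun q => ENNReal.ofReal_mul (hu0 _)
  have e2 : ∀ y, ENNReal.ofReal (u y * S.N y * S.a y)
      = S.N y * ENNReal.ofReal (u y) * ENNReal.ofReal (S.a y) := by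
    intro y
    rw [ENNReal.ofReal_mul (mul_nonneg (hu0 y) (Nat.cast_nonneg _)), ENNReal.ofReal_mul (hu0 y),
      ENNReal.ofReal_natCast, mul_comm (ENNReal.ofReal (u y))]
  simp only [e1, e2]
  exact h1

theorem Valid.Jpi_le (h : S.Valid) (q : E m × E n) : S.Jpi q ≤ 1 + S.Cg * (m + S.Cg) := by
  have h1 := (abs_le.1 (h.Jpi_close q)).2
  have h2 : S.Cg * (S.e q + S.lam q) ≤ S.Cg * (m + S.Cg) :=
    mul_le_mul_of_nonneg_left (add_le_add (h.e_le q) (h.lam_le q)) (by linarith [h.one_le_Cg])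
  linarith

theorem ofReal_mul_pos_part (t J : ℝ) (hJ : 0 ≤ J) : ENNReal.ofReal (t * J) = ENNReal.ofReal (max t 0 * J) := by
  rcases le_total 0 t with ht | ht
  · rw [max_eq_left ht]
  · rw [max_eq_right ht, zero_mul, ENNReal.ofReal_of_nonpos (mul_nonpos_of_nonpos_of_nonneg ht hJ),
      ENNReal.ofReal_zero]

section Count

variable (h : S.Valid) {w : E m → ℝ} (hw : Measurable w) {K : Set (E m)} (hK : IsCompact K)
  (hKΩ : K ⊆ S.Ω) (hs : Function.support w ⊆ K) (C : ℝ) (hb : ∀ y, |w y| ≤ C)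

include h hw hK hKΩ hs hb

omit h hw hb in
theorem baseCpt_of_support {G : Type*} [Zero G] (g : E m × E n → G)
    (hg : ∀ q, w q.1 = 0 → g q = 0) : BaseCpt S.Ω g := by
  refine ⟨K, hK, hKΩ, fun q hq => hg q ?_⟩
  by_contra hcon
  exact hq (hs hcon)

theorem Valid.integrable_mul_Jpi : Integrable (fun q => w q.1 * S.Jpi q) S.μ := by
  refine h.integrable_of_baseCpt ((hw.comp measurable_fst).mul h.meas_Jpi)
    (baseCpt_of_support hK hKΩ hs _ fun q hq => by rw [hq, zero_mul])
    (C * (1 + S.Cg * (m + S.Cg))) (Filter.Eventually.of_forall fun q => ?_)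
  rw [abs_mul, abs_of_nonneg (h.Jpi_nonneg q)]
  exact mul_le_mul (hb _) (h.Jpi_le q) (h.Jpi_nonneg q) ((abs_nonneg _).trans (hb q.1))

theorem Valid.integrable_count : Integrable (fun y => w y * S.N y * S.a y) (volume.restrict S.Ω) := by
  refine ⟨((hw.aemeasurable.mul h.aemeas_N_real).mul h.measurable_a.aemeasurable).aestronglyMeasurable, ?_⟩
  rw [hasFiniteIntegral_iff_norm]
  have e1 : ∀ y, ‖w y * S.N y * S.a y‖ = |w y| * S.N y * S.a y := by
    intro y
    rw [Real.norm_eq_abs, abs_mul, abs_mul, abs_of_pos (h.a_pos y), Nat.abs_cast]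
  simp only [e1]
  rw [← h.count_nonneg hw.abs (fun y => abs_nonneg _)]
  have hs' : Function.support (fun y => |w y|) ⊆ K := by
    intro y hy
    apply hs
    intro hcon
    apply hy
    simp [hcon]
  have i1 := h.integrable_mul_Jpi hw.abs hK hKΩ hs' C (fun y => by rw [abs_abs]; exact hb y)
  have i2 := i1.hasFiniteIntegral
  rw [hasFiniteIntegral_iff_norm] at i2
  refine lt_of_le_of_lt (lintegral_mono fun q => ?_) i2
  exact ENNReal.ofReal_le_ofReal (le_abs_self _)

theorem Valid.integral_count : ∫ q, w q.1 * S.Jpi q ∂S.μ = ∫ y in S.Ω, w y * S.N y * S.a y := by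
  rw [integral_eq_lintegral_pos_part_sub_lintegral_neg_part (h.integrable_mul_Jpi hw hK hKΩ hs C hb),
    integral_eq_lintegral_pos_part_sub_lintegral_neg_part (h.integrable_count hw hK hKΩ hs C hb)]
  have e1 : ∀ q : E m × E n, ENNReal.ofReal (w q.1 * S.Jpi q) = ENNReal.ofReal (max (w q.1) 0 * S.Jpi q) :=
    fun q => ofReal_mul_pos_part _ _ (h.Jpi_nonneg q)
  have e2 : ∀ q : E m × E n, ENNReal.ofReal (-(w q.1 * S.Jpi q)) = ENNReal.ofReal (max (-w q.1) 0 * S.Jpi q) := by
    intro q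
    rw [← neg_mul]
    exact ofReal_mul_pos_part _ _ (h.Jpi_nonneg q)
  have e3 : ∀ y, ENNReal.ofReal (w y * S.N y * S.a y) = ENNReal.ofReal (max (w y) 0 * S.N y * S.a y) := by
    intro y
    rw [mul_assoc, mul_assoc]
    exact ofReal_mul_pos_part _ _ (mul_nonneg (Nat.cast_nonneg _) (h.a_pos y).le)
  have e4 : ∀ y, ENNReal.ofReal (-(w y * S.N y * S.a y)) = ENNReal.ofReal (max (-w y) 0 * S.N y * S.a y) := by
    intro y
    rw [mul_assoc, mul_assoc, ← neg_mul]
    exact ofReal_mul_pos_part _ _ (mul_nonneg (Nat.cast_nonneg _) (h.a_pos y).le)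
  simp only [e1, e2, e3, e4]
  rw [h.count_nonneg (u := fun y => max (w y) 0) (hw.max measurable_const) (fun y => le_max_right _ _),
    h.count_nonneg (u := fun y => max (-w y) 0) (hw.neg.max measurable_const) (fun y => le_max_right _ _)]

end Count

theorem Valid.integrable_ind_e (h : S.Valid) {K : Set (E m)} (hK : IsCompact K) (hKΩ : K ⊆ S.Ω) :
    Integrable (fun q => K.indicator (fun _ => (1 : ℝ)) q.1 * S.e q) S.μ := by
  refine h.integrable_of_baseCpt (((measurable_const.indicator hK.measurableSet).comp measurable_fst).mul h.meas_e)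
    ⟨K, hK, hKΩ, fun q hq => by simp only; rw [indicator_of_notMem hq, zero_mul]⟩ m (Filter.Eventually.of_forall fun q => ?_)
  rw [abs_mul, abs_of_nonneg (h.e_nonneg q)]
  calc |K.indicator (fun _ => (1 : ℝ)) q.1| * S.e q ≤ 1 * S.e q := by
        apply mul_le_mul_of_nonneg_right _ (h.e_nonneg q)
        by_cases hq : q.1 ∈ K
        · rw [indicator_of_mem hq]; simp
        · rw [indicator_of_notMem hq]; simp
    _ ≤ m := by rw [one_mul]; exact h.e_le q

theorem Valid.integrable_ind_lam (h : S.Valid) {K : Set (E m)} (hK : IsCompact K) (hKΩ : K ⊆ S.Ω) :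
    Integrable (fun q => K.indicator (fun _ => (1 : ℝ)) q.1 * S.lam q) S.μ := by
  refine h.integrable_of_baseCpt (((measurable_const.indicator hK.measurableSet).comp measurable_fst).mul h.meas_lam)
    ⟨K, hK, hKΩ, fun q hq => by simp only; rw [indicator_of_notMem hq, zero_mul]⟩ S.Cg (Filter.Eventually.of_forall fun q => ?_)
  rw [abs_mul, abs_of_nonneg (h.lam_nonneg q)]
  calc |K.indicator (fun _ => (1 : ℝ)) q.1| * S.lam q ≤ 1 * S.lam q := by
        apply mul_le_mul_of_nonneg_right _ (h.lam_nonneg q)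
        by_cases hq : q.1 ∈ K
        · rw [indicator_of_mem hq]; simp
        · rw [indicator_of_notMem hq]; simp
    _ ≤ S.Cg := by rw [one_mul]; exact h.lam_le q

/-- AE (2.8), second part: `|ν - N vol_S| ≤ C (D + Λ)` tested against bounded functions. -/
theorem Valid.nu_sub_count_le (h : S.Valid) {w : E m → ℝ} (hw : Measurable w)
    {K : Set (E m)} (hK : IsCompact K) (hKΩ : K ⊆ S.Ω) (hs : Function.support w ⊆ K)
    (hb : ∀ y, |w y| ≤ 1) :
    |(∫ q, w q.1 ∂S.μ) - ∫ y in S.Ω, w y * S.N y * S.a y|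
      ≤ S.Cg * ((S.Dm K).toReal + (S.Lm K).toReal) := by
  have hCg : 0 ≤ S.Cg := by linarith [h.one_le_Cg]
  rw [← h.integral_count hw hK hKΩ hs 1 hb]
  have i1 : Integrable (fun q : E m × E n => w q.1) S.μ :=
    h.integrable_of_baseCpt (hw.comp measurable_fst)
      (baseCpt_of_support hK hKΩ hs _ fun q hq => hq) 1 (Filter.Eventually.of_forall fun q => hb _)
  rw [← integral_sub i1 (h.integrable_mul_Jpi hw hK hKΩ hs 1 hb)]
  have hD : (S.Dm K).toReal = ∫ q, K.indicator (fun _ => (1 : ℝ)) q.1 * S.e q ∂S.μ := by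
    have := h.intD_eq (w := K.indicator (fun _ => (1 : ℝ))) (measurable_const.indicator hK.measurableSet)
    unfold Sys.intD at this
    rw [this, integral_indicator_const _ hK.measurableSet]
    simp [Measure.real]
  have hL : (S.Lm K).toReal = ∫ q, K.indicator (fun _ => (1 : ℝ)) q.1 * S.lam q ∂S.μ := by
    have := h.intLam_eq (w := K.indicator (fun _ => (1 : ℝ))) (measurable_const.indicator hK.measurableSet)
    unfold Sys.intLam at this
    rw [this, integral_indicator_const _ hK.measurableSet]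
    simp [Measure.real]
  rw [hD, hL, ← integral_add (h.integrable_ind_e hK hKΩ) (h.integrable_ind_lam hK hKΩ), ← integral_const_mul]
  refine (abs_integral_le_integral_abs).trans (integral_mono_of_nonneg
    (Filter.Eventually.of_forall fun q => abs_nonneg _)
    (((h.integrable_ind_e hK hKΩ).add (h.integrable_ind_lam hK hKΩ)).const_mul _)
    (Filter.Eventually.of_forall fun q => ?_))
  simp only
  have h1 : w q.1 - w q.1 * S.Jpi q = w q.1 * (1 - S.Jpi q) := by ring
  rw [h1, abs_mul, abs_sub_comm]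
  by_cases hq : q.1 ∈ K
  · rw [indicator_of_mem hq, one_mul, one_mul]
    calc |w q.1| * |S.Jpi q - 1| ≤ 1 * (S.Cg * (S.e q + S.lam q)) :=
          mul_le_mul (hb _) (h.Jpi_close q) (abs_nonneg _) zero_le_one
      _ = _ := one_mul _
  · have : w q.1 = 0 := by
      by_contra hcon
      exact hq (hs hcon)
    rw [this, indicator_of_notMem hq]
    simp

/-! #### product fields -/

/-- Horizontal identity for a product field `f(ζ) X(y)`, AE (2.21) with its curved errors. -/
theorem Valid.horiz_prod (h : S.Valid) (f : E n → ℝ) (X : E m → E m) (hf : ContDiff ℝ 1 f)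
    (hX : ContDiff ℝ 1 X) (hc : HasCompactSupport X) (hs : tsupport X ⊆ S.Ω) :
    ∫ q, (f q.2 * (dvg X q.1 + (S.a q.1)⁻¹ * fderiv ℝ S.a q.1 (X q.1))
          - f q.2 * tr (S.B q ∘L fderiv ℝ X q.1)
          + fderiv ℝ f q.2 (S.Pvh q (X q.1))) ∂S.μ
      = ∫ q, (f q.2 * tr (S.E1 q ∘L fderiv ℝ X q.1) + f q.2 * ⟪S.E2 q, X q.1⟫_ℝ
          + fderiv ℝ f q.2 (S.E3 q (X q.1))) ∂S.μ := by
  have hsm : ContDiff ℝ 1 fun q : E m × E n => f q.2 • X q.1 :=
    (hf.comp contDiff_snd).smul (hX.comp contDiff_fst)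
  have hbc : BaseCpt S.Ω fun q : E m × E n => f q.2 • X q.1 :=
    ⟨tsupport X, hc, hs, fun q hq => by simp only; rw [image_eq_zero_of_notMem_tsupport hq, smul_zero]⟩
  have key := h.horiz _ hsm hbc
  have hfd : ∀ ζ, DifferentiableAt ℝ f ζ := fun ζ => (hf.differentiable one_ne_zero) ζ
  have hXd : ∀ y, DifferentiableAt ℝ X y := fun y => (hX.differentiable one_ne_zero) y
  have d1 : ∀ q : E m × E n, D1 (fun q : E m × E n => f q.2 • X q.1) q = f q.2 • fderiv ℝ X q.1 := by
    intro q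
    rw [D1_smul (c := fun q : E m × E n => f q.2) (F := fun q : E m × E n => X q.1)
      ((hfd q.2).comp q differentiableAt_snd) ((hXd q.1).comp q differentiableAt_fst),
      D1_comp_fst (hXd q.1), D1_comp_snd (hfd q.2)]
    simp
  have d2 : ∀ q : E m × E n, D2 (fun q : E m × E n => f q.2 • X q.1) q
      = (fderiv ℝ f q.2).smulRight (X q.1) := by
    intro q
    rw [D2_smul (c := fun q : E m × E n => f q.2) (F := fun q : E m × E n => X q.1)
      ((hfd q.2).comp q differentiableAt_snd) ((hXd q.1).comp q differentiableAt_fst),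
      D2_comp_fst (hXd q.1), D2_comp_snd (hfd q.2)]
    simp
  simp only [d1, d2, tr_smul, tr_comp_smul, tr_smulRight_comp, map_smul, smul_eq_mul, inner_smul_right] at key
  rw [← sub_eq_zero] at key ⊢
  rw [← key]
  congr 1
  · refine integral_congr_ae (Filter.Eventually.of_forall fun q => ?_)
    simp only [dvg]
    ring

/-- Normal identity for a product field `φ(y) v(ζ)`, AE (2.22) with its curved errors. -/
theorem Valid.normal_prod (h : S.Valid) (φ : E m → ℝ) (v : E n → E n) (hφ : ContDiff ℝ 1 φ)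
    (hv : ContDiff ℝ 1 v) (hc : HasCompactSupport φ) (hs : tsupport φ ⊆ S.Ω) :
    ∫ q, (φ q.1 * tr (S.Pvv q ∘L fderiv ℝ v q.2)
          + fderiv ℝ φ q.1 ((S.Pvh q).adjoint (v q.2))) ∂S.μ
      = ∫ q, (φ q.1 * tr (S.E4 q ∘L fderiv ℝ v q.2) + φ q.1 * ⟪S.E5 q, v q.2⟫_ℝ
          + fderiv ℝ φ q.1 ((S.E6 q).adjoint (v q.2))) ∂S.μ := by
  have hsm : ContDiff ℝ 1 fun q : E m × E n => φ q.1 • v q.2 :=
    (hφ.comp contDiff_fst).smul (hv.comp contDiff_snd)
  have hbc : BaseCpt S.Ω fun q : E m × E n => φ q.1 • v q.2 :=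
    ⟨tsupport φ, hc, hs, fun q hq => by simp only; rw [image_eq_zero_of_notMem_tsupport hq, zero_smul]⟩
  have key := h.normal _ hsm hbc
  have hfd : ∀ y, DifferentiableAt ℝ φ y := fun y => (hφ.differentiable one_ne_zero) y
  have hXd : ∀ ζ, DifferentiableAt ℝ v ζ := fun ζ => (hv.differentiable one_ne_zero) ζ
  have d1 : ∀ q : E m × E n, D1 (fun q : E m × E n => φ q.1 • v q.2) q
      = (fderiv ℝ φ q.1).smulRight (v q.2) := by
    intro q
    rw [D1_smul (c := fun q : E m × E n => φ q.1) (F := fun q : E m × E n => v q.2)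
      ((hfd q.1).comp q differentiableAt_fst) ((hXd q.2).comp q differentiableAt_snd),
      D1_comp_fst (hfd q.1), D1_comp_snd (hXd q.2)]
    simp
  have d2 : ∀ q : E m × E n, D2 (fun q : E m × E n => φ q.1 • v q.2) q = φ q.1 • fderiv ℝ v q.2 := by
    intro q
    rw [D2_smul (c := fun q : E m × E n => φ q.1) (F := fun q : E m × E n => v q.2)
      ((hfd q.1).comp q differentiableAt_fst) ((hXd q.2).comp q differentiableAt_snd),
      D2_comp_fst (hfd q.1), D2_comp_snd (hXd q.2)]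
    simp
  simp only [d1, d2, tr_comp_smul, tr_comp_smulRight, inner_smul_right] at key
  exact key

theorem Valid.el_le (h : S.Valid) (q : E m × E n) : S.Cg * S.γ * (S.e q + S.lam q) ≤ S.Cg * (m + S.Cg) := by
  have hCg : 0 ≤ S.Cg := by linarith [h.one_le_Cg]
  have h1 : S.Cg * S.γ ≤ S.Cg := by
    have := mul_le_mul_of_nonneg_left h.γ_le_one hCg
    linarith
  exact mul_le_mul h1 (add_le_add (h.e_le q) (h.lam_le q)) (add_nonneg (h.e_nonneg q) (h.lam_nonneg q)) hCg

/-- Horizontal identity in the subtracted form AE (2.5): `∫ Div_S X dM = ∫ B : DX dμ + errors`. -/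
theorem Valid.horiz_M (h : S.Valid) (Q : ℕ) (X : E m → E m)
    (hX : ContDiff ℝ 1 X) (hc : HasCompactSupport X) (hs : tsupport X ⊆ S.Ω) :
    S.intM Q (fun y => dvg X y + (S.a y)⁻¹ * fderiv ℝ S.a y (X y))
      = ∫ q, (tr (S.B q ∘L fderiv ℝ X q.1) + tr (S.E1 q ∘L fderiv ℝ X q.1)
          + ⟪S.E2 q, X q.1⟫_ℝ) ∂S.μ := by
  have hCg : 0 ≤ S.Cg := by linarith [h.one_le_Cg]
  have ha1 : ContDiff ℝ 1 S.a := h.a_contDiff.of_le (by norm_num)
  have had : ∀ y, DifferentiableAt ℝ S.a y := fun y => (ha1.differentiable one_ne_zero) y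
  have hXd : ∀ y, DifferentiableAt ℝ X y := fun y => (hX.differentiable one_ne_zero) y
  have hDX : Continuous fun y => fderiv ℝ X y := hX.continuous_fderiv one_ne_zero
  -- the volume part vanishes
  have hvol : ∫ y in S.Ω, (dvg X y + (S.a y)⁻¹ * fderiv ℝ S.a y (X y)) * S.a y = 0 := by
    have e1 : ∀ y, (dvg X y + (S.a y)⁻¹ * fderiv ℝ S.a y (X y)) * S.a y = dvg (fun z => S.a z • X z) y := by
      intro y
      rw [dvg_smul (had y) (hXd y)]
      have := (h.a_pos y).ne'
      field_simp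
    simp only [e1]
    have hsupp : Function.support (fun z => S.a z • X z) ⊆ Function.support X := by
      intro z hz hcon
      apply hz
      simp only
      rw [hcon, smul_zero]
    have hc' : HasCompactSupport fun z => S.a z • X z := hc.mono hsupp
    have hsm : ContDiff ℝ 1 fun z => S.a z • X z := ha1.smul hX
    rw [setIntegral_eq_integral_of_forall_compl_eq_zero, integral_dvg_eq_zero hsm hc']
    intro y hy
    have hy' : y ∉ tsupport fun z => S.a z • X z := fun hcon =>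
      hy (hs (closure_mono hsupp hcon))
    unfold dvg
    rw [fderiv_of_notMem_tsupport ℝ hy', tr_zero]
  -- bounds
  obtain ⟨C1, hC1⟩ := (hc.fderiv (𝕜 := ℝ)).exists_bound_of_continuous hDX
  obtain ⟨C2, hC2⟩ := hc.exists_bound_of_continuous hX.continuous
  have hC1' : 0 ≤ C1 := (norm_nonneg _).trans (hC1 0)
  have hz1 : ∀ q : E m × E n, q.1 ∉ tsupport X → fderiv ℝ X q.1 = 0 := fun q hq => fderiv_of_notMem_tsupport ℝ hq
  have hz2 : ∀ q : E m × E n, q.1 ∉ tsupport X → X q.1 = 0 := fun q hq => image_eq_zero_of_notMem_tsupport hq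
  have mDX : Measurable fun q : E m × E n => fderiv ℝ X q.1 := (hDX.comp continuous_fst).measurable
  have i1 : Integrable (fun q : E m × E n => dvg X q.1 + (S.a q.1)⁻¹ * fderiv ℝ S.a q.1 (X q.1)) S.μ := by
    refine h.integrable_of_continuous ?_ ⟨tsupport X, hc, hs, fun q hq => ?_⟩
    · have c1 : Continuous fun y => dvg X y + (S.a y)⁻¹ * fderiv ℝ S.a y (X y) :=
        (continuous_dvg hX).add ((ha1.continuous.inv₀ fun y => (h.a_pos y).ne').mul
          ((ha1.continuous_fderiv one_ne_zero).clm_apply hX.continuous))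
      exact c1.comp continuous_fst
    · simp only [dvg]
      rw [hz1 q hq, hz2 q hq]
      simp
  have i2 : Integrable (fun q : E m × E n => tr (S.B q ∘L fderiv ℝ X q.1)) S.μ := by
    refine h.integrable_of_baseCpt (measurable_tr_comp h.meas_B mDX) ⟨tsupport X, hc, hs, fun q hq => ?_⟩
      (m * (m * C1)) (Filter.Eventually.of_forall fun q => ?_)
    · simp only
      rw [hz1 q hq]
      simp
    · refine (abs_tr_comp_le _ _).trans (mul_le_mul_of_nonneg_left ?_ (Nat.cast_nonneg _))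
      exact mul_le_mul ((h.norm_B_le q).trans (h.e_le q)) (hC1 _) (norm_nonneg _) (Nat.cast_nonneg _)
  have i3 : Integrable (fun q : E m × E n => tr (S.E1 q ∘L fderiv ℝ X q.1)) S.μ := by
    refine h.integrable_of_baseCpt (measurable_tr_comp h.meas_E1 mDX) ⟨tsupport X, hc, hs, fun q hq => ?_⟩
      (m * (S.Cg * (m + S.Cg) * C1)) (Filter.Eventually.of_forall fun q => ?_)
    · simp only
      rw [hz1 q hq]
      simp
    · refine (abs_tr_comp_le _ _).trans (mul_le_mul_of_nonneg_left ?_ (Nat.cast_nonneg _))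
      exact mul_le_mul ((h.E1_le q).trans (h.el_le q)) (hC1 _) (norm_nonneg _) (by positivity)
  have i4 : Integrable (fun q : E m × E n => ⟪S.E2 q, X q.1⟫_ℝ) S.μ := by
    refine h.integrable_of_baseCpt (h.meas_E2.inner (hX.continuous.comp continuous_fst).measurable)
      ⟨tsupport X, hc, hs, fun q hq => ?_⟩
      (S.Cg * (m + S.Cg) * C2) (Filter.Eventually.of_forall fun q => ?_)
    · simp only
      rw [hz2 q hq]
      simp
    · refine (abs_real_inner_le_norm _ _).trans ?_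
      exact mul_le_mul ((h.E2_le q).trans (h.el_le q)) (hC2 _) (norm_nonneg _) (by positivity)
  have key := h.horiz_prod (fun _ => 1) X contDiff_const hX hc hs
  simp only [one_mul, fderiv_fun_const, Pi.zero_apply, zero_apply, add_zero] at key
  rw [integral_sub i1 i2, integral_add i3 i4] at key
  unfold Sys.intM
  have e2 : ∫ q, (tr (S.B q ∘L fderiv ℝ X q.1) + tr (S.E1 q ∘L fderiv ℝ X q.1) + ⟪S.E2 q, X q.1⟫_ℝ) ∂S.μ
      = (∫ q, tr (S.B q ∘L fderiv ℝ X q.1) ∂S.μ) + (∫ q, tr (S.E1 q ∘L fderiv ℝ X q.1) ∂S.μ)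
        + ∫ q, ⟪S.E2 q, X q.1⟫_ℝ ∂S.μ := by
    rw [← integral_add i2 i3]
    exact integral_add (i2.add i3) i4
  rw [hvol, mul_zero, sub_zero, e2]
  linarith

end Sys

end Claimed.Agent.R322.Sx
end
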