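/- Packed by merge_tool.py (helper293): 3 modules of Claimed.Agent.R322 in one file, same declarations.
   Old modules, in this order: Sx.OpsB, Sx.OpsC, Sx.Ops -/
import Claimed.Agent.R322.Pack019

/- ===== packed: Claimed.Agent.R322.Sx.OpsB ===== -/
section
/-!
# R322 / Sx / OpsB : interior rescaling of a sheeted system (package B of `Sx/Ops.lean`)

Chart changes `bEq`, `tEq` (measurable equivalences), change of variables on the base and in the chart,
`Valid.rescale`, and the transformation rules of `ν, D, Λ, |M|, τ, vol_S` as identities of measures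
(`rescale_*_eq : (S.rescale x s).ρ = s^{-m} • (S.ρ).map (bEq x _)`).
-/

set_option autoImplicit false

namespace Claimed.Agent.R322.Sx

open MeasureTheory Set Metric
open scoped ENNReal NNReal InnerProductSpace

section Chart

variable {m n : ℕ}

/-- base chart change `y ↦ (y - x)/s` as a homeomorphism. -/
noncomputable def bHom (x : E m) {s : ℝ} (hs : s ≠ 0) : E m ≃ₜ E m where
  toFun y := s⁻¹ • (y - x)
  invFun y := x + s • y
  left_inv y := by simp [smul_smul, hs]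
  right_inv y := by simp [smul_smul, hs]
  continuous_toFun := by fun_prop
  continuous_invFun := by fun_prop

/-- chart change `(y, ζ) ↦ ((y - x)/s, ζ/s)` as a homeomorphism. -/
noncomputable def tHom (n : ℕ) (x : E m) {s : ℝ} (hs : s ≠ 0) : (E m × E n) ≃ₜ (E m × E n) where
  toFun q := (s⁻¹ • (q.1 - x), s⁻¹ • q.2)
  invFun q := (x + s • q.1, s • q.2)
  left_inv q := by simp [smul_smul, hs]
  right_inv q := by simp [smul_smul, hs]
  continuous_toFun := by fun_prop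
  continuous_invFun := by fun_prop

noncomputable def bEq (x : E m) {s : ℝ} (hs : s ≠ 0) : E m ≃ᵐ E m := (bHom x hs).toMeasurableEquiv

noncomputable def tEq (n : ℕ) (x : E m) {s : ℝ} (hs : s ≠ 0) : (E m × E n) ≃ᵐ (E m × E n) :=
  (tHom n x hs).toMeasurableEquiv

variable (x : E m) {s : ℝ} (hs : s ≠ 0)

@[simp] theorem bEq_apply (y : E m) : bEq x hs y = s⁻¹ • (y - x) := rfl
@[simp] theorem bEq_symm_apply (y : E m) : (bEq x hs).symm y = x + s • y := rfl
@[simp] theorem tEq_apply (q : E m × E n) : tEq n x hs q = (s⁻¹ • (q.1 - x), s⁻¹ • q.2) := rfl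
@[simp] theorem tEq_symm_apply (q : E m × E n) : (tEq n x hs).symm q = (x + s • q.1, s • q.2) := rfl

include hs in
theorem b_left (y : E m) : x + s • (s⁻¹ • (y - x)) = y := (bHom x hs).left_inv y
include hs in
theorem b_right (y : E m) : s⁻¹ • (x + s • y - x) = y := (bHom x hs).right_inv y

theorem map_bEq_volume (x : E m) {s : ℝ} (hs : 0 < s) :
    (volume : Measure (E m)).map (bEq x hs.ne') = ENNReal.ofReal (s ^ m) • volume := by
  have e : ⇑(bEq x hs.ne') = (fun y : E m => s⁻¹ • y) ∘ (fun y => y - x) := rfl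
  rw [e, ← Measure.map_map (measurable_const_smul _) (measurable_sub_const _), map_sub_right_eq_self,
    Measure.map_addHaar_smul _ (inv_ne_zero hs.ne'), finrank_euclideanSpace_fin]
  congr 2
  rw [inv_pow, inv_inv, abs_of_pos (pow_pos hs m)]

theorem map_bEq_symm_volume (x : E m) {s : ℝ} (hs : 0 < s) :
    (volume : Measure (E m)).map (bEq x hs.ne').symm = (ENNReal.ofReal (s ^ m))⁻¹ • volume := by
  have e : ⇑(bEq x hs.ne').symm = (fun y : E m => x + y) ∘ (fun y => s • y) := rfl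
  rw [e, ← Measure.map_map (measurable_const_add _) (measurable_const_smul _),
    Measure.map_addHaar_smul _ hs.ne', finrank_euclideanSpace_fin, Measure.map_smul, map_add_left_eq_self]
  congr 1
  rw [abs_of_pos (inv_pos.2 (pow_pos hs m)), ENNReal.ofReal_inv_of_pos (pow_pos hs m)]

theorem cs_ne_zero {s : ℝ} (m : ℕ) : (ENNReal.ofReal (s ^ m))⁻¹ ≠ 0 :=
  ENNReal.inv_ne_zero.2 ENNReal.ofReal_ne_top

theorem cs_ne_top {s : ℝ} (hs : 0 < s) (m : ℕ) : (ENNReal.ofReal (s ^ m))⁻¹ ≠ ∞ :=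
  ENNReal.inv_ne_top.2 (ENNReal.ofReal_pos.2 (pow_pos hs m)).ne'

theorem cs_toReal {s : ℝ} (hs : 0 < s) (m : ℕ) : ((ENNReal.ofReal (s ^ m))⁻¹).toReal = (s ^ m)⁻¹ := by
  rw [ENNReal.toReal_inv, ENNReal.toReal_ofReal (pow_pos hs m).le]

theorem cs_mul_cancel {s : ℝ} (hs : 0 < s) (m : ℕ) : (ENNReal.ofReal (s ^ m))⁻¹ * ENNReal.ofReal (s ^ m) = 1 :=
  ENNReal.inv_mul_cancel (ENNReal.ofReal_pos.2 (pow_pos hs m)).ne' ENNReal.ofReal_ne_top

/-- change of variables on the base, as an identity of measures. -/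
theorem map_symm_restrict (x : E m) {s : ℝ} (hs : 0 < s) (Ω : Set (E m)) :
    (volume.restrict {y | x + s • y ∈ Ω}).map (bEq x hs.ne').symm
      = (ENNReal.ofReal (s ^ m))⁻¹ • volume.restrict Ω := by
  have := (bEq x hs.ne').symm.measurableEmbedding.restrict_map (volume : Measure (E m)) Ω
  rw [map_bEq_symm_volume x hs, Measure.restrict_smul] at this
  rw [this]
  rfl

theorem base_lintegral (x : E m) {s : ℝ} (hs : 0 < s) (Ω : Set (E m)) (F : E m → ℝ≥0∞) :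
    ∫⁻ y in {y | x + s • y ∈ Ω}, F (x + s • y) = (ENNReal.ofReal (s ^ m))⁻¹ * ∫⁻ y in Ω, F y := by
  rw [← smul_eq_mul, ← lintegral_smul_measure, ← map_symm_restrict x hs Ω, lintegral_map_equiv]
  rfl

theorem base_integral (x : E m) {s : ℝ} (hs : 0 < s) (Ω : Set (E m)) (F : E m → ℝ) :
    ∫ y in {y | x + s • y ∈ Ω}, F (x + s • y) = (s ^ m)⁻¹ * ∫ y in Ω, F y := by
  rw [← cs_toReal hs m, ← smul_eq_mul, ← integral_smul_measure, ← map_symm_restrict x hs Ω, integral_map_equiv]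
  rfl

/-- pushing a density forward. -/
theorem map_withDensity_equiv {α β : Type*} [MeasurableSpace α] [MeasurableSpace β] (e : α ≃ᵐ β) (μ : Measure α)
    (f : α → ℝ≥0∞) : (μ.withDensity f).map e = (μ.map e).withDensity (f ∘ e.symm) := by
  ext A hA
  rw [e.map_apply, withDensity_apply _ (e.measurable hA), withDensity_apply _ hA,
    e.measurableEmbedding.restrict_map, lintegral_map_equiv]
  simp

end Chart

section ChartD

variable {m n : ℕ} {G : Type*} [NormedAddCommGroup G] [NormedSpace ℝ G]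

theorem hasFDerivAt_chart (x : E m) (s : ℝ) (q : E m × E n) :
    HasFDerivAt (fun q : E m × E n => (s⁻¹ • (q.1 - x), s⁻¹ • q.2))
      (s⁻¹ • ContinuousLinearMap.id ℝ (E m × E n)) q := by
  have h1 : HasFDerivAt (fun q : E m × E n => s⁻¹ • (q.1 - x)) (s⁻¹ • ContinuousLinearMap.fst ℝ (E m) (E n)) q :=
    (hasFDerivAt_fst.sub_const x).const_smul s⁻¹
  have h2 : HasFDerivAt (fun q : E m × E n => s⁻¹ • q.2) (s⁻¹ • ContinuousLinearMap.snd ℝ (E m) (E n)) q :=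
    hasFDerivAt_snd.const_smul s⁻¹
  have h3 := h1.prodMk h2
  have e : s⁻¹ • ContinuousLinearMap.id ℝ (E m × E n)
      = (s⁻¹ • ContinuousLinearMap.fst ℝ (E m) (E n)).prod (s⁻¹ • ContinuousLinearMap.snd ℝ (E m) (E n)) := by
    ext u <;> simp
  rw [e]
  exact h3

theorem fderiv_comp_chart (F : E m × E n → G) (x : E m) (s : ℝ) {q : E m × E n}
    (hF : DifferentiableAt ℝ F (s⁻¹ • (q.1 - x), s⁻¹ • q.2)) :
    fderiv ℝ (fun q : E m × E n => F (s⁻¹ • (q.1 - x), s⁻¹ • q.2)) q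
      = s⁻¹ • fderiv ℝ F (s⁻¹ • (q.1 - x), s⁻¹ • q.2) := by
  have h1 := (hF.hasFDerivAt.comp q (hasFDerivAt_chart x s q)).fderiv
  have e : fderiv ℝ (fun q : E m × E n => F (s⁻¹ • (q.1 - x), s⁻¹ • q.2)) q
      = fderiv ℝ F (s⁻¹ • (q.1 - x), s⁻¹ • q.2) ∘L (s⁻¹ • ContinuousLinearMap.id ℝ (E m × E n)) := h1
  rw [e]
  ext u <;> simp

theorem D1_comp_chart (F : E m × E n → G) (x : E m) (s : ℝ) {q : E m × E n}
    (hF : DifferentiableAt ℝ F (s⁻¹ • (q.1 - x), s⁻¹ • q.2)) :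
    D1 (fun q : E m × E n => F (s⁻¹ • (q.1 - x), s⁻¹ • q.2)) q
      = s⁻¹ • D1 F (s⁻¹ • (q.1 - x), s⁻¹ • q.2) := by
  unfold D1
  rw [fderiv_comp_chart F x s hF]
  rfl

theorem D2_comp_chart (F : E m × E n → G) (x : E m) (s : ℝ) {q : E m × E n}
    (hF : DifferentiableAt ℝ F (s⁻¹ • (q.1 - x), s⁻¹ • q.2)) :
    D2 (fun q : E m × E n => F (s⁻¹ • (q.1 - x), s⁻¹ • q.2)) q
      = s⁻¹ • D2 F (s⁻¹ • (q.1 - x), s⁻¹ • q.2) := by
  unfold D2
  rw [fderiv_comp_chart F x s hF]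
  rfl

theorem fderiv_comp_base (a : E m → G) (x : E m) (s : ℝ) {y : E m} (ha : DifferentiableAt ℝ a (x + s • y)) :
    fderiv ℝ (fun y => a (x + s • y)) y = s • fderiv ℝ a (x + s • y) := by
  have h1 : HasFDerivAt (fun y : E m => x + s • y) (s • ContinuousLinearMap.id ℝ (E m)) y :=
    ((hasFDerivAt_id y).const_smul s).const_add x
  have e : fderiv ℝ (fun y => a (x + s • y)) y = fderiv ℝ a (x + s • y) ∘L (s • ContinuousLinearMap.id ℝ (E m)) :=
    (ha.hasFDerivAt.comp y h1).fderiv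
  rw [e]
  ext u
  simp

theorem norm_iteratedFDeriv_comp_base_le {a : E m → ℝ} {N : ℕ∞} (ha : ContDiff ℝ N a) (x : E m) {s : ℝ} (hs : 0 ≤ s)
    (hs1 : s ≤ 1) (j : ℕ) (hj : (j : ℕ∞) ≤ N) (y : E m) :
    ‖iteratedFDeriv ℝ j (fun y => a (x + s • y)) y‖ ≤ ‖iteratedFDeriv ℝ j a (x + s • y)‖ := by
  have ha' : ContDiff ℝ N fun z => a (x + z) := ha.comp (contDiff_const.add contDiff_id)
  have e : (fun y => a (x + s • y)) = (fun z => a (x + z)) ∘ (s • ContinuousLinearMap.id ℝ (E m)) := by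
    funext y
    simp
  rw [e, ContinuousLinearMap.iteratedFDeriv_comp_right _ ha' y (by exact_mod_cast hj), iteratedFDeriv_comp_add_left]
  refine (ContinuousMultilinearMap.norm_compContinuousLinearMap_le _ _).trans ?_
  have h1 : ‖s • ContinuousLinearMap.id ℝ (E m)‖ ≤ 1 := by
    rw [norm_smul, Real.norm_of_nonneg hs]
    calc s * ‖ContinuousLinearMap.id ℝ (E m)‖ ≤ 1 * 1 :=
          mul_le_mul hs1 ContinuousLinearMap.norm_id_le (norm_nonneg _) zero_le_one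
      _ = 1 := one_mul 1
  have h2 : ∏ _i : Fin j, ‖s • ContinuousLinearMap.id ℝ (E m)‖ ≤ 1 :=
    Finset.prod_le_one (fun _ _ => norm_nonneg _) (fun _ _ => h1)
  simp only [smul_apply, ContinuousLinearMap.id_apply]
  calc _ ≤ ‖iteratedFDeriv ℝ j a (x + s • y)‖ * 1 := mul_le_mul_of_nonneg_left h2 (norm_nonneg _)
    _ = _ := mul_one _

end ChartD

namespace Sys

variable {m n : ℕ} {S : Sys m n}

theorem rescale_μ_eq (S : Sys m n) (x : E m) {s : ℝ} (hs : s ≠ 0) :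
    (S.rescale x s).μ = (ENNReal.ofReal (s ^ m))⁻¹ • S.μ.map (tEq n x hs) := rfl

theorem rescale_μ_apply (S : Sys m n) (x : E m) {s : ℝ} (hs : s ≠ 0) (A : Set (E m × E n)) :
    (S.rescale x s).μ A
      = (ENNReal.ofReal (s ^ m))⁻¹ * S.μ {q | ((s⁻¹ • (q.1 - x), s⁻¹ • q.2) : E m × E n) ∈ A} := by
  rw [rescale_μ_eq S x hs, Measure.smul_apply, (tEq n x hs).map_apply, smul_eq_mul]
  rfl

theorem rescale_μ_null (S : Sys m n) (x : E m) {s : ℝ} (hs : 0 < s) (A : Set (E m × E n)) :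
    (S.rescale x s).μ A = 0 ↔ S.μ {q | ((s⁻¹ • (q.1 - x), s⁻¹ • q.2) : E m × E n) ∈ A} = 0 := by
  rw [rescale_μ_apply S x hs.ne', mul_eq_zero]
  constructor
  · rintro (h1 | h1)
    · exact absurd h1 (cs_ne_zero m)
    · exact h1
  · exact Or.inr

theorem rescale_lintegral (S : Sys m n) (x : E m) {s : ℝ} (hs : s ≠ 0) (g : E m × E n → ℝ≥0∞) :
    ∫⁻ q, g q ∂(S.rescale x s).μ
      = (ENNReal.ofReal (s ^ m))⁻¹ * ∫⁻ q, g (s⁻¹ • (q.1 - x), s⁻¹ • q.2) ∂S.μ := by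
  rw [rescale_μ_eq S x hs, lintegral_smul_measure, lintegral_map_equiv, smul_eq_mul]
  rfl

theorem rescale_integral_gen {G : Type*} [NormedAddCommGroup G] [NormedSpace ℝ G] (S : Sys m n) (x : E m) {s : ℝ}
    (hs : 0 < s) (g : E m × E n → G) :
    ∫ q, g q ∂(S.rescale x s).μ = (s ^ m)⁻¹ • ∫ q, g (s⁻¹ • (q.1 - x), s⁻¹ • q.2) ∂S.μ := by
  rw [rescale_μ_eq S x hs.ne', integral_smul_measure, integral_map_equiv, cs_toReal hs]
  rfl

/-- integrals of functions of the point. -/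
theorem Valid.rescale_integral (h : S.Valid) (x : E m) {s : ℝ} (hs : 0 < s)
    (g : E m × E n → ℝ) :
    ∫ q, g q ∂(S.rescale x s).μ = (s ^ m)⁻¹ * ∫ q, g (s⁻¹ • (q.1 - x), s⁻¹ • q.2) ∂S.μ :=
  rescale_integral_gen S x hs g

theorem chart_UT (x : E m) {s : ℝ} (hs : s ≠ 0) (q : E m × E n) :
    ((x + s • (s⁻¹ • (q.1 - x)), s • (s⁻¹ • q.2)) : E m × E n) = q := (tHom n x hs).left_inv q

theorem chart_TU (x : E m) {s : ℝ} (hs : s ≠ 0) (q : E m × E n) :
    ((s⁻¹ • (x + s • q.1 - x), s⁻¹ • (s • q.2)) : E m × E n) = q := (tHom n x hs).right_inv q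

theorem measurable_chart_U (x : E m) (s : ℝ) : Measurable fun q : E m × E n => ((x + s • q.1, s • q.2) : E m × E n) := by
  fun_prop

theorem measurable_chart_T (x : E m) (s : ℝ) :
    Measurable fun q : E m × E n => ((s⁻¹ • (q.1 - x), s⁻¹ • q.2) : E m × E n) := by
  fun_prop

theorem rescale_ball_subset {x y : E m} {s r : ℝ} (hs : 0 < s)
    (hb : ball (x + s • y) (s * r) ⊆ S.Ω) : ball y r ⊆ (S.rescale x s).Ω := by
  intro z hz
  apply hb
  rw [mem_ball, dist_eq_norm] at hz ⊢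
  have : x + s • z - (x + s • y) = s • (z - y) := by
    rw [smul_sub]; abel
  rw [this, norm_smul, Real.norm_of_nonneg hs.le]
  exact mul_lt_mul_of_pos_left hz hs

theorem Valid.rescale_intD (h : S.Valid) (x : E m) {s : ℝ} (hs : 0 < s) (w : E m → ℝ) :
    (S.rescale x s).intD w = (s ^ m)⁻¹ * S.intD fun y => w (s⁻¹ • (y - x)) := by
  unfold Sys.intD
  rw [h.rescale_integral x hs]
  congr 1
  refine integral_congr_ae (Filter.Eventually.of_forall fun q => ?_)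
  simp only [Sys.e, Sys.rescale]
  rw [chart_UT x hs.ne']

theorem Valid.rescale_intLam (h : S.Valid) (x : E m) {s : ℝ} (hs : 0 < s) (w : E m → ℝ) :
    (S.rescale x s).intLam w = (s ^ m)⁻¹ * S.intLam fun y => w (s⁻¹ • (y - x)) := by
  unfold Sys.intLam
  rw [h.rescale_integral x hs]
  congr 1
  refine integral_congr_ae (Filter.Eventually.of_forall fun q => ?_)
  simp only [Sys.rescale]
  rw [chart_UT x hs.ne']

theorem Valid.rescale_intM (h : S.Valid) (Q : ℕ) (x : E m) {s : ℝ} (hs : 0 < s) (w : E m → ℝ) :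
    (S.rescale x s).intM Q w = (s ^ m)⁻¹ * S.intM Q fun y => w (s⁻¹ • (y - x)) := by
  unfold Sys.intM
  rw [h.rescale_integral x hs, mul_sub]
  congr 1
  have h1 := base_integral x hs S.Ω (fun y => w (s⁻¹ • (y - x)) * S.a y)
  simp only [b_right x hs.ne'] at h1
  have h2 : ∫ y in (S.rescale x s).Ω, w y * (S.rescale x s).a y
      = ∫ y in {y | x + s • y ∈ S.Ω}, w y * S.a (x + s • y) := rfl
  rw [h2, h1]
  ring

end Sys

namespace Sys

variable {m n : ℕ} {S : Sys m n}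

section Rescale

variable (h : S.Valid) (x : E m) {s : ℝ} (hs : 0 < s)

include h hs

theorem Valid.rs_isOpen : IsOpen (S.rescale x s).Ω :=
  h.isOpen_Ω.preimage (by fun_prop : Continuous fun y : E m => x + s • y)

theorem Valid.rs_conc : (S.rescale x s).μ ((S.rescale x s).Ω ×ˢ (univ : Set (E n)))ᶜ = 0 := by
  rw [rescale_μ_null S x hs]
  refine measure_mono_null ?_ h.conc
  intro q hq hcon
  apply hq
  refine ⟨?_, mem_univ _⟩
  show x + s • (s⁻¹ • (q.1 - x)) ∈ S.Ω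
  rw [b_left x hs.ne']
  exact hcon.1

omit h in
/-- the image of a compact subset of the rescaled domain. -/
theorem rs_image_compact {K : Set (E m)} (hK : IsCompact K) (hKΩ : K ⊆ (S.rescale x s).Ω) :
    IsCompact ((fun y => x + s • y) '' K) ∧ (fun y => x + s • y) '' K ⊆ S.Ω ∧
      ∀ y, s⁻¹ • (y - x) ∈ K → y ∈ (fun y => x + s • y) '' K := by
  refine ⟨hK.image (by fun_prop), ?_, fun y hy => ⟨_, hy, b_left x hs.ne' y⟩⟩
  rintro _ ⟨y, hy, rfl⟩
  exact hKΩ hy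

theorem Valid.rs_finite_mass (K : Set (E m)) (hK : IsCompact K) (hKΩ : K ⊆ (S.rescale x s).Ω) :
    (S.rescale x s).μ (K ×ˢ (univ : Set (E n))) < ∞ := by
  obtain ⟨h1, h2, h3⟩ := rs_image_compact x hs hK hKΩ
  rw [rescale_μ_apply S x hs.ne']
  refine ENNReal.mul_lt_top (cs_ne_top hs m).lt_top (lt_of_le_of_lt (measure_mono ?_) (h.finite_mass _ h1 h2))
  intro q hq
  exact ⟨h3 _ hq.1, mem_univ _⟩

theorem Valid.rs_proper (K : Set (E m)) (hK : IsCompact K) (hKΩ : K ⊆ (S.rescale x s).Ω) :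
    ∃ H : ℝ, (S.rescale x s).μ (K ×ˢ {ζ : E n | H < ‖ζ‖}) = 0 := by
  obtain ⟨h1, h2, h3⟩ := rs_image_compact x hs hK hKΩ
  obtain ⟨H, hH⟩ := h.proper _ h1 h2
  refine ⟨s⁻¹ * H, ?_⟩
  rw [rescale_μ_null S x hs]
  refine measure_mono_null ?_ hH
  intro q hq
  refine ⟨h3 _ hq.1, ?_⟩
  have h4 : s⁻¹ * H < ‖s⁻¹ • q.2‖ := hq.2
  rw [norm_smul, Real.norm_of_nonneg (inv_pos.2 hs).le] at h4
  exact lt_of_mul_lt_mul_left h4 (inv_pos.2 hs).le

omit h hs in
theorem rs_fibSum (S : Sys m n) (x : E m) {s : ℝ} (hs : s ≠ 0) (g : E m × E n → ℝ≥0∞) (y : E m) :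
    (S.rescale x s).fibSum g y = S.fibSum (fun q => g (s⁻¹ • (q.1 - x), s⁻¹ • q.2)) (x + s • y) := by
  unfold Sys.fibSum
  simp only [Sys.rescale, Multiset.map_map, Function.comp_apply]
  rw [b_right x hs]

theorem Valid.rs_count_meas (g : E m × E n → ℝ≥0∞) (hg : Measurable g) :
    AEMeasurable ((S.rescale x s).fibSum g) (volume.restrict (S.rescale x s).Ω) := by
  have h1 := h.count_meas (fun q => g (s⁻¹ • (q.1 - x), s⁻¹ • q.2)) (hg.comp (measurable_chart_T x s))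
  have h2 : AEMeasurable (S.fibSum fun q => g (s⁻¹ • (q.1 - x), s⁻¹ • q.2))
      ((volume.restrict {y | x + s • y ∈ S.Ω}).map (bEq x hs.ne').symm) := by
    rw [map_symm_restrict x hs]
    exact h1.smul_measure _
  have h3 := h2.comp_measurable (bEq x hs.ne').symm.measurable
  refine h3.congr (Filter.Eventually.of_forall fun y => ?_)
  exact (rs_fibSum S x hs.ne' g y).symm

theorem Valid.rs_count (g : E m × E n → ℝ≥0∞) (hg : Measurable g) :
    ∫⁻ q, g q * ENNReal.ofReal ((S.rescale x s).Jpi q) ∂(S.rescale x s).μ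
      = ∫⁻ y in (S.rescale x s).Ω, (S.rescale x s).fibSum g y * ENNReal.ofReal ((S.rescale x s).a y) := by
  have h1 := h.count (fun q => g (s⁻¹ • (q.1 - x), s⁻¹ • q.2)) (hg.comp (measurable_chart_T x s))
  rw [rescale_lintegral S x hs.ne']
  simp only [rs_fibSum S x hs.ne']
  have h2 := base_lintegral x hs S.Ω
    (fun y => S.fibSum (fun q => g (s⁻¹ • (q.1 - x), s⁻¹ • q.2)) y * ENNReal.ofReal (S.a y))
  have h3 : ∫⁻ y in (S.rescale x s).Ω, S.fibSum (fun q => g (s⁻¹ • (q.1 - x), s⁻¹ • q.2)) (x + s • y)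
        * ENNReal.ofReal ((S.rescale x s).a y)
      = ∫⁻ y in {y | x + s • y ∈ S.Ω}, S.fibSum (fun q => g (s⁻¹ • (q.1 - x), s⁻¹ • q.2)) (x + s • y)
        * ENNReal.ofReal (S.a (x + s • y)) := rfl
  rw [h3, h2, ← h1]
  congr 1
  refine lintegral_congr fun q => ?_
  simp only [Sys.rescale]
  rw [chart_UT x hs.ne']

theorem Valid.rs_defic : ∃ Z : Set (E m), MeasurableSet Z ∧ volume Z = 0 ∧
    (S.rescale x s).μ ({q | (S.rescale x s).Jpi q = 0} ∩ (Zᶜ ×ˢ (univ : Set (E n)))) = 0 := by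
  obtain ⟨Z, hZm, hZ0, hZ⟩ := h.defic
  refine ⟨(bEq x hs.ne').symm ⁻¹' Z, (bEq x hs.ne').symm.measurable hZm, ?_, ?_⟩
  · rw [← (bEq x hs.ne').symm.map_apply, map_bEq_symm_volume x hs, Measure.smul_apply, hZ0, smul_zero]
  · rw [rescale_μ_null S x hs]
    refine measure_mono_null ?_ hZ
    rintro q ⟨hq1, hq2, -⟩
    have h1 : S.Jpi (x + s • (s⁻¹ • (q.1 - x)), s • (s⁻¹ • q.2)) = 0 := hq1
    rw [chart_UT x hs.ne'] at h1
    refine ⟨h1, fun hcon => hq2 ?_, mem_univ _⟩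
    show x + s • (s⁻¹ • (q.1 - x)) ∈ Z
    rw [b_left x hs.ne']
    exact hcon

end Rescale

end Sys

theorem tr_smul_comp {k l : ℕ} (A : E l →L[ℝ] E k) (B : E k →L[ℝ] E l) (c : ℝ) :
    tr ((c • A) ∘L B) = c * tr (A ∘L B) := by
  rw [ContinuousLinearMap.smul_comp, tr_smul]

theorem tr_comp_smul' {k l : ℕ} (A : E l →L[ℝ] E k) (B : E k →L[ℝ] E l) (c : ℝ) :
    tr (A ∘L (c • B)) = c * tr (A ∘L B) := by
  rw [ContinuousLinearMap.comp_smul, tr_smul]

namespace Sys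

variable {m n : ℕ} {S : Sys m n}

section Rescale

variable (h : S.Valid) (x : E m) {s : ℝ} (hs : 0 < s)

omit h in
include hs in
theorem rs_baseCpt {G : Type*} [Zero G] {F : E m × E n → G} (hF : BaseCpt (S.rescale x s).Ω F) :
    BaseCpt S.Ω fun q : E m × E n => F (s⁻¹ • (q.1 - x), s⁻¹ • q.2) := by
  obtain ⟨K, hK, hKΩ, hz⟩ := hF
  refine ⟨(fun y => x + s • y) '' K, hK.image (by fun_prop), ?_, fun q hq => hz _ fun hcon => hq ?_⟩
  · rintro _ ⟨y, hy, rfl⟩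
    exact hKΩ hy
  · exact ⟨_, hcon, b_left x hs.ne' q.1⟩

theorem contDiff_chart_T (x : E m) (s : ℝ) :
    ContDiff ℝ 1 fun q : E m × E n => ((s⁻¹ • (q.1 - x), s⁻¹ • q.2) : E m × E n) := by
  fun_prop

include h hs

theorem Valid.rs_horiz (X : E m × E n → E m) (hX : ContDiff ℝ 1 X) (hc : BaseCpt (S.rescale x s).Ω X) :
    ∫ q, (tr (D1 X q) + ((S.rescale x s).a q.1)⁻¹ * fderiv ℝ (S.rescale x s).a q.1 (X q)
          - tr ((S.rescale x s).B q ∘L D1 X q) + tr (D2 X q ∘L (S.rescale x s).Pvh q)) ∂(S.rescale x s).μ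
      = ∫ q, (tr ((S.rescale x s).E1 q ∘L D1 X q) + ⟪(S.rescale x s).E2 q, X q⟫_ℝ
          + tr (D2 X q ∘L (S.rescale x s).E3 q)) ∂(S.rescale x s).μ := by
  have key := h.horiz (fun q => X (s⁻¹ • (q.1 - x), s⁻¹ • q.2)) (hX.comp (contDiff_chart_T x s))
    (rs_baseCpt x hs hc)
  have hXd : ∀ q, DifferentiableAt ℝ X q := fun q => (hX.differentiable one_ne_zero) q
  have had : ∀ y, DifferentiableAt ℝ S.a y := fun y => (h.a_contDiff.differentiable (by norm_num)) y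
  have hfa : ∀ y, fderiv ℝ (S.rescale x s).a y = s • fderiv ℝ S.a (x + s • y) :=
    fun y => fderiv_comp_base S.a x s (had _)
  simp only [D1_comp_chart X x s (hXd _), D2_comp_chart X x s (hXd _)] at key
  rw [h.rescale_integral x hs, h.rescale_integral x hs]
  congr 1
  have e1 : ∀ q : E m × E n,
      tr (D1 X (s⁻¹ • (q.1 - x), s⁻¹ • q.2))
        + ((S.rescale x s).a (s⁻¹ • (q.1 - x)))⁻¹
          * fderiv ℝ (S.rescale x s).a (s⁻¹ • (q.1 - x)) (X (s⁻¹ • (q.1 - x), s⁻¹ • q.2))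
        - tr ((S.rescale x s).B (s⁻¹ • (q.1 - x), s⁻¹ • q.2) ∘L D1 X (s⁻¹ • (q.1 - x), s⁻¹ • q.2))
        + tr (D2 X (s⁻¹ • (q.1 - x), s⁻¹ • q.2) ∘L (S.rescale x s).Pvh (s⁻¹ • (q.1 - x), s⁻¹ • q.2))
      = s * (tr (s⁻¹ • D1 X (s⁻¹ • (q.1 - x), s⁻¹ • q.2))
        + (S.a q.1)⁻¹ * fderiv ℝ S.a q.1 (X (s⁻¹ • (q.1 - x), s⁻¹ • q.2))
        - tr (S.B q ∘L (s⁻¹ • D1 X (s⁻¹ • (q.1 - x), s⁻¹ • q.2)))
        + tr ((s⁻¹ • D2 X (s⁻¹ • (q.1 - x), s⁻¹ • q.2)) ∘L S.Pvh q)) := by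
    intro q
    rw [hfa]
    simp only [Sys.rescale]
    rw [chart_UT x hs.ne', b_left x hs.ne', tr_smul, tr_comp_smul', tr_smul_comp]
    simp only [smul_apply, smul_eq_mul]
    have := hs.ne'
    field_simp
  have e2 : ∀ q : E m × E n,
      tr ((S.rescale x s).E1 (s⁻¹ • (q.1 - x), s⁻¹ • q.2) ∘L D1 X (s⁻¹ • (q.1 - x), s⁻¹ • q.2))
        + ⟪(S.rescale x s).E2 (s⁻¹ • (q.1 - x), s⁻¹ • q.2), X (s⁻¹ • (q.1 - x), s⁻¹ • q.2)⟫_ℝ
        + tr (D2 X (s⁻¹ • (q.1 - x), s⁻¹ • q.2) ∘L (S.rescale x s).E3 (s⁻¹ • (q.1 - x), s⁻¹ • q.2))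
      = s * (tr (S.E1 q ∘L (s⁻¹ • D1 X (s⁻¹ • (q.1 - x), s⁻¹ • q.2)))
        + ⟪S.E2 q, X (s⁻¹ • (q.1 - x), s⁻¹ • q.2)⟫_ℝ
        + tr ((s⁻¹ • D2 X (s⁻¹ • (q.1 - x), s⁻¹ • q.2)) ∘L S.E3 q)) := by
    intro q
    simp only [Sys.rescale]
    rw [chart_UT x hs.ne', tr_comp_smul', tr_smul_comp, inner_smul_left]
    simp only [RCLike.conj_to_real]
    have := hs.ne'
    field_simp
  simp only [e1, e2]
  rw [integral_const_mul, integral_const_mul, key]

theorem Valid.rs_normal (v : E m × E n → E n) (hv : ContDiff ℝ 1 v) (hc : BaseCpt (S.rescale x s).Ω v) :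
    ∫ q, (tr ((S.rescale x s).Pvv q ∘L D2 v q) + tr (((S.rescale x s).Pvh q).adjoint ∘L D1 v q))
        ∂(S.rescale x s).μ
      = ∫ q, (tr ((S.rescale x s).E4 q ∘L D2 v q) + ⟪(S.rescale x s).E5 q, v q⟫_ℝ
          + tr (((S.rescale x s).E6 q).adjoint ∘L D1 v q)) ∂(S.rescale x s).μ := by
  have key := h.normal (fun q => v (s⁻¹ • (q.1 - x), s⁻¹ • q.2)) (hv.comp (contDiff_chart_T x s))
    (rs_baseCpt x hs hc)
  have hXd : ∀ q, DifferentiableAt ℝ v q := fun q => (hv.differentiable one_ne_zero) q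
  simp only [D1_comp_chart v x s (hXd _), D2_comp_chart v x s (hXd _)] at key
  rw [h.rescale_integral x hs, h.rescale_integral x hs]
  congr 1
  have e1 : ∀ q : E m × E n,
      tr ((S.rescale x s).Pvv (s⁻¹ • (q.1 - x), s⁻¹ • q.2) ∘L D2 v (s⁻¹ • (q.1 - x), s⁻¹ • q.2))
        + tr (((S.rescale x s).Pvh (s⁻¹ • (q.1 - x), s⁻¹ • q.2)).adjoint ∘L D1 v (s⁻¹ • (q.1 - x), s⁻¹ • q.2))
      = s * (tr (S.Pvv q ∘L (s⁻¹ • D2 v (s⁻¹ • (q.1 - x), s⁻¹ • q.2)))
        + tr ((S.Pvh q).adjoint ∘L (s⁻¹ • D1 v (s⁻¹ • (q.1 - x), s⁻¹ • q.2)))) := by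
    intro q
    simp only [Sys.rescale]
    rw [chart_UT x hs.ne', tr_comp_smul', tr_comp_smul']
    have := hs.ne'
    field_simp
  have e2 : ∀ q : E m × E n,
      tr ((S.rescale x s).E4 (s⁻¹ • (q.1 - x), s⁻¹ • q.2) ∘L D2 v (s⁻¹ • (q.1 - x), s⁻¹ • q.2))
        + ⟪(S.rescale x s).E5 (s⁻¹ • (q.1 - x), s⁻¹ • q.2), v (s⁻¹ • (q.1 - x), s⁻¹ • q.2)⟫_ℝ
        + tr (((S.rescale x s).E6 (s⁻¹ • (q.1 - x), s⁻¹ • q.2)).adjoint ∘L D1 v (s⁻¹ • (q.1 - x), s⁻¹ • q.2))
      = s * (tr (S.E4 q ∘L (s⁻¹ • D2 v (s⁻¹ • (q.1 - x), s⁻¹ • q.2)))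
        + ⟪S.E5 q, v (s⁻¹ • (q.1 - x), s⁻¹ • q.2)⟫_ℝ
        + tr ((S.E6 q).adjoint ∘L (s⁻¹ • D1 v (s⁻¹ • (q.1 - x), s⁻¹ • q.2)))) := by
    intro q
    simp only [Sys.rescale]
    rw [chart_UT x hs.ne', tr_comp_smul', tr_comp_smul', inner_smul_left]
    simp only [RCLike.conj_to_real]
    have := hs.ne'
    field_simp
  simp only [e1, e2]
  rw [integral_const_mul, integral_const_mul, key]

end Rescale

end Sys

theorem dist_hT {k : ℕ} {s : ℝ} (hs : 0 < s) (ζ z : E k) : dist (s⁻¹ • ζ) z = s⁻¹ * dist ζ (s • z) := by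
  have e : z = s⁻¹ • (s • z) := by rw [smul_smul, inv_mul_cancel₀ hs.ne', one_smul]
  conv_lhs => rw [e]
  rw [dist_smul₀, Real.norm_of_nonneg (inv_pos.2 hs).le]

theorem dist_bT {k : ℕ} (x : E k) {s : ℝ} (hs : 0 < s) (y z : E k) :
    dist (s⁻¹ • (y - x)) z = s⁻¹ * dist y (x + s • z) := by
  rw [dist_hT hs, dist_eq_norm, dist_eq_norm]
  congr 2
  abel

theorem lt_of_inv_mul {s a r : ℝ} (hs : 0 < s) (h : a < s * r) : s⁻¹ * a < r := by
  rw [inv_mul_lt_iff₀ hs]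
  exact h

theorem le_of_inv_mul {s a r : ℝ} (hs : 0 < s) (h : a ≤ s * r) : s⁻¹ * a ≤ r := by
  rw [inv_mul_le_iff₀ hs]
  exact h

namespace Sys

variable {m n : ℕ} {S : Sys m n}

section Rescale

variable (h : S.Valid) (x : E m) {s : ℝ} (hs : 0 < s)

include hs in
theorem rs_spt {q : E m × E n} (hq : q ∈ (S.rescale x s).spt) :
    ((x + s • q.1, s • q.2) : E m × E n) ∈ S.spt := by
  intro ε hε
  have h1 := hq (s⁻¹ * ε) (mul_pos (inv_pos.2 hs) hε)
  rw [pos_iff_ne_zero, Ne, rescale_μ_null S x hs, ← Ne, ← pos_iff_ne_zero] at h1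
  refine lt_of_lt_of_le h1 (measure_mono ?_)
  intro p hp
  have hp' : dist ((s⁻¹ • (p.1 - x), s⁻¹ • p.2) : E m × E n) q < s⁻¹ * ε := hp
  rw [Prod.dist_eq, max_lt_iff] at hp'
  simp only at hp'
  rw [dist_bT x hs, dist_hT hs] at hp'
  rw [mem_ball, Prod.dist_eq, max_lt_iff]
  exact ⟨lt_of_mul_lt_mul_left hp'.1 (inv_pos.2 hs).le, lt_of_mul_lt_mul_left hp'.2 (inv_pos.2 hs).le⟩

include hs in
theorem rs_gap {Ω' : Set (E m)} {O : Set (E n)} (hgap : (S.rescale x s).Gap Ω' O) :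
    S.Gap {y | s⁻¹ • (y - x) ∈ Ω'} {ζ | s⁻¹ • ζ ∈ O} := by
  obtain ⟨δ, hδ, h0⟩ := hgap
  refine ⟨s * δ, mul_pos hs hδ, ?_⟩
  rw [rescale_μ_null S x hs] at h0
  refine measure_mono_null ?_ h0
  rintro p ⟨hp1, hp2⟩
  refine ⟨hp1, ?_⟩
  rw [mem_thickening_iff] at hp2 ⊢
  obtain ⟨z, hz, hd⟩ := hp2
  refine ⟨s⁻¹ • z, ?_, ?_⟩
  · have h1 := (Homeomorph.smulOfNeZero s⁻¹ (inv_ne_zero hs.ne') : E n ≃ₜ E n).preimage_frontier O
    have h2 : z ∈ (Homeomorph.smulOfNeZero s⁻¹ (inv_ne_zero hs.ne') : E n ≃ₜ E n) ⁻¹' frontier O := by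
      rw [h1]
      exact hz
    exact h2
  · simp only
    rw [dist_smul₀, Real.norm_of_nonneg (inv_pos.2 hs).le]
    exact lt_of_inv_mul hs hd

include h hs in
theorem Valid.rs_lower (Ω' : Set (E m)) (O : Set (E n)) (hΩ' : IsOpen Ω') (hsub : Ω' ⊆ (S.rescale x s).Ω)
    (hO : IsOpen O) (hgap : (S.rescale x s).Gap Ω' O) (q : E m × E n) (r : ℝ)
    (hq : q ∈ (S.rescale x s).spt) (hqO : q.2 ∈ O) (hr : 0 < r) (hcb : closedBall q.1 r ⊆ Ω') :
    ENNReal.ofReal (r ^ m / (S.rescale x s).Cg) ≤ (S.rescale x s).μ (ball q.1 r ×ˢ (ball q.2 r ∩ O)) := by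
  have hCg : 0 < S.Cg := by linarith [h.one_le_Cg]
  have key := h.lower {y | s⁻¹ • (y - x) ∈ Ω'} {ζ | s⁻¹ • ζ ∈ O}
    (hΩ'.preimage (by fun_prop : Continuous fun y : E m => s⁻¹ • (y - x)))
    (fun y hy => by
      have := hsub hy
      have h2 : x + s • (s⁻¹ • (y - x)) ∈ S.Ω := this
      rwa [b_left x hs.ne'] at h2)
    (hO.preimage (by fun_prop : Continuous fun ζ : E n => s⁻¹ • ζ))
    (rs_gap x hs hgap) (x + s • q.1, s • q.2) (s * r) (rs_spt x hs hq)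
    (by
      show s⁻¹ • (s • q.2) ∈ O
      rwa [smul_smul, inv_mul_cancel₀ hs.ne', one_smul])
    (mul_pos hs hr)
    (fun y hy => by
      apply hcb
      rw [mem_closedBall] at hy ⊢
      rw [dist_bT x hs]
      exact le_of_inv_mul hs hy)
  rw [rescale_μ_apply S x hs.ne']
  have h1 : S.μ (ball (x + s • q.1) (s * r) ×ˢ (ball (s • q.2) (s * r) ∩ {ζ | s⁻¹ • ζ ∈ O}))
      ≤ S.μ {p | ((s⁻¹ • (p.1 - x), s⁻¹ • p.2) : E m × E n) ∈ ball q.1 r ×ˢ (ball q.2 r ∩ O)} := by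
    refine measure_mono ?_
    rintro p ⟨hp1, hp2, hp3⟩
    refine ⟨?_, ?_, hp3⟩
    · rw [mem_ball] at hp1 ⊢
      simp only
      rw [dist_bT x hs]
      exact lt_of_inv_mul hs hp1
    · rw [mem_ball] at hp2 ⊢
      simp only
      rw [dist_hT hs]
      exact lt_of_inv_mul hs hp2
  have h2 : ENNReal.ofReal (r ^ m / (S.rescale x s).Cg)
      = (ENNReal.ofReal (s ^ m))⁻¹ * ENNReal.ofReal ((s * r) ^ m / S.Cg) := by
    have e : (s * r) ^ m / S.Cg = s ^ m * (r ^ m / S.Cg) := by rw [mul_pow]; ring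
    rw [e, ENNReal.ofReal_mul (pow_pos hs m).le, ← mul_assoc, cs_mul_cancel hs, one_mul]
    rfl
  rw [h2]
  exact mul_le_mul_right (key.trans h1) _

end Rescale

end Sys

namespace Sys

variable {m n : ℕ} {S : Sys m n}

theorem norm_smul_le_of_le_one {G : Type*} [NormedAddCommGroup G] [NormedSpace ℝ G] {s : ℝ} (hs : 0 < s)
    (hs1 : s ≤ 1) (v : G) : ‖s • v‖ ≤ ‖v‖ := by
  rw [norm_smul, Real.norm_of_nonneg hs.le]
  calc s * ‖v‖ ≤ 1 * ‖v‖ := mul_le_mul_of_nonneg_right hs1 (norm_nonneg _)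
    _ = ‖v‖ := one_mul _

theorem Valid.rescale (h : S.Valid) (x : E m) {s : ℝ} (hs : 0 < s) (hs1 : s ≤ 1) :
    (S.rescale x s).Valid where
  isOpen_Ω := h.rs_isOpen x hs
  conc := h.rs_conc x hs
  finite_mass := h.rs_finite_mass x hs
  proper := h.rs_proper x hs
  meas_B := h.meas_B.comp (measurable_chart_U x s)
  meas_Pvh := h.meas_Pvh.comp (measurable_chart_U x s)
  meas_Pvv := h.meas_Pvv.comp (measurable_chart_U x s)
  meas_lam := h.meas_lam.comp (measurable_chart_U x s)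
  meas_Jpi := h.meas_Jpi.comp (measurable_chart_U x s)
  meas_E1 := h.meas_E1.comp (measurable_chart_U x s)
  meas_E2 := (h.meas_E2.comp (measurable_chart_U x s)).const_smul s
  meas_E3 := h.meas_E3.comp (measurable_chart_U x s)
  meas_E4 := h.meas_E4.comp (measurable_chart_U x s)
  meas_E5 := (h.meas_E5.comp (measurable_chart_U x s)).const_smul s
  meas_E6 := h.meas_E6.comp (measurable_chart_U x s)
  one_le_Cg := h.one_le_Cg
  γ_nonneg := h.γ_nonneg
  γ_le_one := h.γ_le_one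
  B_symm := fun q => h.B_symm _
  B_nonneg := fun q => h.B_nonneg _
  B_le := fun q => h.B_le _
  Pvv_symm := fun q => h.Pvv_symm _
  Pvv_nonneg := fun q => h.Pvv_nonneg _
  Pvv_le := fun q => h.Pvv_le _
  hv_vh := fun q => h.hv_vh _
  vh_hv := fun q => h.vh_hv _
  vv_vh := fun q => h.vv_vh _
  tr_B_eq := fun q => h.tr_B_eq _
  lam_nonneg := fun q => h.lam_nonneg _
  lam_le := fun q => h.lam_le _
  a_contDiff := h.a_contDiff.comp (by fun_prop)
  a_close := fun y => h.a_close _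
  a_lower := fun y => h.a_lower _
  a_upper := fun y => h.a_upper _
  a_deriv := fun j hj1 hj4 y =>
    (norm_iteratedFDeriv_comp_base_le (N := 4) h.a_contDiff x hs.le hs1 j (by exact_mod_cast hj4) y).trans
      (h.a_deriv j hj1 hj4 _)
  Jpi_nonneg := fun q => h.Jpi_nonneg _
  Jpi_close := fun q => h.Jpi_close _
  Jpi_signed := fun q => h.Jpi_signed _
  count_meas := h.rs_count_meas x hs
  count := h.rs_count x hs
  defic := h.rs_defic x hs
  E1_le := fun q => h.E1_le _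
  E2_le := fun q => (norm_smul_le_of_le_one hs hs1 _).trans (h.E2_le _)
  E3_le := fun q => h.E3_le _
  E4_le := fun q => h.E4_le _
  E5_le := fun q => (norm_smul_le_of_le_one hs hs1 _).trans (h.E5_le _)
  E6_le := fun q => h.E6_le _
  horiz := h.rs_horiz x hs
  normal := h.rs_normal x hs
  lower := h.rs_lower x hs

end Sys

theorem image_bU_eq {m : ℕ} (x : E m) {s : ℝ} (hs : s ≠ 0) (A : Set (E m)) :
    (fun y => x + s • y) '' A = (bEq x hs) ⁻¹' A := by
  ext y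
  constructor
  · rintro ⟨z, hz, rfl⟩
    show s⁻¹ • (x + s • z - x) ∈ A
    rwa [b_right x hs]
  · intro hy
    exact ⟨_, hy, b_left x hs y⟩

/-- `c • (f dy) ∘ t⁻¹ = (f ∘ u) dy`. -/
theorem smul_map_withDensity_vol {m : ℕ} (x : E m) {s : ℝ} (hs : 0 < s) (f : E m → ℝ≥0∞) :
    (ENNReal.ofReal (s ^ m))⁻¹ • ((volume : Measure (E m)).withDensity f).map (bEq x hs.ne')
      = volume.withDensity fun y => f (x + s • y) := by
  rw [map_withDensity_equiv, map_bEq_volume x hs, withDensity_smul_measure, smul_smul, cs_mul_cancel hs, one_smul]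
  rfl

theorem map_bEq_restrict {m : ℕ} (x : E m) {s : ℝ} (hs : s ≠ 0) (ρ : Measure (E m)) (Ω : Set (E m)) :
    (ρ.restrict Ω).map (bEq x hs) = (ρ.map (bEq x hs)).restrict {y | x + s • y ∈ Ω} := by
  rw [(bEq x hs).measurableEmbedding.restrict_map]
  congr 2
  ext y
  show y ∈ Ω ↔ x + s • (s⁻¹ • (y - x)) ∈ Ω
  rw [b_left x hs]

namespace Sys

variable {m n : ℕ} {S : Sys m n}

theorem rs_push (S : Sys m n) (x : E m) {s : ℝ} (hs : 0 < s) (d : E m × E n → ℝ≥0∞) :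
    ((S.rescale x s).μ.withDensity fun q => d (x + s • q.1, s • q.2)).map Prod.fst
      = (ENNReal.ofReal (s ^ m))⁻¹ • ((S.μ.withDensity d).map Prod.fst).map (bEq x hs.ne') := by
  rw [rescale_μ_eq S x hs.ne', withDensity_smul_measure, Measure.map_smul]
  congr 1
  have e : (fun q : E m × E n => d (x + s • q.1, s • q.2)) = d ∘ (tEq n x hs.ne').symm := rfl
  rw [e, ← map_withDensity_equiv, Measure.map_map measurable_fst (tEq n x hs.ne').measurable,
    Measure.map_map (bEq x hs.ne').measurable measurable_fst]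
  rfl

theorem rescale_Dm_eq (S : Sys m n) (x : E m) {s : ℝ} (hs : 0 < s) :
    (S.rescale x s).Dm = (ENNReal.ofReal (s ^ m))⁻¹ • S.Dm.map (bEq x hs.ne') :=
  rs_push S x hs fun q => ENNReal.ofReal (S.e q)

theorem rescale_Lm_eq (S : Sys m n) (x : E m) {s : ℝ} (hs : 0 < s) :
    (S.rescale x s).Lm = (ENNReal.ofReal (s ^ m))⁻¹ • S.Lm.map (bEq x hs.ne') :=
  rs_push S x hs fun q => ENNReal.ofReal (S.lam q)

theorem rescale_nu_eq (S : Sys m n) (x : E m) {s : ℝ} (hs : 0 < s) :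
    (S.rescale x s).nu = (ENNReal.ofReal (s ^ m))⁻¹ • S.nu.map (bEq x hs.ne') := by
  have := rs_push S x hs fun _ => 1
  simpa [withDensity_one, Sys.nu] using this

theorem smul_map_apply (x : E m) {s : ℝ} (hs : 0 < s) (ρ : Measure (E m)) (A : Set (E m)) :
    ((ENNReal.ofReal (s ^ m))⁻¹ • ρ.map (bEq x hs.ne')) A
      = (ENNReal.ofReal (s ^ m))⁻¹ * ρ ((fun y => x + s • y) '' A) := by
  rw [Measure.smul_apply, (bEq x hs.ne').map_apply, image_bU_eq x hs.ne', smul_eq_mul]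

theorem Valid.rescale_Dm (h : S.Valid) (x : E m) {s : ℝ} (hs : 0 < s) (A : Set (E m)) :
    (S.rescale x s).Dm A = (ENNReal.ofReal (s ^ m))⁻¹ * S.Dm ((fun y => x + s • y) '' A) := by
  rw [rescale_Dm_eq S x hs, smul_map_apply x hs]

theorem Valid.rescale_Lm (h : S.Valid) (x : E m) {s : ℝ} (hs : 0 < s) (A : Set (E m)) :
    (S.rescale x s).Lm A = (ENNReal.ofReal (s ^ m))⁻¹ * S.Lm ((fun y => x + s • y) '' A) := by
  rw [rescale_Lm_eq S x hs, smul_map_apply x hs]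

/-- the Lebesgue decomposition of the rescaled projected mass. -/
theorem Valid.rs_decomp (h : S.Valid) (x : E m) {s : ℝ} (hs : 0 < s) :
    (S.rescale x s).nu = (ENNReal.ofReal (s ^ m))⁻¹ • (S.nu.singularPart volume).map (bEq x hs.ne')
      + volume.withDensity fun y => S.nu.rnDeriv volume (x + s • y) := by
  have hσ := h.sigmaFinite_nu
  rw [rescale_nu_eq S x hs, ← smul_map_withDensity_vol x hs, ← smul_add,
    ← Measure.map_add _ _ (bEq x hs.ne').measurable, ← Measure.haveLebesgueDecomposition_add S.nu volume]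

theorem Valid.rs_sing (h : S.Valid) (x : E m) {s : ℝ} (hs : 0 < s) :
    (ENNReal.ofReal (s ^ m))⁻¹ • (S.nu.singularPart volume).map (bEq x hs.ne') ⟂ₘ (volume : Measure (E m)) := by
  apply Measure.MutuallySingular.smul
  obtain ⟨N, hNm, h1, h2⟩ := Measure.mutuallySingular_singularPart S.nu (volume : Measure (E m))
  refine ⟨(bEq x hs.ne').symm ⁻¹' N, (bEq x hs.ne').symm.measurable hNm, ?_, ?_⟩
  · rw [(bEq x hs.ne').map_apply]
    have e : (bEq x hs.ne') ⁻¹' ((bEq x hs.ne').symm ⁻¹' N) = N := by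
      ext y
      show x + s • (s⁻¹ • (y - x)) ∈ N ↔ y ∈ N
      rw [b_left x hs.ne']
    rw [e, h1]
  · rw [← preimage_compl, ← (bEq x hs.ne').symm.map_apply, map_bEq_symm_volume x hs, Measure.smul_apply, h2,
      smul_zero]

theorem meas_rn_comp (S : Sys m n) (x : E m) (s : ℝ) : Measurable fun y => S.nu.rnDeriv volume (x + s • y) :=
  (Measure.measurable_rnDeriv _ _).comp (by fun_prop)

theorem Valid.rs_singularPart (h : S.Valid) (x : E m) {s : ℝ} (hs : 0 < s) :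
    (S.rescale x s).nu.singularPart volume
      = (ENNReal.ofReal (s ^ m))⁻¹ • (S.nu.singularPart volume).map (bEq x hs.ne') :=
  (Measure.eq_singularPart (meas_rn_comp S x s) (h.rs_sing x hs) (h.rs_decomp x hs)).symm

theorem Valid.rs_rnDeriv (h : S.Valid) (x : E m) {s : ℝ} (hs : 0 < s) :
    (fun y => S.nu.rnDeriv volume (x + s • y)) =ᵐ[volume] (S.rescale x s).nu.rnDeriv volume :=
  Measure.eq_rnDeriv (meas_rn_comp S x s) (h.rs_sing x hs) (h.rs_decomp x hs)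

theorem Valid.rescale_absM_eq (h : S.Valid) (Q : ℕ) (x : E m) {s : ℝ} (hs : 0 < s) :
    (S.rescale x s).absM Q = (ENNReal.ofReal (s ^ m))⁻¹ • (S.absM Q).map (bEq x hs.ne') := by
  unfold Sys.absM
  rw [map_bEq_restrict, Measure.map_add _ _ (bEq x hs.ne').measurable, ← Measure.restrict_smul, smul_add,
    smul_map_withDensity_vol x hs, h.rs_singularPart x hs]
  congr 2
  apply withDensity_congr_ae
  filter_upwards [h.rs_rnDeriv x hs] with y hy
  rw [← hy]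
  rfl

theorem Valid.rescale_tau_eq (h : S.Valid) (Q : ℕ) (x : E m) {s : ℝ} (hs : 0 < s) :
    (S.rescale x s).tau Q = (ENNReal.ofReal (s ^ m))⁻¹ • (S.tau Q).map (bEq x hs.ne') := by
  unfold Sys.tau
  rw [h.rescale_absM_eq Q x hs, rescale_Dm_eq S x hs, rescale_Lm_eq S x hs,
    Measure.map_add _ _ (bEq x hs.ne').measurable, Measure.map_add _ _ (bEq x hs.ne').measurable, smul_add, smul_add]

theorem Valid.rescale_tau (h : S.Valid) (Q : ℕ) (x : E m) {s : ℝ} (hs : 0 < s) (A : Set (E m)) :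
    (S.rescale x s).tau Q A
      = (ENNReal.ofReal (s ^ m))⁻¹ * S.tau Q ((fun y => x + s • y) '' A) := by
  rw [h.rescale_tau_eq Q x hs, smul_map_apply x hs]

theorem rescale_volS_eq (S : Sys m n) (x : E m) {s : ℝ} (hs : 0 < s) :
    (S.rescale x s).volS = (ENNReal.ofReal (s ^ m))⁻¹ • S.volS.map (bEq x hs.ne') := by
  unfold Sys.volS
  rw [map_withDensity_equiv, map_bEq_restrict, map_bEq_volume x hs, Measure.restrict_smul, withDensity_smul_measure,
    smul_smul, cs_mul_cancel hs, one_smul]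
  rfl

theorem fibMatch_scale {Q : ℕ} {s : ℝ} (hs : 0 < s) (F : Multiset (E n)) (A : Fin Q → E n) (ε : ℝ) :
    FibMatch (F.map fun ζ => s⁻¹ • ζ) A ε ↔ FibMatch F (fun j => s • A j) (s * ε) := by
  constructor
  · rintro ⟨L, hL, hd⟩
    refine ⟨fun j => s • L j, ?_, fun j => ?_⟩
    · have h1 : (Multiset.ofList (List.ofFn fun j => s • L j)) = (Multiset.ofList (List.ofFn L)).map fun ζ => s • ζ := by
        rw [Multiset.map_coe, List.map_ofFn]
        rfl
      rw [h1, hL, Multiset.map_map]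
      simp [smul_smul, hs.ne']
    · rw [← smul_sub, norm_smul, Real.norm_of_nonneg hs.le]
      exact mul_le_mul_of_nonneg_left (hd j) hs.le
  · rintro ⟨L, hL, hd⟩
    refine ⟨fun j => s⁻¹ • L j, ?_, fun j => ?_⟩
    · rw [← hL, Multiset.map_coe, List.map_ofFn]
      rfl
    · have h1 := hd j
      have e : s⁻¹ • L j - A j = s⁻¹ • (L j - s • A j) := by
        rw [smul_sub, smul_smul, inv_mul_cancel₀ hs.ne', one_smul]
      rw [e, norm_smul, Real.norm_of_nonneg (inv_pos.2 hs).le]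
      exact le_of_inv_mul hs h1

theorem rescale_isMajority {Q : ℕ} (h : S.Valid) (x : E m) {s : ℝ} (hs : 0 < s) (y : E m)
    (r δ ε : ℝ) (A : Fin Q → E n) :
    (S.rescale x s).IsMajority y r δ ε A
      ↔ S.IsMajority (x + s • y) (s * r) δ (s * ε) (fun j => s • A j) := by
  unfold Sys.IsMajority
  rw [rescale_volS_eq S x hs, Measure.smul_apply, Measure.smul_apply, (bEq x hs.ne').map_apply,
    (bEq x hs.ne').map_apply, smul_eq_mul, smul_eq_mul]
  have hball : ∀ z, s⁻¹ • (z - x) ∈ ball y r ↔ z ∈ ball (x + s • y) (s * r) := by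
    intro z
    rw [mem_ball, mem_ball, dist_bT x hs, inv_mul_lt_iff₀ hs]
  have e1 : (bEq x hs.ne') ⁻¹' ball y r = ball (x + s • y) (s * r) := by
    ext z
    exact hball z
  have e2 : (bEq x hs.ne') ⁻¹' {z | z ∈ ball y r ∧ ¬ FibMatch ((S.rescale x s).fib z) A ε}
      = {z | z ∈ ball (x + s • y) (s * r) ∧ ¬ FibMatch (S.fib z) (fun j => s • A j) (s * ε)} := by
    ext z
    show (s⁻¹ • (z - x) ∈ ball y r ∧ ¬ FibMatch ((S.fib (x + s • (s⁻¹ • (z - x)))).map fun ζ => s⁻¹ • ζ) A ε) ↔ _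
    rw [b_left x hs.ne', hball, fibMatch_scale hs]
    rfl
  rw [e1, e2, mul_left_comm, ENNReal.mul_le_mul_iff_right (cs_ne_zero m) (cs_ne_top hs m)]

end Sys

end Claimed.Agent.R322.Sx
end

/- ===== packed: Claimed.Agent.R322.Sx.OpsC ===== -/
section
/-!
# R322 / Sx / OpsC : height-gap restriction of a sheeted system (package C of `Sx/Ops.lean`)

* `exists_gap_cutoff` : a `C¹` function equal to the indicator of `O`, with zero derivative, off the `δ`-thickening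
  of `frontier O` (quotient of two functions with prescribed supports);
* `cut_point`, `exists_cut_ae` : multiplying a test field by the cut-off = multiplying the integrands of the first
  variation identities by the indicator of `Ω' ×ˢ O`, `μ`-a.e.;
* `rt_spt_mem`, `rt_gap` (segment argument `exists_frontier_near`) : the lower mass bound;
* `Valid.restr`, `Valid.restr_univ`, additivity `restr_push_sum`, `restr_integral_sum` and its consequences.
-/

set_option autoImplicit false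

namespace Claimed.Agent.R322.Sx

open MeasureTheory Set Metric
open scoped ENNReal NNReal InnerProductSpace Topology

section Topo

variable {k : ℕ}

/-- a ball of half radius around a point off the `δ`-thickening misses the `δ/2`-thickening. -/
theorem ball_disjoint_thickening {F : Set (E k)} {δ : ℝ} {ζ : E k} (hζ : ζ ∉ thickening δ F) :
    ball ζ (δ / 2) ⊆ (thickening (δ / 2) F)ᶜ := by
  intro ζ' h1 h2
  apply hζ
  rw [mem_thickening_iff] at h2 ⊢
  obtain ⟨z, hz, hd⟩ := h2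
  refine ⟨z, hz, ?_⟩
  rw [mem_ball] at h1
  calc dist ζ z ≤ dist ζ ζ' + dist ζ' z := dist_triangle _ _ _
    _ < δ / 2 + δ / 2 := add_lt_add (by rwa [dist_comm]) hd
    _ = δ := add_halves δ

/-- smooth cut-off adapted to a height gap: equal to the indicator of `O`, with vanishing derivative,
off the `δ`-thickening of the frontier of `O`. -/
theorem exists_gap_cutoff {O : Set (E k)} (hO : IsOpen O) {δ : ℝ} (hδ : 0 < δ) :
    ∃ ψ : E k → ℝ, ContDiff ℝ 1 ψ ∧ ∀ ζ, ζ ∉ thickening δ (frontier O) →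
      ψ ζ = O.indicator (fun _ => (1 : ℝ)) ζ ∧ fderiv ℝ ψ ζ = 0 := by
  obtain ⟨T, hT⟩ : ∃ T, T = thickening (δ / 2) (frontier O) := ⟨_, rfl⟩
  have hTo : IsOpen T := hT ▸ isOpen_thickening
  have hFT : frontier O ⊆ T := hT ▸ self_subset_thickening (half_pos hδ) _
  have hA : IsClosed (Oᶜ ∩ Tᶜ) := hO.isClosed_compl.inter hTo.isClosed_compl
  have hB : IsClosed (closure O ∩ Tᶜ) := isClosed_closure.inter hTo.isClosed_compl
  obtain ⟨f, hfs, hfc, hfr⟩ := hA.isOpen_compl.exists_contDiff_support_eq (n := 1)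
  obtain ⟨g, hgs, hgc, hgr⟩ := hB.isOpen_compl.exists_contDiff_support_eq (n := 1)
  have hf0 : ∀ ζ, 0 ≤ f ζ := fun ζ => (hfr (mem_range_self ζ)).1
  have hg0 : ∀ ζ, 0 ≤ g ζ := fun ζ => (hgr (mem_range_self ζ)).1
  have hfA : ∀ ζ, ζ ∈ Oᶜ ∩ Tᶜ → f ζ = 0 := by
    intro ζ hζ
    by_contra hcon
    have : ζ ∈ Function.support f := hcon
    rw [hfs] at this
    exact this hζ
  have hfA' : ∀ ζ, ζ ∉ Oᶜ ∩ Tᶜ → 0 < f ζ := by
    intro ζ hζ
    have : ζ ∈ Function.support f := by rw [hfs]; exact hζ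
    exact lt_of_le_of_ne (hf0 ζ) (Ne.symm this)
  have hgB : ∀ ζ, ζ ∈ closure O ∩ Tᶜ → g ζ = 0 := by
    intro ζ hζ
    by_contra hcon
    have : ζ ∈ Function.support g := hcon
    rw [hgs] at this
    exact this hζ
  have hgB' : ∀ ζ, ζ ∉ closure O ∩ Tᶜ → 0 < g ζ := by
    intro ζ hζ
    have : ζ ∈ Function.support g := by rw [hgs]; exact hζ
    exact lt_of_le_of_ne (hg0 ζ) (Ne.symm this)
  have hdisj : ∀ ζ, ζ ∈ Oᶜ ∩ Tᶜ → ζ ∉ closure O ∩ Tᶜ := by
    intro ζ h1 h2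
    apply h1.2
    apply hFT
    rw [hO.frontier_eq]
    exact ⟨h2.1, h1.1⟩
  have hpos : ∀ ζ, 0 < f ζ + g ζ := by
    intro ζ
    by_cases h1 : ζ ∈ Oᶜ ∩ Tᶜ
    · exact add_pos_of_nonneg_of_pos (hf0 ζ) (hgB' ζ (hdisj ζ h1))
    · exact add_pos_of_pos_of_nonneg (hfA' ζ h1) (hg0 ζ)
  have hψA : ∀ ζ, ζ ∈ Oᶜ ∩ Tᶜ → f ζ / (f ζ + g ζ) = 0 := by
    intro ζ hζ
    rw [hfA ζ hζ, zero_div]
  have hψB : ∀ ζ, ζ ∈ closure O ∩ Tᶜ → f ζ / (f ζ + g ζ) = 1 := by
    intro ζ hζ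
    rw [hgB ζ hζ, add_zero]
    exact div_self (hfA' ζ fun h1 => hdisj ζ h1 hζ).ne'
  refine ⟨fun ζ => f ζ / (f ζ + g ζ), hfc.div (hfc.add hgc) fun ζ => (hpos ζ).ne', fun ζ hζ => ?_⟩
  have hball : ball ζ (δ / 2) ⊆ Tᶜ := hT ▸ ball_disjoint_thickening hζ
  have hbn : ball ζ (δ / 2) ∈ 𝓝 ζ := ball_mem_nhds ζ (half_pos hδ)
  by_cases hζO : ζ ∈ O
  · have hn : closure O ∩ Tᶜ ∈ 𝓝 ζ :=
      Filter.mem_of_superset (Filter.inter_mem (hO.mem_nhds hζO) hbn)
        (inter_subset_inter subset_closure hball)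
    have hev : (fun ζ => f ζ / (f ζ + g ζ)) =ᶠ[𝓝 ζ] fun _ => (1 : ℝ) :=
      Filter.mem_of_superset hn fun z hz => hψB z hz
    refine ⟨?_, ?_⟩
    · rw [indicator_of_mem hζO]
      exact hev.eq_of_nhds
    · rw [hev.fderiv_eq]
      exact fderiv_const_apply _
  · have hζc : ζ ∉ closure O := by
      intro hcon
      apply hζ
      apply self_subset_thickening hδ
      rw [hO.frontier_eq]
      exact ⟨hcon, hζO⟩
    have hn : Oᶜ ∩ Tᶜ ∈ 𝓝 ζ :=
      Filter.mem_of_superset (Filter.inter_mem (isClosed_closure.isOpen_compl.mem_nhds hζc) hbn)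
        (inter_subset_inter (compl_subset_compl.2 subset_closure) hball)
    have hev : (fun ζ => f ζ / (f ζ + g ζ)) =ᶠ[𝓝 ζ] fun _ => (0 : ℝ) :=
      Filter.mem_of_superset hn fun z hz => hψA z hz
    refine ⟨?_, ?_⟩
    · rw [indicator_of_notMem hζO]
      exact hev.eq_of_nhds
    · rw [hev.fderiv_eq]
      exact fderiv_const_apply _

/-- a segment from a point of an open set to a point outside meets the frontier. -/
theorem exists_frontier_near {O : Set (E k)} (hO : IsOpen O) {ζ z : E k} (hz : z ∈ closure O) (hζ : ζ ∉ O) :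
    ∃ w ∈ frontier O, dist ζ w ≤ dist ζ z := by
  by_cases hzO : z ∈ O
  · have hpc : IsPreconnected (segment ℝ ζ z) := (convex_segment ζ z).isPreconnected
    by_contra hcon
    push Not at hcon
    have hseg : ∀ w ∈ segment ℝ ζ z, dist ζ w ≤ dist ζ z := by
      intro w hw
      have := (convex_closedBall ζ (dist ζ z)).segment_subset (mem_closedBall_self dist_nonneg)
        (by rw [mem_closedBall, dist_comm]) hw
      rw [mem_closedBall, dist_comm] at this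
      exact this
    have hsub : segment ℝ ζ z ⊆ O ∪ (closure O)ᶜ := by
      intro w hw
      by_cases h1 : w ∈ O
      · exact Or.inl h1
      · refine Or.inr fun h2 => ?_
        have h3 : w ∈ frontier O := by rw [hO.frontier_eq]; exact ⟨h2, h1⟩
        exact absurd (hseg w hw) (not_le.2 (hcon w h3))
    have hd : Disjoint O (closure O)ᶜ := disjoint_compl_right.mono_left subset_closure
    rcases hpc.subset_or_subset hO isClosed_closure.isOpen_compl hd hsub with h1 | h1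
    · exact hζ (h1 (left_mem_segment ℝ ζ z))
    · exact h1 (right_mem_segment ℝ ζ z) (subset_closure hzO)
  · exact ⟨z, by rw [hO.frontier_eq]; exact ⟨hz, hzO⟩, le_rfl⟩

end Topo

section Cut

variable {m n : ℕ} {G : Type*} [NormedAddCommGroup G] [NormedSpace ℝ G]

/-- a field with base support in the closed set `K` vanishes to first order off `K`. -/
theorem fderiv_eq_zero_of_base {K : Set (E m)} (hK : IsClosed K) {X : E m × E n → G}
    (hz : ∀ q : E m × E n, q.1 ∉ K → X q = 0) {q : E m × E n} (hq : q.1 ∉ K) : fderiv ℝ X q = 0 := by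
  have hn : {p : E m × E n | p.1 ∉ K} ∈ 𝓝 q :=
    (hK.isOpen_compl.preimage continuous_fst).mem_nhds hq
  have hev : X =ᶠ[𝓝 q] fun _ => (0 : G) := Filter.mem_of_superset hn fun p hp => hz p hp
  rw [hev.fderiv_eq]
  exact fderiv_const_apply _

/-- pointwise effect of the height cut-off on a field and its partial derivatives. -/
theorem cut_point {K Ω' : Set (E m)} {O : Set (E n)} (hK : IsClosed K) (hKΩ : K ⊆ Ω') {X : E m × E n → G}
    (hX : Differentiable ℝ X) (hz : ∀ q : E m × E n, q.1 ∉ K → X q = 0) {ψ : E n → ℝ} (hψ : Differentiable ℝ ψ)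
    {q : E m × E n}
    (hq : q.1 ∉ K ∨ (ψ q.2 = O.indicator (fun _ => (1 : ℝ)) q.2 ∧ fderiv ℝ ψ q.2 = 0)) :
    ψ q.2 • X q = (Ω' ×ˢ O).indicator (fun _ => (1 : ℝ)) q • X q ∧
    D1 (fun q : E m × E n => ψ q.2 • X q) q = (Ω' ×ˢ O).indicator (fun _ => (1 : ℝ)) q • D1 X q ∧
    D2 (fun q : E m × E n => ψ q.2 • X q) q = (Ω' ×ˢ O).indicator (fun _ => (1 : ℝ)) q • D2 X q := by
  have hc : DifferentiableAt ℝ (fun q : E m × E n => ψ q.2) q := (hψ q.2).comp q differentiableAt_snd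
  rw [D1_smul (c := fun q : E m × E n => ψ q.2) hc (hX q), D2_smul (c := fun q : E m × E n => ψ q.2) hc (hX q),
    D1_comp_snd (hψ q.2), D2_comp_snd (hψ q.2)]
  by_cases hqK : q.1 ∈ K
  · obtain ⟨h1, h2⟩ := hq.resolve_left (not_not.2 hqK)
    have h3 : (Ω' ×ˢ O).indicator (fun _ => (1 : ℝ)) q = O.indicator (fun _ => (1 : ℝ)) q.2 := by
      by_cases hO : q.2 ∈ O
      · rw [indicator_of_mem hO, indicator_of_mem (show q ∈ Ω' ×ˢ O from ⟨hKΩ hqK, hO⟩)]
      · rw [indicator_of_notMem hO, indicator_of_notMem (fun hcon : q ∈ Ω' ×ˢ O => hO hcon.2)]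
    rw [h3, h1, h2]
    simp
  · have h1 := hz q hqK
    have h2 := fderiv_eq_zero_of_base hK hz hqK
    have h3 : D1 X q = 0 := by unfold D1; rw [h2]; simp
    have h4 : D2 X q = 0 := by unfold D2; rw [h2]; simp
    rw [h1, h3, h4]
    simp

end Cut

namespace Sys

variable {m n : ℕ} {S : Sys m n}

theorem restr_μ (S : Sys m n) (Ω' : Set (E m)) (O : Set (E n)) :
    (S.restr Ω' O).μ = S.μ.restrict (Ω' ×ˢ O) := rfl

theorem restr_μ_le (S : Sys m n) (Ω' : Set (E m)) (O : Set (E n)) : (S.restr Ω' O).μ ≤ S.μ :=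
  Measure.restrict_le_self

theorem sum_map_filter_ite {α : Type*} (s : Multiset α) (p : α → Prop) [DecidablePred p] (f : α → ℝ≥0∞) :
    ((s.filter p).map f).sum = (s.map fun a => if p a then f a else 0).sum := by
  induction s using Multiset.induction_on with
  | empty => simp
  | cons a s ih =>
    by_cases hp : p a
    · rw [Multiset.filter_cons_of_pos _ hp, Multiset.map_cons, Multiset.sum_cons, Multiset.map_cons,
        Multiset.sum_cons, ih, if_pos hp]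
    · rw [Multiset.filter_cons_of_neg _ hp, Multiset.map_cons, Multiset.sum_cons, ih, if_neg hp, zero_add]

theorem restr_fibSum (S : Sys m n) (Ω' : Set (E m)) (O : Set (E n)) (g : E m × E n → ℝ≥0∞) (y : E m) :
    Ω'.indicator ((S.restr Ω' O).fibSum g) y = S.fibSum ((Ω' ×ˢ O).indicator g) y := by
  classical
  unfold Sys.fibSum
  by_cases hy : y ∈ Ω'
  · rw [indicator_of_mem hy]
    have h1 := sum_map_filter_ite (S.fib y) (fun ζ => ζ ∈ O) (fun ζ => g (y, ζ))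
    have h2 : ((S.restr Ω' O).fib y) = (S.fib y).filter fun ζ => ζ ∈ O := by
      unfold Sys.restr
      simp only
    rw [h2, h1]
    congr 1
    refine Multiset.map_congr rfl fun ζ _ => ?_
    by_cases hζ : ζ ∈ O
    · rw [if_pos hζ, indicator_of_mem (show (y, ζ) ∈ Ω' ×ˢ O from ⟨hy, hζ⟩)]
    · rw [if_neg hζ, indicator_of_notMem (fun hcon : (y, ζ) ∈ Ω' ×ˢ O => hζ hcon.2)]
  · rw [indicator_of_notMem hy]
    symm
    apply Multiset.sum_eq_zero
    intro t ht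
    obtain ⟨ζ, -, rfl⟩ := Multiset.mem_map.1 ht
    exact indicator_of_notMem (fun hcon : (y, ζ) ∈ Ω' ×ˢ O => hy hcon.1) _

section Restr

variable (h : S.Valid) {Ω' : Set (E m)} {O : Set (E n)} (hΩ' : IsOpen Ω') (hsub : Ω' ⊆ S.Ω) (hO : MeasurableSet O)

include h hΩ' hsub hO

theorem Valid.rt_count_meas (g : E m × E n → ℝ≥0∞) (hg : Measurable g) :
    AEMeasurable ((S.restr Ω' O).fibSum g) (volume.restrict (S.restr Ω' O).Ω) := by
  have h1 := h.count_meas _ (hg.indicator (hΩ'.measurableSet.prod hO))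
  have h2 : AEMeasurable (S.fibSum ((Ω' ×ˢ O).indicator g)) (volume.restrict Ω') :=
    h1.mono_measure (Measure.restrict_mono hsub le_rfl)
  refine h2.congr ?_
  filter_upwards [ae_restrict_mem hΩ'.measurableSet] with y hy
  rw [← restr_fibSum, indicator_of_mem hy]

theorem Valid.rt_count (g : E m × E n → ℝ≥0∞) (hg : Measurable g) :
    ∫⁻ q, g q * ENNReal.ofReal ((S.restr Ω' O).Jpi q) ∂(S.restr Ω' O).μ
      = ∫⁻ y in (S.restr Ω' O).Ω, (S.restr Ω' O).fibSum g y * ENNReal.ofReal ((S.restr Ω' O).a y) := by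
  have hm : MeasurableSet (Ω' ×ˢ O) := hΩ'.measurableSet.prod hO
  have h1 := h.count _ (hg.indicator hm)
  have e1 : ∫⁻ q, g q * ENNReal.ofReal ((S.restr Ω' O).Jpi q) ∂(S.restr Ω' O).μ
      = ∫⁻ q, (Ω' ×ˢ O).indicator g q * ENNReal.ofReal (S.Jpi q) ∂S.μ := by
    rw [restr_μ, ← lintegral_indicator hm]
    refine lintegral_congr fun q => ?_
    by_cases hq : q ∈ Ω' ×ˢ O
    · rw [indicator_of_mem hq, indicator_of_mem hq]
      rfl
    · rw [indicator_of_notMem hq, indicator_of_notMem hq, zero_mul]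
  have e2 : ∫⁻ y in (S.restr Ω' O).Ω, (S.restr Ω' O).fibSum g y * ENNReal.ofReal ((S.restr Ω' O).a y)
      = ∫⁻ y in S.Ω, S.fibSum ((Ω' ×ˢ O).indicator g) y * ENNReal.ofReal (S.a y) := by
    have e3 : ∫⁻ y in (S.restr Ω' O).Ω, (S.restr Ω' O).fibSum g y * ENNReal.ofReal ((S.restr Ω' O).a y)
        = ∫⁻ y in Ω', (S.restr Ω' O).fibSum g y * ENNReal.ofReal (S.a y) := rfl
    rw [e3, ← lintegral_indicator hΩ'.measurableSet, ← lintegral_indicator h.isOpen_Ω.measurableSet]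
    refine lintegral_congr fun y => ?_
    by_cases hy : y ∈ Ω'
    · rw [indicator_of_mem hy, indicator_of_mem (hsub hy), ← restr_fibSum, indicator_of_mem hy]
    · rw [indicator_of_notMem hy]
      by_cases hy2 : y ∈ S.Ω
      · rw [indicator_of_mem hy2, ← restr_fibSum, indicator_of_notMem hy, zero_mul]
      · rw [indicator_of_notMem hy2]
  rw [e1, e2, h1]

end Restr

end Sys

theorem indicator_eq_mul {α : Type*} (s : Set α) (f : α → ℝ) (x : α) :
    s.indicator f x = s.indicator (fun _ => (1 : ℝ)) x * f x := by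
  by_cases hx : x ∈ s
  · rw [indicator_of_mem hx, indicator_of_mem hx, one_mul]
  · rw [indicator_of_notMem hx, indicator_of_notMem hx, zero_mul]

namespace Sys

variable {m n : ℕ} {S : Sys m n}

section Restr

variable (h : S.Valid) {Ω' : Set (E m)} {O : Set (E n)} (hΩ' : IsOpen Ω') (hsub : Ω' ⊆ S.Ω) (hO : IsOpen O)
  (hgap : S.Gap Ω' O)

include hO hgap in
/-- the cut-off data used to localise the first variation identities. -/
theorem exists_cut_ae {K : Set (E m)} (hKΩ : K ⊆ Ω') :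
    ∃ ψ : E n → ℝ, ContDiff ℝ 1 ψ ∧ ∀ᵐ q ∂S.μ,
      q.1 ∉ K ∨ (ψ q.2 = O.indicator (fun _ => (1 : ℝ)) q.2 ∧ fderiv ℝ ψ q.2 = 0) := by
  obtain ⟨δ, hδ, h0⟩ := hgap
  obtain ⟨ψ, hψ, hp⟩ := exists_gap_cutoff hO hδ
  refine ⟨ψ, hψ, ?_⟩
  rw [ae_iff]
  refine measure_mono_null ?_ h0
  intro q hq
  have hq' : ¬ (q.1 ∉ K ∨ (ψ q.2 = O.indicator (fun _ => (1 : ℝ)) q.2 ∧ fderiv ℝ ψ q.2 = 0)) := hq
  push Not at hq'
  refine ⟨hKΩ hq'.1, ?_⟩
  by_contra hcon
  obtain ⟨h1, h2⟩ := hp q.2 hcon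
  exact hq'.2 h1 h2

include h hΩ' hsub hO hgap

theorem Valid.rt_horiz (X : E m × E n → E m) (hX : ContDiff ℝ 1 X) (hc : BaseCpt (S.restr Ω' O).Ω X) :
    ∫ q, (tr (D1 X q) + ((S.restr Ω' O).a q.1)⁻¹ * fderiv ℝ (S.restr Ω' O).a q.1 (X q)
          - tr ((S.restr Ω' O).B q ∘L D1 X q) + tr (D2 X q ∘L (S.restr Ω' O).Pvh q)) ∂(S.restr Ω' O).μ
      = ∫ q, (tr ((S.restr Ω' O).E1 q ∘L D1 X q) + ⟪(S.restr Ω' O).E2 q, X q⟫_ℝ
          + tr (D2 X q ∘L (S.restr Ω' O).E3 q)) ∂(S.restr Ω' O).μ := by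
  obtain ⟨K, hK, hKΩ, hz⟩ := hc
  obtain ⟨ψ, hψ, hae⟩ := exists_cut_ae hO hgap hKΩ
  have hm : MeasurableSet (Ω' ×ˢ O) := hΩ'.measurableSet.prod hO.measurableSet
  have key := h.horiz (fun q => ψ q.2 • X q) ((hψ.comp contDiff_snd).smul hX)
    ⟨K, hK, hKΩ.trans hsub, fun q hq => by simp only; rw [hz q hq, smul_zero]⟩
  rw [restr_μ, ← integral_indicator hm, ← integral_indicator hm]
  have e1 : ∫ q, (Ω' ×ˢ O).indicator (fun q => tr (D1 X q)
        + ((S.restr Ω' O).a q.1)⁻¹ * fderiv ℝ (S.restr Ω' O).a q.1 (X q)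
        - tr ((S.restr Ω' O).B q ∘L D1 X q) + tr (D2 X q ∘L (S.restr Ω' O).Pvh q)) q ∂S.μ
      = ∫ q, (tr (D1 (fun q => ψ q.2 • X q) q) + (S.a q.1)⁻¹ * fderiv ℝ S.a q.1 (ψ q.2 • X q)
          - tr (S.B q ∘L D1 (fun q => ψ q.2 • X q) q) + tr (D2 (fun q => ψ q.2 • X q) q ∘L S.Pvh q)) ∂S.μ := by
    refine integral_congr_ae ?_
    filter_upwards [hae] with q hq
    obtain ⟨h1, h2, h3⟩ := cut_point (Ω' := Ω') hK.isClosed hKΩ (hX.differentiable one_ne_zero) hz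
      (hψ.differentiable one_ne_zero) hq
    rw [h1, h2, h3, indicator_eq_mul, tr_smul, tr_comp_smul', tr_smul_comp, map_smul, smul_eq_mul]
    show _ * (tr (D1 X q) + (S.a q.1)⁻¹ * fderiv ℝ S.a q.1 (X q) - tr (S.B q ∘L D1 X q)
      + tr (D2 X q ∘L S.Pvh q)) = _
    ring
  have e2 : ∫ q, (Ω' ×ˢ O).indicator (fun q => tr ((S.restr Ω' O).E1 q ∘L D1 X q)
        + ⟪(S.restr Ω' O).E2 q, X q⟫_ℝ + tr (D2 X q ∘L (S.restr Ω' O).E3 q)) q ∂S.μ
      = ∫ q, (tr (S.E1 q ∘L D1 (fun q => ψ q.2 • X q) q) + ⟪S.E2 q, ψ q.2 • X q⟫_ℝ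
          + tr (D2 (fun q => ψ q.2 • X q) q ∘L S.E3 q)) ∂S.μ := by
    refine integral_congr_ae ?_
    filter_upwards [hae] with q hq
    obtain ⟨h1, h2, h3⟩ := cut_point (Ω' := Ω') hK.isClosed hKΩ (hX.differentiable one_ne_zero) hz
      (hψ.differentiable one_ne_zero) hq
    rw [h1, h2, h3, indicator_eq_mul, tr_comp_smul', tr_smul_comp, inner_smul_right]
    show _ * (tr (S.E1 q ∘L D1 X q) + ⟪S.E2 q, X q⟫_ℝ + tr (D2 X q ∘L S.E3 q)) = _
    ring
  rw [e1, e2, key]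

theorem Valid.rt_normal (v : E m × E n → E n) (hv : ContDiff ℝ 1 v) (hc : BaseCpt (S.restr Ω' O).Ω v) :
    ∫ q, (tr ((S.restr Ω' O).Pvv q ∘L D2 v q) + tr (((S.restr Ω' O).Pvh q).adjoint ∘L D1 v q))
        ∂(S.restr Ω' O).μ
      = ∫ q, (tr ((S.restr Ω' O).E4 q ∘L D2 v q) + ⟪(S.restr Ω' O).E5 q, v q⟫_ℝ
          + tr (((S.restr Ω' O).E6 q).adjoint ∘L D1 v q)) ∂(S.restr Ω' O).μ := by
  obtain ⟨K, hK, hKΩ, hz⟩ := hc
  obtain ⟨ψ, hψ, hae⟩ := exists_cut_ae hO hgap hKΩ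
  have hm : MeasurableSet (Ω' ×ˢ O) := hΩ'.measurableSet.prod hO.measurableSet
  have key := h.normal (fun q => ψ q.2 • v q) ((hψ.comp contDiff_snd).smul hv)
    ⟨K, hK, hKΩ.trans hsub, fun q hq => by simp only; rw [hz q hq, smul_zero]⟩
  rw [restr_μ, ← integral_indicator hm, ← integral_indicator hm]
  have e1 : ∫ q, (Ω' ×ˢ O).indicator (fun q => tr ((S.restr Ω' O).Pvv q ∘L D2 v q)
        + tr (((S.restr Ω' O).Pvh q).adjoint ∘L D1 v q)) q ∂S.μ
      = ∫ q, (tr (S.Pvv q ∘L D2 (fun q => ψ q.2 • v q) q)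
          + tr ((S.Pvh q).adjoint ∘L D1 (fun q => ψ q.2 • v q) q)) ∂S.μ := by
    refine integral_congr_ae ?_
    filter_upwards [hae] with q hq
    obtain ⟨h1, h2, h3⟩ := cut_point (Ω' := Ω') hK.isClosed hKΩ (hv.differentiable one_ne_zero) hz
      (hψ.differentiable one_ne_zero) hq
    rw [h2, h3, indicator_eq_mul, tr_comp_smul', tr_comp_smul']
    show _ * (tr (S.Pvv q ∘L D2 v q) + tr ((S.Pvh q).adjoint ∘L D1 v q)) = _
    ring
  have e2 : ∫ q, (Ω' ×ˢ O).indicator (fun q => tr ((S.restr Ω' O).E4 q ∘L D2 v q)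
        + ⟪(S.restr Ω' O).E5 q, v q⟫_ℝ + tr (((S.restr Ω' O).E6 q).adjoint ∘L D1 v q)) q ∂S.μ
      = ∫ q, (tr (S.E4 q ∘L D2 (fun q => ψ q.2 • v q) q) + ⟪S.E5 q, ψ q.2 • v q⟫_ℝ
          + tr ((S.E6 q).adjoint ∘L D1 (fun q => ψ q.2 • v q) q)) ∂S.μ := by
    refine integral_congr_ae ?_
    filter_upwards [hae] with q hq
    obtain ⟨h1, h2, h3⟩ := cut_point (Ω' := Ω') hK.isClosed hKΩ (hv.differentiable one_ne_zero) hz
      (hψ.differentiable one_ne_zero) hq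
    rw [h1, h2, h3, indicator_eq_mul, tr_comp_smul', tr_comp_smul', inner_smul_right]
    show _ * (tr (S.E4 q ∘L D2 v q) + ⟪S.E5 q, v q⟫_ℝ + tr ((S.E6 q).adjoint ∘L D1 v q)) = _
    ring
  rw [e1, e2, key]

end Restr

end Sys

namespace Sys

variable {m n : ℕ} {S : Sys m n}

section Restr

variable {Ω' : Set (E m)} {O : Set (E n)} (hΩ' : IsOpen Ω') (hO : IsOpen O) (hgap : S.Gap Ω' O)

theorem rt_spt {q : E m × E n} (hq : q ∈ (S.restr Ω' O).spt) : q ∈ S.spt :=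
  fun ε hε => lt_of_lt_of_le (hq ε hε) (restr_μ_le S Ω' O _)

include hΩ' hO hgap in
/-- points of the support of the restricted system over `Ω'` have heights in `O`. -/
theorem rt_spt_mem {q : E m × E n} (hq : q ∈ (S.restr Ω' O).spt) (hq1 : q.1 ∈ Ω') : q.2 ∈ O := by
  obtain ⟨δ, hδ, h0⟩ := hgap
  by_contra hcon
  -- `q.2 ∈ closure O`
  have hcl : q.2 ∈ closure O := by
    rw [Metric.mem_closure_iff]
    intro ε hε
    have h1 := hq ε hε
    rw [restr_μ, Measure.restrict_apply measurableSet_ball] at h1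
    have h2 : (ball q ε ∩ Ω' ×ˢ O).Nonempty := by
      by_contra hne
      rw [not_nonempty_iff_eq_empty] at hne
      rw [hne, measure_empty] at h1
      exact lt_irrefl _ h1
    obtain ⟨p, hp1, hp2⟩ := h2
    refine ⟨p.2, hp2.2, ?_⟩
    rw [mem_ball, Prod.dist_eq] at hp1
    rw [dist_comm]
    exact lt_of_le_of_lt (le_max_right _ _) hp1
  have hfr : q.2 ∈ frontier O := by rw [hO.frontier_eq]; exact ⟨hcl, hcon⟩
  obtain ⟨ε, hε, hb⟩ := Metric.isOpen_iff.1 hΩ' q.1 hq1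
  have h1 := rt_spt hq (min ε δ) (lt_min hε hδ)
  have h2 : ball q (min ε δ) ⊆ Ω' ×ˢ thickening δ (frontier O) := by
    intro p hp
    rw [mem_ball, Prod.dist_eq, max_lt_iff] at hp
    refine ⟨hb (lt_of_lt_of_le hp.1 (min_le_left _ _)), ?_⟩
    rw [mem_thickening_iff]
    exact ⟨q.2, hfr, lt_of_lt_of_le hp.2 (min_le_right _ _)⟩
  rw [measure_mono_null h2 h0] at h1
  exact lt_irrefl _ h1

include hO hgap in
/-- a gap of the restricted system is a gap of the original system for the intersection. -/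
theorem rt_gap {Ω'' : Set (E m)} {O2 : Set (E n)} (hsub2 : Ω'' ⊆ Ω') (hΩm : MeasurableSet Ω'')
    (hgap2 : (S.restr Ω' O).Gap Ω'' O2) : S.Gap Ω'' (O ∩ O2) := by
  obtain ⟨δ, hδ, h0⟩ := hgap
  obtain ⟨δ2, hδ2, h2⟩ := hgap2
  rw [restr_μ, Measure.restrict_apply (hΩm.prod isOpen_thickening.measurableSet)] at h2
  refine ⟨min δ δ2, lt_min hδ hδ2, ?_⟩
  refine measure_mono_null ?_ (measure_union_null h0 h2)
  rintro p ⟨hp1, hp2⟩
  rw [mem_thickening_iff] at hp2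
  obtain ⟨z, hz, hd⟩ := hp2
  have hd1 : dist p.2 z < δ := lt_of_lt_of_le hd (min_le_left _ _)
  have hd2 : dist p.2 z < δ2 := lt_of_lt_of_le hd (min_le_right _ _)
  rcases frontier_inter_subset O O2 hz with ⟨hz1, -⟩ | ⟨hz1, hz2⟩
  · exact Or.inl ⟨hsub2 hp1, mem_thickening_iff.2 ⟨z, hz1, hd1⟩⟩
  · by_cases hpO : p.2 ∈ O
    · exact Or.inr ⟨⟨hp1, mem_thickening_iff.2 ⟨z, hz2, hd2⟩⟩, hsub2 hp1, hpO⟩
    · obtain ⟨w, hw, hdw⟩ := exists_frontier_near hO hz1 hpO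
      exact Or.inl ⟨hsub2 hp1, mem_thickening_iff.2 ⟨w, hw, lt_of_le_of_lt hdw hd1⟩⟩

include hΩ' hO hgap in
theorem Valid.rt_lower (h : S.Valid) (hsub : Ω' ⊆ S.Ω) (Ω'' : Set (E m)) (O2 : Set (E n)) (hΩ'' : IsOpen Ω'')
    (hsub2 : Ω'' ⊆ (S.restr Ω' O).Ω) (hO2 : IsOpen O2) (hgap2 : (S.restr Ω' O).Gap Ω'' O2) (q : E m × E n) (r : ℝ)
    (hq : q ∈ (S.restr Ω' O).spt) (hqO : q.2 ∈ O2) (hr : 0 < r) (hcb : closedBall q.1 r ⊆ Ω'') :
    ENNReal.ofReal (r ^ m / (S.restr Ω' O).Cg) ≤ (S.restr Ω' O).μ (ball q.1 r ×ˢ (ball q.2 r ∩ O2)) := by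
  have hq1 : q.1 ∈ Ω' := hsub2 (hcb (mem_closedBall_self hr.le))
  have key := h.lower Ω'' (O ∩ O2) hΩ'' (hsub2.trans hsub) (hO.inter hO2)
    (rt_gap hO hgap hsub2 hΩ''.measurableSet hgap2) q r (rt_spt hq) ⟨rt_spt_mem hΩ' hO hgap hq hq1, hqO⟩ hr hcb
  refine key.trans ?_
  rw [restr_μ, Measure.restrict_apply (measurableSet_ball.prod (measurableSet_ball.inter hO2.measurableSet))]
  refine measure_mono ?_
  rintro p ⟨hp1, hp2, hp3, hp4⟩
  exact ⟨⟨hp1, hp2, hp4⟩, hsub2 (hcb (ball_subset_closedBall hp1)), hp3⟩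

end Restr

end Sys

namespace Sys

variable {m n : ℕ} {S : Sys m n}

theorem Valid.restr (h : S.Valid) {Ω' : Set (E m)} {O : Set (E n)} (hΩ' : IsOpen Ω')
    (hsub : Ω' ⊆ S.Ω) (hO : IsOpen O) (hgap : S.Gap Ω' O) : (S.restr Ω' O).Valid where
  isOpen_Ω := hΩ'
  conc := by
    show (S.μ.restrict (Ω' ×ˢ O)) (Ω' ×ˢ (univ : Set (E n)))ᶜ = 0
    rw [Measure.restrict_apply (hΩ'.measurableSet.prod MeasurableSet.univ).compl]
    have : (Ω' ×ˢ (univ : Set (E n)))ᶜ ∩ Ω' ×ˢ O = ∅ := by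
      ext q
      simp only [mem_inter_iff, mem_compl_iff, mem_prod, mem_univ, and_true, mem_empty_iff_false, iff_false, not_and]
      intro h1 h2
      exact absurd h2 h1
    rw [this, measure_empty]
  finite_mass := fun K hK hKΩ => lt_of_le_of_lt (restr_μ_le S Ω' O _) (h.finite_mass K hK (hKΩ.trans hsub))
  proper := fun K hK hKΩ => by
    obtain ⟨H, hH⟩ := h.proper K hK (hKΩ.trans hsub)
    exact ⟨H, le_antisymm ((restr_μ_le S Ω' O _).trans hH.le) zero_le⟩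
  meas_B := h.meas_B
  meas_Pvh := h.meas_Pvh
  meas_Pvv := h.meas_Pvv
  meas_lam := h.meas_lam
  meas_Jpi := h.meas_Jpi
  meas_E1 := h.meas_E1
  meas_E2 := h.meas_E2
  meas_E3 := h.meas_E3
  meas_E4 := h.meas_E4
  meas_E5 := h.meas_E5
  meas_E6 := h.meas_E6
  one_le_Cg := h.one_le_Cg
  γ_nonneg := h.γ_nonneg
  γ_le_one := h.γ_le_one
  B_symm := h.B_symm
  B_nonneg := h.B_nonneg
  B_le := h.B_le
  Pvv_symm := h.Pvv_symm
  Pvv_nonneg := h.Pvv_nonneg
  Pvv_le := h.Pvv_le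
  hv_vh := h.hv_vh
  vh_hv := h.vh_hv
  vv_vh := h.vv_vh
  tr_B_eq := h.tr_B_eq
  lam_nonneg := h.lam_nonneg
  lam_le := h.lam_le
  a_contDiff := h.a_contDiff
  a_close := h.a_close
  a_lower := h.a_lower
  a_upper := h.a_upper
  a_deriv := h.a_deriv
  Jpi_nonneg := h.Jpi_nonneg
  Jpi_close := h.Jpi_close
  Jpi_signed := h.Jpi_signed
  count_meas := h.rt_count_meas hΩ' hsub hO.measurableSet
  count := h.rt_count hΩ' hsub hO.measurableSet
  defic := by
    obtain ⟨Z, hZm, hZ0, hZ⟩ := h.defic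
    exact ⟨Z, hZm, hZ0, le_antisymm ((restr_μ_le S Ω' O _).trans hZ.le) zero_le⟩
  E1_le := h.E1_le
  E2_le := h.E2_le
  E3_le := h.E3_le
  E4_le := h.E4_le
  E5_le := h.E5_le
  E6_le := h.E6_le
  horiz := h.rt_horiz hΩ' hsub hO hgap
  normal := h.rt_normal hΩ' hsub hO hgap
  lower := h.rt_lower hΩ' hO hgap hsub

/-- restriction of the base only. -/
theorem Valid.restr_univ (h : S.Valid) {Ω' : Set (E m)} (hΩ' : IsOpen Ω') (hsub : Ω' ⊆ S.Ω) :
    (S.restr Ω' univ).Valid := by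
  refine h.restr hΩ' hsub isOpen_univ ⟨1, one_pos, ?_⟩
  rw [frontier_univ, thickening_empty, prod_empty, measure_empty]

/-! ### additivity over disjoint height pieces -/

section Sum

variable {ι : Type*} [Fintype ι] {Ω' : Set (E m)} (O : ι → Set (E n)) (hO : ∀ g, MeasurableSet (O g))
  (hdisj : Pairwise fun g g' => Disjoint (O g) (O g')) (hcov : S.μ (Ω' ×ˢ (⋃ g, O g)ᶜ) = 0)
  (hΩ' : MeasurableSet Ω')

include hO hdisj hcov hΩ'

/-- pushed-forward densities add up. -/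
theorem restr_push_sum (d : E m × E n → ℝ≥0∞) {A : Set (E m)} (hA : MeasurableSet A) (hAΩ : A ⊆ Ω') :
    ∑ g, (((S.restr Ω' (O g)).μ.withDensity d).map Prod.fst) A = ((S.μ.withDensity d).map Prod.fst) A := by
  have e1 : ∀ g, (((S.restr Ω' (O g)).μ.withDensity d).map Prod.fst) A = (S.μ.withDensity d) (A ×ˢ O g) := by
    intro g
    rw [Measure.map_apply measurable_fst hA, restr_μ, ← restrict_withDensity (hΩ'.prod (hO g)),
      Measure.restrict_apply (measurable_fst hA)]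
    congr 1
    ext q
    simp only [mem_inter_iff, mem_preimage, mem_prod]
    constructor
    · rintro ⟨h1, -, h3⟩
      exact ⟨h1, h3⟩
    · rintro ⟨h1, h3⟩
      exact ⟨h1, hAΩ h1, h3⟩
  simp only [e1]
  rw [Measure.map_apply measurable_fst hA, ← measure_biUnion_finset (fun g _ g' _ hne => ?_)
    (fun g _ => hA.prod (hO g))]
  · have hnull : (S.μ.withDensity d) (A ×ˢ (⋃ g, O g)ᶜ) = 0 :=
      withDensity_absolutelyContinuous _ _ (measure_mono_null (prod_mono hAΩ le_rfl) hcov)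
    have e2 : Prod.fst ⁻¹' A = (⋃ g ∈ (Finset.univ : Finset ι), A ×ˢ O g) ∪ A ×ˢ (⋃ g, O g)ᶜ := by
      ext q
      simp only [mem_preimage, Finset.mem_univ, iUnion_true, mem_union, mem_iUnion, mem_prod, mem_compl_iff,
        not_exists]
      constructor
      · intro h1
        by_cases h2 : ∃ g, q.2 ∈ O g
        · obtain ⟨g, hg⟩ := h2
          exact Or.inl ⟨g, h1, hg⟩
        · exact Or.inr ⟨h1, not_exists.1 h2⟩
      · rintro (⟨g, h1, -⟩ | ⟨h1, -⟩) <;> exact h1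
    rw [e2]
    refine le_antisymm (measure_mono subset_union_left) ((measure_union_le _ _).trans ?_)
    rw [hnull, add_zero]
  · exact Disjoint.set_prod_right (hdisj hne) _ _

/-- integrals add up. -/
theorem restr_integral_sum {F : E m × E n → ℝ} (hF : Integrable F S.μ) (hz : ∀ q : E m × E n, q.1 ∉ Ω' → F q = 0) :
    ∑ g, ∫ q, F q ∂(S.restr Ω' (O g)).μ = ∫ q, F q ∂S.μ := by
  simp only [restr_μ]
  rw [← integral_iUnion_fintype (fun g => hΩ'.prod (hO g))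
    (fun g g' hne => Disjoint.set_prod_right (hdisj hne) _ _) (fun g => hF.integrableOn)]
  rw [← integral_indicator (MeasurableSet.iUnion fun g => hΩ'.prod (hO g))]
  refine integral_congr_ae ?_
  have hae : ∀ᵐ q ∂S.μ, q ∉ Ω' ×ˢ (⋃ g, O g)ᶜ := by
    rw [ae_iff]
    simp only [not_not]
    exact hcov
  filter_upwards [hae] with q hq
  by_cases h1 : q ∈ ⋃ g, Ω' ×ˢ O g
  · rw [indicator_of_mem h1]
  · rw [indicator_of_notMem h1]
    symm
    apply hz
    intro h2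
    apply hq
    refine ⟨h2, fun h3 => h1 ?_⟩
    obtain ⟨g, hg⟩ := mem_iUnion.1 h3
    exact mem_iUnion.2 ⟨g, h2, hg⟩

end Sum

/-- The energies of disjoint height pieces covering the support add up. -/
theorem Valid.restr_Dm_sum (h : S.Valid) {ι : Type*} [Fintype ι] {Ω' : Set (E m)}
    (O : ι → Set (E n)) (hO : ∀ g, MeasurableSet (O g))
    (hdisj : Pairwise fun g g' => Disjoint (O g) (O g'))
    (hcov : S.μ (Ω' ×ˢ (⋃ g, O g)ᶜ) = 0) (hΩ' : MeasurableSet Ω') {A : Set (E m)}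
    (hA : MeasurableSet A) (hAΩ : A ⊆ Ω') :
    ∑ g, (S.restr Ω' (O g)).Dm A = S.Dm A :=
  restr_push_sum O hO hdisj hcov hΩ' (fun q => ENNReal.ofReal (S.e q)) hA hAΩ

theorem Valid.restr_Lm_sum (h : S.Valid) {ι : Type*} [Fintype ι] {Ω' : Set (E m)}
    (O : ι → Set (E n)) (hO : ∀ g, MeasurableSet (O g))
    (hdisj : Pairwise fun g g' => Disjoint (O g) (O g'))
    (hcov : S.μ (Ω' ×ˢ (⋃ g, O g)ᶜ) = 0) (hΩ' : MeasurableSet Ω') {A : Set (E m)}
    (hA : MeasurableSet A) (hAΩ : A ⊆ Ω') :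
    ∑ g, (S.restr Ω' (O g)).Lm A = S.Lm A :=
  restr_push_sum O hO hdisj hcov hΩ' (fun q => ENNReal.ofReal (S.lam q)) hA hAΩ

section SumW

variable (h : S.Valid) {Ω' : Set (E m)} (hsub : Ω' ⊆ S.Ω) {w : E m → ℝ} (hw : Continuous w)
  (hc : HasCompactSupport w) (hs : tsupport w ⊆ Ω')

include h hsub hw hc hs

theorem Valid.integrable_w_mul {k : E m × E n → ℝ} (hk : Measurable k) (C : ℝ) (hkb : ∀ q, |k q| ≤ C) :
    Integrable (fun q : E m × E n => w q.1 * k q) S.μ := by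
  obtain ⟨C1, hC1⟩ := hc.exists_bound_of_continuous hw
  refine h.integrable_of_baseCpt ((hw.measurable.comp measurable_fst).mul hk)
    ⟨tsupport w, hc, hs.trans hsub, fun q hq => by simp only; rw [image_eq_zero_of_notMem_tsupport hq, zero_mul]⟩
    (C1 * C) (Filter.Eventually.of_forall fun q => ?_)
  rw [abs_mul]
  exact mul_le_mul (hC1 _) (hkb q) (abs_nonneg _) ((norm_nonneg _).trans (hC1 q.1))

omit h hsub hw hc in
theorem w_zero_off (y : E m) (hy : y ∉ Ω') : w y = 0 :=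
  image_eq_zero_of_notMem_tsupport fun hcon => hy (hs hcon)

end SumW

theorem Valid.restr_intLam_sum (h : S.Valid) {ι : Type*} [Fintype ι] {Ω' : Set (E m)}
    (O : ι → Set (E n)) (hO : ∀ g, MeasurableSet (O g))
    (hdisj : Pairwise fun g g' => Disjoint (O g) (O g'))
    (hcov : S.μ (Ω' ×ˢ (⋃ g, O g)ᶜ) = 0) (hΩ' : IsOpen Ω') (hsub : Ω' ⊆ S.Ω)
    {w : E m → ℝ} (hw : Continuous w)
    (hc : HasCompactSupport w) (hs : tsupport w ⊆ Ω') :
    ∑ g, (S.restr Ω' (O g)).intLam w = S.intLam w := by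
  refine restr_integral_sum O hO hdisj hcov hΩ'.measurableSet
    (h.integrable_w_mul hsub hw hc hs h.meas_lam S.Cg fun q => ?_) fun q hq => ?_
  · rw [abs_of_nonneg (h.lam_nonneg q)]
    exact h.lam_le q
  · rw [w_zero_off hs q.1 hq, zero_mul]

theorem Valid.restr_intD_sum (h : S.Valid) {ι : Type*} [Fintype ι] {Ω' : Set (E m)}
    (O : ι → Set (E n)) (hO : ∀ g, MeasurableSet (O g))
    (hdisj : Pairwise fun g g' => Disjoint (O g) (O g'))
    (hcov : S.μ (Ω' ×ˢ (⋃ g, O g)ᶜ) = 0) (hΩ' : IsOpen Ω') (hsub : Ω' ⊆ S.Ω)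
    {w : E m → ℝ} (hw : Continuous w)
    (hc : HasCompactSupport w) (hs : tsupport w ⊆ Ω') :
    ∑ g, (S.restr Ω' (O g)).intD w = S.intD w := by
  refine restr_integral_sum O hO hdisj hcov hΩ'.measurableSet
    (h.integrable_w_mul hsub hw hc hs h.meas_e m fun q => ?_) fun q hq => ?_
  · rw [abs_of_nonneg (h.e_nonneg q)]
    exact h.e_le q
  · rw [w_zero_off hs q.1 hq, zero_mul]

theorem Valid.restr_intM_sum (h : S.Valid) {ι : Type*} [Fintype ι] {Ω' : Set (E m)}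
    (O : ι → Set (E n)) (hO : ∀ g, MeasurableSet (O g))
    (hdisj : Pairwise fun g g' => Disjoint (O g) (O g'))
    (hcov : S.μ (Ω' ×ˢ (⋃ g, O g)ᶜ) = 0) (hΩ' : IsOpen Ω') (hsub : Ω' ⊆ S.Ω)
    (qc : ι → ℕ) (Q : ℕ) (hq : ∑ g, qc g = Q) {w : E m → ℝ} (hw : Continuous w)
    (hc : HasCompactSupport w) (hs : tsupport w ⊆ Ω') :
    ∑ g, (S.restr Ω' (O g)).intM (qc g) w = S.intM Q w := by
  unfold Sys.intM
  rw [Finset.sum_sub_distrib]
  congr 1
  · have h1 := h.integrable_w_mul hsub hw hc hs (k := fun _ => 1) measurable_const 1 (fun q => by simp)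
    simp only [mul_one] at h1
    exact restr_integral_sum O hO hdisj hcov hΩ'.measurableSet h1 fun q hq => w_zero_off hs q.1 hq
  · have e1 : ∀ g, ((qc g : ℕ) : ℝ) * ∫ y in (S.restr Ω' (O g)).Ω, w y * (S.restr Ω' (O g)).a y
        = (qc g : ℝ) * ∫ y in S.Ω, w y * S.a y := by
      intro g
      congr 1
      have e2 : ∫ y in (S.restr Ω' (O g)).Ω, w y * (S.restr Ω' (O g)).a y = ∫ y in Ω', w y * S.a y := rfl
      rw [e2, setIntegral_eq_integral_of_forall_compl_eq_zero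
        (fun y hy => by rw [w_zero_off hs y hy, zero_mul]),
        setIntegral_eq_integral_of_forall_compl_eq_zero
        (fun y hy => by rw [w_zero_off hs y (fun hcon => hy (hsub hcon)), zero_mul])]
    simp only [e1]
    rw [← Finset.sum_mul, ← hq]
    push_cast
    rfl

/-- `L` is additive over the pieces when the reference counts add up. -/
theorem Valid.restr_intL_sum (h : S.Valid) {ι : Type*} [Fintype ι] {Ω' : Set (E m)}
    (O : ι → Set (E n)) (hO : ∀ g, MeasurableSet (O g))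
    (hdisj : Pairwise fun g g' => Disjoint (O g) (O g'))
    (hcov : S.μ (Ω' ×ˢ (⋃ g, O g)ᶜ) = 0) (hΩ' : IsOpen Ω') (hsub : Ω' ⊆ S.Ω)
    (qc : ι → ℕ) (Q : ℕ) (hq : ∑ g, qc g = Q) {w : E m → ℝ} (hw : Continuous w)
    (hc : HasCompactSupport w) (hs : tsupport w ⊆ Ω') :
    ∑ g, (S.restr Ω' (O g)).intL (qc g) w = S.intL Q w := by
  unfold Sys.intL
  rw [Finset.sum_sub_distrib, ← Finset.mul_sum, h.restr_intM_sum O hO hdisj hcov hΩ' hsub qc Q hq hw hc hs,
    h.restr_intD_sum O hO hdisj hcov hΩ' hsub hw hc hs]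

end Sys

end Claimed.Agent.R322.Sx
end

/- ===== packed: Claimed.Agent.R322.Sx.Ops ===== -/
section
/-!
# R322 / Sx / Ops : elementary consequences of the axioms and closure under the two operations

Umbrella file.  All statements are PROVED:
* Package A (`Valid.*` basic facts) : `Sx/OpsA.lean` (trace / divergence tools in `Sx/Tr.lean`),
* Package B (`rescale`) : `Sx/OpsB.lean`,
* Package C (`restr`) : `Sx/OpsC.lean`.
-/
end
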