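/- Packed by merge_tool.py (helper293): 4 modules of Claimed.Agent.R322 in one file, same declarations.
   Old modules, in this order: Sx.Scalar.Defs, Sx.Scalar.PotBall, Sx.Scalar.Ident, Sx.Scalar.Count -/
import Claimed.Agent.R322.Pack004
import Claimed.Agent.R322.Pack020

/- ===== packed: Claimed.Agent.R322.Sx.Scalar.Defs ===== -/
section
/-!
# R322 / Sx / Scalar / Defs   (blueprint: helper234)

Vocabulary of the packages BP-AE2-scalar (AE Lemma 2.5) and BP-AE2-config (AE Lemma 2.6).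

* `CkB k s A η` : scaled `C^k` bound.
* `IsTest f L`  : height multiplier `f : E n → ℝ`, `C¹`, `0 ≤ f ≤ 1`, `|Df| ≤ L`.
* `Sys.Nf f y`  : the fibre function `N_f(y) = Σ_{ζ ∈ fib y} f(ζ)` of AE, proof of Lemma 2.6 (`f = 1`: `N`).
* `pushD μ B h` : the positive measure `π_# (h⁺ μ⌞(B × E n))` on the base.

## Plan of the two packages (differences to the paper)

(1) `pot_ball` (PotBall.lean): `CZ.potential` on an arbitrary ball `B_R(x)` (translation, dilation).
(2) `pot_push` (PotPush.lean): the same for data given as densities on `E m × E n` against `μ`.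
(3) `grad_eq`, `grad_mass` (Ident.lean): `Valid.horiz_prod` with `X = a⁻¹ φ e_j` is the equation of `pot_push` for
    `V = f a⁻¹`; the data have mass `≤ C ((D+Λ)(B) + L √(ν(B) (D+Λ)(B)))`.
(4) `ac_compare`, `push_count` (Count.lean): the density of `π_# (f a⁻¹ μ)` differs from `N_f` by a function of small `L¹` norm.
(5) `osc` (Osc.lean) = AE (2.17), the multiplier oscillation estimate, NO rescaling of the system is used.
(6) `scalar` (Main.lean) from `osc` with `f = 1`.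
-/

set_option autoImplicit false

namespace Claimed.Agent.R322.Sx

open MeasureTheory Set Metric
open scoped ENNReal NNReal InnerProductSpace

/-- scaled `C^k` bound: `η ∈ C^k` and `s^j |D^j η| ≤ A` for `j ≤ k`. -/
def CkB {m : ℕ} (k : ℕ) (s A : ℝ) (η : E m → ℝ) : Prop :=
  ContDiff ℝ k η ∧ ∀ j : ℕ, j ≤ k → ∀ y, s ^ j * ‖iteratedFDeriv ℝ j η y‖ ≤ A

/-- height multiplier: `C¹`, values in `[0, 1]`, derivative bounded by `L`. -/
structure IsTest {n : ℕ} (f : E n → ℝ) (L : ℝ) : Prop where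
  smooth : ContDiff ℝ 1 f
  nonneg : ∀ ζ, 0 ≤ f ζ
  le_one : ∀ ζ, f ζ ≤ 1
  deriv : ∀ ζ, ‖fderiv ℝ f ζ‖ ≤ L

/-- the fibre function `N_f(y) = Σ_{ζ ∈ fib y} f(ζ)`. -/
noncomputable def Sys.Nf {m n : ℕ} (S : Sys m n) (f : E n → ℝ) (y : E m) : ℝ :=
  ((S.fib y).map f).sum

/-- `π_# (h⁺ μ⌞(B × E n))`. -/
noncomputable def pushD {m n : ℕ} (μ : Measure (E m × E n)) (B : Set (E m)) (h : E m × E n → ℝ) :
    Measure (E m) :=
  ((μ.restrict (B ×ˢ (univ : Set (E n)))).withDensity fun q => ENNReal.ofReal (h q)).map Prod.fst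

/-- the `i`-th basis vector. -/
noncomputable abbrev bv {k : ℕ} (i : Fin k) : E k := EuclideanSpace.single i (1 : ℝ)

end Claimed.Agent.R322.Sx
end

/- ===== packed: Claimed.Agent.R322.Sx.Scalar.PotBall ===== -/
section
/-!
# R322 / Sx / Scalar / PotBall   (blueprint: helper234)   LEAVES `L-Sc-PotBall`, `L-Sc-PotPush`

`pot_ball`: `CZ.potential` (AE Lemma 2.4) on an arbitrary ball `B_R(x)`, for a POSITIVE measure `v`.
Proof: `T y = R⁻¹ • (y - x)`; apply `CZ.potential` to `vp = v.map T`, `vm = 0`, `Fp i j = (Fp i j).map T`, …,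
`gp j = ofReal R • (gp j).map T`, …  For a test `φ'` on the unit ball use `φ = φ' ∘ T`, `pd j φ = R⁻¹ (pd j φ') ∘ T`.
Density: `(v.map T).rnDeriv volume y' = R^m (v.rnDeriv volume) (x + R y')` a.e.
(`MeasurableEmbedding.rnDeriv_map`, `volume.map T = ofReal (R^m) • volume`, `Measure.rnDeriv_smul_right`), so with `c = c'/R^m`, `t' = R^m t`:
`vol {y ∈ B_{θR}(x) : t < |v_ac - c|} = R^m vol {y' ∈ B_θ : t' < |v'_ac - c'|} ≤ R^m C ε / t' = C ε / t`.
Distributional bound: `∫ φ dv - c ∫ φ = ∫ φ' dv' - c' ∫ φ'`, `‖D^j φ'‖ = R^j ‖D^j φ‖ ≤ A`.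

`pot_push`: the same with all data given by densities against a measure `μ` on `E m × E n`.
Proof: `v = pushD μ B V`, `Fp i j = pushD μ B (F i j)`, `Fm i j = pushD μ B (-F i j)`, …; the three `pushD` lemmas below.

STATEMENT FIX (helper166): the hypothesis `0 ≤ ε` was added to `pot_ball` and `pot_push` (as in `CZ.potential`): for `ε < 0`,
zero data, `φ = 0`, `A = 1` the second conclusion would read `0 ≤ C ε < 0`.  Both files are sorry-free.
-/

set_option autoImplicit false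

namespace Claimed.Agent.R322.Sx

open MeasureTheory Set Metric
open scoped ENNReal NNReal InnerProductSpace ContDiff

section Affine

variable {m : ℕ}

/-- the affine map `y ↦ R⁻¹ • (y - x)` as a homeomorphism. -/
noncomputable def pbT (x : E m) (R : ℝ) (hR : R ≠ 0) : E m ≃ₜ E m where
  toFun y := R⁻¹ • (y - x)
  invFun y := x + R • y
  left_inv y := by simp [smul_smul, hR]
  right_inv y := by simp [smul_smul, hR]
  continuous_toFun := by fun_prop
  continuous_invFun := by fun_prop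

theorem pbT_apply (x : E m) (R : ℝ) (hR : R ≠ 0) (y : E m) : pbT x R hR y = R⁻¹ • (y - x) := rfl

theorem pbT_symm_apply (x : E m) (R : ℝ) (hR : R ≠ 0) (y : E m) :
    (pbT x R hR).symm y = x + R • y := rfl

theorem pbT_map_volume (x : E m) {R : ℝ} (hR : 0 < R) :
    Measure.map (pbT x R hR.ne') volume = ENNReal.ofReal (R ^ m) • (volume : Measure (E m)) := by
  have h1 : (pbT x R hR.ne' : E m → E m) = (fun y => R⁻¹ • y) ∘ (fun y => y - x) := rfl
  rw [h1, ← Measure.map_map (by fun_prop) (by fun_prop),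
    (measurePreserving_sub_right volume x).map_eq,
    Measure.map_addHaar_smul volume (inv_ne_zero hR.ne'), finrank_euclideanSpace_fin]
  congr 2
  rw [inv_pow, inv_inv, abs_of_pos (pow_pos hR m)]

theorem pbT_mem_ball (x : E m) {R : ℝ} (hR : 0 < R) (θ : ℝ) (y : E m) :
    pbT x R hR.ne' y ∈ ball (0 : E m) θ ↔ y ∈ ball x (θ * R) := by
  rw [mem_ball_zero_iff, pbT_apply, norm_smul, norm_inv, Real.norm_eq_abs, abs_of_pos hR,
    mem_ball, dist_eq_norm, inv_mul_lt_iff₀ hR, mul_comm]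

theorem pbT_hasFDerivAt (x : E m) (R : ℝ) (hR : R ≠ 0) (y : E m) :
    HasFDerivAt (pbT x R hR) (R⁻¹ • ContinuousLinearMap.id ℝ (E m)) y :=
  ((hasFDerivAt_id y).sub_const x).const_smul R⁻¹

theorem pbT_contDiff (x : E m) (R : ℝ) (hR : R ≠ 0) : ContDiff ℝ ∞ (pbT x R hR) :=
  (contDiff_id.sub contDiff_const).const_smul R⁻¹

theorem pd_comp_pbT (x : E m) (R : ℝ) (hR : R ≠ 0) {φ : E m → ℝ} (hφ : Differentiable ℝ φ)
    (j : Fin m) (y : E m) :
    CZ.pd j (fun y => φ (pbT x R hR y)) y = R⁻¹ * CZ.pd j φ (pbT x R hR y) := by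
  have h := (hφ (pbT x R hR y)).hasFDerivAt.comp y (pbT_hasFDerivAt x R hR y)
  have h' : fderiv ℝ (fun y => φ (pbT x R hR y)) y = _ := h.fderiv
  rw [CZ.pd, h']
  simp [CZ.pd]

/-- density of the transported measure. -/
theorem pbT_rnDeriv (x : E m) {R : ℝ} (hR : 0 < R) (v : Measure (E m)) [IsFiniteMeasure v] :
    ∀ᵐ y ∂(volume : Measure (E m)),
      ((v.map (pbT x R hR.ne')).rnDeriv volume (pbT x R hR.ne' y))
        = ENNReal.ofReal (R ^ m) * v.rnDeriv volume y := by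
  set T := pbT x R hR.ne' with hT
  have hemb : MeasurableEmbedding T := T.measurableEmbedding
  have hc0 : ENNReal.ofReal (R ^ m) ≠ 0 := by
    rw [Ne, ENNReal.ofReal_eq_zero, not_le]; exact pow_pos hR m
  have h1 := hemb.rnDeriv_map v (volume : Measure (E m))
  rw [hT, pbT_map_volume x hR, ← hT] at h1
  have : IsFiniteMeasure (v.map T) := by infer_instance
  have h2 := Measure.rnDeriv_smul_right_of_ne_top' (v.map T) (volume : Measure (E m)) hc0
    ENNReal.ofReal_ne_top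
  -- transfer `h2` along `T`
  have h3 : ∀ᵐ y ∂(volume : Measure (E m)),
      (v.map T).rnDeriv (ENNReal.ofReal (R ^ m) • volume) (T y)
        = ((ENNReal.ofReal (R ^ m))⁻¹ • (v.map T).rnDeriv volume) (T y) := by
    have h4 : ∀ᵐ z ∂(Measure.map T (volume : Measure (E m))),
        (v.map T).rnDeriv (ENNReal.ofReal (R ^ m) • volume) z
        = ((ENNReal.ofReal (R ^ m))⁻¹ • (v.map T).rnDeriv volume) z := by
      rw [hT, pbT_map_volume x hR, ← hT]
      exact (Measure.smul_absolutelyContinuous).ae_le h2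
    exact (hemb.ae_map_iff).1 h4
  filter_upwards [h1, h3] with y hy1 hy3
  rw [hy3] at hy1
  rw [← hy1, Pi.smul_apply, smul_eq_mul, ← mul_assoc,
    ENNReal.mul_inv_cancel hc0 ENNReal.ofReal_ne_top, one_mul]

/-- transfer of a.e. statements along the affine map. -/
theorem pbT_ae (x : E m) {R : ℝ} (hR : 0 < R) {p : E m → Prop}
    (hp : ∀ᵐ z ∂(volume : Measure (E m)), p z) :
    ∀ᵐ y ∂(volume : Measure (E m)), p (pbT x R hR.ne' y) := by
  have h4 : ∀ᵐ z ∂(Measure.map (pbT x R hR.ne') (volume : Measure (E m))), p z := by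
    rw [pbT_map_volume x hR]
    exact (Measure.smul_absolutelyContinuous).ae_le hp
  exact ((pbT x R hR.ne').measurableEmbedding.ae_map_iff).1 h4

/-- scaled derivative bounds of `φ ∘ T⁻¹`. -/
theorem pbT_iteratedFDeriv_le (x : E m) {R : ℝ} (hR : 0 < R) {φ : E m → ℝ} {k : ℕ}
    (hφ : ContDiff ℝ k φ) (j : ℕ) (hj : j ≤ k) (z : E m) :
    ‖iteratedFDeriv ℝ j (fun z => φ ((pbT x R hR.ne').symm z)) z‖
      ≤ R ^ j * ‖iteratedFDeriv ℝ j φ (x + R • z)‖ := by
  have h1 : (fun z => φ ((pbT x R hR.ne').symm z))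
      = (fun w => φ (x + w)) ∘ (R • ContinuousLinearMap.id ℝ (E m)) := by
    ext z; simp [pbT_symm_apply]
  have h2 : ContDiff ℝ k (fun w => φ (x + w)) := hφ.comp (contDiff_const.add contDiff_id)
  rw [h1, ContinuousLinearMap.iteratedFDeriv_comp_right _ h2 _ (by exact_mod_cast hj),
    iteratedFDeriv_comp_add_left]
  refine (ContinuousMultilinearMap.norm_compContinuousLinearMap_le _ _).trans ?_
  have h3 : ‖R • ContinuousLinearMap.id ℝ (E m)‖ ≤ R := by
    rw [norm_smul, Real.norm_eq_abs, abs_of_pos hR]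
    exact mul_le_of_le_one_right hR.le ContinuousLinearMap.norm_id_le
  rw [mul_comm]
  simp only [Finset.prod_const, Finset.card_univ, Fintype.card_fin]
  have h4 : (R • ContinuousLinearMap.id ℝ (E m)) z = R • z := by simp
  rw [h4]
  gcongr

end Affine

/-- **AE Lemma 2.4 on `B_R(x)`.** -/
theorem pot_ball (m : ℕ) (hm : 1 ≤ m) (θ : ℝ) (hθ0 : 0 < θ) (hθ1 : θ < 1) :
    ∃ C : ℝ, 0 < C ∧
    ∀ (x : E m) (R : ℝ), 0 < R →
    ∀ (v : Measure (E m)) (Fp Fm : Fin m → Fin m → Measure (E m))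
      (gp gm : Fin m → Measure (E m)) (ε : ℝ), 0 ≤ ε →
      IsFiniteMeasure v →
      (∑ i, ∑ j, (Fp i j univ + Fm i j univ)) + ENNReal.ofReal R * ∑ j, (gp j univ + gm j univ)
        ≤ ENNReal.ofReal ε →
      (∀ (j : Fin m) (φ : E m → ℝ), ContDiff ℝ ∞ φ → HasCompactSupport φ →
        tsupport φ ⊆ ball x R →
        ∫ y, CZ.pd j φ y ∂v
          = (∑ i, ((∫ y, CZ.pd i φ y ∂(Fp i j)) - ∫ y, CZ.pd i φ y ∂(Fm i j)))
            - ((∫ y, φ y ∂(gp j)) - ∫ y, φ y ∂(gm j))) →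
      ∃ c : ℝ,
        (∀ t : ℝ, 0 < t →
          volume {y : E m | y ∈ ball x (θ * R) ∧ t < |(v.rnDeriv volume y).toReal - c|}
            ≤ ENNReal.ofReal (C * ε / t)) ∧
        (∀ (φ : E m → ℝ) (A : ℝ), CkB 3 R A φ → tsupport φ ⊆ ball x (θ * R) →
          |(∫ y, φ y ∂v) - c * ∫ y, φ y| ≤ C * ε * A) := by
  obtain ⟨C, hC, H⟩ := CZ.potential m hm θ hθ0 hθ1
  refine ⟨C, hC, ?_⟩
  intro x R hR v Fp Fm gp gm ε hε hv hmass heq
  set T := pbT x R hR.ne' with hT
  have hemb : MeasurableEmbedding T := T.measurableEmbedding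
  have hTm : Measurable T := hemb.measurable
  have hRm : 0 < R ^ m := pow_pos hR m
  have hmass' : (∑ i, ∑ j, ((Fp i j).map T univ + (Fm i j).map T univ))
      + ∑ j, ((ENNReal.ofReal R • (gp j).map T) univ + (ENNReal.ofReal R • (gm j).map T) univ)
        ≤ ENNReal.ofReal ε := by
    simp only [Measure.map_apply hTm MeasurableSet.univ, preimage_univ, Measure.smul_apply,
      smul_eq_mul, ← mul_add, ← Finset.mul_sum]
    exact hmass
  have heq' : ∀ (j : Fin m) (φ : E m → ℝ), ContDiff ℝ ∞ φ → HasCompactSupport φ →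
        tsupport φ ⊆ ball (0 : E m) 1 →
        (∫ y, CZ.pd j φ y ∂(v.map T)) - ∫ y, CZ.pd j φ y ∂(0 : Measure (E m))
          = (∑ i, ((∫ y, CZ.pd i φ y ∂((Fp i j).map T)) - ∫ y, CZ.pd i φ y ∂((Fm i j).map T)))
            - ((∫ y, φ y ∂(ENNReal.ofReal R • (gp j).map T))
              - ∫ y, φ y ∂(ENNReal.ofReal R • (gm j).map T)) := by
    intro j φ hφ hφc hφs
    have hdiff : Differentiable ℝ φ := hφ.differentiable (by simp)
    have hs : tsupport (fun y => φ (T y)) ⊆ ball x R := by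
      have : tsupport (φ ∘ T) = T ⁻¹' tsupport φ := tsupport_comp_eq_preimage φ T
      intro y hy
      have hy' : T y ∈ tsupport φ := by
        have : y ∈ tsupport (φ ∘ T) := hy
        rw [tsupport_comp_eq_preimage φ T] at this
        exact this
      have := (pbT_mem_ball x hR 1 y).1 (hφs hy')
      rwa [one_mul] at this
    have h := heq j (fun y => φ (T y)) (hφ.comp (pbT_contDiff x R hR.ne'))
      (hφc.comp_homeomorph T) hs
    simp only [hT, pd_comp_pbT x R hR.ne' hdiff, integral_const_mul] at h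
    simp only [← hT] at h
    simp only [hemb.integral_map, integral_zero_measure, integral_smul_measure, sub_zero,
      ENNReal.toReal_ofReal hR.le, smul_eq_mul]
    simp only [← mul_sub, ← Finset.mul_sum] at h ⊢
    have h' := congrArg (fun a => R * a) h
    simp only [mul_sub, ← mul_assoc, mul_inv_cancel₀ hR.ne', one_mul] at h'
    linarith
  obtain ⟨c', hw, hd⟩ := H (v.map T) 0 (fun i j => (Fp i j).map T) (fun i j => (Fm i j).map T)
    (fun j => ENNReal.ofReal R • (gp j).map T) (fun j => ENNReal.ofReal R • (gm j).map T) ε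
    inferInstance inferInstance hε hmass' heq'
  refine ⟨c' / R ^ m, ?_, ?_⟩
  · intro t ht
    have h1 := hw (R ^ m * t) (by positivity)
    set A' : Set (E m) := {y : E m | y ∈ ball (0 : E m) θ ∧
      R ^ m * t < |((v.map T).rnDeriv volume y).toReal
        - ((0 : Measure (E m)).rnDeriv volume y).toReal - c'|} with hA'
    have hz : ∀ᵐ y ∂(volume : Measure (E m)), (0 : Measure (E m)).rnDeriv volume (T y) = 0 :=
      pbT_ae x hR (Measure.rnDeriv_zero (volume : Measure (E m)))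
    have hsub : ∀ᵐ y ∂(volume : Measure (E m)),
        y ∈ {y : E m | y ∈ ball x (θ * R) ∧ t < |(v.rnDeriv volume y).toReal - c' / R ^ m|} →
          y ∈ T ⁻¹' A' := by
      filter_upwards [pbT_rnDeriv x hR v, hz] with y hy hy0 hmem
      refine ⟨(pbT_mem_ball x hR θ y).2 hmem.1, ?_⟩
      rw [hy0, ← hT] at *
      rw [hy, ENNReal.toReal_mul, ENNReal.toReal_ofReal hRm.le, ENNReal.toReal_zero, sub_zero]
      have e : R ^ m * (v.rnDeriv volume y).toReal - c'
          = R ^ m * ((v.rnDeriv volume y).toReal - c' / R ^ m) := by field_simp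
      rw [e, abs_mul, abs_of_pos hRm]
      exact mul_lt_mul_of_pos_left hmem.2 hRm
    calc volume {y : E m | y ∈ ball x (θ * R) ∧ t < |(v.rnDeriv volume y).toReal - c' / R ^ m|}
        ≤ volume (T ⁻¹' A') := measure_mono_ae hsub
      _ = (Measure.map T volume) A' := (hemb.map_apply _ _).symm
      _ = ENNReal.ofReal (R ^ m) * volume A' := by rw [hT, pbT_map_volume x hR]; rfl
      _ ≤ ENNReal.ofReal (R ^ m) * ENNReal.ofReal (C * ε / (R ^ m * t)) := by gcongr
      _ = ENNReal.ofReal (C * ε / t) := by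
          rw [← ENNReal.ofReal_mul hRm.le]; congr 1; field_simp
  · intro φ A hφ hφs
    obtain ⟨hφc, hφb⟩ := hφ
    have hs : tsupport (fun z => φ (T.symm z)) ⊆ ball (0 : E m) θ := by
      intro z hz
      have hz' : z ∈ tsupport (φ ∘ T.symm) := hz
      rw [tsupport_comp_eq_preimage φ T.symm] at hz'
      have := (pbT_mem_ball x hR θ (T.symm z)).2 (hφs hz')
      rwa [← hT, T.apply_symm_apply] at this
    have hc3 : ContDiff ℝ 3 (fun z => φ (T.symm z)) :=
      hφc.comp (contDiff_const.add (contDiff_id.const_smul R))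
    have h := hd (fun z => φ (T.symm z)) A hc3 hs (fun j hj z =>
      (pbT_iteratedFDeriv_le x hR hφc j hj z).trans (hφb j hj _))
    have e1 : ∫ y, φ (T.symm y) ∂(v.map T) = ∫ y, φ y ∂v := by
      rw [hemb.integral_map]; simp
    have e2 : ∫ y, φ (T.symm y) = (R ^ m)⁻¹ * ∫ y, φ y := by
      have e3 : ∫ y, φ y = ∫ y, (fun z => φ (T.symm z)) (T y) := by simp
      have e5 := hemb.integral_map (μ := (volume : Measure (E m))) (fun z => φ (T.symm z))
      rw [e3, ← e5, hT, pbT_map_volume x hR, integral_smul_measure,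
        ENNReal.toReal_ofReal hRm.le, smul_eq_mul, ← mul_assoc, inv_mul_cancel₀ hRm.ne', one_mul]
    rw [e1, integral_zero_measure, sub_zero, e2] at h
    have e4 : c' / R ^ m * ∫ y, φ y = c' * ((R ^ m)⁻¹ * ∫ y, φ y) := by
      rw [div_eq_mul_inv, mul_assoc]
    rw [e4]
    exact h

section Push

variable {m n : ℕ} (μ : Measure (E m × E n)) {B : Set (E m)} {h : E m × E n → ℝ}

theorem pushD_apply (hB : MeasurableSet B) (hh : Measurable h) {W : Set (E m)} (hW : MeasurableSet W) :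
    pushD μ B h W = ∫⁻ q in (B ∩ W) ×ˢ (univ : Set (E n)), ENNReal.ofReal (h q) ∂μ := by
  unfold pushD
  rw [Measure.map_apply measurable_fst hW, withDensity_apply _ (measurable_fst hW),
    Measure.restrict_restrict (measurable_fst hW)]
  congr 2
  ext q
  simp [and_comm]

theorem pushD_univ (hB : MeasurableSet B) (hh : Measurable h) :
    pushD μ B h univ = ∫⁻ q in B ×ˢ (univ : Set (E n)), ENNReal.ofReal (h q) ∂μ := by
  rw [pushD_apply μ hB hh MeasurableSet.univ, inter_univ]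

/-- integration against `pushD`, general form. -/
theorem integral_pushD_aux (hh : Measurable h) {φ : E m → ℝ} (hφ : Measurable φ) :
    ∫ y, φ y ∂(pushD μ B h) = ∫ q in B ×ˢ (univ : Set (E n)), max (h q) 0 * φ q.1 ∂μ := by
  unfold pushD
  rw [integral_map measurable_fst.aemeasurable hφ.aestronglyMeasurable,
    integral_withDensity_eq_integral_toReal_smul hh.ennreal_ofReal
      (Filter.Eventually.of_forall fun q => ENNReal.ofReal_lt_top)]
  refine integral_congr_ae (Filter.Eventually.of_forall fun q => ?_)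
  simp only [smul_eq_mul, ENNReal.toReal_ofReal']

/-- integration against the difference of the two parts. -/
theorem integral_pushD_sub (hB : MeasurableSet B) (hh : Measurable h)
    (hfin : ∫⁻ q in B ×ˢ (univ : Set (E n)), ENNReal.ofReal |h q| ∂μ < ⊤) {φ : E m → ℝ}
    (hφ : Measurable φ) {C : ℝ} (hb : ∀ y, |φ y| ≤ C) (hs : Function.support φ ⊆ B) :
    (∫ y, φ y ∂(pushD μ B h)) - ∫ y, φ y ∂(pushD μ B fun q => -h q) = ∫ q, φ q.1 * h q ∂μ := by
  rw [integral_pushD_aux μ hh hφ, integral_pushD_aux μ (h := fun q => -h q) hh.neg hφ]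
  have hint : Integrable h (μ.restrict (B ×ˢ (univ : Set (E n)))) := by
    refine ⟨hh.aestronglyMeasurable, ?_⟩
    rw [hasFiniteIntegral_iff_norm]
    simpa only [Real.norm_eq_abs] using hfin
  have hφ1 : Measurable fun q : E m × E n => φ q.1 := hφ.comp measurable_fst
  have hI : ∀ k : E m × E n → ℝ, Measurable k → (∀ q, |k q| ≤ |h q|) →
      Integrable (fun q => k q * φ q.1) (μ.restrict (B ×ˢ (univ : Set (E n)))) := by
    intro k hk hkh
    have hk' : Integrable k (μ.restrict (B ×ˢ (univ : Set (E n)))) :=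
      hint.mono hk.aestronglyMeasurable (Filter.Eventually.of_forall fun q => by
        simpa only [Real.norm_eq_abs] using hkh q)
    exact hk'.mul_bdd (c := C) hφ1.aestronglyMeasurable (Filter.Eventually.of_forall fun q => by
      simpa only [Real.norm_eq_abs] using hb q.1)
  have hz : ∀ q : E m × E n, q ∉ B ×ˢ (univ : Set (E n)) → φ q.1 * h q = 0 := by
    intro q hq
    have h1 : q.1 ∉ B := fun hq' => hq ⟨hq', mem_univ _⟩
    have h2 : φ q.1 = 0 := by
      by_contra hne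
      exact h1 (hs hne)
    rw [h2, zero_mul]
  rw [← integral_sub (hI (fun q => max (h q) 0) (hh.max measurable_const) fun q => ?_)
    (hI (fun q => max (-h q) 0) (hh.neg.max measurable_const) fun q => ?_),
    ← setIntegral_eq_integral_of_forall_compl_eq_zero hz]
  · refine integral_congr_ae (Filter.Eventually.of_forall fun q => ?_)
    show max (h q) 0 * φ q.1 - max (-h q) 0 * φ q.1 = φ q.1 * h q
    rcases le_total 0 (h q) with h0 | h0
    · rw [max_eq_left h0, max_eq_right (by linarith)]; ring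
    · rw [max_eq_right h0, max_eq_left (by linarith)]; ring
  · rcases le_total 0 (h q) with h0 | h0
    · rw [max_eq_left h0]
    · rw [max_eq_right h0, abs_zero]; exact abs_nonneg _
  · show |max (-h q) 0| ≤ |h q|
    rcases le_total 0 (h q) with h0 | h0
    · rw [max_eq_right (by linarith), abs_zero]; exact abs_nonneg _
    · rw [max_eq_left (by linarith), abs_neg]

/-- integration against `pushD` of a nonnegative density. -/
theorem integral_pushD (hB : MeasurableSet B) (hh : Measurable h) (h0 : ∀ q, 0 ≤ h q)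
    {φ : E m → ℝ} (hφ : Measurable φ) (hs : Function.support φ ⊆ B) :
    ∫ y, φ y ∂(pushD μ B h) = ∫ q, φ q.1 * h q ∂μ := by
  have hz : ∀ q : E m × E n, q ∉ B ×ˢ (univ : Set (E n)) → φ q.1 * h q = 0 := by
    intro q hq
    have h1 : q.1 ∉ B := fun hq' => hq ⟨hq', mem_univ _⟩
    have h2 : φ q.1 = 0 := by
      by_contra hne
      exact h1 (hs hne)
    rw [h2, zero_mul]
  rw [integral_pushD_aux μ hh hφ, ← setIntegral_eq_integral_of_forall_compl_eq_zero hz]
  refine integral_congr_ae (Filter.Eventually.of_forall fun q => ?_)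
  show max (h q) 0 * φ q.1 = φ q.1 * h q
  rw [max_eq_left (h0 q), mul_comm]

/-- total mass of the two parts. -/
theorem pushD_univ_add (hB : MeasurableSet B) (hh : Measurable h) :
    pushD μ B h univ + pushD μ B (fun q => -h q) univ
      = ∫⁻ q in B ×ˢ (univ : Set (E n)), ENNReal.ofReal |h q| ∂μ := by
  rw [pushD_univ μ hB hh, pushD_univ μ (h := fun q => -h q) hB hh.neg,
    ← lintegral_add_left hh.ennreal_ofReal]
  refine lintegral_congr fun q => ?_
  rcases le_total 0 (h q) with h0 | h0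
  · rw [abs_of_nonneg h0, ENNReal.ofReal_of_nonpos (by linarith : -h q ≤ 0), add_zero]
  · rw [abs_of_nonpos h0, ENNReal.ofReal_of_nonpos h0, zero_add]

end Push

/-- **AE Lemma 2.4 for data given by densities on the total space.** -/
theorem pot_push (m n : ℕ) (hm : 1 ≤ m) (θ : ℝ) (hθ0 : 0 < θ) (hθ1 : θ < 1) :
    ∃ C : ℝ, 0 < C ∧
    ∀ (μ : Measure (E m × E n)) (x : E m) (R : ℝ), 0 < R →
    ∀ (V : E m × E n → ℝ) (F : Fin m → Fin m → E m × E n → ℝ) (g : Fin m → E m × E n → ℝ) (ε : ℝ),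
      0 ≤ ε →
      Measurable V → (∀ q, 0 ≤ V q) → (∀ i j, Measurable (F i j)) → (∀ j, Measurable (g j)) →
      ∫⁻ q in ball x R ×ˢ (univ : Set (E n)), ENNReal.ofReal (V q) ∂μ < ⊤ →
      (∑ i, ∑ j, ∫⁻ q in ball x R ×ˢ (univ : Set (E n)), ENNReal.ofReal |F i j q| ∂μ)
        + ENNReal.ofReal R * ∑ j, ∫⁻ q in ball x R ×ˢ (univ : Set (E n)), ENNReal.ofReal |g j q| ∂μ
          ≤ ENNReal.ofReal ε →
      (∀ (j : Fin m) (φ : E m → ℝ), ContDiff ℝ ∞ φ → HasCompactSupport φ →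
        tsupport φ ⊆ ball x R →
        ∫ q, CZ.pd j φ q.1 * V q ∂μ
          = (∑ i, ∫ q, CZ.pd i φ q.1 * F i j q ∂μ) - ∫ q, φ q.1 * g j q ∂μ) →
      ∃ c : ℝ,
        (∀ t : ℝ, 0 < t →
          volume {y : E m | y ∈ ball x (θ * R) ∧
              t < |((pushD μ (ball x R) V).rnDeriv volume y).toReal - c|}
            ≤ ENNReal.ofReal (C * ε / t)) ∧
        (∀ (φ : E m → ℝ) (A : ℝ), CkB 3 R A φ → tsupport φ ⊆ ball x (θ * R) →
          |(∫ q, φ q.1 * V q ∂μ) - c * ∫ y, φ y| ≤ C * ε * A) := by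
  obtain ⟨C, hC, H⟩ := pot_ball m hm θ hθ0 hθ1
  refine ⟨C, hC, ?_⟩
  intro μ x R hR V F g ε hε hV hV0 hF hg hVfin hmass heq
  have hB : MeasurableSet (ball x R) := measurableSet_ball
  have hR0 : ENNReal.ofReal R ≠ 0 := by
    rw [Ne, ENNReal.ofReal_eq_zero, not_le]; exact hR
  have hFfin : ∀ i j, ∫⁻ q in ball x R ×ˢ (univ : Set (E n)), ENNReal.ofReal |F i j q| ∂μ < ⊤ := by
    intro i j
    refine lt_of_le_of_lt ?_ (lt_of_le_of_lt hmass ENNReal.ofReal_lt_top)
    refine le_trans ?_ le_self_add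
    refine le_trans ?_ (Finset.single_le_sum
      (f := fun i => ∑ j, ∫⁻ q in ball x R ×ˢ (univ : Set (E n)), ENNReal.ofReal |F i j q| ∂μ)
      (fun _ _ => zero_le) (Finset.mem_univ i))
    exact Finset.single_le_sum
      (f := fun j => ∫⁻ q in ball x R ×ˢ (univ : Set (E n)), ENNReal.ofReal |F i j q| ∂μ)
      (fun _ _ => zero_le) (Finset.mem_univ j)
  have hgfin : ∀ j, ∫⁻ q in ball x R ×ˢ (univ : Set (E n)), ENNReal.ofReal |g j q| ∂μ < ⊤ := by
    intro j
    have h1 : ENNReal.ofReal R *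
        ∑ j, ∫⁻ q in ball x R ×ˢ (univ : Set (E n)), ENNReal.ofReal |g j q| ∂μ < ⊤ :=
      lt_of_le_of_lt (le_add_self.trans hmass) ENNReal.ofReal_lt_top
    have h2 : ∑ j, ∫⁻ q in ball x R ×ˢ (univ : Set (E n)), ENNReal.ofReal |g j q| ∂μ < ⊤ := by
      by_contra hcon
      rw [not_lt, top_le_iff] at hcon
      rw [hcon, ENNReal.mul_top hR0] at h1
      exact lt_irrefl _ h1
    exact lt_of_le_of_lt (Finset.single_le_sum
      (f := fun j => ∫⁻ q in ball x R ×ˢ (univ : Set (E n)), ENNReal.ofReal |g j q| ∂μ)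
      (fun _ _ => zero_le) (Finset.mem_univ j)) h2
  have hfinv : IsFiniteMeasure (pushD μ (ball x R) V) := ⟨by rwa [pushD_univ μ hB hV]⟩
  obtain ⟨c, hw, hd⟩ := H x R hR (pushD μ (ball x R) V)
    (fun i j => pushD μ (ball x R) (F i j)) (fun i j => pushD μ (ball x R) fun q => -F i j q)
    (fun j => pushD μ (ball x R) (g j)) (fun j => pushD μ (ball x R) fun q => -g j q) ε hε hfinv
    (by simpa only [pushD_univ_add μ hB (hF _ _), pushD_univ_add μ hB (hg _)] using hmass)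
    (by
      intro j φ hφ hφc hφs
      have hpc : ∀ i, Continuous (CZ.pd i φ) := fun i => CZ.Sol.continuous_pd' hφ i
      have hps : ∀ i, Function.support (CZ.pd i φ) ⊆ ball x R := fun i =>
        (subset_tsupport _).trans ((tsupport_fderiv_apply_subset ℝ _).trans hφs)
      have hpb : ∀ i, ∃ C, ∀ y, |CZ.pd i φ y| ≤ C := fun i => by
        obtain ⟨C, hC⟩ := (hφc.fderiv_apply (𝕜 := ℝ)
          (EuclideanSpace.single i (1 : ℝ))).exists_bound_of_continuous (hpc i)
        exact ⟨C, fun y => by simpa only [Real.norm_eq_abs, CZ.pd] using hC y⟩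
      obtain ⟨C0, hC0⟩ := hφc.exists_bound_of_continuous hφ.continuous
      rw [integral_pushD μ hB hV hV0 (hpc j).measurable (hps j),
        integral_pushD_sub μ hB (hg j) (hgfin j) hφ.continuous.measurable (C := C0)
          (fun y => by simpa only [Real.norm_eq_abs] using hC0 y)
          ((subset_tsupport _).trans hφs), heq j φ hφ hφc hφs]
      congr 1
      refine Finset.sum_congr rfl fun i _ => ?_
      obtain ⟨Ci, hCi⟩ := hpb i
      exact (integral_pushD_sub μ hB (hF i j) (hFfin i j) (hpc i).measurable hCi (hps i)).symm)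
  refine ⟨c, hw, ?_⟩
  intro φ A hφ hφs
  have h := hd φ A hφ hφs
  have hθR : ball x (θ * R) ⊆ ball x R := ball_subset_ball (by nlinarith)
  rwa [integral_pushD μ hB hV hV0 hφ.1.continuous.measurable
    ((subset_tsupport _).trans (hφs.trans hθR))] at h

end Claimed.Agent.R322.Sx
end

/- ===== packed: Claimed.Agent.R322.Sx.Scalar.Ident ===== -/
section
/-!
# R322 / Sx / Scalar / Ident   (blueprint: helper234)   (proved: helper234)

The gradient equation AE (2.10) for the scalar measure `π_# (f a⁻¹ μ)`, `f` a height multiplier (AE, proofs of Lemmas 2.5 and 2.6).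

`grad_eq`: apply `Valid.horiz_prod` to `f` and `X = ψ • e_j`, `ψ = a⁻¹ φ`.  Then
  `dvg X + a⁻¹ Da(X) = ∂_j ψ + a⁻¹ ψ ∂_j a = a⁻¹ ∂_j φ`,      `∂_i ψ = a⁻¹ ∂_i φ - a⁻² (∂_i a) φ`,
  `fderiv X y = (fderiv ψ y).smulRight e_j`,  `tr (T ∘L fderiv X y) = Σ_i ∂_i ψ (T e_j)_i`   (`tr` of `Sx/Defs.lean`),
and the identity is a rearrangement; every term is bounded, measurable, with compact base support (`Valid.integrable_of_baseCpt`).
`a⁻¹` is `C⁴` because `a ≥ 1/2` (`ContDiff.inv`).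

`Fd_abs_le`, `gd_abs_le`: `|f| ≤ 1`, `a⁻¹ ≤ 2`, `|(T u)_i| ≤ ‖T‖ ‖u‖`, `‖B‖ ≤ e` (`Valid.norm_B_le`), `‖Pvh‖ ≤ √e`, `E1_le`, `E2_le`, `E3_le`, `γ ≤ 1`,
`|∂_i a| ≤ ‖fderiv a‖ = ‖iteratedFDeriv 1 a‖ ≤ Cg γ` (`norm_iteratedFDeriv_one`, `a_deriv`).

`sqrt_mass_le`: Cauchy-Schwarz.   `grad_mass`: sum up.
-/

set_option autoImplicit false

namespace Claimed.Agent.R322.Sx

open MeasureTheory Set Metric
open scoped ENNReal NNReal InnerProductSpace ContDiff

namespace Sys

variable {m n : ℕ} (S : Sys m n)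

/-- density of the scalar measure. -/
noncomputable def Vd (f : E n → ℝ) (q : E m × E n) : ℝ := f q.2 * (S.a q.1)⁻¹

/-- density of the divergence data `F_ij`. -/
noncomputable def Fd (f : E n → ℝ) (i j : Fin m) (q : E m × E n) : ℝ :=
  f q.2 * (S.a q.1)⁻¹ * ((S.B q (bv j)) i + (S.E1 q (bv j)) i)

/-- density of the zeroth order data `g_j`. -/
noncomputable def gd (f : E n → ℝ) (j : Fin m) (q : E m × E n) : ℝ :=
  f q.2 * ((S.a q.1)⁻¹) ^ 2 * (∑ i, CZ.pd i S.a q.1 * ((S.B q (bv j)) i + (S.E1 q (bv j)) i))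
    + (S.a q.1)⁻¹ * fderiv ℝ f q.2 (S.Pvh q (bv j))
    - (S.a q.1)⁻¹ * f q.2 * (S.E2 q) j
    - (S.a q.1)⁻¹ * fderiv ℝ f q.2 (S.E3 q (bv j))

end Sys


theorem sc_abs_coord_le {k : ℕ} (v : E k) (i : Fin k) : |v i| ≤ ‖v‖ := by
  simpa using PiLp.norm_apply_le v i

theorem sc_norm_bv {k : ℕ} (i : Fin k) : ‖(bv i : E k)‖ = 1 := by
  simp [bv]

theorem sc_abs_clm_coord_le {k l : ℕ} (T : E k →L[ℝ] E l) (j : Fin k) (i : Fin l) :
    |(T (bv j)) i| ≤ ‖T‖ := by
  refine (sc_abs_coord_le _ i).trans ?_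
  have := T.le_opNorm (bv j)
  rwa [sc_norm_bv, mul_one] at this

theorem sc_measurable_clm_coord {α : Type*} [MeasurableSpace α] {k l : ℕ} {T : α → E k →L[ℝ] E l}
    (hT : Measurable T) (v : E k) (i : Fin l) : Measurable fun q => (T q v) i :=
  (EuclideanSpace.proj i : E l →L[ℝ] ℝ).continuous.measurable.comp (hT.apply_continuousLinearMap v)

theorem sc_measurable_coord {α : Type*} [MeasurableSpace α] {l : ℕ} {T : α → E l}
    (hT : Measurable T) (i : Fin l) : Measurable fun q => (T q) i :=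
  (EuclideanSpace.proj i : E l →L[ℝ] ℝ).continuous.measurable.comp hT

theorem sc_measurable_fderiv_apply {α : Type*} [MeasurableSpace α] {l : ℕ} {f : E l → ℝ}
    (hf : ContDiff ℝ 1 f) {z : α → E l} (hz : Measurable z) {v : α → E l} (hv : Measurable v) :
    Measurable fun q => fderiv ℝ f (z q) (v q) := by
  have h1 : Measurable fun q => fderiv ℝ f (z q) := (hf.continuous_fderiv one_ne_zero).measurable.comp hz
  have h2 : Continuous fun p : (E l →L[ℝ] ℝ) × E l => p.1 p.2 := isBoundedBilinearMap_apply.continuous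
  exact h2.measurable.comp (h1.prodMk hv)


namespace Sys
variable {m n : ℕ} {S : Sys m n}

theorem Valid.sc_a_inv_nonneg (h : S.Valid) (y : E m) : 0 ≤ (S.a y)⁻¹ := (inv_pos.2 (h.a_pos y)).le

theorem Valid.sc_a_inv_le (h : S.Valid) (y : E m) : (S.a y)⁻¹ ≤ 2 := by
  have := inv_anti₀ (by norm_num : (0:ℝ) < 1 / 2) (h.a_lower y)
  simpa using this

theorem Valid.sc_meas_a_inv (h : S.Valid) : Measurable fun q : E m × E n => (S.a q.1)⁻¹ :=
  (h.a_contDiff.continuous.measurable.comp measurable_fst).inv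

theorem Valid.sc_abs_pd_a_le (h : S.Valid) (i : Fin m) (y : E m) : |CZ.pd i S.a y| ≤ S.Cg := by
  have h1 : ‖fderiv ℝ S.a y‖ ≤ S.Cg * S.γ := by
    have := h.a_deriv 1 le_rfl (by norm_num) y
    rwa [norm_iteratedFDeriv_one] at this
  have h2 : |CZ.pd i S.a y| ≤ ‖fderiv ℝ S.a y‖ := by
    have := (fderiv ℝ S.a y).le_opNorm (bv i)
    rw [sc_norm_bv, mul_one] at this
    simpa [CZ.pd] using this
  have h3 : S.Cg * S.γ ≤ S.Cg := by
    have := h.γ_le_one
    have := h.one_le_Cg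
    nlinarith
  linarith

theorem Valid.sc_meas_pd_a (h : S.Valid) (i : Fin m) : Measurable fun q : E m × E n => CZ.pd i S.a q.1 := by
  have h1 : Continuous fun y => fderiv ℝ S.a y := h.a_contDiff.continuous_fderiv (by norm_num)
  have h2 : Continuous fun y => CZ.pd i S.a y := h1.clm_apply continuous_const
  exact h2.measurable.comp measurable_fst

end Sys

theorem IsTest.meas {m n : ℕ} {f : E n → ℝ} {L : ℝ} (hf : IsTest f L) :
    Measurable fun q : E m × E n => f q.2 :=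
  hf.smooth.continuous.measurable.comp measurable_snd

theorem IsTest.abs_le {n : ℕ} {f : E n → ℝ} {L : ℝ} (hf : IsTest f L) (ζ : E n) : |f ζ| ≤ 1 :=
  _root_.abs_le.2 ⟨by linarith [hf.nonneg ζ], hf.le_one ζ⟩

theorem IsTest.abs_fderiv_le {n : ℕ} {f : E n → ℝ} {L : ℝ} (hf : IsTest f L) (ζ v : E n) :
    |fderiv ℝ f ζ v| ≤ L * ‖v‖ := by
  have h1 := (fderiv ℝ f ζ).le_opNorm v
  have h2 := mul_le_mul_of_nonneg_right (hf.deriv ζ) (norm_nonneg v)
  rw [Real.norm_eq_abs] at h1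
  linarith

namespace Sys
variable {m n : ℕ} {S : Sys m n}

theorem Valid.meas_Vd (h : S.Valid) {f : E n → ℝ} {L : ℝ} (hf : IsTest f L) : Measurable (S.Vd f) :=
  (IsTest.meas hf).mul h.sc_meas_a_inv

theorem Valid.sc_meas_BE (h : S.Valid) (i j : Fin m) :
    Measurable fun q => (S.B q (bv j)) i + (S.E1 q (bv j)) i :=
  (sc_measurable_clm_coord h.meas_B _ i).add (sc_measurable_clm_coord h.meas_E1 _ i)

theorem Valid.meas_Fd (h : S.Valid) {f : E n → ℝ} {L : ℝ} (hf : IsTest f L) (i j : Fin m) :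
    Measurable (S.Fd f i j) :=
  ((IsTest.meas hf).mul h.sc_meas_a_inv).mul (h.sc_meas_BE i j)

theorem Valid.meas_gd (h : S.Valid) {f : E n → ℝ} {L : ℝ} (hf : IsTest f L) (j : Fin m) :
    Measurable (S.gd f j) := by
  unfold Sys.gd
  refine (((((IsTest.meas hf).mul (h.sc_meas_a_inv.pow_const 2)).mul
    (Finset.measurable_sum _ fun i _ => (h.sc_meas_pd_a i).mul (h.sc_meas_BE i j))).add
    (h.sc_meas_a_inv.mul (sc_measurable_fderiv_apply hf.smooth measurable_snd
      (h.meas_Pvh.apply_continuousLinearMap _)))).sub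
    ((h.sc_meas_a_inv.mul (IsTest.meas hf)).mul (sc_measurable_coord h.meas_E2 j))).sub
    (h.sc_meas_a_inv.mul (sc_measurable_fderiv_apply hf.smooth measurable_snd
      (h.meas_E3.apply_continuousLinearMap _)))

theorem Valid.Vd_nonneg (h : S.Valid) {f : E n → ℝ} {L : ℝ} (hf : IsTest f L) (q : E m × E n) :
    0 ≤ S.Vd f q :=
  mul_nonneg (hf.nonneg _) (h.sc_a_inv_nonneg _)

theorem Valid.Vd_le (h : S.Valid) {f : E n → ℝ} {L : ℝ} (hf : IsTest f L) (q : E m × E n) :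
    S.Vd f q ≤ 2 := by
  have := mul_le_mul (hf.le_one q.2) (h.sc_a_inv_le q.1) (h.sc_a_inv_nonneg _) zero_le_one
  simpa [Sys.Vd] using this

theorem Valid.sc_Cg_nonneg (h : S.Valid) : 0 ≤ S.Cg := zero_le_one.trans h.one_le_Cg

theorem Valid.sc_el_nonneg (h : S.Valid) (q : E m × E n) : 0 ≤ S.e q + S.lam q :=
  add_nonneg (h.e_nonneg q) (h.lam_nonneg q)

/-- `Cg γ X ≤ Cg X`. -/
theorem Valid.sc_Cgγ_mul_le (h : S.Valid) {X : ℝ} (hX : 0 ≤ X) : S.Cg * S.γ * X ≤ S.Cg * X := by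
  have h1 : S.Cg * S.γ ≤ S.Cg := by
    have := h.γ_le_one
    have := h.sc_Cg_nonneg
    nlinarith
  exact mul_le_mul_of_nonneg_right h1 hX

theorem Valid.sc_abs_BE_le (h : S.Valid) (i j : Fin m) (q : E m × E n) :
    |(S.B q (bv j)) i + (S.E1 q (bv j)) i| ≤ (1 + S.Cg) * (S.e q + S.lam q) := by
  have h1 := (sc_abs_clm_coord_le (S.B q) j i).trans (h.norm_B_le q)
  have h2 := (sc_abs_clm_coord_le (S.E1 q) j i).trans ((h.E1_le q).trans (h.sc_Cgγ_mul_le (h.sc_el_nonneg q)))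
  have h3 := abs_add_le ((S.B q (bv j)) i) ((S.E1 q (bv j)) i)
  have := h.lam_nonneg q
  nlinarith

theorem Valid.Fd_abs_le (h : S.Valid) {f : E n → ℝ} {L : ℝ} (hf : IsTest f L) (i j : Fin m)
    (q : E m × E n) : |S.Fd f i j q| ≤ 2 * (1 + S.Cg) * (S.e q + S.lam q) := by
  unfold Sys.Fd
  rw [abs_mul, abs_mul, abs_of_nonneg (h.sc_a_inv_nonneg q.1)]
  have h1 := IsTest.abs_le hf q.2
  have h2 := h.sc_a_inv_le q.1
  have h3 := h.sc_abs_BE_le i j q
  have h4 : |f q.2| * (S.a q.1)⁻¹ ≤ 1 * 2 := mul_le_mul h1 h2 (h.sc_a_inv_nonneg _) zero_le_one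
  calc |f q.2| * (S.a q.1)⁻¹ * |(S.B q (bv j)) i + (S.E1 q (bv j)) i|
      ≤ (1 * 2) * ((1 + S.Cg) * (S.e q + S.lam q)) :=
        mul_le_mul h4 h3 (abs_nonneg _) (by norm_num)
    _ = _ := by ring

theorem Valid.gd_abs_le (h : S.Valid) {f : E n → ℝ} {L : ℝ} (hf : IsTest f L) (j : Fin m)
    (q : E m × E n) :
    |S.gd f j q| ≤ (4 * m * S.Cg * (1 + S.Cg) + 2 * S.Cg) * (S.e q + S.lam q)
      + 2 * (1 + S.Cg) * L * (Real.sqrt (S.e q) + Real.sqrt (S.lam q)) := by
  have hL : 0 ≤ L := (norm_nonneg _).trans (hf.deriv 0)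
  have hCg := h.sc_Cg_nonneg
  have hel := h.sc_el_nonneg q
  have ha0 := h.sc_a_inv_nonneg q.1
  have ha2 := h.sc_a_inv_le q.1
  have hf1 := IsTest.abs_le hf q.2
  have hse := Real.sqrt_nonneg (S.e q)
  have hsl := Real.sqrt_nonneg (S.lam q)
  -- term 1
  have t1 : |f q.2 * ((S.a q.1)⁻¹) ^ 2 *
      (∑ i, CZ.pd i S.a q.1 * ((S.B q (bv j)) i + (S.E1 q (bv j)) i))|
      ≤ 4 * m * S.Cg * (1 + S.Cg) * (S.e q + S.lam q) := by
    have s1 : |∑ i, CZ.pd i S.a q.1 * ((S.B q (bv j)) i + (S.E1 q (bv j)) i)|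
        ≤ m * (S.Cg * ((1 + S.Cg) * (S.e q + S.lam q))) := by
      refine (Finset.abs_sum_le_sum_abs _ _).trans ?_
      calc ∑ i, |CZ.pd i S.a q.1 * ((S.B q (bv j)) i + (S.E1 q (bv j)) i)|
          ≤ ∑ _i : Fin m, S.Cg * ((1 + S.Cg) * (S.e q + S.lam q)) := by
            refine Finset.sum_le_sum fun i _ => ?_
            rw [abs_mul]
            exact mul_le_mul (h.sc_abs_pd_a_le i q.1) (h.sc_abs_BE_le i j q) (abs_nonneg _) hCg
        _ = _ := by simp
    have s2 : |f q.2 * ((S.a q.1)⁻¹) ^ 2| ≤ 4 := by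
      rw [abs_mul, abs_of_nonneg (by positivity : 0 ≤ ((S.a q.1)⁻¹) ^ 2)]
      have : ((S.a q.1)⁻¹) ^ 2 ≤ 2 ^ 2 := pow_le_pow_left₀ ha0 ha2 2
      nlinarith [abs_nonneg (f q.2)]
    rw [abs_mul]
    calc _ ≤ 4 * (m * (S.Cg * ((1 + S.Cg) * (S.e q + S.lam q)))) :=
          mul_le_mul s2 s1 (abs_nonneg _) (by norm_num)
      _ = _ := by ring
  -- term 2
  have t2 : |(S.a q.1)⁻¹ * fderiv ℝ f q.2 (S.Pvh q (bv j))| ≤ 2 * L * Real.sqrt (S.e q) := by
    rw [abs_mul, abs_of_nonneg ha0]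
    have s1 : ‖S.Pvh q (bv j)‖ ≤ Real.sqrt (S.e q) := by
      have := (S.Pvh q).le_opNorm (bv j)
      rw [sc_norm_bv, mul_one] at this
      exact this.trans (h.norm_Pvh_le q)
    have s2 := (IsTest.abs_fderiv_le hf q.2 (S.Pvh q (bv j))).trans (mul_le_mul_of_nonneg_left s1 hL)
    calc _ ≤ 2 * (L * Real.sqrt (S.e q)) := mul_le_mul ha2 s2 (abs_nonneg _) (by norm_num)
      _ = _ := by ring
  -- term 3
  have t3 : |(S.a q.1)⁻¹ * f q.2 * (S.E2 q) j| ≤ 2 * S.Cg * (S.e q + S.lam q) := by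
    rw [abs_mul, abs_mul, abs_of_nonneg ha0]
    have s1 := (sc_abs_coord_le (S.E2 q) j).trans ((h.E2_le q).trans (h.sc_Cgγ_mul_le hel))
    have s2 : (S.a q.1)⁻¹ * |f q.2| ≤ 2 * 1 := mul_le_mul ha2 hf1 (abs_nonneg _) (by norm_num)
    calc _ ≤ (2 * 1) * (S.Cg * (S.e q + S.lam q)) := mul_le_mul s2 s1 (abs_nonneg _) (by norm_num)
      _ = _ := by ring
  -- term 4
  have t4 : |(S.a q.1)⁻¹ * fderiv ℝ f q.2 (S.E3 q (bv j))|
      ≤ 2 * L * S.Cg * (Real.sqrt (S.e q) + Real.sqrt (S.lam q)) := by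
    rw [abs_mul, abs_of_nonneg ha0]
    have s1 : ‖S.E3 q (bv j)‖ ≤ S.Cg * (Real.sqrt (S.e q) + Real.sqrt (S.lam q)) := by
      have := (S.E3 q).le_opNorm (bv j)
      rw [sc_norm_bv, mul_one] at this
      exact this.trans ((h.E3_le q).trans (h.sc_Cgγ_mul_le (by positivity)))
    have s2 := (IsTest.abs_fderiv_le hf q.2 (S.E3 q (bv j))).trans (mul_le_mul_of_nonneg_left s1 hL)
    calc _ ≤ 2 * (L * (S.Cg * (Real.sqrt (S.e q) + Real.sqrt (S.lam q)))) :=
          mul_le_mul ha2 s2 (abs_nonneg _) (by norm_num)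
      _ = _ := by ring
  unfold Sys.gd
  have k1 := abs_sub (f q.2 * ((S.a q.1)⁻¹) ^ 2 *
      (∑ i, CZ.pd i S.a q.1 * ((S.B q (bv j)) i + (S.E1 q (bv j)) i))
    + (S.a q.1)⁻¹ * fderiv ℝ f q.2 (S.Pvh q (bv j))
    - (S.a q.1)⁻¹ * f q.2 * (S.E2 q) j) ((S.a q.1)⁻¹ * fderiv ℝ f q.2 (S.E3 q (bv j)))
  have k2 := abs_sub (f q.2 * ((S.a q.1)⁻¹) ^ 2 *
      (∑ i, CZ.pd i S.a q.1 * ((S.B q (bv j)) i + (S.E1 q (bv j)) i))
    + (S.a q.1)⁻¹ * fderiv ℝ f q.2 (S.Pvh q (bv j))) ((S.a q.1)⁻¹ * f q.2 * (S.E2 q) j)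
  have k3 := abs_add_le (f q.2 * ((S.a q.1)⁻¹) ^ 2 *
      (∑ i, CZ.pd i S.a q.1 * ((S.B q (bv j)) i + (S.E1 q (bv j)) i)))
    ((S.a q.1)⁻¹ * fderiv ℝ f q.2 (S.Pvh q (bv j)))
  have k4 : 0 ≤ L * Real.sqrt (S.lam q) := by positivity
  nlinarith

end Sys

namespace Sys
variable {m n : ℕ} {S : Sys m n}

theorem Valid.sc_integrable_base_mul (h : S.Valid) {u : E m → ℝ} (hu : Continuous u)
    (hc : HasCompactSupport u) (hs : tsupport u ⊆ S.Ω) {H : E m × E n → ℝ} (hH : Measurable H)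
    (C : ℝ) (hb : ∀ q, |H q| ≤ C) : Integrable (fun q => u q.1 * H q) S.μ := by
  obtain ⟨M, hM⟩ := hc.exists_bound_of_continuous hu
  refine h.integrable_of_baseCpt ((hu.measurable.comp measurable_fst).mul hH)
    ⟨tsupport u, hc, hs, fun q hq => ?_⟩ (M * C) (Filter.Eventually.of_forall fun q => ?_)
  · show u q.1 * H q = 0
    rw [image_eq_zero_of_notMem_tsupport hq, zero_mul]
  · show |u q.1 * H q| ≤ M * C
    rw [abs_mul]
    exact mul_le_mul (hM q.1) (hb q) (abs_nonneg _) ((norm_nonneg _).trans (hM q.1))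

theorem Valid.sc_el_le (h : S.Valid) (q : E m × E n) : S.e q + S.lam q ≤ m + S.Cg :=
  add_le_add (h.e_le q) (h.lam_le q)

theorem sc_tr_comp_smulRight {k : ℕ} (T : E k →L[ℝ] E k) (l : E k →L[ℝ] ℝ) (v : E k) :
    tr (T ∘L l.smulRight v) = ∑ i, l (bv i) * (T v) i := by
  unfold tr
  refine Finset.sum_congr rfl fun i _ => ?_
  simp [bv]

theorem sc_tr_smulRight_bv {k : ℕ} (l : E k →L[ℝ] ℝ) (j : Fin k) :
    tr (l.smulRight (bv j)) = l (bv j) := by
  unfold tr
  rw [Finset.sum_eq_single j]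
  · simp [bv]
  · intro i _ hij
    simp [bv, hij]
  · simp

end Sys

namespace Sys
variable {m n : ℕ} {S : Sys m n}

theorem Valid.grad_eq (h : S.Valid) {f : E n → ℝ} {L : ℝ} (hf : IsTest f L) (j : Fin m) (φ : E m → ℝ)
    (hφ : ContDiff ℝ ∞ φ) (hc : HasCompactSupport φ) (hs : tsupport φ ⊆ S.Ω) :
    ∫ q, CZ.pd j φ q.1 * S.Vd f q ∂S.μ
      = (∑ i, ∫ q, CZ.pd i φ q.1 * S.Fd f i j q ∂S.μ) - ∫ q, φ q.1 * S.gd f j q ∂S.μ := by
  have hL : 0 ≤ L := (norm_nonneg _).trans (hf.deriv 0)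
  have hCg := h.sc_Cg_nonneg
  set ψ : E m → ℝ := fun y => (S.a y)⁻¹ * φ y with hψdef
  have ha1 : ContDiff ℝ 1 S.a := h.a_contDiff.of_le (by norm_num)
  have hainv : ContDiff ℝ 1 fun y => (S.a y)⁻¹ := ha1.inv fun y => (h.a_pos y).ne'
  have hφ1 : ContDiff ℝ 1 φ := hφ.of_le (by exact_mod_cast le_top)
  have hψ : ContDiff ℝ 1 ψ := hainv.mul hφ1
  set X : E m → E m := fun y => ψ y • bv j with hXdef
  have hX : ContDiff ℝ 1 X := hψ.smul contDiff_const
  have hsuppX : Function.support X ⊆ Function.support φ := by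
    intro y hy
    simp only [Function.mem_support, hXdef, hψdef] at hy ⊢
    intro h0
    apply hy
    rw [h0, mul_zero, zero_smul]
  have hXc : HasCompactSupport X := hc.mono hsuppX
  have hXs : tsupport X ⊆ S.Ω := (closure_mono hsuppX).trans hs
  have key := h.horiz_prod f X hf.smooth hX hXc hXs
  -- derivative formulas
  have hdψ : ∀ y i, CZ.pd i ψ y
      = (S.a y)⁻¹ * CZ.pd i φ y - ((S.a y)⁻¹) ^ 2 * CZ.pd i S.a y * φ y := by
    intro y i
    have e1 : HasFDerivAt S.a (fderiv ℝ S.a y) y := (ha1.differentiable one_ne_zero y).hasFDerivAt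
    have e2 : HasFDerivAt φ (fderiv ℝ φ y) y := (hφ1.differentiable one_ne_zero y).hasFDerivAt
    have e3 := (hasDerivAt_inv (h.a_pos y).ne').comp_hasFDerivAt y e1
    have e4 := e3.mul e2
    have e5 : fderiv ℝ ψ y = _ := e4.fderiv
    unfold CZ.pd
    rw [e5]
    simp only [Function.comp, _root_.add_apply, _root_.smul_apply,
      smul_eq_mul]
    have := (h.a_pos y).ne'
    field_simp
    ring
  have hdX : ∀ y, fderiv ℝ X y = (fderiv ℝ ψ y).smulRight (bv j) := by
    intro y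
    exact ((hψ.differentiable one_ne_zero y).hasFDerivAt.smul_const (bv j)).fderiv
  have htr : ∀ (T : E m →L[ℝ] E m) y, tr (T ∘L fderiv ℝ X y) = ∑ i, CZ.pd i ψ y * (T (bv j)) i := by
    intro T y
    rw [hdX, sc_tr_comp_smulRight]
    rfl
  have hdvg : ∀ y, dvg X y = CZ.pd j ψ y := by
    intro y
    unfold dvg
    rw [hdX, sc_tr_smulRight_bv]
    rfl
  -- base factors
  have hφc : Continuous φ := hφ1.continuous
  have hpc : ∀ i, Continuous (CZ.pd i φ) := fun i =>
    (hφ1.continuous_fderiv one_ne_zero).clm_apply continuous_const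
  have hpcs : ∀ i, HasCompactSupport (CZ.pd i φ) := fun i =>
    (hc.fderiv (𝕜 := ℝ)).comp_left (g := fun l : E m →L[ℝ] ℝ => l (bv i)) (by simp)
  have hpts : ∀ i, tsupport (CZ.pd i φ) ⊆ S.Ω := fun i =>
    ((tsupport_comp_subset (g := fun l : E m →L[ℝ] ℝ => l (bv i)) (by simp) (fderiv ℝ φ)).trans
      (tsupport_fderiv_subset ℝ)).trans hs
  -- integrability of the target integrands
  have hI0 : Integrable (fun q => CZ.pd j φ q.1 * S.Vd f q) S.μ :=
    h.sc_integrable_base_mul (hpc j) (hpcs j) (hpts j) (h.meas_Vd hf) 2 fun q => by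
      rw [abs_of_nonneg (h.Vd_nonneg hf q)]; exact h.Vd_le hf q
  have hIi : ∀ i, Integrable (fun q => CZ.pd i φ q.1 * S.Fd f i j q) S.μ := fun i =>
    h.sc_integrable_base_mul (hpc i) (hpcs i) (hpts i) (h.meas_Fd hf i j)
      (2 * (1 + S.Cg) * (m + S.Cg)) fun q =>
      (h.Fd_abs_le hf i j q).trans (mul_le_mul_of_nonneg_left (h.sc_el_le q) (by positivity))
  have hIg : Integrable (fun q => φ q.1 * S.gd f j q) S.μ :=
    h.sc_integrable_base_mul hφc hc hs (h.meas_gd hf j)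
      ((4 * m * S.Cg * (1 + S.Cg) + 2 * S.Cg) * (m + S.Cg)
        + 2 * (1 + S.Cg) * L * (Real.sqrt m + Real.sqrt S.Cg)) fun q => by
      refine (h.gd_abs_le hf j q).trans (add_le_add
        (mul_le_mul_of_nonneg_left (h.sc_el_le q) (by positivity))
        (mul_le_mul_of_nonneg_left (add_le_add (Real.sqrt_le_sqrt (h.e_le q))
          (Real.sqrt_le_sqrt (h.lam_le q))) (by positivity)))
  -- integrability of the left integrand of the first variation identity
  have hB : ∀ i q, |(S.B q (bv j)) i| ≤ m := fun i q =>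
    (sc_abs_clm_coord_le (S.B q) j i).trans ((h.norm_B_le q).trans (h.e_le q))
  have hH1 : ∀ i, Integrable
      (fun q => CZ.pd i φ q.1 * (f q.2 * (S.a q.1)⁻¹ * (S.B q (bv j)) i)) S.μ := fun i =>
    h.sc_integrable_base_mul (hpc i) (hpcs i) (hpts i)
      (((IsTest.meas hf).mul h.sc_meas_a_inv).mul (sc_measurable_clm_coord h.meas_B _ i)) (1 * 2 * m)
      fun q => by
        rw [abs_mul, abs_mul, abs_of_nonneg (h.sc_a_inv_nonneg q.1)]
        exact mul_le_mul (mul_le_mul (IsTest.abs_le hf q.2) (h.sc_a_inv_le q.1) (h.sc_a_inv_nonneg _)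
          zero_le_one) (hB i q) (abs_nonneg _) (by norm_num)
  have hH2 : ∀ i, Integrable
      (fun q => φ q.1 * (f q.2 * ((S.a q.1)⁻¹) ^ 2 * CZ.pd i S.a q.1 * (S.B q (bv j)) i)) S.μ :=
    fun i => h.sc_integrable_base_mul hφc hc hs
      ((((IsTest.meas hf).mul (h.sc_meas_a_inv.pow_const 2)).mul (h.sc_meas_pd_a i)).mul
        (sc_measurable_clm_coord h.meas_B _ i)) (1 * 2 ^ 2 * S.Cg * m)
      fun q => by
        rw [abs_mul, abs_mul, abs_mul, abs_of_nonneg (by positivity : 0 ≤ ((S.a q.1)⁻¹) ^ 2)]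
        exact mul_le_mul (mul_le_mul (mul_le_mul (IsTest.abs_le hf q.2)
          (pow_le_pow_left₀ (h.sc_a_inv_nonneg _) (h.sc_a_inv_le q.1) 2) (by positivity) zero_le_one)
          (h.sc_abs_pd_a_le i q.1) (abs_nonneg _) (by norm_num)) (hB i q) (abs_nonneg _) (by positivity)
  have hH3 : Integrable
      (fun q => φ q.1 * ((S.a q.1)⁻¹ * fderiv ℝ f q.2 (S.Pvh q (bv j)))) S.μ :=
    h.sc_integrable_base_mul hφc hc hs
      (h.sc_meas_a_inv.mul (sc_measurable_fderiv_apply hf.smooth measurable_snd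
        (h.meas_Pvh.apply_continuousLinearMap _))) (2 * (L * Real.sqrt m))
      fun q => by
        rw [abs_mul, abs_of_nonneg (h.sc_a_inv_nonneg q.1)]
        have s1 : ‖S.Pvh q (bv j)‖ ≤ Real.sqrt m := by
          have := (S.Pvh q).le_opNorm (bv j)
          rw [sc_norm_bv, mul_one] at this
          exact this.trans ((h.norm_Pvh_le q).trans (Real.sqrt_le_sqrt (h.e_le q)))
        exact mul_le_mul (h.sc_a_inv_le q.1) ((IsTest.abs_fderiv_le hf q.2 _).trans
          (mul_le_mul_of_nonneg_left s1 hL)) (abs_nonneg _) (by norm_num)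
  -- pointwise forms
  have hXa : ∀ y, (S.a y)⁻¹ * fderiv ℝ S.a y (X y) = ((S.a y)⁻¹) ^ 2 * CZ.pd j S.a y * φ y := by
    intro y
    simp only [hXdef, hψdef, map_smul, smul_eq_mul, CZ.pd]
    ring
  have hG1 : ∀ q : E m × E n,
      f q.2 * (dvg X q.1 + (S.a q.1)⁻¹ * fderiv ℝ S.a q.1 (X q.1))
          - f q.2 * tr (S.B q ∘L fderiv ℝ X q.1) + fderiv ℝ f q.2 (S.Pvh q (X q.1))
        = CZ.pd j φ q.1 * S.Vd f q
          - (∑ i, (CZ.pd i φ q.1 * (f q.2 * (S.a q.1)⁻¹ * (S.B q (bv j)) i)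
              - φ q.1 * (f q.2 * ((S.a q.1)⁻¹) ^ 2 * CZ.pd i S.a q.1 * (S.B q (bv j)) i)))
          + φ q.1 * ((S.a q.1)⁻¹ * fderiv ℝ f q.2 (S.Pvh q (bv j))) := by
    intro q
    rw [hdvg, hXa, htr, hdψ, Finset.mul_sum]
    have e1 : fderiv ℝ f q.2 (S.Pvh q (X q.1))
        = φ q.1 * ((S.a q.1)⁻¹ * fderiv ℝ f q.2 (S.Pvh q (bv j))) := by
      simp only [hXdef, hψdef, map_smul, smul_eq_mul]
      ring
    rw [e1]
    have e2 : ∀ i, f q.2 * (CZ.pd i ψ q.1 * (S.B q (bv j)) i)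
        = CZ.pd i φ q.1 * (f q.2 * (S.a q.1)⁻¹ * (S.B q (bv j)) i)
              - φ q.1 * (f q.2 * ((S.a q.1)⁻¹) ^ 2 * CZ.pd i S.a q.1 * (S.B q (bv j)) i) := by
      intro i
      rw [hdψ]
      ring
    rw [Finset.sum_congr rfl fun i _ => e2 i]
    unfold Sys.Vd
    ring
  have hG1int : Integrable (fun q : E m × E n =>
      f q.2 * (dvg X q.1 + (S.a q.1)⁻¹ * fderiv ℝ S.a q.1 (X q.1))
          - f q.2 * tr (S.B q ∘L fderiv ℝ X q.1) + fderiv ℝ f q.2 (S.Pvh q (X q.1))) S.μ := by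
    simp_rw [hG1]
    exact (hI0.sub (integrable_finset_sum _ fun i _ => (hH1 i).sub (hH2 i))).add hH3
  have hdiff : ∀ q : E m × E n,
      f q.2 * tr (S.E1 q ∘L fderiv ℝ X q.1) + f q.2 * ⟪S.E2 q, X q.1⟫_ℝ
          + fderiv ℝ f q.2 (S.E3 q (X q.1))
        = (f q.2 * (dvg X q.1 + (S.a q.1)⁻¹ * fderiv ℝ S.a q.1 (X q.1))
          - f q.2 * tr (S.B q ∘L fderiv ℝ X q.1) + fderiv ℝ f q.2 (S.Pvh q (X q.1)))
          - (CZ.pd j φ q.1 * S.Vd f q - (∑ i, CZ.pd i φ q.1 * S.Fd f i j q)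
              + φ q.1 * S.gd f j q) := by
    intro q
    rw [hG1, htr, Finset.mul_sum]
    have e1 : fderiv ℝ f q.2 (S.E3 q (X q.1))
        = φ q.1 * ((S.a q.1)⁻¹ * fderiv ℝ f q.2 (S.E3 q (bv j))) := by
      simp only [hXdef, hψdef, map_smul, smul_eq_mul]
      ring
    have e2 : ⟪S.E2 q, X q.1⟫_ℝ = (S.a q.1)⁻¹ * φ q.1 * (S.E2 q) j := by
      simp only [hXdef, hψdef, inner_smul_right, bv]
      congr 1
      simp [EuclideanSpace.inner_single_right]
    rw [e1, e2]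
    unfold Sys.gd Sys.Fd
    have e3 : ∑ i, f q.2 * (CZ.pd i ψ q.1 * (S.E1 q (bv j)) i)
        = (∑ i, CZ.pd i φ q.1 * (f q.2 * (S.a q.1)⁻¹ * ((S.B q (bv j)) i + (S.E1 q (bv j)) i)))
          - (∑ i, (CZ.pd i φ q.1 * (f q.2 * (S.a q.1)⁻¹ * (S.B q (bv j)) i)
              - φ q.1 * (f q.2 * ((S.a q.1)⁻¹) ^ 2 * CZ.pd i S.a q.1 * (S.B q (bv j)) i)))
          - φ q.1 * (f q.2 * ((S.a q.1)⁻¹) ^ 2) *
            (∑ i, CZ.pd i S.a q.1 * ((S.B q (bv j)) i + (S.E1 q (bv j)) i)) := by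
      rw [Finset.mul_sum, ← Finset.sum_sub_distrib, ← Finset.sum_sub_distrib]
      refine Finset.sum_congr rfl fun i _ => ?_
      rw [hdψ]
      ring
    linear_combination e3
  have hG2int : Integrable (fun q : E m × E n =>
      f q.2 * tr (S.E1 q ∘L fderiv ℝ X q.1) + f q.2 * ⟪S.E2 q, X q.1⟫_ℝ
          + fderiv ℝ f q.2 (S.E3 q (X q.1))) S.μ := by
    simp_rw [hdiff]
    exact hG1int.sub ((hI0.sub (integrable_finset_sum _ fun i _ => hIi i)).add hIg)
  have hfin : ∫ q, (CZ.pd j φ q.1 * S.Vd f q - (∑ i, CZ.pd i φ q.1 * S.Fd f i j q)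
              + φ q.1 * S.gd f j q) ∂S.μ = 0 := by
    have e1 : ∀ q : E m × E n, CZ.pd j φ q.1 * S.Vd f q - (∑ i, CZ.pd i φ q.1 * S.Fd f i j q)
              + φ q.1 * S.gd f j q
        = (f q.2 * (dvg X q.1 + (S.a q.1)⁻¹ * fderiv ℝ S.a q.1 (X q.1))
          - f q.2 * tr (S.B q ∘L fderiv ℝ X q.1) + fderiv ℝ f q.2 (S.Pvh q (X q.1)))
          - (f q.2 * tr (S.E1 q ∘L fderiv ℝ X q.1) + f q.2 * ⟪S.E2 q, X q.1⟫_ℝ
          + fderiv ℝ f q.2 (S.E3 q (X q.1))) := by
      intro q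
      rw [hdiff q]
      ring
    simp_rw [e1]
    rw [integral_sub hG1int hG2int, key, sub_self]
  have hsumI : Integrable (fun q => ∑ i, CZ.pd i φ q.1 * S.Fd f i j q) S.μ :=
    integrable_finset_sum _ fun i _ => hIi i
  have e5 := integral_add (hI0.sub hsumI) hIg
  have e6 := integral_sub hI0 hsumI
  have e7 := integral_finset_sum (μ := S.μ) Finset.univ (fun i _ => hIi i)
  simp only [Pi.sub_apply] at e5
  rw [e5, e6, e7] at hfin
  linarith

end Sys

namespace Sys
variable {m n : ℕ} {S : Sys m n}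

theorem sc_fst_preimage_eq (W : Set (E m)) : (Prod.fst ⁻¹' W : Set (E m × E n)) = W ×ˢ univ := by
  ext q; simp

theorem sc_Dm_apply (S : Sys m n) {W : Set (E m)} (hW : MeasurableSet W) :
    S.Dm W = ∫⁻ q in W ×ˢ (univ : Set (E n)), ENNReal.ofReal (S.e q) ∂S.μ := by
  unfold Sys.Dm
  rw [Measure.map_apply measurable_fst hW, sc_fst_preimage_eq,
    withDensity_apply _ (hW.prod MeasurableSet.univ)]

theorem sc_Lm_apply (S : Sys m n) {W : Set (E m)} (hW : MeasurableSet W) :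
    S.Lm W = ∫⁻ q in W ×ˢ (univ : Set (E n)), ENNReal.ofReal (S.lam q) ∂S.μ := by
  unfold Sys.Lm
  rw [Measure.map_apply measurable_fst hW, sc_fst_preimage_eq,
    withDensity_apply _ (hW.prod MeasurableSet.univ)]

theorem Valid.lintegral_e_add_lam (h : S.Valid) {W : Set (E m)} (hW : MeasurableSet W) :
    ∫⁻ q in W ×ˢ (univ : Set (E n)), ENNReal.ofReal (S.e q + S.lam q) ∂S.μ = (S.Dm + S.Lm) W := by
  rw [Measure.add_apply, sc_Dm_apply S hW, sc_Lm_apply S hW,
    ← lintegral_add_left (h.meas_e.ennreal_ofReal)]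
  refine lintegral_congr fun q => ?_
  exact ENNReal.ofReal_add (h.e_nonneg q) (h.lam_nonneg q)

theorem Valid.DL_le_nu (h : S.Valid) {W : Set (E m)} (hW : MeasurableSet W) :
    (S.Dm + S.Lm) W ≤ ENNReal.ofReal (m + S.Cg) * S.nu W := by
  rw [← h.lintegral_e_add_lam hW, nu_apply S hW]
  calc ∫⁻ q in W ×ˢ (univ : Set (E n)), ENNReal.ofReal (S.e q + S.lam q) ∂S.μ
      ≤ ∫⁻ _q in W ×ˢ (univ : Set (E n)), ENNReal.ofReal (m + S.Cg) ∂S.μ :=
        lintegral_mono fun q => ENNReal.ofReal_le_ofReal (add_le_add (h.e_le q) (h.lam_le q))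
    _ = _ := by rw [lintegral_const, Measure.restrict_apply MeasurableSet.univ, univ_inter]

theorem Valid.sqrt_mass_le (h : S.Valid) {W : Set (E m)} (hW : MeasurableSet W) (hfin : S.nu W < ⊤) :
    ∫⁻ q in W ×ˢ (univ : Set (E n)), ENNReal.ofReal (Real.sqrt (S.e q) + Real.sqrt (S.lam q)) ∂S.μ
      ≤ ENNReal.ofReal (Real.sqrt (2 * (S.nu W).toReal * ((S.Dm + S.Lm) W).toReal)) := by
  have hDLfin : (S.Dm + S.Lm) W < ⊤ :=
    (h.DL_le_nu hW).trans_lt (ENNReal.mul_lt_top ENNReal.ofReal_lt_top hfin)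
  set μW := S.μ.restrict (W ×ˢ (univ : Set (E n))) with hμW
  have hpt : ∀ q, ENNReal.ofReal (Real.sqrt (S.e q) + Real.sqrt (S.lam q))
      ≤ (ENNReal.ofReal (2 * (S.e q + S.lam q))) ^ (1 / 2 : ℝ) * 1 := by
    intro q
    rw [mul_one, ENNReal.ofReal_rpow_of_nonneg (by have := h.e_nonneg q; have := h.lam_nonneg q; positivity)
      (by norm_num), ← Real.sqrt_eq_rpow]
    apply ENNReal.ofReal_le_ofReal
    apply Real.le_sqrt_of_sq_le
    have h1 := Real.sq_sqrt (h.e_nonneg q)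
    have h2 := Real.sq_sqrt (h.lam_nonneg q)
    nlinarith [sq_nonneg (Real.sqrt (S.e q) - Real.sqrt (S.lam q))]
  have hmeas : AEMeasurable (fun q => (ENNReal.ofReal (2 * (S.e q + S.lam q))) ^ (1 / 2 : ℝ)) μW :=
    (((h.meas_e.add h.meas_lam).const_mul 2).ennreal_ofReal.pow_const _).aemeasurable
  have hCS := ENNReal.lintegral_mul_le_Lp_mul_Lq μW Real.HolderConjugate.two_two hmeas
    (aemeasurable_const (b := (1 : ℝ≥0∞)))
  have e1 : ∫⁻ q, ((ENNReal.ofReal (2 * (S.e q + S.lam q))) ^ (1 / 2 : ℝ)) ^ (2 : ℝ) ∂μW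
      = 2 * (S.Dm + S.Lm) W := by
    rw [← h.lintegral_e_add_lam hW, ← lintegral_const_mul' _ _ (by norm_num)]
    refine lintegral_congr fun q => ?_
    rw [← ENNReal.rpow_mul]
    norm_num
  have e2 : ∫⁻ _q, (1 : ℝ≥0∞) ^ (2 : ℝ) ∂μW = S.nu W := by
    simp only [ENNReal.one_rpow, lintegral_const, one_mul]
    rw [hμW, Measure.restrict_apply MeasurableSet.univ, univ_inter, nu_apply S hW]
  rw [e1, e2] at hCS
  calc _ ≤ _ := (lintegral_mono hpt).trans hCS
    _ = _ := by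
        rw [Real.sqrt_eq_rpow, ← ENNReal.ofReal_rpow_of_nonneg (by positivity) (by norm_num),
          ← ENNReal.mul_rpow_of_nonneg _ _ (by norm_num)]
        congr 1
        rw [ENNReal.ofReal_mul (by positivity), ENNReal.ofReal_mul (by norm_num),
          ENNReal.ofReal_toReal hfin.ne, ENNReal.ofReal_toReal hDLfin.ne]
        simp only [ENNReal.ofReal_ofNat]
        ring

end Sys

/-- the size of the data in the oscillation estimate AE (2.17) on `B_R(x)` (in mass units):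
`(D+Λ)(B) + R L √(ν(B) (D+Λ)(B))`. -/
noncomputable def Sys.oscE {m n : ℕ} (S : Sys m n) (x : E m) (R L : ℝ) : ℝ :=
  ((S.Dm + S.Lm) (ball x R)).toReal
    + R * L * Real.sqrt ((S.nu (ball x R)).toReal * ((S.Dm + S.Lm) (ball x R)).toReal)

/-- total mass of the data of the gradient equation on `B_R(x)`. -/
theorem grad_mass (m n : ℕ) (Cg Rmax : ℝ) :
    ∃ C : ℝ, 0 < C ∧ ∀ S : Sys m n, S.Valid → S.Cg ≤ Cg → ∀ (x : E m) (R : ℝ), 0 < R → R ≤ Rmax →
      S.nu (ball x R) < ⊤ → ∀ (f : E n → ℝ) (L : ℝ), IsTest f L →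
      (∑ i, ∑ j, ∫⁻ q in ball x R ×ˢ (univ : Set (E n)), ENNReal.ofReal |S.Fd f i j q| ∂S.μ)
        + ENNReal.ofReal R *
          ∑ j, ∫⁻ q in ball x R ×ˢ (univ : Set (E n)), ENNReal.ofReal |S.gd f j q| ∂S.μ
          ≤ ENNReal.ofReal (C * S.oscE x R L) := by
  set G := |Cg| with hG
  have hG0 : 0 ≤ G := abs_nonneg _
  refine ⟨2 * m * m * (1 + G) + |Rmax| * m * (4 * m * G * (1 + G) + 2 * G) + 4 * m * (1 + G) + 1,
    by positivity, ?_⟩
  intro S h hCg x R hR hRm hfin f L hf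
  have hL : 0 ≤ L := (norm_nonneg _).trans (hf.deriv 0)
  have hC0 : 0 ≤ S.Cg := zero_le_one.trans h.one_le_Cg
  have hCG : S.Cg ≤ G := hCg.trans (le_abs_self _)
  have hW : MeasurableSet (ball x R) := measurableSet_ball
  have hDLfin : (S.Dm + S.Lm) (ball x R) < ⊤ :=
    (h.DL_le_nu hW).trans_lt (ENNReal.mul_lt_top ENNReal.ofReal_lt_top hfin)
  set DL := ((S.Dm + S.Lm) (ball x R)).toReal with hDL
  set N := (S.nu (ball x R)).toReal with hN
  have hDL0 : 0 ≤ DL := ENNReal.toReal_nonneg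
  have hN0 : 0 ≤ N := ENNReal.toReal_nonneg
  have hel : ∀ c : ℝ, 0 ≤ c →
      ∫⁻ q in ball x R ×ˢ (univ : Set (E n)), ENNReal.ofReal (c * (S.e q + S.lam q)) ∂S.μ
        = ENNReal.ofReal (c * DL) := by
    intro c hc
    rw [ENNReal.ofReal_mul hc, hDL, ENNReal.ofReal_toReal hDLfin.ne, ← h.lintegral_e_add_lam hW,
      ← lintegral_const_mul' _ _ ENNReal.ofReal_ne_top]
    exact lintegral_congr fun q => ENNReal.ofReal_mul hc
  have hA : ∀ i j, ∫⁻ q in ball x R ×ˢ (univ : Set (E n)), ENNReal.ofReal |S.Fd f i j q| ∂S.μ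
      ≤ ENNReal.ofReal (2 * (1 + S.Cg) * DL) := by
    intro i j
    rw [← hel _ (by positivity)]
    exact lintegral_mono fun q => ENNReal.ofReal_le_ofReal (h.Fd_abs_le hf i j q)
  have hB : ∀ j, ∫⁻ q in ball x R ×ˢ (univ : Set (E n)), ENNReal.ofReal |S.gd f j q| ∂S.μ
      ≤ ENNReal.ofReal ((4 * m * S.Cg * (1 + S.Cg) + 2 * S.Cg) * DL
        + 2 * (1 + S.Cg) * L * Real.sqrt (2 * N * DL)) := by
    intro j
    have hm1 : Measurable fun q => ENNReal.ofReal ((4 * m * S.Cg * (1 + S.Cg) + 2 * S.Cg) * (S.e q + S.lam q)) :=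
      ((h.meas_e.add h.meas_lam).const_mul _).ennreal_ofReal
    calc _ ≤ ∫⁻ q in ball x R ×ˢ (univ : Set (E n)),
          (ENNReal.ofReal ((4 * m * S.Cg * (1 + S.Cg) + 2 * S.Cg) * (S.e q + S.lam q))
          + ENNReal.ofReal (2 * (1 + S.Cg) * L) *
            ENNReal.ofReal (Real.sqrt (S.e q) + Real.sqrt (S.lam q))) ∂S.μ := by
          refine lintegral_mono fun q => ?_
          rw [← ENNReal.ofReal_mul (by positivity), ← ENNReal.ofReal_add
            (mul_nonneg (by positivity) (add_nonneg (h.e_nonneg q) (h.lam_nonneg q))) (by positivity)]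
          exact ENNReal.ofReal_le_ofReal (h.gd_abs_le hf j q)
      _ = ENNReal.ofReal ((4 * m * S.Cg * (1 + S.Cg) + 2 * S.Cg) * DL)
          + ENNReal.ofReal (2 * (1 + S.Cg) * L) * ∫⁻ q in ball x R ×ˢ (univ : Set (E n)),
            ENNReal.ofReal (Real.sqrt (S.e q) + Real.sqrt (S.lam q)) ∂S.μ := by
          rw [lintegral_add_left hm1, hel _ (by positivity),
            lintegral_const_mul' _ _ ENNReal.ofReal_ne_top]
      _ ≤ ENNReal.ofReal ((4 * m * S.Cg * (1 + S.Cg) + 2 * S.Cg) * DL)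
          + ENNReal.ofReal (2 * (1 + S.Cg) * L) * ENNReal.ofReal (Real.sqrt (2 * N * DL)) := by
          gcongr
          exact h.sqrt_mass_le hW hfin
      _ = _ := by
          rw [← ENNReal.ofReal_mul (by positivity), ← ENNReal.ofReal_add (by positivity) (by positivity)]
  calc _ ≤ (∑ _i : Fin m, ∑ _j : Fin m, ENNReal.ofReal (2 * (1 + S.Cg) * DL))
        + ENNReal.ofReal R * ∑ _j : Fin m, ENNReal.ofReal ((4 * m * S.Cg * (1 + S.Cg) + 2 * S.Cg) * DL
        + 2 * (1 + S.Cg) * L * Real.sqrt (2 * N * DL)) := by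
        gcongr with i _ j _ j _
        · exact hA i j
        · exact hB j
    _ = ENNReal.ofReal (m * (m * (2 * (1 + S.Cg) * DL)) + R * (m * ((4 * m * S.Cg * (1 + S.Cg) + 2 * S.Cg) * DL
        + 2 * (1 + S.Cg) * L * Real.sqrt (2 * N * DL)))) := by
        simp only [Finset.sum_const, Finset.card_univ, Fintype.card_fin, nsmul_eq_mul]
        have gen : ∀ a1 a2 : ℝ, 0 ≤ a1 → 0 ≤ a2 →
            (m : ℝ≥0∞) * ((m : ℝ≥0∞) * ENNReal.ofReal a1)
              + ENNReal.ofReal R * ((m : ℝ≥0∞) * ENNReal.ofReal a2)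
            = ENNReal.ofReal (m * (m * a1) + R * (m * a2)) := by
          intro a1 a2 h1 h2
          have hm0 : (0 : ℝ) ≤ m := Nat.cast_nonneg m
          rw [ENNReal.ofReal_add (by positivity) (by positivity), ENNReal.ofReal_mul hm0,
            ENNReal.ofReal_mul hm0, ENNReal.ofReal_mul hR.le, ENNReal.ofReal_mul hm0,
            ENNReal.ofReal_natCast]
        exact gen _ _ (by positivity) (by positivity)
    _ ≤ _ := by
        apply ENNReal.ofReal_le_ofReal
        unfold Sys.oscE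
        rw [← hDL, ← hN]
        have hs : Real.sqrt (2 * N * DL) ≤ 2 * Real.sqrt (N * DL) := by
          rw [mul_assoc, Real.sqrt_mul (by norm_num)]
          have : Real.sqrt 2 ≤ 2 := by
            rw [Real.sqrt_le_left (by norm_num)]; norm_num
          exact mul_le_mul_of_nonneg_right this (Real.sqrt_nonneg _)
        set sq := Real.sqrt (N * DL) with hsq
        have hsq0 : 0 ≤ sq := Real.sqrt_nonneg _
        have hRR : R ≤ |Rmax| := hRm.trans (le_abs_self _)
        have hm0 : (0 : ℝ) ≤ m := Nat.cast_nonneg m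
        -- three pieces
        have p1 : m * (m * (2 * (1 + S.Cg) * DL)) ≤ 2 * m * m * (1 + G) * DL := by
          have : (1 + S.Cg) * DL ≤ (1 + G) * DL := mul_le_mul_of_nonneg_right (by linarith) hDL0
          have := mul_le_mul_of_nonneg_left this (by positivity : 0 ≤ 2 * (m : ℝ) * m)
          nlinarith
        have p2 : R * (m * ((4 * m * S.Cg * (1 + S.Cg) + 2 * S.Cg) * DL))
            ≤ |Rmax| * m * (4 * m * G * (1 + G) + 2 * G) * DL := by
          have a1 : S.Cg * (1 + S.Cg) ≤ G * (1 + G) := mul_le_mul hCG (by linarith) (by positivity) hG0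
          have a2 : 4 * m * S.Cg * (1 + S.Cg) + 2 * S.Cg ≤ 4 * m * G * (1 + G) + 2 * G := by
            have := mul_le_mul_of_nonneg_left a1 (by positivity : 0 ≤ 4 * (m : ℝ))
            nlinarith
          have a3 : R * (4 * m * S.Cg * (1 + S.Cg) + 2 * S.Cg) ≤ |Rmax| * (4 * m * G * (1 + G) + 2 * G) :=
            mul_le_mul hRR a2 (by positivity) (abs_nonneg _)
          have := mul_le_mul_of_nonneg_right a3 (by positivity : 0 ≤ (m : ℝ) * DL)
          nlinarith
        have p3 : R * (m * (2 * (1 + S.Cg) * L * Real.sqrt (2 * N * DL)))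
            ≤ 4 * m * (1 + G) * (R * L * sq) := by
          have a1 : (1 + S.Cg) * Real.sqrt (2 * N * DL) ≤ (1 + G) * (2 * sq) :=
            mul_le_mul (by linarith) hs (Real.sqrt_nonneg _) (by positivity)
          have := mul_le_mul_of_nonneg_left a1 (by positivity : 0 ≤ 2 * R * (m : ℝ) * L)
          nlinarith
        have q1 : 0 ≤ R * L * sq := by positivity
        have q2 : 0 ≤ 2 * (m : ℝ) * m * (1 + G) := by positivity
        have q3 : 0 ≤ |Rmax| * m * (4 * m * G * (1 + G) + 2 * G) := by positivity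
        have q4 : 0 ≤ 4 * (m : ℝ) * (1 + G) := by positivity
        nlinarith [mul_nonneg q2 q1, mul_nonneg q3 q1, mul_nonneg q4 hDL0]

end Claimed.Agent.R322.Sx
end

/- ===== packed: Claimed.Agent.R322.Sx.Scalar.Count ===== -/
section
/-!
# R322 / Sx / Scalar / Count   (blueprint: helper234)   LEAVES `L-Sc-AcCompare`, `L-Sc-Count`

Comparison of the absolutely continuous part of a pushed-forward mass with the fibre sums (AE Lemma 2.3 used as in the proofs of 2.5, 2.6).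

`ac_compare` (abstract): `v + σ₁ = g dy + σ₂`  ⟹  `v_ac + σ₁_ac = g + σ₂_ac` a.e. (`Measure.rnDeriv_add`, `Measure.rnDeriv_withDensity₀`),
`∫ σ_ac ≤ σ(univ)` (`Measure.lintegral_rnDeriv_le`), Chebyshev (`meas_ge_le_lintegral_div`).
`ac_lower`: same decomposition, one-sided: `g ≤ v_ac + σ₁_ac`.

`fibSum_eq_Nf`: `S.fibSum (fun q => ofReal (f q.2)) y = ofReal (S.Nf f y)` for `f ≥ 0` (induction on the multiset).
`push_decomp`: for measurable `W ⊆ Ω` and measurable `0 ≤ k` on `E m × E n`: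
  `pushD μ W k + pushD μ W (k (Jπ - 1)) = (vol⌞W).withDensity (fibSum (ofReal ∘ k) · ofReal a) + pushD μ W (k (1 - Jπ))`
  (evaluate on a measurable set `U`: `pushD_apply`; `1 + (J-1)⁺ = J + (1-J)⁺`; axiom `count` for `g = 1_{(W ∩ U) × E n} · ofReal ∘ k`).
`push_count`: `k = f a⁻¹`, so `fibSum(..) · a = N_f`; masses of the two error measures: `∫_W f a⁻¹ |Jπ - 1| dμ ≤ 2 Cg (D+Λ)(W)` (`Jpi_close`).
`N_meas`, `N_lintegral_le`, `Nsub_lintegral_le`: `k = 1`.
-/

set_option autoImplicit false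

namespace Claimed.Agent.R322.Sx

open MeasureTheory Set Metric
open scoped ENNReal NNReal InnerProductSpace

/-- the a.e. identity of the densities. -/
theorem ac_eq {m : ℕ} (v σ₁ σ₂ : Measure (E m)) [IsFiniteMeasure v] [IsFiniteMeasure σ₁]
    [IsFiniteMeasure σ₂] (g : E m → ℝ≥0∞) (hg : AEMeasurable g volume)
    (h : v + σ₁ = volume.withDensity g + σ₂) :
    ∀ᵐ y ∂(volume : Measure (E m)),
      v.rnDeriv volume y + σ₁.rnDeriv volume y = g y + σ₂.rnDeriv volume y := by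
  have hfin : IsFiniteMeasure ((volume : Measure (E m)).withDensity g) := by
    refine ⟨lt_of_le_of_lt ?_ (measure_lt_top (v + σ₁) univ)⟩
    rw [h]
    exact le_self_add
  have h1 := Measure.rnDeriv_add' v σ₁ (volume : Measure (E m))
  have h2 := Measure.rnDeriv_add' ((volume : Measure (E m)).withDensity g) σ₂
    (volume : Measure (E m))
  have h3 := Measure.rnDeriv_withDensity₀ (volume : Measure (E m)) hg
  rw [h] at h1
  filter_upwards [h1, h2, h3] with y hy1 hy2 hy3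
  rw [Pi.add_apply] at hy1 hy2
  rw [← hy1, hy2, hy3]

/-- abstract comparison of densities. -/
theorem ac_compare {m : ℕ} (v σ₁ σ₂ : Measure (E m)) [IsFiniteMeasure v] [IsFiniteMeasure σ₁]
    [IsFiniteMeasure σ₂] (g : E m → ℝ≥0∞) (hg : AEMeasurable g volume)
    (h : v + σ₁ = volume.withDensity g + σ₂) (t : ℝ) (ht : 0 < t) :
    volume {y : E m | t < |(v.rnDeriv volume y).toReal - (g y).toReal|}
      ≤ (σ₁ univ + σ₂ univ) / ENNReal.ofReal t := by
  have ht0 : ENNReal.ofReal t ≠ 0 := by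
    rw [Ne, ENNReal.ofReal_eq_zero, not_le]; exact ht
  have hsub : ∀ᵐ y ∂(volume : Measure (E m)),
      y ∈ {y : E m | t < |(v.rnDeriv volume y).toReal - (g y).toReal|} →
      y ∈ {y : E m | ENNReal.ofReal t ≤ σ₁.rnDeriv volume y + σ₂.rnDeriv volume y} := by
    filter_upwards [ac_eq v σ₁ σ₂ g hg h, Measure.rnDeriv_lt_top v (volume : Measure (E m)),
      Measure.rnDeriv_lt_top σ₁ (volume : Measure (E m)),
      Measure.rnDeriv_lt_top σ₂ (volume : Measure (E m))] with y hy hv h1 h2 hmem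
    have hgt : g y < ⊤ := by
      refine lt_of_le_of_lt le_self_add (?_ : g y + σ₂.rnDeriv volume y < ⊤)
      rw [← hy]
      exact ENNReal.add_lt_top.2 ⟨hv, h1⟩
    have hr := congrArg ENNReal.toReal hy
    rw [ENNReal.toReal_add hv.ne h1.ne, ENNReal.toReal_add hgt.ne h2.ne] at hr
    change t < |(v.rnDeriv volume y).toReal - (g y).toReal| at hmem
    change ENNReal.ofReal t ≤ σ₁.rnDeriv volume y + σ₂.rnDeriv volume y
    rw [← ENNReal.ofReal_toReal (ENNReal.add_lt_top.2 ⟨h1, h2⟩).ne,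
      ENNReal.toReal_add h1.ne h2.ne]
    apply ENNReal.ofReal_le_ofReal
    have e : (v.rnDeriv volume y).toReal - (g y).toReal
        = (σ₂.rnDeriv volume y).toReal - (σ₁.rnDeriv volume y).toReal := by linarith
    rw [e] at hmem
    have a1 : 0 ≤ (σ₁.rnDeriv volume y).toReal := ENNReal.toReal_nonneg
    have a2 : 0 ≤ (σ₂.rnDeriv volume y).toReal := ENNReal.toReal_nonneg
    have : |(σ₂.rnDeriv volume y).toReal - (σ₁.rnDeriv volume y).toReal|
        ≤ (σ₁.rnDeriv volume y).toReal + (σ₂.rnDeriv volume y).toReal := by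
      rw [abs_le]; constructor <;> linarith
    linarith
  refine (measure_mono_ae hsub).trans ?_
  refine (meas_ge_le_lintegral_div ((Measure.measurable_rnDeriv _ _).add
    (Measure.measurable_rnDeriv _ _)).aemeasurable ht0 ENNReal.ofReal_ne_top).trans ?_
  gcongr
  simp only [Pi.add_apply]
  rw [lintegral_add_left (Measure.measurable_rnDeriv _ _)]
  exact add_le_add Measure.lintegral_rnDeriv_le Measure.lintegral_rnDeriv_le

/-- one-sided form. -/
theorem ac_lower {m : ℕ} (v σ₁ σ₂ : Measure (E m)) [IsFiniteMeasure v] [IsFiniteMeasure σ₁]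
    [IsFiniteMeasure σ₂] (g : E m → ℝ≥0∞) (hg : AEMeasurable g volume)
    (h : v + σ₁ = volume.withDensity g + σ₂) :
    ∀ᵐ y ∂(volume : Measure (E m)), g y ≤ v.rnDeriv volume y + σ₁.rnDeriv volume y := by
  filter_upwards [ac_eq v σ₁ σ₂ g hg h] with y hy
  rw [hy]
  exact le_self_add

namespace Sys

variable {m n : ℕ} {S : Sys m n}

theorem Nf_nonneg (S : Sys m n) {f : E n → ℝ} (hf : ∀ ζ, 0 ≤ f ζ) (y : E m) : 0 ≤ S.Nf f y := by
  unfold Sys.Nf
  refine Multiset.sum_nonneg ?_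
  intro a ha
  obtain ⟨ζ, -, rfl⟩ := Multiset.mem_map.1 ha
  exact hf ζ

theorem sum_map_ofReal {α : Type*} (s : Multiset α) {f : α → ℝ} (hf : ∀ ζ, 0 ≤ f ζ) :
    (s.map fun ζ => ENNReal.ofReal (f ζ)).sum = ENNReal.ofReal (s.map f).sum := by
  induction s using Multiset.induction_on with
  | empty => simp
  | cons a s ih =>
    rw [Multiset.map_cons, Multiset.sum_cons, Multiset.map_cons, Multiset.sum_cons, ih,
      ENNReal.ofReal_add (hf a)]
    refine Multiset.sum_nonneg ?_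
    intro b hb
    obtain ⟨ζ, -, rfl⟩ := Multiset.mem_map.1 hb
    exact hf ζ

theorem fibSum_eq_Nf (S : Sys m n) {f : E n → ℝ} (hf : ∀ ζ, 0 ≤ f ζ) (y : E m) :
    S.fibSum (fun q => ENNReal.ofReal (f q.2)) y = ENNReal.ofReal (S.Nf f y) :=
  sum_map_ofReal (S.fib y) hf

theorem Nf_one (S : Sys m n) (y : E m) : S.Nf (fun _ => 1) y = S.N y := by
  unfold Sys.Nf Sys.N
  simp

theorem Nf_le_N (S : Sys m n) {f : E n → ℝ} (hf : ∀ ζ, f ζ ≤ 1) (y : E m) : S.Nf f y ≤ S.N y := by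
  rw [← Nf_one]
  unfold Sys.Nf
  exact Multiset.sum_map_le_sum_map _ _ fun ζ _ => hf ζ

/-- fibre sums of a function cut off in the base. -/
theorem fibSum_indicator (S : Sys m n) (A : Set (E m)) (g : E m × E n → ℝ≥0∞) (y : E m) :
    S.fibSum ((A ×ˢ (univ : Set (E n))).indicator g) y = A.indicator (S.fibSum g) y := by
  unfold Sys.fibSum
  by_cases hy : y ∈ A
  · rw [indicator_of_mem hy]
    congr 1
    refine Multiset.map_congr rfl fun ζ _ => ?_
    rw [indicator_of_mem]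
    exact ⟨hy, mem_univ _⟩
  · rw [indicator_of_notMem hy]
    have : (fun ζ => (A ×ˢ (univ : Set (E n))).indicator g (y, ζ)) = fun _ => 0 := by
      funext ζ
      rw [indicator_of_notMem]
      exact fun h => hy h.1
    rw [this]
    simp

/-- the axiom `count` over a measurable subset of the base. -/
theorem Valid.count_set (h : S.Valid) {A : Set (E m)} (hA : MeasurableSet A) (hAΩ : A ⊆ S.Ω)
    {g : E m × E n → ℝ≥0∞} (hg : Measurable g) :
    ∫⁻ q in A ×ˢ (univ : Set (E n)), g q * ENNReal.ofReal (S.Jpi q) ∂S.μ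
      = ∫⁻ y in A, S.fibSum g y * ENNReal.ofReal (S.a y) := by
  have hAu : MeasurableSet (A ×ˢ (univ : Set (E n))) := hA.prod MeasurableSet.univ
  have h1 := h.count ((A ×ˢ (univ : Set (E n))).indicator g) (hg.indicator hAu)
  have e1 : (fun q => (A ×ˢ (univ : Set (E n))).indicator g q * ENNReal.ofReal (S.Jpi q))
      = (A ×ˢ (univ : Set (E n))).indicator fun q => g q * ENNReal.ofReal (S.Jpi q) := by
    funext q
    by_cases hq : q ∈ A ×ˢ (univ : Set (E n))
    · simp only [indicator_of_mem hq]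
    · simp only [indicator_of_notMem hq, zero_mul]
  have e2 : (fun y => S.fibSum ((A ×ˢ (univ : Set (E n))).indicator g) y * ENNReal.ofReal (S.a y))
      = A.indicator fun y => S.fibSum g y * ENNReal.ofReal (S.a y) := by
    funext y
    rw [fibSum_indicator]
    by_cases hy : y ∈ A
    · simp only [indicator_of_mem hy]
    · simp only [indicator_of_notMem hy, zero_mul]
  rw [e1, e2, lintegral_indicator hAu, lintegral_indicator hA, Measure.restrict_restrict hA,
    inter_eq_self_of_subset_left hAΩ] at h1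
  exact h1

/-- the basic decomposition. -/
theorem Valid.push_decomp (h : S.Valid) {W : Set (E m)} (hW : MeasurableSet W) (hWΩ : W ⊆ S.Ω)
    {k : E m × E n → ℝ} (hk : Measurable k) (hk0 : ∀ q, 0 ≤ k q) :
    pushD S.μ W k + pushD S.μ W (fun q => k q * (S.Jpi q - 1))
      = (volume.restrict W).withDensity
          (fun y => S.fibSum (fun q => ENNReal.ofReal (k q)) y * ENNReal.ofReal (S.a y))
        + pushD S.μ W (fun q => k q * (1 - S.Jpi q)) := by
  have hJ := h.meas_Jpi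
  have hk1 : Measurable fun q => k q * (S.Jpi q - 1) := hk.mul (hJ.sub_const 1)
  have hk2 : Measurable fun q => k q * (1 - S.Jpi q) := hk.mul (hJ.const_sub 1)
  ext U hU
  rw [Measure.add_apply, Measure.add_apply, pushD_apply S.μ hW hk hU, pushD_apply S.μ hW hk1 hU,
    pushD_apply S.μ hW hk2 hU, withDensity_apply _ hU, Measure.restrict_restrict hU,
    inter_comm U W, ← h.count_set (hW.inter hU) (inter_subset_left.trans hWΩ) hk.ennreal_ofReal,
    ← lintegral_add_left hk.ennreal_ofReal,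
    ← lintegral_add_left (f := fun q => ENNReal.ofReal (k q) * ENNReal.ofReal (S.Jpi q))
      (hk.ennreal_ofReal.mul hJ.ennreal_ofReal)]
  refine lintegral_congr fun q => ?_
  have hk0' := hk0 q
  have hJ0 := h.Jpi_nonneg q
  rw [← ENNReal.ofReal_mul hk0']
  rcases le_total 1 (S.Jpi q) with h1 | h1
  · rw [ENNReal.ofReal_of_nonpos (mul_nonpos_of_nonneg_of_nonpos hk0' (by linarith) :
        k q * (1 - S.Jpi q) ≤ 0), add_zero,
      ← ENNReal.ofReal_add hk0' (mul_nonneg hk0' (by linarith))]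
    congr 1; ring
  · rw [ENNReal.ofReal_of_nonpos (mul_nonpos_of_nonneg_of_nonpos hk0' (by linarith) :
        k q * (S.Jpi q - 1) ≤ 0), add_zero,
      ← ENNReal.ofReal_add (mul_nonneg hk0' hJ0) (mul_nonneg hk0' (by linarith))]
    congr 1; ring

/-- mass of the error measures. -/
theorem Valid.push_err_le (h : S.Valid) {W : Set (E m)} (hW : MeasurableSet W)
    {k : E m × E n → ℝ} (hk : Measurable k) (hk0 : ∀ q, 0 ≤ k q) {K : ℝ} (hkK : ∀ q, k q ≤ K)
    {U : Set (E m)} (hU : MeasurableSet U) :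
    pushD S.μ W (fun q => k q * (S.Jpi q - 1)) U + pushD S.μ W (fun q => k q * (1 - S.Jpi q)) U
      ≤ ENNReal.ofReal (K * S.Cg) * (S.Dm + S.Lm) (W ∩ U) := by
  have hJ := h.meas_Jpi
  have hk1 : Measurable fun q => k q * (S.Jpi q - 1) := hk.mul (hJ.sub_const 1)
  have hk2 : Measurable fun q => k q * (1 - S.Jpi q) := hk.mul (hJ.const_sub 1)
  have hK : 0 ≤ K := (hk0 0).trans (hkK 0)
  have hCg : 0 ≤ S.Cg := zero_le_one.trans h.one_le_Cg
  rw [pushD_apply S.μ hW hk1 hU, pushD_apply S.μ hW hk2 hU,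
    ← lintegral_add_left hk1.ennreal_ofReal, ← h.lintegral_e_add_lam (hW.inter hU),
    ← lintegral_const_mul' _ _ ENNReal.ofReal_ne_top]
  refine lintegral_mono fun q => ?_
  rw [← ENNReal.ofReal_mul (mul_nonneg hK hCg)]
  have hk0' := hk0 q
  have hc := h.Jpi_close q
  have hb : k q * |S.Jpi q - 1| ≤ K * S.Cg * (S.e q + S.lam q) := by
    calc k q * |S.Jpi q - 1| ≤ K * (S.Cg * (S.e q + S.lam q)) :=
          mul_le_mul (hkK q) hc (abs_nonneg _) hK
      _ = _ := by ring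
  rcases le_total 1 (S.Jpi q) with h1 | h1
  · rw [ENNReal.ofReal_of_nonpos (mul_nonpos_of_nonneg_of_nonpos hk0' (by linarith) :
        k q * (1 - S.Jpi q) ≤ 0), add_zero]
    apply ENNReal.ofReal_le_ofReal
    rwa [abs_of_nonneg (by linarith)] at hb
  · rw [ENNReal.ofReal_of_nonpos (mul_nonpos_of_nonneg_of_nonpos hk0' (by linarith) :
        k q * (S.Jpi q - 1) ≤ 0), zero_add]
    apply ENNReal.ofReal_le_ofReal
    rw [abs_of_nonpos (by linarith)] at hb
    linarith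

theorem Valid.DL_lt_top (h : S.Valid) {W : Set (E m)} (hW : MeasurableSet W) (hfin : S.nu W < ⊤) :
    (S.Dm + S.Lm) W < ⊤ :=
  lt_of_le_of_lt (h.DL_le_nu hW) (ENNReal.mul_lt_top ENNReal.ofReal_lt_top hfin)

/-- the decomposition in the form needed by `ac_eq`, `ac_compare`, `ac_lower`. -/
theorem Valid.push_pack (h : S.Valid) {W : Set (E m)} (hW : MeasurableSet W) (hWΩ : W ⊆ S.Ω)
    (hfin : S.nu W < ⊤) {k : E m × E n → ℝ} (hk : Measurable k) (hk0 : ∀ q, 0 ≤ k q) {K : ℝ}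
    (hkK : ∀ q, k q ≤ K) :
    ∃ σ₁ σ₂ : Measure (E m), IsFiniteMeasure (pushD S.μ W k) ∧ IsFiniteMeasure σ₁ ∧
      IsFiniteMeasure σ₂ ∧ σ₁ univ + σ₂ univ ≤ ENNReal.ofReal (K * S.Cg) * (S.Dm + S.Lm) W ∧
      AEMeasurable (W.indicator fun y =>
        S.fibSum (fun q => ENNReal.ofReal (k q)) y * ENNReal.ofReal (S.a y)) volume ∧
      pushD S.μ W k + σ₁ = volume.withDensity (W.indicator fun y =>
        S.fibSum (fun q => ENNReal.ofReal (k q)) y * ENNReal.ofReal (S.a y)) + σ₂ := by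
  have herr := h.push_err_le hW hk hk0 hkK MeasurableSet.univ
  rw [inter_univ] at herr
  have htop : ENNReal.ofReal (K * S.Cg) * (S.Dm + S.Lm) W < ⊤ :=
    ENNReal.mul_lt_top ENNReal.ofReal_lt_top (h.DL_lt_top hW hfin)
  refine ⟨pushD S.μ W (fun q => k q * (S.Jpi q - 1)), pushD S.μ W (fun q => k q * (1 - S.Jpi q)),
    ⟨?_⟩, ⟨lt_of_le_of_lt (le_self_add.trans herr) htop⟩,
    ⟨lt_of_le_of_lt (le_add_self.trans herr) htop⟩, herr, ?_, ?_⟩
  · rw [pushD_univ S.μ hW hk]
    calc ∫⁻ q in W ×ˢ (univ : Set (E n)), ENNReal.ofReal (k q) ∂S.μ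
        ≤ ∫⁻ _q in W ×ˢ (univ : Set (E n)), ENNReal.ofReal K ∂S.μ :=
          lintegral_mono fun q => ENNReal.ofReal_le_ofReal (hkK q)
      _ = ENNReal.ofReal K * S.nu W := by
          rw [lintegral_const, Measure.restrict_apply MeasurableSet.univ, univ_inter, nu_apply S hW]
      _ < ⊤ := ENNReal.mul_lt_top ENNReal.ofReal_lt_top hfin
  · rw [aemeasurable_indicator_iff hW]
    exact ((h.count_meas _ hk.ennreal_ofReal).mono_measure (Measure.restrict_mono hWΩ le_rfl)).mul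
      h.a_contDiff.continuous.measurable.ennreal_ofReal.aemeasurable
  · rw [withDensity_indicator hW]
    exact h.push_decomp hW hWΩ hk hk0

theorem Valid.fibSum_Vd (h : S.Valid) {f : E n → ℝ} (hf : ∀ ζ, 0 ≤ f ζ) (y : E m) :
    S.fibSum (fun q => ENNReal.ofReal (S.Vd f q)) y * ENNReal.ofReal (S.a y)
      = ENNReal.ofReal (S.Nf f y) := by
  have ha : 0 < S.a y := lt_of_lt_of_le (by norm_num) (h.a_lower y)
  have h1 : S.fibSum (fun q => ENNReal.ofReal (S.Vd f q)) y
      = ENNReal.ofReal (S.Nf f y * (S.a y)⁻¹) := by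
    unfold Sys.fibSum Sys.Vd Sys.Nf
    rw [sum_map_ofReal (S.fib y) (f := fun ζ => f ζ * (S.a y)⁻¹)
      (fun ζ => mul_nonneg (hf ζ) (inv_nonneg.2 ha.le)), Multiset.sum_map_mul_right]
  rw [h1, ← ENNReal.ofReal_mul (mul_nonneg (Nf_nonneg S hf y) (inv_nonneg.2 ha.le)), mul_assoc,
    inv_mul_cancel₀ ha.ne', mul_one]

/-- **density of `π_# (f a⁻¹ μ)` versus `N_f`.** -/
theorem Valid.push_count (h : S.Valid) {f : E n → ℝ} {L : ℝ} (hf : IsTest f L) {W : Set (E m)}
    (hW : MeasurableSet W) (hWΩ : W ⊆ S.Ω) (hfin : S.nu W < ⊤) (t : ℝ) (ht : 0 < t) :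
    volume {y : E m | y ∈ W ∧ t < |((pushD S.μ W (S.Vd f)).rnDeriv volume y).toReal - S.Nf f y|}
      ≤ ENNReal.ofReal (2 * S.Cg * ((S.Dm + S.Lm) W).toReal / t) := by
  obtain ⟨σ₁, σ₂, f0, f1, f2, herr, hmeas, hdec⟩ :=
    h.push_pack hW hWΩ hfin (h.meas_Vd hf) (h.Vd_nonneg hf) (h.Vd_le hf)
  have hCg : 0 ≤ S.Cg := zero_le_one.trans h.one_le_Cg
  calc volume {y : E m | y ∈ W ∧
        t < |((pushD S.μ W (S.Vd f)).rnDeriv volume y).toReal - S.Nf f y|}
      ≤ volume {y : E m | t < |((pushD S.μ W (S.Vd f)).rnDeriv volume y).toReal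
          - ((W.indicator fun y => S.fibSum (fun q => ENNReal.ofReal (S.Vd f q)) y
              * ENNReal.ofReal (S.a y)) y).toReal|} := by
        refine measure_mono ?_
        rintro y ⟨hyW, hy⟩
        show t < |((pushD S.μ W (S.Vd f)).rnDeriv volume y).toReal
          - ((W.indicator fun y => S.fibSum (fun q => ENNReal.ofReal (S.Vd f q)) y
              * ENNReal.ofReal (S.a y)) y).toReal|
        rw [indicator_of_mem hyW, h.fibSum_Vd hf.nonneg,
          ENNReal.toReal_ofReal (Nf_nonneg S hf.nonneg y)]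
        exact hy
    _ ≤ (σ₁ univ + σ₂ univ) / ENNReal.ofReal t := ac_compare _ σ₁ σ₂ _ hmeas hdec t ht
    _ ≤ ENNReal.ofReal (2 * S.Cg) * (S.Dm + S.Lm) W / ENNReal.ofReal t := by gcongr
    _ = ENNReal.ofReal (2 * S.Cg * ((S.Dm + S.Lm) W).toReal / t) := by
        rw [ENNReal.ofReal_div_of_pos ht,
          ENNReal.ofReal_mul (by positivity : (0 : ℝ) ≤ 2 * S.Cg) (q := ((S.Dm + S.Lm) W).toReal),
          ENNReal.ofReal_toReal (h.DL_lt_top hW hfin).ne]

/-- a.e. measurability of the fibre functions. -/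
theorem Valid.aemeasurable_Nf (h : S.Valid) {f : E n → ℝ} (hf : Measurable f) (hf0 : ∀ ζ, 0 ≤ f ζ) :
    AEMeasurable (S.Nf f) (volume.restrict S.Ω) := by
  have h1 := (h.count_meas (fun q => ENNReal.ofReal (f q.2))
    (hf.comp measurable_snd).ennreal_ofReal).ennreal_toReal
  refine h1.congr (Filter.Eventually.of_forall fun y => ?_)
  show (S.fibSum (fun q => ENNReal.ofReal (f q.2)) y).toReal = S.Nf f y
  rw [fibSum_eq_Nf S hf0, ENNReal.toReal_ofReal (Nf_nonneg S hf0 y)]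

theorem fibSum_one (S : Sys m n) (y : E m) : S.fibSum (fun _ => 1) y = (S.N y : ℝ≥0∞) := by
  unfold Sys.fibSum Sys.N
  simp

theorem Valid.aemeasurable_N (h : S.Valid) :
    AEMeasurable (fun y => (S.N y : ℝ≥0∞)) (volume.restrict S.Ω) := by
  have h1 := h.count_meas (fun _ => 1) measurable_const
  have e : S.fibSum (fun _ => 1) = fun y => (S.N y : ℝ≥0∞) := funext (fibSum_one S)
  rwa [e] at h1

/-- `∫_W N a dy ≤ ν(W) + Cg (D+Λ)(W)`. -/
theorem Valid.N_lintegral_le (h : S.Valid) {W : Set (E m)} (hW : MeasurableSet W) (hWΩ : W ⊆ S.Ω) :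
    ∫⁻ y in W, (S.N y : ℝ≥0∞) * ENNReal.ofReal (S.a y) ≤ S.nu W + ENNReal.ofReal S.Cg * (S.Dm + S.Lm) W := by
  have hCg : 0 ≤ S.Cg := zero_le_one.trans h.one_le_Cg
  have h1 := h.count_set hW hWΩ (g := fun _ => 1) measurable_const
  simp only [fibSum_one, one_mul] at h1
  rw [← h1, ← h.lintegral_e_add_lam hW, ← lintegral_const_mul' _ _ ENNReal.ofReal_ne_top,
    nu_apply S hW]
  have e : S.μ (W ×ˢ (univ : Set (E n))) = ∫⁻ _q in W ×ˢ (univ : Set (E n)), 1 ∂S.μ := by
    rw [lintegral_const, Measure.restrict_apply MeasurableSet.univ, univ_inter, one_mul]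
  rw [e, ← lintegral_add_left measurable_const]
  refine lintegral_mono fun q => ?_
  rw [← ENNReal.ofReal_mul hCg, ← ENNReal.ofReal_one,
    ← ENNReal.ofReal_add zero_le_one (mul_nonneg hCg (add_nonneg (h.e_nonneg q) (h.lam_nonneg q)))]
  apply ENNReal.ofReal_le_ofReal
  have := (abs_le.1 (h.Jpi_close q)).2
  linarith

theorem pushD_one (S : Sys m n) {W : Set (E m)} (hW : MeasurableSet W) :
    pushD S.μ W (fun _ => 1) = S.nu.restrict W := by
  unfold pushD Sys.nu
  rw [Measure.restrict_map measurable_fst hW, prod_univ]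
  simp only [ENNReal.ofReal_one]
  rw [withDensity_const, one_smul]

/-- the decomposition for `k = 1`: `ν_ac + σ₁_ac = N a + σ₂_ac` a.e. on `W`. -/
theorem Valid.one_pack (h : S.Valid) {W : Set (E m)} (hW : MeasurableSet W) (hWΩ : W ⊆ S.Ω)
    (hfin : S.nu W < ⊤) :
    ∃ σ₁ σ₂ : Measure (E m), IsFiniteMeasure σ₁ ∧ IsFiniteMeasure σ₂ ∧
      σ₁ univ + σ₂ univ ≤ ENNReal.ofReal S.Cg * (S.Dm + S.Lm) W ∧
      ∀ᵐ y ∂(volume : Measure (E m)), y ∈ W →
        S.nu.rnDeriv volume y + σ₁.rnDeriv volume y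
          = (S.N y : ℝ≥0∞) * ENNReal.ofReal (S.a y) + σ₂.rnDeriv volume y := by
  obtain ⟨σ₁, σ₂, f0, f1, f2, herr, hmeas, hdec⟩ :=
    h.push_pack hW hWΩ hfin (k := fun _ => 1) measurable_const (fun _ => zero_le_one)
      (K := 1) (fun _ => le_rfl)
  rw [one_mul] at herr
  have := h.sigmaFinite_nu
  refine ⟨σ₁, σ₂, f1, f2, herr, ?_⟩
  have h1 := ac_eq _ σ₁ σ₂ _ hmeas hdec
  rw [pushD_one S hW] at h1
  filter_upwards [h1, Measure.rnDeriv_restrict S.nu (volume : Measure (E m)) hW] with y hy hr hyW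
  rw [hr, indicator_of_mem hyW, indicator_of_mem hyW] at hy
  simp only [ENNReal.ofReal_one, fibSum_one] at hy
  exact hy

/-- `M⁻_q(W) ≤ 2 q vol {y ∈ W : N y ≠ q} + Cg (D+Λ)(W)`   (`(q a - ν_ac)⁺ ≤ (q - N)⁺ a + σ₁_ac`, `ac_lower`). -/
theorem Valid.Mneg_le (h : S.Valid) (q : ℕ) {W : Set (E m)} (hW : MeasurableSet W) (hWΩ : W ⊆ S.Ω)
    (hfin : S.nu W < ⊤) :
    S.Mneg q W ≤ ENNReal.ofReal (2 * q) * volume {y | y ∈ W ∧ S.N y ≠ q}
      + ENNReal.ofReal S.Cg * (S.Dm + S.Lm) W := by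
  obtain ⟨σ₁, σ₂, f1, f2, herr, hae⟩ := h.one_pack hW hWΩ hfin
  have := h.sigmaFinite_nu
  have e0 : S.Mneg q W
      = ∫⁻ y in W, ENNReal.ofReal (q * S.a y - (S.nu.rnDeriv volume y).toReal) := by
    unfold Sys.Mneg
    rw [Measure.restrict_apply hW, inter_eq_self_of_subset_left hWΩ, withDensity_apply _ hW]
  rw [e0]
  have hpt : ∀ᵐ y ∂((volume : Measure (E m)).restrict W),
      ENNReal.ofReal (q * S.a y - (S.nu.rnDeriv volume y).toReal)
        ≤ {y | y ∈ W ∧ S.N y ≠ q}.indicator (fun _ => ENNReal.ofReal (2 * q)) y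
          + σ₁.rnDeriv volume y := by
    rw [ae_restrict_iff' hW]
    filter_upwards [hae, Measure.rnDeriv_lt_top S.nu (volume : Measure (E m)),
      Measure.rnDeriv_lt_top σ₁ (volume : Measure (E m)),
      Measure.rnDeriv_lt_top σ₂ (volume : Measure (E m))] with y hy hv h1 h2 hyW
    have ha : 0 < S.a y := lt_of_lt_of_le (by norm_num) (h.a_lower y)
    by_cases hN : S.N y = q
    · rw [indicator_of_notMem (fun hh => hh.2 hN), zero_add]
      have hr := congrArg ENNReal.toReal (hy hyW)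
      rw [ENNReal.toReal_add hv.ne h1.ne,
        ENNReal.toReal_add (ENNReal.mul_ne_top (ENNReal.natCast_ne_top _) ENNReal.ofReal_ne_top)
          h2.ne, ENNReal.toReal_mul, ENNReal.toReal_natCast, ENNReal.toReal_ofReal ha.le, hN] at hr
      rw [← ENNReal.ofReal_toReal h1.ne]
      apply ENNReal.ofReal_le_ofReal
      have : 0 ≤ (σ₂.rnDeriv volume y).toReal := ENNReal.toReal_nonneg
      linarith
    · rw [indicator_of_mem (show y ∈ {y | y ∈ W ∧ S.N y ≠ q} from ⟨hyW, hN⟩)]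
      refine le_trans ?_ le_self_add
      apply ENNReal.ofReal_le_ofReal
      have h3 : 0 ≤ (S.nu.rnDeriv volume y).toReal := ENNReal.toReal_nonneg
      have h4 : (q : ℝ) * S.a y ≤ q * 2 :=
        mul_le_mul_of_nonneg_left (h.a_upper y) (Nat.cast_nonneg q)
      linarith
  calc ∫⁻ y in W, ENNReal.ofReal (q * S.a y - (S.nu.rnDeriv volume y).toReal)
      ≤ ∫⁻ y in W, ({y | y ∈ W ∧ S.N y ≠ q}.indicator (fun _ => ENNReal.ofReal (2 * q)) y
          + σ₁.rnDeriv volume y) := lintegral_mono_ae hpt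
    _ = (∫⁻ y in W, {y | y ∈ W ∧ S.N y ≠ q}.indicator (fun _ => ENNReal.ofReal (2 * q)) y)
          + ∫⁻ y in W, σ₁.rnDeriv volume y :=
        lintegral_add_right _ (Measure.measurable_rnDeriv _ _)
    _ ≤ ENNReal.ofReal (2 * q) * volume {y | y ∈ W ∧ S.N y ≠ q}
          + ENNReal.ofReal S.Cg * (S.Dm + S.Lm) W := by
        refine add_le_add ((lintegral_indicator_const_le _ _).trans ?_)
          ((Measure.setLIntegral_rnDeriv_le W).trans
            ((measure_mono (subset_univ _)).trans (le_self_add.trans herr)))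
        gcongr
        exact Measure.restrict_le_self

/-- `∫_W |N - q| a dy ≤ |M_q|(W) + Cg (D+Λ)(W)`. -/
theorem Valid.Nsub_lintegral_le (h : S.Valid) (q : ℕ) {W : Set (E m)} (hW : MeasurableSet W)
    (hWΩ : W ⊆ S.Ω) (hfin : S.nu W < ⊤) :
    ∫⁻ y in W, ENNReal.ofReal (|(S.N y : ℝ) - q| * S.a y)
      ≤ S.absM q W + ENNReal.ofReal S.Cg * (S.Dm + S.Lm) W := by
  obtain ⟨σ₁, σ₂, f1, f2, herr, hae⟩ := h.one_pack hW hWΩ hfin
  have := h.sigmaFinite_nu
  have e0 : ∫⁻ y in W, ENNReal.ofReal |(S.nu.rnDeriv volume y).toReal - q * S.a y|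
      ≤ S.absM q W := by
    unfold Sys.absM
    rw [Measure.restrict_apply hW, inter_eq_self_of_subset_left hWΩ, Measure.add_apply,
      withDensity_apply _ hW]
    exact le_add_self
  have hpt : ∀ᵐ y ∂((volume : Measure (E m)).restrict W),
      ENNReal.ofReal (|(S.N y : ℝ) - q| * S.a y)
        ≤ ENNReal.ofReal |(S.nu.rnDeriv volume y).toReal - q * S.a y|
          + (σ₁.rnDeriv volume y + σ₂.rnDeriv volume y) := by
    rw [ae_restrict_iff' hW]
    filter_upwards [hae, Measure.rnDeriv_lt_top S.nu (volume : Measure (E m)),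
      Measure.rnDeriv_lt_top σ₁ (volume : Measure (E m)),
      Measure.rnDeriv_lt_top σ₂ (volume : Measure (E m))] with y hy hv h1 h2 hyW
    have ha : 0 < S.a y := lt_of_lt_of_le (by norm_num) (h.a_lower y)
    have hr := congrArg ENNReal.toReal (hy hyW)
    rw [ENNReal.toReal_add hv.ne h1.ne,
      ENNReal.toReal_add (ENNReal.mul_ne_top (ENNReal.natCast_ne_top _) ENNReal.ofReal_ne_top)
        h2.ne, ENNReal.toReal_mul, ENNReal.toReal_natCast, ENNReal.toReal_ofReal ha.le] at hr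
    have a1 : 0 ≤ (σ₁.rnDeriv volume y).toReal := ENNReal.toReal_nonneg
    have a2 : 0 ≤ (σ₂.rnDeriv volume y).toReal := ENNReal.toReal_nonneg
    rw [← ENNReal.ofReal_toReal h1.ne, ← ENNReal.ofReal_toReal h2.ne, ← ENNReal.ofReal_add a1 a2,
      ← ENNReal.ofReal_add (abs_nonneg _) (add_nonneg a1 a2)]
    apply ENNReal.ofReal_le_ofReal
    have e1 : |(S.N y : ℝ) - q| * S.a y = |(S.N y : ℝ) * S.a y - q * S.a y| := by
      rw [← sub_mul, abs_mul, abs_of_pos ha]
    have e2 : (S.N y : ℝ) * S.a y - q * S.a y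
        = ((S.nu.rnDeriv volume y).toReal - q * S.a y)
          + ((σ₁.rnDeriv volume y).toReal - (σ₂.rnDeriv volume y).toReal) := by linarith
    rw [e1, e2]
    refine (abs_add_le _ _).trans ?_
    have : |(σ₁.rnDeriv volume y).toReal - (σ₂.rnDeriv volume y).toReal|
        ≤ (σ₁.rnDeriv volume y).toReal + (σ₂.rnDeriv volume y).toReal := by
      rw [abs_le]; constructor <;> linarith
    linarith
  calc ∫⁻ y in W, ENNReal.ofReal (|(S.N y : ℝ) - q| * S.a y)
      ≤ ∫⁻ y in W, (ENNReal.ofReal |(S.nu.rnDeriv volume y).toReal - q * S.a y|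
          + (σ₁.rnDeriv volume y + σ₂.rnDeriv volume y)) := lintegral_mono_ae hpt
    _ = (∫⁻ y in W, ENNReal.ofReal |(S.nu.rnDeriv volume y).toReal - q * S.a y|)
          + ∫⁻ y in W, (σ₁.rnDeriv volume y + σ₂.rnDeriv volume y) :=
        lintegral_add_right _
          ((Measure.measurable_rnDeriv _ _).add (Measure.measurable_rnDeriv _ _))
    _ = (∫⁻ y in W, ENNReal.ofReal |(S.nu.rnDeriv volume y).toReal - q * S.a y|)
          + ((∫⁻ y in W, σ₁.rnDeriv volume y) + ∫⁻ y in W, σ₂.rnDeriv volume y) := by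
        rw [lintegral_add_left (Measure.measurable_rnDeriv _ _)]
    _ ≤ S.absM q W + (σ₁ univ + σ₂ univ) :=
        add_le_add e0 (add_le_add
          ((Measure.setLIntegral_rnDeriv_le W).trans (measure_mono (subset_univ _)))
          ((Measure.setLIntegral_rnDeriv_le W).trans (measure_mono (subset_univ _))))
    _ ≤ S.absM q W + ENNReal.ofReal S.Cg * (S.Dm + S.Lm) W := by gcongr

end Sys

end Claimed.Agent.R322.Sx
end
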