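/- Packed by merge_tool.py (helper293): 6 modules of Claimed.Agent.R322 in one file, same declarations.
   Old modules, in this order: Sx.Scalar.Osc, Sx.Scalar.Main, Sx.Scalar, Sx.Config.Defs, Sx.Config.Grid, Sx.Config.Net -/
import Claimed.Agent.R322.Pack022

/- ===== packed: Claimed.Agent.R322.Sx.Scalar.Osc ===== -/
section
/-!
# R322 / Sx / Scalar / Osc   (blueprint: helper234)   LEAF `L-Sc-Ckb` (the two `ckb` lemmas); `osc` is glue

`osc` = AE (2.17): the multiplier oscillation estimate.  For a height multiplier `f` (`0 ≤ f ≤ 1`, `|Df| ≤ L`) the fibre function `N_f`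
is, on the inner ball, close to ONE constant `c` in weak `L¹`, and `π_# (f μ)` is close to `c vol_S` in the sense of distributions,
with error `C ((D+Λ)(B_R) + R L √(ν(B_R)(D+Λ)(B_R)))`.   No rescaling of the system.
-/

set_option autoImplicit false

namespace Claimed.Agent.R322.Sx

open MeasureTheory Set Metric
open scoped ENNReal NNReal InnerProductSpace

theorem CkB.A_nonneg {m k : ℕ} {s A : ℝ} {η : E m → ℝ} (h : CkB k s A η) : 0 ≤ A := by
  have := h.2 0 (Nat.zero_le k) 0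
  simp only [pow_zero, one_mul] at this
  exact (norm_nonneg _).trans this

/-- multiplication by the volume density preserves scaled `C³` bounds (`norm_iteratedFDeriv_mul_le`, `a_upper`, `a_deriv`, `γ ≤ 1`). -/
theorem ckb_mul_a (m n : ℕ) (Cg Rmax : ℝ) :
    ∃ C : ℝ, 0 < C ∧ ∀ S : Sys m n, S.Valid → S.Cg ≤ Cg → ∀ (R A : ℝ), 0 < R → R ≤ Rmax →
      ∀ η : E m → ℝ, CkB 3 R A η → CkB 3 R (C * A) fun y => η y * S.a y := by
  set P : ℝ := max 1 Rmax with hP
  have hP1 : 1 ≤ P := le_max_left _ _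
  set M : ℝ := 2 + P ^ 3 * |Cg| with hM
  have hM0 : 0 < M := by positivity
  refine ⟨8 * M, by positivity, ?_⟩
  intro S hS hCg R A hR hRm η hη
  have hA := hη.A_nonneg
  have ha3 : ContDiff ℝ 3 S.a := hS.a_contDiff.of_le (by norm_num)
  refine ⟨hη.1.mul ha3, ?_⟩
  intro j hj y
  have hRP : R ≤ P := hRm.trans (le_max_right _ _)
  have haM : ∀ l : ℕ, l ≤ 3 → R ^ l * ‖iteratedFDeriv ℝ l S.a y‖ ≤ M := by
    intro l hl
    rcases Nat.eq_zero_or_pos l with rfl | hl0
    · rw [pow_zero, one_mul, norm_iteratedFDeriv_zero, Real.norm_eq_abs,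
        abs_of_nonneg (le_trans (by norm_num) (hS.a_lower y))]
      have := hS.a_upper y
      have : 0 ≤ P ^ 3 * |Cg| := by positivity
      linarith
    · have h1 := hS.a_deriv l hl0 (by omega) y
      have h2 : S.Cg * S.γ ≤ |Cg| := by
        calc S.Cg * S.γ ≤ S.Cg * 1 :=
              mul_le_mul_of_nonneg_left hS.γ_le_one (zero_le_one.trans hS.one_le_Cg)
          _ = S.Cg := mul_one _
          _ ≤ |Cg| := hCg.trans (le_abs_self _)
      have h3 : R ^ l ≤ P ^ 3 :=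
        (pow_le_pow_left₀ hR.le hRP l).trans (pow_le_pow_right₀ hP1 hl)
      calc R ^ l * ‖iteratedFDeriv ℝ l S.a y‖ ≤ P ^ 3 * |Cg| :=
            mul_le_mul h3 (h1.trans h2) (norm_nonneg _) (by positivity)
        _ ≤ M := by rw [hM]; linarith
  have hmul := norm_iteratedFDeriv_mul_le (𝕜 := ℝ) hη.1 ha3 y (n := j) (by exact_mod_cast hj)
  calc R ^ j * ‖iteratedFDeriv ℝ j (fun y => η y * S.a y) y‖
      ≤ R ^ j * ∑ i ∈ Finset.range (j + 1), (j.choose i : ℝ) * ‖iteratedFDeriv ℝ i η y‖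
          * ‖iteratedFDeriv ℝ (j - i) S.a y‖ := by gcongr
    _ = ∑ i ∈ Finset.range (j + 1), (j.choose i : ℝ) * (R ^ i * ‖iteratedFDeriv ℝ i η y‖)
          * (R ^ (j - i) * ‖iteratedFDeriv ℝ (j - i) S.a y‖) := by
        rw [Finset.mul_sum]
        refine Finset.sum_congr rfl fun i hi => ?_
        have hij : i ≤ j := Nat.lt_succ_iff.1 (Finset.mem_range.1 hi)
        have : R ^ j = R ^ i * R ^ (j - i) := by rw [← pow_add, Nat.add_sub_cancel' hij]
        rw [this]; ring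
    _ ≤ ∑ i ∈ Finset.range (j + 1), (j.choose i : ℝ) * A * M := by
        refine Finset.sum_le_sum fun i hi => ?_
        have hij : i ≤ j := Nat.lt_succ_iff.1 (Finset.mem_range.1 hi)
        have h1 := hη.2 i (hij.trans hj) y
        have h2 := haM (j - i) (by omega)
        have h3 : 0 ≤ R ^ (j - i) * ‖iteratedFDeriv ℝ (j - i) S.a y‖ := by positivity
        gcongr
    _ = (2 : ℝ) ^ j * A * M := by
        rw [← Finset.sum_mul, ← Finset.sum_mul]
        congr 2
        exact_mod_cast Nat.sum_range_choose j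
    _ ≤ (2 : ℝ) ^ 3 * A * M := by
        have : (2 : ℝ) ^ j ≤ 2 ^ 3 := pow_le_pow_right₀ (by norm_num) hj
        gcongr
    _ = 8 * M * A := by ring

/-- change of the scale in `CkB`. -/
theorem CkB.scale {m k : ℕ} {s A : ℝ} {η : E m → ℝ} (h : CkB k s A η) {c : ℝ} (hc : 1 ≤ c) (hs : 0 ≤ s) :
    CkB k (c * s) (c ^ k * A) η := by
  have hA := h.A_nonneg
  have hc0 : 0 ≤ c := zero_le_one.trans hc
  refine ⟨h.1, fun j hj y => ?_⟩
  calc (c * s) ^ j * ‖iteratedFDeriv ℝ j η y‖ = c ^ j * (s ^ j * ‖iteratedFDeriv ℝ j η y‖) := by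
        rw [mul_pow]; ring
    _ ≤ c ^ k * A :=
        mul_le_mul (pow_le_pow_right₀ hc hj) (h.2 j hj y) (by positivity) (by positivity)

theorem Sys.oscE_nonneg {m n : ℕ} (S : Sys m n) (x : E m) {R L : ℝ} (hR : 0 ≤ R) (hL : 0 ≤ L) :
    0 ≤ S.oscE x R L := by
  unfold Sys.oscE
  positivity

theorem IsTest.L_nonneg {n : ℕ} {f : E n → ℝ} {L : ℝ} (hf : IsTest f L) : 0 ≤ L :=
  (norm_nonneg _).trans (hf.deriv 0)

/-- **AE (2.17).** -/
theorem osc (m n : ℕ) (hm : 1 ≤ m) (Cg Rmax θ : ℝ) (hθ0 : 0 < θ) (hθ1 : θ < 1) :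
    ∃ C : ℝ, 0 < C ∧ ∀ S : Sys m n, S.Valid → S.Cg ≤ Cg →
      ∀ (x : E m) (R : ℝ), 0 < R → R ≤ Rmax → ball x R ⊆ S.Ω → S.nu (ball x R) < ⊤ →
      ∀ (f : E n → ℝ) (L : ℝ), IsTest f L →
      ∃ c : ℝ,
        (∀ t : ℝ, 0 < t → volume {y | y ∈ ball x (θ * R) ∧ t < |S.Nf f y - c|}
            ≤ ENNReal.ofReal (C * S.oscE x R L / t)) ∧
        (∀ (η : E m → ℝ) (A : ℝ), CkB 3 R A η → tsupport η ⊆ ball x (θ * R) →
          |(∫ q, η q.1 * f q.2 ∂S.μ) - c * ∫ y, η y * S.a y| ≤ C * A * S.oscE x R L) := by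
  obtain ⟨C1, hC1, H1⟩ := pot_push m n hm θ hθ0 hθ1
  obtain ⟨C2, hC2, H2⟩ := grad_mass m n Cg Rmax
  obtain ⟨C3, hC3, H3⟩ := ckb_mul_a m n Cg Rmax
  refine ⟨2 * C1 * C2 + 4 * |Cg| + C1 * C2 * C3, by positivity, ?_⟩
  intro S hS hCg x R hR hRm hball hfin f L hf
  have hE0 : 0 ≤ S.oscE x R L := S.oscE_nonneg x hR.le hf.L_nonneg
  have hε := H2 S hS hCg x R hR hRm hfin f L hf
  have hVfin : ∫⁻ q in ball x R ×ˢ (univ : Set (E n)), ENNReal.ofReal (S.Vd f q) ∂S.μ < ⊤ := by
    calc ∫⁻ q in ball x R ×ˢ (univ : Set (E n)), ENNReal.ofReal (S.Vd f q) ∂S.μ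
        ≤ ∫⁻ _q in ball x R ×ˢ (univ : Set (E n)), ENNReal.ofReal 2 ∂S.μ :=
          lintegral_mono fun q => ENNReal.ofReal_le_ofReal (hS.Vd_le hf q)
      _ = ENNReal.ofReal 2 * S.μ (ball x R ×ˢ (univ : Set (E n))) := by
          rw [lintegral_const, Measure.restrict_apply MeasurableSet.univ, univ_inter]
      _ < ⊤ := by
          refine ENNReal.mul_lt_top ENNReal.ofReal_lt_top ?_
          have : S.nu (ball x R) = S.μ (ball x R ×ˢ (univ : Set (E n))) := by
            unfold Sys.nu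
            rw [Measure.map_apply measurable_fst measurableSet_ball]
            congr 1
            ext q; simp
          rwa [← this]
  obtain ⟨c, hw, hd⟩ := H1 S.μ x R hR (S.Vd f) (S.Fd f) (S.gd f) (C2 * S.oscE x R L)
    (mul_nonneg hC2.le hE0) (hS.meas_Vd hf)
    (hS.Vd_nonneg hf) (hS.meas_Fd hf) (hS.meas_gd hf) hVfin hε
    (fun j φ h1 h2 h3 => hS.grad_eq hf j φ h1 h2 (h3.trans hball))
  have hθR : ball x (θ * R) ⊆ ball x R := ball_subset_ball (by nlinarith)
  refine ⟨c, ?_, ?_⟩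
  · intro t ht
    have ht2 : 0 < t / 2 := by positivity
    have h1 := hw (t / 2) ht2
    have h2 := hS.push_count hf measurableSet_ball hball hfin (t / 2) ht2
    have hsub : {y | y ∈ ball x (θ * R) ∧ t < |S.Nf f y - c|} ⊆
        {y : E m | y ∈ ball x (θ * R) ∧
              t / 2 < |((pushD S.μ (ball x R) (S.Vd f)).rnDeriv volume y).toReal - c|} ∪
        {y : E m | y ∈ ball x R ∧
          t / 2 < |((pushD S.μ (ball x R) (S.Vd f)).rnDeriv volume y).toReal - S.Nf f y|} := by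
      rintro y ⟨hy1, hy2⟩
      by_contra hcon
      simp only [mem_union, mem_ofPred_eq, not_or, not_and, not_lt] at hcon
      have a1 := hcon.1 hy1
      have a2 := hcon.2 (hθR hy1)
      have := abs_sub_le (S.Nf f y) ((pushD S.μ (ball x R) (S.Vd f)).rnDeriv volume y).toReal c
      rw [abs_sub_comm (S.Nf f y) ((pushD S.μ (ball x R) (S.Vd f)).rnDeriv volume y).toReal] at this
      linarith
    have hDL : ((S.Dm + S.Lm) (ball x R)).toReal ≤ S.oscE x R L := by
      unfold Sys.oscE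
      have : 0 ≤ R * L * Real.sqrt ((S.nu (ball x R)).toReal * ((S.Dm + S.Lm) (ball x R)).toReal) := by
        have := hf.L_nonneg
        positivity
      linarith
    have hCgS : S.Cg ≤ |Cg| := hCg.trans (le_abs_self _)
    have hCg0 : 0 ≤ S.Cg := zero_le_one.trans hS.one_le_Cg
    calc volume {y | y ∈ ball x (θ * R) ∧ t < |S.Nf f y - c|}
        ≤ _ := (measure_mono hsub).trans (measure_union_le _ _)
      _ ≤ ENNReal.ofReal (C1 * (C2 * S.oscE x R L) / (t / 2)) +
          ENNReal.ofReal (2 * S.Cg * ((S.Dm + S.Lm) (ball x R)).toReal / (t / 2)) := add_le_add h1 h2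
      _ = ENNReal.ofReal (C1 * (C2 * S.oscE x R L) / (t / 2) +
          2 * S.Cg * ((S.Dm + S.Lm) (ball x R)).toReal / (t / 2)) :=
          (ENNReal.ofReal_add (by positivity) (by positivity)).symm
      _ ≤ _ := by
          apply ENNReal.ofReal_le_ofReal
          have e1 : C1 * (C2 * S.oscE x R L) / (t / 2) +
              2 * S.Cg * ((S.Dm + S.Lm) (ball x R)).toReal / (t / 2) =
              (2 * C1 * C2 * S.oscE x R L + 4 * S.Cg * ((S.Dm + S.Lm) (ball x R)).toReal) / t := by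
            field_simp
            ring
          rw [e1]
          apply div_le_div_of_nonneg_right _ ht.le
          have : 4 * S.Cg * ((S.Dm + S.Lm) (ball x R)).toReal ≤ 4 * |Cg| * S.oscE x R L := by
            have := mul_le_mul hCgS hDL ENNReal.toReal_nonneg (abs_nonneg _)
            linarith
          have h3 : 0 ≤ C1 * C2 * C3 * S.oscE x R L := by positivity
          nlinarith
  · intro η A hη hsupp
    have hA : 0 ≤ A := by
      have := hη.2 0 (by norm_num) x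
      simp only [pow_zero, one_mul] at this
      exact (norm_nonneg _).trans this
    have h1 := hd (fun y => η y * S.a y) (C3 * A) (H3 S hS hCg R A hR hRm η hη)
      ((tsupport_mul_subset_left (f := η) (g := S.a)).trans hsupp)
    have e1 : ∫ q, (η q.1 * S.a q.1) * S.Vd f q ∂S.μ = ∫ q, η q.1 * f q.2 ∂S.μ := by
      refine integral_congr_ae (Filter.Eventually.of_forall fun q => ?_)
      have : S.a q.1 ≠ 0 := by
        have := hS.a_lower q.1
        positivity
      simp only [Sys.Vd]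
      field_simp
    rw [e1] at h1
    refine h1.trans ?_
    have h3 : 0 ≤ (2 * C1 * C2 + 4 * |Cg|) * A * S.oscE x R L := by positivity
    nlinarith

end Claimed.Agent.R322.Sx
end

/- ===== packed: Claimed.Agent.R322.Sx.Scalar.Main ===== -/
section
/-!
# R322 / Sx / Scalar / Main   (blueprint: helper234)   LEAVES `L-Sc-Tools` (everything except `scalar_main`), `L-Sc-Main` (`scalar_main`)

AE Lemma 2.5 from `osc` with `f = 1`, `L = 0`.

PLAN of `scalar_main`.  `R = c s ≤ c =: Rmax`, `θ = (1+c)/(2c)`, `B = B_R(x)`, `B' = B_{θR}(x) = B_{(1+c)s/2}(x)`, `ε = (D+Λ)(B)` (`= oscE x R 0`), `κ = vol B_1`.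
 (0) `osc` gives `c₀`, constant `C₁`:   `vol {y ∈ B' : t < |N - c₀|} ≤ C₁ ε / t`,   `|∫ η dν - c₀ ∫ η a| ≤ C₁ A ε` for `CkB 3 R A η`.
 (1) `int_select` with `E = C₁ ε` (needs `8 C₁ ε₀ s^m < vol B' = κ ((1+c)/2)^m s^m`): `q`, `vol {y ∈ B' : N ≠ q} ≤ 4 C₁ ε`, `|c₀ - q| vol B' ≤ 4 C₁ ε`.
 (2) first conclusion: `volS_le`.
 (3) second conclusion: `CkB.scale`; `|∫ η a| ≤ 2 A vol B'` (`abs_integral_mul_a_le`); `intM q η = (∫ η dν - c₀ ∫ η a) + (c₀ - q) ∫ η a`.
 (4) `q ≤ qmax` (`count_bound`): `q vol {y ∈ B' : N = q} ≤ 2 ∫_{B'} N a ≤ 2 (ν(B) + Cg ε)`, `vol {N = q} ≥ vol B' / 2`.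
 (5) `Valid.Mneg_le` on `B'`:  `M⁻_q(B') ≤ (8 qmax C₁ + Cg) ε`.
 (6) cutoff `φ` (`exists_cutoff` with `r₁ = 1`, `r₂ = (1+c)/2`): `M⁺_q(B_s) ≤ ∫ φ dM⁺ = intM q φ + ∫ φ dM⁻ ≤ C A_φ ε + M⁻_q(B')`  (`Valid.intM_eq`).
 (7) `Valid.absM_eq`.

STATEMENT FIX (helper166): `volume_ball_eq` now asks `0 < r` (for `m = 0`, `r = 0` the old form read `0 = 1`).  File sorry-free.
-/

set_option autoImplicit false

namespace Claimed.Agent.R322.Sx

open MeasureTheory Set Metric
open scoped ENNReal NNReal InnerProductSpace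

/-- the constant multiplier. -/
theorem isTest_one (n : ℕ) : IsTest (fun _ : E n => (1 : ℝ)) 0 where
  smooth := contDiff_const
  nonneg := fun _ => zero_le_one
  le_one := fun _ => le_rfl
  deriv := fun ζ => by simp

/-- volume of a ball: `vol B_r(x) = r^m vol B_1`. -/
theorem volume_ball_eq {m : ℕ} (x : E m) {r : ℝ} (hr : 0 < r) :
    volume (ball x r) = ENNReal.ofReal (r ^ m) * volume (ball (0 : E m) 1) := by
  rw [Measure.addHaar_ball_of_pos volume x hr, finrank_euclideanSpace_fin]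

theorem volume_unit_ball_pos (m : ℕ) : 0 < (volume (ball (0 : E m) 1)).toReal :=
  ENNReal.toReal_pos (measure_ball_pos volume _ one_pos).ne' measure_ball_lt_top.ne

/-- integer selection from a weak `L¹` bound (pure measure theory; sets need not be measurable). -/
theorem int_select {m : ℕ} (B' : Set (E m)) (N : E m → ℕ) (c₀ Er : ℝ) (hE : 0 ≤ Er)
    (hfin : volume B' < ⊤) (hsmall : ENNReal.ofReal (8 * Er) < volume B')
    (h : ∀ t : ℝ, 0 < t → volume {y | y ∈ B' ∧ t < |(N y : ℝ) - c₀|} ≤ ENNReal.ofReal (Er / t)) :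
    ∃ q : ℕ, volume {y | y ∈ B' ∧ N y ≠ q} ≤ ENNReal.ofReal (4 * Er) ∧
      |c₀ - q| * (volume B').toReal ≤ 4 * Er := by
  have h4 : volume {y | y ∈ B' ∧ (1 / 4 : ℝ) < |(N y : ℝ) - c₀|} ≤ ENNReal.ofReal (4 * Er) := by
    have := h (1 / 4) (by norm_num)
    have e : Er / (1 / 4) = 4 * Er := by ring
    rwa [e] at this
  have h48 : ENNReal.ofReal (4 * Er) ≤ ENNReal.ofReal (8 * Er) :=
    ENNReal.ofReal_le_ofReal (by linarith)
  -- a good point
  obtain ⟨y₀, hy₀, hy₀'⟩ : ∃ y₀ ∈ B', |(N y₀ : ℝ) - c₀| ≤ 1 / 4 := by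
    by_contra hcon
    push Not at hcon
    have : B' ⊆ {y | y ∈ B' ∧ (1 / 4 : ℝ) < |(N y : ℝ) - c₀|} := fun y hy => ⟨hy, hcon y hy⟩
    exact absurd ((measure_mono this).trans (h4.trans h48)) (not_le.2 hsmall)
  have hne : volume {y | y ∈ B' ∧ N y ≠ N y₀} ≤ ENNReal.ofReal (4 * Er) := by
    refine (measure_mono ?_).trans h4
    rintro y ⟨hy, hyN⟩
    refine ⟨hy, ?_⟩
    have h1 : (1 : ℝ) ≤ |(N y : ℝ) - N y₀| := by
      have : (N y : ℤ) - N y₀ ≠ 0 := by
        intro h0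
        apply hyN
        have : (N y : ℤ) = N y₀ := by linarith
        exact_mod_cast this
      have h2 := Int.one_le_abs this
      have h3 : ((1 : ℤ) : ℝ) ≤ ((|(N y : ℤ) - N y₀| : ℤ) : ℝ) := by exact_mod_cast h2
      simpa using h3
    have h2 : |(N y : ℝ) - N y₀| ≤ |(N y : ℝ) - c₀| + |(N y₀ : ℝ) - c₀| := by
      have := abs_sub_le (N y : ℝ) c₀ (N y₀)
      rwa [abs_sub_comm c₀ (N y₀ : ℝ)] at this
    linarith
  refine ⟨N y₀, hne, ?_⟩
  set V : ℝ := (volume B').toReal with hV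
  have hV8 : 8 * Er < V := by
    rw [hV]
    exact (ENNReal.ofReal_lt_iff_lt_toReal (by linarith) hfin.ne).1 hsmall
  rcases eq_or_ne c₀ (N y₀) with heq | hneq
  · rw [heq, sub_self, abs_zero, zero_mul]; linarith
  · have hd : 0 < |c₀ - N y₀| := abs_pos.2 (sub_ne_zero.2 hneq)
    have h5 := h (|c₀ - N y₀| / 2) (by positivity)
    have hsub : B' ⊆ {y | y ∈ B' ∧ |c₀ - N y₀| / 2 < |(N y : ℝ) - c₀|} ∪
        {y | y ∈ B' ∧ N y ≠ N y₀} := by
      intro y hy
      by_cases hyN : N y = N y₀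
      · left
        refine ⟨hy, ?_⟩
        show |c₀ - N y₀| / 2 < |(N y : ℝ) - c₀|
        rw [hyN, abs_sub_comm (N y₀ : ℝ) c₀]
        linarith
      · right
        exact ⟨hy, hyN⟩
    have h6 : volume B' ≤ ENNReal.ofReal (Er / (|c₀ - N y₀| / 2) + 4 * Er) := by
      rw [ENNReal.ofReal_add (by positivity) (by positivity)]
      exact (measure_mono hsub).trans ((measure_union_le _ _).trans (add_le_add h5 hne))
    have h7 : V ≤ Er / (|c₀ - N y₀| / 2) + 4 * Er :=
      ENNReal.toReal_le_of_le_ofReal (by positivity) h6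
    have h8 : V / 2 ≤ Er / (|c₀ - N y₀| / 2) := by linarith
    rw [le_div_iff₀ (by positivity)] at h8
    nlinarith

/-- smooth cutoffs with scale invariant `C³` bounds (fix one `ContDiffBump` at unit scale; compose with `y ↦ s⁻¹ (y - x)`). -/
theorem exists_cutoff (m : ℕ) (r₁ r₂ : ℝ) (h1 : 0 < r₁) (h2 : r₁ < r₂) :
    ∃ A : ℝ, 0 < A ∧ ∀ (x : E m) (s : ℝ), 0 < s → ∃ φ : E m → ℝ, CkB 3 s A φ ∧ (∀ y, 0 ≤ φ y) ∧
      (∀ y, φ y ≤ 1) ∧ (∀ y ∈ ball x (r₁ * s), φ y = 1) ∧ tsupport φ ⊆ ball x (r₂ * s) ∧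
      HasCompactSupport φ := by
  let f : ContDiffBump (0 : E m) := ⟨r₁, (r₁ + r₂) / 2, h1, by linarith⟩
  have hf : ContDiff ℝ 3 f := f.contDiff
  have hfc : HasCompactSupport f := f.hasCompactSupport
  have hb : ∀ j : ℕ, j ≤ 3 → ∃ C, ∀ y, ‖iteratedFDeriv ℝ j f y‖ ≤ C := fun j hj =>
    (hfc.iteratedFDeriv j).exists_bound_of_continuous
      (hf.continuous_iteratedFDeriv (by exact_mod_cast hj))
  choose! Cb hCb using hb
  set A : ℝ := 1 + ∑ j ∈ Finset.range 4, |Cb j| with hA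
  have hA0 : 0 < A := by
    have : 0 ≤ ∑ j ∈ Finset.range 4, |Cb j| := Finset.sum_nonneg fun _ _ => abs_nonneg _
    linarith
  have hCA : ∀ j : ℕ, j ≤ 3 → Cb j ≤ A := by
    intro j hj
    have : |Cb j| ≤ ∑ j ∈ Finset.range 4, |Cb j| :=
      Finset.single_le_sum (f := fun j => |Cb j|) (fun _ _ => abs_nonneg _)
        (Finset.mem_range.2 (by omega))
    have := le_abs_self (Cb j)
    linarith
  refine ⟨A, hA0, ?_⟩
  intro x s hs
  have hs' : 0 < s⁻¹ := inv_pos.2 hs
  set T := pbT x s hs.ne' with hT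
  have hTe : ∀ y, T y = (pbT (-(s⁻¹ • x)) s⁻¹ hs'.ne').symm y := by
    intro y
    rw [hT, pbT_apply, pbT_symm_apply, smul_sub]
    abel
  refine ⟨fun y => f (T y), ⟨hf.comp ((contDiff_id.sub contDiff_const).const_smul s⁻¹), ?_⟩,
    fun y => f.nonneg, fun y => f.le_one, ?_, ?_, hfc.comp_homeomorph T⟩
  · intro j hj y
    have e : (fun y => f (T y)) = fun y => f ((pbT (-(s⁻¹ • x)) s⁻¹ hs'.ne').symm y) :=
      funext fun y => by rw [hTe]
    rw [e]
    have h3 := pbT_iteratedFDeriv_le (-(s⁻¹ • x)) hs' hf j hj y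
    calc s ^ j * ‖iteratedFDeriv ℝ j (fun y => f ((pbT (-(s⁻¹ • x)) s⁻¹ hs'.ne').symm y)) y‖
        ≤ s ^ j * (s⁻¹ ^ j * ‖iteratedFDeriv ℝ j f (-(s⁻¹ • x) + s⁻¹ • y)‖) := by gcongr
      _ = ‖iteratedFDeriv ℝ j f (-(s⁻¹ • x) + s⁻¹ • y)‖ := by
          rw [← mul_assoc, ← mul_pow, mul_inv_cancel₀ hs.ne', one_pow, one_mul]
      _ ≤ A := (hCb j hj _).trans (hCA j hj)
  · intro y hy
    apply f.one_of_mem_closedBall
    have := (pbT_mem_ball x hs r₁ y).2 hy
    exact ball_subset_closedBall this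
  · intro y hy
    have hy' : y ∈ tsupport (f ∘ T) := hy
    rw [tsupport_comp_eq_preimage f T, mem_preimage, f.tsupport_eq] at hy'
    apply (pbT_mem_ball x hs r₂ y).1
    refine closedBall_subset_ball ?_ hy'
    show (r₁ + r₂) / 2 < r₂
    linarith

namespace Sys

variable {m n : ℕ} {S : Sys m n}

/-- `vol_S ≤ 2 vol` (all sets). -/
theorem Valid.volS_le (h : S.Valid) (A : Set (E m)) : S.volS A ≤ 2 * volume A := by
  have h1 : S.volS ≤ (2 : ℝ≥0∞) • (volume : Measure (E m)) := by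
    unfold Sys.volS
    calc (volume.restrict S.Ω).withDensity (fun y => ENNReal.ofReal (S.a y))
        ≤ (volume.restrict S.Ω).withDensity (fun _ => 2) := by
          refine withDensity_mono (Filter.Eventually.of_forall fun y => ?_)
          have : ENNReal.ofReal (S.a y) ≤ ENNReal.ofReal 2 :=
            ENNReal.ofReal_le_ofReal (h.a_upper y)
          simpa using this
      _ = (2 : ℝ≥0∞) • volume.restrict S.Ω := withDensity_const _
      _ ≤ (2 : ℝ≥0∞) • volume := by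
          gcongr
          exact Measure.restrict_le_self
  exact h1 A

/-- `vol ≤ 2 vol_S` inside `Ω` (all sets). -/
theorem Valid.le_volS (h : S.Valid) {A : Set (E m)} (hA : A ⊆ S.Ω) : volume A ≤ 2 * S.volS A := by
  have h1 : (2⁻¹ : ℝ≥0∞) • (volume : Measure (E m)).restrict S.Ω ≤ S.volS := by
    unfold Sys.volS
    rw [← withDensity_const]
    refine withDensity_mono (Filter.Eventually.of_forall fun y => ?_)
    have : ENNReal.ofReal (1 / 2) ≤ ENNReal.ofReal (S.a y) :=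
      ENNReal.ofReal_le_ofReal (h.a_lower y)
    have e : ENNReal.ofReal (1 / 2) = 2⁻¹ := by
      rw [one_div, ENNReal.ofReal_inv_of_pos (by norm_num)]
      simp
    rwa [e] at this
  have h2 := h1 A
  rw [Measure.smul_apply, Measure.restrict_apply' h.isOpen_Ω.measurableSet,
    inter_eq_self_of_subset_left hA, smul_eq_mul] at h2
  calc volume A = 2 * (2⁻¹ * volume A) := by
        rw [← mul_assoc, ENNReal.mul_inv_cancel (by norm_num) (by norm_num), one_mul]
    _ ≤ 2 * S.volS A := by gcongr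

theorem Valid.abs_integral_mul_a_le (h : S.Valid) {η : E m → ℝ} {A : ℝ} (hη : ∀ y, |η y| ≤ A)
    {W : Set (E m)} (hW : MeasurableSet W) (hs : Function.support η ⊆ W) (hfin : volume W < ⊤) :
    |∫ y, η y * S.a y| ≤ 2 * A * (volume W).toReal := by
  have hz : ∀ y, y ∉ W → η y * S.a y = 0 := by
    intro y hy
    have : η y = 0 := by
      by_contra hne
      exact hy (hs hne)
    rw [this, zero_mul]
  rw [← setIntegral_eq_integral_of_forall_compl_eq_zero hz, ← Real.norm_eq_abs]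
  refine norm_setIntegral_le_of_norm_le_const hfin fun y _ => ?_
  rw [norm_mul, Real.norm_eq_abs, Real.norm_eq_abs,
    abs_of_nonneg (le_trans (by norm_num) (h.a_lower y)), mul_comm 2 A]
  exact mul_le_mul (hη y) (h.a_upper y) (le_trans (by norm_num) (h.a_lower y))
    ((abs_nonneg _).trans (hη y))

/-- bound of a majority value of `N` by the mass. -/
theorem Valid.count_bound (h : S.Valid) {W : Set (E m)} (hW : MeasurableSet W) (hWΩ : W ⊆ S.Ω)
    (hfin : volume W < ⊤) (q : ℕ) (hq : 2 * volume {y | y ∈ W ∧ S.N y ≠ q} ≤ volume W) :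
    (q : ℝ≥0∞) * volume W ≤ 4 * (S.nu W + ENNReal.ofReal S.Cg * (S.Dm + S.Lm) W) := by
  -- half of `W` has `N = q`
  have hsub : W ⊆ {y | y ∈ W ∧ S.N y = q} ∪ {y | y ∈ W ∧ S.N y ≠ q} := by
    intro y hy
    by_cases hyN : S.N y = q
    · exact Or.inl ⟨hy, hyN⟩
    · exact Or.inr ⟨hy, hyN⟩
  have h1 : volume W ≤ volume {y | y ∈ W ∧ S.N y = q} + volume {y | y ∈ W ∧ S.N y ≠ q} :=
    (measure_mono hsub).trans (measure_union_le _ _)
  have hfin2 : volume {y | y ∈ W ∧ S.N y ≠ q} ≠ ⊤ :=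
    (lt_of_le_of_lt (measure_mono fun y hy => hy.1) hfin).ne
  have h2 : volume W ≤ 2 * volume {y | y ∈ W ∧ S.N y = q} := by
    have h3 : 2 * volume W ≤ 2 * volume {y | y ∈ W ∧ S.N y = q} + volume W := by
      calc 2 * volume W ≤ 2 * (volume {y | y ∈ W ∧ S.N y = q} + volume {y | y ∈ W ∧ S.N y ≠ q}) := by
            gcongr
        _ = 2 * volume {y | y ∈ W ∧ S.N y = q} + 2 * volume {y | y ∈ W ∧ S.N y ≠ q} := mul_add _ _ _
        _ ≤ _ := by gcongr
    rw [two_mul (volume W)] at h3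
    exact (ENNReal.add_le_add_iff_right hfin.ne).1 h3
  have hmeas : AEMeasurable (fun y => (S.N y : ℝ≥0∞)) (volume.restrict W) :=
    h.aemeasurable_N.mono_measure (Measure.restrict_mono hWΩ le_rfl)
  have h4 : (q : ℝ≥0∞) * volume {y | y ∈ W ∧ S.N y = q} ≤ ∫⁻ y in W, (S.N y : ℝ≥0∞) := by
    refine le_trans ?_ (mul_meas_ge_le_lintegral₀ hmeas (q : ℝ≥0∞))
    refine mul_le_mul_right ?_ _
    rw [Measure.restrict_apply' hW]
    refine measure_mono ?_
    rintro y ⟨hy, hyN⟩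
    refine ⟨?_, hy⟩
    show (q : ℝ≥0∞) ≤ (S.N y : ℝ≥0∞)
    rw [hyN]
  have h5 : ∫⁻ y in W, (S.N y : ℝ≥0∞) ≤ 2 * ∫⁻ y in W, (S.N y : ℝ≥0∞) * ENNReal.ofReal (S.a y) := by
    rw [← lintegral_const_mul' _ _ (by norm_num)]
    refine lintegral_mono fun y => ?_
    have h6 : ENNReal.ofReal (1 / 2) ≤ ENNReal.ofReal (S.a y) :=
      ENNReal.ofReal_le_ofReal (h.a_lower y)
    have e : ENNReal.ofReal (1 / 2) = 2⁻¹ := by
      rw [one_div, ENNReal.ofReal_inv_of_pos (by norm_num)]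
      simp
    rw [e] at h6
    calc (S.N y : ℝ≥0∞) = 2 * ((S.N y : ℝ≥0∞) * 2⁻¹) := by
          rw [mul_comm (S.N y : ℝ≥0∞), ← mul_assoc,
            ENNReal.mul_inv_cancel (by norm_num) (by norm_num), one_mul]
      _ ≤ 2 * ((S.N y : ℝ≥0∞) * ENNReal.ofReal (S.a y)) := by gcongr
  calc (q : ℝ≥0∞) * volume W ≤ q * (2 * volume {y | y ∈ W ∧ S.N y = q}) := by gcongr
    _ = 2 * (q * volume {y | y ∈ W ∧ S.N y = q}) := by ring
    _ ≤ 2 * (2 * ∫⁻ y in W, (S.N y : ℝ≥0∞) * ENNReal.ofReal (S.a y)) :=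
        mul_le_mul_right (h4.trans h5) _
    _ = 4 * ∫⁻ y in W, (S.N y : ℝ≥0∞) * ENNReal.ofReal (S.a y) := by
        rw [← mul_assoc]; norm_num
    _ ≤ _ := by
        gcongr
        exact h.N_lintegral_le hW hWΩ

end Sys

/-- mass of a set against a larger nonnegative integrable function. -/
theorem measure_le_ofReal_integral {α : Type*} [MeasurableSpace α] {μ : Measure α} {φ : α → ℝ}
    (hi : Integrable φ μ) (h0 : ∀ y, 0 ≤ φ y) {W : Set α} (hW : MeasurableSet W)
    (h1 : ∀ y ∈ W, φ y = 1) : μ W ≤ ENNReal.ofReal (∫ y, φ y ∂μ) := by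
  rw [ofReal_integral_eq_lintegral_ofReal hi (Filter.Eventually.of_forall h0),
    ← lintegral_indicator_one hW]
  refine lintegral_mono fun y => ?_
  by_cases hy : y ∈ W
  · rw [indicator_of_mem hy, h1 y hy]; simp
  · rw [indicator_of_notMem hy]; exact zero_le

/-- integral of a function `≤ 1` supported in `W`. -/
theorem ofReal_integral_le_measure {α : Type*} [MeasurableSpace α] {μ : Measure α} {φ : α → ℝ}
    (hi : Integrable φ μ) (h0 : ∀ y, 0 ≤ φ y) (h1 : ∀ y, φ y ≤ 1) {W : Set α}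
    (hW : MeasurableSet W) (hs : Function.support φ ⊆ W) :
    ENNReal.ofReal (∫ y, φ y ∂μ) ≤ μ W := by
  rw [ofReal_integral_eq_lintegral_ofReal hi (Filter.Eventually.of_forall h0),
    ← lintegral_indicator_one hW]
  refine lintegral_mono fun y => ?_
  by_cases hy : y ∈ W
  · rw [indicator_of_mem hy]
    have := ENNReal.ofReal_le_ofReal (h1 y)
    simpa using this
  · have : φ y = 0 := by
      by_contra hne
      exact hy (hs hne)
    rw [this]; simp

/-- **AE Lemma 2.5 / CO Lemma 3.1** (`scalar` of `Sx/Scalar.lean`). -/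
theorem scalar_main (m n : ℕ) (hm : 1 ≤ m) (Cg C0 c : ℝ) (hc : 1 < c) :
    ∃ C ε0 : ℝ, 0 < C ∧ 0 < ε0 ∧ ∀ S : Sys m n, S.Valid → S.Cg ≤ Cg →
      ∀ (x : E m) (s : ℝ), 0 < s → s ≤ 1 → ball x (c * s) ⊆ S.Ω →
      S.nu (ball x (c * s)) ≤ ENNReal.ofReal (C0 * s ^ m) →
      (S.Dm + S.Lm) (ball x (c * s)) ≤ ENNReal.ofReal (ε0 * s ^ m) →
      ∃ q : ℕ,
        S.volS {y | y ∈ ball x ((1 + c) / 2 * s) ∧ S.N y ≠ q}
          ≤ ENNReal.ofReal C * (S.Dm + S.Lm) (ball x (c * s)) ∧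
        (∀ (η : E m → ℝ) (A : ℝ), CkB 3 s A η → tsupport η ⊆ ball x ((1 + c) / 2 * s) →
          |S.intM q η| ≤ C * A * ((S.Dm + S.Lm) (ball x (c * s))).toReal) ∧
        S.absM q (ball x s) ≤ ENNReal.ofReal C * (S.Dm + S.Lm) (ball x (c * s)) := by
  have hc0 : 0 < c := by linarith
  set θ : ℝ := (1 + c) / (2 * c) with hθ
  have hθ0 : 0 < θ := by positivity
  have hθ1 : θ < 1 := by rw [hθ, div_lt_one (by positivity)]; linarith
  obtain ⟨C₁, hC₁, H⟩ := osc m n hm Cg c θ hθ0 hθ1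
  obtain ⟨Aφ, hAφ, Hφ⟩ := exists_cutoff m 1 ((1 + c) / 2) one_pos (by linarith)
  set κ : ℝ := (volume (ball (0 : E m) 1)).toReal with hκ
  have hκ0 : 0 < κ := volume_unit_ball_pos m
  set ε0 : ℝ := κ / (16 * C₁) with hε0
  have hε00 : 0 < ε0 := by positivity
  set qmax : ℝ := 4 * (|C0| + |Cg| * ε0) / κ with hqmax
  have hqmax0 : 0 ≤ qmax := by positivity
  set K2 : ℝ := C₁ * c ^ 3 + 8 * C₁ with hK2
  have hK20 : 0 < K2 := by positivity
  set K5 : ℝ := 8 * qmax * C₁ + |Cg| with hK5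
  have hK50 : 0 ≤ K5 := by positivity
  set C : ℝ := 8 * C₁ + K2 + (K2 * Aφ + 2 * K5) + 1 with hC
  have hC0 : 0 < C := by positivity
  refine ⟨C, ε0, hC0, hε00, ?_⟩
  intro S hS hCg x s hs hs1 hball hnu hDL
  set R : ℝ := c * s with hR
  have hR0 : 0 < R := by positivity
  have hRc : R ≤ c := by rw [hR]; nlinarith
  have hθR : θ * R = (1 + c) / 2 * s := by rw [hθ, hR]; field_simp
  have hnufin : S.nu (ball x R) < ⊤ := lt_of_le_of_lt hnu ENNReal.ofReal_lt_top
  have hDLfin : (S.Dm + S.Lm) (ball x R) < ⊤ := lt_of_le_of_lt hDL ENNReal.ofReal_lt_top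
  set ε : ℝ := ((S.Dm + S.Lm) (ball x R)).toReal with hε
  have hε_nn : 0 ≤ ε := ENNReal.toReal_nonneg
  have hεof : ENNReal.ofReal ε = (S.Dm + S.Lm) (ball x R) := ENNReal.ofReal_toReal hDLfin.ne
  have hsm : 0 < s ^ m := pow_pos hs m
  have hεle : ε ≤ ε0 * s ^ m := ENNReal.toReal_le_of_le_ofReal (by positivity) hDL
  have hosc : S.oscE x R 0 = ε := by
    unfold Sys.oscE
    rw [mul_zero, zero_mul, add_zero]
  obtain ⟨c₀, hw, hd⟩ := H S hS hCg x R hR0 hRc hball hnufin (fun _ => 1) 0 (isTest_one n)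
  rw [hosc, hθR] at hw hd
  simp only [Sys.Nf_one, mul_one] at hw hd
  set r' : ℝ := (1 + c) / 2 * s with hr'
  have hr'0 : 0 < r' := by positivity
  have hsr' : s ≤ r' := by rw [hr']; nlinarith
  have hr'R : r' ≤ R := by rw [hr', hR]; nlinarith
  have hB'R : ball x r' ⊆ ball x R := ball_subset_ball hr'R
  have hB'Ω : ball x r' ⊆ S.Ω := hB'R.trans hball
  have hB'fin : volume (ball x r') < ⊤ := measure_ball_lt_top
  have hVol : (volume (ball x r')).toReal = r' ^ m * κ := by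
    rw [volume_ball_eq x hr'0, ENNReal.toReal_mul, ENNReal.toReal_ofReal (by positivity)]
  have hVolge : κ * s ^ m ≤ (volume (ball x r')).toReal := by
    rw [hVol, mul_comm]
    exact mul_le_mul_of_nonneg_right (pow_le_pow_left₀ hs.le hsr' m) hκ0.le
  have h8 : 8 * (C₁ * ε) < (volume (ball x r')).toReal := by
    have h1 : 8 * (C₁ * ε) ≤ 8 * (C₁ * (ε0 * s ^ m)) := by gcongr
    have h2 : 8 * (C₁ * (ε0 * s ^ m)) = κ * s ^ m / 2 := by
      rw [hε0]; field_simp; ring
    have h3 : 0 < κ * s ^ m := by positivity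
    linarith
  have hsmall : ENNReal.ofReal (8 * (C₁ * ε)) < volume (ball x r') :=
    (ENNReal.ofReal_lt_iff_lt_toReal (by positivity) hB'fin.ne).2 h8
  obtain ⟨q, hq1, hq2⟩ := int_select (ball x r') S.N c₀ (C₁ * ε) (by positivity) hB'fin hsmall hw
  -- the distributional bound
  have hint : ∀ (η : E m → ℝ) (A : ℝ), CkB 3 s A η → tsupport η ⊆ ball x r' →
      |S.intM q η| ≤ K2 * A * ε := by
    intro η A hη hηs
    have hA := hη.A_nonneg
    have h1 := hd η (c ^ 3 * A) (hη.scale hc.le hs.le) hηs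
    have hsupp : Function.support η ⊆ ball x r' := (subset_tsupport _).trans hηs
    have hbd : ∀ y, |η y| ≤ A := fun y => by
      have := hη.2 0 (by norm_num) y
      simpa using this
    have h2 := hS.abs_integral_mul_a_le hbd measurableSet_ball hsupp hB'fin
    have e1 : ∫ y in S.Ω, η y * S.a y = ∫ y, η y * S.a y :=
      setIntegral_eq_integral_of_forall_compl_eq_zero (fun y hy => by
        have : η y = 0 := by
          by_contra hne
          exact hy (hB'Ω (hsupp hne))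
        rw [this, zero_mul])
    have e2 : S.intM q η = ((∫ p, η p.1 ∂S.μ) - c₀ * ∫ y, η y * S.a y)
        + (c₀ - q) * ∫ y, η y * S.a y := by
      unfold Sys.intM
      rw [e1]; ring
    rw [e2]
    calc |((∫ p, η p.1 ∂S.μ) - c₀ * ∫ y, η y * S.a y) + (c₀ - q) * ∫ y, η y * S.a y|
        ≤ |(∫ p, η p.1 ∂S.μ) - c₀ * ∫ y, η y * S.a y| + |(c₀ - q) * ∫ y, η y * S.a y| :=
          abs_add_le _ _
      _ ≤ C₁ * (c ^ 3 * A) * ε + |c₀ - q| * (2 * A * (volume (ball x r')).toReal) := by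
          rw [abs_mul]; gcongr
      _ = C₁ * (c ^ 3 * A) * ε + 2 * A * (|c₀ - q| * (volume (ball x r')).toReal) := by ring
      _ ≤ C₁ * (c ^ 3 * A) * ε + 2 * A * (4 * (C₁ * ε)) := by gcongr
      _ = K2 * A * ε := by rw [hK2]; ring
  -- bound of `q`
  have hCgS : ENNReal.ofReal S.Cg ≤ ENNReal.ofReal |Cg| :=
    ENNReal.ofReal_le_ofReal (hCg.trans (le_abs_self _))
  have hq2' : 2 * volume {y | y ∈ ball x r' ∧ S.N y ≠ q} ≤ volume (ball x r') := by
    calc 2 * volume {y | y ∈ ball x r' ∧ S.N y ≠ q} ≤ 2 * ENNReal.ofReal (4 * (C₁ * ε)) := by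
          gcongr
      _ = ENNReal.ofReal (8 * (C₁ * ε)) := by
          rw [← ENNReal.ofReal_ofNat 2, ← ENNReal.ofReal_mul (by norm_num)]
          congr 1; ring
      _ ≤ _ := hsmall.le
  have hqle : (q : ℝ) ≤ qmax := by
    have h1 := hS.count_bound measurableSet_ball hB'Ω hB'fin q hq2'
    have h2 : 4 * (S.nu (ball x r') + ENNReal.ofReal S.Cg * (S.Dm + S.Lm) (ball x r'))
        ≤ ENNReal.ofReal (4 * (|C0| * s ^ m + |Cg| * (ε0 * s ^ m))) := by
      rw [ENNReal.ofReal_mul (by norm_num), ENNReal.ofReal_ofNat,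
        ENNReal.ofReal_add (by positivity) (by positivity), ENNReal.ofReal_mul (abs_nonneg Cg)]
      gcongr
      · refine ((measure_mono hB'R).trans hnu).trans (ENNReal.ofReal_le_ofReal ?_)
        exact mul_le_mul_of_nonneg_right (le_abs_self _) hsm.le
      · exact (measure_mono hB'R).trans hDL
    have h3 := ENNReal.toReal_le_of_le_ofReal (by positivity) (h1.trans h2)
    rw [ENNReal.toReal_mul, ENNReal.toReal_natCast] at h3
    have h4 : (q : ℝ) * (κ * s ^ m) ≤ 4 * (|C0| * s ^ m + |Cg| * (ε0 * s ^ m)) :=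
      (mul_le_mul_of_nonneg_left hVolge (Nat.cast_nonneg q)).trans h3
    rw [hqmax, le_div_iff₀ hκ0]
    have h5 : ((q : ℝ) * κ) * s ^ m ≤ (4 * (|C0| + |Cg| * ε0)) * s ^ m := by
      calc ((q : ℝ) * κ) * s ^ m = (q : ℝ) * (κ * s ^ m) := by ring
        _ ≤ _ := h4
        _ = _ := by ring
    exact le_of_mul_le_mul_right h5 hsm
  -- negative part
  have hneg : S.Mneg q (ball x r') ≤ ENNReal.ofReal (K5 * ε) := by
    have h1 := hS.Mneg_le q measurableSet_ball hB'Ω
      (lt_of_le_of_lt (measure_mono hB'R) hnufin)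
    refine h1.trans ?_
    have e : K5 * ε = 2 * qmax * (4 * (C₁ * ε)) + |Cg| * ε := by rw [hK5]; ring
    rw [e, ENNReal.ofReal_add (by positivity) (by positivity),
      ENNReal.ofReal_mul (by positivity : (0 : ℝ) ≤ 2 * qmax), ENNReal.ofReal_mul (abs_nonneg Cg),
      hεof]
    gcongr
  -- cutoff
  obtain ⟨φ, hφC, hφ0, hφ1, hφone, hφs, hφc⟩ := Hφ x s hs
  rw [one_mul] at hφone
  have hφm : Measurable φ := hφC.1.continuous.measurable
  have hφK : tsupport φ ⊆ S.Ω := hφs.trans hB'Ω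
  have hφb : ∀ y, |φ y| ≤ 1 := fun y => by rw [abs_of_nonneg (hφ0 y)]; exact hφ1 y
  have hJ := hS.intM_eq q hφm hφc hφK (subset_tsupport φ) 1 hφb
  have hiP := hS.integrable_Mpos q hφm hφc hφK (subset_tsupport φ) 1 hφb
  have hiN := hS.integrable_Mneg q hφm hφc hφK (subset_tsupport φ) 1 hφb
  have hN1 : ∫ y, φ y ∂(S.Mneg q) ≤ K5 * ε := by
    have h1 := (ofReal_integral_le_measure hiN hφ0 hφ1 measurableSet_ball
      ((subset_tsupport φ).trans hφs)).trans hneg
    exact (ENNReal.ofReal_le_ofReal_iff (by positivity)).1 h1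
  have hP1 : ∫ y, φ y ∂(S.Mpos q) ≤ (K2 * Aφ + K5) * ε := by
    have h1 := (le_abs_self _).trans (hint φ Aφ hφC hφs)
    have : ∫ y, φ y ∂(S.Mpos q) = S.intM q φ + ∫ y, φ y ∂(S.Mneg q) := by rw [hJ]; ring
    rw [this]
    linarith
  have hpos : S.Mpos q (ball x s) ≤ ENNReal.ofReal ((K2 * Aφ + K5) * ε) :=
    (measure_le_ofReal_integral hiP hφ0 measurableSet_ball hφone).trans
      (ENNReal.ofReal_le_ofReal hP1)
  have hmonoC : ∀ a : ℝ, 0 ≤ a → a ≤ C →
      ENNReal.ofReal (a * ε) ≤ ENNReal.ofReal C * (S.Dm + S.Lm) (ball x R) := by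
    intro a ha haC
    rw [← hεof, ← ENNReal.ofReal_mul hC0.le]
    exact ENNReal.ofReal_le_ofReal (mul_le_mul_of_nonneg_right haC hε_nn)
  refine ⟨q, ?_, ?_, ?_⟩
  · refine (hS.volS_le _).trans ?_
    calc 2 * volume {y | y ∈ ball x r' ∧ S.N y ≠ q} ≤ 2 * ENNReal.ofReal (4 * (C₁ * ε)) := by
          gcongr
      _ = ENNReal.ofReal (8 * C₁ * ε) := by
          rw [← ENNReal.ofReal_ofNat 2, ← ENNReal.ofReal_mul (by norm_num)]
          congr 1; ring
      _ ≤ _ := hmonoC _ (by positivity) (by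
          rw [hC]
          have : 0 ≤ K2 * Aφ + 2 * K5 := by positivity
          linarith)
  · intro η A hη hηs
    refine (hint η A hη hηs).trans ?_
    have hA := hη.A_nonneg
    have : K2 ≤ C := by
      rw [hC]
      have : 0 ≤ K2 * Aφ + 2 * K5 := by positivity
      linarith
    gcongr
  · rw [hS.absM_eq q, Measure.add_apply]
    calc S.Mpos q (ball x s) + S.Mneg q (ball x s)
        ≤ ENNReal.ofReal ((K2 * Aφ + K5) * ε) + ENNReal.ofReal (K5 * ε) :=
          add_le_add hpos ((measure_mono (ball_subset_ball hsr')).trans hneg)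
      _ = ENNReal.ofReal ((K2 * Aφ + 2 * K5) * ε) := by
          rw [← ENNReal.ofReal_add (by positivity) (by positivity)]
          congr 1; ring
      _ ≤ _ := hmonoC _ (by positivity) (by rw [hC]; linarith)

end Claimed.Agent.R322.Sx
end

/- ===== packed: Claimed.Agent.R322.Sx.Scalar ===== -/
section
/-!
# R322 / Sx / Scalar : scalar mass and propagation of the integer (AE Lemma 2.5 = CO Lemma 3.1)

Statements for valid sheeted systems.  `scalar` selects an integer `q` from small energy and bounded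
mass; `scalar_tau` is the form used in AE Sections 4-6 ("since `τ` includes `|M|`, the integer is `Q`").
All balls have radius `s ≤ 1` (the class is closed under `rescale x s` only for `s ≤ 1`).
Proof: rescale to `s = 1`; `Valid.horiz_prod` with `f = 1`, `X = a⁻¹ Y` gives the equation of
`CZ.potential` for `v = a⁻¹ ν` with data of mass `≤ C (D + Λ)`; `Valid.nu_sub_count_le`; integrality.
General enlargement `c > 1`: the inner radius `θ` of `CZ.potential` is arbitrary.
`CkB` now lives in `Sx/Scalar/Defs.lean`; `scalar` is proved in `Sx/Scalar/*.lean` (blueprint helper234: PotBall, Ident, Count, Osc, Main).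
-/

set_option autoImplicit false

namespace Claimed.Agent.R322.Sx

open MeasureTheory Set Metric
open scoped ENNReal NNReal InnerProductSpace

/-- **AE Lemma 2.5 / CO Lemma 3.1.** -/
theorem scalar (m n : ℕ) (hm : 1 ≤ m) (Cg C0 c : ℝ) (hc : 1 < c) :
    ∃ C ε0 : ℝ, 0 < C ∧ 0 < ε0 ∧ ∀ S : Sys m n, S.Valid → S.Cg ≤ Cg →
      ∀ (x : E m) (s : ℝ), 0 < s → s ≤ 1 → ball x (c * s) ⊆ S.Ω →
      S.nu (ball x (c * s)) ≤ ENNReal.ofReal (C0 * s ^ m) →
      (S.Dm + S.Lm) (ball x (c * s)) ≤ ENNReal.ofReal (ε0 * s ^ m) →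
      ∃ q : ℕ,
        S.volS {y | y ∈ ball x ((1 + c) / 2 * s) ∧ S.N y ≠ q}
          ≤ ENNReal.ofReal C * (S.Dm + S.Lm) (ball x (c * s)) ∧
        (∀ (η : E m → ℝ) (A : ℝ), CkB 3 s A η → tsupport η ⊆ ball x ((1 + c) / 2 * s) →
          |S.intM q η| ≤ C * A * ((S.Dm + S.Lm) (ball x (c * s))).toReal) ∧
        S.absM q (ball x s) ≤ ENNReal.ofReal C * (S.Dm + S.Lm) (ball x (c * s)) :=
  scalar_main m n hm Cg C0 c hc

/-- `vol_S (B_s) ≥ ω s^m / 2`. -/
theorem Sys.Valid.sc_volS_ball_ge {m n : ℕ} {S : Sys m n} (h : S.Valid) {x : E m} {s : ℝ} (hs : 0 < s)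
    (hb : ball x s ⊆ S.Ω) :
    ENNReal.ofReal ((volume (ball (0 : E m) 1)).toReal * s ^ m / 2) ≤ S.volS (ball x s) := by
  have h1 := h.le_volS hb
  have hω : volume (ball (0 : E m) 1) ≠ ⊤ := measure_ball_lt_top.ne
  rw [volume_ball_eq x hs] at h1
  have gen : ∀ w : ℝ≥0∞, w ≠ ⊤ → ∀ t : ℝ, 0 ≤ t →
      2 * ENNReal.ofReal (w.toReal * t / 2) = ENNReal.ofReal t * w := by
    intro w hw t ht
    rw [show (2 : ℝ≥0∞) = ENNReal.ofReal 2 by simp, ← ENNReal.ofReal_mul (by norm_num),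
      show 2 * (w.toReal * t / 2) = t * w.toReal by ring, ENNReal.ofReal_mul ht,
      ENNReal.ofReal_toReal hw]
  have h2 := gen _ hω (s ^ m) (by positivity)
  rw [← h2] at h1
  exact (ENNReal.mul_le_mul_iff_right (by norm_num) (by norm_num)).1 h1

/-- `vol_S (B_s) ≤ 2 ω s^m`. -/
theorem Sys.Valid.sc_volS_ball_le {m n : ℕ} {S : Sys m n} (h : S.Valid) (x : E m) {s : ℝ} (hs : 0 < s) :
    S.volS (ball x s) ≤ ENNReal.ofReal (2 * (volume (ball (0 : E m) 1)).toReal * s ^ m) := by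
  have h1 := h.volS_le (ball x s)
  have hω : volume (ball (0 : E m) 1) ≠ ⊤ := measure_ball_lt_top.ne
  rw [volume_ball_eq x hs] at h1
  refine h1.trans (le_of_eq ?_)
  have gen : ∀ w : ℝ≥0∞, w ≠ ⊤ → ∀ t : ℝ, 0 ≤ t →
      2 * (ENNReal.ofReal t * w) = ENNReal.ofReal (2 * w.toReal * t) := by
    intro w hw t ht
    rw [mul_assoc, ENNReal.ofReal_mul (by norm_num), ENNReal.ofReal_mul ENNReal.toReal_nonneg,
      ENNReal.ofReal_toReal hw, mul_comm w]
    simp
  exact gen _ hω (s ^ m) (by positivity)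

/-- The form used in AE Sections 4-6: small `τ_Q` identifies `Q`, AE (2.13). -/
theorem scalar_tau (m n Q : ℕ) (hm : 1 ≤ m) (Cg c : ℝ) (hc : 1 < c) :
    ∃ C d0 : ℝ, 0 < C ∧ 0 < d0 ∧ ∀ S : Sys m n, S.Valid → S.Cg ≤ Cg →
      ∀ (x : E m) (s : ℝ), 0 < s → s ≤ 1 → ball x (c * s) ⊆ S.Ω →
      S.tau Q (ball x (c * s)) ≤ ENNReal.ofReal (d0 * s ^ m) →
      S.absM Q (ball x s) + S.volS {y | y ∈ ball x s ∧ S.N y ≠ Q}
        ≤ ENNReal.ofReal C * (S.Dm + S.Lm) (ball x (c * s)) := by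
  obtain ⟨ω, hωdef⟩ : ∃ ω : ℝ, ω = (volume (ball (0 : E m) 1)).toReal := ⟨_, rfl⟩
  have hω : 0 < ω := hωdef ▸ volume_unit_ball_pos m
  have hc0 : 0 < c := by linarith
  obtain ⟨C, ε0, hC, hε0, H⟩ := scalar m n hm Cg (1 + Q * (2 * ω * c ^ m)) c hc
  refine ⟨2 * C, min (min ε0 1) (ω / (4 * (C + 1))), by positivity,
    lt_min (lt_min hε0 one_pos) (by positivity), ?_⟩
  intro S hS hCg x s hs hs1 hball hτ
  set d0 := min (min ε0 1) (ω / (4 * (C + 1))) with hd0
  have hd0pos : 0 < d0 := lt_min (lt_min hε0 one_pos) (by positivity)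
  have hsm : 0 < s ^ m := by positivity
  have hDLτ : (S.Dm + S.Lm) (ball x (c * s)) ≤ S.tau Q (ball x (c * s)) := by
    unfold Sys.tau
    simp only [Measure.add_apply]
    rw [add_assoc]
    exact le_add_self
  have hMτ : ∀ W : Set (E m), S.absM Q W ≤ S.tau Q W := by
    intro W
    unfold Sys.tau
    simp only [Measure.add_apply]
    exact le_add_right (le_add_right le_rfl)
  have hDL1 : (S.Dm + S.Lm) (ball x (c * s)) ≤ ENNReal.ofReal (d0 * s ^ m) := hDLτ.trans hτ
  have hDL' : (S.Dm + S.Lm) (ball x (c * s)) ≤ ENNReal.ofReal (ε0 * s ^ m) :=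
    hDL1.trans (ENNReal.ofReal_le_ofReal (mul_le_mul_of_nonneg_right
      ((min_le_left _ _).trans (min_le_left _ _)) hsm.le))
  have hν : S.nu (ball x (c * s)) ≤ ENNReal.ofReal ((1 + Q * (2 * ω * c ^ m)) * s ^ m) := by
    have e1 : S.nu (ball x (c * s))
        ≤ S.absM Q (ball x (c * s)) + (Q : ℝ≥0∞) * S.volS (ball x (c * s)) := by
      have := hS.nu_le Q (ball x (c * s))
      simpa using this
    have e2 := hS.sc_volS_ball_le x (s := c * s) (by positivity)
    rw [← hωdef] at e2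
    calc _ ≤ ENNReal.ofReal (d0 * s ^ m) + (Q : ℝ≥0∞) * ENNReal.ofReal (2 * ω * (c * s) ^ m) :=
          e1.trans (add_le_add ((hMτ _).trans hτ) (by gcongr))
      _ = ENNReal.ofReal (d0 * s ^ m + Q * (2 * ω * (c * s) ^ m)) := by
          rw [ENNReal.ofReal_add (by positivity) (by positivity),
            ENNReal.ofReal_mul (Nat.cast_nonneg Q), ENNReal.ofReal_natCast]
      _ ≤ _ := by
          apply ENNReal.ofReal_le_ofReal
          rw [mul_pow]
          have : d0 ≤ 1 := (min_le_left _ _).trans (min_le_right _ _)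
          nlinarith
  obtain ⟨q, h1, -, h3⟩ := H S hS hCg x s hs hs1 hball hν hDL'
  have hbs : ball x s ⊆ ball x ((1 + c) / 2 * s) := ball_subset_ball (by nlinarith)
  have hbc : ball x s ⊆ ball x (c * s) := ball_subset_ball (by nlinarith)
  have hbΩ : ball x s ⊆ S.Ω := hbc.trans hball
  have h1' : S.volS {y | y ∈ ball x s ∧ S.N y ≠ q}
      ≤ ENNReal.ofReal C * (S.Dm + S.Lm) (ball x (c * s)) :=
    (measure_mono (fun y (hy : y ∈ ball x s ∧ S.N y ≠ q) => And.intro (hbs hy.1) hy.2)).trans h1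
  have hVge := hS.sc_volS_ball_ge hs hbΩ
  rw [← hωdef] at hVge
  have hqq : q = Q := by
    by_contra hne
    have e1 : ENNReal.ofReal |(q : ℝ) - Q| * S.volS (ball x s)
        ≤ S.absM q (ball x s) + S.absM Q (ball x s) := by
      have := hS.count_unique q Q (ball x s)
      simpa using this
    have e2 : (1 : ℝ≥0∞) ≤ ENNReal.ofReal |(q : ℝ) - Q| := by
      rw [← ENNReal.ofReal_one]
      apply ENNReal.ofReal_le_ofReal
      have : (q : ℤ) - Q ≠ 0 := by
        intro h0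
        apply hne
        omega
      have h2 := Int.one_le_abs this
      have h3 : ((1 : ℤ) : ℝ) ≤ ((|(q : ℤ) - Q| : ℤ) : ℝ) := by exact_mod_cast h2
      simpa using h3
    have e3 : S.volS (ball x s) ≤ ENNReal.ofReal (ω * s ^ m / 4) := by
      calc S.volS (ball x s) = 1 * S.volS (ball x s) := (one_mul _).symm
        _ ≤ ENNReal.ofReal |(q : ℝ) - Q| * S.volS (ball x s) := by gcongr
        _ ≤ ENNReal.ofReal C * ENNReal.ofReal (d0 * s ^ m) + ENNReal.ofReal (d0 * s ^ m) := by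
            refine e1.trans (add_le_add (h3.trans (by gcongr)) ?_)
            exact ((hMτ _).trans (measure_mono hbc)).trans hτ
        _ = ENNReal.ofReal ((C + 1) * d0 * s ^ m) := by
            rw [← ENNReal.ofReal_mul hC.le, ← ENNReal.ofReal_add (by positivity) (by positivity)]
            congr 1
            ring
        _ ≤ _ := by
            apply ENNReal.ofReal_le_ofReal
            have h4 : d0 ≤ ω / (4 * (C + 1)) := min_le_right _ _
            have h5 : (C + 1) * d0 ≤ ω / 4 := by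
              calc (C + 1) * d0 ≤ (C + 1) * (ω / (4 * (C + 1))) :=
                    mul_le_mul_of_nonneg_left h4 (by positivity)
                _ = ω / 4 := by field_simp
            have := mul_le_mul_of_nonneg_right h5 hsm.le
            linarith
    have e4 : ENNReal.ofReal (ω * s ^ m / 4) < ENNReal.ofReal (ω * s ^ m / 2) := by
      rw [ENNReal.ofReal_lt_ofReal_iff (by positivity)]
      have : 0 < ω * s ^ m := by positivity
      linarith
    exact absurd (hVge.trans e3) (not_le.2 e4)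
  subst hqq
  calc _ ≤ ENNReal.ofReal C * (S.Dm + S.Lm) (ball x (c * s))
        + ENNReal.ofReal C * (S.Dm + S.Lm) (ball x (c * s)) := add_le_add h3 h1'
    _ = _ := by
        rw [← add_mul, ← ENNReal.ofReal_add hC.le hC.le]
        congr 2
        ring

/-- Identification of the selected integer by a majority set (used for height groups in AE P4.3):
if `N = q'` on more than the exceptional volume, the integer selected by `scalar` is `q'`. -/
theorem scalar_majority (m n : ℕ) (hm : 1 ≤ m) (Cg C0 c : ℝ) (hc : 1 < c) :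
    ∃ C ε0 : ℝ, 0 < C ∧ 0 < ε0 ∧ ∀ S : Sys m n, S.Valid → S.Cg ≤ Cg →
      ∀ (x : E m) (s : ℝ) (q' : ℕ), 0 < s → s ≤ 1 → ball x (c * s) ⊆ S.Ω →
      S.nu (ball x (c * s)) ≤ ENNReal.ofReal (C0 * s ^ m) →
      (S.Dm + S.Lm) (ball x (c * s)) ≤ ENNReal.ofReal (ε0 * s ^ m) →
      S.volS {y | y ∈ ball x s ∧ S.N y ≠ q'} ≤ (1 / 2 : ℝ≥0∞) * S.volS (ball x s) →
      S.absM q' (ball x s) + S.volS {y | y ∈ ball x s ∧ S.N y ≠ q'}
        ≤ ENNReal.ofReal C * (S.Dm + S.Lm) (ball x (c * s)) := by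
  obtain ⟨C, ε0, hC, hε0, H⟩ := scalar m n hm Cg C0 c hc
  obtain ⟨ω, hωdef⟩ : ∃ ω : ℝ, ω = (volume (ball (0 : E m) 1)).toReal := ⟨_, rfl⟩
  have hω : 0 < ω := hωdef ▸ volume_unit_ball_pos m
  refine ⟨2 * C, min ε0 (ω / (8 * C)), by positivity, lt_min hε0 (by positivity), ?_⟩
  intro S hS hCg x s q' hs hs1 hball hν hDL hmaj
  have hsm : 0 < s ^ m := by positivity
  have hDL' : (S.Dm + S.Lm) (ball x (c * s)) ≤ ENNReal.ofReal (ε0 * s ^ m) :=
    hDL.trans (ENNReal.ofReal_le_ofReal (mul_le_mul_of_nonneg_right (min_le_left _ _) hsm.le))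
  obtain ⟨q, h1, -, h3⟩ := H S hS hCg x s hs hs1 hball hν hDL'
  have hbs : ball x s ⊆ ball x ((1 + c) / 2 * s) := ball_subset_ball (by nlinarith)
  have hbΩ : ball x s ⊆ S.Ω := (ball_subset_ball (by nlinarith)).trans hball
  have h1' : S.volS {y | y ∈ ball x s ∧ S.N y ≠ q}
      ≤ ENNReal.ofReal C * (S.Dm + S.Lm) (ball x (c * s)) :=
    (measure_mono (fun y (hy : y ∈ ball x s ∧ S.N y ≠ q) => And.intro (hbs hy.1) hy.2)).trans h1
  have hVge := hS.sc_volS_ball_ge hs hbΩ
  rw [← hωdef] at hVge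
  have hVfin : S.volS (ball x s) ≠ ⊤ :=
    ((hS.sc_volS_ball_le x hs).trans_lt ENNReal.ofReal_lt_top).ne
  have hqq : q = q' := by
    by_contra hne
    have hcov : ball x s ⊆ {y | y ∈ ball x s ∧ S.N y ≠ q} ∪ {y | y ∈ ball x s ∧ S.N y ≠ q'} := by
      intro y hy
      by_cases h : S.N y = q
      · exact Or.inr ⟨hy, fun h' => hne (h.symm.trans h')⟩
      · exact Or.inl ⟨hy, h⟩
    have hV := (measure_mono (μ := S.volS) hcov).trans (measure_union_le _ _)
    have hsmall : S.volS {y | y ∈ ball x s ∧ S.N y ≠ q} < (1 / 2 : ℝ≥0∞) * S.volS (ball x s) := by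
      calc S.volS {y | y ∈ ball x s ∧ S.N y ≠ q}
          ≤ ENNReal.ofReal C * ENNReal.ofReal (ω / (8 * C) * s ^ m) := by
            refine h1'.trans ?_
            gcongr
            exact hDL.trans (ENNReal.ofReal_le_ofReal
              (mul_le_mul_of_nonneg_right (min_le_right _ _) hsm.le))
        _ = ENNReal.ofReal (ω * s ^ m / 8) := by
            rw [← ENNReal.ofReal_mul hC.le]
            congr 1
            field_simp
        _ < ENNReal.ofReal (1 / 2 * (ω * s ^ m / 2)) := by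
            rw [ENNReal.ofReal_lt_ofReal_iff (by positivity)]
            have : 0 < ω * s ^ m := by positivity
            linarith
        _ = (1 / 2 : ℝ≥0∞) * ENNReal.ofReal (ω * s ^ m / 2) := by
            rw [ENNReal.ofReal_mul (by norm_num)]
            congr 1
            rw [ENNReal.ofReal_div_of_pos (by norm_num)]
            simp
        _ ≤ _ := by gcongr
    have hlt := ENNReal.add_lt_add_of_lt_of_le
      (ne_top_of_le_ne_top (ENNReal.mul_ne_top (by simp) hVfin) hmaj) hsmall hmaj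
    rw [← add_mul, one_div, ENNReal.inv_two_add_inv_two, one_mul] at hlt
    exact absurd hV (not_le.2 hlt)
  subst hqq
  calc _ ≤ ENNReal.ofReal C * (S.Dm + S.Lm) (ball x (c * s))
        + ENNReal.ofReal C * (S.Dm + S.Lm) (ball x (c * s)) := add_le_add h3 h1'
    _ = _ := by
        rw [← add_mul, ← ENNReal.ofReal_add hC.le hC.le]
        congr 2
        ring

end Claimed.Agent.R322.Sx
end

/- ===== packed: Claimed.Agent.R322.Sx.Config.Defs ===== -/
section
/-!
# R322 / Sx / Config / Defs   (blueprint: helper234)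

Vocabulary of the package BP-AE2-config (AE Lemma 2.6).  `AdmP`, `AdmB`, `IsWitness`, `ConfigHolds` are the definitions that used to
live in `Sx/Config.lean` (verbatim).  Everything new lives in the namespace `Cf`.

## Plan of the package (differences to the paper are marked (!))

1. `Match.lean`    : algebra of `Matched`, `FibMatch`, `distA`, `IsMajority`; `majority_matching` (AE (4.10), moved here verbatim).
2. `Step.lean`     : test functions of the height (smoothed half lines, bumps).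
3. `Median.lean`, `Grid.lean`, `Net.lean`, `Labels.lean`, `SelAbs.lean` : the FINITE SELECTION as a statement about an arbitrary family of
   multisets `fib y`, `y ∈ Y`, an arbitrary measure, and the single hypothesis "every test sum is within 1/4 of a constant off a set of
   measure `ε`".  (!) Instead of quantiles of an averaged measure we use MEDIANS OF RANK FUNCTIONS, instead of products of interval
   cutoffs we use bumps around a separated net of the coordinate grid.  No measurability of any exceptional set is used.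
4. `SelSys.lean`   : `select` = the majority assertion of AE Lemma 2.6 on `B_s(x)` with enlargement `B_{2s}(x)`; from `osc`
   (AE (2.17)), `scalar_tau`.  (!) zero energy: the exceptional sets are null for every width `w`, so no limsup argument is needed.
5. `Supp.lean`     : `support_bound` = the all-support `O(r)` bound (axiom `lower` with `O = univ`).
6. `Desc*.lean`    : the descent as a statement on two measures `τ`, `ν` on the base.  (!) No dyadic cubes: for every base point `y` we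
   use the CONCENTRIC balls `B_{r_j}(y)`, `r_j = s 2^{-j}`; bounded overlap is replaced by Fubini (`fubini_ball`).
   `PsiE y = K s √d + Σ_j b_j(y)` is the majorant; `desc_sup`, `desc_moment` are its sup and `L^p(ν)` bounds.
7. `Chain.lean`    : `dist(ζ, A) ≤ PsiE y` for every support point `(y, ζ)` over `B_s(x)`.
8. `Main.lean`     : assembly, `config_main` (enlargement `c = 5`).
-/

set_option autoImplicit false

namespace Claimed.Agent.R322.Sx

open MeasureTheory Set Metric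
open scoped ENNReal NNReal InnerProductSpace

/-- admissible moment exponents, AE (2.15). -/
def AdmP (m : ℕ) (p : ℝ) : Prop := 2 < p ∧ (m : ℝ) * (1 / 2 - 1 / p) < 1

/-- admissible support exponents `0 < β < min {1/2, 1/m}`. -/
def AdmB (m : ℕ) (β : ℝ) : Prop := 0 < β ∧ β < 1 / 2 ∧ β * m < 1

/-- `A` is a joint majority / moment / support witness on `B_s(x)` with upper bound `d`:
the three conclusions of AE Lemma 2.6. -/
structure IsWitness {m n Q : ℕ} (S : Sys m n) (x : E m) (s d δ Cδ : ℝ) (Cp Cβ : ℝ → ℝ)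
    (A : Fin Q → E n) : Prop where
  maj : S.IsMajority x s δ (Cδ * s * Real.sqrt d) A
  moment : ∀ p : ℝ, AdmP m p →
    ∫ q in ball x s ×ˢ (univ : Set (E n)), Sys.distA A q.2 ^ p ∂S.μ
      ≤ s ^ m * (Cp p * s * Real.sqrt d) ^ p
  sup : ∀ β : ℝ, AdmB m β → ∀ q ∈ S.spt, q.1 ∈ ball x s → Sys.distA A q.2 ≤ Cβ β * s * d ^ β

/-- AE Lemma 2.6 holds with the given constants. -/
def ConfigHolds (m n Q : ℕ) (Cg c δ d0 Cδ : ℝ) (Cp Cβ : ℝ → ℝ) : Prop :=
  ∀ S : Sys m n, S.Valid → S.Cg ≤ Cg → ∀ (x : E m) (s d : ℝ), 0 < s → s ≤ 1 → 0 ≤ d → d ≤ d0 →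
    ball x (c * s) ⊆ S.Ω → S.tau Q (ball x (c * s)) ≤ ENNReal.ofReal (d * s ^ m) →
    ∃ A : Fin Q → E n, IsWitness S x s d δ Cδ Cp Cβ A

namespace Cf

/-- the finite selection holds with exceptional proportion `δ`, threshold `dsel`, constant `K` (enlargement `2`). -/
def SelHolds (m n Q : ℕ) (Cg δ dsel K : ℝ) : Prop :=
  ∀ S : Sys m n, S.Valid → S.Cg ≤ Cg → ∀ (x : E m) (s d : ℝ), 0 < s → s ≤ 1 → 0 ≤ d → d ≤ dsel →
    ball x (2 * s) ⊆ S.Ω → S.tau Q (ball x (2 * s)) ≤ ENNReal.ofReal (d * s ^ m) →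
    ∃ A : Fin Q → E n, S.IsMajority x s δ (K * s * Real.sqrt d) A

/-- the all-support bound holds with proportion `δs` and threshold `ds`. -/
def SuppHolds (m n Q : ℕ) (Cg δs ds : ℝ) : Prop :=
  ∀ S : Sys m n, S.Valid → S.Cg ≤ Cg → ∀ (x : E m) (r ρ : ℝ) (A : Fin Q → E n), 0 < r → 0 ≤ ρ →
    ball x r ⊆ S.Ω → S.tau Q (ball x r) ≤ ENNReal.ofReal (ds * r ^ m) → S.IsMajority x r δs ρ A →
    ∀ q ∈ S.spt, q.1 ∈ ball x (r / 2) → Sys.distA A q.2 ≤ ρ + r / 2

/-! ### The descent majorant (two measures on the base, no system) -/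

/-- dyadic radii `r_j = s 2^{-j}`. -/
noncomputable def rr (s : ℝ) (j : ℕ) : ℝ := s / 2 ^ j

/-- the branch at `y` continues down to generation `j`. -/
def Cont {m : ℕ} (τ : Measure (E m)) (dint s : ℝ) (y : E m) (j : ℕ) : Prop :=
  ∀ i ≤ j, τ (ball y (4 * rr s i)) ≤ ENNReal.ofReal (dint * rr s i ^ m)

/-- actual normalised energy of the selection ball `B_{r_j}(y)` (enlargement `B_{2 r_j}(y)`). -/
noncomputable def uu {m : ℕ} (τ : Measure (E m)) (s : ℝ) (y : E m) (j : ℕ) : ℝ :=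
  (τ (ball y (2 * rr s j))).toReal / rr s j ^ m

open Classical in
/-- matching increment at a continuing generation. -/
noncomputable def bb1 {m : ℕ} (τ : Measure (E m)) (dint K s : ℝ) (y : E m) (j : ℕ) : ℝ≥0∞ :=
  if Cont τ dint s y j then ENNReal.ofReal (2 * K * rr s j * Real.sqrt (uu τ s y j)) else 0

open Classical in
/-- final error at the last continuing generation. -/
noncomputable def bb2 {m : ℕ} (τ : Measure (E m)) (dint s : ℝ) (y : E m) (j : ℕ) : ℝ≥0∞ :=
  if Cont τ dint s y j ∧ ¬ Cont τ dint s y (j + 1) then ENNReal.ofReal (rr s j) else 0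

/-- the majorant of the distance to the root configuration. -/
noncomputable def PsiE {m : ℕ} (τ : Measure (E m)) (dint K s d : ℝ) (y : E m) : ℝ≥0∞ :=
  ENNReal.ofReal (K * s * Real.sqrt d) + ((∑' j, bb1 τ dint K s y j) + ∑' j, bb2 τ dint s y j)

end Cf

end Claimed.Agent.R322.Sx
end

/- ===== packed: Claimed.Agent.R322.Sx.Config.Grid ===== -/
section
/-!
# R322 / Sx / Config / Grid   (blueprint: helper234)   LEAF `L-Cf-Grid`

Combinatorics on ONE fibre `F` with exactly `Q` entries, for which all rank conditions of `median_rank` hold.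

`coord_near`: let `u = ζ i`, `j = #{ζ' i ≤ u}` (`1 ≤ j ≤ Q` since `ζ` itself is counted), `j' = #{ζ' i < u} + 1 ≤ j`.
* second condition at rank `j`: `#{≤ t j - 2 w} < j = #{≤ u}`, so `t j - 2 w < u` (monotonicity of the count: `Multiset.card_le_card`,
  `Multiset.monotone_filter_right`);
* first condition at rank `j'`: `#{< u} < j' ≤ #{< t j' + 2 w}`, so `u < t j' + 2 w`;
* first condition at rank `j`, second at rank `j' ≤ j`: `#{≤ t j' - 2 w} < j' ≤ j ≤ #{< t j + 2 w}`, so `t j' - 2 w < t j + 2 w`.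
Together `t j - 2 w < u < t j + 6 w`.

`grid_near`: choose for every coordinate the rank of `coord_near`; `‖v‖ ≤ Σ_i |v i| ≤ n · 6 w` (`EuclideanSpace.norm_eq`, or
`v = Σ_i v i • e_i` and the triangle inequality).
-/

set_option autoImplicit false

namespace Claimed.Agent.R322.Sx.Cf

open MeasureTheory Set Metric
open scoped ENNReal NNReal InnerProductSpace

theorem coord_near {n : ℕ} (F : Multiset (E n)) (Q : ℕ) (hF : Multiset.card F = Q) (i : Fin n)
    (w : ℝ) (t : ℕ → ℝ)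
    (h : ∀ j, 1 ≤ j → j ≤ Q → j ≤ Multiset.card (F.filter fun ζ => ζ i < t j + 2 * w) ∧
      Multiset.card (F.filter fun ζ => ζ i ≤ t j - 2 * w) < j) :
    ∀ ζ ∈ F, ∃ j, 1 ≤ j ∧ j ≤ Q ∧ |ζ i - t j| < 6 * w := by
  intro ζ hζ
  obtain ⟨F₁, hF₁⟩ := Multiset.exists_cons_of_mem hζ
  have hmono : ∀ (p q : E n → Prop) [DecidablePred p] [DecidablePred q], (∀ z, p z → q z) →
      Multiset.card (F.filter p) ≤ Multiset.card (F.filter q) := fun p q _ _ hpq =>
    Multiset.card_le_card (Multiset.monotone_filter_right F hpq)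
  obtain ⟨j, hj⟩ : ∃ j, j = Multiset.card (F.filter fun z => z i ≤ ζ i) := ⟨_, rfl⟩
  obtain ⟨j', hj'⟩ : ∃ j', j' = Multiset.card (F.filter fun z => z i < ζ i) + 1 := ⟨_, rfl⟩
  have hj'j : j' ≤ j := by
    rw [hj, hj', hF₁, Multiset.filter_cons_of_pos (p := fun z : E n => z i ≤ ζ i) F₁ (le_refl (ζ i)),
      Multiset.filter_cons_of_neg (p := fun z : E n => z i < ζ i) F₁ (lt_irrefl (ζ i)),
      Multiset.card_cons]
    exact Nat.succ_le_succ (Multiset.card_le_card
      (Multiset.monotone_filter_right F₁ fun z hz => le_of_lt hz))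
  have hj'1 : 1 ≤ j' := by omega
  have hj1 : 1 ≤ j := le_trans hj'1 hj'j
  have hjQ : j ≤ Q := by
    rw [hj, ← hF]
    exact Multiset.card_le_card (Multiset.filter_le _ _)
  have hj'Q : j' ≤ Q := le_trans hj'j hjQ
  obtain ⟨ha1, ha2⟩ := h j hj1 hjQ
  obtain ⟨hb1, hb2⟩ := h j' hj'1 hj'Q
  have h1 : t j - 2 * w < ζ i := by
    by_contra hc
    rw [not_lt] at hc
    have := hmono (fun z => z i ≤ ζ i) (fun z => z i ≤ t j - 2 * w) fun z hz => le_trans hz hc
    omega
  have h2 : ζ i < t j' + 2 * w := by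
    by_contra hc
    rw [not_lt] at hc
    have := hmono (fun z => z i < t j' + 2 * w) (fun z => z i < ζ i) fun z hz => lt_of_lt_of_le hz hc
    omega
  have h3 : t j' - 2 * w < t j + 2 * w := by
    by_contra hc
    rw [not_lt] at hc
    have := hmono (fun z => z i < t j + 2 * w) (fun z => z i ≤ t j' - 2 * w)
      fun z hz => le_of_lt (lt_of_lt_of_le hz hc)
    omega
  refine ⟨j, hj1, hjQ, ?_⟩
  rw [abs_lt]
  constructor <;> linarith

/-- the grid point with the ranks `κ i + 1`. -/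
noncomputable def gridPt {n Q : ℕ} (t : Fin n → ℕ → ℝ) (κ : Fin n → Fin Q) : E n :=
  WithLp.toLp 2 fun i => t i ((κ i : ℕ) + 1)

theorem grid_near {n : ℕ} (F : Multiset (E n)) (Q : ℕ) (hF : Multiset.card F = Q) (w : ℝ)
    (t : Fin n → ℕ → ℝ)
    (h : ∀ i j, 1 ≤ j → j ≤ Q → j ≤ Multiset.card (F.filter fun ζ => ζ i < t i j + 2 * w) ∧
      Multiset.card (F.filter fun ζ => ζ i ≤ t i j - 2 * w) < j) :
    ∀ ζ ∈ F, ∃ κ : Fin n → Fin Q, ‖ζ - gridPt t κ‖ ≤ 6 * n * w := by
  intro ζ hζ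
  choose j hj1 hjQ hj using fun i => coord_near F Q hF i w (t i) (h i) ζ hζ
  obtain ⟨κ, hκ⟩ : ∃ κ : Fin n → Fin Q, ∀ i, (κ i : ℕ) + 1 = j i :=
    ⟨fun i => ⟨j i - 1, by have := hj1 i; have := hjQ i; omega⟩, fun i => by
      have := hj1 i
      show j i - 1 + 1 = j i
      omega⟩
  refine ⟨κ, ?_⟩
  have hcoord : ∀ i, (ζ - gridPt t κ) i = ζ i - t i (j i) := by
    intro i
    simp [gridPt, hκ i]
  rcases Nat.eq_zero_or_pos n with hn | hn
  · subst hn
    have : ζ - gridPt t κ = 0 := Subsingleton.elim _ _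
    rw [this]
    simp
  have hw : 0 < w := by
    have := hj ⟨0, hn⟩
    have h0 := abs_nonneg (ζ ⟨0, hn⟩ - t ⟨0, hn⟩ (j ⟨0, hn⟩))
    linarith
  have hsq : ‖ζ - gridPt t κ‖ ^ 2 ≤ (6 * n * w) ^ 2 := by
    rw [EuclideanSpace.norm_sq_eq]
    calc ∑ i, ‖(ζ - gridPt t κ) i‖ ^ 2
        ≤ ∑ _i : Fin n, (6 * w) ^ 2 := by
          apply Finset.sum_le_sum
          intro i _
          rw [hcoord i, Real.norm_eq_abs]
          exact pow_le_pow_left₀ (abs_nonneg _) (hj i).le 2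
      _ = n * (6 * w) ^ 2 := by simp
      _ ≤ (6 * n * w) ^ 2 := by
          have hn1 : (1 : ℝ) ≤ n := by exact_mod_cast hn
          have : (6 * (n : ℝ) * w) ^ 2 = n * (n * (6 * w) ^ 2) := by ring
          rw [this]
          have h6 : 0 ≤ (n : ℝ) * (6 * w) ^ 2 := by positivity
          nlinarith
  exact (pow_le_pow_iff_left₀ (norm_nonneg _) (by positivity) (by norm_num)).1 hsq

end Claimed.Agent.R322.Sx.Cf
end

/- ===== packed: Claimed.Agent.R322.Sx.Config.Net ===== -/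
section
/-!
# R322 / Sx / Config / Net   (blueprint: helper234)   LEAF `L-Cf-Net`

A finite family of points has, at some scale `ρ ∈ [ρ₀, 11^P ρ₀]`, a subfamily which is `ρ`-dense and `10 ρ`-separated.

Proof: prove by induction on `k` the statement: for every `R : Finset ι` with `R.card ≤ k` and every `ρ > 0` such that `R` is `ρ`-dense
(`∀ κ, ∃ κ' ∈ R, ‖g κ - g κ'‖ ≤ ρ`) there are `ρ' ∈ [ρ, 11^k ρ]` and `R' ⊆ R`, `ρ'`-dense and `10 ρ'`-separated.
Step: if `R` is not `10 ρ`-separated take `κ ≠ κ'` in `R` with `‖g κ - g κ'‖ ≤ 10 ρ`; `R.erase κ'` is `11 ρ`-dense.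
Start with `R = univ`, `ρ = ρ₀`.
-/

set_option autoImplicit false

namespace Claimed.Agent.R322.Sx.Cf

open MeasureTheory Set Metric

theorem exists_net {n : ℕ} {ι : Type*} [Fintype ι] (g : ι → E n) (ρ₀ : ℝ) (hρ : 0 < ρ₀) :
    ∃ (ρ : ℝ) (R : Finset ι), ρ₀ ≤ ρ ∧ ρ ≤ 11 ^ Fintype.card ι * ρ₀ ∧
      (∀ κ, ∃ κ' ∈ R, ‖g κ - g κ'‖ ≤ ρ) ∧
      (∀ κ ∈ R, ∀ κ' ∈ R, κ ≠ κ' → 10 * ρ < ‖g κ - g κ'‖) := by
  classical
  have key : ∀ (k : ℕ) (R : Finset ι) (ρ : ℝ), R.card ≤ k → 0 < ρ →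
      (∀ κ, ∃ κ' ∈ R, ‖g κ - g κ'‖ ≤ ρ) →
      ∃ (ρ' : ℝ) (R' : Finset ι), ρ ≤ ρ' ∧ ρ' ≤ 11 ^ k * ρ ∧
        (∀ κ, ∃ κ' ∈ R', ‖g κ - g κ'‖ ≤ ρ') ∧
        (∀ κ ∈ R', ∀ κ' ∈ R', κ ≠ κ' → 10 * ρ' < ‖g κ - g κ'‖) := by
    intro k
    induction k with
    | zero =>
      intro R ρ hR hρ hd
      have hR0 : R = ∅ := Finset.card_eq_zero.1 (Nat.le_zero.1 hR)
      subst hR0
      exact ⟨ρ, ∅, le_rfl, by simp, hd, by simp⟩
    | succ k ih =>
      intro R ρ hR hρ hd
      by_cases hsep : ∀ κ ∈ R, ∀ κ' ∈ R, κ ≠ κ' → 10 * ρ < ‖g κ - g κ'‖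
      · refine ⟨ρ, R, le_rfl, ?_, hd, hsep⟩
        have h1 : (1 : ℝ) ≤ 11 ^ (k + 1) := one_le_pow₀ (by norm_num)
        nlinarith
      · push Not at hsep
        obtain ⟨κ₁, h₁, κ₂, h₂, hne, hle⟩ := hsep
        have hcard : (R.erase κ₂).card ≤ k := by
          rw [Finset.card_erase_of_mem h₂]
          omega
        have hd' : ∀ κ, ∃ κ' ∈ R.erase κ₂, ‖g κ - g κ'‖ ≤ 11 * ρ := by
          intro κ
          obtain ⟨κ', hκ', hκ⟩ := hd κ
          by_cases h : κ' = κ₂
          · subst h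
            refine ⟨κ₁, Finset.mem_erase.2 ⟨hne, h₁⟩, ?_⟩
            have h3 : g κ - g κ₁ = (g κ - g κ') - (g κ₁ - g κ') := by abel
            rw [h3]
            have h4 := norm_sub_le (g κ - g κ') (g κ₁ - g κ')
            linarith
          · exact ⟨κ', Finset.mem_erase.2 ⟨h, hκ'⟩, by linarith⟩
        obtain ⟨ρ', R', h1, h2, h3, h4⟩ := ih (R.erase κ₂) (11 * ρ) hcard (by linarith) hd'
        refine ⟨ρ', R', by linarith, ?_, h3, h4⟩
        calc ρ' ≤ 11 ^ k * (11 * ρ) := h2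
          _ = 11 ^ (k + 1) * ρ := by ring
  exact key (Fintype.card ι) Finset.univ ρ₀ (by simp) hρ
    (fun κ => ⟨κ, Finset.mem_univ κ, by simpa using hρ.le⟩)

end Claimed.Agent.R322.Sx.Cf
end
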