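/- Packed by merge_tool.py (helper293): 5 modules of Claimed.Agent.R322 in one file, same declarations.
   Old modules, in this order: Tool.Pou, Tool.Sqrt, Sx.Weighted.Cells, Sx.Bottom.Mult, Tool.InvBound -/
import Claimed.Agent.R322.Basic
import Mathlib
import Claimed.Agent.R322.Pack023

/- ===== packed: Claimed.Agent.R322.Tool.Pou ===== -/
section
/-!
# Grid partitions of unity on `E m` (shared tool: CO 4 bulk cells, CO 5, CO 6, AE 2.7, AE 7.3)

Proved by helper297: normalisation of the translates of one bump function; the normalised function at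
scale `l` and grid point `k` is a translate and dilate of ONE compactly supported smooth function.
-/

set_option autoImplicit false

open scoped ContDiff Topology

namespace Claimed.Agent.R322.Tool

/-- grid point `(l / (2 √m)) k`; the cells `ball (gpt m l k) l` cover `E m`. -/
noncomputable def gpt (m : ℕ) (l : ℝ) (k : Fin m → ℤ) : E m :=
  WithLp.toLp 2 (fun i => l / (2 * Real.sqrt m) * (k i : ℝ))

theorem gpt_apply (m : ℕ) (l : ℝ) (k : Fin m → ℤ) (i : Fin m) :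
    gpt m l k i = l / (2 * Real.sqrt m) * (k i : ℝ) := rfl

theorem gpt_smul (m : ℕ) (l : ℝ) (k : Fin m → ℤ) : gpt m l k = l • gpt m 1 k := by
  ext i
  simp only [gpt_apply, PiLp.smul_apply, smul_eq_mul]
  ring

theorem gpt_add (m : ℕ) (l : ℝ) (j k : Fin m → ℤ) :
    gpt m l (j + k) = gpt m l j + gpt m l k := by
  ext i
  simp only [gpt_apply, PiLp.add_apply, Pi.add_apply, Int.cast_add]
  ring

theorem gpt_zero (m : ℕ) (l : ℝ) : gpt m l 0 = 0 := by
  ext i
  simp [gpt_apply]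

theorem gpt_sqrt_pos {m : ℕ} (i : Fin m) : 0 < Real.sqrt m := by
  have : 0 < m := Fin.pos i
  exact Real.sqrt_pos.2 (by exact_mod_cast this)

/-- the unit grid is `1/4`-dense -/
theorem gpt_cover (m : ℕ) (y : E m) : ∃ k : Fin m → ℤ, ‖y - gpt m 1 k‖ ≤ 1 / 4 := by
  refine ⟨fun i => round (y i * (2 * Real.sqrt m)), ?_⟩
  have h2 : ‖y - gpt m 1 (fun i => round (y i * (2 * Real.sqrt m)))‖ ^ 2 ≤ (1 / 4 : ℝ) ^ 2 := by
    rw [EuclideanSpace.real_norm_sq_eq]
    have hterm : ∀ i : Fin m, ((y - gpt m 1 (fun i => round (y i * (2 * Real.sqrt m)))) i) ^ 2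
        ≤ 1 / (16 * (m : ℝ)) := by
      intro i
      have hs := gpt_sqrt_pos i
      have hm : (0 : ℝ) < m := by exact_mod_cast Fin.pos i
      have hsq : Real.sqrt m ^ 2 = m := Real.sq_sqrt hm.le
      set t := y i * (2 * Real.sqrt m) with ht
      have hr : |t - round t| ≤ 1 / 2 := abs_sub_round t
      have e : (y - gpt m 1 (fun i => round (y i * (2 * Real.sqrt m)))) i
          = (t - round t) / (2 * Real.sqrt m) := by
        simp only [PiLp.sub_apply, gpt_apply]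
        rw [ht]
        field_simp
      rw [e, div_pow, mul_pow, hsq, div_le_div_iff₀ (by positivity) (by positivity)]
      have h3 : (t - round t) ^ 2 ≤ (1 / 2 : ℝ) ^ 2 := sq_le_sq' (by linarith [abs_le.1 hr]) (abs_le.1 hr).2
      nlinarith
    calc ∑ i, ((y - gpt m 1 (fun i => round (y i * (2 * Real.sqrt m)))) i) ^ 2
        ≤ ∑ _i : Fin m, 1 / (16 * (m : ℝ)) := Finset.sum_le_sum fun i _ => hterm i
      _ = m * (1 / (16 * (m : ℝ))) := by simp
      _ ≤ (1 / 4 : ℝ) ^ 2 := by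
          rcases Nat.eq_zero_or_pos m with rfl | hm
          · simp
          · have hm' : (0 : ℝ) < m := by exact_mod_cast hm
            apply le_of_eq
            field_simp
            norm_num
  exact (pow_le_pow_iff_left₀ (norm_nonneg _) (by norm_num) (by norm_num)).1 h2

/-- counting grid points in balls -/
theorem gpt_count (m : ℕ) (R : ℝ) : ∃ Nov : ℕ, ∀ y : E m,
    {k | gpt m 1 k ∈ Metric.ball y R}.Finite ∧ {k | gpt m 1 k ∈ Metric.ball y R}.ncard ≤ Nov := by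
  set N0 : ℕ := ⌈4 * Real.sqrt m * R⌉₊ + 1 with hN0
  refine ⟨N0 ^ m, fun y => ?_⟩
  set F : Finset (Fin m → ℤ) := Fintype.piFinset (fun i =>
    Finset.Icc ⌈(y i - R) * (2 * Real.sqrt m)⌉ ⌊(y i + R) * (2 * Real.sqrt m)⌋) with hF
  have hsub : {k | gpt m 1 k ∈ Metric.ball y R} ⊆ (F : Set (Fin m → ℤ)) := by
    intro k hk
    have hk' : ‖gpt m 1 k - y‖ < R := by
      simpa [Metric.mem_ball, dist_eq_norm] using hk
    rw [Finset.mem_coe, hF, Fintype.mem_piFinset]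
    intro i
    have hs := gpt_sqrt_pos i
    have h1 : |(gpt m 1 k - y) i| < R :=
      lt_of_le_of_lt (by simpa using PiLp.norm_apply_le (gpt m 1 k - y) i) hk'
    simp only [PiLp.sub_apply, gpt_apply] at h1
    rw [abs_lt] at h1
    have e : (1 / (2 * Real.sqrt m) * (k i : ℝ)) * (2 * Real.sqrt m) = k i := by field_simp
    rw [Finset.mem_Icc, Int.ceil_le, Int.le_floor]
    constructor
    · rw [← e]
      apply mul_le_mul_of_nonneg_right _ (by positivity)
      linarith [h1.1]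
    · rw [← e]
      apply mul_le_mul_of_nonneg_right _ (by positivity)
      linarith [h1.2]
  have hcard : F.card ≤ N0 ^ m := by
    rw [hF, Fintype.card_piFinset]
    calc ∏ i, (Finset.Icc ⌈(y i - R) * (2 * Real.sqrt m)⌉ ⌊(y i + R) * (2 * Real.sqrt m)⌋).card
        ≤ ∏ _i : Fin m, N0 := by
          refine Finset.prod_le_prod' fun i _ => ?_
          rw [Int.card_Icc, Int.toNat_le]
          have h1 : (⌊(y i + R) * (2 * Real.sqrt m)⌋ : ℝ) ≤ (y i + R) * (2 * Real.sqrt m) :=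
            Int.floor_le _
          have h2 : (y i - R) * (2 * Real.sqrt m) ≤ (⌈(y i - R) * (2 * Real.sqrt m)⌉ : ℝ) :=
            Int.le_ceil _
          have h3 : 4 * Real.sqrt m * R ≤ (⌈4 * Real.sqrt m * R⌉₊ : ℝ) := Nat.le_ceil _
          have h4 : ((⌊(y i + R) * (2 * Real.sqrt m)⌋ + 1 - ⌈(y i - R) * (2 * Real.sqrt m)⌉ : ℤ) : ℝ)
              ≤ ((N0 : ℤ) : ℝ) := by
            rw [hN0]
            push_cast
            linarith
          exact_mod_cast h4
      _ = N0 ^ m := by simp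
  refine ⟨F.finite_toSet.subset hsub, ?_⟩
  calc {k | gpt m 1 k ∈ Metric.ball y R}.ncard ≤ (F : Set (Fin m → ℤ)).ncard :=
        Set.ncard_le_ncard hsub F.finite_toSet
    _ = F.card := Set.ncard_coe_finset F
    _ ≤ N0 ^ m := hcard

/-- the partition of unity of the unit grid: translates of one function -/
theorem gpt_unit_pou (m : ℕ) : ∃ χ₀ : E m → ℝ, ContDiff ℝ ∞ χ₀ ∧ (∀ y, 0 ≤ χ₀ y ∧ χ₀ y ≤ 1) ∧
    Function.support χ₀ ⊆ Metric.ball 0 (3 / 4) ∧ ∀ y, ∑ᶠ k, χ₀ (y - gpt m 1 k) = 1 := by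
  let b : ContDiffBump (0 : E m) := ⟨1 / 2, 3 / 4, by norm_num, by norm_num⟩
  have hbsupp : ∀ z : E m, b z ≠ 0 → ‖z‖ < 3 / 4 := by
    intro z hz
    have : z ∈ Function.support b := hz
    rw [b.support_eq, Metric.mem_ball, dist_zero_right] at this
    exact this
  set S : E m → ℝ := fun y => ∑ᶠ k, b (y - gpt m 1 k) with hS
  have hfin : ∀ y, (Function.support fun k => b (y - gpt m 1 k)).Finite := by
    intro y
    obtain ⟨Nov, hN⟩ := gpt_count m 1
    refine (hN y).1.subset fun k hk => ?_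
    have h1 := hbsupp _ hk
    rw [Set.mem_ofPred_eq, Metric.mem_ball, dist_eq_norm, ← norm_neg, neg_sub]
    linarith
  have hlf : LocallyFinite fun k => Function.support fun y => b (y - gpt m 1 k) := by
    intro y
    obtain ⟨Nov, hN⟩ := gpt_count m 2
    refine ⟨Metric.ball y 1, Metric.ball_mem_nhds y one_pos, (hN y).1.subset ?_⟩
    rintro k ⟨z, hz1, hz2⟩
    have h1 := hbsupp _ hz1
    rw [Metric.mem_ball, dist_eq_norm] at hz2
    rw [Set.mem_ofPred_eq, Metric.mem_ball, dist_eq_norm]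
    have e : gpt m 1 k - y = -(z - gpt m 1 k) + (z - y) := by abel
    rw [e]
    calc ‖-(z - gpt m 1 k) + (z - y)‖ ≤ ‖-(z - gpt m 1 k)‖ + ‖z - y‖ := norm_add_le _ _
      _ = ‖z - gpt m 1 k‖ + ‖z - y‖ := by rw [norm_neg]
      _ < 2 := by linarith
  have hSs : ContDiff ℝ ∞ S := by
    rw [contDiff_iff_contDiffAt]
    intro y
    obtain ⟨s, hs⟩ := finsum_eventually_eq_sum hlf y
    refine ContDiffAt.congr_of_eventuallyEq ?_ hs
    exact ContDiffAt.sum fun k _ => (b.contDiff.comp (contDiff_id.sub contDiff_const)).contDiffAt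
  have hle : ∀ y k, b (y - gpt m 1 k) ≤ S y := fun y k =>
    single_le_finsum k (hfin y) (fun j => b.nonneg)
  have hS1 : ∀ y, 1 ≤ S y := by
    intro y
    obtain ⟨k, hk⟩ := gpt_cover m y
    have h1 : b (y - gpt m 1 k) = 1 := b.one_of_mem_closedBall (by
      rw [mem_closedBall_zero_iff]
      show ‖y - gpt m 1 k‖ ≤ 1 / 2
      linarith)
    calc 1 = b (y - gpt m 1 k) := h1.symm
      _ ≤ S y := hle y k
  have hSper : ∀ y k, S (y - gpt m 1 k) = S y := by
    intro y k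
    simp only [hS]
    rw [← finsum_comp_equiv (Equiv.addRight k) (f := fun j => b (y - gpt m 1 j))]
    refine finsum_congr fun j => ?_
    simp only [Equiv.coe_addRight, gpt_add]
    congr 1
    abel
  refine ⟨fun y => b y / S y, ?_, ?_, ?_, ?_⟩
  · exact b.contDiff.div hSs fun y => (lt_of_lt_of_le one_pos (hS1 y)).ne'
  · intro y
    have hpos : 0 < S y := lt_of_lt_of_le one_pos (hS1 y)
    refine ⟨div_nonneg b.nonneg hpos.le, ?_⟩
    rw [div_le_one hpos]
    have := hle y 0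
    rwa [gpt_zero, sub_zero] at this
  · intro y hy
    rw [mem_ball_zero_iff]
    apply hbsupp
    intro h0
    apply hy
    simp [h0]
  · intro y
    have hpos : 0 < S y := lt_of_lt_of_le one_pos (hS1 y)
    simp only [hSper, div_eq_mul_inv]
    rw [← finsum_mul]
    exact mul_inv_cancel₀ hpos.ne'

theorem gpt_norm_scale (m : ℕ) {l : ℝ} (hl : 0 < l) (k : Fin m → ℤ) (y : E m) :
    ‖y - gpt m l k‖ = l * ‖l⁻¹ • y - gpt m 1 k‖ := by
  rw [gpt_smul]
  have : y - l • gpt m 1 k = l • (l⁻¹ • y - gpt m 1 k) := by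
    rw [smul_sub, smul_smul, mul_inv_cancel₀ hl.ne', one_smul]
  rw [this, norm_smul, Real.norm_eq_abs, abs_of_pos hl]

theorem gpt_mem_ball_scale (m : ℕ) {l : ℝ} (hl : 0 < l) (R : ℝ) (k : Fin m → ℤ) (y : E m) :
    y ∈ Metric.ball (gpt m l k) (R * l) ↔ gpt m 1 k ∈ Metric.ball (l⁻¹ • y) R := by
  rw [Metric.mem_ball, Metric.mem_ball, dist_eq_norm, dist_eq_norm, gpt_norm_scale m hl,
    ← norm_neg (gpt m 1 k - _), neg_sub, mul_comm R l]
  exact mul_lt_mul_iff_right₀ hl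

/-- **Grid partition of unity at scale `l`.**  `χ k` is supported in `ball (gpt m l k) l`; derivatives
of order `j ≤ J` are bounded by `C l^{-j}`; every point lies in at most `Nov` of the balls enlarged by
the factor `Λ`.  (Tensor products of a one-dimensional smooth partition `∑_k ψ(t - k) = 1`.) -/
theorem grid_pou (m J : ℕ) (Λ : ℝ) (hΛ : 1 ≤ Λ) :
    ∃ (C : ℝ) (Nov : ℕ), 0 < C ∧ ∀ l : ℝ, 0 < l →
      ∃ χ : (Fin m → ℤ) → E m → ℝ,
        (∀ k, ContDiff ℝ ∞ (χ k)) ∧ (∀ k y, 0 ≤ χ k y ∧ χ k y ≤ 1) ∧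
        (∀ k, tsupport (χ k) ⊆ Metric.ball (gpt m l k) l) ∧
        (∀ y, {k | χ k y ≠ 0}.Finite) ∧ (∀ y, ∑ᶠ k, χ k y = 1) ∧
        (∀ k (j : ℕ), j ≤ J → ∀ y, l ^ j * ‖iteratedFDeriv ℝ j (χ k) y‖ ≤ C) ∧
        (∀ y, {k | y ∈ Metric.ball (gpt m l k) (Λ * l)}.Finite ∧
          {k | y ∈ Metric.ball (gpt m l k) (Λ * l)}.ncard ≤ Nov) ∧
        (∀ (x : E m) (r : ℝ), 0 < r → {k | (Metric.ball (gpt m l k) (Λ * l) ∩ Metric.ball x r).Nonempty}.Finite) := by
  obtain ⟨χ₀, hs, h01, hsupp, hsum⟩ := gpt_unit_pou m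
  have hc : HasCompactSupport χ₀ :=
    HasCompactSupport.of_support_subset_isCompact (isCompact_closedBall 0 (3 / 4))
      (hsupp.trans Metric.ball_subset_closedBall)
  have hbd : ∀ j : ℕ, ∃ C, ∀ y, ‖iteratedFDeriv ℝ j χ₀ y‖ ≤ C := fun j =>
    (hs.continuous_iteratedFDeriv (by exact_mod_cast le_top)).bounded_above_of_compact_support
      (hc.iteratedFDeriv j)
  choose Cj hCj using hbd
  obtain ⟨Nov, hNov⟩ := gpt_count m Λ
  set C : ℝ := 1 + ∑ j ∈ Finset.range (J + 1), |Cj j| with hC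
  have hCpos : 0 < C := by positivity
  refine ⟨C, Nov, hCpos, fun l hl => ?_⟩
  have hli : 0 < l⁻¹ := inv_pos.2 hl
  have hne : ∀ k y, χ₀ (l⁻¹ • y - gpt m 1 k) ≠ 0 → ‖y - gpt m l k‖ < 3 / 4 * l := by
    intro k y hy
    have h1 : l⁻¹ • y - gpt m 1 k ∈ Metric.ball (0 : E m) (3 / 4) := hsupp hy
    rw [mem_ball_zero_iff] at h1
    rw [gpt_norm_scale m hl]
    nlinarith
  refine ⟨fun k y => χ₀ (l⁻¹ • y - gpt m 1 k), ?_, ?_, ?_, ?_, ?_, ?_, ?_, ?_⟩
  · intro k
    exact hs.comp ((contDiff_id.const_smul l⁻¹).sub contDiff_const)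
  · intro k y
    exact h01 _
  · intro k
    have h1 : tsupport (fun y => χ₀ (l⁻¹ • y - gpt m 1 k))
        ⊆ Metric.closedBall (gpt m l k) (3 / 4 * l) := by
      refine closure_minimal (fun y hy => ?_) Metric.isClosed_closedBall
      rw [Metric.mem_closedBall, dist_eq_norm]
      exact (hne k y hy).le
    exact h1.trans (Metric.closedBall_subset_ball (by linarith))
  · intro y
    obtain ⟨N1, hN1⟩ := gpt_count m 1
    refine (hN1 (l⁻¹ • y)).1.subset fun k hk => ?_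
    rw [Set.mem_ofPred_eq, ← gpt_mem_ball_scale m hl, Metric.mem_ball, dist_eq_norm]
    have := hne k y hk
    linarith
  · intro y
    exact hsum _
  · intro k j hj y
    set g : E m →L[ℝ] E m := l⁻¹ • ContinuousLinearMap.id ℝ (E m) with hg
    have hgn : ‖g‖ ≤ l⁻¹ := by
      rw [hg, norm_smul, Real.norm_eq_abs, abs_of_pos hli]
      calc l⁻¹ * ‖ContinuousLinearMap.id ℝ (E m)‖ ≤ l⁻¹ * 1 :=
            mul_le_mul_of_nonneg_left ContinuousLinearMap.norm_id_le hli.le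
        _ = l⁻¹ := mul_one _
    have hfs : ContDiff ℝ ∞ (fun z => χ₀ (z - gpt m 1 k)) :=
      hs.comp (contDiff_id.sub contDiff_const)
    have e1 : (fun y => χ₀ (l⁻¹ • y - gpt m 1 k)) = (fun z => χ₀ (z - gpt m 1 k)) ∘ g := by
      funext z
      simp [hg]
    show l ^ j * ‖iteratedFDeriv ℝ j (fun y => χ₀ (l⁻¹ • y - gpt m 1 k)) y‖ ≤ C
    rw [e1, g.iteratedFDeriv_comp_right hfs y (i := j) (by exact_mod_cast le_top),
      iteratedFDeriv_comp_sub]
    have h1 := (iteratedFDeriv ℝ j χ₀ (g y - gpt m 1 k)).norm_compContinuousLinearMap_le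
      (fun _ => g)
    rw [Finset.prod_const, Finset.card_univ, Fintype.card_fin] at h1
    have h2 : ‖g‖ ^ j ≤ (l⁻¹) ^ j := pow_le_pow_left₀ (norm_nonneg _) hgn j
    have h3 : ‖iteratedFDeriv ℝ j χ₀ (g y - gpt m 1 k)‖ ≤ |Cj j| := (hCj j _).trans (le_abs_self _)
    have h4 : |Cj j| ≤ C := by
      have := Finset.single_le_sum (f := fun j => |Cj j|) (fun i _ => abs_nonneg _)
        (Finset.mem_range.2 (Nat.lt_succ_of_le hj))
      linarith
    calc l ^ j * ‖(iteratedFDeriv ℝ j χ₀ (g y - gpt m 1 k)).compContinuousLinearMap fun _ => g‖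
        ≤ l ^ j * (|Cj j| * (l⁻¹) ^ j) := by
          apply mul_le_mul_of_nonneg_left _ (by positivity)
          exact h1.trans (mul_le_mul h3 h2 (by positivity) (abs_nonneg _))
      _ = |Cj j| := by
          rw [inv_pow]
          field_simp
      _ ≤ C := h4
  · intro y
    have e : {k | y ∈ Metric.ball (gpt m l k) (Λ * l)}
        = {k | gpt m 1 k ∈ Metric.ball (l⁻¹ • y) Λ} := by
      ext k
      exact gpt_mem_ball_scale m hl Λ k y
    rw [e]
    exact hNov _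
  · intro x r hr
    obtain ⟨N2, hN2⟩ := gpt_count m (r / l + Λ)
    refine (hN2 (l⁻¹ • x)).1.subset ?_
    rintro k ⟨z, hz1, hz2⟩
    rw [Set.mem_ofPred_eq, ← gpt_mem_ball_scale m hl, Metric.mem_ball]
    rw [Metric.mem_ball] at hz1 hz2
    have e : (r / l + Λ) * l = r + Λ * l := by field_simp
    rw [e]
    calc dist x (gpt m l k) ≤ dist x z + dist z (gpt m l k) := dist_triangle _ _ _
      _ < r + Λ * l := by rw [dist_comm x z]; linarith

/-- bounded overlap in integrated form: for a measure `ρ` and a set `A`,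
`∑_k ρ (ball x_k (Λ l) ∩ A) ≤ Nov ρ(A)`. -/
theorem grid_overlap_sum (m : ℕ) (Λ : ℝ) (hΛ : 1 ≤ Λ) :
    ∃ Nov : ℕ, ∀ (l : ℝ), 0 < l → ∀ (ρ : MeasureTheory.Measure (E m)) (A : Set (E m)),
      MeasurableSet A →
      ∑' k : Fin m → ℤ, ρ (Metric.ball (gpt m l k) (Λ * l) ∩ A) ≤ (Nov : ENNReal) * ρ A := by
  obtain ⟨Nov, hNov⟩ := gpt_count m Λ
  refine ⟨Nov, fun l hl ρ A hA => ?_⟩
  have hm : ∀ k, MeasurableSet (Metric.ball (gpt m l k) (Λ * l) ∩ A) := fun k =>
    Metric.isOpen_ball.measurableSet.inter hA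
  have e1 : ∀ k, ρ (Metric.ball (gpt m l k) (Λ * l) ∩ A)
      = ∫⁻ y, (Metric.ball (gpt m l k) (Λ * l) ∩ A).indicator (fun _ => (1 : ENNReal)) y ∂ρ := by
    intro k
    rw [MeasureTheory.lintegral_indicator (hm k), MeasureTheory.setLIntegral_const, one_mul]
  simp_rw [e1]
  rw [← MeasureTheory.lintegral_tsum fun k => (measurable_const.indicator (hm k)).aemeasurable]
  have e2 : (Nov : ENNReal) * ρ A = ∫⁻ y, A.indicator (fun _ => (Nov : ENNReal)) y ∂ρ := by
    rw [MeasureTheory.lintegral_indicator hA, MeasureTheory.setLIntegral_const]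
  rw [e2]
  refine MeasureTheory.lintegral_mono fun y => ?_
  have hset : {k | y ∈ Metric.ball (gpt m l k) (Λ * l)}
      = {k | gpt m 1 k ∈ Metric.ball (l⁻¹ • y) Λ} := by
    ext k
    exact gpt_mem_ball_scale m hl Λ k y
  obtain ⟨hfin, hcard⟩ := hNov (l⁻¹ • y)
  rw [← hset] at hfin hcard
  by_cases hy : y ∈ A
  · rw [Set.indicator_of_mem hy]
    rw [tsum_eq_sum (s := hfin.toFinset)]
    · calc ∑ k ∈ hfin.toFinset,
            (Metric.ball (gpt m l k) (Λ * l) ∩ A).indicator (fun _ => (1 : ENNReal)) y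
          ≤ ∑ _k ∈ hfin.toFinset, (1 : ENNReal) :=
            Finset.sum_le_sum fun k _ => Set.indicator_le_self' (fun _ _ => zero_le) y
        _ = (hfin.toFinset.card : ENNReal) := by simp
        _ ≤ Nov := by
            rw [← Set.ncard_eq_toFinset_card _ hfin]
            exact_mod_cast hcard
    · intro k hk
      rw [Set.Finite.mem_toFinset] at hk
      exact Set.indicator_of_notMem (fun h => hk h.1) _
  · rw [Set.indicator_of_notMem hy]
    apply le_of_eq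
    rw [ENNReal.tsum_eq_zero]
    intro k
    exact Set.indicator_of_notMem (fun h => hy h.2) _

end Claimed.Agent.R322.Tool
end

/- ===== packed: Claimed.Agent.R322.Tool.Sqrt ===== -/
section
/-!
# A smooth operator square root near the identity (shared tool: orthonormal frames)

Inverse function theorem for `S ↦ S ∘L S` on the Banach algebra `E k →L[ℝ] E k` at `S = 1`
(derivative `2 • id`): `ContDiffAt.to_localInverse`, `HasStrictFDerivAt.localInverse`.
`ContDiffAt ℝ 4` at `1` gives `ContDiffOn` on a small ball; bounds of the derivatives by continuity on a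
smaller ball.  Symmetry: the adjoint of `R G` is another square root of `G` close to `1`; local
injectivity of `S ↦ S²`.

Proved by helper297 (`exists_cutoff` = a finite partial sum of the grid partition of unity of `Tool/Pou.lean`).
-/

set_option autoImplicit false

open scoped ContDiff Topology

namespace Claimed.Agent.R322.Tool

/-- square roots close to `1` are unique -/
theorem opSqrt_aux_unique {A : Type} [NormedRing A] [NormedAlgebra ℝ A] {S S' : A}
    (h : S * S = S' * S') (h1 : ‖S - 1‖ < 1) (h2 : ‖S' - 1‖ < 1) : S = S' := by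
  set T := S - 1 with hT
  set T' := S' - 1 with hT'
  have hS : S = 1 + T := by rw [hT]; abel
  have hS' : S' = 1 + T' := by rw [hT']; abel
  have e : (T - T') + (T - T') = T' * (T' - T) + (T' - T) * T := by
    have h3 : (1 + T) * (1 + T) = (1 + T') * (1 + T') := by rw [← hS, ← hS', h]
    have h4 : T + T + T * T = T' + T' + T' * T' := by
      have : (1 + T) * (1 + T) = 1 + (T + T + T * T) := by noncomm_ring
      rw [this] at h3
      have : (1 + T') * (1 + T') = 1 + (T' + T' + T' * T') := by noncomm_ring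
      rw [this] at h3
      exact add_left_cancel h3
    have h5 : (T - T') + (T - T') = T' * T' - T * T := by
      have : (T - T') + (T - T') = (T + T + T * T) - (T' + T') - T * T := by abel
      rw [this, h4]
      abel
    rw [h5]
    noncomm_ring
  have hn : 2 * ‖T - T'‖ ≤ (‖T'‖ + ‖T‖) * ‖T - T'‖ := by
    have h6 : ‖(T - T') + (T - T')‖ = 2 * ‖T - T'‖ := by
      rw [← two_smul ℝ (T - T'), norm_smul]
      simp
    rw [← h6, e]
    calc ‖T' * (T' - T) + (T' - T) * T‖ ≤ ‖T' * (T' - T)‖ + ‖(T' - T) * T‖ := norm_add_le _ _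
      _ ≤ ‖T'‖ * ‖T' - T‖ + ‖T' - T‖ * ‖T‖ := add_le_add (norm_mul_le _ _) (norm_mul_le _ _)
      _ = (‖T'‖ + ‖T‖) * ‖T - T'‖ := by rw [norm_sub_rev T' T]; ring
  have h0 : ‖T - T'‖ = 0 := by
    by_contra hne
    have hpos : 0 < ‖T - T'‖ := lt_of_le_of_ne (norm_nonneg _) (Ne.symm hne)
    have := le_of_mul_le_mul_right hn hpos
    linarith
  have : T = T' := sub_eq_zero.1 (norm_eq_zero.1 h0)
  rw [hS, hS', this]

/-- a square root `S` of `G` with `‖S - 1‖ ≤ 1` satisfies `‖S - 1‖ ≤ ‖G - 1‖` -/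
theorem opSqrt_aux_norm {A : Type} [NormedRing A] [NormedAlgebra ℝ A] {S G : A}
    (h : S * S = G) (h1 : ‖S - 1‖ ≤ 1) : ‖S - 1‖ ≤ ‖G - 1‖ := by
  set T := S - 1 with hT
  have hS : S = 1 + T := by rw [hT]; abel
  have e : T + T = (G - 1) - T * T := by
    rw [← h, hS]
    noncomm_ring
  have h6 : ‖T + T‖ = 2 * ‖T‖ := by
    rw [← two_smul ℝ T, norm_smul]
    simp
  have h7 : 2 * ‖T‖ ≤ ‖G - 1‖ + ‖T‖ * ‖T‖ := by
    rw [← h6, e]
    exact (norm_sub_le _ _).trans (add_le_add le_rfl (norm_mul_le _ _))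
  have h8 : ‖T‖ * ‖T‖ ≤ ‖T‖ := by
    have := mul_le_mul_of_nonneg_right h1 (norm_nonneg T)
    linarith
  linarith

/-- the abstract local square root in a Banach algebra -/
theorem opSqrt_aux_exists {A : Type} [NormedRing A] [NormedAlgebra ℝ A] [CompleteSpace A] :
    ∃ (δ C : ℝ) (R : A → A), 0 < δ ∧ δ ≤ 1 / 4 ∧ 0 < C ∧
      ContDiffOn ℝ 4 R (Metric.ball 1 δ) ∧
      ∀ G ∈ Metric.ball (1 : A) δ,
        R G * R G = G ∧ ‖R G - 1‖ < 1 ∧
        (∀ j : ℕ, j ≤ 4 → ‖iteratedFDerivWithin ℝ j R (Metric.ball 1 δ) G‖ ≤ C) := by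
  let f : A → A := fun S => S * S
  have hf : ContDiff ℝ 4 f := contDiff_id.mul contDiff_id
  let f' : A ≃L[ℝ] A := ContinuousLinearEquiv.smulLeft (Units.mk0 (2 : ℝ) two_ne_zero)
  have hf' : HasFDerivAt f (f' : A →L[ℝ] A) 1 := by
    have h := (hasFDerivAt_id (𝕜 := ℝ) (1 : A)).mul' (hasFDerivAt_id (1 : A))
    refine h.congr_fderiv ?_
    ext v
    simp [f', two_smul, Units.smul_def]
  have hfa : f 1 = 1 := one_mul 1
  have h4 : (4 : WithTop ℕ∞) ≠ 0 := by norm_num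
  set R : A → A := hf.contDiffAt.localInverse hf' h4 with hR
  have hRs : ContDiffAt ℝ 4 R 1 := by
    have := hf.contDiffAt.to_localInverse hf' h4
    rwa [hfa] at this
  have hR1 : R 1 = 1 := by
    have := hf.contDiffAt.localInverse_apply_image hf' h4
    rwa [hfa] at this
  have hright : ∀ᶠ G in 𝓝 (1 : A), f (R G) = G := by
    have := (hf.contDiffAt.hasStrictFDerivAt' hf' h4).eventually_right_inverse
    rwa [hfa] at this
  have hnear : ∀ᶠ G in 𝓝 (1 : A), ‖R G - 1‖ < 1 := by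
    have hc : ContinuousAt (fun G => ‖R G - 1‖) 1 :=
      (hRs.continuousAt.sub continuousAt_const).norm
    have : ‖R 1 - 1‖ < 1 := by rw [hR1]; simp
    exact hc.eventually_lt continuousAt_const this
  have hsm : ∀ᶠ G in 𝓝 (1 : A), ContDiffAt ℝ 4 R G := hRs.eventually (by decide)
  obtain ⟨δ₁, hδ₁, hball₁⟩ := Metric.eventually_nhds_iff_ball.1 hsm
  have hon₁ : ContDiffOn ℝ 4 R (Metric.ball 1 δ₁) := fun G hG => (hball₁ G hG).contDiffWithinAt
  have hcont : ∀ j : ℕ, j ≤ 4 → ContinuousAt (iteratedFDeriv ℝ j R) 1 := by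
    intro j hj
    have h1 := hon₁.continuousOn_iteratedFDerivWithin (m := j) (by exact_mod_cast hj)
      Metric.isOpen_ball.uniqueDiffOn
    have h2 : ContinuousOn (iteratedFDeriv ℝ j R) (Metric.ball 1 δ₁) :=
      h1.congr fun G hG => (iteratedFDerivWithin_of_isOpen j Metric.isOpen_ball hG).symm
    exact h2.continuousAt (Metric.ball_mem_nhds 1 hδ₁)
  set C : ℝ := 1 + ∑ j ∈ Finset.range 5, ‖iteratedFDeriv ℝ j R 1‖ with hC
  have hCpos : 0 < C := by positivity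
  have hbd : ∀ᶠ G in 𝓝 (1 : A), ∀ j ∈ Finset.range 5, ‖iteratedFDeriv ℝ j R G‖ < C := by
    rw [Filter.eventually_all_finset]
    intro j hj
    have hj' : j ≤ 4 := by
      have := Finset.mem_range.1 hj
      omega
    have h1 : ‖iteratedFDeriv ℝ j R 1‖ < C := by
      have := Finset.single_le_sum (f := fun j => ‖iteratedFDeriv ℝ j R 1‖)
        (fun i _ => norm_nonneg _) hj
      linarith
    exact (hcont j hj').norm.eventually_lt continuousAt_const h1
  obtain ⟨δ₂, hδ₂, hball₂⟩ := Metric.eventually_nhds_iff_ball.1 (hright.and (hnear.and hbd))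
  refine ⟨min (min δ₁ δ₂) (1 / 4), C, R, by positivity, min_le_right _ _, hCpos, ?_, ?_⟩
  · exact hon₁.mono (Metric.ball_subset_ball ((min_le_left _ _).trans (min_le_left _ _)))
  · intro G hG
    have hG2 : G ∈ Metric.ball (1 : A) δ₂ :=
      Metric.ball_subset_ball ((min_le_left _ _).trans (min_le_right _ _)) hG
    obtain ⟨h1, h2, h3⟩ := hball₂ G hG2
    refine ⟨h1, h2, fun j hj => ?_⟩
    rw [iteratedFDerivWithin_of_isOpen j Metric.isOpen_ball hG]
    exact (h3 j (Finset.mem_range.2 (by omega))).le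


theorem exists_opSqrt (k : ℕ) :
    ∃ (δ C : ℝ) (R : (E k →L[ℝ] E k) → (E k →L[ℝ] E k)), 0 < δ ∧ δ ≤ 1 / 4 ∧ 0 < C ∧
      ContDiffOn ℝ 4 R (Metric.ball 1 δ) ∧
      ∀ G ∈ Metric.ball (1 : E k →L[ℝ] E k) δ,
        R G ∘L R G = G ∧ ‖R G - 1‖ ≤ ‖G - 1‖ ∧
        ((∀ x y, inner ℝ (G x) y = inner ℝ x (G y)) → ∀ x y, inner ℝ (R G x) y = inner ℝ x (R G y)) ∧
        (∀ j : ℕ, j ≤ 4 → ‖iteratedFDerivWithin ℝ j R (Metric.ball 1 δ) G‖ ≤ C) := by
  obtain ⟨δ, C, R, hδ, hδ4, hC, hon, H⟩ := opSqrt_aux_exists (A := E k →L[ℝ] E k)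
  refine ⟨δ, C, R, hδ, hδ4, hC, hon, fun G hG => ?_⟩
  obtain ⟨h1, h2, h3⟩ := H G hG
  refine ⟨h1, opSqrt_aux_norm h1 h2.le, ?_, h3⟩
  intro hsym x y
  have hGs : ContinuousLinearMap.adjoint G = G :=
    ((ContinuousLinearMap.eq_adjoint_iff G G).2 hsym).symm
  have h1s : ContinuousLinearMap.adjoint (1 : E k →L[ℝ] E k) = 1 :=
    ((ContinuousLinearMap.eq_adjoint_iff (1 : E k →L[ℝ] E k) 1).2 fun _ _ => rfl).symm
  have h4 : ContinuousLinearMap.adjoint (R G) * ContinuousLinearMap.adjoint (R G) = R G * R G := by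
    have h7 : ContinuousLinearMap.adjoint (R G * R G)
        = ContinuousLinearMap.adjoint (R G) * ContinuousLinearMap.adjoint (R G) :=
      ContinuousLinearMap.adjoint_comp (R G) (R G)
    rw [← h7, h1, hGs]
  have h5 : ‖ContinuousLinearMap.adjoint (R G) - 1‖ < 1 := by
    have : ContinuousLinearMap.adjoint (R G) - 1 = ContinuousLinearMap.adjoint (R G - 1) := by
      rw [map_sub, h1s]
    rw [this, LinearIsometryEquiv.norm_map]
    exact h2
  have h6 : ContinuousLinearMap.adjoint (R G) = R G := opSqrt_aux_unique h4 h5 h2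
  calc inner ℝ (R G x) y = inner ℝ x (ContinuousLinearMap.adjoint (R G) y) :=
        (ContinuousLinearMap.adjoint_inner_right _ _ _).symm
    _ = inner ℝ x (R G y) := by rw [h6]

/-- radius of validity of `opSqrt` -/
noncomputable def sqδ (k : ℕ) : ℝ := (exists_opSqrt k).choose

/-- bound of the derivatives of `opSqrt` -/
noncomputable def sqC (k : ℕ) : ℝ := (exists_opSqrt k).choose_spec.choose

/-- the square root -/
noncomputable def opSqrt (k : ℕ) : (E k →L[ℝ] E k) → (E k →L[ℝ] E k) :=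
  (exists_opSqrt k).choose_spec.choose_spec.choose

theorem opSqrt_spec (k : ℕ) : 0 < sqδ k ∧ sqδ k ≤ 1 / 4 ∧ 0 < sqC k ∧
      ContDiffOn ℝ 4 (opSqrt k) (Metric.ball 1 (sqδ k)) ∧
      ∀ G ∈ Metric.ball (1 : E k →L[ℝ] E k) (sqδ k),
        opSqrt k G ∘L opSqrt k G = G ∧ ‖opSqrt k G - 1‖ ≤ ‖G - 1‖ ∧
        ((∀ x y, inner ℝ (G x) y = inner ℝ x (G y)) →
          ∀ x y, inner ℝ (opSqrt k G x) y = inner ℝ x (opSqrt k G y)) ∧
        (∀ j : ℕ, j ≤ 4 →
          ‖iteratedFDerivWithin ℝ j (opSqrt k) (Metric.ball 1 (sqδ k)) G‖ ≤ sqC k) :=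
  (exists_opSqrt k).choose_spec.choose_spec.choose_spec

/-- a fixed smooth cutoff: `1` on `ball 0 r`, support in `closedBall 0 (r+1)`, derivatives of order
`≤ 4` bounded by a constant depending only on `k`. -/
theorem exists_cutoff (k : ℕ) : ∃ C : ℝ, 0 < C ∧ ∀ r : ℝ, 0 < r → ∃ χ : E k → ℝ,
    ContDiff ℝ ∞ χ ∧ (∀ y, 0 ≤ χ y ∧ χ y ≤ 1) ∧ (∀ y ∈ Metric.ball (0 : E k) r, χ y = 1) ∧
    tsupport χ ⊆ Metric.closedBall 0 (r + 1) ∧
    ∀ j : ℕ, j ≤ 4 → ∀ y, ‖iteratedFDeriv ℝ j χ y‖ ≤ C := by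
  obtain ⟨C, Nov, hC, H⟩ := grid_pou k 4 1 le_rfl
  refine ⟨Nov * (C * 16) + 1, by positivity, fun r hr => ?_⟩
  obtain ⟨χ, hs, h01, hsupp, hfin, hsum, hder, hov, hK⟩ := H (1 / 2) (by norm_num)
  have hKfin := hK 0 r hr
  set Kf : Finset (Fin k → ℤ) := hKfin.toFinset with hKf
  have hmemK : ∀ κ, κ ∈ Kf ↔
      (Metric.ball (gpt k (1 / 2) κ) (1 * (1 / 2)) ∩ Metric.ball (0 : E k) r).Nonempty := by
    intro κ
    rw [hKf, Set.Finite.mem_toFinset]
    rfl
  have hin : ∀ κ y, χ κ y ≠ 0 → y ∈ Metric.ball (gpt k (1 / 2) κ) (1 / 2) := fun κ y hy =>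
    hsupp κ (subset_tsupport _ hy)
  refine ⟨fun y => ∑ κ ∈ Kf, χ κ y, ?_, ?_, ?_, ?_, ?_⟩
  · exact ContDiff.sum fun κ _ => hs κ
  · intro y
    refine ⟨Finset.sum_nonneg fun κ _ => (h01 κ y).1, ?_⟩
    rw [← hsum y, finsum_eq_sum_of_support_subset (s := (hfin y).toFinset ∪ Kf) _ (by
      intro κ hκ
      rw [Finset.coe_union]
      left
      rw [Set.Finite.coe_toFinset]
      exact hκ)]
    exact Finset.sum_le_sum_of_subset_of_nonneg Finset.subset_union_right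
      fun κ _ _ => (h01 κ y).1
  · intro y hy
    rw [← hsum y, finsum_eq_sum_of_support_subset (s := Kf) _ (by
      intro κ hκ
      rw [Finset.mem_coe, hmemK]
      refine ⟨y, ?_, hy⟩
      rw [one_mul]
      exact hin κ y hκ)]
  · refine closure_minimal (fun y hy => ?_) Metric.isClosed_closedBall
    obtain ⟨κ, hκ, hne⟩ := Finset.exists_ne_zero_of_sum_ne_zero hy
    obtain ⟨z, hz1, hz2⟩ := (hmemK κ).1 hκ
    have h1 := hin κ y hne
    rw [Metric.mem_ball] at h1 hz1 hz2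
    rw [Metric.mem_closedBall]
    have h2 := dist_triangle y (gpt k (1 / 2) κ) 0
    have h3 := dist_triangle (gpt k (1 / 2) κ) z 0
    rw [dist_comm z] at hz1
    linarith
  · intro j hj y
    rw [iteratedFDeriv_fun_sum_apply fun κ _ => ((hs κ).of_le (by exact_mod_cast le_top)).contDiffAt]
    obtain ⟨hf1, hc1⟩ := hov y
    have hzero : ∀ κ, κ ∉ hf1.toFinset → iteratedFDeriv ℝ j (χ κ) y = 0 := by
      intro κ hκ
      rw [Set.Finite.mem_toFinset] at hκ
      apply image_eq_zero_of_notMem_tsupport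
      intro hmem
      apply hκ
      have := hsupp κ (tsupport_iteratedFDeriv_subset j hmem)
      rw [Set.mem_ofPred_eq, one_mul]
      exact this
    have hterm : ∀ κ, ‖iteratedFDeriv ℝ j (χ κ) y‖ ≤ C * 16 := by
      intro κ
      have h1 := hder κ j hj y
      have h2 : (1 / 16 : ℝ) ≤ (1 / 2 : ℝ) ^ j := by
        calc (1 / 16 : ℝ) = (1 / 2 : ℝ) ^ 4 := by norm_num
          _ ≤ (1 / 2 : ℝ) ^ j := pow_le_pow_of_le_one (by norm_num) (by norm_num) hj
      have h3 : 1 / 16 * ‖iteratedFDeriv ℝ j (χ κ) y‖ ≤ C :=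
        (mul_le_mul_of_nonneg_right h2 (norm_nonneg _)).trans h1
      linarith
    calc ‖∑ κ ∈ Kf, iteratedFDeriv ℝ j (χ κ) y‖ ≤ ∑ κ ∈ Kf, ‖iteratedFDeriv ℝ j (χ κ) y‖ :=
          norm_sum_le _ _
      _ = ∑ κ ∈ Kf ∩ hf1.toFinset, ‖iteratedFDeriv ℝ j (χ κ) y‖ := by
          symm
          refine Finset.sum_subset Finset.inter_subset_left fun κ h1 h2 => ?_
          rw [hzero κ (fun h => h2 (Finset.mem_inter.2 ⟨h1, h⟩)), norm_zero]
      _ ≤ ∑ _κ ∈ Kf ∩ hf1.toFinset, C * 16 := Finset.sum_le_sum fun κ _ => hterm κ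
      _ = ((Kf ∩ hf1.toFinset).card : ℝ) * (C * 16) := by rw [Finset.sum_const, nsmul_eq_mul]
      _ ≤ Nov * (C * 16) := by
          apply mul_le_mul_of_nonneg_right _ (by positivity)
          have h1 : (Kf ∩ hf1.toFinset).card ≤ hf1.toFinset.card :=
            Finset.card_le_card Finset.inter_subset_right
          rw [← Set.ncard_eq_toFinset_card _ hf1] at h1
          exact_mod_cast h1.trans hc1
      _ ≤ Nov * (C * 16) + 1 := by linarith

end Claimed.Agent.R322.Tool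
end

/- ===== packed: Claimed.Agent.R322.Sx.Weighted.Cells ===== -/
section
/-!
# R322 / Sx / Weighted / Cells : weighted scalar estimate on the Gaussian body (AE (2.16))   (helper43)

`Wt.cell_sum_le` is the abstract cell summation (two measures on the base, uniform grid cells of radius `r`, `2 r (1 + R) ≤ s`; the Gaussian
changes by at most `e^{3/2}` between a point of an enlarged cell and its centre; bounded overlap = `Tool.grid_overlap_sum`).
`Wt.weighted_scalar_core` feeds it with `scalar_tau` (enlargement `2`).  The hypothesis `closedBall x ((R + 2) s) ⊆ Ω` makes the right-hand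
side integrable (otherwise the Bochner integral would be `0`).
-/

set_option autoImplicit false

namespace Claimed.Agent.R322.Sx

open MeasureTheory Set Metric
open scoped ENNReal NNReal InnerProductSpace

namespace Wt

variable {m : ℕ}

theorem gauss_nonneg' (s : ℝ) (z : E m) : 0 ≤ gauss m s z := by
  unfold gauss
  positivity

theorem continuous_gauss' (s : ℝ) (x : E m) : Continuous fun y : E m => gauss m s (y - x) := by
  unfold gauss
  fun_prop

/-- comparability of the Gaussian. -/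
theorem gauss_le_of_sq_le {s : ℝ} (hs : 0 < s) {z z' : E m} (h : ‖z'‖ ^ 2 ≤ ‖z‖ ^ 2 + 3 * s ^ 2) :
    gauss m s z ≤ Real.exp (3 / 2) * gauss m s z' := by
  unfold gauss
  have hc : 0 ≤ (2 * Real.pi * s ^ 2) ^ (-(m : ℝ) / 2) := by positivity
  have h1 : Real.exp (-‖z‖ ^ 2 / (2 * s ^ 2))
      ≤ Real.exp (3 / 2) * Real.exp (-‖z'‖ ^ 2 / (2 * s ^ 2)) := by
    rw [← Real.exp_add]
    apply Real.exp_le_exp.2
    have hs2 : 0 < 2 * s ^ 2 := by positivity
    rw [div_add_div _ _ (by norm_num) hs2.ne', div_le_div_iff₀ hs2 (by positivity)]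
    nlinarith [sq_nonneg s]
  calc (2 * Real.pi * s ^ 2) ^ (-(m : ℝ) / 2) * Real.exp (-‖z‖ ^ 2 / (2 * s ^ 2))
      ≤ (2 * Real.pi * s ^ 2) ^ (-(m : ℝ) / 2)
          * (Real.exp (3 / 2) * Real.exp (-‖z'‖ ^ 2 / (2 * s ^ 2))) :=
        mul_le_mul_of_nonneg_left h1 hc
    _ = _ := by ring

/-- two points of an enlarged cell: the squares of the distances to `x` differ by at most `3 s²`. -/
theorem cell_sq_le {x y y' : E m} {s R r : ℝ} (hs : 0 < s) (hR : 0 ≤ R) (hr : 0 < r)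
    (hrs : 2 * r * (1 + R) ≤ s) (hy : ‖y - x‖ ≤ (R + 1) * s) (hy' : ‖y' - y‖ ≤ 2 * r) :
    ‖y' - x‖ ^ 2 ≤ ‖y - x‖ ^ 2 + 3 * s ^ 2 ∧ ‖y - x‖ ^ 2 ≤ ‖y' - x‖ ^ 2 + 3 * s ^ 2 := by
  have h2r : 2 * r ≤ s := by nlinarith
  have t1 : ‖y' - x‖ ≤ ‖y - x‖ + 2 * r := by
    have : y' - x = (y' - y) + (y - x) := by abel
    calc ‖y' - x‖ = ‖(y' - y) + (y - x)‖ := by rw [this]
      _ ≤ ‖y' - y‖ + ‖y - x‖ := norm_add_le _ _
      _ ≤ _ := by linarith
  have t2 : ‖y - x‖ ≤ ‖y' - x‖ + 2 * r := by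
    have : y - x = (y' - x) - (y' - y) := by abel
    calc ‖y - x‖ = ‖(y' - x) - (y' - y)‖ := by rw [this]
      _ ≤ ‖y' - x‖ + ‖y' - y‖ := norm_sub_le _ _
      _ ≤ _ := by linarith
  have n1 := norm_nonneg (y - x)
  have n2 := norm_nonneg (y' - x)
  -- `2 r ‖y - x‖ ≤ s²`
  have k1 : 2 * r * ‖y - x‖ ≤ s ^ 2 := by
    calc 2 * r * ‖y - x‖ ≤ 2 * r * ((R + 1) * s) := by
          apply mul_le_mul_of_nonneg_left hy (by positivity)
      _ = (2 * r * (1 + R)) * s := by ring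
      _ ≤ s * s := by apply mul_le_mul_of_nonneg_right hrs hs.le
      _ = s ^ 2 := by ring
  have k2 : (2 * r) ^ 2 ≤ s ^ 2 := by
    apply pow_le_pow_left₀ (by positivity) h2r
  constructor
  · calc ‖y' - x‖ ^ 2 ≤ (‖y - x‖ + 2 * r) ^ 2 := pow_le_pow_left₀ n2 t1 2
      _ = ‖y - x‖ ^ 2 + 2 * (2 * r * ‖y - x‖) + (2 * r) ^ 2 := by ring
      _ ≤ _ := by linarith
  · have k3 : 2 * r * ‖y' - x‖ ≤ 2 * r * ‖y - x‖ + (2 * r) ^ 2 := by
      calc 2 * r * ‖y' - x‖ ≤ 2 * r * (‖y - x‖ + 2 * r) := by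
            apply mul_le_mul_of_nonneg_left t1 (by positivity)
        _ = _ := by ring
    -- use `‖y - x‖² ≤ ‖y-x‖ (‖y'-x‖ + 2r)` and again
    have k4 : ‖y - x‖ ^ 2 ≤ ‖y' - x‖ ^ 2 + 2 * r * ‖y' - x‖ + 2 * r * ‖y - x‖ := by
      nlinarith
    nlinarith

/-- the grid cells of radius `r` whose centres lie within `(R + 1) s` of `x` cover the body. -/
theorem body_subset {x : E m} {s R r : ℝ} (hr : 0 < r) (hrs : r ≤ s) :
    closedBall x (R * s) ⊆ ⋃ k : Fin m → ℤ,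
      (if ‖Tool.gpt m r k - x‖ ≤ (R + 1) * s then ball (Tool.gpt m r k) r else ∅) := by
  intro y hy
  rw [mem_closedBall, dist_eq_norm] at hy
  obtain ⟨k, hk⟩ := Tool.gpt_cover m (r⁻¹ • y)
  have h1 : ‖y - Tool.gpt m r k‖ ≤ r / 4 := by
    rw [Tool.gpt_norm_scale m hr]
    calc r * ‖r⁻¹ • y - Tool.gpt m 1 k‖ ≤ r * (1 / 4) := mul_le_mul_of_nonneg_left hk hr.le
      _ = r / 4 := by ring
  have h2 : ‖Tool.gpt m r k - x‖ ≤ (R + 1) * s := by
    have : Tool.gpt m r k - x = (y - x) - (y - Tool.gpt m r k) := by abel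
    calc ‖Tool.gpt m r k - x‖ = ‖(y - x) - (y - Tool.gpt m r k)‖ := by rw [this]
      _ ≤ ‖y - x‖ + ‖y - Tool.gpt m r k‖ := norm_sub_le _ _
      _ ≤ R * s + r / 4 := by linarith
      _ ≤ (R + 1) * s := by nlinarith
  refine mem_iUnion.2 ⟨k, ?_⟩
  rw [if_pos h2, mem_ball, dist_eq_norm]
  linarith

/-- **Cell summation with a Gaussian weight** (abstract form of AE (2.16)). -/
theorem cell_sum_le (Nov : ℕ)
    (hNov : ∀ (l : ℝ), 0 < l → ∀ (ρ : Measure (E m)) (A : Set (E m)), MeasurableSet A →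
      ∑' k : Fin m → ℤ, ρ (ball (Tool.gpt m l k) (2 * l) ∩ A) ≤ (Nov : ℝ≥0∞) * ρ A)
    (ρ1 ρ2 : Measure (E m)) (K : ℝ≥0∞) {x : E m} {s R r : ℝ} (hs : 0 < s) (hR : 0 ≤ R)
    (hr : 0 < r) (hrs : 2 * r * (1 + R) ≤ s)
    (H : ∀ y : E m, ‖y - x‖ ≤ (R + 1) * s → ρ1 (ball y r) ≤ K * ρ2 (ball y (2 * r))) :
    ∫⁻ y in closedBall x (R * s), ENNReal.ofReal (gauss m s (y - x)) ∂ρ1
      ≤ ENNReal.ofReal (Real.exp 3) * K * Nov
        * ∫⁻ y in closedBall x ((R + 2) * s), ENNReal.ofReal (gauss m s (y - x)) ∂ρ2 := by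
  have h2r : 2 * r ≤ s := by nlinarith
  set g : E m → ℝ≥0∞ := fun y => ENNReal.ofReal (gauss m s (y - x)) with hg
  have hgm : Measurable g := (continuous_gauss' s x).measurable.ennreal_ofReal
  set A : Set (E m) := closedBall x ((R + 2) * s) with hA
  have hAm : MeasurableSet A := isClosed_closedBall.measurableSet
  set e32 : ℝ≥0∞ := ENNReal.ofReal (Real.exp (3 / 2)) with he32
  have he : e32 * e32 = ENNReal.ofReal (Real.exp 3) := by
    rw [he32, ← ENNReal.ofReal_mul (Real.exp_pos _).le, ← Real.exp_add]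
    norm_num
  -- one cell
  have cell : ∀ k : Fin m → ℤ,
      ∫⁻ y in (if ‖Tool.gpt m r k - x‖ ≤ (R + 1) * s then ball (Tool.gpt m r k) r else ∅), g y ∂ρ1
        ≤ ENNReal.ofReal (Real.exp 3) * K
          * (ρ2.withDensity g) (ball (Tool.gpt m r k) (2 * r) ∩ A) := by
    intro k
    by_cases hk : ‖Tool.gpt m r k - x‖ ≤ (R + 1) * s
    · rw [if_pos hk]
      set yk := Tool.gpt m r k with hyk
      have up : ∀ y ∈ ball yk r, g y ≤ e32 * g yk := by
        intro y hy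
        rw [mem_ball, dist_eq_norm] at hy
        have := (cell_sq_le hs hR hr hrs hk (y' := y) (by linarith)).2
        rw [hg, he32]
        simp only
        rw [← ENNReal.ofReal_mul (Real.exp_pos _).le]
        exact ENNReal.ofReal_le_ofReal (gauss_le_of_sq_le hs this)
      have low : ∀ y ∈ ball yk (2 * r), g yk ≤ e32 * g y := by
        intro y hy
        rw [mem_ball, dist_eq_norm] at hy
        have := (cell_sq_le hs hR hr hrs hk (y' := y) hy.le).1
        rw [hg, he32]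
        simp only
        rw [← ENNReal.ofReal_mul (Real.exp_pos _).le]
        exact ENNReal.ofReal_le_ofReal (gauss_le_of_sq_le hs this)
      have sub : ball yk (2 * r) ⊆ A := by
        intro y hy
        rw [mem_ball, dist_eq_norm] at hy
        rw [hA, mem_closedBall, dist_eq_norm]
        have : y - x = (y - yk) + (yk - x) := by abel
        calc ‖y - x‖ = ‖(y - yk) + (yk - x)‖ := by rw [this]
          _ ≤ ‖y - yk‖ + ‖yk - x‖ := norm_add_le _ _
          _ ≤ 2 * r + (R + 1) * s := by linarith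
          _ ≤ (R + 2) * s := by nlinarith
      rw [inter_eq_left.2 sub, withDensity_apply _ isOpen_ball.measurableSet]
      calc ∫⁻ y in ball yk r, g y ∂ρ1 ≤ ∫⁻ _y in ball yk r, e32 * g yk ∂ρ1 :=
            setLIntegral_mono' isOpen_ball.measurableSet up
        _ = e32 * g yk * ρ1 (ball yk r) := by rw [setLIntegral_const]
        _ ≤ e32 * g yk * (K * ρ2 (ball yk (2 * r))) := by gcongr; exact H yk hk
        _ = e32 * K * ∫⁻ _y in ball yk (2 * r), g yk ∂ρ2 := by rw [setLIntegral_const]; ring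
        _ ≤ e32 * K * ∫⁻ y in ball yk (2 * r), e32 * g y ∂ρ2 := by
            exact mul_le_mul_right (setLIntegral_mono' isOpen_ball.measurableSet low) _
        _ = e32 * K * (e32 * ∫⁻ y in ball yk (2 * r), g y ∂ρ2) := by
            rw [lintegral_const_mul _ hgm]
        _ = ENNReal.ofReal (Real.exp 3) * K * ∫⁻ y in ball yk (2 * r), g y ∂ρ2 := by
            rw [← he]; ring
    · rw [if_neg hk]
      simp
  calc ∫⁻ y in closedBall x (R * s), g y ∂ρ1
      ≤ ∫⁻ y in ⋃ k : Fin m → ℤ,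
          (if ‖Tool.gpt m r k - x‖ ≤ (R + 1) * s then ball (Tool.gpt m r k) r else ∅), g y ∂ρ1 :=
        lintegral_mono_set (body_subset hr (by linarith))
    _ ≤ ∑' k : Fin m → ℤ, ∫⁻ y in
          (if ‖Tool.gpt m r k - x‖ ≤ (R + 1) * s then ball (Tool.gpt m r k) r else ∅), g y ∂ρ1 :=
        lintegral_iUnion_le _ _
    _ ≤ ∑' k : Fin m → ℤ, ENNReal.ofReal (Real.exp 3) * K
          * (ρ2.withDensity g) (ball (Tool.gpt m r k) (2 * r) ∩ A) := ENNReal.tsum_le_tsum cell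
    _ = ENNReal.ofReal (Real.exp 3) * K
          * ∑' k : Fin m → ℤ, (ρ2.withDensity g) (ball (Tool.gpt m r k) (2 * r) ∩ A) :=
        ENNReal.tsum_mul_left
    _ ≤ ENNReal.ofReal (Real.exp 3) * K * ((Nov : ℝ≥0∞) * (ρ2.withDensity g) A) := by
        gcongr
        exact hNov r hr _ A hAm
    _ = ENNReal.ofReal (Real.exp 3) * K * Nov * ∫⁻ y in A, g y ∂ρ2 := by
        rw [withDensity_apply _ hAm]; ring

theorem gauss_le_const (s : ℝ) (z : E m) : gauss m s z ≤ (2 * Real.pi * s ^ 2) ^ (-(m : ℝ) / 2) := by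
  unfold gauss
  have hc : 0 ≤ (2 * Real.pi * s ^ 2) ^ (-(m : ℝ) / 2) := by positivity
  have h1 : Real.exp (-‖z‖ ^ 2 / (2 * s ^ 2)) ≤ 1 := by
    rw [Real.exp_le_one_iff, neg_div]
    have : 0 ≤ ‖z‖ ^ 2 / (2 * s ^ 2) := by positivity
    linarith
  calc _ ≤ (2 * Real.pi * s ^ 2) ^ (-(m : ℝ) / 2) * 1 := mul_le_mul_of_nonneg_left h1 hc
    _ = _ := mul_one _

variable {n : ℕ} {S : Sys m n}

theorem Dm_lt_top (h : S.Valid) {K : Set (E m)} (hK : IsCompact K) (hKΩ : K ⊆ S.Ω) :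
    S.Dm K < ∞ := by
  have hKm : MeasurableSet K := hK.isClosed.measurableSet
  unfold Sys.Dm
  rw [Measure.map_apply measurable_fst hKm, withDensity_apply _ (measurable_fst hKm)]
  have e : (Prod.fst ⁻¹' K : Set (E m × E n)) = K ×ˢ (univ : Set (E n)) := by
    ext q; simp
  calc ∫⁻ q in Prod.fst ⁻¹' K, ENNReal.ofReal (S.e q) ∂S.μ
      ≤ ∫⁻ _q in Prod.fst ⁻¹' K, ENNReal.ofReal (m : ℝ) ∂S.μ :=
        lintegral_mono fun q => ENNReal.ofReal_le_ofReal (h.e_le q)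
    _ = ENNReal.ofReal (m : ℝ) * S.μ (K ×ˢ (univ : Set (E n))) := by
        rw [setLIntegral_const, e]
    _ < ∞ := ENNReal.mul_lt_top ENNReal.ofReal_lt_top (h.finite_mass K hK hKΩ)

theorem Lm_lt_top (h : S.Valid) {K : Set (E m)} (hK : IsCompact K) (hKΩ : K ⊆ S.Ω) :
    S.Lm K < ∞ := by
  have hKm : MeasurableSet K := hK.isClosed.measurableSet
  unfold Sys.Lm
  rw [Measure.map_apply measurable_fst hKm, withDensity_apply _ (measurable_fst hKm)]
  have e : (Prod.fst ⁻¹' K : Set (E m × E n)) = K ×ˢ (univ : Set (E n)) := by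
    ext q; simp
  calc ∫⁻ q in Prod.fst ⁻¹' K, ENNReal.ofReal (S.lam q) ∂S.μ
      ≤ ∫⁻ _q in Prod.fst ⁻¹' K, ENNReal.ofReal S.Cg ∂S.μ :=
        lintegral_mono fun q => ENNReal.ofReal_le_ofReal (h.lam_le q)
    _ = ENNReal.ofReal S.Cg * S.μ (K ×ˢ (univ : Set (E n))) := by
        rw [setLIntegral_const, e]
    _ < ∞ := ENNReal.mul_lt_top ENNReal.ofReal_lt_top (h.finite_mass K hK hKΩ)

theorem integral_gauss_eq (ρ : Measure (E m)) (A : Set (E m)) (s : ℝ) (x : E m) :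
    ∫ y in A, gauss m s (y - x) ∂ρ
      = (∫⁻ y in A, ENNReal.ofReal (gauss m s (y - x)) ∂ρ).toReal :=
  integral_eq_lintegral_of_nonneg_ae (Filter.Eventually.of_forall fun y => gauss_nonneg' s _)
    (continuous_gauss' s x).aestronglyMeasurable

/-- AE (2.16). -/
theorem weighted_scalar_core (m n Q : ℕ) (hm : 1 ≤ m) (Cg : ℝ) :
    ∃ C c1 L d1 : ℝ, 0 < C ∧ 0 < c1 ∧ 1 < L ∧ L * c1 ≤ 1 ∧ 0 < d1 ∧
      ∀ S : Sys m n, S.Valid → S.Cg ≤ Cg → ∀ (x : E m) (s R : ℝ), 0 < s → s ≤ 1 → 0 ≤ R →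
      closedBall x ((R + 2) * s) ⊆ S.Ω →
      (∀ y : E m, ‖y - x‖ ≤ (R + 1) * s →
        ball y (L * (c1 * s / (1 + R))) ⊆ S.Ω ∧
        S.tau Q (ball y (L * (c1 * s / (1 + R))))
          ≤ ENNReal.ofReal (d1 * (c1 * s / (1 + R)) ^ m)) →
      ∫ y in closedBall x (R * s), gauss m s (y - x) ∂(S.absM Q)
        ≤ C * ∫ y in closedBall x ((R + 2) * s), gauss m s (y - x) ∂(S.Dm + S.Lm) := by
  obtain ⟨C0, d0, hC0, hd0, H⟩ := scalar_tau m n Q hm Cg 2 (by norm_num)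
  obtain ⟨Nov, hNov⟩ := Tool.grid_overlap_sum m 2 (by norm_num)
  refine ⟨Real.exp 3 * C0 * (Nov + 1), 1 / 2, 2, d0, by positivity, by norm_num, by norm_num,
    by norm_num, hd0, ?_⟩
  intro S hS hCg x s R hs hs1 hR hsub hyp
  obtain ⟨r, hrdef⟩ : ∃ r : ℝ, r = 1 / 2 * s / (1 + R) := ⟨_, rfl⟩
  rw [← hrdef] at hyp
  have h1R : 0 < 1 + R := by linarith
  have hr : 0 < r := by rw [hrdef]; positivity
  have hrs : 2 * r * (1 + R) ≤ s := by
    rw [hrdef]; apply le_of_eq; field_simp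
  have hr1 : r ≤ 1 := by nlinarith
  have key := cell_sum_le Nov hNov (S.absM Q) (S.Dm + S.Lm) (ENNReal.ofReal C0) (x := x) hs hR hr hrs
    (fun y hy => by
      obtain ⟨h1, h2⟩ := hyp y hy
      exact le_trans (le_add_right le_rfl) (H S hS hCg y r hr hr1 h1 h2))
  rw [integral_gauss_eq, integral_gauss_eq]
  have hfin : ∫⁻ y in closedBall x ((R + 2) * s), ENNReal.ofReal (gauss m s (y - x)) ∂(S.Dm + S.Lm)
      < ∞ := by
    calc ∫⁻ y in closedBall x ((R + 2) * s), ENNReal.ofReal (gauss m s (y - x)) ∂(S.Dm + S.Lm)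
        ≤ ∫⁻ _y in closedBall x ((R + 2) * s),
            ENNReal.ofReal ((2 * Real.pi * s ^ 2) ^ (-(m : ℝ) / 2)) ∂(S.Dm + S.Lm) :=
          lintegral_mono fun y => ENNReal.ofReal_le_ofReal (gauss_le_const s _)
      _ = ENNReal.ofReal ((2 * Real.pi * s ^ 2) ^ (-(m : ℝ) / 2))
            * (S.Dm (closedBall x ((R + 2) * s)) + S.Lm (closedBall x ((R + 2) * s))) := by
          rw [setLIntegral_const, Measure.add_apply]
      _ < ∞ := ENNReal.mul_lt_top ENNReal.ofReal_lt_top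
          (ENNReal.add_lt_top.2 ⟨Dm_lt_top hS (isCompact_closedBall _ _) hsub,
            Lm_lt_top hS (isCompact_closedBall _ _) hsub⟩)
  have hfin2 : ENNReal.ofReal (Real.exp 3) * ENNReal.ofReal C0 * Nov
        * ∫⁻ y in closedBall x ((R + 2) * s), ENNReal.ofReal (gauss m s (y - x)) ∂(S.Dm + S.Lm)
      ≠ ∞ :=
    (ENNReal.mul_lt_top (ENNReal.mul_lt_top (ENNReal.mul_lt_top ENNReal.ofReal_lt_top
      ENNReal.ofReal_lt_top) (ENNReal.natCast_lt_top _)) hfin).ne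
  have := ENNReal.toReal_mono hfin2 key
  rw [ENNReal.toReal_mul, ENNReal.toReal_mul, ENNReal.toReal_mul,
    ENNReal.toReal_ofReal (Real.exp_pos _).le, ENNReal.toReal_ofReal hC0.le,
    ENNReal.toReal_natCast] at this
  refine this.trans ?_
  apply mul_le_mul_of_nonneg_right _ ENNReal.toReal_nonneg
  apply mul_le_mul_of_nonneg_left (by linarith) (by positivity)

end Wt

end Claimed.Agent.R322.Sx
end

/- ===== packed: Claimed.Agent.R322.Sx.Bottom.Mult ===== -/
section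
/-!
# R322 / Sx / Bottom / Mult   (blueprint: helper121)   LEAF `L-Bot-Mult`

The pointwise inequality at a point of small `τ`-density (end of the proof of AE Lemma 5.1).  Pure algebra of finite sums.

Notation: `Σ₁ = Σ 1/J_i`, `Σ_e = Σ e_i/J_i`, `Σ_l = Σ l_i/J_i`, `N = card F`.
(0) `δ ≥ 0`; from `a ≥ 1/2`: `|Σ₁ - Q| ≤ 2δ`, `Σ_e ≤ 2δ`, `Σ_l ≤ 2δ`; each term is `≤` its sum
    (`Multiset.single_le_sum` / induction), so `e_i ≤ 2δ J_i`, `l_i ≤ 2δ J_i`.
(1) `J_i - 1 ≤ Cg (e_i + l_i) ≤ 4 Cg δ J_i ≤ J_i / 2`, so `J_i ≤ 2` and `e_i ≤ 4δ`.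
(2) `|1/J_i - 1| ≤ Cg (e_i + l_i)/J_i`, so `|Σ₁ - N| ≤ 4 Cg δ`, `|N - Q| ≤ (4 Cg + 2) δ ≤ 1/2`, hence `N = Q`.
(3) divide `h2` by `J_i` and sum: `2 (Σ₁ - N) - Σ_e ≤ Cg Σ e_i²/J_i + Cg Σ_l ≤ 4 Cg δ Σ_e + Cg Σ_l`.
(4) `Cg ≤ CQ`, multiply by `a > 0`.
-/

set_option autoImplicit false

namespace Claimed.Agent.R322.Sx

theorem bm_sum_le {α : Type*} (F : Multiset α) (f g : α → ℝ) (h : ∀ i ∈ F, f i ≤ g i) :
    (F.map f).sum ≤ (F.map g).sum := Multiset.sum_map_le_sum_map f g h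

theorem bm_sum_nonneg {α : Type*} (F : Multiset α) (f : α → ℝ) (h : ∀ i ∈ F, 0 ≤ f i) :
    0 ≤ (F.map f).sum := by
  apply Multiset.sum_nonneg
  intro x hx
  obtain ⟨i, hi, rfl⟩ := Multiset.mem_map.1 hx
  exact h i hi

theorem bm_le_sum {α : Type*} (F : Multiset α) (f : α → ℝ) (h : ∀ i ∈ F, 0 ≤ f i) (i : α)
    (hi : i ∈ F) : f i ≤ (F.map f).sum := by
  obtain ⟨G, rfl⟩ := Multiset.exists_cons_of_mem hi
  rw [Multiset.map_cons, Multiset.sum_cons]
  have := bm_sum_nonneg G f fun j hj => h j (Multiset.mem_cons_of_mem hj)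
  linarith

theorem bot_multiset {α : Type*} (F : Multiset α) (J e l : α → ℝ) (Q : ℕ) (Cg CQ δ a : ℝ)
    (hCg : 1 ≤ Cg) (hCQ : Cg ≤ CQ) (hδ : (8 * Cg + 4) * δ ≤ 1) (ha : 1 / 2 ≤ a)
    (hJ : ∀ i ∈ F, 0 < J i) (he : ∀ i ∈ F, 0 ≤ e i) (hl : ∀ i ∈ F, 0 ≤ l i)
    (h1 : ∀ i ∈ F, |J i - 1| ≤ Cg * (e i + l i))
    (h2 : ∀ i ∈ F, 2 * (1 - J i) - e i ≤ Cg * (e i ^ 2 + l i))
    (ht : |a * (F.map fun i => 1 / J i).sum - Q * a| + a * (F.map fun i => e i / J i).sum
      + a * (F.map fun i => l i / J i).sum ≤ δ) :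
    2 * (a * (F.map fun i => 1 / J i).sum - Q * a) - a * (F.map fun i => e i / J i).sum
      - CQ * (a * (F.map fun i => l i / J i).sum)
      ≤ 4 * Cg * δ * (a * (F.map fun i => e i / J i).sum) := by
  set S1 := (F.map fun i => 1 / J i).sum with hS1
  set Se := (F.map fun i => e i / J i).sum with hSe
  set Sl := (F.map fun i => l i / J i).sum with hSl
  have ha0 : 0 < a := by linarith
  have hSe0 : 0 ≤ Se := bm_sum_nonneg F _ fun i hi => div_nonneg (he i hi) (hJ i hi).le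
  have hSl0 : 0 ≤ Sl := bm_sum_nonneg F _ fun i hi => div_nonneg (hl i hi) (hJ i hi).le
  have habs0 := abs_nonneg (a * S1 - Q * a)
  have hδ0 : 0 ≤ δ := by
    have : 0 ≤ a * Se := by positivity
    have : 0 ≤ a * Sl := by positivity
    linarith
  -- (0)
  have hSe2 : Se ≤ 2 * δ := by
    have : 0 ≤ a * Sl := by positivity
    have h3 : a * Se ≤ δ := by linarith
    nlinarith
  have hSl2 : Sl ≤ 2 * δ := by
    have : 0 ≤ a * Se := by positivity
    have h3 : a * Sl ≤ δ := by linarith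
    nlinarith
  have hS12 : |S1 - Q| ≤ 2 * δ := by
    have : 0 ≤ a * Se := by positivity
    have : 0 ≤ a * Sl := by positivity
    have h3 : |a * S1 - Q * a| ≤ δ := by linarith
    have h4 : a * S1 - Q * a = a * (S1 - Q) := by ring
    rw [h4, abs_mul, abs_of_pos ha0] at h3
    have := abs_nonneg (S1 - Q)
    nlinarith
  have hei : ∀ i ∈ F, e i ≤ 2 * δ * J i := by
    intro i hi
    have h3 := bm_le_sum F (fun i => e i / J i)
      (fun i hi => div_nonneg (he i hi) (hJ i hi).le) i hi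
    have h4 : e i / J i ≤ 2 * δ := h3.trans hSe2
    rwa [div_le_iff₀ (hJ i hi)] at h4
  have hli : ∀ i ∈ F, l i ≤ 2 * δ * J i := by
    intro i hi
    have h3 := bm_le_sum F (fun i => l i / J i)
      (fun i hi => div_nonneg (hl i hi) (hJ i hi).le) i hi
    have h4 : l i / J i ≤ 2 * δ := h3.trans hSl2
    rwa [div_le_iff₀ (hJ i hi)] at h4
  have hCgδ : 4 * Cg * δ ≤ 1 / 2 := by nlinarith
  -- (1)
  have hJ2 : ∀ i ∈ F, J i ≤ 2 := by
    intro i hi
    have h3 := (abs_le.1 (h1 i hi)).2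
    have h4 := hei i hi
    have h5 := hli i hi
    have h6 : Cg * (e i + l i) ≤ Cg * (4 * δ * J i) :=
      mul_le_mul_of_nonneg_left (by linarith) (by linarith)
    have h7 : Cg * (4 * δ * J i) = (4 * Cg * δ) * J i := by ring
    have h8 : (4 * Cg * δ) * J i ≤ 1 / 2 * J i := mul_le_mul_of_nonneg_right hCgδ (hJ i hi).le
    linarith
  have he4 : ∀ i ∈ F, e i ≤ 4 * δ := by
    intro i hi
    have h3 := hei i hi
    have h4 := hJ2 i hi
    nlinarith
  -- (2)
  have hcard : (F.map fun _ => (1 : ℝ)).sum = (Multiset.card F : ℝ) := by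
    simp
  have hup : S1 - (Multiset.card F : ℝ) ≤ Cg * (Se + Sl) := by
    have h3 : S1 ≤ (F.map fun i => 1 + Cg * (e i / J i + l i / J i)).sum := by
      apply bm_sum_le
      intro i hi
      have hJi := hJ i hi
      have h4 := (abs_le.1 (h1 i hi)).1
      rw [← add_div, ← mul_div_assoc, div_le_iff₀ hJi, add_mul, div_mul_cancel₀ _ hJi.ne']
      linarith
    rw [Multiset.sum_map_add, hcard, Multiset.sum_map_mul_left, Multiset.sum_map_add] at h3
    linarith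
  have hlow : (Multiset.card F : ℝ) - S1 ≤ Cg * (Se + Sl) := by
    have h3 : (F.map fun i => 1 - Cg * (e i / J i + l i / J i)).sum ≤ S1 := by
      apply bm_sum_le
      intro i hi
      have hJi := hJ i hi
      have h4 := (abs_le.1 (h1 i hi)).2
      rw [← add_div, ← mul_div_assoc, le_div_iff₀ hJi, sub_mul, div_mul_cancel₀ _ hJi.ne']
      linarith
    rw [Multiset.sum_map_sub, hcard, Multiset.sum_map_mul_left, Multiset.sum_map_add] at h3
    linarith
  have hN : (Multiset.card F : ℝ) = Q := by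
    have h3 := abs_le.1 hS12
    have h4 : Cg * (Se + Sl) ≤ Cg * (4 * δ) := mul_le_mul_of_nonneg_left (by linarith) (by linarith)
    have h5 : |((Multiset.card F : ℤ) : ℝ) - ((Q : ℤ) : ℝ)| < 1 := by
      rw [abs_lt]
      push_cast
      constructor <;> nlinarith [h3.1, h3.2]
    have h6 : (Multiset.card F : ℤ) = (Q : ℤ) := by
      have h7 : |(Multiset.card F : ℤ) - (Q : ℤ)| < 1 := by
        have : ((|(Multiset.card F : ℤ) - (Q : ℤ)| : ℤ) : ℝ) < 1 := by
          push_cast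
          push_cast at h5
          exact h5
        exact_mod_cast this
      have := Int.abs_lt_one_iff.1 h7
      omega
    exact_mod_cast h6
  -- (3)
  have hmain : 2 * (S1 - (Multiset.card F : ℝ)) - Se ≤ 4 * Cg * δ * Se + Cg * Sl := by
    have h3 : (F.map fun i => 2 * (1 / J i) - 2 * 1 - e i / J i).sum
        ≤ (F.map fun i => 4 * Cg * δ * (e i / J i) + Cg * (l i / J i)).sum := by
      apply bm_sum_le
      intro i hi
      have hJi := hJ i hi
      have h4 := h2 i hi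
      have h5 : e i ^ 2 ≤ 4 * δ * e i := by
        have := he4 i hi
        have := he i hi
        nlinarith
      have h6 : 2 * (1 / J i) - 2 * 1 - e i / J i = (2 * (1 - J i) - e i) / J i := by
        field_simp
      have h7 : 4 * Cg * δ * (e i / J i) + Cg * (l i / J i)
          = (Cg * (4 * δ * e i + l i)) / J i := by
        field_simp
      rw [h6, h7]
      apply div_le_div_of_nonneg_right _ hJi.le
      have : Cg * (e i ^ 2 + l i) ≤ Cg * (4 * δ * e i + l i) :=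
        mul_le_mul_of_nonneg_left (by linarith) (by linarith)
      linarith
    rw [Multiset.sum_map_sub, Multiset.sum_map_sub, Multiset.sum_map_add,
      Multiset.sum_map_mul_left, Multiset.sum_map_mul_left, Multiset.sum_map_mul_left,
      Multiset.sum_map_mul_left, hcard] at h3
    linarith
  rw [hN] at hmain
  -- (4)
  have h8 : 2 * (S1 - Q) - Se - CQ * Sl ≤ 4 * Cg * δ * Se := by
    have : Cg * Sl ≤ CQ * Sl := mul_le_mul_of_nonneg_right hCQ hSl0
    linarith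
  have h9 := mul_le_mul_of_nonneg_left h8 ha0.le
  nlinarith

end Claimed.Agent.R322.Sx
end

/- ===== packed: Claimed.Agent.R322.Tool.InvBound ===== -/
section
/-!
# Uniform bounds for the derivatives of an inverse function

Helper file for `Tube.regraph_bound` (`Tube/Regraph.lean`).  Mathlib only.

* `ib_bilin`   : crude Leibniz bound;
* `ib_comp`    : Faa di Bruno bound which does not need a bound of `g` itself;
* `ib_inverse` : bounds of `D^j χ`, `χ = ψ⁻¹`, in terms of the bounds of `D^j ψ` and of `‖Dχ‖`;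
* `ib_scale`   : derivatives of `x ↦ r⁻¹ g (r x)`.
-/

set_option autoImplicit false
set_option maxSynthPendingDepth 3

open scoped ContDiff Nat

namespace Claimed.Agent.R322.Tool

section general

variable {X Y Z W : Type*} [NormedAddCommGroup X] [NormedSpace ℝ X] [NormedAddCommGroup Y]
  [NormedSpace ℝ Y] [NormedAddCommGroup Z] [NormedSpace ℝ Z] [NormedAddCommGroup W] [NormedSpace ℝ W]

/-- crude Leibniz bound -/
theorem ib_bilin (B : Y →L[ℝ] Z →L[ℝ] W) (hB : ‖B‖ ≤ 1) {f : X → Y} {g : X → Z} {N : ℕ∞ω}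
    (hf : ContDiff ℝ N f) (hg : ContDiff ℝ N g) (x : X) {n : ℕ} (hn : n ≤ N) {a b : ℝ}
    (ha : ∀ i ≤ n, ‖iteratedFDeriv ℝ i f x‖ ≤ a) (hb : ∀ i ≤ n, ‖iteratedFDeriv ℝ i g x‖ ≤ b) :
    ‖iteratedFDeriv ℝ n (fun y => B (f y) (g y)) x‖ ≤ 2 ^ n * (a * b) := by
  refine (B.norm_iteratedFDeriv_le_of_bilinear_of_le_one hf hg x hn hB).trans ?_
  have ha0 : 0 ≤ a := (norm_nonneg _).trans (ha 0 (Nat.zero_le _))
  have hterm : ∀ i ∈ Finset.range (n + 1), (n.choose i : ℝ) * ‖iteratedFDeriv ℝ i f x‖ *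
      ‖iteratedFDeriv ℝ (n - i) g x‖ ≤ (n.choose i : ℝ) * (a * b) := by
    intro i hi
    rw [Finset.mem_range] at hi
    rw [mul_assoc]
    exact mul_le_mul_of_nonneg_left
      (mul_le_mul (ha i (by omega)) (hb (n - i) (by omega)) (norm_nonneg _) ha0) (by positivity)
  refine (Finset.sum_le_sum hterm).trans (le_of_eq ?_)
  rw [← Finset.sum_mul, ← Nat.cast_sum, Nat.sum_range_choose]
  push_cast
  ring

theorem ib_sub_const {f : X → Y} {i : ℕ} (hf : ContDiff ℝ i f) (hi : i ≠ 0) (c : Y) (x : X) :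
    iteratedFDeriv ℝ i (fun z => f z - c) x = iteratedFDeriv ℝ i f x := by
  have h := iteratedFDeriv_sub_apply (𝕜 := ℝ) (i := i) (f := f) (g := fun _ => c) (x := x)
    hf.contDiffAt contDiff_const.contDiffAt
  rw [iteratedFDeriv_const_of_ne hi] at h
  have e : (fun z => f z - c) = f - fun _ => c := rfl
  rw [e, h]
  simp

/-- Faa di Bruno bound; no bound for `g` itself is needed -/
theorem ib_comp {g : Y → Z} {f : X → Y} {n : ℕ} (hg : ContDiff ℝ n g) (hf : ContDiff ℝ n f)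
    (hn1 : 1 ≤ n) (x : X) {C D : ℝ}
    (hC : ∀ i, 1 ≤ i → i ≤ n → ‖iteratedFDeriv ℝ i g (f x)‖ ≤ C)
    (hD : ∀ i, 1 ≤ i → i ≤ n → ‖iteratedFDeriv ℝ i f x‖ ≤ D ^ i) :
    ‖iteratedFDeriv ℝ n (g ∘ f) x‖ ≤ n ! * C * D ^ n := by
  have hC0 : 0 ≤ C := (norm_nonneg _).trans (hC 1 le_rfl hn1)
  have hg' : ContDiff ℝ n (fun z => g z - g (f x)) := hg.sub contDiff_const
  have key := norm_iteratedFDeriv_comp_le (𝕜 := ℝ) (g := fun z => g z - g (f x)) (f := f) (n := n)
    (N := n) hg' hf le_rfl x (C := C) (D := D) (fun i hi => by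
      rcases Nat.eq_zero_or_pos i with rfl | hi0
      · simpa using hC0
      · rw [ib_sub_const (hg.of_le (by exact_mod_cast hi)) (by omega)]
        exact hC i hi0 hi) hD
  have e : (fun z => g z - g (f x)) ∘ f = fun z => (g ∘ f) z - g (f x) := rfl
  rw [e, ib_sub_const (hg.comp hf) (by omega)] at key
  exact key

/-- derivatives of `x ↦ r⁻¹ g (r x)` -/
theorem ib_scale {g : X → Y} {j : ℕ} (hg : ContDiff ℝ j g) (r : ℝ) (hr : 0 < r) (hr1 : r ≤ 1)
    (hj1 : 1 ≤ j) (x : X) :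
    ‖iteratedFDeriv ℝ j (fun x => r⁻¹ • g (r • x)) x‖ ≤ ‖iteratedFDeriv ℝ j g (r • x)‖ := by
  have h1 : ContDiff ℝ j (fun x : X => g (r • x)) := hg.comp (contDiff_const.smul contDiff_id)
  rw [iteratedFDeriv_const_smul_apply' h1.contDiffAt, iteratedFDeriv_comp_const_smul r hg]
  obtain ⟨k, rfl⟩ : ∃ k, j = k + 1 := ⟨j - 1, by omega⟩
  rw [smul_smul, norm_smul, pow_succ, ← mul_assoc, mul_comm r⁻¹, mul_assoc, inv_mul_cancel₀ hr.ne',
    mul_one, norm_pow, Real.norm_eq_abs, abs_of_pos hr]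
  exact mul_le_of_le_one_left (norm_nonneg _) (pow_le_one₀ hr.le hr1)

theorem ib_scale_fderiv {g : X → Y} (hg : Differentiable ℝ g) (r : ℝ) (hr : 0 < r) (x : X) :
    fderiv ℝ (fun x => r⁻¹ • g (r • x)) x = fderiv ℝ g (r • x) := by
  have h1 : HasFDerivAt (fun x : X => r • x) (r • ContinuousLinearMap.id ℝ X) x :=
    (hasFDerivAt_id x).const_smul r
  have h2 : HasFDerivAt (fun x : X => g (r • x)) ((fderiv ℝ g (r • x)) ∘L (r • ContinuousLinearMap.id ℝ X)) x :=
    (hg (r • x)).hasFDerivAt.comp x h1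
  have h3 : HasFDerivAt (fun x : X => r⁻¹ • g (r • x))
      (r⁻¹ • ((fderiv ℝ g (r • x)) ∘L (r • ContinuousLinearMap.id ℝ X))) x := h2.const_smul r⁻¹
  rw [h3.fderiv]
  ext v
  simp [smul_smul, inv_mul_cancel₀ hr.ne']

end general

section algebra

variable {X R : Type*} [NormedAddCommGroup X] [NormedSpace ℝ X] [NormedAddCommGroup R]
  [NormedSpace ℝ R]

/-- one more derivative of a pointwise inverse (abstract form: `c` is the multiplication) -/
theorem ib_inv_bound_abs (c : R →L[ℝ] R →L[ℝ] R) (hc : ‖c‖ ≤ 1) {Wf Mf : X → R} {k : ℕ}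
    (hW : ContDiff ℝ (k + 1 : ℕ) Wf) (hM : ContDiff ℝ (k + 1 : ℕ) Mf)
    (hfd : ∀ x, fderiv ℝ Wf x = -((c (Wf x)).comp ((c.flip (Wf x)).comp (fderiv ℝ Mf x))))
    (x : X) {C A : ℝ} (hWb : ∀ i ≤ k, ‖iteratedFDeriv ℝ i Wf x‖ ≤ C)
    (hMb : ∀ i ≤ k, ‖iteratedFDeriv ℝ (i + 1) Mf x‖ ≤ A) :
    ‖iteratedFDeriv ℝ (k + 1) Wf x‖ ≤ 2 ^ k * (C * (2 ^ k * (C * A))) := by
  have hN : ContDiff ℝ (k : ℕ) (fderiv ℝ Mf) := hM.fderiv_right (by norm_cast)
  have hWk : ContDiff ℝ (k : ℕ) Wf := hW.of_le (by exact_mod_cast (by omega : k ≤ k + 1))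
  have hC0 : 0 ≤ C := (norm_nonneg _).trans (hWb 0 (Nat.zero_le _))
  have hA0 : 0 ≤ A := (norm_nonneg _).trans (hMb 0 (Nat.zero_le _))
  obtain ⟨B₁, hB₁⟩ : ∃ B : R →L[ℝ] (X →L[ℝ] R) →L[ℝ] (X →L[ℝ] R),
      B = (ContinuousLinearMap.compL ℝ X R R).comp c.flip := ⟨_, rfl⟩
  obtain ⟨B₂, hB₂⟩ : ∃ B : R →L[ℝ] (X →L[ℝ] R) →L[ℝ] (X →L[ℝ] R),
      B = (ContinuousLinearMap.compL ℝ X R R).comp c := ⟨_, rfl⟩
  have hn₁ : ‖B₁‖ ≤ 1 := by
    rw [hB₁]
    refine (ContinuousLinearMap.opNorm_comp_le _ _).trans ?_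
    rw [ContinuousLinearMap.opNorm_flip]
    exact mul_le_one₀ (ContinuousLinearMap.norm_compL_le _ _ _ _) (norm_nonneg _) hc
  have hn₂ : ‖B₂‖ ≤ 1 := by
    rw [hB₂]
    refine (ContinuousLinearMap.opNorm_comp_le _ _).trans ?_
    exact mul_le_one₀ (ContinuousLinearMap.norm_compL_le _ _ _ _) (norm_nonneg _) hc
  have hfd' : fderiv ℝ Wf = -(fun x => B₂ (Wf x) (B₁ (Wf x) (fderiv ℝ Mf x))) := by
    funext x
    rw [hfd x, hB₁, hB₂]
    rfl
  have hNb : ∀ i ≤ k, ‖iteratedFDeriv ℝ i (fderiv ℝ Mf) x‖ ≤ A := fun i hi => by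
    rw [norm_iteratedFDeriv_fderiv]
    exact hMb i hi
  have hQ : ContDiff ℝ (k : ℕ) (fun x => B₁ (Wf x) (fderiv ℝ Mf x)) :=
    (B₁.contDiff.comp hWk).clm_apply hN
  have hQb : ∀ i ≤ k, ‖iteratedFDeriv ℝ i (fun x => B₁ (Wf x) (fderiv ℝ Mf x)) x‖
      ≤ 2 ^ k * (C * A) := fun i hi => by
    refine (ib_bilin B₁ hn₁ hWk hN x (n := i) (by exact_mod_cast hi)
      (fun i' hi' => hWb i' (hi'.trans hi)) (fun i' hi' => hNb i' (hi'.trans hi))).trans ?_
    exact mul_le_mul_of_nonneg_right (pow_le_pow_right₀ (by norm_num) hi) (by positivity)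
  rw [← norm_iteratedFDeriv_fderiv, hfd', iteratedFDeriv_neg_apply, norm_neg]
  exact ib_bilin B₂ hn₂ hWk hQ x le_rfl hWb hQb

end algebra

section clm

variable {X V : Type*} [NormedAddCommGroup X] [NormedSpace ℝ X] [NormedAddCommGroup V]
  [NormedSpace ℝ V]

/-- derivative of a pointwise inverse -/
theorem ib_fderiv_inv {Wf Mf : X → V →L[ℝ] V} (x : X) (hW : DifferentiableAt ℝ Wf x)
    (hM : DifferentiableAt ℝ Mf x) (h1 : ∀ x, (Mf x).comp (Wf x) = ContinuousLinearMap.id ℝ V)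
    (h2 : (Wf x).comp (Mf x) = ContinuousLinearMap.id ℝ V) :
    fderiv ℝ Wf x = -((ContinuousLinearMap.compL ℝ V V V (Wf x)).comp
      (((ContinuousLinearMap.compL ℝ V V V).flip (Wf x)).comp (fderiv ℝ Mf x))) := by
  have h := hM.hasFDerivAt.clm_comp hW.hasFDerivAt
  have hc : (fun y => (Mf y).comp (Wf y)) = fun _ => ContinuousLinearMap.id ℝ V := funext h1
  rw [hc] at h
  have h0 := h.unique (hasFDerivAt_const (ContinuousLinearMap.id ℝ V) x)
  ext1 v
  have hv := congrArg (fun L : X →L[ℝ] (V →L[ℝ] V) => L v) h0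
  simp only [add_apply, zero_apply, ContinuousLinearMap.comp_apply,
    ContinuousLinearMap.compL_apply, ContinuousLinearMap.flip_apply] at hv
  have h3 : (Mf x).comp (fderiv ℝ Wf x v) = -((fderiv ℝ Mf x v).comp (Wf x)) :=
    eq_neg_of_add_eq_zero_left hv
  calc fderiv ℝ Wf x v = ((Wf x).comp (Mf x)).comp (fderiv ℝ Wf x v) := by
        rw [h2, ContinuousLinearMap.id_comp]
    _ = (Wf x).comp ((Mf x).comp (fderiv ℝ Wf x v)) := ContinuousLinearMap.comp_assoc _ _ _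
    _ = -((Wf x).comp ((fderiv ℝ Mf x v).comp (Wf x))) := by
        rw [h3, ContinuousLinearMap.comp_neg]
    _ = _ := rfl

/-- one more derivative of a pointwise inverse -/
theorem ib_inv_bound {Wf Mf : X → V →L[ℝ] V} {k : ℕ} (hW : ContDiff ℝ (k + 1 : ℕ) Wf)
    (hM : ContDiff ℝ (k + 1 : ℕ) Mf) (h1 : ∀ x, (Mf x).comp (Wf x) = ContinuousLinearMap.id ℝ V)
    (h2 : ∀ x, (Wf x).comp (Mf x) = ContinuousLinearMap.id ℝ V) (x : X) {C A : ℝ}
    (hWb : ∀ i ≤ k, ‖iteratedFDeriv ℝ i Wf x‖ ≤ C)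
    (hMb : ∀ i ≤ k, ‖iteratedFDeriv ℝ (i + 1) Mf x‖ ≤ A) :
    ‖iteratedFDeriv ℝ (k + 1) Wf x‖ ≤ 2 ^ k * (C * (2 ^ k * (C * A))) := by
  have hk1 : ((k + 1 : ℕ) : ℕ∞ω) ≠ 0 := by exact_mod_cast (by omega : k + 1 ≠ 0)
  exact ib_inv_bound_abs (ContinuousLinearMap.compL ℝ V V V)
    (ContinuousLinearMap.norm_compL_le _ _ _ _) hW hM
    (fun x => ib_fderiv_inv x ((hW.differentiable hk1) x) ((hM.differentiable hk1) x) h1 (h2 x))
    x hWb hMb

end clm

section inverse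

variable {V : Type*} [NormedAddCommGroup V] [NormedSpace ℝ V]

/-- a pair of mutually inverse `C^J` maps with bounds -/
structure IbPair (J : ℕ) (a c : ℝ) (ψ χ : V → V) : Prop where
  hψ : ContDiff ℝ J ψ
  hχ : ContDiff ℝ J χ
  right : ∀ x, ψ (χ x) = x
  left : ∀ y, χ (ψ y) = y
  bd : ∀ j, 1 ≤ j → j ≤ J → ∀ y, ‖iteratedFDeriv ℝ j ψ y‖ ≤ a
  sl : ∀ x, ‖fderiv ℝ χ x‖ ≤ c

theorem IbPair.comp_right {J : ℕ} {a c : ℝ} {ψ χ : V → V} (h : IbPair J a c ψ χ) (hJ : 1 ≤ J)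
    (x : V) : (fderiv ℝ ψ (χ x)).comp (fderiv ℝ χ x) = ContinuousLinearMap.id ℝ V := by
  have hJ' : (J : ℕ∞ω) ≠ 0 := by exact_mod_cast (by omega : J ≠ 0)
  have h1 : HasFDerivAt (ψ ∘ χ) ((fderiv ℝ ψ (χ x)).comp (fderiv ℝ χ x)) x :=
    ((h.hψ.differentiable hJ') (χ x)).hasFDerivAt.comp x ((h.hχ.differentiable hJ') x).hasFDerivAt
  have e : ψ ∘ χ = id := funext h.right
  rw [e] at h1
  exact h1.unique (hasFDerivAt_id x)

theorem IbPair.comp_left {J : ℕ} {a c : ℝ} {ψ χ : V → V} (h : IbPair J a c ψ χ) (hJ : 1 ≤ J)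
    (x : V) : (fderiv ℝ χ x).comp (fderiv ℝ ψ (χ x)) = ContinuousLinearMap.id ℝ V := by
  have hJ' : (J : ℕ∞ω) ≠ 0 := by exact_mod_cast (by omega : J ≠ 0)
  have h1 : HasFDerivAt (χ ∘ ψ) ((fderiv ℝ χ (ψ (χ x))).comp (fderiv ℝ ψ (χ x))) (χ x) :=
    ((h.hχ.differentiable hJ') (ψ (χ x))).hasFDerivAt.comp (χ x)
      ((h.hψ.differentiable hJ') (χ x)).hasFDerivAt
  have e : χ ∘ ψ = id := funext h.left
  rw [e, h.right] at h1
  exact h1.unique (hasFDerivAt_id (χ x))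

theorem IbPair.step {J : ℕ} {a c : ℝ} {ψ χ : V → V} (h : IbPair J a c ψ χ) (k : ℕ)
    (hk : k + 2 ≤ J) (C : ℝ) (hC1 : 1 ≤ C)
    (hC : ∀ j, 1 ≤ j → j ≤ k + 1 → ∀ x, ‖iteratedFDeriv ℝ j χ x‖ ≤ C) (x : V) :
    ‖iteratedFDeriv ℝ (k + 2) χ x‖ ≤
      2 ^ k * (C * (2 ^ k * (C * ((k + 1)! * a * C ^ (k + 1))))) := by
  have hχ2 : ContDiff ℝ (k + 2 : ℕ) χ := h.hχ.of_le (by exact_mod_cast hk)
  have hψ2 : ContDiff ℝ (k + 2 : ℕ) ψ := h.hψ.of_le (by exact_mod_cast hk)
  have hχ1 : ContDiff ℝ (k + 1 : ℕ) χ := hχ2.of_le (by exact_mod_cast (by omega : k + 1 ≤ k + 2))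
  have hW : ContDiff ℝ (k + 1 : ℕ) (fderiv ℝ χ) := hχ2.fderiv_right (by norm_cast)
  have hDψ : ContDiff ℝ (k + 1 : ℕ) (fderiv ℝ ψ) := hψ2.fderiv_right (by norm_cast)
  have hM : ContDiff ℝ (k + 1 : ℕ) (fun x => fderiv ℝ ψ (χ x)) := hDψ.comp hχ1
  have ha0 : 0 ≤ a := (norm_nonneg _).trans (h.bd 1 le_rfl (by omega) x)
  have hC0 : 0 ≤ C := by linarith
  have hWb : ∀ i ≤ k, ‖iteratedFDeriv ℝ i (fderiv ℝ χ) x‖ ≤ C := fun i hi => by
    rw [norm_iteratedFDeriv_fderiv]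
    exact hC (i + 1) (by omega) (by omega) x
  have hMb : ∀ i ≤ k, ‖iteratedFDeriv ℝ (i + 1) (fun x => fderiv ℝ ψ (χ x)) x‖
      ≤ (k + 1)! * a * C ^ (k + 1) := fun i hi => by
    have := norm_iteratedFDeriv_comp_le (𝕜 := ℝ) (g := fderiv ℝ ψ) (f := χ) (n := i + 1)
      (N := (k + 1 : ℕ)) hDψ hχ1 (by exact_mod_cast (by omega : i + 1 ≤ k + 1)) x (C := a) (D := C)
      (fun i' hi' => by
        rw [norm_iteratedFDeriv_fderiv]
        exact h.bd (i' + 1) (by omega) (by omega) _)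
      (fun i' h1 hi' => (hC i' h1 (by omega) x).trans (le_self_pow₀ hC1 (by omega)))
    refine this.trans ?_
    have hf : ((i + 1)! : ℝ) ≤ (k + 1)! := by exact_mod_cast Nat.factorial_le (by omega)
    have hp : C ^ (i + 1) ≤ C ^ (k + 1) := pow_le_pow_right₀ hC1 (by omega)
    exact mul_le_mul (mul_le_mul_of_nonneg_right hf ha0) hp (by positivity) (by positivity)
  rw [← norm_iteratedFDeriv_fderiv]
  exact ib_inv_bound hW hM (fun x => h.comp_right (by omega) x) (fun x => h.comp_left (by omega) x)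
    x hWb hMb

/-- **Bounds for the derivatives of an inverse function.** -/
theorem ib_inverse (J : ℕ) (a c : ℝ) : ∃ C : ℝ, 1 ≤ C ∧ ∀ ψ χ : V → V, IbPair J a c ψ χ →
    ∀ j, 1 ≤ j → j ≤ J → ∀ x, ‖iteratedFDeriv ℝ j χ x‖ ≤ C := by
  have key : ∀ k : ℕ, ∃ C : ℝ, 1 ≤ C ∧ ∀ ψ χ : V → V, IbPair J a c ψ χ →
      ∀ j, 1 ≤ j → j ≤ k → j ≤ J → ∀ x, ‖iteratedFDeriv ℝ j χ x‖ ≤ C := by
    intro k
    induction k with
    | zero => exact ⟨1, le_rfl, fun ψ χ _ j h1 h0 => by omega⟩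
    | succ k ih =>
      obtain ⟨C, hC1, hC⟩ := ih
      rcases Nat.eq_zero_or_pos k with rfl | hk
      · refine ⟨max 1 c, le_max_left _ _, fun ψ χ h j h1 h2 _ x => ?_⟩
        obtain rfl : j = 1 := by omega
        rw [norm_iteratedFDeriv_one]
        exact (h.sl x).trans (le_max_right _ _)
      · obtain ⟨k, rfl⟩ : ∃ k', k = k' + 1 := ⟨k - 1, by omega⟩
        refine ⟨max C (2 ^ k * (C * (2 ^ k * (C * ((k + 1)! * a * C ^ (k + 1)))))),
          hC1.trans (le_max_left _ _), fun ψ χ h j h1 h2 hJ x => ?_⟩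
        rcases Nat.lt_or_ge j (k + 2) with hj | hj
        · exact (hC ψ χ h j h1 (by omega) hJ x).trans (le_max_left _ _)
        · obtain rfl : j = k + 2 := by omega
          exact (h.step k hJ C hC1 (fun j h1 h2 x => hC ψ χ h j h1 h2 (by omega) x) x).trans
            (le_max_right _ _)
  obtain ⟨C, hC1, hC⟩ := key J
  exact ⟨C, hC1, fun ψ χ h j h1 hJ x => hC ψ χ h j h1 hJ hJ x⟩

end inverse

end Claimed.Agent.R322.Tool
end
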