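/- Packed by merge_tool.py (helper293): 4 modules of Claimed.Agent.R322 in one file, same declarations.
   Old modules, in this order: Tube.Geom.LiftAlg, Tube.Geom.Lift, Tube.Geom, Tube.FrameAux -/
import Claimed.Agent.R322.Pack013
import Claimed.Agent.R322.Pack044

/- ===== packed: Claimed.Agent.R322.Tube.Geom.LiftAlg ===== -/
section
/-!
# Row 322, Tube/Geom/LiftAlg: the trace algebra behind (G5)

`H`, `P` projections of rank `m`; `A = H A H` small, `K = (1-A)⁻¹`; `N = H N H`, `Z = V Z H`,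
`L₃ = H L₃ H`, `R = V R`.  For
`DL = ((1-A) N + Z - L₃ - R) K H - (Z + Zᵀ)(1 - K H)` we estimate
`tr (P DL) - (tr N - tr (B N))`.
-/

set_option autoImplicit false

open scoped ENNReal ContDiff Topology
open MeasureTheory Filter

namespace Claimed.Agent.R322.Tube

local notation "adj" => ContinuousLinearMap.adjoint
local notation "𝟙" => ContinuousLinearMap.id ℝ _

variable {m N₀ : ℕ} {H P A K : E N₀ →L[ℝ] E N₀}

/-- `‖H P V‖ ≤ √e`. -/
theorem norm_HPV_le (hH : IsProj m H) (hP : IsProj m P) :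
    ‖H ∘L P ∘L (𝟙 - H)‖ ≤ Real.sqrt (tdiv P (𝟙 - H)) := by
  have h1 : H ∘L P ∘L (𝟙 - H) = adj ((𝟙 - H) ∘L P ∘L H) := by
    rw [ContinuousLinearMap.adjoint_comp, ContinuousLinearMap.adjoint_comp,
      IsProj.adjoint_eq hH, IsProj.adjoint_eq hP, IsProj.adjoint_compl hH,
      ContinuousLinearMap.comp_assoc]
  rw [h1, LinearIsometryEquiv.norm_map]
  exact Real.le_sqrt_of_sq_le (block_facts_aux hH hP).2.2.2.2.2

/-- `|tr (P V Y H)| ≤ N₀ √e ‖Y‖`. -/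
theorem abs_trc_PVYH_le (hH : IsProj m H) (hP : IsProj m P) (Y : E N₀ →L[ℝ] E N₀) :
    |trc (P ∘L (𝟙 - H) ∘L Y ∘L H)| ≤ N₀ * (Real.sqrt (tdiv P (𝟙 - H)) * ‖Y‖) := by
  have h1 : trc (P ∘L (𝟙 - H) ∘L Y ∘L H) = trc ((H ∘L P ∘L (𝟙 - H)) ∘L Y) := by
    have : P ∘L (𝟙 - H) ∘L Y ∘L H = (P ∘L (𝟙 - H) ∘L Y) ∘L H := by
      simp only [ContinuousLinearMap.comp_assoc]
    rw [this, trc_comp_comm]
    simp only [ContinuousLinearMap.comp_assoc]
  rw [h1]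
  refine (abs_trc_le _).trans ?_
  gcongr
  exact norm_comp_le _ _ (norm_HPV_le hH hP) le_rfl

theorem trc_proj_comp_adjoint (hP : IsProj m P) (Z : E N₀ →L[ℝ] E N₀) :
    trc (P ∘L adj Z) = trc (P ∘L Z) := by
  have h1 : P ∘L adj Z = adj (Z ∘L P) := by
    rw [ContinuousLinearMap.adjoint_comp, IsProj.adjoint_eq hP]
  rw [h1, trc_adjoint, trc_comp_comm]

/-- the algebraic form of **(G5)**. -/
theorem lift_trace_alg (hH : IsProj m H) (hP : IsProj m P)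
    (hHA : H ∘L A = A) (hAH : A ∘L H = A)
    (hJK : (𝟙 - A) ∘L K = 𝟙) (hKJ : K ∘L (𝟙 - A) = 𝟙) (hKn : ‖K‖ ≤ 2) (hHK : H ∘L K = K ∘L H)
    {Nn Z L3 R : E N₀ →L[ℝ] E N₀}
    (hHN : H ∘L Nn = Nn) (hNH : Nn ∘L H = Nn)
    (hVZ : (𝟙 - H) ∘L Z = Z) (hZH : Z ∘L H = Z)
    (hHL : H ∘L L3 = L3) (hLH : L3 ∘L H = L3) (hVR : (𝟙 - H) ∘L R = R) :
    |trc (P ∘L ((((𝟙 - A) ∘L Nn + Z - L3 - R) ∘L K ∘L H) - (Z + adj Z) ∘L (𝟙 - K ∘L H)))
        - (trc Nn - trc ((H ∘L (𝟙 - P) ∘L H) ∘L Nn))|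
      ≤ tdiv P (𝟙 - H) * (4 * ‖A‖ * ‖Nn‖)
        + 4 * N₀ * (Real.sqrt (tdiv P (𝟙 - H)) * (‖Z‖ * ‖A‖))
        + (|trc L3| + 2 * N₀ * (‖L3‖ * ‖A‖) + 2 * tdiv P (𝟙 - H) * ‖L3‖)
        + 2 * N₀ * (Real.sqrt (tdiv P (𝟙 - H)) * ‖R‖) := by
  set e := tdiv P (𝟙 - H) with he
  set B := H ∘L (𝟙 - P) ∘L H with hB
  have he0 : 0 ≤ e := (block_facts_aux hH hP).1
  have hN0 : (0 : ℝ) ≤ N₀ := Nat.cast_nonneg _
  have hK1 : K = 𝟙 + A ∘L K := by
    rw [ContinuousLinearMap.sub_comp, ContinuousLinearMap.id_comp] at hJK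
    rw [← hJK]; abel
  have hK2 : K = 𝟙 + K ∘L A := by
    rw [ContinuousLinearMap.comp_sub, ContinuousLinearMap.comp_id] at hKJ
    rw [← hKJ]; abel
  have hAK : A ∘L K = K ∘L A := by
    have : 𝟙 + A ∘L K = 𝟙 + K ∘L A := hK1.symm.trans hK2
    exact add_left_cancel this
  have hVH : (𝟙 - H) ∘L H = 0 := IsProj.compl_comp hH
  -- (a) the main term
  set Y1 := Nn ∘L A ∘L K - A ∘L Nn ∘L K with hY1
  have hNKH : Nn ∘L K ∘L H = Nn ∘L K := by
    rw [← hHK, ← ContinuousLinearMap.comp_assoc, hNH]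
  have hX1 : (𝟙 - A) ∘L Nn ∘L K ∘L H = Nn + Y1 := by
    rw [hNKH, ContinuousLinearMap.sub_comp, ContinuousLinearMap.id_comp, hY1]
    have : Nn ∘L K = Nn + Nn ∘L A ∘L K := by
      conv_lhs => rw [hK1, ContinuousLinearMap.comp_add, ContinuousLinearMap.comp_id]
    nth_rewrite 1 [this]
    abel
  have hHY1 : H ∘L Y1 = Y1 := by
    rw [hY1, ContinuousLinearMap.comp_sub, ← ContinuousLinearMap.comp_assoc, hHN,
      ← ContinuousLinearMap.comp_assoc H A, hHA]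
  have hAKH : A ∘L K ∘L H = A ∘L K := by
    rw [← hHK, ← ContinuousLinearMap.comp_assoc, hAH]
  have hY1H : Y1 ∘L H = Y1 := by
    rw [hY1, ContinuousLinearMap.sub_comp, ContinuousLinearMap.comp_assoc,
      ContinuousLinearMap.comp_assoc, hAKH, ContinuousLinearMap.comp_assoc,
      ContinuousLinearMap.comp_assoc, hNKH]
  have htY1 : trc Y1 = 0 := by
    rw [hY1, trc_sub, trc_comp_comm A (Nn ∘L K), ContinuousLinearMap.comp_assoc, ← hAK, sub_self]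
  have ha : trc (P ∘L (𝟙 - A) ∘L Nn ∘L K ∘L H) = trc Nn - trc (B ∘L Nn) - trc (B ∘L Y1) := by
    rw [hX1, ContinuousLinearMap.comp_add, trc_add, trc_proj_comp (H := H) hHN hNH,
      trc_proj_comp (H := H) hHY1 hY1H, htY1]
    ring
  have hY1n : ‖Y1‖ ≤ 4 * ‖A‖ * ‖Nn‖ := by
    rw [hY1]
    refine (norm_sub_le _ _).trans ?_
    have h1 := norm_comp_le Nn (A ∘L K) le_rfl (norm_comp_le A K le_rfl hKn)
    have h2 := norm_comp_le A (Nn ∘L K) le_rfl (norm_comp_le Nn K le_rfl hKn)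
    linarith
  have ha' : |trc (B ∘L Y1)| ≤ e * (4 * ‖A‖ * ‖Nn‖) :=
    (abs_trc_B_comp_le hH hP Y1).trans (by gcongr)
  -- (b) the antisymmetric part
  have hadjZ : adj Z ∘L (𝟙 - H) = adj Z := by
    have := congrArg adj hVZ
    rwa [ContinuousLinearMap.adjoint_comp, IsProj.adjoint_compl hH] at this
  have hZtKH : adj Z ∘L K ∘L H = 0 := by
    rw [← hadjZ, ← hHK, ContinuousLinearMap.comp_assoc, ← ContinuousLinearMap.comp_assoc (𝟙 - H),
      hVH]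
    simp
  have hZKH : Z ∘L K ∘L H = Z + Z ∘L A ∘L K ∘L H := by
    conv_lhs => rw [hK1, ContinuousLinearMap.add_comp, ContinuousLinearMap.id_comp,
      ContinuousLinearMap.comp_add, hZH, ContinuousLinearMap.comp_assoc]
  have hb : Z ∘L K ∘L H - (Z + adj Z) ∘L (𝟙 - K ∘L H)
      = (Z - adj Z) + (2 : ℝ) • (Z ∘L A ∘L K ∘L H) := by
    rw [ContinuousLinearMap.comp_sub, ContinuousLinearMap.comp_id, ContinuousLinearMap.add_comp,
      hZtKH, hZKH]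
    module
  have hb1 : trc (P ∘L (Z - adj Z)) = 0 := by
    rw [ContinuousLinearMap.comp_sub, trc_sub, trc_proj_comp_adjoint hP, sub_self]
  have hb2 : |trc (P ∘L Z ∘L A ∘L K ∘L H)| ≤ N₀ * (Real.sqrt e * (2 * (‖Z‖ * ‖A‖))) := by
    have h1 : P ∘L Z ∘L A ∘L K ∘L H = P ∘L (𝟙 - H) ∘L (Z ∘L A ∘L K) ∘L H := by
      conv_lhs => rw [← hVZ]
      simp only [ContinuousLinearMap.comp_assoc]
    rw [h1]
    refine (abs_trc_PVYH_le hH hP _).trans ?_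
    have h2 := norm_comp_le Z (A ∘L K) le_rfl (norm_comp_le A K le_rfl hKn)
    gcongr
    linarith
  -- (c) the Codazzi part
  have hLKH : L3 ∘L K ∘L H = L3 ∘L K := by
    rw [← hHK, ← ContinuousLinearMap.comp_assoc, hLH]
  have hLK : L3 ∘L K = L3 + L3 ∘L A ∘L K := by
    conv_lhs => rw [hK1, ContinuousLinearMap.comp_add, ContinuousLinearMap.comp_id]
  have hHX3 : H ∘L (L3 ∘L K) = L3 ∘L K := by rw [← ContinuousLinearMap.comp_assoc, hHL]
  have hX3H : (L3 ∘L K) ∘L H = L3 ∘L K := by rw [ContinuousLinearMap.comp_assoc, hLKH]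
  have hc : trc (P ∘L L3 ∘L K ∘L H)
      = trc L3 + trc (L3 ∘L A ∘L K) - trc (B ∘L (L3 ∘L K)) := by
    have h1 : trc (L3 ∘L K) = trc L3 + trc (L3 ∘L A ∘L K) := by
      conv_lhs => rw [hLK, trc_add]
    rw [hLKH, trc_proj_comp (H := H) hHX3 hX3H, h1]
  have hc1 : |trc (L3 ∘L A ∘L K)| ≤ N₀ * (2 * (‖L3‖ * ‖A‖)) := by
    refine (abs_trc_le _).trans ?_
    have h2 := norm_comp_le L3 (A ∘L K) le_rfl (norm_comp_le A K le_rfl hKn)
    gcongr
    linarith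
  have hc2 : |trc (B ∘L (L3 ∘L K))| ≤ e * (2 * ‖L3‖) := by
    refine (abs_trc_B_comp_le hH hP _).trans ?_
    have h2 := norm_comp_le L3 K le_rfl hKn
    gcongr
    linarith
  -- (d) the normal part
  have hd : |trc (P ∘L R ∘L K ∘L H)| ≤ N₀ * (Real.sqrt e * (2 * ‖R‖)) := by
    have h1 : P ∘L R ∘L K ∘L H = P ∘L (𝟙 - H) ∘L (R ∘L K) ∘L H := by
      conv_lhs => rw [← hVR]
      simp only [ContinuousLinearMap.comp_assoc]
    rw [h1]
    refine (abs_trc_PVYH_le hH hP _).trans ?_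
    have h2 := norm_comp_le R K le_rfl hKn
    gcongr
    linarith
  -- assembly
  have hsplit : (((𝟙 - A) ∘L Nn + Z - L3 - R) ∘L K ∘L H) - (Z + adj Z) ∘L (𝟙 - K ∘L H)
      = (𝟙 - A) ∘L Nn ∘L K ∘L H + ((Z - adj Z) + (2 : ℝ) • (Z ∘L A ∘L K ∘L H))
        - L3 ∘L K ∘L H - R ∘L K ∘L H := by
    rw [← hb]
    simp only [ContinuousLinearMap.sub_comp, ContinuousLinearMap.add_comp,
      ContinuousLinearMap.comp_assoc]
    abel
  have htot : trc (P ∘L ((((𝟙 - A) ∘L Nn + Z - L3 - R) ∘L K ∘L H)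
        - (Z + adj Z) ∘L (𝟙 - K ∘L H))) - (trc Nn - trc (B ∘L Nn))
      = -trc (B ∘L Y1) + 2 * trc (P ∘L Z ∘L A ∘L K ∘L H)
        - (trc L3 + trc (L3 ∘L A ∘L K) - trc (B ∘L (L3 ∘L K))) - trc (P ∘L R ∘L K ∘L H) := by
    rw [hsplit]
    simp only [ContinuousLinearMap.comp_sub, ContinuousLinearMap.comp_add, trc_sub, trc_add,
      ContinuousLinearMap.comp_smul, trc_smul]
    rw [ha, hc]
    have := hb1
    rw [ContinuousLinearMap.comp_sub, trc_sub] at this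
    linarith
  rw [htot]
  obtain ⟨a1, a2⟩ := abs_le.1 ha'
  obtain ⟨b1, b2⟩ := abs_le.1 hb2
  obtain ⟨c1, c2⟩ := abs_le.1 hc1
  obtain ⟨c3, c4⟩ := abs_le.1 hc2
  obtain ⟨d1, d2⟩ := abs_le.1 hd
  have l1 := neg_abs_le (trc L3)
  have l2 := le_abs_self (trc L3)
  rw [abs_le]
  constructor <;> linarith

end Claimed.Agent.R322.Tube
end

/- ===== packed: Claimed.Agent.R322.Tube.Geom.Lift ===== -/
section
/-!
# Row 322, Tube/Geom/Lift: the curved horizontal first variation, pointwise (G5)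
-/

set_option autoImplicit false

open scoped ENNReal ContDiff Topology
open MeasureTheory Filter

namespace Claimed.Agent.R322.Tube

local notation "adj" => ContinuousLinearMap.adjoint
local notation "𝟙" => ContinuousLinearMap.id ℝ _

variable {m n : ℕ} {u : E m → E n} {κ₂ : ℝ}

/-- on the tube the lift is `τ(π X) - Ṗ_ξ z`. -/
theorem lift_eq_of_mem (hu : Geo κ₂ u) {h : ℝ} (hh : h ≤ 1 / 4) (Xc : E m → E m)
    {X : E (m + n)} (hX : X ∈ Tub u h) :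
    lift u Xc X = tanF u Xc (npr u X) - dPh u (npr u X) (Xc (npr u X)) (zz u X) := by
  have h1 : lift u Xc X = tanF u Xc (npr u X)
      - dPh u (npr u X) (dFp (fderiv ℝ u (npr u X)) (tanF u Xc (npr u X)))
          (Pv u (npr u X) (zz u X)) := rfl
  rw [h1, Pv_zz hu hh hX]
  unfold tanF
  rw [dFp_dF]

/-- derivative of `y ↦ Ṗ_{ξ(y)}(y)`. -/
theorem hasFDerivAt_dPh_field (hu : ContDiff ℝ 3 u) {Xc : E m → E m} {y : E m}
    (hX : DifferentiableAt ℝ Xc y) :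
    HasFDerivAt (fun y => dPh u y (Xc y))
      (fderiv ℝ (Ph u) y ∘L fderiv ℝ Xc y + ddPh u y (Xc y)) y := by
  have h1 := (hasFDerivAt_fderiv_Ph hu y).clm_apply hX.hasFDerivAt
  refine h1.congr_fderiv ?_
  ext1 α
  simp only [add_apply, ContinuousLinearMap.comp_apply, ContinuousLinearMap.flip_apply]
  congr 1
  exact ddPh_symm hu y α (Xc y)

/-- `Dτ T⁺ = ∇^S X + Z_ξ`. -/
theorem fderiv_tanF_comp_dFp (hu : ContDiff ℝ 2 u) {Xc : E m → E m} {y : E m}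
    (hX : DifferentiableAt ℝ Xc y) :
    fderiv ℝ (tanF u Xc) y ∘L dFp (fderiv ℝ u y) = nabS u Xc y + Zop u y (Xc y) := by
  have h1 : Pv u y ∘L fderiv ℝ (tanF u Xc) y ∘L dFp (fderiv ℝ u y) = Zop u y (Xc y) := by
    rw [(hasFDerivAt_tanF hu hX).fderiv, ContinuousLinearMap.add_comp,
      ContinuousLinearMap.comp_add, ContinuousLinearMap.comp_assoc,
      ← ContinuousLinearMap.comp_assoc (Pv u y), Pv_comp_dF]
    simp [Zop]
  rw [← h1]
  unfold nabS Pv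
  rw [ContinuousLinearMap.sub_comp, ContinuousLinearMap.id_comp]
  abel

theorem Shp_comp_dF {y : E m} {z : E (m + n)} (hz : Pv u y z = z) :
    Shp u y z ∘L dF (fderiv ℝ u y) = R0op u y z := by
  rw [Shp_eq_R0op, hz, ContinuousLinearMap.comp_assoc, dFp_comp_dF, ContinuousLinearMap.comp_id]

/-- `R₀(z) Dξ T⁺ = A_z ∇^S X - A_z W_ξ T⁺`. -/
theorem R0op_comp (hu : ContDiff ℝ 2 u) {Xc : E m → E m} {y : E m}
    (hX : DifferentiableAt ℝ Xc y) {z : E (m + n)} (hz : Pv u y z = z) :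
    R0op u y z ∘L fderiv ℝ Xc y ∘L dFp (fderiv ℝ u y)
      = Shp u y z ∘L nabS u Xc y - Shp u y z ∘L Wop u y (Xc y) ∘L dFp (fderiv ℝ u y) := by
  unfold nabS
  rw [← ContinuousLinearMap.comp_assoc (Shp u y z) (Ph u y), Shp_comp_Ph,
    (hasFDerivAt_tanF hu hX).fderiv, ContinuousLinearMap.add_comp, ContinuousLinearMap.comp_add,
    ContinuousLinearMap.comp_assoc, ← ContinuousLinearMap.comp_assoc (Shp u y z)
      (dF (fderiv ℝ u y)), Shp_comp_dF hz]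
  abel

/-- the operator `R = V P̈(ξ, T⁺·) z`. -/
noncomputable def RVop (u : E m → E n) (y ξ : E m) (z : E (m + n)) :
    E (m + n) →L[ℝ] E (m + n) :=
  Pv u y ∘L (ddPh u y ξ).flip z ∘L dFp (fderiv ℝ u y)

theorem ddPh_flip_comp (u : E m → E n) (y ξ : E m) (z : E (m + n)) :
    (ddPh u y ξ).flip z ∘L dFp (fderiv ℝ u y)
      = L3op u y ξ z + Shp u y z ∘L Wop u y ξ ∘L dFp (fderiv ℝ u y) + RVop u y ξ z := by
  unfold L3op RVop Pv
  rw [ContinuousLinearMap.sub_comp, ContinuousLinearMap.id_comp]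
  abel

/-- **derivative of the lift.** -/
theorem hasFDerivAt_lift (hu : Geo κ₂ u) {h : ℝ} (hh : h ≤ 2 / 9) {Xc : E m → E m}
    (hXc : Differentiable ℝ Xc) {X : E (m + n)} (hX : X ∈ Tub u h) :
    HasFDerivAt (lift u Xc)
      ((((𝟙 - Shp u (npr u X) (zz u X)) ∘L nabS u Xc (npr u X) + Zop u (npr u X) (Xc (npr u X))
          - L3op u (npr u X) (Xc (npr u X)) (zz u X) - RVop u (npr u X) (Xc (npr u X)) (zz u X))
            ∘L Kz u X ∘L Ph u (npr u X))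
        - (Zop u (npr u X) (Xc (npr u X)) + adj (Zop u (npr u X) (Xc (npr u X))))
            ∘L (𝟙 - Kz u X ∘L Ph u (npr u X))) X := by
  have hh4 : h ≤ 1 / 4 := hh.trans (by norm_num)
  have hπ := (npr_local hu hh hX).2
  have hz := (zz_local hu hh hX).2
  have hPv := Pv_zz hu hh4 hX
  set y := npr u X with hy
  set z := zz u X with hzdef
  set ξ := Xc y with hξ
  have hτ := (hasFDerivAt_tanF hu.c2 (hXc y)).comp X hπ
  have hΦ := (hasFDerivAt_dPh_field hu.c3 (hXc y)).comp X hπ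
  have hΦz := hΦ.clm_apply hz
  have htot := hτ.sub hΦz
  have heq : lift u Xc =ᶠ[𝓝 X]
      (tanF u Xc ∘ npr u) - fun X' => ((fun y => dPh u y (Xc y)) ∘ npr u) X' (zz u X') := by
    filter_upwards [(isOpen_Tub u h).mem_nhds hX] with X' hX'
    exact lift_eq_of_mem hu hh4 Xc hX'
  refine (htot.congr_of_eventuallyEq heq).congr_fderiv ?_
  -- algebra
  have e1 : (dF (fderiv ℝ u y) ∘L fderiv ℝ Xc y + Wop u y ξ) ∘L
      (dFp (fderiv ℝ u y) ∘L Kz u X ∘L Ph u y)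
      = (nabS u Xc y + Zop u y ξ) ∘L Kz u X ∘L Ph u y := by
    rw [← fderiv_tanF_comp_dFp hu.c2 (hXc y), (hasFDerivAt_tanF hu.c2 (hXc y)).fderiv,
      ContinuousLinearMap.comp_assoc]
  have e2 : ((fderiv ℝ (Ph u) y ∘L fderiv ℝ Xc y + ddPh u y ξ) ∘L
      (dFp (fderiv ℝ u y) ∘L Kz u X ∘L Ph u y)).flip z
      = (Shp u y z ∘L nabS u Xc y + L3op u y ξ z + RVop u y ξ z) ∘L Kz u X ∘L Ph u y := by
    have e3 : ((fderiv ℝ (Ph u) y ∘L fderiv ℝ Xc y + ddPh u y ξ) ∘L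
        (dFp (fderiv ℝ u y) ∘L Kz u X ∘L Ph u y)).flip z
        = (R0op u y z ∘L fderiv ℝ Xc y ∘L dFp (fderiv ℝ u y)
          + (ddPh u y ξ).flip z ∘L dFp (fderiv ℝ u y)) ∘L Kz u X ∘L Ph u y := by
      ext1 v
      rfl
    rw [e3, R0op_comp hu.c2 (hXc y) hPv, ddPh_flip_comp]
    congr 1
    abel
  have e4 : ((fun y => dPh u y (Xc y)) ∘ npr u) X = Zop u y ξ + adj (Zop u y ξ) :=
    dPh_eq hu.c2 y ξ
  rw [e1, e2, e4]
  simp only [ContinuousLinearMap.sub_comp, ContinuousLinearMap.add_comp,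
    ContinuousLinearMap.id_comp, ContinuousLinearMap.comp_assoc]
  abel

theorem Ph_comp_nabS (u : E m → E n) (Xc : E m → E m) (y : E m) :
    Ph u y ∘L nabS u Xc y = nabS u Xc y := by
  unfold nabS
  rw [← ContinuousLinearMap.comp_assoc, Ph_comp_Ph]

theorem nabS_comp_Ph (u : E m → E n) (Xc : E m → E m) (y : E m) :
    nabS u Xc y ∘L Ph u y = nabS u Xc y := by
  unfold nabS
  rw [ContinuousLinearMap.comp_assoc, ContinuousLinearMap.comp_assoc, dFp_comp_Ph]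

theorem Pv_comp_RVop (u : E m → E n) (y ξ : E m) (z : E (m + n)) :
    Pv u y ∘L RVop u y ξ z = RVop u y ξ z := by
  unfold RVop
  rw [← ContinuousLinearMap.comp_assoc, Pv_comp_Pv]

theorem Geo.norm_RVop_le (hu : Geo κ₂ u) {y : E m} {z : E (m + n)} (hz : Pv u y z = z)
    (ξ : E m) : ‖RVop u y ξ z‖ ≤ 27 * κ₂ ^ 2 * ‖ξ‖ * ‖z‖ := by
  have h1 : RVop u y ξ z = (Pv u y ∘L (ddPh u y ξ).flip z) ∘L dFp (fderiv ℝ u y) := by
    unfold RVop
    rw [ContinuousLinearMap.comp_assoc]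
  rw [h1]
  have := norm_comp_le' _ _ (hu.norm_Pv_ddPh_flip_le hz ξ) (hu.norm_dFp_le y)
  linarith

/-- **(G5)** for every radius `h ≤ 2/9`. -/
theorem lift_trace_of_le (hu : Geo κ₂ u) {h : ℝ} (hh : h ≤ 2 / 9) {Xc : E m → E m}
    (hXc : ContDiff ℝ 1 Xc) {X : E (m + n)} (hX : X ∈ Tub u h)
    {P : E (m + n) →L[ℝ] E (m + n)} (hP : IsProj m P) :
    DifferentiableAt ℝ (lift u Xc) X ∧
      |tdiv P (fderiv ℝ (lift u Xc) X)
          - (divS u Xc (npr u X) - trc (Bop u P X ∘L nabS u Xc (npr u X)))|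
        ≤ (200 * (((m + n : ℕ) : ℝ) + 1)) * (κ₂ * ‖zz u X‖ * tilt u P X * ‖nabS u Xc (npr u X)‖
            + (Real.sqrt (DHSsq u (npr u X)) * ‖zz u X‖ + κ₂ ^ 2 * ‖zz u X‖ ^ 2
                + κ₂ * tilt u P X * ‖zz u X‖
                + κ₂ ^ 2 * Real.sqrt (tilt u P X) * ‖zz u X‖) * ‖Xc (npr u X)‖) := by
  have hd : Differentiable ℝ Xc := hXc.differentiable (by norm_num)
  have hfd := hasFDerivAt_lift hu hh hd hX
  refine ⟨hfd.differentiableAt, ?_⟩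
  have hh4 : h ≤ 1 / 4 := hh.trans (by norm_num)
  have hPv := Pv_zz hu hh4 hX
  have hA := hu.norm_Shp_zz_le_half hh hX
  rw [hfd.fderiv, tdiv_eq_trc, ← trc_nabS hu.c2 (hd (npr u X))]
  have halg := lift_trace_alg (isProj_Ph u (npr u X)) hP
    (Ph_comp_Shp hu.c2 (npr u X) (zz u X)) (Shp_comp_Ph u (npr u X) (zz u X))
    (Jw_comp_Kw hA) (Kw_comp_Jw hA) (norm_Kw_le hA) (Ph_comp_Kw hu.c2 hA)
    (Ph_comp_nabS u Xc (npr u X)) (nabS_comp_Ph u Xc (npr u X))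
    (Pv_comp_Zop u (npr u X) (Xc (npr u X))) (Zop_comp_Ph u (npr u X) (Xc (npr u X)))
    (Ph_comp_L3op hu.c2 (npr u X) (Xc (npr u X)) (zz u X))
    (L3op_comp_Ph u (npr u X) (Xc (npr u X)) (zz u X))
    (Pv_comp_RVop u (npr u X) (Xc (npr u X)) (zz u X))
  refine le_trans halg ?_
  have bA := hu.norm_Shp_le (npr u X) (zz u X)
  have bZ := hu.norm_Zop_le (npr u X) (Xc (npr u X))
  have bL := hu.norm_L3op_le (npr u X) (Xc (npr u X)) (zz u X)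
  have bR := hu.norm_RVop_le hPv (Xc (npr u X))
  have bT : |trc (L3op u (npr u X) (Xc (npr u X)) (zz u X))|
      ≤ 3 / 2 * (Real.sqrt (DHSsq u (npr u X)) * ‖zz u X‖ * ‖Xc (npr u X)‖) := by
    rw [trc_L3op hu.c3 hPv]
    refine (abs_real_inner_le_norm _ _).trans ?_
    have h1 := norm_DHS_le u (npr u X) (Xc (npr u X))
    have h2 : Real.sqrt (DHSsq u (npr u X)) * ((1 + ‖fderiv ℝ u (npr u X)‖) * ‖Xc (npr u X)‖)
        ≤ Real.sqrt (DHSsq u (npr u X)) * (3 / 2 * ‖Xc (npr u X)‖) := by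
      have := hu.slope (npr u X)
      gcongr
      linarith
    calc ‖DHS u (npr u X) (Xc (npr u X))‖ * ‖zz u X‖
        ≤ (Real.sqrt (DHSsq u (npr u X)) * (3 / 2 * ‖Xc (npr u X)‖)) * ‖zz u X‖ := by
          gcongr
          exact h1.trans h2
      _ = _ := by ring
  change tilt u P X * (4 * ‖Shp u (npr u X) (zz u X)‖ * ‖nabS u Xc (npr u X)‖)
      + 4 * ((m + n : ℕ) : ℝ) * (Real.sqrt (tilt u P X)
          * (‖Zop u (npr u X) (Xc (npr u X))‖ * ‖Shp u (npr u X) (zz u X)‖))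
      + (|trc (L3op u (npr u X) (Xc (npr u X)) (zz u X))|
          + 2 * ((m + n : ℕ) : ℝ) * (‖L3op u (npr u X) (Xc (npr u X)) (zz u X)‖
            * ‖Shp u (npr u X) (zz u X)‖)
          + 2 * tilt u P X * ‖L3op u (npr u X) (Xc (npr u X)) (zz u X)‖)
      + 2 * ((m + n : ℕ) : ℝ) * (Real.sqrt (tilt u P X)
          * ‖RVop u (npr u X) (Xc (npr u X)) (zz u X)‖) ≤ _
  set e := tilt u P X with he
  set s := Real.sqrt e with hs
  set d := Real.sqrt (DHSsq u (npr u X)) with hdd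
  set ζ := ‖zz u X‖ with hζ
  set x := ‖Xc (npr u X)‖ with hx
  set ν := ‖nabS u Xc (npr u X)‖ with hν
  set M := ((m + n : ℕ) : ℝ) with hM
  have he0 : 0 ≤ e := tilt_nonneg u hP X
  have hs0 : 0 ≤ s := Real.sqrt_nonneg _
  have hd0 : 0 ≤ d := Real.sqrt_nonneg _
  have hζ0 : 0 ≤ ζ := norm_nonneg _
  have hx0 : 0 ≤ x := norm_nonneg _
  have hν0 : 0 ≤ ν := norm_nonneg _
  have hM0 : 0 ≤ M := Nat.cast_nonneg _
  have hκ := hu.nonneg
  have t1 : e * (4 * ‖Shp u (npr u X) (zz u X)‖ * ν) ≤ 9 * (κ₂ * ζ * e * ν) := by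
    calc e * (4 * ‖Shp u (npr u X) (zz u X)‖ * ν) ≤ e * (4 * (9 / 4 * κ₂ * ζ) * ν) := by gcongr
      _ = _ := by ring
  have t2 : 4 * M * (s * (‖Zop u (npr u X) (Xc (npr u X))‖ * ‖Shp u (npr u X) (zz u X)‖))
      ≤ 27 / 2 * (M * (κ₂ ^ 2 * s * ζ * x)) := by
    calc _ ≤ 4 * M * (s * ((3 / 2 * κ₂ * x) * (9 / 4 * κ₂ * ζ))) := by gcongr
      _ = _ := by ring
  have t3 : 2 * M * (‖L3op u (npr u X) (Xc (npr u X)) (zz u X)‖ * ‖Shp u (npr u X) (zz u X)‖)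
      ≤ 387 / 2 * (M * (κ₂ ^ 2 * ζ ^ 2 * x)) := by
    calc _ ≤ 2 * M * ((43 * κ₂ * x * ζ) * (9 / 4 * κ₂ * ζ)) := by gcongr
      _ = _ := by ring
  have t4 : 2 * e * ‖L3op u (npr u X) (Xc (npr u X)) (zz u X)‖ ≤ 86 * (κ₂ * e * ζ * x) := by
    calc _ ≤ 2 * e * (43 * κ₂ * x * ζ) := by gcongr
      _ = _ := by ring
  have t5 : 2 * M * (s * ‖RVop u (npr u X) (Xc (npr u X)) (zz u X)‖)
      ≤ 54 * (M * (κ₂ ^ 2 * s * ζ * x)) := by
    calc _ ≤ 2 * M * (s * (27 * κ₂ ^ 2 * x * ζ)) := by gcongr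
      _ = _ := by ring
  have p1 : 0 ≤ κ₂ * ζ * e * ν := by positivity
  have p2 : 0 ≤ d * ζ * x := by positivity
  have p3 : 0 ≤ κ₂ ^ 2 * ζ ^ 2 * x := by positivity
  have p4 : 0 ≤ κ₂ * e * ζ * x := by positivity
  have p5 : 0 ≤ κ₂ ^ 2 * s * ζ * x := by positivity
  have q1 := mul_nonneg hM0 p1
  have q2 := mul_nonneg hM0 p2
  have q3 := mul_nonneg hM0 p3
  have q4 := mul_nonneg hM0 p4
  have q5 := mul_nonneg hM0 p5
  have hfin : 200 * (M + 1) * (κ₂ * ζ * e * ν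
      + (d * ζ + κ₂ ^ 2 * ζ ^ 2 + κ₂ * e * ζ + κ₂ ^ 2 * s * ζ) * x)
      = 200 * (M * (κ₂ * ζ * e * ν)) + 200 * (κ₂ * ζ * e * ν)
        + 200 * (M * (d * ζ * x)) + 200 * (d * ζ * x)
        + 200 * (M * (κ₂ ^ 2 * ζ ^ 2 * x)) + 200 * (κ₂ ^ 2 * ζ ^ 2 * x)
        + 200 * (M * (κ₂ * e * ζ * x)) + 200 * (κ₂ * e * ζ * x)
        + 200 * (M * (κ₂ ^ 2 * s * ζ * x)) + 200 * (κ₂ ^ 2 * s * ζ * x) := by ring
  rw [hfin]
  linarith

end Claimed.Agent.R322.Tube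
end

/- ===== packed: Claimed.Agent.R322.Tube.Geom ===== -/
section
/-!
# Tube geometry over a graph: operators and the list of facts (AE Lemmas 2.2, 2.3, (7.9); CO (6.4)-(6.6))

Everything is written with ambient operators on `E (m+n)`; no frames, no geodesics.
`y = npr u X`, `z = zz u X`.

* `dFp A = g⁻¹ dFᵀ` (pseudo-inverse of the differential of the graph map);
* `Shp u y w` = shape operator `A_w` (`⟨A_w a, b⟩ = ⟨II(a,b), w⟩`), extended by `0` on normal vectors;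
  formula `A_w a = (D_α P_h)(P_v w)`, `α = dFp a`;
* `Jz u X = 1 - A_z`, `Kz u X = Jz⁻¹`;
* `lift u Xc X = J_z dF(y) Xc(y)` the lift of the tangent field with chart components `Xc`;
* `divS`, `nabS` divergence and covariant derivative on `S`.

The statements below are the interface of the package `BP-Tube-geom`; constants depend only on
`m, n`.  The geometric bound is `κ₂ ≥ |D²u| + |D³u|` (everywhere), `κ₂ ≤ 1`, slope `≤ 1/2`.
-/

set_option autoImplicit false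

open scoped ENNReal ContDiff
open MeasureTheory

namespace Claimed.Agent.R322.Tube

variable {m n : ℕ}

/-- **(G1) unique nearest point.** -/
theorem tube_unique (m n : ℕ) : ∃ h₀ : ℝ, 0 < h₀ ∧ ∀ (κ₂ : ℝ) (u : E m → E n), Geo κ₂ u →
    ∀ X ∈ Tub u h₀,
      (∀ y', ‖X - Fg u (npr u X)‖ ≤ ‖X - Fg u y'‖) ∧
      (∀ y', (∀ y'', ‖X - Fg u y'‖ ≤ ‖X - Fg u y''‖) → y' = npr u X) ∧
      Ph u (npr u X) (zz u X) = 0 ∧
      (∀ (y : E m) (w : E (m + n)), Ph u y w = 0 → ‖w‖ < h₀ → X = Fg u y + w →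
        npr u X = y ∧ zz u X = w) :=
  ⟨1 / 4, by norm_num, fun _ _ hu _ hX =>
    have h := tube_unique_of_le hu le_rfl hX
    ⟨h.1, h.2.1, h.2.2.1, h.2.2.2.2⟩⟩

/-- **(G2) regularity and derivatives of the projection and of the normal displacement.** -/
theorem tube_deriv (m n : ℕ) : ∃ h₀ : ℝ, 0 < h₀ ∧ ∀ (κ₂ : ℝ) (u : E m → E n), Geo κ₂ u →
    IsOpen (Tub u h₀) ∧ ContDiffOn ℝ 3 (npr u) (Tub u h₀) ∧ ContDiffOn ℝ 3 (zz u) (Tub u h₀) ∧
    ∀ X ∈ Tub u h₀,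
      Jz u X ∘L Kz u X = ContinuousLinearMap.id ℝ _ ∧
      Kz u X ∘L Jz u X = ContinuousLinearMap.id ℝ _ ∧
      fderiv ℝ (npr u) X = dFp (fderiv ℝ u (npr u X)) ∘L Kz u X ∘L Ph u (npr u X) ∧
      fderiv ℝ (zz u) X = ContinuousLinearMap.id ℝ _ - Kz u X ∘L Ph u (npr u X) :=
  ⟨2 / 9, by norm_num, fun _ _ hu => tube_deriv_of_le hu le_rfl⟩

/-- **(G3) algebra of the shape operator.** -/
theorem shape_facts (m n : ℕ) : ∃ C : ℝ, 0 < C ∧ ∀ (κ₂ : ℝ) (u : E m → E n), Geo κ₂ u →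
    ∀ (y : E m) (w : E (m + n)),
      (∀ a b, inner ℝ (Shp u y w a) b = inner ℝ a (Shp u y w b)) ∧
      Ph u y ∘L Shp u y w = Shp u y w ∧ Shp u y w ∘L Ph u y = Shp u y w ∧
      (∀ α β : E m, inner ℝ (Shp u y w (dF (fderiv ℝ u y) α)) (dF (fderiv ℝ u y) β)
        = inner ℝ (II u y α β) w) ∧
      trc (Shp u y w) = inner ℝ (HS u y) w ∧
      ‖Shp u y w‖ ≤ C * κ₂ * ‖w‖ :=
  shape_facts_aux m n

/-- **(G4) normal trace formula** AE (7.9) = CO (6.6):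
`tr(P Dz) = e - H_S·z + O(|II|²|z|² + |II| e |z|)`. -/
theorem normal_trace (m n : ℕ) : ∃ h₀ C : ℝ, 0 < h₀ ∧ 0 < C ∧
    ∀ (κ₂ : ℝ) (u : E m → E n), Geo κ₂ u → ∀ X ∈ Tub u h₀, ∀ P : E (m + n) →L[ℝ] E (m + n),
      IsProj m P →
      tdiv P (fderiv ℝ (zz u) X)
        = tilt u P X - trc (P ∘L Shp u (npr u X) (zz u X) ∘L Kz u X ∘L Ph u (npr u X)) ∧
      |tdiv P (fderiv ℝ (zz u) X) - (tilt u P X - inner ℝ (HS u (npr u X)) (zz u X))|
        ≤ C * (κ₂ ^ 2 * ‖zz u X‖ ^ 2 + κ₂ * tilt u P X * ‖zz u X‖) :=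
  ⟨2 / 9, 11 * ((m + n : ℕ) : ℝ) + 3, by norm_num, by positivity,
    fun _ _ hu _ hX _ hP => normal_trace_of_le hu le_rfl hX hP⟩

/-- **(G5) curved horizontal first variation, pointwise** AE Lemma 2.2 = CO (6.4), (6.5):
`P : D(J_z X) = div_S X - B : ∇^S X + 𝓔`. -/
theorem lift_trace (m n : ℕ) : ∃ h₀ C : ℝ, 0 < h₀ ∧ 0 < C ∧
    ∀ (κ₂ : ℝ) (u : E m → E n), Geo κ₂ u → ∀ Xc : E m → E m, ContDiff ℝ 1 Xc →
    ∀ X ∈ Tub u h₀, ∀ P : E (m + n) →L[ℝ] E (m + n), IsProj m P →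
      DifferentiableAt ℝ (lift u Xc) X ∧
      |tdiv P (fderiv ℝ (lift u Xc) X)
          - (divS u Xc (npr u X) - trc (Bop u P X ∘L nabS u Xc (npr u X)))|
        ≤ C * (κ₂ * ‖zz u X‖ * tilt u P X * ‖nabS u Xc (npr u X)‖
            + (Real.sqrt (DHSsq u (npr u X)) * ‖zz u X‖ + κ₂ ^ 2 * ‖zz u X‖ ^ 2
                + κ₂ * tilt u P X * ‖zz u X‖
                + κ₂ ^ 2 * Real.sqrt (tilt u P X) * ‖zz u X‖) * ‖Xc (npr u X)‖) :=
  ⟨2 / 9, 200 * (((m + n : ℕ) : ℝ) + 1), by norm_num, by positivity,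
    fun _ _ hu _ hXc _ hX _ hP => lift_trace_of_le hu le_rfl hXc hX hP⟩

/-- **(G6) blocks of a projection** AE (2.4) = CO (3.2). -/
theorem block_facts (m n : ℕ) (κ₂ : ℝ) (u : E m → E n) (hu : Geo κ₂ u) (X : E (m + n))
    (P : E (m + n) →L[ℝ] E (m + n)) (hP : IsProj m P) :
    0 ≤ tilt u P X ∧ tilt u P X ≤ m ∧ tilt u P X = trc (Bop u P X) ∧
    (∀ a, 0 ≤ inner ℝ (Bop u P X a) a) ∧
    (∀ a, ‖Pvh u P X a‖ ^ 2 = inner ℝ (Bop u P X a) a - ‖Bop u P X a‖ ^ 2) ∧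
    ‖Pvh u P X‖ ^ 2 ≤ tilt u P X :=
  block_facts_aux (isProj_Ph u (npr u X)) hP

/-- **(G7) projection Jacobian** AE Lemma 2.3.  `Jpi = tanJac(P, D npr) · √g` is the tangential
Jacobian of the nearest-point projection onto `S`. -/
theorem jacobian_facts (m n : ℕ) : ∃ h₀ C : ℝ, 0 < h₀ ∧ 0 < C ∧
    ∀ (κ₂ : ℝ) (u : E m → E n), Geo κ₂ u → ∀ X ∈ Tub u h₀, ∀ P : E (m + n) →L[ℝ] E (m + n),
      IsProj m P →
      |tanJac P (fderiv ℝ (npr u) X) * vdens (fderiv ℝ u (npr u X)) - 1|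
        ≤ C * (tilt u P X + ‖zz u X‖ ^ 2 + ‖HS u (npr u X)‖ ^ 2) ∧
      2 * (1 - tanJac P (fderiv ℝ (npr u) X) * vdens (fderiv ℝ u (npr u X))) - tilt u P X
        ≤ C * (tilt u P X ^ 2 + ‖zz u X‖ ^ 2 + ‖HS u (npr u X)‖ ^ 2) :=
  jacobian_facts_aux m n

end Claimed.Agent.R322.Tube
end

/- ===== packed: Claimed.Agent.R322.Tube.FrameAux ===== -/
section
/-!
# Row 322, Tube/FrameAux: abstract projected orthonormal frames (tools for `Tube/Frame.lean`)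

`pfr k P ι = P ι (ιᵀ P ι)^{-1/2}` for a rank `k` projection `P` close to `ι ιᵀ`, `ι` an isometric
embedding of `E k`.  Pointwise algebra, smoothness in a parameter, connection form.
-/

set_option autoImplicit false

open scoped ENNReal ContDiff
open MeasureTheory ContinuousLinearMap

namespace Claimed.Agent.R322.Tube

local notation "adj" => ContinuousLinearMap.adjoint
local notation "𝟙" => ContinuousLinearMap.id ℝ _

variable {m n : ℕ}

/-- the complementary projection. -/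
theorem IsProj.compl {P : E (m + n) →L[ℝ] E (m + n)} (hP : IsProj m P) : IsProj n (𝟙 - P) := by
  refine ⟨IsProj.compl_idem hP, ?_, ?_⟩
  · intro x y
    simp only [sub_apply, id_apply, inner_sub_left, inner_sub_right, hP.symm x y]
  · have h1 : (((𝟙 : E (m + n) →L[ℝ] E (m + n)) - P : E (m + n) →L[ℝ] E (m + n)) :
        E (m + n) →ₗ[ℝ] E (m + n)) = LinearMap.id - (P : E (m + n) →ₗ[ℝ] E (m + n)) := rfl
    rw [h1, map_sub, hP.tr, LinearMap.trace_id, finrank_euclideanSpace_fin]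
    push_cast
    ring

/-- [Fr1], abstract form. -/
theorem fr_A0_facts (A : E m →L[ℝ] E n) (τ : E m →L[ℝ] E (m + n))
    (h2 : τ ∘L adj τ = PhA A) (ε₀ : ℝ) (hε : ‖A‖ ≤ ε₀) :
    adj (adj τ ∘L dF A) ∘L (adj τ ∘L dF A) = gmat A ∧
    (adj τ ∘L dF A) ∘L (adj τ ∘L dF A).inverse = 𝟙 ∧
    (adj τ ∘L dF A).inverse ∘L (adj τ ∘L dF A) = 𝟙 ∧
    (∀ a, ‖a‖ ≤ ‖(adj τ ∘L dF A) a‖) ∧ (∀ a, ‖(adj τ ∘L dF A) a‖ ≤ (1 + ε₀) * ‖a‖) ∧
    |LinearMap.det ((adj τ ∘L dF A : E m →L[ℝ] E m) : E m →ₗ[ℝ] E m)| = vdens A ∧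
    τ ∘L (adj τ ∘L dF A) = dF A := by
  have e7 : τ ∘L (adj τ ∘L dF A) = dF A := by
    rw [← comp_assoc, h2, PhA_comp_dF]
  have e1 : adj (adj τ ∘L dF A) ∘L (adj τ ∘L dF A) = gmat A := by
    rw [adjoint_comp, adjoint_adjoint, comp_assoc, e7, adjoint_dF_comp_dF]
  have hnorm : ∀ a, ‖(adj τ ∘L dF A) a‖ = ‖dF A a‖ := by
    intro a
    have h3 : ‖(adj τ ∘L dF A) a‖ ^ 2 = ‖dF A a‖ ^ 2 := by
      rw [← real_inner_self_eq_norm_sq, ← real_inner_self_eq_norm_sq,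
        ← adjoint_inner_left (adj τ ∘L dF A), ← comp_apply, e1, ← adjoint_dF_comp_dF, comp_apply,
        adjoint_inner_left]
    exact (sq_eq_sq₀ (norm_nonneg _) (norm_nonneg _)).1 h3
  have e4 : ∀ a, ‖a‖ ≤ ‖(adj τ ∘L dF A) a‖ := fun a => by
    rw [hnorm]; exact norm_le_norm_dF A a
  have hinj : Function.Injective (adj τ ∘L dF A) := by
    refine (injective_iff_map_eq_zero _).2 fun a ha => ?_
    have := e4 a
    rw [ha, norm_zero] at this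
    exact norm_eq_zero.1 (le_antisymm this (norm_nonneg _))
  have hinv := isInvertible_of_injective _ hinj
  refine ⟨e1, hinv.self_comp_inverse, hinv.inverse_comp_self, e4, ?_, ?_, e7⟩
  · intro a
    rw [hnorm]
    refine (norm_dF_apply_le A a).trans ?_
    gcongr
  · rw [← LinearMap.normDet_eq_abs_det]
    have h3 := Base.Area.nd_sq (adj τ ∘L dF A)
    rw [e1] at h3
    unfold vdens
    rw [show LinearMap.det ((gmat A : E m →L[ℝ] E m) : E m →ₗ[ℝ] E m) = (gmat A).det from rfl, ← h3,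
      Real.sqrt_sq (Base.Area.nd_nonneg _)]
    rfl

/-! ### operators close to the identity -/

theorem fr_near_one {k : ℕ} {T : E k →L[ℝ] E k} (hT : ‖T - 𝟙‖ ≤ 1 / 4) :
    T.IsInvertible ∧ T ∘L T.inverse = 𝟙 ∧ T.inverse ∘L T = 𝟙 ∧ ‖T.inverse‖ ≤ 4 / 3 := by
  have hlow : ∀ x, ‖x‖ ≤ 4 / 3 * ‖T x‖ := by
    intro x
    have h1 : x = T x - (T - ContinuousLinearMap.id ℝ (E k)) x := by simp
    have h2 : ‖x‖ ≤ ‖T x‖ + ‖(T - ContinuousLinearMap.id ℝ (E k)) x‖ := by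
      conv_lhs => rw [h1]
      exact norm_sub_le _ _
    have h3 : ‖(T - ContinuousLinearMap.id ℝ (E k)) x‖ ≤ 1 / 4 * ‖x‖ :=
      ((T - ContinuousLinearMap.id ℝ (E k)).le_opNorm x).trans
        (mul_le_mul_of_nonneg_right hT (norm_nonneg _))
    linarith
  have hinj : Function.Injective T := by
    refine (injective_iff_map_eq_zero _).2 fun a ha => ?_
    have := hlow a
    rw [ha, norm_zero, mul_zero] at this
    exact norm_eq_zero.1 (le_antisymm this (norm_nonneg _))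
  have hinv := isInvertible_of_injective _ hinj
  refine ⟨hinv, hinv.self_comp_inverse, hinv.inverse_comp_self, ?_⟩
  refine opNorm_le_bound _ (by norm_num) fun v => ?_
  have := hlow (T.inverse v)
  have h4 : T (T.inverse v) = v := congrArg (fun L : E k →L[ℝ] E k => L v) hinv.self_comp_inverse
  rwa [h4] at this

theorem fr_adjoint_inverse {k : ℕ} {T : E k →L[ℝ] E k} (h1 : T ∘L T.inverse = 𝟙)
    (hs : adj T = T) : adj T.inverse = T.inverse := by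
  have h3 : adj T.inverse ∘L T = 𝟙 := by
    have := congrArg adj h1
    rwa [adjoint_comp, hs, adjoint_id] at this
  calc adj T.inverse = adj T.inverse ∘L (T ∘L T.inverse) := by rw [h1, comp_id]
    _ = (adj T.inverse ∘L T) ∘L T.inverse := (comp_assoc _ _ _).symm
    _ = T.inverse := by rw [h3, id_comp]

/-! ### isometric embeddings -/

theorem fr_norm_iso {k N : ℕ} {ι : E k →L[ℝ] E N} (h1 : adj ι ∘L ι = 𝟙) (x : E k) :
    ‖ι x‖ = ‖x‖ := by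
  have h3 : ‖ι x‖ ^ 2 = ‖x‖ ^ 2 := by
    rw [← real_inner_self_eq_norm_sq, ← real_inner_self_eq_norm_sq, ← adjoint_inner_left ι,
      ← comp_apply, h1, id_apply]
  exact (sq_eq_sq₀ (norm_nonneg _) (norm_nonneg _)).1 h3

theorem fr_norm_iso_le {k N : ℕ} {ι : E k →L[ℝ] E N} (h1 : adj ι ∘L ι = 𝟙) : ‖ι‖ ≤ 1 :=
  opNorm_le_bound _ zero_le_one fun x => by rw [one_mul, fr_norm_iso h1]

theorem fr_norm_adj_iso_le {k N : ℕ} {ι : E k →L[ℝ] E N} (h1 : adj ι ∘L ι = 𝟙) : ‖adj ι‖ ≤ 1 := by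
  rw [LinearIsometryEquiv.norm_map]
  exact fr_norm_iso_le h1

theorem IsProj.norm_le_one {k N : ℕ} {P : E N →L[ℝ] E N} (hP : IsProj k P) : ‖P‖ ≤ 1 :=
  opNorm_le_bound _ zero_le_one fun w => by rw [one_mul]; exact hP.norm_apply_le w

theorem IsProj.norm_compl_le_one {k N : ℕ} {P : E N →L[ℝ] E N} (hP : IsProj k P) : ‖𝟙 - P‖ ≤ 1 :=
  opNorm_le_bound _ zero_le_one fun w => by rw [one_mul]; exact hP.norm_sub_apply_le w

/-- Gram operator of the projected frame minus the identity. -/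
theorem fr_gram_sub {k N : ℕ} {ι : E k →L[ℝ] E N} (h1 : adj ι ∘L ι = 𝟙) (P : E N →L[ℝ] E N) :
    adj ι ∘L P ∘L ι - 𝟙 = adj ι ∘L (P - ι ∘L adj ι) ∘L ι := by
  rw [sub_comp, comp_sub, comp_assoc ι (adj ι) ι, h1, comp_id, h1]

theorem fr_norm_gram_sub_le {k N : ℕ} {ι : E k →L[ℝ] E N} (h1 : adj ι ∘L ι = 𝟙)
    (P : E N →L[ℝ] E N) : ‖adj ι ∘L P ∘L ι - 𝟙‖ ≤ ‖P - ι ∘L adj ι‖ := by
  rw [fr_gram_sub h1]
  have := norm_comp_le' _ _ (fr_norm_adj_iso_le h1) (norm_comp_le' _ _ (le_refl ‖P - ι ∘L adj ι‖)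
    (fr_norm_iso_le h1))
  linarith

/-- `(1 - P) ι = (ι ιᵀ - P) ι`. -/
theorem fr_compl_comp {k N : ℕ} {ι : E k →L[ℝ] E N} (h1 : adj ι ∘L ι = 𝟙) (P : E N →L[ℝ] E N) :
    (𝟙 - P) ∘L ι = (ι ∘L adj ι - P) ∘L ι := by
  rw [sub_comp, sub_comp, comp_assoc, h1, comp_id, id_comp]

theorem fr_norm_compl_comp_le {k N : ℕ} {ι : E k →L[ℝ] E N} (h1 : adj ι ∘L ι = 𝟙)
    (P : E N →L[ℝ] E N) : ‖(𝟙 - P) ∘L ι‖ ≤ ‖P - ι ∘L adj ι‖ := by
  rw [fr_compl_comp h1, norm_sub_rev P]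
  have := norm_comp_le' _ _ (le_refl ‖ι ∘L adj ι - P‖) (fr_norm_iso_le h1)
  linarith

/-! ### the projected frame -/

/-- projected orthonormal frame `P ι (ιᵀ P ι)^{-1/2}`. -/
noncomputable def pfr {N : ℕ} (k : ℕ) (P : E N →L[ℝ] E N) (ι : E k →L[ℝ] E N) : E k →L[ℝ] E N :=
  P ∘L ι ∘L (Tool.opSqrt k (adj ι ∘L P ∘L ι)).inverse

/-- the square root of the Gram operator. -/
noncomputable def psq {N : ℕ} (k : ℕ) (P : E N →L[ℝ] E N) (ι : E k →L[ℝ] E N) : E k →L[ℝ] E k :=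
  Tool.opSqrt k (adj ι ∘L P ∘L ι)

theorem pfr_eq {N : ℕ} (k : ℕ) (P : E N →L[ℝ] E N) (ι : E k →L[ℝ] E N) :
    pfr k P ι = P ∘L ι ∘L (psq k P ι).inverse := rfl

/-- facts on the square root. -/
theorem psq_facts {k N : ℕ} {P : E N →L[ℝ] E N} {ι : E k →L[ℝ] E N} (hP : IsProj k P)
    (hb : ‖adj ι ∘L P ∘L ι - 𝟙‖ < Tool.sqδ k) :
    psq k P ι ∘L psq k P ι = adj ι ∘L P ∘L ι ∧ ‖psq k P ι - 𝟙‖ ≤ ‖adj ι ∘L P ∘L ι - 𝟙‖ ∧
      ‖psq k P ι - 𝟙‖ ≤ 1 / 4 ∧ adj (psq k P ι) = psq k P ι := by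
  obtain ⟨-, hδ, -, -, H⟩ := Tool.opSqrt_spec k
  have hmem : adj ι ∘L P ∘L ι ∈ Metric.ball (1 : E k →L[ℝ] E k) (Tool.sqδ k) := by
    rw [Metric.mem_ball, dist_eq_norm]
    exact hb
  obtain ⟨a1, a2, a3, -⟩ := H _ hmem
  have a2' : ‖psq k P ι - 𝟙‖ ≤ ‖adj ι ∘L P ∘L ι - 𝟙‖ := a2
  refine ⟨a1, a2', by linarith, ?_⟩
  have hsym : ∀ x y, inner ℝ ((adj ι ∘L P ∘L ι) x) y = inner ℝ x ((adj ι ∘L P ∘L ι) y) := by
    intro x y
    simp only [comp_apply]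
    rw [adjoint_inner_left, adjoint_inner_right, hP.symm]
  exact ((eq_adjoint_iff _ _).2 (a3 hsym)).symm

/-- the projected frame is an orthonormal frame of the range of `P`. -/
theorem pfr_facts {k N : ℕ} {P : E N →L[ℝ] E N} {ι : E k →L[ℝ] E N} (hP : IsProj k P)
    (hb : ‖adj ι ∘L P ∘L ι - 𝟙‖ < Tool.sqδ k) :
    adj (pfr k P ι) ∘L pfr k P ι = 𝟙 ∧ pfr k P ι ∘L adj (pfr k P ι) = P ∧
      P ∘L pfr k P ι = pfr k P ι ∧ pfr k P ι ∘L psq k P ι = P ∘L ι ∧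
      adj (pfr k P ι) = (psq k P ι).inverse ∘L adj ι ∘L P := by
  obtain ⟨s1, -, s3, s4⟩ := psq_facts hP hb
  obtain ⟨-, i1, i2, -⟩ := fr_near_one s3
  have i3 := fr_adjoint_inverse i1 s4
  set S := psq k P ι with hS
  set f := pfr k P ι with hf
  have hfe : f = P ∘L ι ∘L S.inverse := rfl
  have e5 : adj f = S.inverse ∘L adj ι ∘L P := by
    rw [hfe, adjoint_comp, adjoint_comp, i3, IsProj.adjoint_eq hP, comp_assoc]
  have e3 : P ∘L f = f := by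
    rw [hfe, ← comp_assoc, hP.idem]
  have e4 : f ∘L S = P ∘L ι := by
    rw [hfe, comp_assoc, comp_assoc, i2, comp_id]
  have e1 : adj f ∘L f = 𝟙 := by
    have h1 : adj f ∘L f = S.inverse ∘L (adj ι ∘L P ∘L ι) ∘L S.inverse := by
      conv_lhs => rw [e5, ← e3]
      rw [e3, hfe]
      simp only [comp_assoc]
      rw [← comp_assoc P P, hP.idem]
    rw [h1, ← s1, comp_assoc, i1, comp_id, i2]
  refine ⟨e1, ?_, e3, e4, e5⟩
  -- ranges
  have hinj : Function.Injective f := injective_of_adjoint_comp_self e1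
  have hle : LinearMap.range (f : E k →ₗ[ℝ] E N) ≤ LinearMap.range (P : E N →ₗ[ℝ] E N) := by
    rintro _ ⟨c, rfl⟩
    refine ⟨f c, ?_⟩
    exact congrArg (fun L : E k →L[ℝ] E N => L c) e3
  have hfr : Module.finrank ℝ (LinearMap.range (f : E k →ₗ[ℝ] E N)) =
      Module.finrank ℝ (LinearMap.range (P : E N →ₗ[ℝ] E N)) := by
    rw [finrank_range_of_isProj hP, LinearMap.finrank_range_of_inj hinj, finrank_euclideanSpace_fin]
  have heq := Submodule.eq_of_le_of_finrank_eq hle hfr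
  have hQP : (f ∘L adj f) ∘L P = P := by
    ext1 x
    have hx : P x ∈ LinearMap.range (f : E k →ₗ[ℝ] E N) := by
      rw [heq]
      exact ⟨x, rfl⟩
    obtain ⟨c, hc⟩ := hx
    have hc' : f c = P x := hc
    change f (adj f (P x)) = P x
    rw [← hc']
    have := congrArg (fun L : E k →L[ℝ] E k => L c) e1
    change adj f (f c) = c at this
    rw [this]
  have h3 := congrArg adj hQP
  rw [adjoint_comp, adjoint_comp, adjoint_adjoint, IsProj.adjoint_eq hP, ← comp_assoc, e3] at h3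
  exact h3

/-! ### smoothness in a parameter -/

theorem contDiff_psq {d k N : ℕ} {r : WithTop ℕ∞} (hr : r ≤ 4) {P : E d → E N →L[ℝ] E N}
    {ι : E k →L[ℝ] E N} (hPs : ContDiff ℝ r P)
    (hb : ∀ y, ‖adj ι ∘L P y ∘L ι - 𝟙‖ < Tool.sqδ k) :
    ContDiff ℝ r (fun y => psq k (P y) ι) := by
  have hG : ContDiff ℝ r (fun y => adj ι ∘L P y ∘L ι) :=
    contDiff_const.clm_comp (hPs.clm_comp contDiff_const)
  rw [contDiff_iff_contDiffAt]
  intro y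
  have hon := (Tool.opSqrt_spec k).2.2.2.1
  have hmem : adj ι ∘L P y ∘L ι ∈ Metric.ball (1 : E k →L[ℝ] E k) (Tool.sqδ k) := by
    rw [Metric.mem_ball, dist_eq_norm]
    exact hb y
  have hat : ContDiffAt ℝ 4 (Tool.opSqrt k) (adj ι ∘L P y ∘L ι) :=
    hon.contDiffAt (Metric.isOpen_ball.mem_nhds hmem)
  exact (hat.of_le hr).comp y hG.contDiffAt

theorem contDiff_pfr {d k N : ℕ} {r : WithTop ℕ∞} (hr : r ≤ 4) {P : E d → E N →L[ℝ] E N}
    {ι : E k →L[ℝ] E N} (hP : ∀ y, IsProj k (P y)) (hPs : ContDiff ℝ r P)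
    (hb : ∀ y, ‖adj ι ∘L P y ∘L ι - 𝟙‖ < Tool.sqδ k) :
    ContDiff ℝ r (fun y => pfr k (P y) ι) := by
  have hinv : ContDiff ℝ r (fun y => (psq k (P y) ι).inverse) := by
    rw [contDiff_iff_contDiffAt]
    intro y
    exact (fr_near_one (psq_facts (hP y) (hb y)).2.2.1).1.contDiffAt_map_inverse.comp y
      (contDiff_psq hr hPs hb).contDiffAt
  exact hPs.clm_comp (contDiff_const.clm_comp hinv)

/-! ### derivatives of identities between compositions -/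

theorem fr_deriv_comp {d a b c : ℕ} {A : E d → E b →L[ℝ] E c} {B : E d → E a →L[ℝ] E b}
    {D : E d → E a →L[ℝ] E c} {y : E d} (hA : DifferentiableAt ℝ A y)
    (hB : DifferentiableAt ℝ B y) (h : ∀ y, A y ∘L B y = D y) (v : E d) :
    fderiv ℝ D y v = A y ∘L fderiv ℝ B y v + fderiv ℝ A y v ∘L B y := by
  have h1 := hA.hasFDerivAt.clm_comp hB.hasFDerivAt
  have h2 : (fun y => A y ∘L B y) = D := funext h
  rw [h2] at h1
  rw [h1.fderiv]
  simp only [add_apply, ContinuousLinearMap.comp_apply, compL_apply, flip_apply]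

theorem fr_deriv_comp_const_right {d a b c : ℕ} {A : E d → E b →L[ℝ] E c} (B : E a →L[ℝ] E b)
    {y : E d} (hA : DifferentiableAt ℝ A y) (v : E d) :
    fderiv ℝ (fun y => A y ∘L B) y v = fderiv ℝ A y v ∘L B := by
  rw [fr_deriv_comp hA (differentiableAt_const B) (fun _ => rfl) v]
  simp

theorem fr_deriv_comp_const_left {d a b c : ℕ} (A : E b →L[ℝ] E c) {B : E d → E a →L[ℝ] E b}
    {y : E d} (hB : DifferentiableAt ℝ B y) (v : E d) :
    fderiv ℝ (fun y => A ∘L B y) y v = A ∘L fderiv ℝ B y v := by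
  rw [fr_deriv_comp (differentiableAt_const A) hB (fun _ => rfl) v]
  simp

/-- derivative of a family of projections: `P Ṗ P = 0`. -/
theorem fr_proj_deriv {d k N : ℕ} {P : E d → E N →L[ℝ] E N} (hP : ∀ y, IsProj k (P y)) {y : E d}
    (hd : DifferentiableAt ℝ P y) (v : E d) :
    fderiv ℝ P y v = P y ∘L fderiv ℝ P y v + fderiv ℝ P y v ∘L P y ∧
      P y ∘L fderiv ℝ P y v ∘L P y = 0 := by
  have h1 := fr_deriv_comp hd hd (fun y => (hP y).idem) v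
  refine ⟨h1, ?_⟩
  have h2 : P y ∘L fderiv ℝ P y v ∘L P y =
      P y ∘L (P y ∘L fderiv ℝ P y v + fderiv ℝ P y v ∘L P y) ∘L P y := by rw [← h1]
  rw [add_comp, comp_add, comp_assoc, ← comp_assoc (P y) (P y), (hP y).idem, comp_assoc,
    (hP y).idem] at h2
  have h3 : P y ∘L fderiv ℝ P y v ∘L P y + P y ∘L fderiv ℝ P y v ∘L P y
      = P y ∘L fderiv ℝ P y v ∘L P y + 0 := by rw [add_zero]; exact h2.symm
  exact add_left_cancel h3

/-- pure algebra + norms behind the bound of the connection form. -/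
theorem fr_conn_alg {k N : ℕ} {Q Q' : E N →L[ℝ] E N} {ι f f' : E k →L[ℝ] E N}
    {S S' : E k →L[ℝ] E k} (hQ : IsProj k Q) (h1 : adj ι ∘L ι = 𝟙)
    (p1 : Q' = Q ∘L Q' + Q' ∘L Q) (p2 : Q ∘L Q' ∘L Q = 0)
    (hS : ‖S - 𝟙‖ ≤ 1 / 4) (D3 : adj ι ∘L Q' ∘L ι = S ∘L S' + S' ∘L S)
    (D4 : Q' ∘L ι = f ∘L S' + f' ∘L S) (hf1 : adj f ∘L f = 𝟙)
    (hf2 : adj f = S.inverse ∘L adj ι ∘L Q) :
    ‖adj f ∘L f'‖ ≤ 4 * (‖Q'‖ * ‖Q - ι ∘L adj ι‖) := by
  obtain ⟨-, i1, i2, i3⟩ := fr_near_one hS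
  have c1 : ‖(𝟙 - Q) ∘L ι‖ ≤ ‖Q - ι ∘L adj ι‖ := fr_norm_compl_comp_le h1 Q
  have hι := fr_norm_iso_le h1
  have hι' := fr_norm_adj_iso_le h1
  have hQ1 := hQ.norm_le_one
  set X := ‖Q'‖ * ‖Q - ι ∘L adj ι‖ with hX
  have hX0 : 0 ≤ X := by positivity
  have n1 : Q ∘L Q' ∘L ι = Q ∘L Q' ∘L ((𝟙 - Q) ∘L ι) := by
    have : Q ∘L Q' ∘L Q ∘L ι = 0 := by
      rw [← comp_assoc Q', ← comp_assoc Q, p2, zero_comp]
    rw [sub_comp, id_comp, comp_sub, comp_sub, this, sub_zero]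
  have N1 : ‖adj ι ∘L Q ∘L Q' ∘L ι‖ ≤ X := by
    rw [n1]
    have := norm_comp_le' _ _ hι' (norm_comp_le' _ _ hQ1 (norm_comp_le' _ _ (le_refl ‖Q'‖) c1))
    linarith
  have n2 : adj ι ∘L Q' ∘L Q = adj ((𝟙 - Q) ∘L ι) ∘L Q' ∘L Q := by
    rw [adjoint_comp, IsProj.adjoint_compl hQ, comp_assoc, sub_comp, id_comp, p2, sub_zero]
  have N2 : ‖adj ι ∘L Q' ∘L Q ∘L ι‖ ≤ X := by
    have e : adj ι ∘L Q' ∘L Q ∘L ι = (adj ((𝟙 - Q) ∘L ι) ∘L Q' ∘L Q) ∘L ι := by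
      rw [← n2]
      simp only [comp_assoc]
    rw [e]
    have c1' : ‖adj ((𝟙 - Q) ∘L ι)‖ ≤ ‖Q - ι ∘L adj ι‖ := by
      rw [LinearIsometryEquiv.norm_map]; exact c1
    have := norm_comp_le' _ _ (norm_comp_le' _ _ c1' (norm_comp_le' _ _ (le_refl ‖Q'‖) hQ1)) hι
    linarith
  have N3 : ‖adj ι ∘L Q' ∘L ι‖ ≤ 2 * X := by
    have e : adj ι ∘L Q' ∘L ι = adj ι ∘L Q ∘L Q' ∘L ι + adj ι ∘L Q' ∘L Q ∘L ι := by
      conv_lhs => rw [p1]
      rw [add_comp, comp_add]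
      simp only [comp_assoc]
    rw [e]
    exact (norm_add_le _ _).trans (by linarith)
  have N4 : ‖S'‖ ≤ 4 / 3 * X := by
    have e : (2 : ℝ) • S' = adj ι ∘L Q' ∘L ι - (S - 𝟙) ∘L S' - S' ∘L (S - 𝟙) := by
      rw [D3, sub_comp, comp_sub, id_comp, comp_id, two_smul ℝ S']
      abel
    have h2 : ‖(2 : ℝ) • S'‖ = 2 * ‖S'‖ := by rw [norm_smul]; simp
    have h3 : ‖(2 : ℝ) • S'‖ ≤ 2 * X + 1 / 4 * ‖S'‖ + ‖S'‖ * (1 / 4) := by
      rw [e]
      refine (norm_sub_le _ _).trans (add_le_add ((norm_sub_le _ _).trans (add_le_add N3 ?_)) ?_)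
      · exact norm_comp_le' _ _ hS le_rfl
      · exact norm_comp_le' _ _ le_rfl hS
    linarith
  have e1 : (adj f ∘L f') ∘L S = adj f ∘L Q' ∘L ι - S' := by
    rw [D4, comp_add, ← comp_assoc, hf1, id_comp, comp_assoc]
    abel
  have e2 : adj f ∘L f' = (adj f ∘L Q' ∘L ι - S') ∘L S.inverse := by
    rw [← e1, comp_assoc, i1, comp_id]
  have e3 : adj f ∘L Q' ∘L ι = S.inverse ∘L (adj ι ∘L Q ∘L Q' ∘L ι) := by
    rw [hf2]
    simp only [comp_assoc]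
  have N5 : ‖adj f ∘L Q' ∘L ι‖ ≤ 4 / 3 * X := by
    rw [e3]
    exact norm_comp_le' _ _ i3 N1
  rw [e2]
  have N6 : ‖adj f ∘L Q' ∘L ι - S'‖ ≤ 4 / 3 * X + 4 / 3 * X :=
    (norm_sub_le _ _).trans (add_le_add N5 N4)
  have := norm_comp_le' _ _ N6 i3
  linarith

/-- bound of the connection form of the projected frame. -/
theorem fr_conn_bound {d k N : ℕ} {P : E d → E N →L[ℝ] E N} {ι : E k →L[ℝ] E N}
    (hP : ∀ y, IsProj k (P y)) (h1 : adj ι ∘L ι = 𝟙) (hPs : ContDiff ℝ 1 P)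
    (hb : ∀ y, ‖adj ι ∘L P y ∘L ι - 𝟙‖ < Tool.sqδ k) (y v : E d) :
    ‖adj (pfr k (P y) ι) ∘L fderiv ℝ (fun y => pfr k (P y) ι) y v‖
      ≤ 4 * (‖fderiv ℝ P y v‖ * ‖P y - ι ∘L adj ι‖) := by
  have hd : DifferentiableAt ℝ P y := hPs.differentiable (by norm_num) y
  have hdS : DifferentiableAt ℝ (fun y => psq k (P y) ι) y :=
    (contDiff_psq (by norm_num) hPs hb).differentiable (by norm_num) y
  have hdf : DifferentiableAt ℝ (fun y => pfr k (P y) ι) y :=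
    (contDiff_pfr (by norm_num) hP hPs hb).differentiable (by norm_num) y
  obtain ⟨p1, p2⟩ := fr_proj_deriv hP hd v
  obtain ⟨f1, -, -, -, f5⟩ := pfr_facts (hP y) (hb y)
  refine fr_conn_alg (hP y) h1 p1 p2 (psq_facts (hP y) (hb y)).2.2.1 ?_ ?_ f1 f5
    (S' := fderiv ℝ (fun y => psq k (P y) ι) y v)
  · rw [← fr_deriv_comp hdS hdS (fun y => (psq_facts (hP y) (hb y)).1) v,
      fr_deriv_comp_const_left _ (hd.clm_comp (differentiableAt_const ι)),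
      fr_deriv_comp_const_right _ hd]
  · rw [← fr_deriv_comp hdf hdS (fun y => (pfr_facts (hP y) (hb y)).2.2.2.1) v,
      fr_deriv_comp_const_right _ hd]

/-- the connection form of an orthonormal frame is antisymmetric. -/
theorem fr_conn_antisymm {d k N : ℕ} {f : E d → E k →L[ℝ] E N} (hf : ∀ y, adj (f y) ∘L f y = 𝟙)
    {y : E d} (hd : DifferentiableAt ℝ f y) (v : E d) (η η' : E k) :
    inner ℝ ((adj (f y) ∘L fderiv ℝ f y v) η) η' = - inner ℝ η ((adj (f y) ∘L fderiv ℝ f y v) η') := by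
  have hA : DifferentiableAt ℝ (fun y => adj (f y)) y :=
    (adjL k N).differentiableAt.comp y hd
  have h1 := fr_deriv_comp hA hd hf v
  have h2 : fderiv ℝ (fun y => adj (f y)) y v = adj (fderiv ℝ f y v) := by
    have := ((adjL k N).hasFDerivAt.comp y hd.hasFDerivAt).fderiv
    have h3 : (fun y => adj (f y)) = (adjL k N) ∘ f := rfl
    rw [h3, this]
    rfl
  rw [h2] at h1
  have h4 : fderiv ℝ (fun _ : E d => (𝟙 : E k →L[ℝ] E k)) y v = 0 := by simp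
  rw [h4] at h1
  have h5 := congrArg (fun T : E k →L[ℝ] E k => inner ℝ (T η) η') h1
  simp only [zero_apply, inner_zero_left, add_apply, inner_add_left, comp_apply] at h5
  simp only [comp_apply]
  rw [adjoint_inner_left (fderiv ℝ f y v), ← adjoint_inner_right (f y)] at h5
  rw [adjoint_inner_right, adjoint_inner_left] at *
  linarith

/-! ### Lipschitz dependence of the tangent projection on the slope -/

theorem norm_inV_le (m n : ℕ) : ‖inV m n‖ ≤ 1 :=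
  opNorm_le_bound _ zero_le_one fun z => by rw [one_mul, norm_inV]

theorem dF_sub_dF (A A' : E m →L[ℝ] E n) : dF A' - dF A = inV m n ∘L (A' - A) := by
  unfold dF
  rw [comp_sub]
  abel

theorem fr_PhA_half (A A' : E m →L[ℝ] E n) :
    ‖(𝟙 - PhA A) ∘L PhA A'‖ ≤ (1 + ‖A'‖) * ‖A - A'‖ := by
  have e : (𝟙 - PhA A) ∘L PhA A' = (𝟙 - PhA A) ∘L (inV m n ∘L (A' - A)) ∘L dFp A' := by
    rw [← dF_sub_dF, sub_comp (dF A'), comp_sub, ← comp_assoc _ (dF A), sub_comp _ _ (dF A), id_comp,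
      PhA_comp_dF, sub_self, zero_comp, sub_zero, ← PhA_eq]
  rw [e]
  have h1 : ‖inV m n ∘L (A' - A)‖ ≤ 1 * ‖A - A'‖ :=
    norm_comp_le' _ _ (norm_inV_le m n) (by rw [norm_sub_rev])
  have := norm_comp_le' _ _ (IsProj.norm_compl_le_one (isProj_PhA A))
    (norm_comp_le' _ _ h1 (norm_dFp_le A'))
  linarith

theorem fr_PhA_lip (A A' : E m →L[ℝ] E n) :
    ‖PhA A - PhA A'‖ ≤ (2 + ‖A‖ + ‖A'‖) * ‖A - A'‖ := by
  have e : PhA A - PhA A' = adj ((𝟙 - PhA A') ∘L PhA A) - (𝟙 - PhA A) ∘L PhA A' := by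
    rw [adjoint_comp, adjoint_PhA, IsProj.adjoint_compl (isProj_PhA A'), comp_sub, sub_comp, comp_id,
      id_comp]
    abel
  rw [e]
  refine (norm_sub_le _ _).trans ?_
  rw [LinearIsometryEquiv.norm_map]
  have h1 := fr_PhA_half A A'
  have h2 := fr_PhA_half A' A
  rw [norm_sub_rev A' A] at h2
  linarith

theorem Geo.norm_Ph_sub_le {κ₂ : ℝ} {u : E m → E n} (hu : Geo κ₂ u) (x y : E m) :
    ‖Ph u y - Ph u x‖ ≤ 3 * ‖fderiv ℝ u y - fderiv ℝ u x‖ := by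
  refine (fr_PhA_lip _ _).trans ?_
  have h1 := hu.slope x
  have h2 := hu.slope y
  have := norm_nonneg (fderiv ℝ u y - fderiv ℝ u x)
  nlinarith

/-- the coordinate frame in terms of the projected frame, abstract form. -/
theorem fr_Cy_facts {A A' : E m →L[ℝ] E n} {τ : E m →L[ℝ] E (m + n)} (h1 : adj τ ∘L τ = 𝟙)
    (h2 : τ ∘L adj τ = PhA A)
    (hb : ‖adj τ ∘L PhA A' ∘L τ - 𝟙‖ < Tool.sqδ m) :
    ‖adj (pfr m (PhA A') τ) ∘L dF A' ∘L (adj τ ∘L dF A).inverse - 𝟙‖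
      ≤ 4 / 3 * (‖PhA A' - PhA A‖ + ‖A' - A‖) ∧
    dF A' ∘L (adj τ ∘L dF A).inverse
      = pfr m (PhA A') τ ∘L (adj (pfr m (PhA A') τ) ∘L dF A' ∘L (adj τ ∘L dF A).inverse) ∧
    (adj (pfr m (PhA A') τ) ∘L dF A' ∘L (adj τ ∘L dF A).inverse) ∘L ((adj τ ∘L dF A) ∘L dFp A')
      = adj (pfr m (PhA A') τ) := by
  obtain ⟨-, a2, a3, a4, -, -, -⟩ := fr_A0_facts A τ h2 ‖A‖ le_rfl
  obtain ⟨s1, s2, s3, s4⟩ := psq_facts (isProj_PhA A') hb
  obtain ⟨-, i1, i2, i3⟩ := fr_near_one s3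
  obtain ⟨f1, f2, f3, f4, f5⟩ := pfr_facts (isProj_PhA A') hb
  set A0 := adj τ ∘L dF A with hA0
  set f := pfr m (PhA A') τ with hf
  set S := psq m (PhA A') τ with hS
  have hA0inv : ‖A0.inverse‖ ≤ 1 := by
    refine opNorm_le_bound _ zero_le_one fun v => ?_
    have := a4 (A0.inverse v)
    have h4 : A0 (A0.inverse v) = v := congrArg (fun L : E m →L[ℝ] E m => L v) a2
    rw [h4] at this
    linarith
  have hadjf : adj f ∘L PhA A' = adj f := by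
    have := congrArg adj f3
    rwa [adjoint_comp, adjoint_PhA] at this
  refine ⟨?_, ?_, ?_⟩
  · have e1 : adj f ∘L dF A' = S.inverse ∘L (A0 + adj τ ∘L inV m n ∘L (A' - A)) := by
      rw [f5, comp_assoc, comp_assoc, PhA_comp_dF, ← dF_sub_dF, comp_sub, hA0]
      congr 1
      abel
    have e2 : adj f ∘L dF A' ∘L A0.inverse - 𝟙 =
        S.inverse ∘L ((𝟙 - S) + (adj τ ∘L inV m n ∘L (A' - A)) ∘L A0.inverse) := by
      rw [← comp_assoc, e1]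
      generalize adj τ ∘L inV m n ∘L (A' - A) = W
      rw [comp_assoc, add_comp, a2, comp_add, comp_add, comp_sub, i2, comp_id]
      abel
    rw [e2]
    have n1 : ‖(𝟙 : E m →L[ℝ] E m) - S‖ ≤ ‖PhA A' - PhA A‖ := by
      rw [norm_sub_rev]
      refine s2.trans ?_
      rw [← h2]
      exact fr_norm_gram_sub_le h1 _
    have n2 : ‖(adj τ ∘L inV m n ∘L (A' - A)) ∘L A0.inverse‖ ≤ 1 * (1 * ‖A' - A‖) * 1 :=
      norm_comp_le' _ _ (norm_comp_le' _ _ (fr_norm_adj_iso_le h1)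
        (norm_comp_le' _ _ (norm_inV_le m n) le_rfl)) hA0inv
    have n3 := (norm_add_le ((𝟙 : E m →L[ℝ] E m) - S)
      ((adj τ ∘L inV m n ∘L (A' - A)) ∘L A0.inverse)).trans (add_le_add n1 n2)
    have := norm_comp_le' _ _ i3 n3
    linarith
  · rw [← comp_assoc, f2, ← comp_assoc, PhA_comp_dF]
  · have : (adj f ∘L dF A' ∘L A0.inverse) ∘L (A0 ∘L dFp A') =
        adj f ∘L dF A' ∘L (A0.inverse ∘L A0) ∘L dFp A' := by
      simp only [comp_assoc]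
    rw [this, a3, id_comp, ← PhA_eq, hadjf]

end Claimed.Agent.R322.Tube
end
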