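/- Packed by merge_tool.py (helper293): 7 modules of Claimed.Agent.R322 in one file, same declarations.
   Old modules, in this order: Base.Mono.ApproxW, Base.Mono.Ident, Base.Mono.Kap, Base.Mono.Ratio, Base.Mono.Layer, Base.Mono.DensPiece, Base.Mono.DensAtlas -/
import Mathlib
import Claimed.Agent.R322.Basic
import Claimed.Agent.R322.Base.Area.Approx
import Claimed.Agent.R322.Pack010

/- ===== packed: Claimed.Agent.R322.Base.Mono.ApproxW ===== -/
section
/-!
# Row 322, Base/Mono: a one dimensional approximation lemma (Mathlib only)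

Continuous `w_k → w₀ 1_{(a,b)}`, `w₀(σ) = (m/2) σ^{-m/2-1} = (m/2) / (σ (√σ)^m)`, boundedly, with convergence of the primitives.
Take `w_k = w̃₀ χ_k`, `w̃₀(σ) = w₀ (max σ a)`, `χ_k = max 0 (min 1 (k min (σ - a) (b - σ)))`.
`d/dσ ((√σ)^m)⁻¹ = - w₀(σ)` on `σ > 0`, so `∫_τ^b w₀ = ((√τ)^m)⁻¹ - ((√b)^m)⁻¹` for `a ≤ τ ≤ b`;
`0 ≤ ∫_τ^b (w̃₀ 1_{(a,b)} - w_k) ≤ 2 C / k`.
-/

set_option autoImplicit false

open scoped ENNReal ContDiff Topology NNReal
open MeasureTheory Filter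

namespace Claimed.Agent.R322

/-- the weight `w₀(σ) = (m/2) / (σ (√σ)^m)` -/
noncomputable def apwW0 (m : ℕ) (σ : ℝ) : ℝ := (m : ℝ) / 2 * (σ * Real.sqrt σ ^ m)⁻¹

/-- the primitive `((√σ)^m)⁻¹` of `- w₀` -/
noncomputable def apwG (m : ℕ) (σ : ℝ) : ℝ := (Real.sqrt σ ^ m)⁻¹

/-- the cut-off `χ_k` -/
noncomputable def apwChi (a b : ℝ) (k : ℕ) (σ : ℝ) : ℝ :=
  max 0 (min 1 ((k : ℝ) * min (σ - a) (b - σ)))

theorem apw_hasDerivAt_G (m : ℕ) {σ : ℝ} (hσ : 0 < σ) :
    HasDerivAt (apwG m) (- apwW0 m σ) σ := by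
  have hs : 0 < Real.sqrt σ := Real.sqrt_pos.2 hσ
  have h1 : HasDerivAt Real.sqrt (1 / (2 * Real.sqrt σ)) σ := Real.hasDerivAt_sqrt hσ.ne'
  have h2 := (h1.pow m).inv (pow_pos hs m).ne'
  have h3 : -((m : ℝ) * Real.sqrt σ ^ (m - 1) * (1 / (2 * Real.sqrt σ))) / (Real.sqrt σ ^ m) ^ 2 =
      - apwW0 m σ := by
    unfold apwW0
    have hσ2 : σ = Real.sqrt σ ^ 2 := (Real.sq_sqrt hσ.le).symm
    generalize Real.sqrt σ = s at hs hσ2
    subst hσ2
    cases m with
    | zero => simp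
    | succ n =>
      simp only [Nat.add_sub_cancel]
      field_simp
      ring
  have h4 : apwG m = (Real.sqrt ^ m)⁻¹ := by
    funext x
    simp [apwG]
  rw [h4, ← h3]
  exact h2

theorem apw_G_anti (m : ℕ) {x y : ℝ} (hx : 0 < x) (hxy : x ≤ y) : apwG m y ≤ apwG m x := by
  unfold apwG
  exact inv_anti₀ (pow_pos (Real.sqrt_pos.2 hx) m)
    (pow_le_pow_left₀ (Real.sqrt_nonneg _) (Real.sqrt_le_sqrt hxy) m)

theorem apw_W0_nonneg (m : ℕ) {x : ℝ} (hx : 0 ≤ x) : 0 ≤ apwW0 m x := by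
  unfold apwW0
  positivity

theorem apw_W0_anti (m : ℕ) {x y : ℝ} (hx : 0 < x) (hxy : x ≤ y) : apwW0 m y ≤ apwW0 m x := by
  unfold apwW0
  refine mul_le_mul_of_nonneg_left ?_ (by positivity)
  refine inv_anti₀ (mul_pos hx (pow_pos (Real.sqrt_pos.2 hx) m)) ?_
  exact mul_le_mul hxy (pow_le_pow_left₀ (Real.sqrt_nonneg _) (Real.sqrt_le_sqrt hxy) m)
    (by positivity) (hx.le.trans hxy)

theorem apw_continuous_Wt (m : ℕ) {a : ℝ} (ha : 0 < a) :
    Continuous fun σ : ℝ => apwW0 m (max σ a) := by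
  unfold apwW0
  refine continuous_const.mul (Continuous.inv₀ (by fun_prop) fun σ => ?_)
  have h1 : 0 < max σ a := lt_of_lt_of_le ha (le_max_right _ _)
  exact (mul_pos h1 (pow_pos (Real.sqrt_pos.2 h1) m)).ne'

theorem apw_continuous_chi (a b : ℝ) (k : ℕ) : Continuous (apwChi a b k) := by
  unfold apwChi
  fun_prop

theorem apw_chi_nonneg (a b : ℝ) (k : ℕ) (σ : ℝ) : 0 ≤ apwChi a b k σ := le_max_left _ _

theorem apw_chi_le_one (a b : ℝ) (k : ℕ) (σ : ℝ) : apwChi a b k σ ≤ 1 :=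
  max_le zero_le_one (min_le_left _ _)

theorem apw_chi_zero {a b : ℝ} (k : ℕ) {σ : ℝ} (hσ : σ ∉ Set.Ioo a b) : apwChi a b k σ = 0 := by
  unfold apwChi
  refine max_eq_left (le_trans (min_le_right _ _) ?_)
  have h1 : min (σ - a) (b - σ) ≤ 0 := by
    by_contra hno
    push Not at hno
    obtain ⟨h2, h3⟩ := lt_min_iff.1 hno
    exact hσ ⟨by linarith, by linarith⟩
  exact mul_nonpos_of_nonneg_of_nonpos (Nat.cast_nonneg k) h1

theorem apw_chi_eventually {a b σ : ℝ} (hσ : σ ∈ Set.Ioo a b) :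
    ∀ᶠ k : ℕ in atTop, apwChi a b k σ = 1 := by
  have h1 : 0 < min (σ - a) (b - σ) := lt_min (by linarith [hσ.1]) (by linarith [hσ.2])
  obtain ⟨N, hN⟩ := exists_nat_gt (1 / min (σ - a) (b - σ))
  filter_upwards [eventually_ge_atTop N] with k hk
  have h2 : (N : ℝ) ≤ k := by exact_mod_cast hk
  rw [div_lt_iff₀ h1] at hN
  have h3 : 1 ≤ (k : ℝ) * min (σ - a) (b - σ) := by nlinarith
  unfold apwChi
  rw [min_eq_left h3]
  exact max_eq_right zero_le_one

/-- the limit function -/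
noncomputable def apwF (m : ℕ) (a b : ℝ) : ℝ → ℝ :=
  (Set.Ioo a b).indicator fun σ => apwW0 m (max σ a)

theorem apw_F_intervalIntegrable (m : ℕ) {a : ℝ} (ha : 0 < a) (b x y : ℝ) :
    IntervalIntegrable (apwF m a b) volume x y := by
  have h := (apw_continuous_Wt m ha).intervalIntegrable (μ := volume) x y
  exact ⟨h.1.indicator measurableSet_Ioo, h.2.indicator measurableSet_Ioo⟩

theorem apw_integral_F_mid (m : ℕ) {a b τ : ℝ} (ha : 0 < a) (h1 : a ≤ τ) (h2 : τ ≤ b) :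
    ∫ σ in τ..b, apwF m a b σ = apwG m τ - apwG m b := by
  have h := intervalIntegral.integral_eq_sub_of_hasDerivAt_of_le (f := fun σ => - apwG m σ)
    (f' := apwF m a b) h2 (fun x hx => ?_) (fun x hx => ?_) (apw_F_intervalIntegrable m ha b τ b)
  · rw [h]; ring
  · have hx0 : 0 < x := lt_of_lt_of_le ha (h1.trans hx.1)
    exact (apw_hasDerivAt_G m hx0).neg.continuousAt.continuousWithinAt
  · have hx0 : 0 < x := lt_of_lt_of_le ha (h1.trans hx.1.le)
    have hxm : x ∈ Set.Ioo a b := ⟨lt_of_le_of_lt h1 hx.1, hx.2⟩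
    have e : apwF m a b x = - - apwW0 m x := by
      unfold apwF
      rw [Set.indicator_of_mem hxm, max_eq_left hxm.1.le, neg_neg]
    rw [e]
    exact (apw_hasDerivAt_G m hx0).neg

theorem apw_integral_F_zero (m : ℕ) {a b x y : ℝ} (h : ∀ σ ∈ Set.uIcc x y, σ ∉ Set.Ioo a b) :
    ∫ σ in x..y, apwF m a b σ = 0 := by
  have : Set.EqOn (apwF m a b) (fun _ => (0 : ℝ)) (Set.uIcc x y) := fun σ hσ =>
    Set.indicator_of_notMem (h σ hσ) _
  rw [intervalIntegral.integral_congr this]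
  simp

theorem apw_integral_F (m : ℕ) {a b : ℝ} (ha : 0 < a) (hab : a < b) (τ : ℝ) :
    ∫ σ in τ..b, apwF m a b σ = max 0 (apwG m (max τ a) - apwG m b) := by
  rcases le_total τ b with hτ | hτ
  · have h1 : a ≤ max τ a := le_max_right _ _
    have h2 : max τ a ≤ b := max_le hτ hab.le
    have h3 : 0 ≤ apwG m (max τ a) - apwG m b :=
      sub_nonneg.2 (apw_G_anti m (lt_of_lt_of_le ha h1) h2)
    rw [max_eq_right h3, ← apw_integral_F_mid m ha h1 h2]
    rcases le_total τ a with h | h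
    · rw [max_eq_right h, ← intervalIntegral.integral_add_adjacent_intervals
        (apw_F_intervalIntegrable m ha b τ a) (apw_F_intervalIntegrable m ha b a b),
        apw_integral_F_zero m, zero_add]
      intro σ hσ hσ'
      rw [Set.uIcc_of_le h] at hσ
      exact absurd hσ'.1 (not_lt.2 hσ.2)
    · rw [max_eq_left h]
  · rw [apw_integral_F_zero m]
    · have h1 : max τ a = τ := max_eq_left (hab.le.trans hτ)
      rw [h1]
      exact (max_eq_left (sub_nonpos.2 (apw_G_anti m (ha.trans hab) hτ))).symm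
    · intro σ hσ hσ'
      rw [Set.uIcc_of_ge hτ] at hσ
      exact absurd hσ'.2 (not_lt.2 hσ.1)

/-- one dimensional approximation lemma for the monotonicity identity -/
theorem exists_approx_w (m : ℕ) {a b : ℝ} (ha : 0 < a) (hab : a < b) :
    ∃ (w : ℕ → ℝ → ℝ) (C : ℝ), (∀ k, Continuous (w k)) ∧
      (∀ k σ, σ ∉ Set.Ioo a b → w k σ = 0) ∧ (∀ k σ, 0 ≤ w k σ ∧ w k σ ≤ C) ∧
      (∀ σ ∈ Set.Ioo a b,
        Tendsto (fun k => w k σ) atTop (𝓝 ((m : ℝ) / 2 * (σ * Real.sqrt σ ^ m)⁻¹))) ∧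
      (∀ τ, Tendsto (fun k => ∫ σ in τ..b, w k σ) atTop
        (𝓝 (max 0 ((Real.sqrt (max τ a) ^ m)⁻¹ - (Real.sqrt b ^ m)⁻¹)))) := by
  have hWt0 : ∀ σ, 0 ≤ apwW0 m (max σ a) := fun σ =>
    apw_W0_nonneg m (ha.le.trans (le_max_right _ _))
  have hWtC : ∀ σ, apwW0 m (max σ a) ≤ apwW0 m a := fun σ => apw_W0_anti m ha (le_max_right _ _)
  have hcont : ∀ k, Continuous fun σ => apwW0 m (max σ a) * apwChi a b k σ := fun k =>
    (apw_continuous_Wt m ha).mul (apw_continuous_chi a b k)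
  have hbd : ∀ k σ, 0 ≤ apwW0 m (max σ a) * apwChi a b k σ ∧
      apwW0 m (max σ a) * apwChi a b k σ ≤ apwW0 m a := by
    intro k σ
    refine ⟨mul_nonneg (hWt0 σ) (apw_chi_nonneg a b k σ), ?_⟩
    calc apwW0 m (max σ a) * apwChi a b k σ ≤ apwW0 m (max σ a) * 1 :=
          mul_le_mul_of_nonneg_left (apw_chi_le_one a b k σ) (hWt0 σ)
      _ ≤ apwW0 m a := by rw [mul_one]; exact hWtC σ
  have hlim : ∀ σ, Tendsto (fun k => apwW0 m (max σ a) * apwChi a b k σ) atTop
      (𝓝 (apwF m a b σ)) := by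
    intro σ
    by_cases hσ : σ ∈ Set.Ioo a b
    · refine tendsto_const_nhds.congr' ?_
      filter_upwards [apw_chi_eventually hσ] with k hk
      rw [hk, mul_one]
      exact Set.indicator_of_mem hσ _
    · refine tendsto_const_nhds.congr' ?_
      filter_upwards with k
      rw [apw_chi_zero k hσ, mul_zero]
      exact Set.indicator_of_notMem hσ _
  refine ⟨fun k σ => apwW0 m (max σ a) * apwChi a b k σ, apwW0 m a, hcont, ?_, hbd, ?_, ?_⟩
  · intro k σ hσ
    show apwW0 m (max σ a) * apwChi a b k σ = 0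
    rw [apw_chi_zero k hσ, mul_zero]
  · intro σ hσ
    have h1 := hlim σ
    have h2 : apwF m a b σ = (m : ℝ) / 2 * (σ * Real.sqrt σ ^ m)⁻¹ := by
      unfold apwF
      rw [Set.indicator_of_mem hσ, max_eq_left hσ.1.le]
      rfl
    rwa [h2] at h1
  · intro τ
    have h1 := apw_integral_F m ha hab τ
    unfold apwG at h1
    rw [← h1]
    refine intervalIntegral.tendsto_integral_filter_of_dominated_convergence (fun _ => apwW0 m a)
      ?_ ?_ (continuous_const.intervalIntegrable _ _) ?_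
    · exact Eventually.of_forall fun k => (hcont k).aestronglyMeasurable
    · refine Eventually.of_forall fun k => Eventually.of_forall fun σ _ => ?_
      rw [Real.norm_eq_abs, abs_of_nonneg (hbd k σ).1]
      exact (hbd k σ).2
    · exact Eventually.of_forall fun σ _ => hlim σ

end Claimed.Agent.R322
end

/- ===== packed: Claimed.Agent.R322.Base.Mono.Ident ===== -/
section
/-!
# Row 322, Base/Mono: the monotonicity identity

`mono_identity` : dominated convergence in `radial_w` for the sequence `w_k` of `exists_approx_w m (a := r²) (b := s²)`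
(all integrands are bounded, uniformly in `k`, and vanish outside `closedBall p s`, which has finite measure).
Left hand side: `2 w_k(τ) nsq → m nsq / |x-p|^(m+2)` on the annulus, `0` elsewhere (`√τ = |x - p|`).
Right hand side: `2 τ w_k(τ) - m ∫_τ^{s²} w_k → m [ s^{-m} 1_{|x-p| < s} - r^{-m} 1_{|x-p| ≤ r} ]`.  Divide by `m ≥ 1`.
-/

set_option autoImplicit false

open scoped ENNReal ContDiff Topology NNReal
open MeasureTheory Filter

namespace Claimed.Agent.R322

namespace SIV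

variable {m n : ℕ} (W : SIV m n)

/-- the annulus in terms of `|x - p|²` -/
theorem idt_mem_Ioo {p x : E (m + n)} {r s : ℝ} (hr : 0 ≤ r) (hs : 0 ≤ s) :
    ‖x - p‖ ^ 2 ∈ Set.Ioo (r ^ 2) (s ^ 2) ↔ r < ‖x - p‖ ∧ ‖x - p‖ < s := by
  rw [Set.mem_Ioo, pow_lt_pow_iff_left₀ hr (norm_nonneg _) two_ne_zero,
    pow_lt_pow_iff_left₀ (norm_nonneg _) hs two_ne_zero]

/-- the limit of the left hand side -/
theorem idt_left {p : E (m + n)} {r s : ℝ} (hr : 0 < r) (hrs : r < s)
    (hs : Metric.closedBall p s ⊆ W.U) {w : ℕ → ℝ → ℝ} {C : ℝ} (hwc : ∀ k, Continuous (w k))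
    (hw0 : ∀ k σ, σ ∉ Set.Ioo (r ^ 2) (s ^ 2) → w k σ = 0) (hwC : ∀ k σ, 0 ≤ w k σ ∧ w k σ ≤ C)
    (hlim : ∀ σ ∈ Set.Ioo (r ^ 2) (s ^ 2),
        Tendsto (fun k => w k σ) atTop (𝓝 ((m : ℝ) / 2 * (σ * Real.sqrt σ ^ m)⁻¹))) :
    Tendsto (fun k => ∫ x, 2 * w k (‖x - p‖ ^ 2) * W.nsq p x ∂W.μ) atTop
      (𝓝 ((m : ℝ) * ∫ x in {x | r < ‖x - p‖ ∧ ‖x - p‖ < s}, W.nsq p x / ‖x - p‖ ^ (m + 2) ∂W.μ)) := by
  have hs0 : 0 ≤ s := (hr.trans hrs).le
  have hnorm : Measurable fun x : E (m + n) => ‖x - p‖ := (measurable_id.sub_const p).norm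
  have hA : MeasurableSet {x : E (m + n) | r < ‖x - p‖ ∧ ‖x - p‖ < s} :=
    (measurableSet_lt measurable_const hnorm).inter (measurableSet_lt hnorm measurable_const)
  have hC0 : 0 ≤ C := (hwC 0 0).1.trans (hwC 0 0).2
  rw [← integral_const_mul, ← integral_indicator hA]
  refine tendsto_integral_of_dominated_convergence
    ((Metric.closedBall p s).indicator fun _ => 2 * C * s ^ 2) (fun k => ?_) ?_ (fun k => ?_) ?_
  · exact ((measurable_const.mul ((hwc k).measurable.comp (hnorm.pow_const 2))).mul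
      (W.measurable_nsq p)).aestronglyMeasurable
  · refine W.integrable_of_bdd (isCompact_closedBall p s) hs
      ((measurable_const.indicator Metric.isClosed_closedBall.measurableSet).aestronglyMeasurable)
      (C := 2 * C * s ^ 2) (fun x => ?_) (fun x hx => Set.indicator_of_notMem hx _)
    have h0 : 0 ≤ 2 * C * s ^ 2 := by positivity
    by_cases hx : x ∈ Metric.closedBall p s
    · rw [Set.indicator_of_mem hx, abs_of_nonneg h0]
    · rw [Set.indicator_of_notMem hx, abs_zero]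
      exact h0
  · refine ae_of_all _ fun x => ?_
    by_cases hx : x ∈ Metric.closedBall p s
    · rw [Set.indicator_of_mem hx, Real.norm_eq_abs,
        abs_of_nonneg (mul_nonneg (mul_nonneg zero_le_two (hwC k _).1) (W.nsq_nonneg p x))]
      have h1 : ‖x - p‖ ≤ s := by
        rwa [Metric.mem_closedBall, dist_eq_norm] at hx
      have h2 : W.nsq p x ≤ s ^ 2 :=
        (W.nsq_le p x).trans (pow_le_pow_left₀ (norm_nonneg _) h1 2)
      exact mul_le_mul (mul_le_mul_of_nonneg_left (hwC k _).2 zero_le_two) h2 (W.nsq_nonneg p x)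
        (by positivity)
    · rw [Set.indicator_of_notMem hx, hw0 k _ fun h => absurd h.2 (not_lt.2 (rad_sq_lt hs0 hx).le)]
      simp
  · refine ae_of_all _ fun x => ?_
    by_cases hx : r < ‖x - p‖ ∧ ‖x - p‖ < s
    · have hx' := (idt_mem_Ioo hr.le hs0).2 hx
      rw [Set.indicator_of_mem (show x ∈ {x : E (m + n) | r < ‖x - p‖ ∧ ‖x - p‖ < s} from hx)]
      have h1 := ((hlim _ hx').const_mul 2).mul_const (W.nsq p x)
      have h2 : 2 * ((m : ℝ) / 2 * (‖x - p‖ ^ 2 * Real.sqrt (‖x - p‖ ^ 2) ^ m)⁻¹) * W.nsq p x =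
          (m : ℝ) * (W.nsq p x / ‖x - p‖ ^ (m + 2)) := by
        rw [Real.sqrt_sq (norm_nonneg _), ← pow_add, add_comm 2 m, div_eq_mul_inv]
        ring
      rwa [h2] at h1
    · rw [Set.indicator_of_notMem (show x ∉ {x : E (m + n) | r < ‖x - p‖ ∧ ‖x - p‖ < s} from hx)]
      have hx' : ‖x - p‖ ^ 2 ∉ Set.Ioo (r ^ 2) (s ^ 2) := fun h => hx ((idt_mem_Ioo hr.le hs0).1 h)
      refine tendsto_const_nhds.congr fun k => ?_
      rw [hw0 k _ hx']
      simp

/-- the primitive `τ ↦ ∫_τ^b w` is continuous -/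
theorem idt_continuous_prim {w : ℝ → ℝ} (hw : Continuous w) (b : ℝ) :
    Continuous fun τ => ∫ σ in τ..b, w σ :=
  continuous_iff_continuousAt.2 fun _ =>
    (intervalIntegral.integral_hasDerivAt_left (hw.intervalIntegrable _ _)
      (hw.stronglyMeasurableAtFilter _ _) hw.continuousAt).continuousAt

/-- the limit of the right hand side -/
theorem idt_right {p : E (m + n)} {r s : ℝ} (hr : 0 < r) (hrs : r < s)
    (hs : Metric.closedBall p s ⊆ W.U) {w : ℕ → ℝ → ℝ} {C : ℝ} (hwc : ∀ k, Continuous (w k))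
    (hw0 : ∀ k σ, σ ∉ Set.Ioo (r ^ 2) (s ^ 2) → w k σ = 0) (hwC : ∀ k σ, 0 ≤ w k σ ∧ w k σ ≤ C)
    (hlim : ∀ σ ∈ Set.Ioo (r ^ 2) (s ^ 2),
        Tendsto (fun k => w k σ) atTop (𝓝 ((m : ℝ) / 2 * (σ * Real.sqrt σ ^ m)⁻¹)))
    (hint : ∀ τ, Tendsto (fun k => ∫ σ in τ..(s ^ 2), w k σ) atTop
        (𝓝 (max 0 ((Real.sqrt (max τ (r ^ 2)) ^ m)⁻¹ - (Real.sqrt (s ^ 2) ^ m)⁻¹)))) :
    Tendsto (fun k => ∫ x, (2 * ‖x - p‖ ^ 2 * w k (‖x - p‖ ^ 2)
          - m * ∫ σ in (‖x - p‖ ^ 2)..(s ^ 2), w k σ) ∂W.μ) atTop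
      (𝓝 ((m : ℝ) * ((s ^ m)⁻¹ * (W.μ (Metric.ball p s)).toReal
        - (r ^ m)⁻¹ * (W.μ (Metric.closedBall p r)).toReal))) := by
  have hs0 : 0 < s := hr.trans hrs
  have hnorm : Measurable fun x : E (m + n) => ‖x - p‖ := (measurable_id.sub_const p).norm
  have hC0 : 0 ≤ C := (hwC 0 0).1.trans (hwC 0 0).2
  have hB : MeasurableSet (Metric.ball p s) := Metric.isOpen_ball.measurableSet
  have hB' : MeasurableSet (Metric.closedBall p r) := Metric.isClosed_closedBall.measurableSet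
  have hind : ∀ S : Set (E (m + n)), MeasurableSet S → S ⊆ Metric.closedBall p s →
      Integrable (S.indicator fun _ => (1 : ℝ)) W.μ := by
    intro S hS hSs
    refine W.integrable_of_bdd (isCompact_closedBall p s) hs
      ((measurable_const.indicator hS).aestronglyMeasurable) (C := 1) (fun x => ?_)
      (fun x hx => Set.indicator_of_notMem (fun h => hx (hSs h)) _)
    by_cases hx : x ∈ S
    · rw [Set.indicator_of_mem hx, abs_one]
    · rw [Set.indicator_of_notMem hx, abs_zero]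
      exact zero_le_one
  have i1 := hind _ hB Metric.ball_subset_closedBall
  have i2 := hind _ hB' (Metric.closedBall_subset_closedBall hrs.le)
  have e0 : (m : ℝ) * ((s ^ m)⁻¹ * (W.μ (Metric.ball p s)).toReal
        - (r ^ m)⁻¹ * (W.μ (Metric.closedBall p r)).toReal) =
      ∫ x, (m : ℝ) * ((s ^ m)⁻¹ * (Metric.ball p s).indicator (fun _ => (1 : ℝ)) x
        - (r ^ m)⁻¹ * (Metric.closedBall p r).indicator (fun _ => (1 : ℝ)) x) ∂W.μ := by
    rw [integral_const_mul, integral_sub (i1.const_mul _) (i2.const_mul _), integral_const_mul,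
      integral_const_mul, integral_indicator hB, integral_indicator hB']
    simp [Measure.real]
  rw [e0]
  have hzero : ∀ k x, x ∉ Metric.closedBall p s → 2 * ‖x - p‖ ^ 2 * w k (‖x - p‖ ^ 2)
          - m * ∫ σ in (‖x - p‖ ^ 2)..(s ^ 2), w k σ = 0 := by
    intro k x hx
    have h1 := rad_sq_lt hs0.le hx
    have h2 : ∀ σ ∈ Set.uIcc (‖x - p‖ ^ 2) (s ^ 2), w k σ = (fun _ => (0 : ℝ)) σ := by
      intro σ hσ
      rw [Set.uIcc_of_ge h1.le] at hσ
      exact hw0 k σ fun h => absurd h.2 (not_lt.2 hσ.1)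
    rw [hw0 k _ fun h => absurd h.2 (not_lt.2 h1.le), intervalIntegral.integral_congr h2]
    simp
  refine tendsto_integral_of_dominated_convergence
    ((Metric.closedBall p s).indicator fun _ => 2 * s ^ 2 * C + m * (C * s ^ 2))
    (fun k => ?_) ?_ (fun k => ?_) ?_
  · refine Continuous.aestronglyMeasurable ?_
    exact ((continuous_const.mul (rad_continuous_sq p)).mul
      ((hwc k).comp (rad_continuous_sq p))).sub
      (continuous_const.mul ((idt_continuous_prim (hwc k) _).comp (rad_continuous_sq p)))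
  · refine W.integrable_of_bdd (isCompact_closedBall p s) hs
      ((measurable_const.indicator Metric.isClosed_closedBall.measurableSet).aestronglyMeasurable)
      (C := 2 * s ^ 2 * C + m * (C * s ^ 2)) (fun x => ?_) (fun x hx => Set.indicator_of_notMem hx _)
    have h0 : 0 ≤ 2 * s ^ 2 * C + m * (C * s ^ 2) := by positivity
    by_cases hx : x ∈ Metric.closedBall p s
    · rw [Set.indicator_of_mem hx, abs_of_nonneg h0]
    · rw [Set.indicator_of_notMem hx, abs_zero]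
      exact h0
  · refine ae_of_all _ fun x => ?_
    by_cases hx : x ∈ Metric.closedBall p s
    · rw [Set.indicator_of_mem hx, Real.norm_eq_abs]
      have h1 : ‖x - p‖ ≤ s := by
        rwa [Metric.mem_closedBall, dist_eq_norm] at hx
      have h2 : ‖x - p‖ ^ 2 ≤ s ^ 2 := pow_le_pow_left₀ (norm_nonneg _) h1 2
      have h3 : 0 ≤ ‖x - p‖ ^ 2 := sq_nonneg _
      have h4 : |∫ σ in (‖x - p‖ ^ 2)..(s ^ 2), w k σ| ≤ C * s ^ 2 := by
        have := intervalIntegral.norm_integral_le_of_norm_le_const (a := ‖x - p‖ ^ 2) (b := s ^ 2)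
          (f := w k) (C := C) fun σ _ => by
            rw [Real.norm_eq_abs, abs_of_nonneg (hwC k σ).1]
            exact (hwC k σ).2
        rw [Real.norm_eq_abs] at this
        refine this.trans (mul_le_mul_of_nonneg_left ?_ hC0)
        rw [abs_of_nonneg (by linarith)]
        linarith
      have h5 : |2 * ‖x - p‖ ^ 2 * w k (‖x - p‖ ^ 2)| ≤ 2 * s ^ 2 * C := by
        rw [abs_of_nonneg (mul_nonneg (by positivity) (hwC k _).1)]
        exact mul_le_mul (by linarith) (hwC k _).2 (hwC k _).1 (by positivity)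
      refine (abs_sub _ _).trans (add_le_add h5 ?_)
      rw [abs_mul, abs_of_nonneg (Nat.cast_nonneg m)]
      exact mul_le_mul_of_nonneg_left h4 (Nat.cast_nonneg m)
    · rw [Set.indicator_of_notMem hx, hzero k x hx, norm_zero]
  · refine ae_of_all _ fun x => ?_
    have hI := hint (‖x - p‖ ^ 2)
    rw [Real.sqrt_sq hs0.le] at hI
    have hanti : ∀ {a b : ℝ}, 0 < a → a ≤ b → (b ^ m)⁻¹ ≤ (a ^ m)⁻¹ := fun {a b} ha hab =>
      inv_anti₀ (pow_pos ha m) (pow_le_pow_left₀ ha.le hab m)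
    rcases le_or_gt ‖x - p‖ r with h1 | h1
    · -- inside the small ball
      have hx1 : x ∈ Metric.ball p s := by
        rw [Metric.mem_ball, dist_eq_norm]; exact lt_of_le_of_lt h1 hrs
      have hx2 : x ∈ Metric.closedBall p r := by
        rw [Metric.mem_closedBall, dist_eq_norm]; exact h1
      have hx3 : ‖x - p‖ ^ 2 ∉ Set.Ioo (r ^ 2) (s ^ 2) := fun h =>
        absurd ((idt_mem_Ioo hr.le hs0.le).1 h).1 (not_lt.2 h1)
      rw [Set.indicator_of_mem hx1, Set.indicator_of_mem hx2]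
      rw [max_eq_right (pow_le_pow_left₀ (norm_nonneg _) h1 2), Real.sqrt_sq hr.le,
        max_eq_right (sub_nonneg.2 (hanti hr hrs.le))] at hI
      have h2 := (hI.const_mul (m : ℝ)).const_sub 0
      have e : (m : ℝ) * ((s ^ m)⁻¹ * 1 - (r ^ m)⁻¹ * 1) = 0 - m * ((r ^ m)⁻¹ - (s ^ m)⁻¹) := by ring
      rw [e]
      refine h2.congr fun k => ?_
      rw [hw0 k _ hx3, mul_zero]
    · have hx2 : x ∉ Metric.closedBall p r := by
        rw [Metric.mem_closedBall, dist_eq_norm]; exact not_le.2 h1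
      have ht0 : 0 < ‖x - p‖ := hr.trans h1
      rw [Set.indicator_of_notMem hx2]
      rw [max_eq_left (pow_le_pow_left₀ hr.le h1.le 2), Real.sqrt_sq ht0.le] at hI
      rcases lt_or_ge ‖x - p‖ s with h3 | h3
      · -- in the annulus
        have hx1 : x ∈ Metric.ball p s := by
          rw [Metric.mem_ball, dist_eq_norm]; exact h3
        have hx3 := (idt_mem_Ioo (x := x) (p := p) hr.le hs0.le).2 ⟨h1, h3⟩
        rw [Set.indicator_of_mem hx1]
        rw [max_eq_right (sub_nonneg.2 (hanti ht0 h3.le))] at hI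
        have hL := hlim _ hx3
        rw [Real.sqrt_sq ht0.le] at hL
        have h2 := (hL.const_mul (2 * ‖x - p‖ ^ 2)).sub (hI.const_mul (m : ℝ))
        have e : (m : ℝ) * ((s ^ m)⁻¹ * 1 - (r ^ m)⁻¹ * 0) =
            2 * ‖x - p‖ ^ 2 * ((m : ℝ) / 2 * (‖x - p‖ ^ 2 * ‖x - p‖ ^ m)⁻¹) -
              m * ((‖x - p‖ ^ m)⁻¹ - (s ^ m)⁻¹) := by
          have ht : ‖x - p‖ ≠ 0 := ht0.ne'
          field_simp
          ring
        rw [e]
        exact h2
      · -- outside the large ball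
        have hx1 : x ∉ Metric.ball p s := by
          rw [Metric.mem_ball, dist_eq_norm]; exact not_lt.2 h3
        have hx3 : ‖x - p‖ ^ 2 ∉ Set.Ioo (r ^ 2) (s ^ 2) := fun h =>
          absurd ((idt_mem_Ioo hr.le hs0.le).1 h).2 (not_lt.2 h3)
        rw [Set.indicator_of_notMem hx1]
        rw [max_eq_left (sub_nonpos.2 (hanti hs0 h3))] at hI
        have h2 := (hI.const_mul (m : ℝ)).const_sub 0
        have e : (m : ℝ) * ((s ^ m)⁻¹ * 0 - (r ^ m)⁻¹ * 0) = 0 - m * 0 := by ring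
        rw [e]
        refine h2.congr fun k => ?_
        rw [hw0 k _ hx3, mul_zero]

/-- **The monotonicity identity.** -/
theorem mono_identity (hm : 1 ≤ m) {p : E (m + n)} {r s : ℝ} (hr : 0 < r) (hrs : r < s)
    (hs : Metric.closedBall p s ⊆ W.U) :
    (s ^ m)⁻¹ * (W.μ (Metric.ball p s)).toReal - (r ^ m)⁻¹ * (W.μ (Metric.closedBall p r)).toReal
      = ∫ x in {x | r < ‖x - p‖ ∧ ‖x - p‖ < s}, W.nsq p x / ‖x - p‖ ^ (m + 2) ∂W.μ := by
  obtain ⟨w, C, hwc, hw0, hwC, hlim, hint⟩ := exists_approx_w m (a := r ^ 2) (b := s ^ 2)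
    (by positivity) (pow_lt_pow_left₀ hrs hr.le two_ne_zero)
  have h1 := W.idt_left hr hrs hs hwc hw0 hwC hlim
  have h2 := W.idt_right hr hrs hs hwc hw0 hwC hlim hint
  have h3 : ∀ k, ∫ x, 2 * w k (‖x - p‖ ^ 2) * W.nsq p x ∂W.μ
      = ∫ x, (2 * ‖x - p‖ ^ 2 * w k (‖x - p‖ ^ 2)
          - m * ∫ σ in (‖x - p‖ ^ 2)..(s ^ 2), w k σ) ∂W.μ := fun k =>
    W.radial_w hr.le hrs.le hs (hwc k) (hw0 k)
  have h4 := tendsto_nhds_unique (h1.congr h3) h2
  have hm0 : (m : ℝ) ≠ 0 := by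
    have : 0 < m := hm
    positivity
  exact (mul_left_cancel₀ hm0 h4).symm

end SIV

end Claimed.Agent.R322
end

/- ===== packed: Claimed.Agent.R322.Base.Mono.Kap ===== -/
section
/-!
# Row 322, Base/Mono: the constant `kap m`, Hausdorff measure of balls of `E m`, cut-off extension

HINTS.  `isAddHaar_hausdorff`: Mathlib instance `MeasureTheory.isAddHaarMeasure_hausdorffMeasure` for
`μH[finrank ℝ (E m)]` and `finrank_euclideanSpace_fin`.  Balls: `Measure.addHaar_ball`, `Measure.addHaar_closedBall`.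
`exists_contDiff_eqOn`: `exists_contDiff_tsupport_subset` / `exists_smooth_one_nhds_of_subset_interior`-type bump `χ`
(`χ = 1` near `K`, `tsupport χ ⊆ O`), `v = χ u`, `contDiff_of_contDiffOn_union_of_isOpen` with `O` and `(tsupport χ)ᶜ`.
-/

set_option autoImplicit false

open scoped ENNReal ContDiff Topology NNReal Manifold
open MeasureTheory Filter

namespace Claimed.Agent.R322

/-! ### the constant `kap` -/

theorem isAddHaar_hausdorff (m : ℕ) : (μH[(m : ℝ)] : Measure (E m)).IsAddHaarMeasure := by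
  infer_instance

theorem kap_pos (m : ℕ) : 0 < kap m := by
  unfold kap
  rw [ENNReal.toReal_pos_iff]
  exact ⟨Metric.measure_ball_pos _ _ one_pos, measure_ball_lt_top⟩

theorem hausdorff_ball (m : ℕ) (x : E m) {r : ℝ} (hr : 0 < r) :
    (μH[(m : ℝ)] : Measure (E m)) (Metric.ball x r) = ENNReal.ofReal (kap m * r ^ m) := by
  rw [Measure.addHaar_ball_of_pos _ x hr, finrank_euclideanSpace_fin, mul_comm (kap m),
    ENNReal.ofReal_mul (pow_nonneg hr.le _)]
  congr 1
  unfold kap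
  rw [ENNReal.ofReal_toReal measure_ball_lt_top.ne]

theorem hausdorff_closedBall (m : ℕ) (x : E m) {r : ℝ} (hr : 0 < r) :
    (μH[(m : ℝ)] : Measure (E m)) (Metric.closedBall x r) = ENNReal.ofReal (kap m * r ^ m) := by
  rw [Measure.addHaar_closedBall _ x hr.le, finrank_euclideanSpace_fin, mul_comm (kap m),
    ENNReal.ofReal_mul (pow_nonneg hr.le _)]
  congr 1
  unfold kap
  rw [ENNReal.ofReal_toReal measure_ball_lt_top.ne]

/-! ### cut-off extension -/

/-- a function which is `C^k` on an open neighbourhood of a compact set coincides near the compact set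
with a globally `C^k` function -/
theorem exists_contDiff_eqOn {N : ℕ} {k : ℕ∞} {O K : Set (E N)} (hO : IsOpen O) (hK : IsCompact K)
    (hKO : K ⊆ O) {u : E N → ℝ} (hu : ContDiffOn ℝ k u O) :
    ∃ (v : E N → ℝ) (O' : Set (E N)), ContDiff ℝ k v ∧ IsOpen O' ∧ K ⊆ O' ∧ O' ⊆ O ∧
      Set.EqOn v u O' := by
  obtain ⟨L, hL, hKL, hLO⟩ := exists_compact_between hK hO hKO
  obtain ⟨χ, h1, h0, -⟩ := exists_contMDiffMap_one_nhds_of_subset_interior (n := k)
    𝓘(ℝ, E N) hK.isClosed hKL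
  have hχ : ContDiff ℝ k χ := χ.contMDiff.contDiff
  refine ⟨fun x => χ x * u x, interior {x | χ x = 1} ∩ O, ?_, isOpen_interior.inter hO, ?_,
    Set.inter_subset_right, ?_⟩
  · rw [contDiff_iff_contDiffAt]
    intro x
    by_cases hx : x ∈ O
    · exact (hχ.contDiffOn.mul hu).contDiffAt (hO.mem_nhds hx)
    · have hxL : x ∈ Lᶜ := fun h => hx (hLO h)
      have : (fun x => χ x * u x) =ᶠ[𝓝 x] fun _ => 0 := by
        filter_upwards [hL.isClosed.isOpen_compl.mem_nhds hxL] with y hy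
        rw [h0 y hy, zero_mul]
      exact contDiffAt_const.congr_of_eventuallyEq this
  · exact Set.subset_inter (subset_interior_iff_mem_nhdsSet.2 h1) hKO
  · intro x hx
    have : x ∈ {x | χ x = 1} := interior_subset hx.1
    have : χ x = 1 := this
    simp only [this, one_mul]

end Claimed.Agent.R322
end

/- ===== packed: Claimed.Agent.R322.Base.Mono.Ratio ===== -/
section
/-!
# Row 322, Base/Mono: mass ratios and density

* `ratio_mono` : `mono_identity` (right hand side `≥ 0`, `μ (ball p r) ≤ μ (closedBall p r)`).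
* `tendsto_ratio` : a monotone function bounded below has a limit at `0+` (`tendsto_nhdsGT`-type lemma for monotone functions,
  or `Monotone.tendsto_nhdsGT`/`MonotoneOn.tendsto_nhdsGT`); then `Tendsto.limsup_eq`.
* `Θ_usc` : `Θ q ≤ ratio q r ≤ (1 + δ/r)^m ratio p (r + δ)`, `ratio p (r+δ) ≤ ratio p r₁`, `ratio p r₁ → Θ p`.
-/

set_option autoImplicit false

open scoped ENNReal ContDiff Topology NNReal
open MeasureTheory Filter

namespace Claimed.Agent.R322

namespace SIV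

variable {m n : ℕ} (W : SIV m n)

theorem ratio_nonneg (p : E (m + n)) {r : ℝ} (hr : 0 ≤ r) : 0 ≤ W.ratio p r := by
  unfold ratio
  have := kap_pos m
  positivity

theorem rat_closedBall_lt_top {p : E (m + n)} {r : ℝ} (hs : Metric.closedBall p r ⊆ W.U) :
    W.μ (Metric.closedBall p r) < ⊤ := W.μ_compact_lt_top (isCompact_closedBall p r) hs

theorem rat_ball_lt_top {p : E (m + n)} {r : ℝ} (hs : Metric.closedBall p r ⊆ W.U) :
    W.μ (Metric.ball p r) < ⊤ :=
  lt_of_le_of_lt (measure_mono Metric.ball_subset_closedBall) (W.rat_closedBall_lt_top hs)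

/-- small closed balls around a point of the domain lie in the domain -/
theorem rat_exists_closedBall {p : E (m + n)} (hp : p ∈ W.U) :
    ∃ R : ℝ, 0 < R ∧ Metric.closedBall p R ⊆ W.U :=
  (Metric.nhds_basis_closedBall.mem_iff).1 (W.isOpen_U.mem_nhds hp)

/-- `μ (ball p r) = ratio * kap * r^m` -/
theorem μ_ball_eq {p : E (m + n)} {r : ℝ} (hr : 0 < r) (hs : Metric.closedBall p r ⊆ W.U) :
    W.μ (Metric.ball p r) = ENNReal.ofReal (W.ratio p r * (kap m * r ^ m)) := by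
  have h1 : kap m * r ^ m ≠ 0 := (mul_pos (kap_pos m) (pow_pos hr m)).ne'
  unfold ratio
  rw [div_mul_cancel₀ _ h1, ENNReal.ofReal_toReal (W.rat_ball_lt_top hs).ne]

/-- **Monotonicity of the mass ratio.** -/
theorem ratio_mono (hm : 1 ≤ m) {p : E (m + n)} {r s : ℝ} (hr : 0 < r) (hrs : r ≤ s)
    (hs : Metric.closedBall p s ⊆ W.U) : W.ratio p r ≤ W.ratio p s := by
  rcases hrs.eq_or_lt with rfl | hrs
  · exact le_rfl
  have h1 := W.mono_identity hm hr hrs hs
  have h2 : 0 ≤ ∫ x in {x | r < ‖x - p‖ ∧ ‖x - p‖ < s}, W.nsq p x / ‖x - p‖ ^ (m + 2) ∂W.μ :=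
    integral_nonneg fun x => div_nonneg (W.nsq_nonneg p x) (pow_nonneg (norm_nonneg _) _)
  have h3 : (W.μ (Metric.ball p r)).toReal ≤ (W.μ (Metric.closedBall p r)).toReal :=
    ENNReal.toReal_mono
      (W.rat_closedBall_lt_top ((Metric.closedBall_subset_closedBall hrs.le).trans hs)).ne
      (measure_mono Metric.ball_subset_closedBall)
  have hk := kap_pos m
  have hrm : 0 < r ^ m := pow_pos hr m
  have hsm : 0 < s ^ m := pow_pos (hr.trans hrs) m
  have h4 : (r ^ m)⁻¹ * (W.μ (Metric.ball p r)).toReal ≤ (s ^ m)⁻¹ * (W.μ (Metric.ball p s)).toReal := by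
    have := mul_le_mul_of_nonneg_left h3 (inv_pos.2 hrm).le
    linarith
  unfold ratio
  have e : ∀ (a t : ℝ), a / (kap m * t) = (kap m)⁻¹ * (t⁻¹ * a) := by
    intro a t
    rw [div_eq_mul_inv, mul_inv]
    ring
  rw [e, e]
  exact mul_le_mul_of_nonneg_left h4 (inv_pos.2 hk).le

/-- the density is the limit of the mass ratios -/
theorem tendsto_ratio (hm : 1 ≤ m) {p : E (m + n)} (hp : p ∈ W.U) :
    Tendsto (W.ratio p) (𝓝[>] 0) (𝓝 (W.Θ p)) := by
  obtain ⟨R, hR, hRU⟩ := W.rat_exists_closedBall hp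
  have h1 : Tendsto (W.ratio p) (𝓝[>] 0) (𝓝 (sInf (W.ratio p '' Set.Ioo 0 R))) := by
    refine MonotoneOn.tendsto_nhdsWithin_Ioo_right (Set.nonempty_Ioo.2 hR) ?_ ?_
    · intro a ha b hb hab
      exact W.ratio_mono hm ha.1 hab ((Metric.closedBall_subset_closedBall hb.2.le).trans hRU)
    · refine ⟨0, ?_⟩
      rintro _ ⟨a, ha, rfl⟩
      exact W.ratio_nonneg p ha.1.le
  have h2 : W.Θ p = sInf (W.ratio p '' Set.Ioo 0 R) := h1.limsup_eq
  rw [h2]
  exact h1

theorem Θ_le_ratio (hm : 1 ≤ m) {p : E (m + n)} {r : ℝ} (hr : 0 < r)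
    (hs : Metric.closedBall p r ⊆ W.U) : W.Θ p ≤ W.ratio p r := by
  have hp : p ∈ W.U := hs (Metric.mem_closedBall_self hr.le)
  refine le_of_tendsto (W.tendsto_ratio hm hp) ?_
  filter_upwards [Ioo_mem_nhdsGT hr] with t ht
  exact W.ratio_mono hm ht.1 ht.2.le hs

theorem Θ_nonneg (hm : 1 ≤ m) {p : E (m + n)} (hp : p ∈ W.U) : 0 ≤ W.Θ p := by
  refine ge_of_tendsto (W.tendsto_ratio hm hp) ?_
  filter_upwards [self_mem_nhdsWithin] with t ht
  exact W.ratio_nonneg p (le_of_lt ht)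

/-- upper mass bound -/
theorem upper_mass (hm : 1 ≤ m) {p : E (m + n)} {r R : ℝ} (hr : 0 < r) (hrR : r ≤ R)
    (hR : Metric.closedBall p R ⊆ W.U) :
    W.μ (Metric.ball p r) ≤ ENNReal.ofReal (W.ratio p R * (kap m * r ^ m)) := by
  rw [W.μ_ball_eq hr ((Metric.closedBall_subset_closedBall hrR).trans hR)]
  refine ENNReal.ofReal_le_ofReal (mul_le_mul_of_nonneg_right (W.ratio_mono hm hr hrR hR) ?_)
  have := kap_pos m
  positivity

/-- change of the centre -/
theorem ratio_le_of_dist {p q : E (m + n)} {r δ : ℝ} (hr : 0 < r) (hδ : dist q p ≤ δ)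
    (hs : Metric.closedBall p (r + δ) ⊆ W.U) :
    W.ratio q r ≤ (1 + δ / r) ^ m * W.ratio p (r + δ) := by
  have hδ0 : 0 ≤ δ := dist_nonneg.trans hδ
  have hsub : Metric.ball q r ⊆ Metric.ball p (r + δ) :=
    Metric.ball_subset_ball' (by linarith)
  have h1 : (W.μ (Metric.ball q r)).toReal ≤ (W.μ (Metric.ball p (r + δ))).toReal :=
    ENNReal.toReal_mono (W.rat_ball_lt_top hs).ne (measure_mono hsub)
  have hk := kap_pos m
  have hrm : 0 < r ^ m := pow_pos hr m
  have hrd : 0 < r + δ := by linarith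
  have hrdm : 0 < (r + δ) ^ m := pow_pos hrd m
  unfold ratio
  have e : (1 + δ / r) ^ m * ((W.μ (Metric.ball p (r + δ))).toReal / (kap m * (r + δ) ^ m)) =
      (W.μ (Metric.ball p (r + δ))).toReal / (kap m * r ^ m) := by
    have : 1 + δ / r = (r + δ) / r := by field_simp
    rw [this, div_pow]
    field_simp
  rw [e]
  exact div_le_div_of_nonneg_right h1 (mul_pos hk hrm).le

theorem Θ_eq_zero {p : E (m + n)} (hp : p ∈ W.U) (hp' : p ∉ W.support) : W.Θ p = 0 := by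
  have h1 : ∃ r : ℝ, 0 < r ∧ W.μ (Metric.ball p r) = 0 := by
    by_contra hno
    push Not at hno
    exact hp' ⟨hp, fun r hr => pos_iff_ne_zero.2 (hno r hr)⟩
  obtain ⟨r, hr, h0⟩ := h1
  have h2 : Tendsto (W.ratio p) (𝓝[>] 0) (𝓝 0) := by
    refine tendsto_const_nhds.congr' ?_
    filter_upwards [Ioo_mem_nhdsGT hr] with t ht
    have : W.μ (Metric.ball p t) = 0 :=
      measure_mono_null (Metric.ball_subset_ball ht.2.le) h0
    unfold ratio
    rw [this]
    simp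
  exact h2.limsup_eq

/-- the density is upper semicontinuous -/
theorem Θ_usc (hm : 1 ≤ m) : UpperSemicontinuousOn W.Θ W.U := by
  intro p hp y hy
  -- a good radius
  obtain ⟨R, hR, hRU⟩ := W.rat_exists_closedBall hp
  have h1 : ∀ᶠ t in 𝓝[>] (0 : ℝ), W.ratio p t < y := (W.tendsto_ratio hm hp).eventually_lt_const hy
  obtain ⟨r₁, hr₁y, hr₁⟩ := (h1.and (Ioo_mem_nhdsGT hR)).exists
  have hr₁U : Metric.closedBall p r₁ ⊆ W.U := (Metric.closedBall_subset_closedBall hr₁.2.le).trans hRU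
  -- a small displacement
  have h2 : ContinuousAt (fun δ : ℝ => (1 + δ / (r₁ - δ)) ^ m * W.ratio p r₁) 0 := by
    have : r₁ - 0 ≠ 0 := by simpa using hr₁.1.ne'
    fun_prop (disch := assumption)
  have h3 : ∀ᶠ δ in 𝓝 (0 : ℝ), (1 + δ / (r₁ - δ)) ^ m * W.ratio p r₁ < y := by
    refine h2.tendsto.eventually_lt_const ?_
    simpa using hr₁y
  obtain ⟨δ, hδy, hδ⟩ := ((h3.filter_mono nhdsWithin_le_nhds).and (Ioo_mem_nhdsGT hr₁.1)).exists
  have hr : 0 < r₁ - δ := by linarith [hδ.2]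
  filter_upwards [mem_nhdsWithin_of_mem_nhds (Metric.ball_mem_nhds p hδ.1)] with q hq
  have hqp : dist q p ≤ δ := (Metric.mem_ball.1 hq).le
  have e : r₁ - δ + δ = r₁ := by ring
  have hqU : Metric.closedBall q (r₁ - δ) ⊆ W.U := by
    refine (Metric.closedBall_subset_closedBall' ?_).trans hr₁U
    linarith
  calc W.Θ q ≤ W.ratio q (r₁ - δ) := W.Θ_le_ratio hm hr hqU
    _ ≤ (1 + δ / (r₁ - δ)) ^ m * W.ratio p (r₁ - δ + δ) :=
        W.ratio_le_of_dist hr hqp (by rw [e]; exact hr₁U)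
    _ = (1 + δ / (r₁ - δ)) ^ m * W.ratio p r₁ := by rw [e]
    _ < y := hδy

end SIV

end Claimed.Agent.R322
end

/- ===== packed: Claimed.Agent.R322.Base.Mono.Layer ===== -/
section
/-!
# Row 322, Base/Mono: layer cake formula for radial kernels, kernel densities

* `layer_cake_ker` : `h(a) = ∫_0^1 (-h'(σ)) 1_{a < σ} dσ` for `a ≥ 0` and Tonelli
  (or `MeasureTheory.lintegral_comp_eq_lintegral_meas_lt_mul`).
* `kerC_eq` : `layer_cake_ker` for `μH[m]` on `E m` and `hausdorff_ball`.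
* `tendsto_kint` : `kint_one_eq`, `ratio p (ρ√σ) → Θ p`, dominated by `ratio p ρ₀`; the weight `u` is continuous:
  `|u - u p| ≤ ε` on `B_ρ`, and `kint 1 h p ρ` is bounded.
-/

set_option autoImplicit false

open scoped ENNReal ContDiff Topology NNReal
open MeasureTheory Filter

namespace Claimed.Agent.R322

/-- `h(a) = ∫_{(a,1]} (-h')` -/
theorem lay_ker_eq_setIntegral {h : ℝ → ℝ} (hh : IsKer h) (a : ℝ) :
    ∫ σ in Set.Ioc a 1, (- deriv h σ) = h a := by
  rcases le_or_gt 1 a with h1 | h1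
  · rw [hh.zero a h1, Set.Ioc_eq_empty (not_lt.2 h1)]
    simp
  · rw [← intervalIntegral.integral_of_le h1.le, intervalIntegral.integral_neg,
      intervalIntegral.integral_deriv_eq_sub' h rfl
        (fun x _ => hh.smooth.differentiable (by norm_num) x)
        (hh.smooth.continuous_deriv le_rfl).continuousOn, hh.zero 1 le_rfl]
    ring

theorem lay_lt_iff_mem_ball {N : ℕ} {p x : E N} {ρ σ : ℝ} (hρ : 0 < ρ) (hσ : 0 < σ) :
    ‖x - p‖ ^ 2 / ρ ^ 2 < σ ↔ x ∈ Metric.ball p (ρ * Real.sqrt σ) := by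
  rw [Metric.mem_ball, dist_eq_norm, div_lt_iff₀ (by positivity)]
  have hs : 0 < Real.sqrt σ := Real.sqrt_pos.2 hσ
  have e : σ * ρ ^ 2 = (ρ * Real.sqrt σ) ^ 2 := by
    rw [mul_pow, Real.sq_sqrt hσ.le]
    ring
  rw [e]
  exact pow_lt_pow_iff_left₀ (norm_nonneg _) (by positivity) (by norm_num)

/-- layer cake formula for a radial kernel and an arbitrary measure -/
theorem layer_cake_ker {N : ℕ} (ν : Measure (E N)) {p : E N} {ρ : ℝ} (hρ : 0 < ρ)
    (hfin : ν (Metric.closedBall p ρ) < ⊤) {h : ℝ → ℝ} (hh : IsKer h) :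
    ∫ x, h (‖x - p‖ ^ 2 / ρ ^ 2) ∂ν
      = ∫ σ in (0 : ℝ)..1, (- deriv h σ) * (ν (Metric.ball p (ρ * Real.sqrt σ))).toReal := by
  classical
  set A : E N → ℝ := fun x => ‖x - p‖ ^ 2 / ρ ^ 2 with hA
  have hA0 : ∀ x, 0 ≤ A x := fun x => by positivity
  have hAm : Measurable A := by
    have : Continuous A := by fun_prop
    exact this.measurable
  set G : ℝ → ℝ := fun σ => - deriv h σ with hG
  have hGc : Continuous G := (hh.smooth.continuous_deriv le_rfl).neg
  obtain ⟨C, hC⟩ := (isCompact_Icc (a := (0 : ℝ)) (b := 1)).exists_bound_of_continuousOn hGc.continuousOn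
  set ν' := ν.restrict (Metric.closedBall p ρ) with hν'
  have : IsFiniteMeasure ν' := ⟨by rw [hν', Measure.restrict_apply_univ]; exact hfin⟩
  have e1 : ∫ x, h (A x) ∂ν = ∫ x, h (A x) ∂ν' := by
    symm
    apply setIntegral_eq_integral_of_forall_compl_eq_zero
    intro x hx
    apply hh.zero
    rw [Metric.mem_closedBall, dist_eq_norm, not_le] at hx
    rw [hA, le_div_iff₀ (by positivity), one_mul]
    exact pow_le_pow_left₀ hρ.le hx.le 2
  set S : Set (E N × ℝ) := {z | A z.1 < z.2 ∧ z.2 ≤ 1} with hS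
  have hSm : MeasurableSet S :=
    (measurableSet_lt (hAm.comp measurable_fst) measurable_snd).inter
      (measurableSet_le measurable_snd measurable_const)
  set F : E N → ℝ → ℝ := fun x σ => S.indicator (fun z => G z.2) (x, σ) with hF
  have hFi : Integrable (Function.uncurry F) (ν'.prod (volume.restrict (Set.Ioc (0 : ℝ) 1))) := by
    refine Integrable.of_bound (C := C) ?_ (Eventually.of_forall ?_)
    · exact ((hGc.measurable.comp measurable_snd).indicator hSm).aestronglyMeasurable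
    · rintro ⟨x, σ⟩
      simp only [Function.uncurry, hF]
      by_cases hz : (x, σ) ∈ S
      · rw [Set.indicator_of_mem hz]
        exact hC σ ⟨((hA0 x).trans_lt hz.1).le, hz.2⟩
      · rw [Set.indicator_of_notMem hz, norm_zero]
        exact (norm_nonneg _).trans (hC 0 ⟨le_rfl, zero_le_one⟩)
  have e2 : ∀ x, h (A x) = ∫ σ in Set.Ioc (0 : ℝ) 1, F x σ := by
    intro x
    have : (fun σ => F x σ) = (Set.Ioc (A x) 1).indicator G := by
      funext σ
      simp only [hF]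
      rw [Set.indicator_apply, Set.indicator_apply]
      exact if_congr Iff.rfl rfl rfl
    rw [this, setIntegral_indicator measurableSet_Ioc]
    have : Set.Ioc (0 : ℝ) 1 ∩ Set.Ioc (A x) 1 = Set.Ioc (A x) 1 := by
      apply Set.inter_eq_right.2
      exact Set.Ioc_subset_Ioc_left (hA0 x)
    rw [this, lay_ker_eq_setIntegral hh]
  have e3 : ∀ σ ∈ Set.Ioc (0 : ℝ) 1,
      ∫ x, F x σ ∂ν' = G σ * (ν (Metric.ball p (ρ * Real.sqrt σ))).toReal := by
    intro σ hσ
    have h1 : (fun x => F x σ) = (Metric.ball p (ρ * Real.sqrt σ)).indicator (fun _ => G σ) := by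
      funext x
      simp only [hF]
      rw [Set.indicator_apply, Set.indicator_apply]
      refine if_congr ?_ rfl rfl
      rw [← lay_lt_iff_mem_ball hρ hσ.1]
      exact ⟨fun h => h.1, fun h => ⟨h, hσ.2⟩⟩
    rw [h1, integral_indicator_const _ Metric.isOpen_ball.measurableSet, smul_eq_mul, mul_comm]
    congr 1
    rw [Measure.real, hν', Measure.restrict_apply Metric.isOpen_ball.measurableSet]
    congr 2
    apply Set.inter_eq_left.2
    refine Metric.ball_subset_closedBall.trans (Metric.closedBall_subset_closedBall ?_)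
    have : Real.sqrt σ ≤ 1 := Real.sqrt_le_one.2 hσ.2
    nlinarith
  calc ∫ x, h (A x) ∂ν = ∫ x, h (A x) ∂ν' := e1
    _ = ∫ x, (∫ σ in Set.Ioc (0 : ℝ) 1, F x σ) ∂ν' := by simp_rw [e2]
    _ = ∫ σ in Set.Ioc (0 : ℝ) 1, (∫ x, F x σ ∂ν') := integral_integral_swap hFi
    _ = ∫ σ in Set.Ioc (0 : ℝ) 1, G σ * (ν (Metric.ball p (ρ * Real.sqrt σ))).toReal :=
        setIntegral_congr_fun measurableSet_Ioc e3
    _ = _ := by rw [intervalIntegral.integral_of_le zero_le_one]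

/-- the constant `∫_{ℝ^m} h(|y|²) dy` -/
noncomputable def kerC (m : ℕ) (h : ℝ → ℝ) : ℝ := ∫ y : E m, h (‖y‖ ^ 2) ∂μH[(m : ℝ)]

theorem kerC_eq (m : ℕ) {h : ℝ → ℝ} (hh : IsKer h) :
    kerC m h = kap m * ∫ σ in (0 : ℝ)..1, (- deriv h σ) * Real.sqrt σ ^ m := by
  have h1 := layer_cake_ker (μH[(m : ℝ)] : Measure (E m)) (p := 0) one_pos
    measure_closedBall_lt_top hh
  simp only [sub_zero, one_pow, div_one, one_mul] at h1
  unfold kerC
  rw [h1, ← intervalIntegral.integral_const_mul, intervalIntegral.integral_of_le zero_le_one,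
    intervalIntegral.integral_of_le zero_le_one]
  refine setIntegral_congr_fun measurableSet_Ioc fun σ hσ => ?_
  have hk := kap_pos m
  rw [hausdorff_ball m 0 (Real.sqrt_pos.2 hσ.1), ENNReal.toReal_ofReal (by positivity)]
  ring

theorem kerC_nonneg (m : ℕ) {h : ℝ → ℝ} (hh : IsKer h) : 0 ≤ kerC m h :=
  integral_nonneg fun _ => hh.nonneg _

theorem lay_weight_continuous (m : ℕ) {h : ℝ → ℝ} (hh : IsKer h) :
    Continuous fun σ : ℝ => (- deriv h σ) * Real.sqrt σ ^ m :=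
  (hh.smooth.continuous_deriv le_rfl).neg.mul (Real.continuous_sqrt.pow m)

theorem lay_weight_nonneg (m : ℕ) {h : ℝ → ℝ} (hh : IsKer h) (σ : ℝ) :
    0 ≤ (- deriv h σ) * Real.sqrt σ ^ m :=
  mul_nonneg (by linarith [hh.deriv_nonpos σ]) (pow_nonneg (Real.sqrt_nonneg σ) m)

namespace SIV

variable {m n : ℕ} (W : SIV m n)

/-- kernel averages in terms of mass ratios -/
theorem kint_one_eq {p : E (m + n)} {ρ : ℝ} (hρ : 0 < ρ) (hs : Metric.closedBall p ρ ⊆ W.U)
    {h : ℝ → ℝ} (hh : IsKer h) :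
    W.kint (fun _ => 1) h p ρ
      = kap m * ∫ σ in (0 : ℝ)..1, (- deriv h σ) * Real.sqrt σ ^ m * W.ratio p (ρ * Real.sqrt σ) := by
  unfold kint
  simp only [one_mul]
  rw [layer_cake_ker W.μ hρ (W.rat_closedBall_lt_top hs) hh, ← intervalIntegral.integral_const_mul,
    ← intervalIntegral.integral_const_mul, intervalIntegral.integral_of_le zero_le_one,
    intervalIntegral.integral_of_le zero_le_one]
  refine setIntegral_congr_fun measurableSet_Ioc fun σ hσ => ?_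
  have hk := kap_pos m
  have hsq : 0 < Real.sqrt σ := Real.sqrt_pos.2 hσ.1
  unfold ratio
  rw [mul_pow]
  field_simp

theorem lay_ratio_monotoneOn (hm : 1 ≤ m) {p : E (m + n)} {ρ : ℝ} (hρ : 0 < ρ)
    (hs : Metric.closedBall p ρ ⊆ W.U) :
    MonotoneOn (fun σ : ℝ => W.ratio p (ρ * Real.sqrt σ)) (Set.Icc 0 1) := by
  intro a ha b hb hab
  simp only
  have hb1 : ρ * Real.sqrt b ≤ ρ := by
    have : Real.sqrt b ≤ 1 := Real.sqrt_le_one.2 hb.2
    nlinarith
  rcases ha.1.eq_or_lt with h0 | h0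
  · rw [← h0, Real.sqrt_zero, mul_zero]
    have : W.ratio p 0 = 0 := by
      unfold ratio
      simp
    rw [this]
    exact W.ratio_nonneg p (by positivity)
  · exact W.ratio_mono hm (mul_pos hρ (Real.sqrt_pos.2 h0))
      (mul_le_mul_of_nonneg_left (Real.sqrt_le_sqrt hab) hρ.le)
      ((Metric.closedBall_subset_closedBall hb1).trans hs)

theorem lay_intervalIntegrable (hm : 1 ≤ m) {p : E (m + n)} {ρ : ℝ} (hρ : 0 < ρ)
    (hs : Metric.closedBall p ρ ⊆ W.U) {h : ℝ → ℝ} (hh : IsKer h) :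
    IntervalIntegrable
      (fun σ : ℝ => (- deriv h σ) * Real.sqrt σ ^ m * W.ratio p (ρ * Real.sqrt σ)) volume 0 1 := by
  have h1 : IntervalIntegrable (fun σ : ℝ => W.ratio p (ρ * Real.sqrt σ)) volume 0 1 := by
    apply MonotoneOn.intervalIntegrable
    rw [Set.uIcc_of_le zero_le_one]
    exact W.lay_ratio_monotoneOn hm hρ hs
  exact h1.continuousOn_mul (lay_weight_continuous m hh).continuousOn

/-- two sided bound of the kernel averages by mass ratios -/
theorem kint_one_le (hm : 1 ≤ m) {p : E (m + n)} {ρ : ℝ} (hρ : 0 < ρ)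
    (hs : Metric.closedBall p ρ ⊆ W.U) {h : ℝ → ℝ} (hh : IsKer h) :
    W.Θ p * kerC m h ≤ W.kint (fun _ => 1) h p ρ ∧
      W.kint (fun _ => 1) h p ρ ≤ W.ratio p ρ * kerC m h := by
  have hk := kap_pos m
  have hi := W.lay_intervalIntegrable hm hρ hs hh
  have hw : ∀ c : ℝ, IntervalIntegrable
      (fun σ : ℝ => (- deriv h σ) * Real.sqrt σ ^ m * c) volume 0 1 := fun c =>
    ((lay_weight_continuous m hh).mul continuous_const).intervalIntegrable _ _
  have e : ∀ c : ℝ, c * kerC m h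
      = kap m * ∫ σ in (0 : ℝ)..1, (- deriv h σ) * Real.sqrt σ ^ m * c := by
    intro c
    rw [kerC_eq m hh, intervalIntegral.integral_mul_const]
    ring
  rw [W.kint_one_eq hρ hs hh, e, e]
  constructor
  · refine mul_le_mul_of_nonneg_left ?_ hk.le
    refine intervalIntegral.integral_mono_on_of_le_Ioo zero_le_one (hw _) hi fun σ hσ => ?_
    refine mul_le_mul_of_nonneg_left ?_ (lay_weight_nonneg m hh σ)
    have h1 : ρ * Real.sqrt σ ≤ ρ := by
      have : Real.sqrt σ ≤ 1 := Real.sqrt_le_one.2 hσ.2.le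
      nlinarith
    exact W.Θ_le_ratio hm (mul_pos hρ (Real.sqrt_pos.2 hσ.1))
      ((Metric.closedBall_subset_closedBall h1).trans hs)
  · refine mul_le_mul_of_nonneg_left ?_ hk.le
    refine intervalIntegral.integral_mono_on_of_le_Ioo zero_le_one hi (hw _) fun σ hσ => ?_
    refine mul_le_mul_of_nonneg_left ?_ (lay_weight_nonneg m hh σ)
    have h1 : ρ * Real.sqrt σ ≤ ρ := by
      have : Real.sqrt σ ≤ 1 := Real.sqrt_le_one.2 hσ.2.le
      nlinarith
    exact W.ratio_mono hm (mul_pos hρ (Real.sqrt_pos.2 hσ.1)) h1 hs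

theorem lay_integrable {p : E (m + n)} {ρ : ℝ} (hρ : 0 < ρ) (hs : Metric.closedBall p ρ ⊆ W.U)
    {u : E (m + n) → ℝ} (hu : Continuous u) {h : ℝ → ℝ} (hh : IsKer h) :
    Integrable (fun x => u x * h (‖x - p‖ ^ 2 / ρ ^ 2)) W.μ := by
  have hz : ∀ x, x ∉ Metric.closedBall p ρ → u x * h (‖x - p‖ ^ 2 / ρ ^ 2) = 0 := by
    intro x hx
    rw [Metric.mem_closedBall, dist_eq_norm, not_le] at hx
    rw [hh.zero, mul_zero]
    rw [le_div_iff₀ (by positivity), one_mul]
    exact pow_le_pow_left₀ hρ.le hx.le 2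
  have hc : Continuous fun x => u x * h (‖x - p‖ ^ 2 / ρ ^ 2) := by
    have := hh.smooth.continuous
    fun_prop
  refine W.integrable_of_continuous hc (HasCompactSupport.intro (isCompact_closedBall p ρ) hz) ?_
  refine (closure_minimal ?_ Metric.isClosed_closedBall).trans hs
  intro x hx
  by_contra hcon
  exact hx (hz x hcon)

/-- **Kernel density**: `ρ^{-m} ∫ u h(|x-p|²/ρ²) dμ → u(p) Θ(p) ∫ h(|y|²) dy`. -/
theorem tendsto_kint (hm : 1 ≤ m) {p : E (m + n)} (hp : p ∈ W.U) {u : E (m + n) → ℝ}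
    (hu : Continuous u) {h : ℝ → ℝ} (hh : IsKer h) :
    Tendsto (W.kint u h p) (𝓝[>] 0) (𝓝 (u p * W.Θ p * kerC m h)) := by
  obtain ⟨R, hR, hRU⟩ := W.rat_exists_closedBall hp
  have hsub : ∀ ρ ∈ Set.Ioo 0 R, Metric.closedBall p ρ ⊆ W.U := fun ρ hρ =>
    (Metric.closedBall_subset_closedBall hρ.2.le).trans hRU
  have hC0 := kerC_nonneg m hh
  -- the case `u = 1`
  have hA : Tendsto (W.kint (fun _ => 1) h p) (𝓝[>] 0) (𝓝 (W.Θ p * kerC m h)) := by
    refine tendsto_of_tendsto_of_tendsto_of_le_of_le' tendsto_const_nhds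
      ((W.tendsto_ratio hm hp).mul_const (kerC m h)) ?_ ?_
    · filter_upwards [Ioo_mem_nhdsGT hR] with ρ hρ
      exact (W.kint_one_le hm hρ.1 (hsub ρ hρ) hh).1
    · filter_upwards [Ioo_mem_nhdsGT hR] with ρ hρ
      exact (W.kint_one_le hm hρ.1 (hsub ρ hρ) hh).2
  -- the difference
  set M : ℝ := W.ratio p R * kerC m h + 1 with hM
  have hM0 : 0 < M := by
    have := W.ratio_nonneg p hR.le
    positivity
  have hB : Tendsto (fun ρ => W.kint u h p ρ - u p * W.kint (fun _ => 1) h p ρ) (𝓝[>] 0) (𝓝 0) := by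
    rw [NormedAddGroup.tendsto_nhds_zero]
    intro ε hε
    obtain ⟨δ, hδ, hδu⟩ := Metric.continuous_iff.1 hu p (ε / (2 * M)) (by positivity)
    filter_upwards [Ioo_mem_nhdsGT (lt_min hR hδ)] with ρ hρ
    have hρR : ρ ∈ Set.Ioo 0 R := ⟨hρ.1, hρ.2.trans_le (min_le_left _ _)⟩
    have hρδ : ρ < δ := hρ.2.trans_le (min_le_right _ _)
    have hρm : 0 < ρ ^ m := pow_pos hρ.1 m
    have i1 := W.lay_integrable hρ.1 (hsub ρ hρR) hu hh
    have i2 := W.lay_integrable hρ.1 (hsub ρ hρR) (continuous_const (y := (1 : ℝ))) hh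
    have e1 : W.kint u h p ρ - u p * W.kint (fun _ => 1) h p ρ
        = (ρ ^ m)⁻¹ * ∫ x, (u x - u p) * h (‖x - p‖ ^ 2 / ρ ^ 2) ∂W.μ := by
      unfold kint
      have : ∫ x, (u x - u p) * h (‖x - p‖ ^ 2 / ρ ^ 2) ∂W.μ
          = ∫ x, u x * h (‖x - p‖ ^ 2 / ρ ^ 2) ∂W.μ
            - u p * ∫ x, 1 * h (‖x - p‖ ^ 2 / ρ ^ 2) ∂W.μ := by
        rw [← integral_const_mul, ← integral_sub i1 (i2.const_mul _)]
        refine integral_congr_ae (Eventually.of_forall fun x => ?_)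
        simp only
        ring
      rw [this]
      ring
    have e2 : ‖∫ x, (u x - u p) * h (‖x - p‖ ^ 2 / ρ ^ 2) ∂W.μ‖
        ≤ ∫ x, ε / (2 * M) * (1 * h (‖x - p‖ ^ 2 / ρ ^ 2)) ∂W.μ := by
      refine norm_integral_le_of_norm_le (i2.const_mul _) (Eventually.of_forall fun x => ?_)
      rw [norm_mul, Real.norm_of_nonneg (hh.nonneg _), one_mul]
      by_cases hx : ‖x - p‖ < ρ
      · refine mul_le_mul_of_nonneg_right ?_ (hh.nonneg _)
        have := hδu x (by rw [dist_eq_norm]; exact hx.trans hρδ)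
        rw [Real.dist_eq] at this
        exact this.le
      · rw [hh.zero, mul_zero, mul_zero]
        rw [le_div_iff₀ (pow_pos hρ.1 2), one_mul]
        exact pow_le_pow_left₀ hρ.1.le (not_lt.1 hx) 2
    have e3 : W.kint (fun _ => 1) h p ρ ≤ M := by
      have h1 := (W.kint_one_le hm hρ.1 (hsub ρ hρR) hh).2
      have h2 := W.ratio_mono hm hρ.1 hρR.2.le hRU
      have h3 := mul_le_mul_of_nonneg_right h2 hC0
      rw [hM]
      linarith
    rw [e1, norm_mul, Real.norm_of_nonneg (inv_pos.2 hρm).le]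
    calc (ρ ^ m)⁻¹ * ‖∫ x, (u x - u p) * h (‖x - p‖ ^ 2 / ρ ^ 2) ∂W.μ‖
        ≤ (ρ ^ m)⁻¹ * ∫ x, ε / (2 * M) * (1 * h (‖x - p‖ ^ 2 / ρ ^ 2)) ∂W.μ :=
          mul_le_mul_of_nonneg_left e2 (inv_pos.2 hρm).le
      _ = ε / (2 * M) * W.kint (fun _ => 1) h p ρ := by
          unfold kint
          rw [integral_const_mul]
          ring
      _ ≤ ε / (2 * M) * M := mul_le_mul_of_nonneg_left e3 (by positivity)
      _ = ε / 2 := by field_simp
      _ < ε := by linarith
  have hfin := hB.add (hA.const_mul (u p))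
  rw [zero_add, ← mul_assoc] at hfin
  refine hfin.congr fun ρ => ?_
  ring

end SIV

end Claimed.Agent.R322
end

/- ===== packed: Claimed.Agent.R322.Base.Mono.DensPiece ===== -/
section
/-!
# Row 322, Base/Mono: lower density of the image of an almost linear piece

PLAN.
* `lower_density_piece` : `f` is approximated on `A` by ONE injective linear map `T` (`ApproximatesLinearOn f T A δ`,
  `‖v‖ ≤ K ‖T v‖`, `η = δ K < 1`).  Then for `a, a' ∈ A`:  `(1-η) ‖T(a-a')‖ ≤ ‖f a - f a'‖ ≤ (1+η) ‖T(a-a')‖`.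
  Put `D_r = {a' | ‖T (a' - a)‖ < r / (1+η)}`.  `f '' (A ∩ D_r) ⊆ f '' A ∩ ball (f a) r`, and
  `μH[m] (f '' (A ∩ D_r)) ≥ (1-η)^m μH[m] (T '' (A ∩ D_r))` (`f ∘ T⁻¹` is antilipschitz on `T '' A`:
  `AntilipschitzWith.le_hausdorffMeasure_image` / `LipschitzOnWith.hausdorffMeasure_image_le` for the inverse),
  `μH[m] (T '' (A ∩ D_r)) = μH[m] (T '' D_r) - μH[m] (T '' (D_r \ A))`,
  `μH[m] (T '' D_r) = kap m (r/(1+η))^m` (`T '' D_r` is a ball in the `m`-dimensional space `range T`, isometric to `E m`),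
  `μH[m] (T '' (D_r \ A)) ≤ ‖T‖^m μH[m] (D_r \ A) = o(r^m)` at a Lebesgue density point `a` of `A`
  (`D_r ⊆ ball a (K r)`; `Besicovitch.ae_tendsto_measure_inter_div` or `IsUnifLocDoublingMeasure.ae_tendsto_measure_inter_div`).
-/

set_option autoImplicit false

open scoped ENNReal ContDiff Topology NNReal
open MeasureTheory Filter

namespace Claimed.Agent.R322

open Base.Area

/-- an injective linear map has the same range as a linear isometry -/
theorem exists_isometry_range_eq {m N : ℕ} (T : E m →L[ℝ] E N) (hT : Function.Injective T) :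
    ∃ ι : E m →ₗᵢ[ℝ] E N, Set.range ι = Set.range T := by
  have hker : (T : E m →ₗ[ℝ] E N).ker = ⊥ := LinearMap.ker_eq_bot.2 hT
  obtain ⟨bv⟩ := ((T : E m →ₗ[ℝ] E N).normDet_ne_zero_tfae.out 1 3).mp hker
  let g : E m ≃ₗᵢ[ℝ] (T : E m →ₗ[ℝ] E N).range :=
    (stdOrthonormalBasis ℝ (E m)).equiv bv (Equiv.refl _)
  refine ⟨(T : E m →ₗ[ℝ] E N).range.subtypeₗᵢ.comp g.toLinearIsometry, ?_⟩
  ext x
  constructor
  · rintro ⟨y, rfl⟩
    exact (g y).2
  · rintro ⟨y, rfl⟩
    refine ⟨g.symm ⟨T y, ⟨y, rfl⟩⟩, ?_⟩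
    simp

/-- the `T`-image of a `T`-ball has the measure of a ball -/
theorem hausdorff_image_Tball {m N : ℕ} (T : E m →L[ℝ] E N) (hT : Function.Injective T) (a : E m)
    {ρ : ℝ} (hρ : 0 < ρ) :
    μH[(m : ℝ)] (T '' {a' | ‖T (a' - a)‖ < ρ}) = ENNReal.ofReal (kap m * ρ ^ m) := by
  obtain ⟨ι, hι⟩ := exists_isometry_range_eq T hT
  obtain ⟨c, hc⟩ : T a ∈ Set.range ι := by rw [hι]; exact ⟨a, rfl⟩
  have h1 : T '' {a' | ‖T (a' - a)‖ < ρ} = ι '' Metric.ball c ρ := by
    ext x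
    constructor
    · rintro ⟨a', ha', rfl⟩
      obtain ⟨y, hy⟩ : T a' ∈ Set.range ι := by rw [hι]; exact ⟨a', rfl⟩
      refine ⟨y, ?_, hy⟩
      rw [Metric.mem_ball, dist_eq_norm, ← ι.norm_map, map_sub, hy, hc, ← map_sub]
      exact ha'
    · rintro ⟨y, hy, rfl⟩
      obtain ⟨a', ha'⟩ : ι y ∈ Set.range T := by rw [← hι]; exact ⟨y, rfl⟩
      refine ⟨a', ?_, ha'⟩
      rw [Metric.mem_ball, dist_eq_norm, ← ι.norm_map, map_sub, ← ha', hc, ← map_sub] at hy
      exact hy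
  rw [h1, ι.isometry.hausdorffMeasure_image (Or.inl (Nat.cast_nonneg m)), hausdorff_ball m c hρ]

/-- two-sided comparison of `f` with `T` on `A` -/
theorem piece_norm_bounds {m N : ℕ} {A : Set (E m)} {f : E m → E N}
    {T : E m →L[ℝ] E N} {K η : ℝ} {δ : ℝ≥0} (hK : ∀ v, ‖v‖ ≤ K * ‖T v‖)
    (happ : ApproximatesLinearOn f T A δ) (hη : (δ : ℝ) * K ≤ η) {x y : E m} (hx : x ∈ A)
    (hy : y ∈ A) :
    ‖f x - f y‖ ≤ (1 + η) * ‖T (x - y)‖ ∧ (1 - η) * ‖T (x - y)‖ ≤ ‖f x - f y‖ := by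
  have h1 := happ x hx y hy
  have h2 : (δ : ℝ) * ‖x - y‖ ≤ η * ‖T (x - y)‖ := by
    calc (δ : ℝ) * ‖x - y‖ ≤ δ * (K * ‖T (x - y)‖) := by gcongr; exact hK _
      _ = (δ * K) * ‖T (x - y)‖ := by ring
      _ ≤ η * ‖T (x - y)‖ := by gcongr
  have h3 : ‖f x - f y‖ ≤ ‖T (x - y)‖ + ‖f x - f y - T (x - y)‖ := by
    have : f x - f y = T (x - y) + (f x - f y - T (x - y)) := by abel
    conv_lhs => rw [this]
    exact norm_add_le _ _
  have h4 : ‖T (x - y)‖ ≤ ‖f x - f y‖ + ‖f x - f y - T (x - y)‖ := by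
    have : T (x - y) = (f x - f y) - (f x - f y - T (x - y)) := by abel
    conv_lhs => rw [this]
    exact norm_sub_le _ _
  constructor <;> nlinarith

/-- lower bound for the measure of the image of a part of the piece -/
theorem piece_image_lower {m N : ℕ} {A : Set (E m)} {f : E m → E N}
    {T : E m →L[ℝ] E N} {K η : ℝ} {δ : ℝ≥0} (hK : ∀ v, ‖v‖ ≤ K * ‖T v‖)
    (happ : ApproximatesLinearOn f T A δ) (hη : (δ : ℝ) * K ≤ η) (hη1 : η < 1) (D : Set (E m)) :
    ENNReal.ofReal ((1 - η) ^ m) * (ENNReal.ofReal (nd T) * μH[(m : ℝ)] (A ∩ D))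
      ≤ μH[(m : ℝ)] (f '' (A ∩ D)) := by
  have hpos : 0 < 1 - η := by linarith
  set κ : ℝ≥0 := ⟨1 - η, hpos.le⟩ with hκ
  have hκpos : 0 < κ := hpos
  have hcmp : ∀ x ∈ A ∩ D, ∀ y ∈ A ∩ D, edist (T x) (T y) ≤ (κ⁻¹ : ℝ≥0) * edist (f x) (f y) := by
    intro x hx y hy
    refine edist_le_mul_edist_of_norm_le ?_
    have h5 := (piece_norm_bounds hK happ hη hx.1 hy.1).2
    push_cast
    rw [le_inv_mul_iff₀ (by exact_mod_cast hκpos), ← map_sub]
    exact h5
  have h7 := hausdorffMeasure_image_le_of_edist_le f T (A ∩ D) _ (Nat.cast_nonneg m) hcmp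
  have h8 : ((κ : ℝ≥0) : ℝ≥0∞) ^ (m : ℝ) * ((κ⁻¹ : ℝ≥0) : ℝ≥0∞) ^ (m : ℝ) = 1 := by
    rw [← ENNReal.mul_rpow_of_nonneg _ _ (Nat.cast_nonneg m), ← ENNReal.coe_mul,
      mul_inv_cancel₀ hκpos.ne', ENNReal.coe_one, ENNReal.one_rpow]
  have h9 : ENNReal.ofReal ((1 - η) ^ m) = ((κ : ℝ≥0) : ℝ≥0∞) ^ (m : ℝ) := by
    rw [ENNReal.ofReal_pow hpos.le, ENNReal.rpow_natCast]
    congr 1
    rw [ENNReal.ofReal, hκ]
    congr 1
    exact Real.toNNReal_of_nonneg hpos.le
  rw [h9, ← hausdorffMeasure_image_clm]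
  calc ((κ : ℝ≥0) : ℝ≥0∞) ^ (m : ℝ) * μH[(m : ℝ)] (T '' (A ∩ D))
      ≤ ((κ : ℝ≥0) : ℝ≥0∞) ^ (m : ℝ) *
          (((κ⁻¹ : ℝ≥0) : ℝ≥0∞) ^ (m : ℝ) * μH[(m : ℝ)] (f '' (A ∩ D))) := by
        gcongr
    _ = μH[(m : ℝ)] (f '' (A ∩ D)) := by rw [← mul_assoc, h8, one_mul]

/-- lower bound for the measure of the part of `A` in a `T`-ball, at a scale where `A` is dense -/
theorem piece_measure_lower {m N : ℕ} {A : Set (E m)} (hA : MeasurableSet A) (T : E m →L[ℝ] E N)
    (hT : Function.Injective T) {K' : ℝ} (hK'0 : 0 < K') (hK' : ∀ v, ‖v‖ ≤ K' * ‖T v‖) {η : ℝ}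
    (a : E m) {ρ : ℝ} (hρ : 0 < ρ)
    (hdens : ENNReal.ofReal (1 - η / (nd T * K' ^ m)) *
        (μH[(m : ℝ)] : Measure (E m)) (Metric.closedBall a (K' * ρ))
      ≤ (μH[(m : ℝ)] : Measure (E m)) (A ∩ Metric.closedBall a (K' * ρ))) :
    ENNReal.ofReal ((1 - η) * (kap m * ρ ^ m)) ≤
      ENNReal.ofReal (nd T) * (μH[(m : ℝ)] : Measure (E m)) (A ∩ {a' | ‖T (a' - a)‖ < ρ}) := by
  set μ : Measure (E m) := μH[(m : ℝ)] with hμ
  set B := Metric.closedBall a (K' * ρ) with hB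
  set D : Set (E m) := {a' | ‖T (a' - a)‖ < ρ} with hD
  set d := nd T with hd
  have hdpos : 0 < d :=
    lt_of_le_of_ne (nd_nonneg T) (Ne.symm fun h => (nd_eq_zero_iff T).1 h hT)
  have hs : 0 < K' * ρ := mul_pos hK'0 hρ
  have hDB : D ⊆ B := by
    intro a' ha'
    rw [hB, Metric.mem_closedBall, dist_eq_norm]
    exact (hK' _).trans (by gcongr; exact le_of_lt ha')
  have hBval : μ B = ENNReal.ofReal (kap m * (K' * ρ) ^ m) := hausdorff_closedBall m a hs
  have hBfin : μ B ≠ ⊤ := by rw [hBval]; exact ENNReal.ofReal_ne_top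
  have hfin : ∀ S : Set (E m), S ⊆ B → μ S ≠ ⊤ := fun S hS =>
    ne_top_of_le_ne_top hBfin (measure_mono hS)
  have hκ := kap_pos m
  -- (i)
  have h1 : d * (μ D).toReal = kap m * ρ ^ m := by
    have := hausdorff_image_Tball T hT a hρ
    rw [hausdorffMeasure_image_clm] at this
    have h := congrArg ENNReal.toReal this
    rw [ENNReal.toReal_mul, ENNReal.toReal_ofReal hdpos.le,
      ENNReal.toReal_ofReal (by positivity)] at h
    exact h
  -- (ii)
  have h2 : (μ D).toReal ≤ (μ (A ∩ D)).toReal + (μ (B \ A)).toReal := by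
    rw [← ENNReal.toReal_add (hfin _ (Set.inter_subset_right.trans hDB))
      (hfin _ Set.sdiff_subset)]
    refine ENNReal.toReal_mono (ENNReal.add_ne_top.2 ⟨hfin _ (Set.inter_subset_right.trans hDB),
      hfin _ Set.sdiff_subset⟩) ?_
    refine (measure_mono ?_).trans (measure_union_le _ _)
    intro x hx
    by_cases hxA : x ∈ A
    · exact Or.inl ⟨hxA, hx⟩
    · exact Or.inr ⟨hDB hx, hxA⟩
  -- (iii)
  have h3 : (μ (A ∩ B)).toReal + (μ (B \ A)).toReal = (μ B).toReal := by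
    rw [← ENNReal.toReal_add (hfin _ Set.inter_subset_right) (hfin _ Set.sdiff_subset),
      Set.inter_comm, measure_inter_add_sdiff B hA]
  -- (iv)
  have h4 : (1 - η / (d * K' ^ m)) * (μ B).toReal ≤ (μ (A ∩ B)).toReal := by
    have h := ENNReal.toReal_mono (hfin _ Set.inter_subset_right) hdens
    rw [ENNReal.toReal_mul] at h
    refine le_trans ?_ h
    gcongr
    rw [ENNReal.toReal_ofReal']
    exact le_max_left _ _
  have h5 : (μ B).toReal = kap m * (K' * ρ) ^ m := by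
    rw [hBval, ENNReal.toReal_ofReal (by positivity)]
  have h6 : d * (μ (B \ A)).toReal ≤ η * (kap m * ρ ^ m) := by
    have h7 : (μ (B \ A)).toReal ≤ η / (d * K' ^ m) * (μ B).toReal := by nlinarith
    calc d * (μ (B \ A)).toReal ≤ d * (η / (d * K' ^ m) * (μ B).toReal) := by gcongr
      _ = η * (kap m * ρ ^ m) := by
        rw [h5, mul_pow]
        field_simp
  have h8 : (1 - η) * (kap m * ρ ^ m) ≤ d * (μ (A ∩ D)).toReal := by nlinarith
  calc ENNReal.ofReal ((1 - η) * (kap m * ρ ^ m)) ≤ ENNReal.ofReal (d * (μ (A ∩ D)).toReal) :=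
        ENNReal.ofReal_le_ofReal h8
    _ = ENNReal.ofReal d * μ (A ∩ D) := by
        rw [ENNReal.ofReal_mul hdpos.le,
          ENNReal.ofReal_toReal (hfin _ (Set.inter_subset_right.trans hDB))]

/-- lower density of the image of a piece on which `f` is close to one injective linear map -/
theorem lower_density_piece {m N : ℕ} {A : Set (E m)} (hA : MeasurableSet A) {f : E m → E N}
    {T : E m →L[ℝ] E N} {K η : ℝ} {δ : ℝ≥0} (hK : ∀ v, ‖v‖ ≤ K * ‖T v‖)
    (happ : ApproximatesLinearOn f T A δ) (hη : (δ : ℝ) * K ≤ η) (hη0 : 0 < η) (hη1 : η < 1) :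
    ∀ᵐ a ∂((μH[(m : ℝ)] : Measure (E m)).restrict A), ∀ r₀ : ℝ, 0 < r₀ → ∃ r : ℝ, 0 < r ∧ r < r₀ ∧
      ENNReal.ofReal ((1 - η) * ((1 - η) / (1 + η)) ^ m * kap m * r ^ m)
        ≤ μH[(m : ℝ)] (f '' A ∩ Metric.ball (f a) r) := by
  have hT : Function.Injective T := by
    intro x y hxy
    have := hK (x - y)
    rw [map_sub, hxy, sub_self, norm_zero, mul_zero] at this
    exact sub_eq_zero.1 (norm_le_zero_iff.1 this)
  have hdpos : 0 < nd T :=
    lt_of_le_of_ne (nd_nonneg T) (Ne.symm fun h => (nd_eq_zero_iff T).1 h hT)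
  set K' := max K 1 with hK'def
  have hK'0 : 0 < K' := lt_of_lt_of_le one_pos (le_max_right _ _)
  have hK' : ∀ v, ‖v‖ ≤ K' * ‖T v‖ := fun v =>
    (hK v).trans (by gcongr; exact le_max_left _ _)
  set ε := η / (nd T * K' ^ m) with hε
  have hεpos : 0 < ε := by positivity
  filter_upwards [Besicovitch.ae_tendsto_measure_inter_div (μH[(m : ℝ)] : Measure (E m)) A,
    ae_restrict_mem hA] with a hdens haA
  intro r₀ hr₀
  have hlt : ENNReal.ofReal (1 - ε) < 1 := by
    rw [← ENNReal.ofReal_one]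
    exact (ENNReal.ofReal_lt_ofReal_iff one_pos).2 (by linarith)
  have hev := (tendsto_order.1 hdens).1 _ hlt
  obtain ⟨s₀, hs₀, hs⟩ := mem_nhdsGT_iff_exists_Ioo_subset.1 hev
  have hs₀' : (0 : ℝ) < s₀ := hs₀
  have h1η : 0 < 1 + η := by linarith
  set r := min (r₀ / 2) ((1 + η) * s₀ / (2 * K')) with hr
  have hrpos : 0 < r := lt_min (by positivity) (by positivity)
  have hrr₀ : r < r₀ := lt_of_le_of_lt (min_le_left _ _) (by linarith)
  set ρ := r / (1 + η) with hρ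
  have hρpos : 0 < ρ := by positivity
  have hsρ : K' * ρ < s₀ := by
    have h1 : r ≤ (1 + η) * s₀ / (2 * K') := min_le_right _ _
    have h2 : K' * ρ ≤ s₀ / 2 := by
      rw [hρ]
      calc K' * (r / (1 + η)) ≤ K' * (((1 + η) * s₀ / (2 * K')) / (1 + η)) := by gcongr
        _ = s₀ / 2 := by field_simp
    linarith
  have hratio := hs (⟨mul_pos hK'0 hρpos, hsρ⟩ : K' * ρ ∈ Set.Ioo 0 s₀)
  simp only [Set.mem_ofPred_eq] at hratio
  have hBpos : (μH[(m : ℝ)] : Measure (E m)) (Metric.closedBall a (K' * ρ)) ≠ 0 :=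
    (Metric.measure_closedBall_pos _ _ (mul_pos hK'0 hρpos)).ne'
  have hBfin : (μH[(m : ℝ)] : Measure (E m)) (Metric.closedBall a (K' * ρ)) ≠ ⊤ :=
    measure_closedBall_lt_top.ne
  have hdens' : ENNReal.ofReal (1 - ε) *
      (μH[(m : ℝ)] : Measure (E m)) (Metric.closedBall a (K' * ρ))
      ≤ (μH[(m : ℝ)] : Measure (E m)) (A ∩ Metric.closedBall a (K' * ρ)) :=
    ((ENNReal.le_div_iff_mul_le (Or.inl hBpos) (Or.inl hBfin)).1 hratio.le)
  have hC := piece_measure_lower hA T hT hK'0 hK' a hρpos hdens'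
  have hI := piece_image_lower hK happ hη hη1 {a' | ‖T (a' - a)‖ < ρ}
  refine ⟨r, hrpos, hrr₀, ?_⟩
  have hsub : f '' (A ∩ {a' | ‖T (a' - a)‖ < ρ}) ⊆ f '' A ∩ Metric.ball (f a) r := by
    rintro _ ⟨a', ⟨ha'A, ha'⟩, rfl⟩
    refine ⟨⟨a', ha'A, rfl⟩, ?_⟩
    rw [Metric.mem_ball, dist_eq_norm]
    have h1 := (piece_norm_bounds hK happ hη ha'A haA).1
    have h2 : (1 + η) * ‖T (a' - a)‖ < (1 + η) * ρ := by
      have : ‖T (a' - a)‖ < ρ := ha'
      gcongr
    have h3 : (1 + η) * ρ = r := by rw [hρ]; field_simp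
    linarith
  have h1mη : 0 < 1 - η := by linarith
  calc ENNReal.ofReal ((1 - η) * ((1 - η) / (1 + η)) ^ m * kap m * r ^ m)
      = ENNReal.ofReal ((1 - η) ^ m) * ENNReal.ofReal ((1 - η) * (kap m * ρ ^ m)) := by
        rw [← ENNReal.ofReal_mul (by positivity)]
        congr 1
        rw [hρ, div_pow, div_pow]
        ring
    _ ≤ ENNReal.ofReal ((1 - η) ^ m) * (ENNReal.ofReal (nd T) *
          (μH[(m : ℝ)] : Measure (E m)) (A ∩ {a' | ‖T (a' - a)‖ < ρ})) := by gcongr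
    _ ≤ μH[(m : ℝ)] (f '' (A ∩ {a' | ‖T (a' - a)‖ < ρ})) := hI
    _ ≤ μH[(m : ℝ)] (f '' A ∩ Metric.ball (f a) r) := measure_mono hsub

end Claimed.Agent.R322
end

/- ===== packed: Claimed.Agent.R322.Base.Mono.DensAtlas ===== -/
section
/-!
# Row 322, Base/Mono: the lower density bound almost everywhere (field `dens` of `SIV`), from an atlas

Input: the atlas of `Base/Area` (countably many Lipschitz maps `f i`, differentiable with injective derivative on the
measurable sets `A i`, whose images cover the carrier up to a `μH[m]`-null set).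

* `lower_density_map` : for every `k` apply `exists_partition_approximatesLinearOn_of_hasFDerivWithinAt` with
  `r T = η_k / K_T`, `η_k → 0`; almost every point of `A` is good for its piece, for all `k`.
* `dens_of_atlas` : Lipschitz images of null sets are null; `wt m M θ ≥ μH[m]⌞(f i '' A i)` since `θ ≥ 1` on `M`;
  `wt m M θ ≪ μH[m]⌞M`.
-/

set_option autoImplicit false

open scoped ENNReal ContDiff Topology NNReal
open MeasureTheory Filter

namespace Claimed.Agent.R322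

open Base.Area

/-- one precision `η` -/
theorem lower_density_map_aux {m N : ℕ} {A : Set (E m)} (hA : MeasurableSet A) {f : E m → E N}
    (hd : ∀ a ∈ A, DifferentiableAt ℝ f a ∧ Function.Injective (fderiv ℝ f a)) {η : ℝ}
    (hη0 : 0 < η) (hη1 : η < 1) :
    ∀ᵐ a ∂((μH[(m : ℝ)] : Measure (E m)).restrict A), ∀ r₀ : ℝ, 0 < r₀ → ∃ r : ℝ, 0 < r ∧ r < r₀ ∧
      ENNReal.ofReal ((1 - η) * ((1 - η) / (1 + η)) ^ m * kap m * r ^ m)
        ≤ μH[(m : ℝ)] (f '' A ∩ Metric.ball (f a) r) := by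
  rcases A.eq_empty_or_nonempty with rfl | hne
  · simp
  have hδ : ∀ T : E m →L[ℝ] E N, ∃ δ : ℝ≥0, 0 < δ ∧ (Function.Injective T →
      ∃ K : ℝ, (∀ v, ‖v‖ ≤ K * ‖T v‖) ∧ (δ : ℝ) * K ≤ η) := by
    intro T
    by_cases hT : Function.Injective T
    · obtain ⟨σ, hσ, h⟩ := exists_lower_bound T hT
      refine ⟨⟨η * σ, by positivity⟩, mul_pos hη0 hσ, fun _ => ⟨σ⁻¹, fun v => ?_, ?_⟩⟩
      · rw [le_inv_mul_iff₀ hσ]; exact h v
      · change η * σ * σ⁻¹ ≤ η
        rw [mul_assoc, mul_inv_cancel₀ hσ.ne', mul_one]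
    · exact ⟨1, one_pos, fun h => absurd h hT⟩
  choose δ hδpos hδK using hδ
  obtain ⟨t, T, -, t_meas, t_cover, ht, hT⟩ :=
    exists_partition_approximatesLinearOn_of_hasFDerivWithinAt f A (fderiv ℝ f)
      (fun x hx => (hd x hx).1.hasFDerivAt.hasFDerivWithinAt) δ fun T => (hδpos T).ne'
  have hU : A = ⋃ n, A ∩ t n := by
    rw [← Set.inter_iUnion]
    exact (Set.inter_eq_self_of_subset_left t_cover).symm
  conv in (Measure.restrict _ A) => rw [hU]
  rw [ae_restrict_iUnion_iff]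
  intro n
  obtain ⟨y, hy, hTy⟩ := hT hne n
  obtain ⟨K, hK, hKη⟩ := hδK (T n) (by rw [hTy]; exact (hd y hy).2)
  filter_upwards [lower_density_piece (hA.inter (t_meas n)) hK (ht n) hKη hη0 hη1] with a ha r₀ hr₀
  obtain ⟨r, h1, h2, h3⟩ := ha r₀ hr₀
  refine ⟨r, h1, h2, h3.trans (measure_mono ?_)⟩
  exact Set.inter_subset_inter_left _ (Set.image_mono Set.inter_subset_left)

/-- lower density one for the image of a set on which `f` is differentiable with injective
derivative -/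
theorem lower_density_map {m N : ℕ} {A : Set (E m)} (hA : MeasurableSet A) {f : E m → E N}
    (hd : ∀ a ∈ A, DifferentiableAt ℝ f a ∧ Function.Injective (fderiv ℝ f a)) :
    ∀ᵐ a ∂((μH[(m : ℝ)] : Measure (E m)).restrict A), ∀ ε : ℝ, 0 < ε → ∀ r₀ : ℝ, 0 < r₀ →
      ∃ r : ℝ, 0 < r ∧ r < r₀ ∧
      ENNReal.ofReal ((1 - ε) * kap m * r ^ m) ≤ μH[(m : ℝ)] (f '' A ∩ Metric.ball (f a) r) := by
  set η : ℕ → ℝ := fun k => 1 / (((k + 1 : ℕ) : ℝ) + 1) with hη
  have hη0 : ∀ k, 0 < η k := fun k => by positivity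
  have hη1 : ∀ k, η k < 1 := fun k => by
    rw [hη]
    simp only
    rw [div_lt_one (by positivity)]
    have : (0 : ℝ) < ((k + 1 : ℕ) : ℝ) := by positivity
    linarith
  have hηt : Tendsto η atTop (𝓝 0) :=
    tendsto_one_div_add_atTop_nhds_zero_nat.comp (tendsto_add_atTop_nat 1)
  set φ : ℝ → ℝ := fun x => (1 - x) * ((1 - x) / (1 + x)) ^ m with hφ
  have hφc : ContinuousAt φ 0 := by
    rw [hφ]
    fun_prop (disch := norm_num)
  have hφt : Tendsto (fun k => φ (η k)) atTop (𝓝 1) := by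
    have h0 : φ 0 = 1 := by simp [hφ]
    rw [← h0]
    exact hφc.tendsto.comp hηt
  have hall := ae_all_iff.2 fun k => lower_density_map_aux hA hd (hη0 k) (hη1 k)
  filter_upwards [hall] with a ha ε hε r₀ hr₀
  obtain ⟨k, hk⟩ := ((tendsto_order.1 hφt).1 (1 - ε) (by linarith)).exists
  obtain ⟨r, h1, h2, h3⟩ := ha k r₀ hr₀
  refine ⟨r, h1, h2, le_trans (ENNReal.ofReal_le_ofReal ?_) h3⟩
  have hκ := kap_pos m
  have : 1 - ε ≤ (1 - η k) * ((1 - η k) / (1 + η k)) ^ m := hk.le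
  gcongr

/-- the weight dominates `μH[m]⌞M` -/
theorem hausdorff_inter_le_wt {m N : ℕ} {M : Set (E N)} (hM : MeasurableSet M) {θ : E N → ℕ}
    (hθ : ∀ x ∈ M, 1 ≤ θ x) {S : Set (E N)} (hS : MeasurableSet S) :
    μH[(m : ℝ)] (M ∩ S) ≤ wt m M θ S := by
  unfold wt
  rw [withDensity_apply _ hS]
  calc μH[(m : ℝ)] (M ∩ S) = ((μH[(m : ℝ)] : Measure (E N)).restrict M) S := by
        rw [Measure.restrict_apply hS, Set.inter_comm]
    _ = ∫⁻ _ in S, 1 ∂((μH[(m : ℝ)] : Measure (E N)).restrict M) := by simp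
    _ ≤ ∫⁻ x in S, (θ x : ℝ≥0∞) ∂((μH[(m : ℝ)] : Measure (E N)).restrict M) := by
        refine lintegral_mono_ae (ae_restrict_of_ae ?_)
        filter_upwards [ae_restrict_mem hM] with x hx
        exact_mod_cast hθ x hx

/-- **the field `dens` of `SIV`** -/
theorem dens_of_atlas {m N : ℕ} {M : Set (E N)} (hM : MeasurableSet M) {θ : E N → ℕ}
    (hθm : Measurable θ) (hθ : ∀ x ∈ M, 1 ≤ θ x) (A : ℕ → Set (E m)) (f : ℕ → E m → E N)
    (hA : ∀ i, MeasurableSet (A i)) (hL : ∀ i, ∃ L, LipschitzWith L (f i))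
    (hd : ∀ i, ∀ a ∈ A i, DifferentiableAt ℝ (f i) a ∧ Function.Injective (fderiv ℝ (f i) a))
    (hsub : ∀ i, f i '' A i ⊆ M) (hcov : μH[(m : ℝ)] (M \ ⋃ i, f i '' A i) = 0) :
    ∀ᵐ x ∂(wt m M θ), ∀ ε : ℝ, 0 < ε → ∀ r₀ : ℝ, 0 < r₀ → ∃ r : ℝ, 0 < r ∧ r < r₀ ∧
      ENNReal.ofReal ((1 - ε) * kap m * r ^ m) ≤ wt m M θ (Metric.ball x r) := by
  have hac : wt m M θ ≪ (μH[(m : ℝ)] : Measure (E N)).restrict M :=
    withDensity_absolutelyContinuous _ _
  suffices hsuff : ∀ᵐ x ∂((μH[(m : ℝ)] : Measure (E N)).restrict M), ∀ ε : ℝ, 0 < ε → ∀ r₀ : ℝ,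
      0 < r₀ → ∃ r : ℝ, 0 < r ∧ r < r₀ ∧
      ENNReal.ofReal ((1 - ε) * kap m * r ^ m) ≤ wt m M θ (Metric.ball x r) from hac.ae_le hsuff
  rw [ae_restrict_iff' hM]
  set bad : ℕ → Set (E m) := fun i => {a | ¬ (a ∈ A i → ∀ ε : ℝ, 0 < ε → ∀ r₀ : ℝ, 0 < r₀ →
      ∃ r : ℝ, 0 < r ∧ r < r₀ ∧ ENNReal.ofReal ((1 - ε) * kap m * r ^ m) ≤
        μH[(m : ℝ)] (f i '' A i ∩ Metric.ball (f i a) r))} with hbad
  have hbad0 : ∀ i, (μH[(m : ℝ)] : Measure (E m)) (bad i) = 0 := fun i =>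
    (ae_restrict_iff' (hA i)).1 (lower_density_map (hA i) (hd i))
  have himg0 : ∀ i, μH[(m : ℝ)] (f i '' bad i) = 0 := by
    intro i
    obtain ⟨L, hLi⟩ := hL i
    have h1 := hLi.hausdorffMeasure_image_le (Nat.cast_nonneg m) (bad i)
    rw [hbad0 i, mul_zero] at h1
    exact le_antisymm h1 zero_le
  rw [ae_iff]
  refine measure_mono_null ?_ (measure_union_null hcov (measure_iUnion_null himg0))
  intro x hx
  simp only [Set.mem_ofPred_eq, Classical.not_imp] at hx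
  obtain ⟨hxM, hxbad⟩ := hx
  by_cases hxU : x ∈ ⋃ i, f i '' A i
  · obtain ⟨i, a, ha, rfl⟩ := Set.mem_iUnion.1 hxU
    refine Or.inr (Set.mem_iUnion.2 ⟨i, a, ?_, rfl⟩)
    intro hgood
    apply hxbad
    intro ε hε r₀ hr₀
    obtain ⟨r, h1, h2, h3⟩ := hgood ha ε hε r₀ hr₀
    refine ⟨r, h1, h2, h3.trans ?_⟩
    exact (measure_mono (Set.inter_subset_inter_left _ (hsub i))).trans
      (hausdorff_inter_le_wt hM hθ Metric.isOpen_ball.measurableSet)
  · exact Or.inl ⟨hxM, hxU⟩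

end Claimed.Agent.R322
end
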