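/- Packed by merge_tool.py (helper293): 7 modules of Claimed.Agent.R322 in one file, same declarations.
   Old modules, in this order: Fit.Wiener.Young, Fit.Wiener.Calc, Fit.Wiener.Elliptic, Base.Mono.Lower, Base.Mono.KintMono, Base.Mono.Mean, Base.Mono.Haus -/
import Claimed.Agent.R322.Basic
import Claimed.Agent.R322.Pack002
import Claimed.Agent.R322.Pack010

/- ===== packed: Claimed.Agent.R322.Fit.Wiener.Young ===== -/
section
/-!
# Row 322, Fit/Wiener: weighted Young inequalities and the absorption lemma (pure `lintegral`)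

`wgt r ξ = (1 + |ξ|)^r`, `cv p q ξ = ∫⁻ p (ξ - η) q η dη` for `p q : E m → ℝ≥0∞`.

* `lintegral_wgt_cv_le`, `lintegral_wgt_cv_le_tame` : weighted Young inequalities;
* `absorb` : if `x ≤ c (β ⋆ x) + φ`, `∫ x < ∞` and `c 2^r ∫ β ≤ 1/2` then
  `∫ w_r x ≤ 2 (c 2^r ∫ w_r β ∫ x + ∫ w_r φ)`.  This is the only "elliptic estimate" of the package.

PLANS.
* `lintegral_cv`: Tonelli (`lintegral_lintegral_swap`, measurability of `(ξ, η) ↦ p (ξ - η) * q η`) and
  translation invariance (`lintegral_sub_right_eq_self`).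
* weights: `1 + |ξ| ≤ (1 + |ξ - η|) (1 + |η|)` and `1 + |ξ| ≤ 2 max (1 + |ξ - η|) (1 + |η|)`.
* `absorb`: for `N : ℕ` let `w_N = min (wgt r) N`.  Then `w_N ξ ≤ 2^r wgt r (ξ - η) + 2^r w_N η`, `∫ w_N x ≤ N ∫ x < ∞`, and
  `∫ w_N x ≤ c 2^r (∫ w_r β ∫ x + ∫ β ∫ w_N x) + ∫ w_r φ ≤ (1/2) ∫ w_N x + ...`; subtract (finite) and let `N → ∞`
  (`lintegral_iSup` / monotone convergence, `⨆ N, min a N = a`).
-/

set_option autoImplicit false

open scoped ENNReal Topology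
open MeasureTheory

namespace Claimed.Agent.R322.Fit

variable {m : ℕ}

/-- the weight `(1 + |ξ|)^r`. -/
noncomputable def wgt (r : ℕ) (ξ : E m) : ℝ≥0∞ := ENNReal.ofReal ((1 + ‖ξ‖) ^ r)

/-- convolution of nonnegative functions. -/
noncomputable def cv (p q : E m → ℝ≥0∞) (ξ : E m) : ℝ≥0∞ := ∫⁻ η, p (ξ - η) * q η

theorem measurable_wgt (r : ℕ) : Measurable (wgt r : E m → ℝ≥0∞) :=
  ENNReal.measurable_ofReal.comp ((measurable_const.add measurable_norm).pow_const r)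

theorem one_le_base (ξ : E m) : (1 : ℝ) ≤ 1 + ‖ξ‖ := by
  have := norm_nonneg ξ
  linarith

theorem base_le_add (ξ η : E m) : 1 + ‖ξ‖ ≤ 1 + ‖ξ - η‖ + ‖η‖ := by
  have : ‖ξ‖ ≤ ‖ξ - η‖ + ‖η‖ := by
    calc ‖ξ‖ = ‖(ξ - η) + η‖ := by rw [sub_add_cancel]
      _ ≤ ‖ξ - η‖ + ‖η‖ := norm_add_le _ _
  linarith

theorem wgt_zero (ξ : E m) : wgt 0 ξ = 1 := by
  simp [wgt]

theorem one_le_wgt (r : ℕ) (ξ : E m) : 1 ≤ wgt r ξ := by
  unfold wgt
  rw [ENNReal.one_le_ofReal]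
  exact one_le_pow₀ (one_le_base ξ)

theorem wgt_lt_top (r : ℕ) (ξ : E m) : wgt r ξ < ⊤ := ENNReal.ofReal_lt_top

theorem wgt_mono {r r' : ℕ} (h : r ≤ r') (ξ : E m) : wgt r ξ ≤ wgt r' ξ :=
  ENNReal.ofReal_le_ofReal (pow_le_pow_right₀ (one_le_base ξ) h)

theorem wgt_add (r s : ℕ) (ξ : E m) : wgt (r + s) ξ = wgt r ξ * wgt s ξ := by
  unfold wgt
  rw [pow_add, ENNReal.ofReal_mul (by positivity)]

theorem wgt_le_mul (r : ℕ) (ξ η : E m) : wgt r ξ ≤ wgt r (ξ - η) * wgt r η := by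
  unfold wgt
  rw [← ENNReal.ofReal_mul (by positivity), ← mul_pow]
  refine ENNReal.ofReal_le_ofReal (pow_le_pow_left₀ (by positivity) ?_ r)
  have h1 := base_le_add ξ η
  have h2 : 0 ≤ ‖ξ - η‖ * ‖η‖ := by positivity
  nlinarith

theorem wgt_le_add (r : ℕ) (ξ η : E m) : wgt r ξ ≤ 2 ^ r * (wgt r (ξ - η) + wgt r η) := by
  unfold wgt
  have h2 : (2 : ℝ≥0∞) ^ r = ENNReal.ofReal (2 ^ r) := by
    rw [ENNReal.ofReal_pow (by norm_num)]
    simp
  rw [h2, ← ENNReal.ofReal_add (by positivity) (by positivity),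
    ← ENNReal.ofReal_mul (by positivity)]
  refine ENNReal.ofReal_le_ofReal ?_
  set a := 1 + ‖ξ - η‖ with ha
  set b := 1 + ‖η‖ with hb
  have ha0 : 0 ≤ a := by positivity
  have hb0 : 0 ≤ b := by positivity
  have h1 : 1 + ‖ξ‖ ≤ 2 * max a b := by
    have := base_le_add ξ η
    have h3 := le_max_left a b
    have h4 := le_max_right a b
    have := norm_nonneg η
    linarith
  calc (1 + ‖ξ‖) ^ r ≤ (2 * max a b) ^ r := pow_le_pow_left₀ (by positivity) h1 r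
    _ = 2 ^ r * (max a b) ^ r := mul_pow _ _ _
    _ ≤ 2 ^ r * (a ^ r + b ^ r) := by
        refine mul_le_mul_of_nonneg_left ?_ (by positivity)
        rcases le_total a b with h | h
        · rw [max_eq_right h]
          have : 0 ≤ a ^ r := by positivity
          linarith
        · rw [max_eq_left h]
          have : 0 ≤ b ^ r := by positivity
          linarith

theorem measurable_cv_kernel {p q : E m → ℝ≥0∞} (hp : Measurable p) (hq : Measurable q) :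
    Measurable (fun z : E m × E m => p (z.1 - z.2) * q z.2) :=
  (hp.comp (measurable_fst.sub measurable_snd)).mul (hq.comp measurable_snd)

theorem measurable_cv {p q : E m → ℝ≥0∞} (hp : Measurable p) (hq : Measurable q) :
    Measurable (cv p q) :=
  (measurable_cv_kernel hp hq).lintegral_prod_right'

theorem cv_mono {p p' q q' : E m → ℝ≥0∞} (hp : ∀ ξ, p ξ ≤ p' ξ) (hq : ∀ ξ, q ξ ≤ q' ξ) (ξ : E m) :
    cv p q ξ ≤ cv p' q' ξ :=
  lintegral_mono fun _ => mul_le_mul' (hp _) (hq _)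

theorem cv_add_left {p p' q : E m → ℝ≥0∞} (hp : Measurable p) (hq : Measurable q) (ξ : E m) :
    cv (fun ξ => p ξ + p' ξ) q ξ = cv p q ξ + cv p' q ξ := by
  unfold cv
  simp only [add_mul]
  exact lintegral_add_left ((hp.comp (measurable_const.sub measurable_id)).mul hq) _

theorem cv_add_right {p q q' : E m → ℝ≥0∞} (hp : Measurable p) (hq : Measurable q) (ξ : E m) :
    cv p (fun ξ => q ξ + q' ξ) ξ = cv p q ξ + cv p q' ξ := by
  unfold cv
  simp only [mul_add]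
  exact lintegral_add_left ((hp.comp (measurable_const.sub measurable_id)).mul hq) _

theorem lintegral_cv {p q : E m → ℝ≥0∞} (hp : Measurable p) (hq : Measurable q) :
    ∫⁻ ξ, cv p q ξ = (∫⁻ ξ, p ξ) * ∫⁻ ξ, q ξ := by
  unfold cv
  rw [lintegral_lintegral_swap (measurable_cv_kernel hp hq).aemeasurable]
  have : ∀ η : E m, ∫⁻ ξ, p (ξ - η) * q η = (∫⁻ ξ, p ξ) * q η := by
    intro η
    have hm : Measurable (fun ξ : E m => p (ξ - η)) := hp.comp (measurable_id.sub measurable_const)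
    rw [lintegral_mul_const _ hm, lintegral_sub_right_eq_self p η]
  simp only [this]
  rw [lintegral_const_mul _ hq]

/-- weighted Young inequality (submultiplicative weight). -/
theorem lintegral_wgt_cv_le (r : ℕ) {p q : E m → ℝ≥0∞} (hp : Measurable p) (hq : Measurable q) :
    ∫⁻ ξ, wgt r ξ * cv p q ξ ≤ (∫⁻ ξ, wgt r ξ * p ξ) * ∫⁻ ξ, wgt r ξ * q ξ := by
  have hwp : Measurable (fun ξ => wgt r ξ * p ξ) := (measurable_wgt r).mul hp
  have hwq : Measurable (fun ξ => wgt r ξ * q ξ) := (measurable_wgt r).mul hq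
  rw [← lintegral_cv hwp hwq]
  refine lintegral_mono fun ξ => ?_
  unfold cv
  have hm : Measurable (fun η : E m => p (ξ - η) * q η) :=
    (hp.comp (measurable_const.sub measurable_id)).mul hq
  rw [← lintegral_const_mul _ hm]
  refine lintegral_mono fun η => ?_
  calc wgt r ξ * (p (ξ - η) * q η) ≤ (wgt r (ξ - η) * wgt r η) * (p (ξ - η) * q η) :=
        mul_le_mul' (wgt_le_mul r ξ η) le_rfl
    _ = wgt r (ξ - η) * p (ξ - η) * (wgt r η * q η) := by ring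

/-- weighted Young inequality, tame form. -/
theorem lintegral_wgt_cv_le_tame (r : ℕ) {p q : E m → ℝ≥0∞} (hp : Measurable p)
    (hq : Measurable q) :
    ∫⁻ ξ, wgt r ξ * cv p q ξ
      ≤ 2 ^ r * ((∫⁻ ξ, wgt r ξ * p ξ) * (∫⁻ ξ, q ξ) + (∫⁻ ξ, p ξ) * ∫⁻ ξ, wgt r ξ * q ξ) := by
  have hwp : Measurable (fun ξ => wgt r ξ * p ξ) := (measurable_wgt r).mul hp
  have hwq : Measurable (fun ξ => wgt r ξ * q ξ) := (measurable_wgt r).mul hq
  have hc1 := measurable_cv hwp hq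
  have hc2 := measurable_cv hp hwq
  have hc3 : Measurable (fun ξ => cv (fun ξ => wgt r ξ * p ξ) q ξ + cv p (fun ξ => wgt r ξ * q ξ) ξ) :=
    hc1.add hc2
  rw [← lintegral_cv hwp hq, ← lintegral_cv hp hwq, ← lintegral_add_left hc1,
    ← lintegral_const_mul _ hc3]
  refine lintegral_mono fun ξ => ?_
  unfold cv
  have hm : Measurable (fun η : E m => p (ξ - η) * q η) :=
    (hp.comp (measurable_const.sub measurable_id)).mul hq
  have hm1 : Measurable (fun η : E m => wgt r (ξ - η) * p (ξ - η) * q η) :=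
    (hwp.comp (measurable_const.sub measurable_id)).mul hq
  have hm2 : Measurable (fun η : E m => p (ξ - η) * (wgt r η * q η)) :=
    (hp.comp (measurable_const.sub measurable_id)).mul hwq
  have hm3 : Measurable (fun η : E m => wgt r (ξ - η) * p (ξ - η) * q η
      + p (ξ - η) * (wgt r η * q η)) := hm1.add hm2
  rw [← lintegral_add_left hm1, ← lintegral_const_mul _ hm, ← lintegral_const_mul _ hm3]
  refine lintegral_mono fun η => ?_
  calc wgt r ξ * (p (ξ - η) * q η)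
      ≤ (2 ^ r * (wgt r (ξ - η) + wgt r η)) * (p (ξ - η) * q η) :=
        mul_le_mul' (wgt_le_add r ξ η) le_rfl
    _ = 2 ^ r * (wgt r (ξ - η) * p (ξ - η) * q η + p (ξ - η) * (wgt r η * q η)) := by ring

theorem ennreal_absorb {X R : ℝ≥0∞} (hX : X ≠ ⊤) (h : X ≤ 1 / 2 * X + R) : X ≤ 2 * R := by
  have h2 : X / 2 ≠ ⊤ := (ENNReal.div_lt_top hX (by norm_num)).ne
  have h3 : X / 2 + X / 2 ≤ X / 2 + R := by
    rw [ENNReal.add_halves]
    calc X ≤ 1 / 2 * X + R := h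
      _ = X / 2 + R := by rw [one_div, mul_comm, ENNReal.div_eq_inv_mul, mul_comm]
  have h4 : X / 2 ≤ R := (ENNReal.add_le_add_iff_left h2).mp h3
  calc X = 2 * (X / 2) := (ENNReal.mul_div_cancel (by norm_num) (by norm_num)).symm
    _ ≤ 2 * R := mul_le_mul' le_rfl h4

/-- absorption without weight. -/
theorem absorb_zero {x β φ : E m → ℝ≥0∞} (hx : Measurable x) (hβ : Measurable β)
    (c : ℝ≥0∞) (h : ∀ ξ, x ξ ≤ c * cv β x ξ + φ ξ) (hfin : ∫⁻ ξ, x ξ < ⊤)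
    (hsmall : c * ∫⁻ ξ, β ξ ≤ 1 / 2) :
    ∫⁻ ξ, x ξ ≤ 2 * ∫⁻ ξ, φ ξ := by
  refine ennreal_absorb hfin.ne ?_
  have hc : Measurable (fun ξ => c * cv β x ξ) := (measurable_cv hβ hx).const_mul c
  calc ∫⁻ ξ, x ξ ≤ ∫⁻ ξ, (c * cv β x ξ + φ ξ) := lintegral_mono h
    _ = (∫⁻ ξ, c * cv β x ξ) + ∫⁻ ξ, φ ξ := lintegral_add_left hc _
    _ = c * ((∫⁻ ξ, β ξ) * ∫⁻ ξ, x ξ) + ∫⁻ ξ, φ ξ := by
        rw [lintegral_const_mul _ (measurable_cv hβ hx), lintegral_cv hβ hx]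
    _ = (c * ∫⁻ ξ, β ξ) * (∫⁻ ξ, x ξ) + ∫⁻ ξ, φ ξ := by rw [mul_assoc]
    _ ≤ 1 / 2 * (∫⁻ ξ, x ξ) + ∫⁻ ξ, φ ξ := by gcongr

theorem min_wgt_le (r N : ℕ) (ξ η : E m) :
    min (wgt r ξ) (N : ℝ≥0∞) ≤ 2 ^ r * wgt r (ξ - η) + 2 ^ r * min (wgt r η) (N : ℝ≥0∞) := by
  have h1 : (1 : ℝ≥0∞) ≤ 2 ^ r := one_le_pow₀ (by norm_num)
  rcases le_total (wgt r η) (N : ℝ≥0∞) with h | h
  · rw [min_eq_left h]
    calc min (wgt r ξ) (N : ℝ≥0∞) ≤ wgt r ξ := min_le_left _ _
      _ ≤ 2 ^ r * (wgt r (ξ - η) + wgt r η) := wgt_le_add r ξ η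
      _ = _ := mul_add _ _ _
  · rw [min_eq_right h]
    calc min (wgt r ξ) (N : ℝ≥0∞) ≤ N := min_le_right _ _
      _ = 1 * N := (one_mul _).symm
      _ ≤ 2 ^ r * N := mul_le_mul' h1 le_rfl
      _ ≤ 2 ^ r * wgt r (ξ - η) + 2 ^ r * N := le_add_self

/-- **Absorption lemma.** -/
theorem absorb (r : ℕ) {x β φ : E m → ℝ≥0∞} (hx : Measurable x) (hβ : Measurable β)
    (c : ℝ≥0∞) (h : ∀ ξ, x ξ ≤ c * cv β x ξ + φ ξ) (hfin : ∫⁻ ξ, x ξ < ⊤)
    (hsmall : c * 2 ^ r * ∫⁻ ξ, β ξ ≤ 1 / 2) :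
    ∫⁻ ξ, wgt r ξ * x ξ
      ≤ 2 * (c * 2 ^ r * (∫⁻ ξ, wgt r ξ * β ξ) * (∫⁻ ξ, x ξ) + ∫⁻ ξ, wgt r ξ * φ ξ) := by
  set R := c * 2 ^ r * (∫⁻ ξ, wgt r ξ * β ξ) * (∫⁻ ξ, x ξ) + ∫⁻ ξ, wgt r ξ * φ ξ with hR
  have hwN : ∀ N : ℕ, Measurable (fun ξ : E m => min (wgt r ξ) (N : ℝ≥0∞)) :=
    fun N => (measurable_wgt r).min measurable_const
  have hwNx : ∀ N : ℕ, Measurable (fun ξ : E m => min (wgt r ξ) (N : ℝ≥0∞) * x ξ) :=
    fun N => (hwN N).mul hx
  have hwβ : Measurable (fun ξ => wgt r ξ * β ξ) := (measurable_wgt r).mul hβ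
  -- the truncated estimate
  have key : ∀ N : ℕ, ∫⁻ ξ, min (wgt r ξ) (N : ℝ≥0∞) * x ξ ≤ 2 * R := by
    intro N
    have hfinN : ∫⁻ ξ, min (wgt r ξ) (N : ℝ≥0∞) * x ξ ≠ ⊤ := by
      refine ne_top_of_le_ne_top (b := (N : ℝ≥0∞) * ∫⁻ ξ, x ξ)
        (ENNReal.mul_ne_top (ENNReal.natCast_ne_top N) hfin.ne) ?_
      rw [← lintegral_const_mul _ hx]
      exact lintegral_mono fun ξ => mul_le_mul' (min_le_right _ _) le_rfl
    refine ennreal_absorb hfinN ?_
    have hcv : ∀ ξ, min (wgt r ξ) (N : ℝ≥0∞) * cv β x ξ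
        ≤ 2 ^ r * cv (fun ξ => wgt r ξ * β ξ) x ξ
          + 2 ^ r * cv β (fun ξ => min (wgt r ξ) (N : ℝ≥0∞) * x ξ) ξ := by
      intro ξ
      unfold cv
      have hm : Measurable (fun η : E m => β (ξ - η) * x η) :=
        (hβ.comp (measurable_const.sub measurable_id)).mul hx
      have hm1 : Measurable (fun η : E m => wgt r (ξ - η) * β (ξ - η) * x η) :=
        (hwβ.comp (measurable_const.sub measurable_id)).mul hx
      have hm2 : Measurable (fun η : E m => β (ξ - η) * (min (wgt r η) (N : ℝ≥0∞) * x η)) :=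
        (hβ.comp (measurable_const.sub measurable_id)).mul (hwNx N)
      have hm1' : Measurable (fun η : E m => 2 ^ r * (wgt r (ξ - η) * β (ξ - η) * x η)) :=
        hm1.const_mul _
      rw [← lintegral_const_mul _ hm, ← lintegral_const_mul _ hm1, ← lintegral_const_mul _ hm2,
        ← lintegral_add_left hm1']
      refine lintegral_mono fun η => ?_
      calc min (wgt r ξ) (N : ℝ≥0∞) * (β (ξ - η) * x η)
          ≤ (2 ^ r * wgt r (ξ - η) + 2 ^ r * min (wgt r η) (N : ℝ≥0∞)) * (β (ξ - η) * x η) :=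
            mul_le_mul' (min_wgt_le r N ξ η) le_rfl
        _ = _ := by ring
    have hA : Measurable (fun ξ => min (wgt r ξ) (N : ℝ≥0∞) * (c * cv β x ξ)) :=
      (hwN N).mul ((measurable_cv hβ hx).const_mul c)
    have hB1 : Measurable (fun ξ => 2 ^ r * cv (fun ξ => wgt r ξ * β ξ) x ξ) :=
      (measurable_cv hwβ hx).const_mul _
    have hB : Measurable (fun ξ => 2 ^ r * cv (fun ξ => wgt r ξ * β ξ) x ξ
        + 2 ^ r * cv β (fun ξ => min (wgt r ξ) (N : ℝ≥0∞) * x ξ) ξ) :=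
      hB1.add ((measurable_cv hβ (hwNx N)).const_mul _)
    calc ∫⁻ ξ, min (wgt r ξ) (N : ℝ≥0∞) * x ξ
        ≤ ∫⁻ ξ, (min (wgt r ξ) (N : ℝ≥0∞) * (c * cv β x ξ) + wgt r ξ * φ ξ) := by
          refine lintegral_mono fun ξ => ?_
          calc min (wgt r ξ) (N : ℝ≥0∞) * x ξ
              ≤ min (wgt r ξ) (N : ℝ≥0∞) * (c * cv β x ξ + φ ξ) := mul_le_mul' le_rfl (h ξ)
            _ = min (wgt r ξ) (N : ℝ≥0∞) * (c * cv β x ξ) + min (wgt r ξ) (N : ℝ≥0∞) * φ ξ :=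
              mul_add _ _ _
            _ ≤ _ := add_le_add le_rfl (mul_le_mul' (min_le_left _ _) le_rfl)
      _ = (∫⁻ ξ, min (wgt r ξ) (N : ℝ≥0∞) * (c * cv β x ξ)) + ∫⁻ ξ, wgt r ξ * φ ξ :=
          lintegral_add_left hA _
      _ ≤ (∫⁻ ξ, c * (2 ^ r * cv (fun ξ => wgt r ξ * β ξ) x ξ
            + 2 ^ r * cv β (fun ξ => min (wgt r ξ) (N : ℝ≥0∞) * x ξ) ξ)) + ∫⁻ ξ, wgt r ξ * φ ξ := by
          refine add_le_add (lintegral_mono fun ξ => ?_) le_rfl
          calc min (wgt r ξ) (N : ℝ≥0∞) * (c * cv β x ξ)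
              = c * (min (wgt r ξ) (N : ℝ≥0∞) * cv β x ξ) := by ring
            _ ≤ _ := mul_le_mul' le_rfl (hcv ξ)
      _ = c * (2 ^ r * ((∫⁻ ξ, wgt r ξ * β ξ) * ∫⁻ ξ, x ξ)
            + 2 ^ r * ((∫⁻ ξ, β ξ) * ∫⁻ ξ, min (wgt r ξ) (N : ℝ≥0∞) * x ξ))
            + ∫⁻ ξ, wgt r ξ * φ ξ := by
          rw [lintegral_const_mul _ hB, lintegral_add_left hB1,
            lintegral_const_mul _ (measurable_cv hwβ hx),
            lintegral_const_mul _ (measurable_cv hβ (hwNx N)), lintegral_cv hwβ hx,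
            lintegral_cv hβ (hwNx N)]
      _ = (c * 2 ^ r * ∫⁻ ξ, β ξ) * (∫⁻ ξ, min (wgt r ξ) (N : ℝ≥0∞) * x ξ) + R := by
          rw [hR]
          ring
      _ ≤ 1 / 2 * (∫⁻ ξ, min (wgt r ξ) (N : ℝ≥0∞) * x ξ) + R := by gcongr
  -- monotone convergence
  have hsup : ∀ ξ, wgt r ξ * x ξ = ⨆ N : ℕ, min (wgt r ξ) (N : ℝ≥0∞) * x ξ := by
    intro ξ
    apply le_antisymm
    · obtain ⟨N, hN⟩ := ENNReal.exists_nat_gt (wgt_lt_top r ξ).ne
      refine le_trans (le_of_eq ?_) (le_iSup _ N)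
      rw [min_eq_left hN.le]
    · exact iSup_le fun N => mul_le_mul' (min_le_left _ _) le_rfl
  simp only [hsup]
  rw [lintegral_iSup hwNx]
  · exact iSup_le key
  · intro N N' hNN' ξ
    exact mul_le_mul' (min_le_min le_rfl (by exact_mod_cast hNN')) le_rfl

end Claimed.Agent.R322.Fit
end

/- ===== packed: Claimed.Agent.R322.Fit.Wiener.Calc ===== -/
section
/-!
# Row 322, Fit/Wiener: the weighted Wiener scale `A^r` on `E m`

For `f : E m → ℂ`: `nA r f = ∫ (1 + |ξ|)^r |𝓕 f ξ| dξ`; `InA r f` : `f` is continuous, has compact support, `nA r f < ∞`.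

* `A^r ⊆ C^r` (`InA.contDiff`), `C^{r+m+1}_c ⊆ A^r` (`InA.of_contDiff`, `exists_nA_le`);
* `A^r` is an algebra (`InA.mul`, `nA_mul_le`, `nA_mul_le_tame`); `∂_a : A^{r+1} → A^r` (`InA.pdv`).

PLANS (everything is in Mathlib's `Analysis/Fourier/*`).
* `continuous_fourier`: `VectorFourier.fourierIntegral_continuous`.
* `InA.fourierInv`: `Continuous.fourierInv_fourier_eq`.
* `fourier_mul`: `P = 𝓕 f`, `Q = 𝓕 g` are continuous, bounded and integrable; `H = P ⋆ Q` is integrable and continuous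
  (`BddAbove.continuous_convolution_right_of_integrable`); `𝓕 H = 𝓕 P * 𝓕 Q` (`Real.fourier_mul_convolution_eq`),
  `𝓕 P y = f (-y)` (inversion and `Real.fourierInv_eq_fourier_neg`), so `𝓕⁻ H = f g`; `Continuous.fourier_fourierInv_eq` gives
  `𝓕 (f g) = H`.
* `InA.contDiff`: `f = 𝓕⁻ (𝓕 f) = (𝓕 (𝓕 f)) ∘ neg` and `Real.contDiff_fourier`.
* `fourier_pdv`: `Real.fourier_fderiv`, `Real.fourier_continuousLinearMap_apply`, `fourierSMulRight_apply`.
* `exists_nA_le`: `Real.pow_mul_norm_iteratedFDeriv_fourier_le` with `k = 0`, `n = 0` and `n = K = r + m + 1`: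
  `(1 + |ξ|)^K |𝓕 f ξ| ≤ 2^K (1 + |ξ|^K) |𝓕 f ξ| ≤ C S`, and `∫ (1 + |ξ|)^{-(m+1)} dξ < ∞` (`integrable_one_add_norm`).
-/

set_option autoImplicit false

open scoped ENNReal ContDiff Topology FourierTransform
open MeasureTheory

namespace Claimed.Agent.R322.Fit

variable {m : ℕ}

/-- partial derivative in the direction of the `a`-th basis vector. -/
noncomputable def pdv {F : Type*} [NormedAddCommGroup F] [NormedSpace ℝ F] (a : Fin m)
    (f : E m → F) (y : E m) : F :=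
  fderiv ℝ f y (EuclideanSpace.single a 1)

/-- weighted `𝓕L¹` norm. -/
noncomputable def nA (r : ℕ) (f : E m → ℂ) : ℝ≥0∞ := ∫⁻ ξ, wgt r ξ * ‖𝓕 f ξ‖ₑ

/-- the weighted Wiener class (compactly supported functions only). -/
structure InA (r : ℕ) (f : E m → ℂ) : Prop where
  cont : Continuous f
  supp : HasCompactSupport f
  fin : nA r f < ⊤

/-! ### basic facts -/

theorem continuous_fourier {f : E m → ℂ} (hf : Integrable f) : Continuous (𝓕 f) :=
  VectorFourier.fourierIntegral_continuous Real.continuous_fourierChar continuous_inner hf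

theorem fourier_add {f g : E m → ℂ} (hf : Integrable f) (hg : Integrable g) (ξ : E m) :
    𝓕 (fun y => f y + g y) ξ = 𝓕 f ξ + 𝓕 g ξ :=
  congrFun (VectorFourier.fourierIntegral_add Real.continuous_fourierChar continuous_inner hf hg) ξ

theorem fourier_const_mul (c : ℂ) (f : E m → ℂ) (ξ : E m) :
    𝓕 (fun y => c * f y) ξ = c * 𝓕 f ξ :=
  congrFun (VectorFourier.fourierIntegral_const_smul Real.fourierChar volume (innerₗ (E m)) f c) ξ

theorem fourier_zero (ξ : E m) : 𝓕 (fun _ : E m => (0 : ℂ)) ξ = 0 := by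
  rw [Real.fourier_eq]
  simp

theorem fourier_neg (f : E m → ℂ) (ξ : E m) : 𝓕 (fun y => - f y) ξ = - 𝓕 f ξ := by
  have := fourier_const_mul (-1) f ξ
  simpa using this

theorem fourier_sum {ι : Type*} (s : Finset ι) {f : ι → E m → ℂ} (h : ∀ i ∈ s, Integrable (f i))
    (ξ : E m) : 𝓕 (fun y => ∑ i ∈ s, f i y) ξ = ∑ i ∈ s, 𝓕 (f i) ξ := by
  classical
  induction s using Finset.induction_on with
  | empty => simpa using fourier_zero ξ
  | insert i s hi ih =>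
    simp only [Finset.sum_insert hi]
    rw [fourier_add (h i (Finset.mem_insert_self i s))
      (integrable_finsetSum s fun j hj => h j (Finset.mem_insert_of_mem hj)),
      ih fun j hj => h j (Finset.mem_insert_of_mem hj)]

theorem norm_fourier_le (f : E m → ℂ) (ξ : E m) : ‖𝓕 f ξ‖ ≤ ∫ y, ‖f y‖ :=
  VectorFourier.norm_fourierIntegral_le_integral_norm Real.fourierChar volume (innerₗ (E m)) f ξ

theorem nA_mono {r r' : ℕ} (h : r ≤ r') (f : E m → ℂ) : nA r f ≤ nA r' f :=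
  lintegral_mono fun ξ => mul_le_mul' (wgt_mono h ξ) le_rfl

theorem InA.mono {r r' : ℕ} {f : E m → ℂ} (h : InA r' f) (hr : r ≤ r') : InA r f :=
  ⟨h.cont, h.supp, (nA_mono hr f).trans_lt h.fin⟩

theorem InA.integrable {r : ℕ} {f : E m → ℂ} (h : InA r f) : Integrable f :=
  h.cont.integrable_of_hasCompactSupport h.supp

theorem InA.integrable_fourier {r : ℕ} {f : E m → ℂ} (h : InA r f) : Integrable (𝓕 f) := by
  refine ⟨(continuous_fourier h.integrable).aestronglyMeasurable, ?_⟩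
  refine lt_of_le_of_lt (lintegral_mono fun ξ => ?_) h.fin
  calc ‖𝓕 f ξ‖ₑ = 1 * ‖𝓕 f ξ‖ₑ := (one_mul _).symm
    _ ≤ wgt r ξ * ‖𝓕 f ξ‖ₑ := mul_le_mul' (one_le_wgt r ξ) le_rfl

theorem InA.integrable_pow_mul {r : ℕ} {f : E m → ℂ} (h : InA r f) {k : ℕ} (hk : k ≤ r) :
    Integrable (fun ξ => ‖ξ‖ ^ k * ‖𝓕 f ξ‖) := by
  have hc : Continuous (fun ξ : E m => ‖ξ‖ ^ k * ‖𝓕 f ξ‖) :=
    (continuous_norm.pow k).mul (continuous_fourier h.integrable).norm
  refine ⟨hc.aestronglyMeasurable, ?_⟩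
  refine lt_of_le_of_lt (lintegral_mono fun ξ => ?_) h.fin
  rw [enorm_mul, enorm_norm]
  refine mul_le_mul' ?_ le_rfl
  rw [Real.enorm_eq_ofReal (by positivity)]
  refine ENNReal.ofReal_le_ofReal ?_
  calc ‖ξ‖ ^ k ≤ (1 + ‖ξ‖) ^ k := pow_le_pow_left₀ (norm_nonneg _) (by linarith) k
    _ ≤ (1 + ‖ξ‖) ^ r := pow_le_pow_right₀ (one_le_base ξ) hk

theorem InA.fourierInv {r : ℕ} {f : E m → ℂ} (h : InA r f) : 𝓕⁻ (𝓕 f) = f :=
  h.cont.fourierInv_fourier_eq h.integrable h.integrable_fourier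

/-- two functions of the class with the same Fourier transform coincide. -/
theorem InA.ext {r : ℕ} {f g : E m → ℂ} (hf : InA r f) (hg : InA r g) (h : 𝓕 f = 𝓕 g) : f = g := by
  rw [← hf.fourierInv, ← hg.fourierInv, h]

/-- sup bound. -/
theorem InA.enorm_le {r : ℕ} {f : E m → ℂ} (h : InA r f) (y : E m) : ‖f y‖ₑ ≤ nA 0 f := by
  have h1 : f y = 𝓕⁻ (𝓕 f) y := by rw [h.fourierInv]
  rw [h1, Real.fourierInv_eq]
  refine (enorm_integral_le_lintegral_enorm _).trans (le_of_eq ?_)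
  unfold nA
  refine lintegral_congr fun ξ => ?_
  rw [wgt_zero, one_mul, enorm_eq_iff_norm_eq, Circle.norm_smul]

/-! ### linear structure -/

theorem InA.zero (r : ℕ) : InA r (fun _ : E m => (0 : ℂ)) := by
  refine ⟨continuous_const, HasCompactSupport.zero, ?_⟩
  unfold nA
  simp [fourier_zero]

theorem nA_add_le (r : ℕ) {f g : E m → ℂ} (hf : Integrable f) (hg : Integrable g) :
    nA r (fun y => f y + g y) ≤ nA r f + nA r g := by
  unfold nA
  have hm : Measurable (fun ξ => wgt r ξ * ‖𝓕 f ξ‖ₑ) :=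
    (measurable_wgt r).mul (continuous_fourier hf).measurable.enorm
  rw [← lintegral_add_left hm]
  refine lintegral_mono fun ξ => ?_
  rw [fourier_add hf hg, ← mul_add]
  exact mul_le_mul' le_rfl (enorm_add_le _ _)

theorem InA.add {r : ℕ} {f g : E m → ℂ} (hf : InA r f) (hg : InA r g) :
    InA r (fun y => f y + g y) :=
  ⟨hf.cont.add hg.cont, hf.supp.add hg.supp,
    (nA_add_le r hf.integrable hg.integrable).trans_lt (ENNReal.add_lt_top.mpr ⟨hf.fin, hg.fin⟩)⟩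

theorem nA_const_mul (r : ℕ) (c : ℂ) (f : E m → ℂ) :
    nA r (fun y => c * f y) = ‖c‖ₑ * nA r f := by
  unfold nA
  rw [← lintegral_const_mul' _ _ enorm_ne_top]
  refine lintegral_congr fun ξ => ?_
  rw [fourier_const_mul, enorm_mul]
  ring

theorem InA.const_mul {r : ℕ} {f : E m → ℂ} (hf : InA r f) (c : ℂ) : InA r (fun y => c * f y) :=
  ⟨continuous_const.mul hf.cont, hf.supp.mul_left, by
    rw [nA_const_mul]
    exact ENNReal.mul_lt_top enorm_lt_top hf.fin⟩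

theorem InA.neg {r : ℕ} {f : E m → ℂ} (hf : InA r f) : InA r (fun y => - f y) := by
  simpa using hf.const_mul (-1)

theorem InA.sub {r : ℕ} {f g : E m → ℂ} (hf : InA r f) (hg : InA r g) :
    InA r (fun y => f y - g y) := by
  simpa [sub_eq_add_neg] using hf.add hg.neg

theorem InA.sum {r : ℕ} {ι : Type*} (s : Finset ι) {f : ι → E m → ℂ} (h : ∀ i ∈ s, InA r (f i)) :
    InA r (fun y => ∑ i ∈ s, f i y) := by
  classical
  induction s using Finset.induction_on with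
  | empty => simpa using InA.zero (m := m) r
  | insert i s hi ih =>
    simp only [Finset.sum_insert hi]
    exact (h i (Finset.mem_insert_self i s)).add (ih fun j hj => h j (Finset.mem_insert_of_mem hj))

theorem nA_sum_le (r : ℕ) {ι : Type*} (s : Finset ι) {f : ι → E m → ℂ}
    (h : ∀ i ∈ s, Integrable (f i)) :
    nA r (fun y => ∑ i ∈ s, f i y) ≤ ∑ i ∈ s, nA r (f i) := by
  classical
  induction s using Finset.induction_on with
  | empty =>
    simp only [Finset.sum_empty, nonpos_iff_eq_zero]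
    unfold nA
    simp [fourier_zero]
  | insert i s hi ih =>
    simp only [Finset.sum_insert hi]
    refine (nA_add_le r (h i (Finset.mem_insert_self i s))
      (integrable_finsetSum s fun j hj => h j (Finset.mem_insert_of_mem hj))).trans ?_
    exact add_le_add le_rfl (ih fun j hj => h j (Finset.mem_insert_of_mem hj))

/-! ### products -/

/-- the Fourier transform of a product is the convolution of the Fourier transforms. -/
theorem fourier_mul {f g : E m → ℂ} (hf : InA 0 f) (hg : InA 0 g) (ξ : E m) :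
    𝓕 (fun y => f y * g y) ξ = ∫ η, 𝓕 f (ξ - η) * 𝓕 g η := by
  have hP : Integrable (𝓕 f) := hf.integrable_fourier
  have hQ : Integrable (𝓕 g) := hg.integrable_fourier
  have hPc : Continuous (𝓕 f) := continuous_fourier hf.integrable
  have hbdd : BddAbove (Set.range fun x => ‖𝓕 f x‖) :=
    ⟨∫ y, ‖f y‖, by rintro _ ⟨x, rfl⟩; exact norm_fourier_le f x⟩
  set H : E m → ℂ := convolution (𝓕 g) (𝓕 f) (ContinuousLinearMap.mul ℂ ℂ) volume with hH
  have hHint : Integrable H := hQ.integrable_convolution _ hP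
  have hHc : Continuous H := hbdd.continuous_convolution_right_of_integrable _ hQ hPc
  have hFH : ∀ y, 𝓕 H y = 𝓕 (𝓕 g) y * 𝓕 (𝓕 f) y := Real.fourier_mul_convolution_eq hQ hP
  have hFF : ∀ {h : E m → ℂ}, InA 0 h → ∀ y, 𝓕 (𝓕 h) y = h (-y) := by
    intro h hh y
    have := congrFun hh.fourierInv (-y)
    rwa [Real.fourierInv_eq_fourier_neg, neg_neg] at this
  have hinv : 𝓕⁻ H = fun y => f y * g y := by
    ext y
    rw [Real.fourierInv_eq_fourier_neg, hFH, hFF hf, hFF hg, neg_neg, mul_comm]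
  have hFHint : Integrable (𝓕 H) := by
    have h1 : 𝓕 H = fun y => g (-y) * f (-y) := by
      ext y
      rw [hFH, hFF hf, hFF hg]
    rw [h1]
    exact (((hg.cont.mul hf.cont).integrable_of_hasCompactSupport hg.supp.mul_right).comp_neg)
  have h2 := hHc.fourier_fourierInv_eq hHint hFHint
  rw [← hinv, h2, hH]
  show ∫ t, (ContinuousLinearMap.mul ℂ ℂ) (𝓕 g t) (𝓕 f (ξ - t)) = _
  simp only [ContinuousLinearMap.mul_apply', mul_comm]

theorem enorm_fourier_mul_le {f g : E m → ℂ} (hf : InA 0 f) (hg : InA 0 g) (ξ : E m) :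
    ‖𝓕 (fun y => f y * g y) ξ‖ₑ ≤ cv (fun ξ => ‖𝓕 f ξ‖ₑ) (fun ξ => ‖𝓕 g ξ‖ₑ) ξ := by
  rw [fourier_mul hf hg]
  refine (enorm_integral_le_lintegral_enorm _).trans (le_of_eq ?_)
  unfold cv
  simp only [enorm_mul]

theorem InA.measurable_enorm_fourier {r : ℕ} {f : E m → ℂ} (h : InA r f) :
    Measurable (fun ξ => ‖𝓕 f ξ‖ₑ) :=
  (continuous_fourier h.integrable).measurable.enorm

theorem nA_mul_le (r : ℕ) {f g : E m → ℂ} (hf : InA 0 f) (hg : InA 0 g) :
    nA r (fun y => f y * g y) ≤ nA r f * nA r g := by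
  refine le_trans (lintegral_mono fun ξ => mul_le_mul' le_rfl (enorm_fourier_mul_le hf hg ξ)) ?_
  exact lintegral_wgt_cv_le r hf.measurable_enorm_fourier hg.measurable_enorm_fourier

theorem nA_mul_le_tame (r : ℕ) {f g : E m → ℂ} (hf : InA 0 f) (hg : InA 0 g) :
    nA r (fun y => f y * g y) ≤ 2 ^ r * (nA r f * nA 0 g + nA 0 f * nA r g) := by
  refine le_trans (lintegral_mono fun ξ => mul_le_mul' le_rfl (enorm_fourier_mul_le hf hg ξ)) ?_
  have := lintegral_wgt_cv_le_tame r hf.measurable_enorm_fourier hg.measurable_enorm_fourier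
  simpa only [nA, wgt_zero, one_mul] using this

theorem InA.mul {r : ℕ} {f g : E m → ℂ} (hf : InA r f) (hg : InA r g) :
    InA r (fun y => f y * g y) :=
  ⟨hf.cont.mul hg.cont, hf.supp.mul_right,
    (nA_mul_le r (hf.mono (Nat.zero_le _)) (hg.mono (Nat.zero_le _))).trans_lt
      (ENNReal.mul_lt_top hf.fin hg.fin)⟩

/-! ### regularity -/

theorem InA.contDiff {r : ℕ} {f : E m → ℂ} (h : InA r f) : ContDiff ℝ r f := by
  have h1 : ContDiff ℝ ((r : ℕ∞)) (𝓕 (𝓕 f)) :=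
    Real.contDiff_fourier (fun n hn => h.integrable_pow_mul (by exact_mod_cast hn))
  have h2 : f = fun x => 𝓕 (𝓕 f) (-x) := by
    ext x
    have := congrFun h.fourierInv x
    rw [Real.fourierInv_eq_fourier_neg] at this
    exact this.symm
  rw [h2]
  exact h1.comp contDiff_neg

theorem fourier_pdv {f : E m → ℂ} (h : InA 1 f) (a : Fin m) (ξ : E m) :
    𝓕 (pdv a f) ξ = (2 * Real.pi * Complex.I * (ξ a : ℂ)) * 𝓕 f ξ := by
  have hc : ContDiff ℝ 1 f := h.contDiff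
  have hd : Differentiable ℝ f := hc.differentiable (by norm_num)
  have hfd : Integrable (fderiv ℝ f) :=
    (hc.continuous_fderiv (by norm_num)).integrable_of_hasCompactSupport (h.supp.fderiv ℝ)
  have h1 := Real.fourier_fderiv h.integrable hd hfd
  have h2 : 𝓕 (pdv a f) ξ = 𝓕 (fderiv ℝ f) ξ (EuclideanSpace.single a 1) :=
    (Real.fourier_continuousLinearMap_apply hfd).symm
  rw [h2, h1, VectorFourier.fourierSMulRight_apply]
  have h3 : (-innerSL ℝ : E m →L[ℝ] E m →L[ℝ] ℝ) ξ (EuclideanSpace.single a 1) = - ξ a := by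
    show -(inner ℝ ξ (EuclideanSpace.single a (1 : ℝ))) = - ξ a
    rw [EuclideanSpace.inner_single_right]
    simp
  rw [h3]
  simp only [smul_eq_mul, Complex.real_smul, Complex.ofReal_neg]
  ring

theorem nA_pdv_le (r : ℕ) {f : E m → ℂ} (h : InA 1 f) (a : Fin m) :
    nA r (pdv a f) ≤ ENNReal.ofReal (2 * Real.pi) * nA (r + 1) f := by
  unfold nA
  rw [← lintegral_const_mul' _ _ ENNReal.ofReal_ne_top]
  refine lintegral_mono fun ξ => ?_
  rw [fourier_pdv h, enorm_mul, wgt_add]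
  have h1 : ‖(2 * Real.pi * Complex.I * (ξ a : ℂ))‖ₑ ≤ ENNReal.ofReal (2 * Real.pi) * wgt 1 ξ := by
    unfold wgt
    rw [← ENNReal.ofReal_mul (by positivity), ← ofReal_norm]
    refine ENNReal.ofReal_le_ofReal ?_
    have h2 : ‖(2 * Real.pi * Complex.I * (ξ a : ℂ))‖ = 2 * Real.pi * |ξ a| := by
      simp [abs_of_pos Real.pi_pos]
    rw [h2, pow_one]
    have h3 : |ξ a| ≤ ‖ξ‖ := by
      have := PiLp.norm_apply_le ξ a
      simpa using this
    have := Real.pi_pos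
    nlinarith
  calc wgt r ξ * (‖(2 * Real.pi * Complex.I * (ξ a : ℂ))‖ₑ * ‖𝓕 f ξ‖ₑ)
      ≤ wgt r ξ * ((ENNReal.ofReal (2 * Real.pi) * wgt 1 ξ) * ‖𝓕 f ξ‖ₑ) := by gcongr
    _ = _ := by ring

theorem InA.pdv {r : ℕ} {f : E m → ℂ} (h : InA (r + 1) f) (a : Fin m) : InA r (pdv a f) := by
  have hc : ContDiff ℝ 1 f := h.contDiff.of_le (by exact_mod_cast Nat.le_add_left 1 r)
  refine ⟨(hc.continuous_fderiv (by norm_num)).clm_apply continuous_const, ?_, ?_⟩
  · exact (h.supp.fderiv ℝ).comp_left (g := fun L : E m →L[ℝ] ℂ => L (EuclideanSpace.single a 1))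
      (by simp)
  · exact (nA_pdv_le r (h.mono (Nat.le_add_left 1 r)) a).trans_lt
      (ENNReal.mul_lt_top ENNReal.ofReal_lt_top h.fin)

/-- quantitative embedding `C^{r+m+1}_c ⊆ A^r`. -/
theorem exists_nA_le (m r : ℕ) : ∃ C : ℝ, 0 ≤ C ∧ ∀ f : E m → ℂ,
    ContDiff ℝ (r + m + 1 : ℕ) f → HasCompactSupport f →
    nA r f ≤ ENNReal.ofReal
      (C * ∑ j ∈ Finset.range (r + m + 2), ∫ y, ‖iteratedFDeriv ℝ j f y‖) := by
  have hI : Integrable (fun x : E m => (1 + ‖x‖) ^ (-((m : ℝ) + 1))) :=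
    integrable_one_add_norm (by rw [finrank_euclideanSpace_fin]; linarith)
  set I : ℝ := ∫ x : E m, (1 + ‖x‖) ^ (-((m : ℝ) + 1)) with hIdef
  have hI0 : 0 ≤ I := integral_nonneg fun x => by positivity
  set K : ℕ := r + m + 1 with hK
  refine ⟨(2 ^ (K - 1) * (1 + 2 ^ K)) * I, by positivity, ?_⟩
  intro f hf hc
  set S : ℝ := ∑ j ∈ Finset.range (r + m + 2), ∫ y, ‖iteratedFDeriv ℝ j f y‖ with hS
  have hterm : ∀ j ∈ Finset.range (r + m + 2), 0 ≤ ∫ y, ‖iteratedFDeriv ℝ j f y‖ :=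
    fun j _ => integral_nonneg fun y => norm_nonneg _
  have hS0 : 0 ≤ S := Finset.sum_nonneg hterm
  have hint : ∀ (k n : ℕ), (k : ℕ∞) ≤ (0 : ℕ∞) → (n : ℕ∞) ≤ (K : ℕ∞) →
      Integrable (fun v : E m => ‖v‖ ^ k * ‖iteratedFDeriv ℝ n f v‖) := by
    intro k n _ hn
    have h1 : Continuous (fun v : E m => ‖v‖ ^ k * ‖iteratedFDeriv ℝ n f v‖) :=
      (continuous_norm.pow k).mul (hf.continuous_iteratedFDeriv (by exact_mod_cast hn)).norm
    refine h1.integrable_of_hasCompactSupport ?_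
    exact ((hc.iteratedFDeriv n).norm).mul_left
  -- the two pointwise bounds
  have hb0 : ∀ w : E m, ‖𝓕 f w‖ ≤ S := by
    intro w
    refine (norm_fourier_le f w).trans ?_
    have : ∫ y, ‖f y‖ = ∫ y, ‖iteratedFDeriv ℝ 0 f y‖ := by simp
    rw [this]
    exact Finset.single_le_sum hterm (Finset.mem_range.mpr (by omega))
  have hbK : ∀ w : E m, ‖w‖ ^ K * ‖𝓕 f w‖ ≤ 2 ^ K * S := by
    intro w
    have h1 := Real.pow_mul_norm_iteratedFDeriv_fourier_le (K := 0) (N := (K : ℕ∞))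
      (f := f) (by exact_mod_cast hf) hint (k := 0) (n := K) le_rfl le_rfl w
    simp only [norm_iteratedFDeriv_zero, pow_zero, one_mul, Nat.cast_zero, mul_zero, zero_add,
      Finset.range_one, Finset.singleton_product, Finset.sum_map, Function.Embedding.coeFn_mk]
      at h1
    exact h1
  have hmain : ∀ w : E m, (1 + ‖w‖) ^ r * ‖𝓕 f w‖
      ≤ (2 ^ (K - 1) * (1 + 2 ^ K)) * S * (1 + ‖w‖) ^ (-((m : ℝ) + 1)) := by
    intro w
    have hpos : 0 < 1 + ‖w‖ := by positivity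
    have h1 : (1 + ‖w‖) ^ K ≤ 2 ^ (K - 1) * (1 ^ K + ‖w‖ ^ K) :=
      add_pow_le zero_le_one (norm_nonneg w) K
    have h2 : (1 + ‖w‖) ^ K * ‖𝓕 f w‖ ≤ (2 ^ (K - 1) * (1 + 2 ^ K)) * S := by
      calc (1 + ‖w‖) ^ K * ‖𝓕 f w‖ ≤ (2 ^ (K - 1) * (1 ^ K + ‖w‖ ^ K)) * ‖𝓕 f w‖ :=
            mul_le_mul_of_nonneg_right h1 (norm_nonneg _)
        _ = 2 ^ (K - 1) * (‖𝓕 f w‖ + ‖w‖ ^ K * ‖𝓕 f w‖) := by rw [one_pow]; ring
        _ ≤ 2 ^ (K - 1) * (S + 2 ^ K * S) :=
            mul_le_mul_of_nonneg_left (add_le_add (hb0 w) (hbK w)) (by positivity)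
        _ = _ := by ring
    have h3 : (1 + ‖w‖) ^ (-((m : ℝ) + 1)) = ((1 + ‖w‖) ^ (m + 1))⁻¹ := by
      rw [Real.rpow_neg hpos.le]
      congr 1
      exact_mod_cast Real.rpow_natCast (1 + ‖w‖) (m + 1)
    rw [h3, ← div_eq_mul_inv, le_div_iff₀ (by positivity)]
    calc (1 + ‖w‖) ^ r * ‖𝓕 f w‖ * (1 + ‖w‖) ^ (m + 1) = (1 + ‖w‖) ^ K * ‖𝓕 f w‖ := by
          rw [hK, add_assoc, pow_add]; ring
      _ ≤ _ := h2
  have hint2 : Integrable (fun w : E m =>
      (2 ^ (K - 1) * (1 + 2 ^ K)) * S * (1 + ‖w‖) ^ (-((m : ℝ) + 1))) := hI.const_mul _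
  calc nA r f = ∫⁻ w, ENNReal.ofReal ((1 + ‖w‖) ^ r * ‖𝓕 f w‖) := by
        unfold nA wgt
        refine lintegral_congr fun w => ?_
        rw [ENNReal.ofReal_mul (by positivity), ofReal_norm]
    _ ≤ ∫⁻ w, ENNReal.ofReal ((2 ^ (K - 1) * (1 + 2 ^ K)) * S * (1 + ‖w‖) ^ (-((m : ℝ) + 1))) :=
        lintegral_mono fun w => ENNReal.ofReal_le_ofReal (hmain w)
    _ = ENNReal.ofReal (∫ w : E m, (2 ^ (K - 1) * (1 + 2 ^ K)) * S
          * (1 + ‖w‖) ^ (-((m : ℝ) + 1))) :=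
        (ofReal_integral_eq_lintegral_ofReal hint2
          (Filter.Eventually.of_forall fun w => by positivity)).symm
    _ = ENNReal.ofReal ((2 ^ (K - 1) * (1 + 2 ^ K)) * I * S) := by
        rw [integral_const_mul]
        congr 1
        ring

theorem InA.of_contDiff {r : ℕ} {f : E m → ℂ} (hf : ContDiff ℝ (r + m + 1 : ℕ) f)
    (hc : HasCompactSupport f) : InA r f := by
  obtain ⟨C, -, h⟩ := exists_nA_le m r
  exact ⟨hf.continuous, hc, (h f hf hc).trans_lt ENNReal.ofReal_lt_top⟩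

/-- smooth compactly supported functions belong to every class. -/
theorem InA.of_smooth {f : E m → ℂ} (hf : ContDiff ℝ ∞ f) (hc : HasCompactSupport f) (r : ℕ) :
    InA r f :=
  InA.of_contDiff (hf.of_le (by exact_mod_cast le_top)) hc

/-! ### real valued functions -/

/-- a real function as a complex function. -/
def cx (f : E m → ℝ) (y : E m) : ℂ := (f y : ℂ)

theorem contDiff_cx {k : ℕ∞} {f : E m → ℝ} (hf : ContDiff ℝ k f) : ContDiff ℝ k (cx f) :=
  Complex.ofRealCLM.contDiff.comp hf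

theorem contDiff_of_cx {k : ℕ∞} {f : E m → ℝ} (hf : ContDiff ℝ k (cx f)) : ContDiff ℝ k f := by
  have : f = fun y => Complex.reCLM (cx f y) := by
    ext y
    simp [cx]
  rw [this]
  exact Complex.reCLM.contDiff.comp hf

theorem hasCompactSupport_cx {f : E m → ℝ} (hf : HasCompactSupport f) :
    HasCompactSupport (cx f) :=
  hf.comp_left (g := fun x : ℝ => (x : ℂ)) (by simp)

theorem pdv_cx {f : E m → ℝ} (a : Fin m) {y : E m} (hf : DifferentiableAt ℝ f y) :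
    pdv a (cx f) y = cx (pdv a f) y := by
  have h1 : HasFDerivAt (cx f) (Complex.ofRealCLM ∘L fderiv ℝ f y) y :=
    Complex.ofRealCLM.hasFDerivAt.comp y hf.hasFDerivAt
  unfold pdv
  rw [h1.fderiv]
  rfl

end Claimed.Agent.R322.Fit
end

/- ===== packed: Claimed.Agent.R322.Fit.Wiener.Elliptic ===== -/
section
/-!
# Row 322, Fit/Wiener: the elliptic step and the inverse step in the Wiener scale

* `elliptic_step` : `a₀ D²w = - b D²w + F`, `a₀` constant (complex) elliptic, `w ∈ A²`, `b, F ∈ A^r`, `b` small in `A⁰`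
  `⟹ w ∈ A^{r+2}`.
* `inverse_step` : `Y = S - a₀ N Y` (matrices of functions), `N, S ∈ A^r`, `Y ∈ A⁰`, `N` small in `A⁰` `⟹ Y ∈ A^r`.

PLANS.
* `elliptic_step`.  Put `x ξ = ‖ξ‖² ‖𝓕 w ξ‖ₑ`, `β ξ = ∑ₐ∑_c ‖𝓕 (b a c) ξ‖ₑ`, `φ ξ = (4π²κ)⁻¹ ‖𝓕 F ξ‖ₑ`.
  Fourier transform of the equation (`fourier_pdv` twice, `fourier_mul`, linearity of `𝓕` on integrable functions):
  `-4π² (∑ a₀ ξ_a ξ_c) 𝓕 w ξ = 4π² ∑ ∫ 𝓕 (b a c) (ξ - η) η_a η_c 𝓕 w η dη + 𝓕 F ξ`; with `|η_a η_c| ≤ ‖η‖²` and ellipticity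
  `x ξ ≤ κ⁻¹ cv β x ξ + φ ξ`.  `∫ x < ∞` since `w ∈ A²`.  `absorb r` gives `∫ wgt r * x < ∞`; finally
  `wgt (r+2) ξ ≤ 2 (wgt r ξ + wgt r ξ ‖ξ‖²)`... and on `‖ξ‖ ≤ 1` use `wgt (r+2) ≤ 2^r wgt 2`; so `nA (r+2) w < ∞`.
* `inverse_step`.  `x ξ = ∑ₐ∑_c ‖𝓕 (Y a c) ξ‖ₑ`, `β ξ = ∑∑ ‖𝓕 (N d e) ξ‖ₑ`, `φ = ∑∑ ‖𝓕 (S a c)‖ₑ`, `x ≤ K m cv β x + φ`
  (each `‖𝓕 (Y e c)‖ₑ ≤ x`, each `‖𝓕 (N d e)‖ₑ ≤ β`; the sum over `a` gives the factor `m`...: be generous, the constant in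
  `hsmall` is `K m²`).  `absorb r` and `absorb_zero`.
-/

set_option autoImplicit false

open scoped ENNReal ContDiff Topology FourierTransform
open MeasureTheory

namespace Claimed.Agent.R322.Fit

variable {m : ℕ}

/-! ### auxiliary facts -/

theorem cv_sum_left {ι : Type*} (s : Finset ι) {p : ι → E m → ℝ≥0∞} {q : E m → ℝ≥0∞}
    (hp : ∀ i ∈ s, Measurable (p i)) (hq : Measurable q) (ξ : E m) :
    cv (fun ξ => ∑ i ∈ s, p i ξ) q ξ = ∑ i ∈ s, cv (p i) q ξ := by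
  unfold cv
  simp only [Finset.sum_mul]
  exact lintegral_finsetSum s fun i hi =>
    ((hp i hi).comp (measurable_const.sub measurable_id)).mul hq

theorem cv_const_mul_right (c : ℝ≥0∞) {p q : E m → ℝ≥0∞} (hp : Measurable p) (hq : Measurable q)
    (ξ : E m) : cv p (fun η => c * q η) ξ = c * cv p q ξ := by
  unfold cv
  have hm : Measurable (fun η : E m => p (ξ - η) * q η) :=
    (hp.comp (measurable_const.sub measurable_id)).mul hq
  rw [← lintegral_const_mul _ hm]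
  refine lintegral_congr fun η => ?_
  ring

theorem abs_apply_le_norm (ξ : E m) (a : Fin m) : |ξ a| ≤ ‖ξ‖ := by
  have := PiLp.norm_apply_le ξ a
  simpa using this

theorem fourier_pdv_pdv {w : E m → ℂ} (hw : InA 2 w) (a c : Fin m) (ξ : E m) :
    𝓕 (pdv a (pdv c w)) ξ
      = -(4 * (Real.pi : ℂ) ^ 2) * (((ξ a : ℝ) : ℂ) * ((ξ c : ℝ) : ℂ)) * 𝓕 w ξ := by
  rw [fourier_pdv (hw.pdv c) a, fourier_pdv (hw.mono (by norm_num)) c]
  have : Complex.I * Complex.I = -1 := Complex.I_mul_I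
  linear_combination (4 * (Real.pi : ℂ) ^ 2 * ((ξ a : ℝ) : ℂ) * ((ξ c : ℝ) : ℂ) * 𝓕 w ξ) * this

theorem enorm_fourier_pdv_pdv_le {w : E m → ℂ} (hw : InA 2 w) (a c : Fin m) (ξ : E m) :
    ‖𝓕 (pdv a (pdv c w)) ξ‖ₑ
      ≤ ENNReal.ofReal (4 * Real.pi ^ 2) * (ENNReal.ofReal (‖ξ‖ ^ 2) * ‖𝓕 w ξ‖ₑ) := by
  rw [fourier_pdv_pdv hw, enorm_mul, ← mul_assoc (ENNReal.ofReal (4 * Real.pi ^ 2))]
  refine mul_le_mul' ?_ le_rfl
  rw [← ENNReal.ofReal_mul (by positivity), ← ofReal_norm]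
  refine ENNReal.ofReal_le_ofReal ?_
  have h1 : ‖-(4 * (Real.pi : ℂ) ^ 2) * (((ξ a : ℝ) : ℂ) * ((ξ c : ℝ) : ℂ))‖
      = 4 * Real.pi ^ 2 * (|ξ a| * |ξ c|) := by
    simp [abs_of_pos Real.pi_pos]
  rw [h1]
  have h2 := abs_apply_le_norm ξ a
  have h3 := abs_apply_le_norm ξ c
  have h4 : |ξ a| * |ξ c| ≤ ‖ξ‖ ^ 2 := by
    rw [sq]
    exact mul_le_mul h2 h3 (abs_nonneg _) (norm_nonneg _)
  exact mul_le_mul_of_nonneg_left h4 (by positivity)

theorem wgt_add_two_le (r : ℕ) (ξ : E m) :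
    wgt (r + 2) ξ ≤ 2 ^ r * wgt 2 ξ + 4 * (wgt r ξ * ENNReal.ofReal (‖ξ‖ ^ 2)) := by
  have h2 : (2 : ℝ≥0∞) ^ r = ENNReal.ofReal (2 ^ r) := by
    rw [ENNReal.ofReal_pow (by norm_num)]
    simp
  have h4 : (4 : ℝ≥0∞) = ENNReal.ofReal 4 := by simp
  unfold wgt
  rw [h2, h4, ← ENNReal.ofReal_mul (by positivity), ← ENNReal.ofReal_mul (by positivity),
    ← ENNReal.ofReal_mul (by positivity), ← ENNReal.ofReal_add (by positivity) (by positivity)]
  refine ENNReal.ofReal_le_ofReal ?_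
  set t := ‖ξ‖ with ht
  have ht0 : 0 ≤ t := norm_nonneg ξ
  rcases le_total t 1 with h | h
  · have h1 : (1 + t) ^ r ≤ 2 ^ r := pow_le_pow_left₀ (by positivity) (by linarith) r
    have h3 : 0 ≤ 4 * ((1 + t) ^ r * t ^ 2) := by positivity
    calc (1 + t) ^ (r + 2) = (1 + t) ^ r * (1 + t) ^ 2 := pow_add _ _ _
      _ ≤ 2 ^ r * (1 + t) ^ 2 := mul_le_mul_of_nonneg_right h1 (by positivity)
      _ ≤ _ := by linarith
  · have h1 : (1 + t) ^ 2 ≤ 4 * t ^ 2 := by nlinarith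
    have h3 : 0 ≤ (2 : ℝ) ^ r * (1 + t) ^ 2 := by positivity
    calc (1 + t) ^ (r + 2) = (1 + t) ^ r * (1 + t) ^ 2 := pow_add _ _ _
      _ ≤ (1 + t) ^ r * (4 * t ^ 2) := mul_le_mul_of_nonneg_left h1 (by positivity)
      _ = 4 * ((1 + t) ^ r * t ^ 2) := by ring
      _ ≤ _ := by linarith

/-- the estimate behind `elliptic_step` and `elliptic_step_bound`. -/
theorem elliptic_core (r : ℕ) {w F : E m → ℂ} {b : Fin m → Fin m → E m → ℂ}
    {a₀ : Fin m → Fin m → ℂ} {κ : ℝ} (hκ : 0 < κ)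
    (hell : ∀ ξ : E m, κ * ‖ξ‖ ^ 2 ≤ ‖∑ a, ∑ c, a₀ a c * ((ξ a : ℝ) : ℂ) * ((ξ c : ℝ) : ℂ)‖)
    (hw : InA 2 w) (hb : ∀ a c, InA r (b a c)) (hF : InA r F)
    (heq : ∀ y, ∑ a, ∑ c, a₀ a c * pdv a (pdv c w) y
      = - ∑ a, ∑ c, b a c y * pdv a (pdv c w) y + F y)
    (hsmall : ENNReal.ofReal (2 ^ r / κ) * ∑ a, ∑ c, nA 0 (b a c) ≤ 1 / 2) :
    nA (r + 2) w ≤ 2 ^ r * nA 2 w + 8 * (ENNReal.ofReal (2 ^ r / κ) * (∑ a, ∑ c, nA r (b a c))
      * nA 2 w + ENNReal.ofReal ((4 * Real.pi ^ 2 * κ)⁻¹) * nA r F) := by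
  have hπ : 0 < 4 * Real.pi ^ 2 := by positivity
  set g : Fin m → Fin m → E m → ℂ := fun a c => pdv a (pdv c w) with hg
  have hgA : ∀ a c, InA 0 (g a c) := fun a c => (hw.pdv c).pdv a
  have hb0 : ∀ a c, InA 0 (b a c) := fun a c => (hb a c).mono (Nat.zero_le _)
  have hbg : ∀ a c, InA 0 (fun y => b a c y * g a c y) := fun a c => (hb0 a c).mul (hgA a c)
  set x : E m → ℝ≥0∞ := fun ξ => ENNReal.ofReal (‖ξ‖ ^ 2) * ‖𝓕 w ξ‖ₑ with hx
  set β : E m → ℝ≥0∞ := fun ξ => ∑ a, ∑ c, ‖𝓕 (b a c) ξ‖ₑ with hβ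
  set φ : E m → ℝ≥0∞ := fun ξ => ENNReal.ofReal ((4 * Real.pi ^ 2 * κ)⁻¹) * ‖𝓕 F ξ‖ₑ with hφ
  have hxm : Measurable x :=
    (ENNReal.measurable_ofReal.comp (measurable_norm.pow_const 2)).mul hw.measurable_enorm_fourier
  have hβm1 : ∀ a, Measurable (fun ξ => ∑ c, ‖𝓕 (b a c) ξ‖ₑ) := fun a =>
    Finset.measurable_sum _ fun c _ => (hb a c).measurable_enorm_fourier
  have hβm : Measurable β := Finset.measurable_sum _ fun a _ => hβm1 a
  -- the equation on the Fourier side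
  have hL : ∀ ξ, 𝓕 (fun y => ∑ a, ∑ c, a₀ a c * g a c y) ξ
      = -(4 * (Real.pi : ℂ) ^ 2) * (∑ a, ∑ c, a₀ a c * ((ξ a : ℝ) : ℂ) * ((ξ c : ℝ) : ℂ))
        * 𝓕 w ξ := by
    intro ξ
    rw [fourier_sum _ fun a _ => (InA.sum _ fun c _ => (hgA a c).const_mul (a₀ a c)).integrable]
    simp only [Finset.mul_sum, Finset.sum_mul]
    refine Finset.sum_congr rfl fun a _ => ?_
    rw [fourier_sum _ fun c _ => ((hgA a c).const_mul (a₀ a c)).integrable]
    refine Finset.sum_congr rfl fun c _ => ?_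
    rw [fourier_const_mul, hg, fourier_pdv_pdv hw]
    ring
  have hR : ∀ ξ, 𝓕 (fun y => - ∑ a, ∑ c, b a c y * g a c y + F y) ξ
      = - ∑ a, ∑ c, 𝓕 (fun y => b a c y * g a c y) ξ + 𝓕 F ξ := by
    intro ξ
    have h1 : InA 0 (fun y => ∑ a, ∑ c, b a c y * g a c y) :=
      InA.sum _ fun a _ => InA.sum _ fun c _ => hbg a c
    rw [fourier_add h1.neg.integrable hF.integrable, fourier_neg,
      fourier_sum _ fun a _ => (InA.sum _ fun c _ => hbg a c).integrable]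
    congr 2
    refine Finset.sum_congr rfl fun a _ => ?_
    rw [fourier_sum _ fun c _ => (hbg a c).integrable]
  have hE : ∀ ξ, -(4 * (Real.pi : ℂ) ^ 2) *
      (∑ a, ∑ c, a₀ a c * ((ξ a : ℝ) : ℂ) * ((ξ c : ℝ) : ℂ)) * 𝓕 w ξ
      = - ∑ a, ∑ c, 𝓕 (fun y => b a c y * g a c y) ξ + 𝓕 F ξ := by
    intro ξ
    rw [← hL, ← hR]
    have : (fun y => ∑ a, ∑ c, a₀ a c * g a c y)
        = fun y => - ∑ a, ∑ c, b a c y * g a c y + F y := funext heq
    rw [this]
  -- the pointwise inequality, multiplied by `4π²κ`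
  have hpt1 : ∀ ξ, ENNReal.ofReal (4 * Real.pi ^ 2 * κ) * x ξ
      ≤ ENNReal.ofReal (4 * Real.pi ^ 2) * cv β x ξ + ‖𝓕 F ξ‖ₑ := by
    intro ξ
    have h1 : ENNReal.ofReal (4 * Real.pi ^ 2 * κ) * x ξ
        ≤ ‖-(4 * (Real.pi : ℂ) ^ 2) *
          (∑ a, ∑ c, a₀ a c * ((ξ a : ℝ) : ℂ) * ((ξ c : ℝ) : ℂ)) * 𝓕 w ξ‖ₑ := by
      rw [enorm_mul, hx, ← mul_assoc]
      refine mul_le_mul' ?_ le_rfl
      rw [← ENNReal.ofReal_mul (by positivity), ← ofReal_norm]
      refine ENNReal.ofReal_le_ofReal ?_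
      rw [norm_mul]
      have h2 : ‖-(4 * (Real.pi : ℂ) ^ 2)‖ = 4 * Real.pi ^ 2 := by
        simp [abs_of_pos Real.pi_pos]
      rw [h2, mul_assoc]
      exact mul_le_mul_of_nonneg_left (hell ξ) hπ.le
    have h3 : ∀ a c, ‖𝓕 (fun y => b a c y * g a c y) ξ‖ₑ
        ≤ ENNReal.ofReal (4 * Real.pi ^ 2) * cv (fun ξ => ‖𝓕 (b a c) ξ‖ₑ) x ξ := by
      intro a c
      refine (enorm_fourier_mul_le (hb0 a c) (hgA a c) ξ).trans ?_
      rw [← cv_const_mul_right _ (hb a c).measurable_enorm_fourier hxm]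
      exact cv_mono (fun _ => le_rfl) (fun η => enorm_fourier_pdv_pdv_le hw a c η) ξ
    have h4 : cv β x ξ = ∑ a, ∑ c, cv (fun ξ => ‖𝓕 (b a c) ξ‖ₑ) x ξ := by
      rw [hβ, cv_sum_left _ (fun a _ => hβm1 a) hxm]
      refine Finset.sum_congr rfl fun a _ => ?_
      rw [cv_sum_left _ (fun c _ => (hb a c).measurable_enorm_fourier) hxm]
    refine h1.trans ?_
    rw [hE]
    refine (enorm_add_le _ _).trans (add_le_add ?_ le_rfl)
    rw [enorm_neg, h4, Finset.mul_sum]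
    refine (enorm_sum_le _ _).trans (Finset.sum_le_sum fun a _ => ?_)
    rw [Finset.mul_sum]
    exact (enorm_sum_le _ _).trans (Finset.sum_le_sum fun c _ => h3 a c)
  have hpt : ∀ ξ, x ξ ≤ ENNReal.ofReal κ⁻¹ * cv β x ξ + φ ξ := by
    intro ξ
    have hA0 : ENNReal.ofReal (4 * Real.pi ^ 2 * κ) ≠ 0 := by
      rw [Ne, ENNReal.ofReal_eq_zero, not_le]
      positivity
    have hAt : ENNReal.ofReal (4 * Real.pi ^ 2 * κ) ≠ ⊤ := ENNReal.ofReal_ne_top
    have hinv : (ENNReal.ofReal (4 * Real.pi ^ 2 * κ))⁻¹ = ENNReal.ofReal ((4 * Real.pi ^ 2 * κ)⁻¹) :=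
      (ENNReal.ofReal_inv_of_pos (by positivity)).symm
    calc x ξ = (ENNReal.ofReal (4 * Real.pi ^ 2 * κ))⁻¹ * (ENNReal.ofReal (4 * Real.pi ^ 2 * κ) * x ξ) := by
          rw [← mul_assoc, ENNReal.inv_mul_cancel hA0 hAt, one_mul]
      _ ≤ (ENNReal.ofReal (4 * Real.pi ^ 2 * κ))⁻¹ *
            (ENNReal.ofReal (4 * Real.pi ^ 2) * cv β x ξ + ‖𝓕 F ξ‖ₑ) := mul_le_mul' le_rfl (hpt1 ξ)
      _ = ENNReal.ofReal κ⁻¹ * cv β x ξ + φ ξ := by
          rw [mul_add, ← mul_assoc, hinv, ← ENNReal.ofReal_mul (by positivity), hφ]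
          congr 3
          field_simp
  -- integrals
  have hx2 : ∫⁻ ξ, x ξ ≤ nA 2 w := by
    refine lintegral_mono fun ξ => mul_le_mul' ?_ le_rfl
    refine ENNReal.ofReal_le_ofReal (pow_le_pow_left₀ (norm_nonneg _) ?_ 2)
    linarith
  have hxfin : ∫⁻ ξ, x ξ < ⊤ := hx2.trans_lt hw.fin
  have hβint : ∀ s : ℕ, ∫⁻ ξ, wgt s ξ * β ξ = ∑ a, ∑ c, nA s (b a c) := by
    intro s
    have hm : ∀ a c, Measurable (fun ξ => wgt s ξ * ‖𝓕 (b a c) ξ‖ₑ) := fun a c =>
      (measurable_wgt s).mul (hb a c).measurable_enorm_fourier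
    have hm' : ∀ a, Measurable (fun ξ => ∑ c, wgt s ξ * ‖𝓕 (b a c) ξ‖ₑ) := fun a =>
      Finset.measurable_sum _ fun c _ => hm a c
    simp only [hβ, Finset.mul_sum]
    rw [lintegral_finsetSum _ fun a _ => hm' a]
    refine Finset.sum_congr rfl fun a _ => ?_
    rw [lintegral_finsetSum _ fun c _ => hm a c]
    rfl
  have hβ0 : ∫⁻ ξ, β ξ = ∑ a, ∑ c, nA 0 (b a c) := by
    rw [← hβint 0]
    simp only [wgt_zero, one_mul]
  have hc2 : ENNReal.ofReal κ⁻¹ * 2 ^ r = ENNReal.ofReal (2 ^ r / κ) := by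
    have h2 : (2 : ℝ≥0∞) ^ r = ENNReal.ofReal (2 ^ r) := by
      rw [ENNReal.ofReal_pow (by norm_num)]
      simp
    rw [h2, ← ENNReal.ofReal_mul (by positivity)]
    congr 1
    field_simp
  have hφint : ∫⁻ ξ, wgt r ξ * φ ξ = ENNReal.ofReal ((4 * Real.pi ^ 2 * κ)⁻¹) * nA r F := by
    unfold nA
    rw [← lintegral_const_mul' _ _ ENNReal.ofReal_ne_top]
    refine lintegral_congr fun ξ => ?_
    rw [hφ]
    ring
  have habs := absorb r hxm hβm (ENNReal.ofReal κ⁻¹) hpt hxfin (by rw [hc2, hβ0]; exact hsmall)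
  rw [hc2, hβint r, hφint] at habs
  -- conclusion
  have hwm0 : Measurable (fun ξ => wgt 2 ξ * ‖𝓕 w ξ‖ₑ) :=
    (measurable_wgt 2).mul hw.measurable_enorm_fourier
  have hwm : Measurable (fun ξ => 2 ^ r * (wgt 2 ξ * ‖𝓕 w ξ‖ₑ)) := hwm0.const_mul _
  have hwx : Measurable (fun ξ => wgt r ξ * x ξ) := (measurable_wgt r).mul hxm
  calc nA (r + 2) w ≤ ∫⁻ ξ, (2 ^ r * (wgt 2 ξ * ‖𝓕 w ξ‖ₑ) + 4 * (wgt r ξ * x ξ)) := by
        refine lintegral_mono fun ξ => ?_
        calc wgt (r + 2) ξ * ‖𝓕 w ξ‖ₑ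
            ≤ (2 ^ r * wgt 2 ξ + 4 * (wgt r ξ * ENNReal.ofReal (‖ξ‖ ^ 2))) * ‖𝓕 w ξ‖ₑ :=
              mul_le_mul' (wgt_add_two_le r ξ) le_rfl
          _ = _ := by rw [hx]; ring
    _ = 2 ^ r * nA 2 w + 4 * ∫⁻ ξ, wgt r ξ * x ξ := by
        rw [lintegral_add_left hwm, lintegral_const_mul _ hwm0, lintegral_const_mul _ hwx]
        rfl
    _ ≤ 2 ^ r * nA 2 w + 4 * (2 * (ENNReal.ofReal (2 ^ r / κ) * (∑ a, ∑ c, nA r (b a c))
          * (∫⁻ ξ, x ξ) + ENNReal.ofReal ((4 * Real.pi ^ 2 * κ)⁻¹) * nA r F)) := by gcongr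
    _ ≤ 2 ^ r * nA 2 w + 4 * (2 * (ENNReal.ofReal (2 ^ r / κ) * (∑ a, ∑ c, nA r (b a c))
          * nA 2 w + ENNReal.ofReal ((4 * Real.pi ^ 2 * κ)⁻¹) * nA r F)) := by gcongr
    _ = _ := by
        rw [← mul_assoc]
        norm_num

/-- **Elliptic step.** -/
theorem elliptic_step (r : ℕ) {w F : E m → ℂ} {b : Fin m → Fin m → E m → ℂ}
    {a₀ : Fin m → Fin m → ℂ} {κ : ℝ} (hκ : 0 < κ)
    (hell : ∀ ξ : E m, κ * ‖ξ‖ ^ 2 ≤ ‖∑ a, ∑ c, a₀ a c * ((ξ a : ℝ) : ℂ) * ((ξ c : ℝ) : ℂ)‖)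
    (hw : InA 2 w) (hb : ∀ a c, InA r (b a c)) (hF : InA r F)
    (heq : ∀ y, ∑ a, ∑ c, a₀ a c * pdv a (pdv c w) y
      = - ∑ a, ∑ c, b a c y * pdv a (pdv c w) y + F y)
    (hsmall : ENNReal.ofReal (2 ^ r / κ) * ∑ a, ∑ c, nA 0 (b a c) ≤ 1 / 2) :
    InA (r + 2) w := by
  refine ⟨hw.cont, hw.supp, (elliptic_core r hκ hell hw hb hF heq hsmall).trans_lt ?_⟩
  have h1 : ∑ a, ∑ c, nA r (b a c) < ⊤ :=
    ENNReal.sum_lt_top.mpr fun a _ => ENNReal.sum_lt_top.mpr fun c _ => (hb a c).fin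
  refine ENNReal.add_lt_top.mpr ⟨ENNReal.mul_lt_top (by simp) hw.fin, ?_⟩
  refine ENNReal.mul_lt_top (by simp) (ENNReal.add_lt_top.mpr ⟨?_, ?_⟩)
  · exact ENNReal.mul_lt_top (ENNReal.mul_lt_top ENNReal.ofReal_lt_top h1) hw.fin
  · exact ENNReal.mul_lt_top ENNReal.ofReal_lt_top hF.fin

/-- quantitative form of the elliptic step (same proof). -/
theorem elliptic_step_bound (m r : ℕ) (κ : ℝ) (hκ : 0 < κ) : ∃ C : ℝ, 0 ≤ C ∧
    ∀ {w F : E m → ℂ} {b : Fin m → Fin m → E m → ℂ} {a₀ : Fin m → Fin m → ℂ},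
    (∀ ξ : E m, κ * ‖ξ‖ ^ 2 ≤ ‖∑ a, ∑ c, a₀ a c * ((ξ a : ℝ) : ℂ) * ((ξ c : ℝ) : ℂ)‖) →
    InA 2 w → (∀ a c, InA r (b a c)) → InA r F →
    (∀ y, ∑ a, ∑ c, a₀ a c * pdv a (pdv c w) y
      = - ∑ a, ∑ c, b a c y * pdv a (pdv c w) y + F y) →
    ENNReal.ofReal (2 ^ r / κ) * ∑ a, ∑ c, nA 0 (b a c) ≤ 1 / 2 →
    nA (r + 2) w ≤ ENNReal.ofReal C * ((1 + ∑ a, ∑ c, nA r (b a c)) * nA 2 w + nA r F) := by
  have hπ : 0 < 4 * Real.pi ^ 2 := by positivity
  set C : ℝ := 2 ^ r + 8 * (2 ^ r / κ) + 8 * (4 * Real.pi ^ 2 * κ)⁻¹ with hC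
  have h8 : (8 : ℝ≥0∞) = ENNReal.ofReal 8 := by simp
  have h1 : (2 : ℝ≥0∞) ^ r ≤ ENNReal.ofReal C := by
    have h2 : (2 : ℝ≥0∞) ^ r = ENNReal.ofReal (2 ^ r) := by
      rw [ENNReal.ofReal_pow (by norm_num)]
      simp
    rw [h2]
    refine ENNReal.ofReal_le_ofReal ?_
    have : 0 ≤ 8 * (2 ^ r / κ) + 8 * (4 * Real.pi ^ 2 * κ)⁻¹ := by positivity
    linarith
  have h2 : 8 * ENNReal.ofReal (2 ^ r / κ) ≤ ENNReal.ofReal C := by
    rw [h8, ← ENNReal.ofReal_mul (by norm_num)]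
    refine ENNReal.ofReal_le_ofReal ?_
    have : 0 ≤ (2 : ℝ) ^ r + 8 * (4 * Real.pi ^ 2 * κ)⁻¹ := by positivity
    linarith
  have h3 : 8 * ENNReal.ofReal ((4 * Real.pi ^ 2 * κ)⁻¹) ≤ ENNReal.ofReal C := by
    rw [h8, ← ENNReal.ofReal_mul (by norm_num)]
    refine ENNReal.ofReal_le_ofReal ?_
    have : 0 ≤ (2 : ℝ) ^ r + 8 * (2 ^ r / κ) := by positivity
    linarith
  refine ⟨C, by positivity, ?_⟩
  intro w F b a₀ hell hw hb hF heq hsmall
  refine (elliptic_core r hκ hell hw hb hF heq hsmall).trans ?_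
  calc 2 ^ r * nA 2 w + 8 * (ENNReal.ofReal (2 ^ r / κ) * (∑ a, ∑ c, nA r (b a c)) * nA 2 w
        + ENNReal.ofReal ((4 * Real.pi ^ 2 * κ)⁻¹) * nA r F)
      = 2 ^ r * nA 2 w + ((8 * ENNReal.ofReal (2 ^ r / κ)) * ((∑ a, ∑ c, nA r (b a c)) * nA 2 w)
        + (8 * ENNReal.ofReal ((4 * Real.pi ^ 2 * κ)⁻¹)) * nA r F) := by ring
    _ ≤ ENNReal.ofReal C * nA 2 w + (ENNReal.ofReal C * ((∑ a, ∑ c, nA r (b a c)) * nA 2 w)
        + ENNReal.ofReal C * nA r F) := by gcongr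
    _ = _ := by ring

/-- **Inverse step.** -/
theorem inverse_step (r : ℕ) {Y S N : Fin m → Fin m → E m → ℂ} {a₀ : Fin m → Fin m → ℝ} {K : ℝ}
    (hK : ∀ a c, |a₀ a c| ≤ K)
    (hY : ∀ a c, InA 0 (Y a c)) (hN : ∀ a c, InA r (N a c)) (hS : ∀ a c, InA r (S a c))
    (heq : ∀ a c y, Y a c y = S a c y - ∑ d, ∑ e, (a₀ a d : ℂ) * N d e y * Y e c y)
    (hsmall : ENNReal.ofReal (2 ^ r * K * m ^ 2) * ∑ a, ∑ c, nA 0 (N a c) ≤ 1 / 2) :
    (∀ a c, InA r (Y a c)) ∧ ∑ a, ∑ c, nA 0 (Y a c) ≤ 2 * ∑ a, ∑ c, nA 0 (S a c) := by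
  have hN0 : ∀ a c, InA 0 (N a c) := fun a c => (hN a c).mono (Nat.zero_le _)
  have hNY : ∀ d e c, InA 0 (fun y => N d e y * Y e c y) := fun d e c => (hN0 d e).mul (hY e c)
  set x : E m → ℝ≥0∞ := fun ξ => ∑ a, ∑ c, ‖𝓕 (Y a c) ξ‖ₑ with hx
  set β : E m → ℝ≥0∞ := fun ξ => ∑ a, ∑ c, ‖𝓕 (N a c) ξ‖ₑ with hβ
  set φ : E m → ℝ≥0∞ := fun ξ => ∑ a, ∑ c, ‖𝓕 (S a c) ξ‖ₑ with hφ
  have hsumm : ∀ {Z : Fin m → Fin m → E m → ℂ} {s : ℕ}, (∀ a c, InA s (Z a c)) →
      Measurable (fun ξ => ∑ a, ∑ c, ‖𝓕 (Z a c) ξ‖ₑ) := fun hZ =>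
    Finset.measurable_sum _ fun a _ => Finset.measurable_sum _ fun c _ =>
      (hZ a c).measurable_enorm_fourier
  have hxm : Measurable x := hsumm hY
  have hβm : Measurable β := hsumm hN
  have hint : ∀ {Z : Fin m → Fin m → E m → ℂ} {s' : ℕ}, (∀ a c, InA s' (Z a c)) → ∀ s : ℕ,
      ∫⁻ ξ, wgt s ξ * ∑ a, ∑ c, ‖𝓕 (Z a c) ξ‖ₑ = ∑ a, ∑ c, nA s (Z a c) := by
    intro Z s' hZ s
    have hm : ∀ a c, Measurable (fun ξ => wgt s ξ * ‖𝓕 (Z a c) ξ‖ₑ) := fun a c =>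
      (measurable_wgt s).mul (hZ a c).measurable_enorm_fourier
    have hm' : ∀ a, Measurable (fun ξ => ∑ c, wgt s ξ * ‖𝓕 (Z a c) ξ‖ₑ) := fun a =>
      Finset.measurable_sum _ fun c _ => hm a c
    simp only [Finset.mul_sum]
    rw [lintegral_finsetSum _ fun a _ => hm' a]
    refine Finset.sum_congr rfl fun a _ => ?_
    rw [lintegral_finsetSum _ fun c _ => hm a c]
    rfl
  have hint0 : ∀ {Z : Fin m → Fin m → E m → ℂ} {s' : ℕ}, (∀ a c, InA s' (Z a c)) →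
      ∫⁻ ξ, ∑ a, ∑ c, ‖𝓕 (Z a c) ξ‖ₑ = ∑ a, ∑ c, nA 0 (Z a c) := by
    intro Z s' hZ
    rw [← hint hZ 0]
    simp only [wgt_zero, one_mul]
  have hyx : ∀ e c ξ, ‖𝓕 (Y e c) ξ‖ₑ ≤ x ξ := by
    intro e c ξ
    refine le_trans ?_ (Finset.single_le_sum (f := fun a => ∑ c, ‖𝓕 (Y a c) ξ‖ₑ)
      (fun _ _ => zero_le) (Finset.mem_univ e))
    exact Finset.single_le_sum (f := fun c => ‖𝓕 (Y e c) ξ‖ₑ) (fun _ _ => zero_le)
      (Finset.mem_univ c)
  have hcvβ : ∀ ξ, cv β x ξ = ∑ d, ∑ e, cv (fun ξ => ‖𝓕 (N d e) ξ‖ₑ) x ξ := by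
    intro ξ
    rw [hβ, cv_sum_left _ (fun a _ => Finset.measurable_sum _ fun c _ =>
      (hN a c).measurable_enorm_fourier) hxm]
    refine Finset.sum_congr rfl fun a _ => ?_
    rw [cv_sum_left _ (fun c _ => (hN a c).measurable_enorm_fourier) hxm]
  -- one entry
  have hentry : ∀ a c ξ, ‖𝓕 (Y a c) ξ‖ₑ ≤ ‖𝓕 (S a c) ξ‖ₑ + ENNReal.ofReal K * cv β x ξ := by
    intro a c ξ
    have h1 : Y a c = fun y => S a c y + - ∑ d, ∑ e, (a₀ a d : ℂ) * (N d e y * Y e c y) := by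
      funext y
      rw [heq a c y, sub_eq_add_neg]
      simp only [mul_assoc]
    have h2 : InA 0 (fun y => ∑ d, ∑ e, (a₀ a d : ℂ) * (N d e y * Y e c y)) :=
      InA.sum _ fun d _ => InA.sum _ fun e _ => (hNY d e c).const_mul _
    have h3 : 𝓕 (Y a c) ξ = 𝓕 (S a c) ξ
        + - ∑ d, ∑ e, (a₀ a d : ℂ) * 𝓕 (fun y => N d e y * Y e c y) ξ := by
      conv_lhs => rw [h1]
      rw [fourier_add (hS a c).integrable h2.neg.integrable, fourier_neg,
        fourier_sum _ fun d _ => (InA.sum _ fun e _ => (hNY d e c).const_mul _).integrable]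
      congr 2
      refine Finset.sum_congr rfl fun d _ => ?_
      rw [fourier_sum _ fun e _ => ((hNY d e c).const_mul _).integrable]
      refine Finset.sum_congr rfl fun e _ => ?_
      rw [fourier_const_mul]
    rw [h3]
    refine (enorm_add_le _ _).trans (add_le_add le_rfl ?_)
    rw [enorm_neg, hcvβ, Finset.mul_sum]
    refine (enorm_sum_le _ _).trans (Finset.sum_le_sum fun d _ => ?_)
    rw [Finset.mul_sum]
    refine (enorm_sum_le _ _).trans (Finset.sum_le_sum fun e _ => ?_)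
    rw [enorm_mul]
    refine mul_le_mul' ?_ ?_
    · rw [← ofReal_norm]
      refine ENNReal.ofReal_le_ofReal ?_
      simpa using hK a d
    · refine (enorm_fourier_mul_le (hN0 d e) (hY e c) ξ).trans ?_
      exact cv_mono (fun _ => le_rfl) (fun η => hyx e c η) ξ
  set cc : ℝ≥0∞ := (m : ℝ≥0∞) * ((m : ℝ≥0∞) * ENNReal.ofReal K) with hcc
  have hpt : ∀ ξ, x ξ ≤ cc * cv β x ξ + φ ξ := by
    intro ξ
    calc x ξ ≤ ∑ a : Fin m, ∑ c : Fin m, (‖𝓕 (S a c) ξ‖ₑ + ENNReal.ofReal K * cv β x ξ) :=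
          Finset.sum_le_sum fun a _ => Finset.sum_le_sum fun c _ => hentry a c ξ
      _ = φ ξ + cc * cv β x ξ := by
          simp only [Finset.sum_add_distrib, Finset.sum_const, Finset.card_univ, Fintype.card_fin,
            nsmul_eq_mul, hφ, hcc]
          ring
      _ = _ := add_comm _ _
  have hcc2 : cc * 2 ^ r = ENNReal.ofReal (2 ^ r * K * m ^ 2) := by
    have h2 : (2 : ℝ≥0∞) ^ r = ENNReal.ofReal (2 ^ r) := by
      rw [ENNReal.ofReal_pow (by norm_num)]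
      simp
    rw [ENNReal.ofReal_mul' (by positivity), ENNReal.ofReal_mul (by positivity), ← h2,
      ENNReal.ofReal_pow (by positivity), ENNReal.ofReal_natCast, hcc]
    ring
  have hxfin : ∫⁻ ξ, x ξ < ⊤ := by
    rw [hx, hint0 hY]
    exact ENNReal.sum_lt_top.mpr fun a _ => ENNReal.sum_lt_top.mpr fun c _ => (hY a c).fin
  have hsm : cc * 2 ^ r * ∫⁻ ξ, β ξ ≤ 1 / 2 := by
    rw [hcc2, hβ, hint0 hN]
    exact hsmall
  have hsm0 : cc * ∫⁻ ξ, β ξ ≤ 1 / 2 := by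
    refine le_trans ?_ hsm
    refine mul_le_mul' ?_ le_rfl
    calc cc = cc * 1 := (mul_one _).symm
      _ ≤ cc * 2 ^ r := mul_le_mul' le_rfl (one_le_pow₀ (by norm_num))
  constructor
  · intro a c
    refine ⟨(hY a c).cont, (hY a c).supp, ?_⟩
    have h1 := absorb r hxm hβm cc hpt hxfin hsm
    have h2 : nA r (Y a c) ≤ ∫⁻ ξ, wgt r ξ * x ξ :=
      lintegral_mono fun ξ => mul_le_mul' le_rfl (hyx a c ξ)
    refine (h2.trans h1).trans_lt ?_
    have h3 : ∫⁻ ξ, wgt r ξ * β ξ < ⊤ := by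
      rw [hβ, hint hN r]
      exact ENNReal.sum_lt_top.mpr fun a _ => ENNReal.sum_lt_top.mpr fun c _ => (hN a c).fin
    have h4 : ∫⁻ ξ, wgt r ξ * φ ξ < ⊤ := by
      rw [hφ, hint hS r]
      exact ENNReal.sum_lt_top.mpr fun a _ => ENNReal.sum_lt_top.mpr fun c _ => (hS a c).fin
    have h5 : cc * 2 ^ r < ⊤ := by
      rw [hcc2]
      exact ENNReal.ofReal_lt_top
    exact ENNReal.mul_lt_top (by simp) (ENNReal.add_lt_top.mpr
      ⟨ENNReal.mul_lt_top (ENNReal.mul_lt_top h5 h3) hxfin, h4⟩)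
  · have h1 := absorb_zero hxm hβm cc hpt hxfin hsm0
    rwa [hx, hφ, hint0 hY, hint0 hS] at h1

end Claimed.Agent.R322.Fit
end

/- ===== packed: Claimed.Agent.R322.Base.Mono.Lower ===== -/
section
/-!
# Row 322, Base/Mono: lower mass bound at every point of the support (AE (2.1))

* `ae_one_le_ratio` : field `dens` + `ratio_mono` (+ `ae_mem_U`).
* `lower_mass` : points of the full measure set of `ae_one_le_ratio` are dense in the support; for `x` with
  `|x - p| < δ` one has `closedBall x (r - 2δ) ⊆ ball p r`; let `δ → 0`.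
* `μ_compl_support` : `supportᶜ ⊆ Uᶜ ∪ ⋃ (null open balls)`, Lindelöf (`TopologicalSpace.isOpen_iUnion_countable` or
  `measure_null_of_locally_null`).
-/

set_option autoImplicit false

open scoped ENNReal ContDiff Topology NNReal
open MeasureTheory Filter

namespace Claimed.Agent.R322

namespace SIV

variable {m n : ℕ} (W : SIV m n)

theorem ae_one_le_ratio (hm : 1 ≤ m) :
    ∀ᵐ x ∂W.μ, ∀ r : ℝ, 0 < r → Metric.closedBall x r ⊆ W.U → 1 ≤ W.ratio x r := by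
  have hd : ∀ᵐ x ∂W.μ, ∀ ε : ℝ, 0 < ε → ∀ r₀ : ℝ, 0 < r₀ → ∃ r : ℝ, 0 < r ∧ r < r₀ ∧
    ENNReal.ofReal ((1 - ε) * kap m * r ^ m) ≤ W.μ (Metric.ball x r) := W.dens
  filter_upwards [hd] with x hx r hr hrU
  refine le_of_forall_sub_le fun ε hε => ?_
  obtain ⟨t, ht, htr, h1⟩ := hx ε hε r hr
  have htU : Metric.closedBall x t ⊆ W.U := (Metric.closedBall_subset_closedBall htr.le).trans hrU
  rw [ENNReal.ofReal_le_iff_le_toReal (W.rat_ball_lt_top htU).ne] at h1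
  refine le_trans ?_ (W.ratio_mono hm ht htr.le hrU)
  unfold ratio
  rw [le_div_iff₀ (mul_pos (kap_pos m) (pow_pos ht m))]
  linarith

/-- **Lower mass bound at every point of the support** (AE (2.1)). -/
theorem lower_mass (hm : 1 ≤ m) {p : E (m + n)} {r : ℝ} (hp : p ∈ W.support) (hr : 0 < r)
    (hs : Metric.ball p r ⊆ W.U) :
    ENNReal.ofReal (kap m * r ^ m) ≤ W.μ (Metric.ball p r) := by
  have hk := kap_pos m
  have h1 : ∀ δ ∈ Set.Ioo (0 : ℝ) (r / 2),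
      ENNReal.ofReal (kap m * (r - 2 * δ) ^ m) ≤ W.μ (Metric.ball p r) := by
    intro δ hδ
    have hpos : 0 < W.μ (Metric.ball p δ) := hp.2 δ hδ.1
    -- a good point in the small ball
    obtain ⟨x, hxB, hxG⟩ : ∃ x ∈ Metric.ball p δ,
        ∀ t : ℝ, 0 < t → Metric.closedBall x t ⊆ W.U → 1 ≤ W.ratio x t := by
      by_contra hno
      push Not at hno
      have h0 := W.ae_one_le_ratio hm
      rw [ae_iff] at h0
      refine hpos.ne' (measure_mono_null (fun x hx => ?_) h0)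
      obtain ⟨t, ht, htU, hlt⟩ := hno x hx
      show ¬ ∀ t : ℝ, 0 < t → Metric.closedBall x t ⊆ W.U → 1 ≤ W.ratio x t
      exact fun h => absurd (h t ht htU) (not_le.2 hlt)
    have hρ : 0 < r - 2 * δ := by linarith [hδ.2]
    have hxp : dist x p < δ := Metric.mem_ball.1 hxB
    have hsub : Metric.closedBall x (r - 2 * δ) ⊆ Metric.ball p r := by
      intro y hy
      rw [Metric.mem_closedBall] at hy
      rw [Metric.mem_ball]
      calc dist y p ≤ dist y x + dist x p := dist_triangle _ _ _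
        _ < r := by linarith [hδ.1]
    have hU : Metric.closedBall x (r - 2 * δ) ⊆ W.U := hsub.trans hs
    have h2 := hxG _ hρ hU
    calc ENNReal.ofReal (kap m * (r - 2 * δ) ^ m)
        ≤ ENNReal.ofReal (W.ratio x (r - 2 * δ) * (kap m * (r - 2 * δ) ^ m)) := by
          refine ENNReal.ofReal_le_ofReal ?_
          have : 0 ≤ kap m * (r - 2 * δ) ^ m := by positivity
          nlinarith
      _ = W.μ (Metric.ball x (r - 2 * δ)) := (W.μ_ball_eq hρ hU).symm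
      _ ≤ W.μ (Metric.ball p r) := measure_mono (Metric.ball_subset_closedBall.trans hsub)
  have h2 : Tendsto (fun δ : ℝ => ENNReal.ofReal (kap m * (r - 2 * δ) ^ m)) (𝓝[>] 0)
      (𝓝 (ENNReal.ofReal (kap m * r ^ m))) := by
    have hc : Continuous fun δ : ℝ => ENNReal.ofReal (kap m * (r - 2 * δ) ^ m) :=
      ENNReal.continuous_ofReal.comp (by fun_prop)
    have := (hc.tendsto 0).mono_left (nhdsWithin_le_nhds (s := Set.Ioi 0))
    simpa using this
  refine le_of_tendsto h2 ?_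
  filter_upwards [Ioo_mem_nhdsGT (half_pos hr)] with δ hδ
  exact h1 δ hδ

theorem one_le_ratio (hm : 1 ≤ m) {p : E (m + n)} {r : ℝ} (hp : p ∈ W.support) (hr : 0 < r)
    (hs : Metric.closedBall p r ⊆ W.U) : 1 ≤ W.ratio p r := by
  have h1 := W.lower_mass hm hp hr (Metric.ball_subset_closedBall.trans hs)
  rw [ENNReal.ofReal_le_iff_le_toReal (W.rat_ball_lt_top hs).ne] at h1
  unfold ratio
  rw [le_div_iff₀ (mul_pos (kap_pos m) (pow_pos hr m)), one_mul]
  exact h1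

theorem one_le_Θ (hm : 1 ≤ m) {p : E (m + n)} (hp : p ∈ W.support) : 1 ≤ W.Θ p := by
  obtain ⟨R, hR, hRU⟩ := W.rat_exists_closedBall hp.1
  refine ge_of_tendsto (W.tendsto_ratio hm hp.1) ?_
  filter_upwards [Ioo_mem_nhdsGT hR] with t ht
  exact W.one_le_ratio hm hp ht.1 ((Metric.closedBall_subset_closedBall ht.2.le).trans hRU)

/-- the points all of whose balls are charged form a closed set -/
theorem low_isClosed_charged : IsClosed {p : E (m + n) | ∀ r : ℝ, 0 < r → 0 < W.μ (Metric.ball p r)} := by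
  rw [← isOpen_compl_iff, Metric.isOpen_iff]
  intro p hp
  have hp' : ¬ ∀ r : ℝ, 0 < r → 0 < W.μ (Metric.ball p r) := hp
  push Not at hp'
  obtain ⟨r, hr, h0⟩ := hp'
  refine ⟨r / 2, half_pos hr, fun q hq hq' => ?_⟩
  have h1 : 0 < W.μ (Metric.ball q (r / 2)) := hq' _ (half_pos hr)
  have h2 : Metric.ball q (r / 2) ⊆ Metric.ball p r :=
    Metric.ball_subset_ball' (by linarith [Metric.mem_ball.1 hq])
  exact absurd (lt_of_lt_of_le h1 (measure_mono h2)) (not_lt.2 h0)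

/-- the support is relatively closed in `U` -/
theorem support_eq : ∃ C : Set (E (m + n)), IsClosed C ∧ W.support = W.U ∩ C := by
  exact ⟨_, W.low_isClosed_charged, rfl⟩

theorem μ_compl_support : W.μ W.supportᶜ = 0 := by
  have h1 : W.supportᶜ ⊆ W.Uᶜ ∪ {p : E (m + n) | ∀ r : ℝ, 0 < r → 0 < W.μ (Metric.ball p r)}ᶜ := by
    intro x hx
    by_cases hxU : x ∈ W.U
    · exact Or.inr fun h => hx ⟨hxU, h⟩
    · exact Or.inl hxU
  refine measure_mono_null h1 (measure_union_null W.μ_compl_U ?_)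
  refine measure_null_of_locally_null _ fun x hx => ?_
  have hx' : ¬ ∀ r : ℝ, 0 < r → 0 < W.μ (Metric.ball x r) := hx
  push Not at hx'
  obtain ⟨r, hr, h0⟩ := hx'
  exact ⟨Metric.ball x r, mem_nhdsWithin_of_mem_nhds (Metric.ball_mem_nhds x hr), le_antisymm h0 zero_le⟩

end SIV

end Claimed.Agent.R322
end

/- ===== packed: Claimed.Agent.R322.Base.Mono.KintMono ===== -/
section
/-!
# Row 322, Base/Mono: weighted monotonicity (AE Lemma 2.1, second part; CO Section 5)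

* `kint_mono` : `hasDerivAt_kint`, `weakSub_radial`, `normal_term_nonneg` give `(kint)' ≥ - (c ρ / 2) kint`; so the derivative of
  `exp (c ρ² / 4) kint` is nonnegative on the interval `(0, R)` (`monotoneOn_of_deriv_nonneg`).
* `wratio_mono_weak` : `kint_mono` for the kernels `h_k` of `exists_ker_seq`; `∫ u h_k(s) dμ → ∫_{ball p ρ} u dμ` by dominated
  convergence; the end point `ρ = R` by `ball p R = ⋃ ball p ρ` (continuity from below of `ρ ↦ ∫_{ball p ρ} u`).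
-/

set_option autoImplicit false

open scoped ENNReal ContDiff Topology NNReal
open MeasureTheory Filter

namespace Claimed.Agent.R322

namespace SIV

variable {m n : ℕ} (W : SIV m n)

/-- **derivative of the kernel averages** -/
theorem hasDerivAt_kint {p : E (m + n)} {R : ℝ} (hR : Metric.closedBall p R ⊆ W.U)
    {u : E (m + n) → ℝ} (hu : ContDiff ℝ 1 u) {h : ℝ → ℝ} (hh : IsKer h) {ρ : ℝ} (h0 : 0 < ρ)
    (h1 : ρ < R) :
    HasDerivAt (W.kint u h p)
      ((ρ ^ (m + 1))⁻¹ * (∫ x, h (‖x - p‖ ^ 2 / ρ ^ 2) * fderiv ℝ u x (W.P x (x - p)) ∂W.μ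
        + (ρ ^ 2)⁻¹ * ∫ x, u x * (-2 * deriv h (‖x - p‖ ^ 2 / ρ ^ 2)) * W.nsq p x ∂W.μ)) ρ := by
  have h2 := W.hasDerivAt_kint_raw hR hu.continuous hh h0 h1
  have h3 := W.kint_identity h0
    ((Metric.closedBall_subset_closedBall h1.le).trans hR) hu hh
  rw [← h3]
  convert h2 using 1
  ring

/-- (4) **weighted monotonicity, kernel form** -/
theorem kint_mono {p : E (m + n)} {R : ℝ} (hR : Metric.closedBall p R ⊆ W.U)
    {u : E (m + n) → ℝ} (hu : ContDiff ℝ 1 u) (hu0 : ∀ x ∈ Metric.ball p R, 0 ≤ u x) {c : ℝ}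
    (hc : 0 ≤ c) (hws : W.WeakSub u c p R) {h : ℝ → ℝ} (hh : IsKer h) :
    MonotoneOn (fun ρ => Real.exp (c * ρ ^ 2 / 4) * W.kint u h p ρ) (Set.Ioo 0 R) := by
  have hder : ∀ ρ ∈ Set.Ioo 0 R, HasDerivAt (fun ρ => Real.exp (c * ρ ^ 2 / 4) * W.kint u h p ρ)
      (Real.exp (c * ρ ^ 2 / 4) * (c * ρ / 2) * W.kint u h p ρ + Real.exp (c * ρ ^ 2 / 4) *
      ((ρ ^ (m + 1))⁻¹ * (∫ x, h (‖x - p‖ ^ 2 / ρ ^ 2) * fderiv ℝ u x (W.P x (x - p)) ∂W.μ
        + (ρ ^ 2)⁻¹ * ∫ x, u x * (-2 * deriv h (‖x - p‖ ^ 2 / ρ ^ 2)) * W.nsq p x ∂W.μ))) ρ := by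
    intro ρ hρ
    have h1 : HasDerivAt (fun ρ : ℝ => c * ρ ^ 2 / 4) (c * ρ / 2) ρ := by
      have := ((hasDerivAt_pow 2 ρ).const_mul c).div_const 4
      have e : c * ((2 : ℕ) * ρ ^ (2 - 1)) / 4 = c * ρ / 2 := by
        simp only [Nat.add_one_sub_one, pow_one]
        push_cast
        ring
      rw [e] at this
      exact this
    exact h1.exp.mul (W.hasDerivAt_kint hR hu hh hρ.1 hρ.2)
  refine monotoneOn_of_deriv_nonneg (convex_Ioo 0 R)
    (fun ρ hρ => (hder ρ hρ).continuousAt.continuousWithinAt) ?_ ?_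
  · rw [interior_Ioo]
    exact fun ρ hρ => (hder ρ hρ).differentiableAt.differentiableWithinAt
  · rw [interior_Ioo]
    intro ρ hρ
    rw [(hder ρ hρ).deriv]
    have h2 := W.weakSub_radial hR hu hu0 hc hws hh hρ.1 hρ.2
    have h3 := W.normal_term_nonneg hu0 hh hρ.1 hρ.2
    have hρ0 := hρ.1
    have e : W.kint u h p ρ = (ρ ^ m)⁻¹ * ∫ x, u x * h (‖x - p‖ ^ 2 / ρ ^ 2) ∂W.μ := rfl
    rw [e]
    generalize (∫ x, u x * h (‖x - p‖ ^ 2 / ρ ^ 2) ∂W.μ) = I at h2 ⊢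
    generalize (∫ x, h (‖x - p‖ ^ 2 / ρ ^ 2) * fderiv ℝ u x (W.P x (x - p)) ∂W.μ) = A at h2 ⊢
    generalize (∫ x, u x * (-2 * deriv h (‖x - p‖ ^ 2 / ρ ^ 2)) * W.nsq p x ∂W.μ) = B at h3 ⊢
    have h4 : 0 ≤ (ρ ^ (m + 1))⁻¹ * ((c * ρ ^ 2 / 2) * I + A + (ρ ^ 2)⁻¹ * B) := by
      have : 0 ≤ (ρ ^ 2)⁻¹ * B := mul_nonneg (by positivity) h3
      exact mul_nonneg (by positivity) (by linarith)
    have e2 : Real.exp (c * ρ ^ 2 / 4) * (c * ρ / 2) * ((ρ ^ m)⁻¹ * I) +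
        Real.exp (c * ρ ^ 2 / 4) * ((ρ ^ (m + 1))⁻¹ * (A + (ρ ^ 2)⁻¹ * B)) =
        Real.exp (c * ρ ^ 2 / 4) * ((ρ ^ (m + 1))⁻¹ * ((c * ρ ^ 2 / 2) * I + A + (ρ ^ 2)⁻¹ * B)) := by
      field_simp
      ring
    rw [e2]
    exact mul_nonneg (Real.exp_pos _).le h4

/-- the constant function on a closed ball of the domain is integrable -/
theorem kmo_integrable_bound {p : E (m + n)} {R : ℝ} (hR : Metric.closedBall p R ⊆ W.U) {C : ℝ}
    (hC : 0 ≤ C) : Integrable ((Metric.closedBall p R).indicator fun _ => C) W.μ := by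
  refine W.integrable_of_bdd (isCompact_closedBall p R) hR
    ((measurable_const.indicator Metric.isClosed_closedBall.measurableSet).aestronglyMeasurable)
    (C := C) (fun x => ?_) (fun x hx => Set.indicator_of_notMem hx _)
  by_cases hx : x ∈ Metric.closedBall p R
  · rw [Set.indicator_of_mem hx, abs_of_nonneg hC]
  · rw [Set.indicator_of_notMem hx, abs_zero]
    exact hC

/-- kernels increasing to the indicator function of the ball -/
theorem kmo_tendsto_kernel {p : E (m + n)} {ρ : ℝ} (h0 : 0 < ρ) (hρ : Metric.closedBall p ρ ⊆ W.U)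
    {u : E (m + n) → ℝ} (hu : Continuous u) {h : ℕ → ℝ → ℝ} (hk : ∀ k, IsKer (h k))
    (h1 : ∀ k s, h k s ≤ 1) (hlim : ∀ s, s < 1 → ∀ᶠ k in atTop, h k s = 1) :
    Tendsto (fun k => ∫ x, u x * h k (‖x - p‖ ^ 2 / ρ ^ 2) ∂W.μ) atTop
      (𝓝 (∫ x in Metric.ball p ρ, u x ∂W.μ)) := by
  obtain ⟨Cu, hCu⟩ := (isCompact_closedBall p ρ).exists_bound_of_continuousOn hu.continuousOn
  have hCu0 : 0 ≤ Cu := (norm_nonneg _).trans (hCu p (Metric.mem_closedBall_self h0.le))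
  rw [← integral_indicator Metric.isOpen_ball.measurableSet]
  refine tendsto_integral_of_dominated_convergence
    ((Metric.closedBall p ρ).indicator fun _ => Cu) (fun k => ?_)
    (W.kmo_integrable_bound hρ hCu0) (fun k => ?_) ?_
  · exact (hu.mul ((hk k).smooth.continuous.comp
      ((rad_continuous_sq p).div_const _))).aestronglyMeasurable
  · refine ae_of_all _ fun x => ?_
    by_cases hx : x ∈ Metric.closedBall p ρ
    · rw [Set.indicator_of_mem hx, norm_mul, Real.norm_eq_abs (h k _),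
        abs_of_nonneg ((hk k).nonneg _)]
      calc ‖u x‖ * h k (‖x - p‖ ^ 2 / ρ ^ 2) ≤ Cu * 1 :=
            mul_le_mul (hCu x hx) (h1 k _) ((hk k).nonneg _) hCu0
        _ = Cu := mul_one _
    · rw [Set.indicator_of_notMem hx, (hk k).zero _ (kin_one_le h0 hx), mul_zero, norm_zero]
  · refine ae_of_all _ fun x => ?_
    by_cases hx : x ∈ Metric.ball p ρ
    · rw [Set.indicator_of_mem hx]
      have hxρ : ‖x - p‖ < ρ := by rwa [Metric.mem_ball, dist_eq_norm] at hx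
      have hs : ‖x - p‖ ^ 2 / ρ ^ 2 < 1 := by
        rw [div_lt_one (by positivity)]
        exact pow_lt_pow_left₀ hxρ (norm_nonneg _) two_ne_zero
      refine tendsto_const_nhds.congr' ?_
      filter_upwards [hlim _ hs] with k hk'
      rw [hk', mul_one]
    · rw [Set.indicator_of_notMem hx]
      have hxρ : ρ ≤ ‖x - p‖ := by
        rw [Metric.mem_ball, dist_eq_norm, not_lt] at hx
        exact hx
      have hs : 1 ≤ ‖x - p‖ ^ 2 / ρ ^ 2 := by
        rw [one_le_div (by positivity)]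
        exact pow_le_pow_left₀ h0.le hxρ 2
      refine tendsto_const_nhds.congr fun k => ?_
      rw [(hk k).zero _ hs, mul_zero]

/-- continuity from below of `ρ ↦ ∫_{ball p ρ} u` -/
theorem kmo_tendsto_ball {p : E (m + n)} {R : ℝ} (hR0 : 0 < R) (hR : Metric.closedBall p R ⊆ W.U)
    {u : E (m + n) → ℝ} (hu : Continuous u) :
    Tendsto (fun ρ => ∫ x in Metric.ball p ρ, u x ∂W.μ) (𝓝[<] R)
      (𝓝 (∫ x in Metric.ball p R, u x ∂W.μ)) := by
  obtain ⟨Cu, hCu⟩ := (isCompact_closedBall p R).exists_bound_of_continuousOn hu.continuousOn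
  have hCu0 : 0 ≤ Cu := (norm_nonneg _).trans (hCu p (Metric.mem_closedBall_self hR0.le))
  have e1 : ∀ ρ, ∫ x in Metric.ball p ρ, u x ∂W.μ = ∫ x, (Metric.ball p ρ).indicator u x ∂W.μ :=
    fun ρ => (integral_indicator Metric.isOpen_ball.measurableSet).symm
  simp only [e1]
  refine tendsto_integral_filter_of_dominated_convergence
    ((Metric.closedBall p R).indicator fun _ => Cu) ?_ ?_ (W.kmo_integrable_bound hR hCu0) ?_
  · exact Eventually.of_forall fun ρ =>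
      (hu.measurable.indicator Metric.isOpen_ball.measurableSet).aestronglyMeasurable
  · filter_upwards [self_mem_nhdsWithin] with ρ hρ
    refine ae_of_all _ fun x => ?_
    by_cases hx : x ∈ Metric.ball p ρ
    · have hxR : x ∈ Metric.closedBall p R :=
        Metric.ball_subset_closedBall (Metric.ball_subset_ball (le_of_lt hρ) hx)
      rw [Set.indicator_of_mem hx, Set.indicator_of_mem hxR]
      exact hCu x hxR
    · rw [Set.indicator_of_notMem hx, norm_zero]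
      exact Set.indicator_nonneg (fun _ _ => hCu0) x
  · refine ae_of_all _ fun x => ?_
    by_cases hx : x ∈ Metric.ball p R
    · rw [Set.indicator_of_mem hx]
      refine tendsto_const_nhds.congr' ?_
      filter_upwards [Ioo_mem_nhdsLT (Metric.mem_ball.1 hx)] with ρ hρ
      rw [Set.indicator_of_mem (Metric.mem_ball.2 hρ.1)]
    · rw [Set.indicator_of_notMem hx]
      refine tendsto_const_nhds.congr' ?_
      filter_upwards [self_mem_nhdsWithin] with ρ hρ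
      rw [Set.indicator_of_notMem fun h => hx (Metric.ball_subset_ball (le_of_lt hρ) h)]

/-- (5) **weighted monotonicity for balls**, weak form -/
theorem wratio_mono_weak {p : E (m + n)} {R : ℝ} (hR : Metric.closedBall p R ⊆ W.U)
    {u : E (m + n) → ℝ} (hu : ContDiff ℝ 1 u) (hu0 : ∀ x ∈ Metric.ball p R, 0 ≤ u x) {c : ℝ}
    (hc : 0 ≤ c) (hws : W.WeakSub u c p R) :
    MonotoneOn (fun ρ => Real.exp (c * ρ ^ 2 / 4) * ((ρ ^ m)⁻¹ * ∫ x in Metric.ball p ρ, u x ∂W.μ))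
      (Set.Ioc 0 R) := by
  obtain ⟨h, hk, hle, hlim⟩ := exists_ker_seq
  -- the open interval
  have key : ∀ a b : ℝ, 0 < a → a ≤ b → b < R →
      Real.exp (c * a ^ 2 / 4) * ((a ^ m)⁻¹ * ∫ x in Metric.ball p a, u x ∂W.μ) ≤
      Real.exp (c * b ^ 2 / 4) * ((b ^ m)⁻¹ * ∫ x in Metric.ball p b, u x ∂W.μ) := by
    intro a b ha hab hb
    have hT : ∀ ρ : ℝ, 0 < ρ → ρ < R → Tendsto
        (fun k => Real.exp (c * ρ ^ 2 / 4) * W.kint u (h k) p ρ) atTop
        (𝓝 (Real.exp (c * ρ ^ 2 / 4) * ((ρ ^ m)⁻¹ * ∫ x in Metric.ball p ρ, u x ∂W.μ))) := by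
      intro ρ h0 h1
      exact ((W.kmo_tendsto_kernel h0 ((Metric.closedBall_subset_closedBall h1.le).trans hR)
        hu.continuous hk hle hlim).const_mul _).const_mul _
    refine le_of_tendsto_of_tendsto' (hT a ha (lt_of_le_of_lt hab hb)) (hT b (ha.trans_le hab) hb)
      fun k => ?_
    exact W.kint_mono hR hu hu0 hc hws (hk k) ⟨ha, lt_of_le_of_lt hab hb⟩ ⟨ha.trans_le hab, hb⟩ hab
  intro a ha b hb hab
  rcases hb.2.eq_or_lt with rfl | hbR
  · rcases hab.eq_or_lt with rfl | habl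
    · exact le_rfl
    · have hb0 : 0 < b := hb.1
      have hT : Tendsto (fun ρ => Real.exp (c * ρ ^ 2 / 4) *
          ((ρ ^ m)⁻¹ * ∫ x in Metric.ball p ρ, u x ∂W.μ)) (𝓝[<] b)
          (𝓝 (Real.exp (c * b ^ 2 / 4) * ((b ^ m)⁻¹ * ∫ x in Metric.ball p b, u x ∂W.μ))) := by
        have c1 : ContinuousAt (fun ρ : ℝ => Real.exp (c * ρ ^ 2 / 4)) b := by fun_prop
        have c2 : ContinuousAt (fun ρ : ℝ => (ρ ^ m)⁻¹) b :=
          (continuousAt_id.pow m).inv₀ (pow_ne_zero m hb0.ne')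
        exact (c1.tendsto.mono_left nhdsWithin_le_nhds).mul
          ((c2.tendsto.mono_left nhdsWithin_le_nhds).mul (W.kmo_tendsto_ball hb0 hR hu.continuous))
      refine ge_of_tendsto hT ?_
      filter_upwards [Ioo_mem_nhdsLT habl] with ρ hρ
      exact key a ρ ha.1 hρ.1.le hρ.2
  · exact key a b ha.1 hab hbR

/-- **weighted monotonicity for balls**: `u ≥ 0` of class `C²` near the closed ball,
`tr (P D²u) ≥ - c u` almost everywhere in the ball. -/
theorem wratio_mono {p : E (m + n)} {R : ℝ} (hR : Metric.closedBall p R ⊆ W.U)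
    {O : Set (E (m + n))} (hO : IsOpen O) (hRO : Metric.closedBall p R ⊆ O)
    {u : E (m + n) → ℝ} (hu : ContDiffOn ℝ 2 u O) (hu0 : ∀ x ∈ Metric.ball p R, 0 ≤ u x) {c : ℝ}
    (hc : 0 ≤ c) (hsub : ∀ᵐ x ∂W.μ, x ∈ Metric.ball p R → - c * u x ≤ tlap (W.P x) u x) :
    MonotoneOn (fun ρ => Real.exp (c * ρ ^ 2 / 4) * ((ρ ^ m)⁻¹ * ∫ x in Metric.ball p ρ, u x ∂W.μ))
      (Set.Ioc 0 R) := by
  obtain ⟨v, O', hv, hO', hKO', -, hEq⟩ :=
    exists_contDiff_eqOn hO (isCompact_closedBall p R) hRO hu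
  have hball : Metric.ball p R ⊆ O' := Metric.ball_subset_closedBall.trans hKO'
  have hv0 : ∀ x ∈ Metric.ball p R, 0 ≤ v x := fun x hx => by
    rw [hEq (hball hx)]; exact hu0 x hx
  have hsub' : ∀ᵐ x ∂W.μ, x ∈ Metric.ball p R → - c * v x ≤ tlap (W.P x) v x := by
    filter_upwards [hsub] with x hx hxb
    have e : v =ᶠ[𝓝 x] u := Filter.eventuallyEq_of_mem (hO'.mem_nhds (hball hxb)) hEq
    rw [tlap_congr _ e, hEq (hball hxb)]
    exact hx hxb
  have hws := W.weakSub_of_tlap hv (Metric.ball_subset_closedBall.trans hR) hsub'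
  have hmono := W.wratio_mono_weak hR (hv.of_le (by norm_num)) hv0 hc hws
  intro ρ₁ h₁ ρ₂ h₂ h12
  have key : ∀ ρ ∈ Set.Ioc 0 R, ∫ x in Metric.ball p ρ, u x ∂W.μ
      = ∫ x in Metric.ball p ρ, v x ∂W.μ := by
    intro ρ hρ
    refine setIntegral_congr_fun Metric.isOpen_ball.measurableSet fun x hx => ?_
    exact (hEq (hball (Metric.ball_subset_ball hρ.2 hx))).symm
  simp only [key ρ₁ h₁, key ρ₂ h₂]
  exact hmono h₁ h₂ h12

end SIV

end Claimed.Agent.R322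
end

/- ===== packed: Claimed.Agent.R322.Base.Mono.Mean ===== -/
section
/-!
# Row 322, Base/Mono: defect of the mass ratio, mean value inequality (AE (2.2), CO Section 5)

* `defect_annulus`, `defect` : `mono_identity` and `|x - p|^(m+2) ≤ s^(m+2)`; `r → 0` (monotone convergence, `nsq p p = 0`).
* `mean_value_weak` : `wratio_mono_weak` between `ρ → 0` and `R`; `∫_{B_ρ} u ≥ (u p - ε) μ(B_ρ) ≥ (u p - ε) kap ρ^m` (`lower_mass`).
-/

set_option autoImplicit false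

open scoped ENNReal ContDiff Topology NNReal
open MeasureTheory Filter

namespace Claimed.Agent.R322

namespace SIV

variable {m n : ℕ} (W : SIV m n)

theorem mea_measurableSet_annulus (p : E (m + n)) (r s : ℝ) :
    MeasurableSet {x : E (m + n) | r < ‖x - p‖ ∧ ‖x - p‖ < s} := by
  have hnorm : Measurable fun x : E (m + n) => ‖x - p‖ := (measurable_id.sub_const p).norm
  exact (measurableSet_lt measurable_const hnorm).inter (measurableSet_lt hnorm measurable_const)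

/-- bounded measurable functions are integrable on subsets of a closed ball in the domain -/
theorem mea_integrableOn {p : E (m + n)} {s : ℝ} (hs : Metric.closedBall p s ⊆ W.U)
    {A : Set (E (m + n))} (hA : MeasurableSet A) (hAs : A ⊆ Metric.closedBall p s)
    {f : E (m + n) → ℝ} (hf : Measurable f) {C : ℝ} (hC : ∀ x ∈ A, |f x| ≤ C) :
    IntegrableOn f A W.μ := by
  have hfin : W.μ A < ⊤ := lt_of_le_of_lt (measure_mono hAs) (W.rat_closedBall_lt_top hs)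
  exact Measure.integrableOn_of_bounded (M := C) hfin.ne hf.aestronglyMeasurable
    ((ae_restrict_iff' hA).2 (ae_of_all _ fun x hx => by rw [Real.norm_eq_abs]; exact hC x hx))

/-- the normal part of the position vector is controlled by the increase of the mass ratio -/
theorem defect_annulus (hm : 1 ≤ m) {p : E (m + n)} {r s : ℝ} (hr : 0 < r) (hrs : r < s)
    (hs : Metric.closedBall p s ⊆ W.U) :
    ∫ x in {x | r < ‖x - p‖ ∧ ‖x - p‖ < s}, W.nsq p x ∂W.μ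
      ≤ s ^ (m + 2) * kap m * (W.ratio p s - W.ratio p r) := by
  have hs0 : 0 < s := hr.trans hrs
  have hA := mea_measurableSet_annulus p r s
  have hAs : {x : E (m + n) | r < ‖x - p‖ ∧ ‖x - p‖ < s} ⊆ Metric.closedBall p s := by
    intro x hx
    rw [Metric.mem_closedBall, dist_eq_norm]
    exact hx.2.le
  have hnorm : Measurable fun x : E (m + n) => ‖x - p‖ := (measurable_id.sub_const p).norm
  have hle : ∀ x ∈ {x : E (m + n) | r < ‖x - p‖ ∧ ‖x - p‖ < s}, W.nsq p x ≤ s ^ 2 := fun x hx =>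
    (W.nsq_le p x).trans (pow_le_pow_left₀ (norm_nonneg _) hx.2.le 2)
  have i1 : IntegrableOn (W.nsq p) {x | r < ‖x - p‖ ∧ ‖x - p‖ < s} W.μ :=
    W.mea_integrableOn hs hA hAs (W.measurable_nsq p) (C := s ^ 2) fun x hx => by
      rw [abs_of_nonneg (W.nsq_nonneg p x)]
      exact hle x hx
  have i2 : IntegrableOn (fun x => W.nsq p x / ‖x - p‖ ^ (m + 2))
      {x | r < ‖x - p‖ ∧ ‖x - p‖ < s} W.μ :=
    W.mea_integrableOn hs hA hAs ((W.measurable_nsq p).div (hnorm.pow_const _))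
      (C := s ^ 2 / r ^ (m + 2)) fun x hx => by
      rw [abs_of_nonneg (div_nonneg (W.nsq_nonneg p x) (pow_nonneg (norm_nonneg _) _))]
      exact div_le_div₀ (by positivity) (hle x hx) (by positivity)
        (pow_le_pow_left₀ hr.le hx.1.le _)
  have h1 : ∫ x in {x | r < ‖x - p‖ ∧ ‖x - p‖ < s}, W.nsq p x ∂W.μ ≤
      ∫ x in {x | r < ‖x - p‖ ∧ ‖x - p‖ < s}, s ^ (m + 2) * (W.nsq p x / ‖x - p‖ ^ (m + 2)) ∂W.μ := by
    refine setIntegral_mono_on i1 (i2.const_mul _) hA fun x hx => ?_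
    have ht : 0 < ‖x - p‖ ^ (m + 2) := pow_pos (hr.trans hx.1) _
    rw [← mul_div_assoc, le_div_iff₀ ht, mul_comm]
    exact mul_le_mul_of_nonneg_right (pow_le_pow_left₀ (norm_nonneg _) hx.2.le _)
      (W.nsq_nonneg p x)
  rw [integral_const_mul, ← W.mono_identity hm hr hrs hs] at h1
  refine h1.trans ?_
  have h3 : (W.μ (Metric.ball p r)).toReal ≤ (W.μ (Metric.closedBall p r)).toReal :=
    ENNReal.toReal_mono
      (W.rat_closedBall_lt_top ((Metric.closedBall_subset_closedBall hrs.le).trans hs)).ne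
      (measure_mono Metric.ball_subset_closedBall)
  have hk := kap_pos m
  have hrm : 0 < r ^ m := pow_pos hr m
  have hsm : 0 < s ^ m := pow_pos hs0 m
  rw [mul_assoc]
  refine mul_le_mul_of_nonneg_left ?_ (by positivity)
  unfold ratio
  have e : ∀ (a t : ℝ), kap m * (a / (kap m * t)) = t⁻¹ * a := by
    intro a t
    field_simp
  rw [mul_sub, e, e]
  have := mul_le_mul_of_nonneg_left h3 (inv_pos.2 hrm).le
  linarith

theorem mea_nsq_self (p : E (m + n)) : W.nsq p p = 0 := by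
  unfold nsq
  simp

theorem defect (hm : 1 ≤ m) {p : E (m + n)} {s : ℝ} (hs0 : 0 < s)
    (hs : Metric.closedBall p s ⊆ W.U) :
    ∫ x in Metric.ball p s, W.nsq p x ∂W.μ ≤ s ^ (m + 2) * kap m * (W.ratio p s - W.Θ p) := by
  have hp : p ∈ W.U := hs (Metric.mem_closedBall_self hs0.le)
  have hB : MeasurableSet (Metric.ball p s) := Metric.isOpen_ball.measurableSet
  have h1 : Tendsto (fun r => s ^ (m + 2) * kap m * (W.ratio p s - W.ratio p r)) (𝓝[>] 0)
      (𝓝 (s ^ (m + 2) * kap m * (W.ratio p s - W.Θ p))) :=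
    ((W.tendsto_ratio hm hp).const_sub _).const_mul _
  have h2 : Tendsto (fun r => ∫ x in {x | r < ‖x - p‖ ∧ ‖x - p‖ < s}, W.nsq p x ∂W.μ) (𝓝[>] 0)
      (𝓝 (∫ x in Metric.ball p s, W.nsq p x ∂W.μ)) := by
    have e1 : ∀ r, ∫ x in {x | r < ‖x - p‖ ∧ ‖x - p‖ < s}, W.nsq p x ∂W.μ =
        ∫ x, {x | r < ‖x - p‖ ∧ ‖x - p‖ < s}.indicator (W.nsq p) x ∂W.μ := fun r =>
      (integral_indicator (mea_measurableSet_annulus p r s)).symm
    simp only [e1]
    rw [← integral_indicator hB]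
    refine tendsto_integral_filter_of_dominated_convergence
      ((Metric.closedBall p s).indicator fun _ => s ^ 2) ?_ ?_ ?_ ?_
    · exact Eventually.of_forall fun r =>
        ((W.measurable_nsq p).indicator (mea_measurableSet_annulus p r s)).aestronglyMeasurable
    · refine Eventually.of_forall fun r => ae_of_all _ fun x => ?_
      by_cases hx : r < ‖x - p‖ ∧ ‖x - p‖ < s
      · have hxs : x ∈ Metric.closedBall p s := by
          rw [Metric.mem_closedBall, dist_eq_norm]; exact hx.2.le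
        rw [Set.indicator_of_mem (show x ∈ {x : E (m + n) | r < ‖x - p‖ ∧ ‖x - p‖ < s} from hx),
          Set.indicator_of_mem hxs, Real.norm_eq_abs, abs_of_nonneg (W.nsq_nonneg p x)]
        exact (W.nsq_le p x).trans (pow_le_pow_left₀ (norm_nonneg _) hx.2.le 2)
      · rw [Set.indicator_of_notMem (show x ∉ {x : E (m + n) | r < ‖x - p‖ ∧ ‖x - p‖ < s} from hx),
          norm_zero]
        exact Set.indicator_nonneg (fun _ _ => sq_nonneg s) x
    · refine W.integrable_of_bdd (isCompact_closedBall p s) hs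
        ((measurable_const.indicator Metric.isClosed_closedBall.measurableSet).aestronglyMeasurable)
        (C := s ^ 2) (fun x => ?_) (fun x hx => Set.indicator_of_notMem hx _)
      by_cases hx : x ∈ Metric.closedBall p s
      · rw [Set.indicator_of_mem hx, abs_of_nonneg (sq_nonneg s)]
      · rw [Set.indicator_of_notMem hx, abs_zero]
        exact sq_nonneg s
    · refine ae_of_all _ fun x => ?_
      by_cases hx : x ∈ Metric.ball p s
      · have hxs : ‖x - p‖ < s := by rwa [Metric.mem_ball, dist_eq_norm] at hx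
        rw [Set.indicator_of_mem hx]
        rcases (norm_nonneg (x - p)).eq_or_lt with h0 | h0
        · have hxp : x = p := by
            rw [← sub_eq_zero, ← norm_eq_zero]; exact h0.symm
          subst hxp
          rw [W.mea_nsq_self]
          refine tendsto_const_nhds.congr fun r => ?_
          by_cases hx' : x ∈ {y : E (m + n) | r < ‖y - x‖ ∧ ‖y - x‖ < s}
          · rw [Set.indicator_of_mem hx', W.mea_nsq_self]
          · rw [Set.indicator_of_notMem hx']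
        · refine tendsto_const_nhds.congr' ?_
          filter_upwards [Ioo_mem_nhdsGT h0] with r hr
          rw [Set.indicator_of_mem (show x ∈ {x : E (m + n) | r < ‖x - p‖ ∧ ‖x - p‖ < s} from
            ⟨hr.2, hxs⟩)]
      · rw [Set.indicator_of_notMem hx]
        refine tendsto_const_nhds.congr fun r => ?_
        rw [Set.indicator_of_notMem]
        intro hx'
        exact hx (by rw [Metric.mem_ball, dist_eq_norm]; exact hx'.2)
  refine le_of_tendsto_of_tendsto h2 h1 ?_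
  filter_upwards [Ioo_mem_nhdsGT hs0] with r hr
  exact W.defect_annulus hm hr.1 hr.2 hs

/-- **Mean value inequality**, weak form. -/
theorem mean_value_weak (hm : 1 ≤ m) {p : E (m + n)} {R : ℝ} (hp : p ∈ W.support) (hR0 : 0 < R)
    (hR : Metric.closedBall p R ⊆ W.U)
    {u : E (m + n) → ℝ} (hu : ContDiff ℝ 1 u) (hu0 : ∀ x ∈ Metric.ball p R, 0 ≤ u x) {c : ℝ}
    (hc : 0 ≤ c) (hws : W.WeakSub u c p R) :
    u p ≤ Real.exp (c * R ^ 2 / 4) * ((kap m * R ^ m)⁻¹ * ∫ x in Metric.ball p R, u x ∂W.μ) := by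
  have hk := kap_pos m
  have hmono := W.wratio_mono_weak hR hu hu0 hc hws
  have hint0 : 0 ≤ ∫ x in Metric.ball p R, u x ∂W.μ :=
    setIntegral_nonneg Metric.isOpen_ball.measurableSet hu0
  have hRHS0 : 0 ≤ Real.exp (c * R ^ 2 / 4) *
      ((kap m * R ^ m)⁻¹ * ∫ x in Metric.ball p R, u x ∂W.μ) := by positivity
  refine le_of_forall_sub_le fun ε hε => ?_
  by_cases hneg : u p - ε < 0
  · exact hneg.le.trans hRHS0
  have hpos : 0 ≤ u p - ε := not_lt.1 hneg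
  -- a small ball on which `u ≥ u p - ε`
  have hcont : ∀ᶠ x in 𝓝 p, u p - ε < u x :=
    hu.continuous.continuousAt.eventually_const_lt (by linarith)
  obtain ⟨ρ₀, hρ₀, hρ₀u⟩ := Metric.eventually_nhds_iff_ball.1 hcont
  set ρ := min ρ₀ R with hρdef
  have hρ : 0 < ρ := lt_min hρ₀ hR0
  have hρR : ρ ≤ R := min_le_right _ _
  have hρU : Metric.closedBall p ρ ⊆ W.U := (Metric.closedBall_subset_closedBall hρR).trans hR
  have hB : MeasurableSet (Metric.ball p ρ) := Metric.isOpen_ball.measurableSet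
  obtain ⟨C, hC⟩ := (isCompact_closedBall p ρ).exists_bound_of_continuousOn hu.continuous.continuousOn
  have i1 : IntegrableOn u (Metric.ball p ρ) W.μ :=
    W.mea_integrableOn hρU hB Metric.ball_subset_closedBall hu.continuous.measurable (C := C)
      fun x hx => by rw [← Real.norm_eq_abs]; exact hC x (Metric.ball_subset_closedBall hx)
  have i2 : IntegrableOn (fun _ => u p - ε) (Metric.ball p ρ) W.μ :=
    W.mea_integrableOn hρU hB Metric.ball_subset_closedBall measurable_const (C := |u p - ε|)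
      fun x _ => le_rfl
  have h1 : (u p - ε) * (W.μ (Metric.ball p ρ)).toReal ≤ ∫ x in Metric.ball p ρ, u x ∂W.μ := by
    have := setIntegral_mono_on i2 i1 hB fun x hx =>
      (hρ₀u x (Metric.ball_subset_ball (min_le_left _ _) hx)).le
    rw [setIntegral_const, smul_eq_mul, mul_comm] at this
    exact this
  have h2 : kap m * ρ ^ m ≤ (W.μ (Metric.ball p ρ)).toReal := by
    have := W.lower_mass hm hp hρ (Metric.ball_subset_closedBall.trans hρU)
    rwa [ENNReal.ofReal_le_iff_le_toReal (W.rat_ball_lt_top hρU).ne] at this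
  have h3 := hmono (a := ρ) ⟨hρ, hρR⟩ (b := R) ⟨hR0, le_rfl⟩ hρR
  simp only at h3
  have hρm : 0 < ρ ^ m := pow_pos hρ m
  have h4 : (u p - ε) * kap m ≤ (ρ ^ m)⁻¹ * ∫ x in Metric.ball p ρ, u x ∂W.μ := by
    have h5 : (u p - ε) * (kap m * ρ ^ m) ≤ ∫ x in Metric.ball p ρ, u x ∂W.μ :=
      (mul_le_mul_of_nonneg_left h2 hpos).trans h1
    rw [inv_mul_eq_div, le_div_iff₀ hρm]
    linarith
  have h6 : (1 : ℝ) ≤ Real.exp (c * ρ ^ 2 / 4) := Real.one_le_exp (by positivity)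
  have h7 : (u p - ε) * kap m ≤ Real.exp (c * ρ ^ 2 / 4) *
      ((ρ ^ m)⁻¹ * ∫ x in Metric.ball p ρ, u x ∂W.μ) := by
    have h8 : 0 ≤ (u p - ε) * kap m := mul_nonneg hpos hk.le
    nlinarith
  have h9 := h7.trans h3
  have e : Real.exp (c * R ^ 2 / 4) * ((kap m * R ^ m)⁻¹ * ∫ x in Metric.ball p R, u x ∂W.μ) =
      (Real.exp (c * R ^ 2 / 4) * ((R ^ m)⁻¹ * ∫ x in Metric.ball p R, u x ∂W.μ)) / kap m := by
    rw [mul_inv]
    field_simp
  rw [e, le_div_iff₀ hk]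
  exact h9

/-- **Mean value inequality** (AE (2.2) for `c = 0`; CO Section 5 for `c > 0`). -/
theorem mean_value (hm : 1 ≤ m) {p : E (m + n)} {R : ℝ} (hp : p ∈ W.support) (hR0 : 0 < R)
    (hR : Metric.closedBall p R ⊆ W.U)
    {O : Set (E (m + n))} (hO : IsOpen O) (hRO : Metric.closedBall p R ⊆ O)
    {u : E (m + n) → ℝ} (hu : ContDiffOn ℝ 2 u O) (hu0 : ∀ x ∈ Metric.ball p R, 0 ≤ u x) {c : ℝ}
    (hc : 0 ≤ c) (hsub : ∀ᵐ x ∂W.μ, x ∈ Metric.ball p R → - c * u x ≤ tlap (W.P x) u x) :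
    u p ≤ Real.exp (c * R ^ 2 / 4) * ((kap m * R ^ m)⁻¹ * ∫ x in Metric.ball p R, u x ∂W.μ) := by
  obtain ⟨v, O', hv, hO', hKO', -, hEq⟩ :=
    exists_contDiff_eqOn hO (isCompact_closedBall p R) hRO hu
  have hball : Metric.ball p R ⊆ O' := Metric.ball_subset_closedBall.trans hKO'
  have hv0 : ∀ x ∈ Metric.ball p R, 0 ≤ v x := fun x hx => by
    rw [hEq (hball hx)]; exact hu0 x hx
  have hsub' : ∀ᵐ x ∂W.μ, x ∈ Metric.ball p R → - c * v x ≤ tlap (W.P x) v x := by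
    filter_upwards [hsub] with x hx hxb
    have e : v =ᶠ[𝓝 x] u := Filter.eventuallyEq_of_mem (hO'.mem_nhds (hball hxb)) hEq
    rw [tlap_congr _ e, hEq (hball hxb)]
    exact hx hxb
  have hws := W.weakSub_of_tlap hv (Metric.ball_subset_closedBall.trans hR) hsub'
  have h1 := W.mean_value_weak hm hp hR0 hR (hv.of_le (by norm_num)) hv0 hc hws
  have e1 : ∫ x in Metric.ball p R, u x ∂W.μ = ∫ x in Metric.ball p R, v x ∂W.μ :=
    setIntegral_congr_fun Metric.isOpen_ball.measurableSet fun x hx => (hEq (hball hx)).symm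
  rw [e1, ← hEq (hball (Metric.mem_ball_self hR0))]
  exact h1

end SIV

end Claimed.Agent.R322
end

/- ===== packed: Claimed.Agent.R322.Base.Mono.Haus ===== -/
section
/-!
# Row 322, Base/Mono: Hausdorff measure and lower mass bounds

* `hausdorff_le_of_lower_mass` : for `δ < r₀` take a subset `F ⊆ S` which is maximal among the `δ`-separated ones;
  the balls `B_{δ/2}(x)`, `x ∈ F`, are disjoint, contained in the `r₀`-thickening and have mass `≥ c (δ/2)^d`, so `F` is finite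
  (if the thickening has finite measure; otherwise there is nothing to prove);
  the balls `B_δ(x)` cover `S` and have diameter `≤ 2 δ`:  `∑ diam^d ≤ #F (2δ)^d ≤ 4^d ν(thickening) / c`.
  Mathlib: `hausdorffMeasure_le_liminf_sum` or `hausdorffMeasure_apply`.
* `hausdorff_support_lt_top` : `IsCompact.exists_cthickening_subset_open`, `lower_mass`, `μ_compact_lt_top`.
-/

set_option autoImplicit false

open scoped ENNReal ContDiff Topology NNReal
open MeasureTheory Filter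

namespace Claimed.Agent.R322

/-- finite `δ`-separated subsets of `S` -/
def hauSep {N : ℕ} (S : Set (E N)) (δ : ℝ) (F : Finset (E N)) : Prop :=
  (↑F ⊆ S) ∧ ∀ x ∈ F, ∀ y ∈ F, x ≠ y → δ ≤ dist x y

/-- the number of points of a separated set is controlled by the mass of the thickening -/
theorem hau_card_mul_le {N : ℕ} (d : ℕ) (ν : Measure (E N)) (S : Set (E N)) {c r₀ δ : ℝ}
    (hδ : 0 < δ) (hδr : δ < r₀)
    (hlow : ∀ x ∈ S, ∀ r : ℝ, 0 < r → r < r₀ → ENNReal.ofReal (c * r ^ d) ≤ ν (Metric.ball x r))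
    {F : Finset (E N)} (hF : hauSep S δ F) :
    (F.card : ℝ≥0∞) * ENNReal.ofReal (c * (δ / 2) ^ d) ≤ ν (Metric.thickening r₀ S) := by
  calc (F.card : ℝ≥0∞) * ENNReal.ofReal (c * (δ / 2) ^ d)
      = ∑ _x ∈ F, ENNReal.ofReal (c * (δ / 2) ^ d) := by
        rw [Finset.sum_const, nsmul_eq_mul]
    _ ≤ ∑ x ∈ F, ν (Metric.ball x (δ / 2)) :=
        Finset.sum_le_sum fun x hx => hlow x (hF.1 hx) (δ / 2) (half_pos hδ) (by linarith)
    _ = ν (⋃ x ∈ F, Metric.ball x (δ / 2)) := by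
        refine (measure_biUnion_finset ?_ fun x _ => Metric.isOpen_ball.measurableSet).symm
        intro x hx y hy hxy
        exact Metric.ball_disjoint_ball (by linarith [hF.2 x hx y hy hxy])
    _ ≤ ν (Metric.thickening r₀ S) := by
        refine measure_mono (Set.iUnion₂_subset fun x hx => ?_)
        exact (Metric.ball_subset_thickening (hF.1 hx) _).trans
          (Metric.thickening_mono (by linarith) _)

/-- a finite separated subset which is a net -/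
theorem hau_exists_net {N : ℕ} (d : ℕ) (ν : Measure (E N)) (S : Set (E N)) {c r₀ δ : ℝ}
    (hc : 0 < c) (hδ : 0 < δ) (hδr : δ < r₀)
    (hlow : ∀ x ∈ S, ∀ r : ℝ, 0 < r → r < r₀ → ENNReal.ofReal (c * r ^ d) ≤ ν (Metric.ball x r))
    (hV : ν (Metric.thickening r₀ S) ≠ ⊤) :
    ∃ F : Finset (E N), hauSep S δ F ∧ ∀ x ∈ S, ∃ y ∈ F, dist x y < δ := by
  classical
  have ha : 0 < c * (δ / 2) ^ d := by positivity
  have ha0 : ENNReal.ofReal (c * (δ / 2) ^ d) ≠ 0 := (ENNReal.ofReal_pos.2 ha).ne'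
  have hne : {k : ℕ | ∃ F : Finset (E N), hauSep S δ F ∧ F.card = k}.Nonempty :=
    ⟨0, ∅, ⟨by simp, by simp⟩, rfl⟩
  have hbdd : BddAbove {k : ℕ | ∃ F : Finset (E N), hauSep S δ F ∧ F.card = k} := by
    refine ⟨⌈(ν (Metric.thickening r₀ S) / ENNReal.ofReal (c * (δ / 2) ^ d)).toReal⌉₊, ?_⟩
    rintro k ⟨F, hF, rfl⟩
    have h1 := hau_card_mul_le d ν S hδ hδr hlow hF
    have h2 : (F.card : ℝ≥0∞) ≤ ν (Metric.thickening r₀ S) / ENNReal.ofReal (c * (δ / 2) ^ d) :=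
      (ENNReal.le_div_iff_mul_le (Or.inl ha0) (Or.inl ENNReal.ofReal_ne_top)).2 h1
    have h3 : ν (Metric.thickening r₀ S) / ENNReal.ofReal (c * (δ / 2) ^ d) ≠ ⊤ :=
      ENNReal.div_ne_top hV ha0
    have h4 := ENNReal.toReal_mono h3 h2
    rw [ENNReal.toReal_natCast] at h4
    exact_mod_cast h4.trans (Nat.le_ceil _)
  obtain ⟨F, hF, hcard⟩ := Nat.sSup_mem hne hbdd
  refine ⟨F, hF, fun x hx => ?_⟩
  by_contra hno
  push Not at hno
  have hxF : x ∉ F := fun h => by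
    have := hno x h
    rw [dist_self] at this
    linarith
  have hF' : hauSep S δ (insert x F) := by
    refine ⟨?_, ?_⟩
    · intro y hy
      rcases Finset.mem_insert.1 (Finset.mem_coe.1 hy) with rfl | hy
      · exact hx
      · exact hF.1 hy
    · intro y hy z hz hyz
      rcases Finset.mem_insert.1 hy with hy1 | hy1
      · rcases Finset.mem_insert.1 hz with hz1 | hz1
        · exact absurd (hy1.trans hz1.symm) hyz
        · rw [hy1]
          exact hno z hz1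
      · rcases Finset.mem_insert.1 hz with hz1 | hz1
        · rw [hz1, dist_comm]
          exact hno y hy1
        · exact hF.2 y hy1 z hz1 hyz
  have h5 : (insert x F).card ≤ sSup {k : ℕ | ∃ F : Finset (E N), hauSep S δ F ∧ F.card = k} :=
    le_csSup hbdd ⟨_, hF', rfl⟩
  rw [Finset.card_insert_of_notMem hxF, ← hcard] at h5
  omega

/-- **Hausdorff measure and lower mass bounds** (general measures). -/
theorem hausdorff_le_of_lower_mass {N : ℕ} (d : ℕ) (ν : Measure (E N)) (S : Set (E N))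
    {c r₀ : ℝ} (hc : 0 < c) (hr₀ : 0 < r₀)
    (hlow : ∀ x ∈ S, ∀ r : ℝ, 0 < r → r < r₀ → ENNReal.ofReal (c * r ^ d) ≤ ν (Metric.ball x r)) :
    μH[(d : ℝ)] S ≤ ENNReal.ofReal (4 ^ d / c) * ν (Metric.thickening r₀ S) := by
  have h4c : 0 < (4 : ℝ) ^ d / c := by positivity
  by_cases hV : ν (Metric.thickening r₀ S) = ⊤
  · rw [hV, ENNReal.mul_top (ENNReal.ofReal_pos.2 h4c).ne']
    exact le_top
  have hδ0 : ∀ k : ℕ, 0 < r₀ / ((k : ℝ) + 2) := fun k => by positivity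
  have hδr : ∀ k : ℕ, r₀ / ((k : ℝ) + 2) < r₀ := fun k => by
    rw [div_lt_iff₀ (by positivity)]
    have : (0 : ℝ) ≤ k := Nat.cast_nonneg k
    nlinarith
  choose F hF hcov using fun k : ℕ => hau_exists_net d ν S hc (hδ0 k) (hδr k) hlow hV
  have hdiam : ∀ (k : ℕ) (x : E N), Metric.ediam (Metric.ball x (r₀ / ((k : ℝ) + 2))) ≤
      ENNReal.ofReal (2 * (r₀ / ((k : ℝ) + 2))) := by
    intro k x
    rw [← Metric.eball_ofReal, ENNReal.ofReal_mul zero_le_two, ENNReal.ofReal_ofNat]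
    exact Metric.ediam_eball_le
  have hr : Tendsto (fun k : ℕ => ENNReal.ofReal (2 * (r₀ / ((k : ℝ) + 2)))) atTop (𝓝 0) := by
    have h1 : Tendsto (fun k : ℕ => 2 * (r₀ / ((k : ℝ) + 2))) atTop (𝓝 (2 * 0)) := by
      refine Tendsto.const_mul 2 (Tendsto.div_atTop tendsto_const_nhds ?_)
      exact tendsto_atTop_add_const_right _ _ tendsto_natCast_atTop_atTop
    rw [mul_zero] at h1
    have := (ENNReal.continuous_ofReal.tendsto 0).comp h1
    rw [ENNReal.ofReal_zero] at this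
    exact this
  have h1 := Measure.hausdorffMeasure_le_liminf_sum (d : ℝ) S
    (fun k : ℕ => ENNReal.ofReal (2 * (r₀ / ((k : ℝ) + 2)))) hr
    (fun (k : ℕ) (x : {x // x ∈ F k}) => Metric.ball (x : E N) (r₀ / ((k : ℝ) + 2)))
    (Eventually.of_forall fun k x => hdiam k x)
    (Eventually.of_forall fun k x hx => by
      obtain ⟨y, hy, hxy⟩ := hcov k x hx
      exact Set.mem_iUnion.2 ⟨⟨y, hy⟩, Metric.mem_ball.2 hxy⟩)
  refine h1.trans ?_
  have hbound : ∀ k : ℕ, ∑ x : {x // x ∈ F k},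
      Metric.ediam (Metric.ball (x : E N) (r₀ / ((k : ℝ) + 2))) ^ (d : ℝ) ≤
      ENNReal.ofReal (4 ^ d / c) * ν (Metric.thickening r₀ S) := by
    intro k
    have h2 := hau_card_mul_le d ν S (hδ0 k) (hδr k) hlow (hF k)
    calc ∑ x : {x // x ∈ F k}, Metric.ediam (Metric.ball (x : E N) (r₀ / ((k : ℝ) + 2))) ^ (d : ℝ)
        ≤ ∑ _x : {x // x ∈ F k}, ENNReal.ofReal (2 * (r₀ / ((k : ℝ) + 2))) ^ (d : ℝ) :=
          Finset.sum_le_sum fun x _ => ENNReal.rpow_le_rpow (hdiam k x) (Nat.cast_nonneg d)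
      _ = ((F k).card : ℝ≥0∞) * ENNReal.ofReal ((2 * (r₀ / ((k : ℝ) + 2))) ^ d) := by
          rw [Finset.sum_const, Finset.card_univ, Fintype.card_coe, nsmul_eq_mul,
            ENNReal.rpow_natCast, ENNReal.ofReal_pow (by have := hδ0 k; positivity)]
      _ = ENNReal.ofReal (4 ^ d / c) *
            (((F k).card : ℝ≥0∞) * ENNReal.ofReal (c * (r₀ / ((k : ℝ) + 2) / 2) ^ d)) := by
          have e : (2 * (r₀ / ((k : ℝ) + 2))) ^ d =
              4 ^ d / c * (c * (r₀ / ((k : ℝ) + 2) / 2) ^ d) := by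
            have : 2 * (r₀ / ((k : ℝ) + 2)) = 4 * (r₀ / ((k : ℝ) + 2) / 2) := by ring
            rw [this, mul_pow]
            field_simp
          rw [e, ENNReal.ofReal_mul h4c.le]
          ring
      _ ≤ ENNReal.ofReal (4 ^ d / c) * ν (Metric.thickening r₀ S) := by gcongr
  calc liminf (fun k : ℕ => ∑ x : {x // x ∈ F k},
        Metric.ediam (Metric.ball (x : E N) (r₀ / ((k : ℝ) + 2))) ^ (d : ℝ)) atTop
      ≤ liminf (fun _ : ℕ => ENNReal.ofReal (4 ^ d / c) * ν (Metric.thickening r₀ S)) atTop :=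
        liminf_le_liminf (Eventually.of_forall hbound)
    _ = ENNReal.ofReal (4 ^ d / c) * ν (Metric.thickening r₀ S) := liminf_const _

namespace SIV

variable {m n : ℕ} (W : SIV m n)

/-- the support has locally finite `m`-dimensional Hausdorff measure -/
theorem hausdorff_support_lt_top (hm : 1 ≤ m) {K : Set (E (m + n))} (hK : IsCompact K)
    (hKU : K ⊆ W.U) : μH[(m : ℝ)] (W.support ∩ K) < ⊤ := by
  obtain ⟨δ, hδ, hδU⟩ := hK.exists_cthickening_subset_open W.isOpen_U hKU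
  have h1 := hausdorff_le_of_lower_mass m W.μ (W.support ∩ K) (kap_pos m) hδ (by
    intro x hx r hr hrδ
    refine W.lower_mass hm hx.1 hr ?_
    exact ((Metric.ball_subset_thickening hx.2 r).trans (Metric.thickening_mono hrδ.le K)).trans
      ((Metric.thickening_subset_cthickening δ K).trans hδU))
  refine lt_of_le_of_lt h1 (ENNReal.mul_lt_top ENNReal.ofReal_lt_top ?_)
  refine lt_of_le_of_lt (measure_mono ?_) (W.μ_compact_lt_top hK.cthickening hδU)
  exact (Metric.thickening_subset_of_subset δ Set.inter_subset_right).trans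
    (Metric.thickening_subset_cthickening δ K)

end SIV

end Claimed.Agent.R322
end
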