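/- Packed by merge_tool.py (helper293): 4 modules of Claimed.Agent.R322 in one file, same declarations.
   Old modules, in this order: Base.Calc, Base.Moll, Base.FirstVar, Sx.Flow -/
import Claimed.Agent.R322.Basic
import Mathlib
import Claimed.Agent.R322.Pack034

/- ===== packed: Claimed.Agent.R322.Base.Calc ===== -/
section
/-!
# Row 322, Base: interface between the atlas / area package (B1), the first variation (B3),
the density package (B4) and the entrance theorem `exists_SIV`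

* `IsTanField m n U M θ P` : `P` is a Borel field of rank-`m` orthogonal projections for which
  the area formula holds on `(M, θ)` in `U` (fields `P_meas P_proj fib_meas area` of `SIV`).
  **Target of B1**: `∃ P, IsTanField m n U V.carrier V.mult P` for every frozen `V`.
* `HasLowerDens m μ` : field `dens` of `SIV`.  **Target of B4** (from the atlas) for
  `μ = wt m V.carrier V.mult`.
-/

set_option autoImplicit false

open scoped ENNReal ContDiff
open MeasureTheory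

namespace Claimed.Agent.R322.Base

/-- `P` is a tangent projection field of the weighted set `(M, θ)` in `U`. -/
structure IsTanField (m n : ℕ) (U M : Set (E (m + n))) (θ : E (m + n) → ℕ)
    (P : E (m + n) → E (m + n) →L[ℝ] E (m + n)) : Prop where
  meas : Measurable P
  proj : ∀ x, IsProj m (P x)
  fib_meas : ∀ (k : ℕ) (O : Set (E (m + n))) (g : E (m + n) → E k) (φ : E (m + n) → ℝ≥0∞),
    IsOpen O → O ⊆ U → ContDiffOn ℝ 1 g O → Measurable φ →
    AEMeasurable (fun y : E k => ∑' x : {x // x ∈ M ∩ O ∧ g x = y}, (θ x : ℝ≥0∞) * φ x)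
      (μH[(m : ℝ)])
  area : ∀ (k : ℕ) (O : Set (E (m + n))) (g : E (m + n) → E k) (φ : E (m + n) → ℝ≥0∞),
    IsOpen O → O ⊆ U → ContDiffOn ℝ 1 g O → Measurable φ →
    ∫⁻ y : E k, ∑' x : {x // x ∈ M ∩ O ∧ g x = y}, (θ x : ℝ≥0∞) * φ x ∂μH[(m : ℝ)]
      = ∫⁻ x in O, φ x * ENNReal.ofReal (tanJac (P x) (fderiv ℝ g x)) ∂(wt m M θ)

/-- lower bound `1` for the upper `m`-density at almost every point (field `dens` of `SIV`). -/
def HasLowerDens (m : ℕ) {N : ℕ} (μ : Measure (E N)) : Prop :=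
  ∀ᵐ x ∂μ, ∀ ε : ℝ, 0 < ε → ∀ r₀ : ℝ, 0 < r₀ → ∃ r : ℝ, 0 < r ∧ r < r₀ ∧
    ENNReal.ofReal ((1 - ε) * kap m * r ^ m) ≤ μ (Metric.ball x r)

end Claimed.Agent.R322.Base
end

/- ===== packed: Claimed.Agent.R322.Base.Moll ===== -/
section
/-!
# Row 322, Base: smooth approximation of `C¹` fields with compact support

`C¹_c(U)` fields are `C¹`-limits of `C^∞_c` fields with supports in a fixed compact subset of `U`.
-/

set_option autoImplicit false

open scoped ENNReal ContDiff Topology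
open MeasureTheory Convolution ContinuousLinearMap

namespace Claimed.Agent.R322.Base

/-- derivative of a mollification. -/
theorem fderiv_convolution_bump {N k : ℕ} (ρ : E N → ℝ) (hρ : Continuous ρ) (X : E N → E k)
    (hX : ContDiff ℝ 1 X) (hc : HasCompactSupport X) (x : E N) :
    fderiv ℝ (ρ ⋆[lsmul ℝ ℝ, volume] X) x = (ρ ⋆[lsmul ℝ ℝ, volume] fderiv ℝ X) x := by
  have h1 := hc.hasFDerivAt_convolution_right (lsmul ℝ ℝ : ℝ →L[ℝ] E k →L[ℝ] E k)
    (μ := (volume : Measure (E N))) hρ.locallyIntegrable hX x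
  rw [h1.fderiv]
  rw [convolution_def, convolution_def]
  refine integral_congr_ae (Filter.Eventually.of_forall fun t => ?_)
  ext v
  simp [precompR_apply]

/-- **Mollification.**  A `C¹` map with compact support in the open set `U` is approximated in
`C¹` by smooth maps supported in a fixed compact subset of `U`. -/
theorem exists_smooth_approx {N k : ℕ} {U : Set (E N)} (hU : IsOpen U) (X : E N → E k)
    (hX : ContDiff ℝ 1 X) (hc : HasCompactSupport X) (hsub : tsupport X ⊆ U) :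
    ∃ (K : Set (E N)) (Y : ℕ → E N → E k), IsCompact K ∧ K ⊆ U ∧ tsupport X ⊆ K ∧
      (∀ j, ContDiff ℝ ∞ (Y j)) ∧ (∀ j, tsupport (Y j) ⊆ K) ∧
      (∀ j x, ‖Y j x - X x‖ ≤ 1 / ((j : ℝ) + 1)) ∧
      (∀ j x, ‖fderiv ℝ (Y j) x - fderiv ℝ X x‖ ≤ 1 / ((j : ℝ) + 1)) := by
  obtain ⟨δ, hδ, hδU⟩ := hc.isCompact.exists_cthickening_subset_open hU hsub
  set K := Metric.cthickening δ (tsupport X) with hKdef
  have hK : IsCompact K := hc.isCompact.cthickening
  have hXu : UniformContinuous X := hc.uniformContinuous_of_continuous hX.continuous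
  have hDc : Continuous (fderiv ℝ X) := hX.continuous_fderiv (by simp)
  have hDs : HasCompactSupport (fderiv ℝ X) := hc.fderiv ℝ
  have hDu : UniformContinuous (fderiv ℝ X) := hDs.uniformContinuous_of_continuous hDc
  have hr : ∀ j : ℕ, ∃ r : ℝ, 0 < r ∧ r ≤ δ ∧
      (∀ x y, dist x y < r → dist (X x) (X y) ≤ 1 / ((j : ℝ) + 1)) ∧
      (∀ x y, dist x y < r → dist (fderiv ℝ X x) (fderiv ℝ X y) ≤ 1 / ((j : ℝ) + 1)) := by
    intro j
    have hj : (0 : ℝ) < 1 / ((j : ℝ) + 1) := by positivity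
    obtain ⟨r₁, hr₁, h₁⟩ := Metric.uniformContinuous_iff.1 hXu _ hj
    obtain ⟨r₂, hr₂, h₂⟩ := Metric.uniformContinuous_iff.1 hDu _ hj
    refine ⟨min δ (min r₁ r₂), by positivity, min_le_left _ _, fun x y hxy => ?_, fun x y hxy => ?_⟩
    · exact (h₁ (hxy.trans_le ((min_le_right _ _).trans (min_le_left _ _)))).le
    · exact (h₂ (hxy.trans_le ((min_le_right _ _).trans (min_le_right _ _)))).le
  choose r hr0 hrδ hrX hrD using hr
  let φ : ∀ j : ℕ, ContDiffBump (0 : E N) := fun j =>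
    ⟨r j / 2, r j, half_pos (hr0 j), half_lt_self (hr0 j)⟩
  have hφr : ∀ j, (φ j).rOut = r j := fun j => rfl
  refine ⟨K, fun j => (φ j).normed volume ⋆[lsmul ℝ ℝ, volume] X, hK, hδU,
    Metric.self_subset_cthickening _, fun j => ?_, fun j => ?_, fun j x => ?_, fun j x => ?_⟩
  · exact (φ j).hasCompactSupport_normed.contDiff_convolution_left _ (φ j).contDiff_normed
      hX.continuous.locallyIntegrable
  · refine closure_minimal (fun x hx => ?_) hK.isClosed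
    by_contra hxK
    apply hx
    have hz : ∀ y ∈ Metric.ball x (φ j).rOut, X y = 0 := by
      intro y hy
      by_contra hne
      apply hxK
      have hy' : y ∈ tsupport X := subset_tsupport X hne
      apply Metric.mem_cthickening_of_dist_le x y δ _ hy'
      rw [dist_comm]
      exact (Metric.mem_ball.1 hy).le.trans (hrδ j)
    have hx0 : X x = 0 := hz x (Metric.mem_ball_self (φ j).rOut_pos)
    have := (φ j).normed_convolution_eq_right (μ := (volume : Measure (E N))) (x₀ := x) (g := X)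
      (fun y hy => by rw [hz y hy, hx0])
    exact this.trans hx0
  · rw [← dist_eq_norm]
    exact (φ j).dist_normed_convolution_le hX.continuous.aestronglyMeasurable
      (fun y hy => hrX j y x (Metric.mem_ball.1 hy))
  · rw [fderiv_convolution_bump _ (φ j).continuous_normed X hX hc, ← dist_eq_norm]
    exact (φ j).dist_normed_convolution_le hDc.aestronglyMeasurable
      (fun y hy => hrD j y x (Metric.mem_ball.1 hy))

end Claimed.Agent.R322.Base
end

/- ===== packed: Claimed.Agent.R322.Base.FirstVar ===== -/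
section
/-!
# Row 322, Base: the first variation formula

For a weighted set `(M, θ)` in `U` with a tangent field `P` (area formula), the mass of the
deformation by `id + t X` is differentiable at `t = 0` with derivative `∫ tr (P DX) dμ`.
Hence the frozen notion of stationarity gives `∫ tr (P DX) dμ = 0`, first for smooth fields and
then, by mollification, for `C¹` fields with compact support in `U`.
-/

set_option autoImplicit false

open scoped ENNReal ContDiff Topology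
open MeasureTheory

namespace Claimed.Agent.R322.Base

/-- mass of the deformed weighted set (same formula as the frozen `deformedMass`). -/
noncomputable def defMass (m : ℕ) {N : ℕ} (M : Set (E N)) (θ : E N → ℕ) (X : E N → E N)
    (t : ℝ) : ℝ≥0∞ :=
  ∫⁻ y, ∑' x : {x // x ∈ M ∩ tsupport X ∧ x + t • X x = y}, (θ x : ℝ≥0∞) ∂μH[(m : ℝ)]

variable {m n : ℕ} {U M : Set (E (m + n))} {θ : E (m + n) → ℕ}
  {P : E (m + n) → E (m + n) →L[ℝ] E (m + n)}

/-- Borel measurability of `x ↦ tanJac (P x) (1 + t DX x)`. -/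
theorem measurable_tanJac_field {N : ℕ} {P : E N → E N →L[ℝ] E N} (hP : Measurable P)
    {X : E N → E N} (hX : ContDiff ℝ 1 X) (t : ℝ) :
    Measurable (fun x => tanJac (P x) (ContinuousLinearMap.id ℝ (E N) + t • fderiv ℝ X x)) := by
  have hD : Continuous (fderiv ℝ X) := hX.continuous_fderiv (by simp)
  have h2 : Measurable (fun x => ContinuousLinearMap.id ℝ (E N) + t • fderiv ℝ X x) :=
    (continuous_const.add (hD.const_smul t)).measurable
  exact (continuous_tanJac N N).measurable.comp (hP.prodMk h2)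

/-- Borel measurability of `x ↦ tdiv (P x) (DX x)`. -/
theorem measurable_tdiv_field {N : ℕ} {P : E N → E N →L[ℝ] E N} (hP : Measurable P)
    {X : E N → E N} (hX : ContDiff ℝ 1 X) :
    Measurable (fun x => tdiv (P x) (fderiv ℝ X x)) := by
  have hD : Continuous (fderiv ℝ X) := hX.continuous_fderiv (by simp)
  exact (continuous_tdiv N).measurable.comp (hP.prodMk hD.measurable)

/-- the deformed mass by the area formula. -/
theorem defMass_eq_lintegral (h : IsTanField m n U M θ P) (hU : IsOpen U)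
    {X : E (m + n) → E (m + n)} (hX : ContDiff ℝ 1 X) (hsub : tsupport X ⊆ U) (t : ℝ) :
    defMass m M θ X t = ∫⁻ x in tsupport X, ENNReal.ofReal
      (tanJac (P x) (ContinuousLinearMap.id ℝ (E (m + n)) + t • fderiv ℝ X x)) ∂(wt m M θ) := by
  have hKm : MeasurableSet (tsupport X) := (isClosed_tsupport X).measurableSet
  obtain ⟨g, hgdef⟩ : ∃ g : E (m + n) → E (m + n), g = fun x => x + t • X x := ⟨_, rfl⟩
  have hg : ContDiff ℝ 1 g := by
    rw [hgdef]; exact contDiff_id.add (hX.const_smul t)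
  obtain ⟨φ, hφdef⟩ : ∃ φ : E (m + n) → ℝ≥0∞, φ = (tsupport X).indicator 1 := ⟨_, rfl⟩
  have hφ : Measurable φ := by
    rw [hφdef]; exact measurable_one.indicator hKm
  have harea := h.area (m + n) U g φ hU subset_rfl hg.contDiffOn hφ
  have hL : ∀ y : E (m + n), ∑' x : {x // x ∈ M ∩ U ∧ g x = y}, (θ x : ℝ≥0∞) * φ x
      = ∑' x : {x // x ∈ M ∩ tsupport X ∧ x + t • X x = y}, (θ x : ℝ≥0∞) := by
    intro y
    have e1 := tsum_subtype {x | x ∈ M ∩ U ∧ g x = y} (fun x => (θ x : ℝ≥0∞) * φ x)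
    have e2 := tsum_subtype {x | x ∈ M ∩ tsupport X ∧ x + t • X x = y} (fun x => (θ x : ℝ≥0∞))
    refine e1.trans (Eq.trans ?_ e2.symm)
    refine tsum_congr fun x => ?_
    by_cases hxK : x ∈ tsupport X
    · have hφx : φ x = 1 := by rw [hφdef, Set.indicator_of_mem hxK]; rfl
      by_cases hx : x ∈ M ∧ x + t • X x = y
      · rw [Set.indicator_of_mem, Set.indicator_of_mem, hφx, mul_one]
        · exact ⟨⟨hx.1, hxK⟩, hx.2⟩
        · exact ⟨⟨hx.1, hsub hxK⟩, by rw [hgdef]; exact hx.2⟩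
      · rw [Set.indicator_of_notMem, Set.indicator_of_notMem]
        · exact fun h' => hx ⟨h'.1.1, h'.2⟩
        · exact fun h' => hx ⟨h'.1.1, by have := h'.2; rw [hgdef] at this; exact this⟩
    · have hφx : φ x = 0 := by rw [hφdef, Set.indicator_of_notMem hxK]
      rw [Set.indicator_of_notMem (s := {x | x ∈ M ∩ tsupport X ∧ x + t • X x = y})
        (fun h' => hxK h'.1.2)]
      by_cases hx : x ∈ {x | x ∈ M ∩ U ∧ g x = y}
      · rw [Set.indicator_of_mem hx, hφx, mul_zero]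
      · rw [Set.indicator_of_notMem hx]
  have hD : ∀ x, fderiv ℝ g x = ContinuousLinearMap.id ℝ (E (m + n)) + t • fderiv ℝ X x := by
    intro x
    rw [hgdef]
    exact ((hasFDerivAt_id x).add
      ((hX.differentiable (by simp) x).hasFDerivAt.const_smul t)).fderiv
  rw [defMass]
  simp only [hL, hD] at harea
  rw [harea]
  have e3 : ∀ x, φ x * ENNReal.ofReal
      (tanJac (P x) (ContinuousLinearMap.id ℝ (E (m + n)) + t • fderiv ℝ X x))
      = (tsupport X).indicator (fun x => ENNReal.ofReal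
      (tanJac (P x) (ContinuousLinearMap.id ℝ (E (m + n)) + t • fderiv ℝ X x))) x := by
    intro x
    by_cases hxK : x ∈ tsupport X
    · rw [hφdef, Set.indicator_of_mem hxK, Set.indicator_of_mem hxK]; simp
    · rw [hφdef, Set.indicator_of_notMem hxK, Set.indicator_of_notMem hxK, zero_mul]
  simp only [e3]
  rw [lintegral_indicator hKm, Measure.restrict_restrict hKm, Set.inter_eq_left.2 hsub]

/-- a quadratic remainder estimate gives the derivative. -/
theorem hasDerivAt_of_quadratic {f : ℝ → ℝ} {c d C t₀ : ℝ} (ht₀ : 0 < t₀)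
    (h : ∀ t : ℝ, |t| ≤ t₀ → |f t - c - t * d| ≤ C * t ^ 2) : HasDerivAt f d 0 := by
  have h0 : f 0 = c := by
    have := h 0 (by simpa using ht₀.le)
    simp at this
    linarith [sub_eq_zero.1 this]
  rw [hasDerivAt_iff_isLittleO, Asymptotics.isLittleO_iff]
  intro ε hε
  have hC : 0 < |C| + 1 := by positivity
  have hmem : Metric.ball (0 : ℝ) (min t₀ (ε / (|C| + 1))) ∈ 𝓝 (0 : ℝ) :=
    Metric.ball_mem_nhds _ (by positivity)
  filter_upwards [hmem] with t ht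
  rw [Metric.mem_ball, dist_zero_right, Real.norm_eq_abs] at ht
  have ht1 : |t| ≤ t₀ := (ht.trans_le (min_le_left _ _)).le
  have ht2 : |t| ≤ ε / (|C| + 1) := (ht.trans_le (min_le_right _ _)).le
  have h1 := h t ht1
  rw [h0, sub_zero, smul_eq_mul, Real.norm_eq_abs, Real.norm_eq_abs]
  refine h1.trans ?_
  rw [le_div_iff₀ hC] at ht2
  have h2 : C ≤ |C| := le_abs_self C
  have h3 : t ^ 2 = |t| * |t| := by rw [← sq_abs]; ring
  rw [h3]
  have h4 : 0 ≤ |t| := abs_nonneg t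
  nlinarith [mul_nonneg h4 h4]

theorem fderiv_eq_zero_of_notMem_tsupport {N k : ℕ} {X : E N → E k} {x : E N}
    (hx : x ∉ tsupport X) : fderiv ℝ X x = 0 :=
  Function.notMem_support.1 (fun h => hx (support_fderiv_subset ℝ h))

/-- **First variation formula.** -/
theorem hasDerivAt_defMass (h : IsTanField m n U M θ P) (hU : IsOpen U)
    (hfin : ∀ K : Set (E (m + n)), IsCompact K → K ⊆ U → wt m M θ K < ⊤)
    {X : E (m + n) → E (m + n)} (hX : ContDiff ℝ 1 X) (hc : HasCompactSupport X)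
    (hsub : tsupport X ⊆ U) :
    HasDerivAt (fun t : ℝ => (defMass m M θ X t).toReal)
      (∫ x, tdiv (P x) (fderiv ℝ X x) ∂(wt m M θ)) 0 := by
  have hDc : Continuous (fderiv ℝ X) := hX.continuous_fderiv (by simp)
  have hDs : HasCompactSupport (fderiv ℝ X) := hc.fderiv ℝ
  obtain ⟨a, ha⟩ := hDs.exists_bound_of_continuous hDc
  obtain ⟨C, t₀, hC, ht₀, hexp⟩ := tanJac_expansion (m + n) a
  obtain ⟨Ct, hCt, htd⟩ := exists_tdiv_bound (m + n)
  have hKfin : wt m M θ (tsupport X) < ⊤ := hfin _ hc.isCompact hsub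
  obtain ⟨ν, hν⟩ : ∃ ν : Measure (E (m + n)), ν = (wt m M θ).restrict (tsupport X) := ⟨_, rfl⟩
  have hνfin : IsFiniteMeasure ν := ⟨by rw [hν, Measure.restrict_apply_univ]; exact hKfin⟩
  have hνreal : ν.real Set.univ = (wt m M θ (tsupport X)).toReal := by
    rw [Measure.real, hν, Measure.restrict_apply_univ]
  have hint : ∫ x, tdiv (P x) (fderiv ℝ X x) ∂(wt m M θ) = ∫ x, tdiv (P x) (fderiv ℝ X x) ∂ν := by
    rw [hν]
    refine (setIntegral_eq_integral_of_forall_compl_eq_zero fun x hx => ?_).symm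
    rw [fderiv_eq_zero_of_notMem_tsupport hx, tdiv_zero]
  have i1 : Integrable (fun x => tdiv (P x) (fderiv ℝ X x)) ν :=
    Integrable.of_bound (measurable_tdiv_field h.meas hX).aestronglyMeasurable (Ct * a)
      (Filter.Eventually.of_forall fun x => by
        rw [Real.norm_eq_abs]
        exact (htd m _ _ (h.proj x)).trans (mul_le_mul_of_nonneg_left (ha x) hCt))
  refine hasDerivAt_of_quadratic (c := (wt m M θ (tsupport X)).toReal)
    (C := C * (wt m M θ (tsupport X)).toReal) ht₀ fun t ht => ?_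
  obtain ⟨J, hJ⟩ : ∃ J : E (m + n) → ℝ, J = fun x =>
    tanJac (P x) (ContinuousLinearMap.id ℝ (E (m + n)) + t • fderiv ℝ X x) := ⟨_, rfl⟩
  have hJm : Measurable J := by rw [hJ]; exact measurable_tanJac_field h.meas hX t
  have hJ0 : ∀ x, 0 ≤ J x := fun x => by rw [hJ]; exact tanJac_nonneg _ _
  have hb : ∀ x, ‖J x - 1 - t * tdiv (P x) (fderiv ℝ X x)‖ ≤ C * t ^ 2 := fun x => by
    rw [Real.norm_eq_abs, hJ]
    exact hexp m _ _ (h.proj x) (ha x) t ht
  have i2 : Integrable (fun x => J x - 1 - t * tdiv (P x) (fderiv ℝ X x)) ν :=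
    Integrable.of_bound ((hJm.sub measurable_const).sub
      ((measurable_tdiv_field h.meas hX).const_mul t)).aestronglyMeasurable (C * t ^ 2)
      (Filter.Eventually.of_forall hb)
  have iJ : Integrable J ν := by
    have := (i2.add (integrable_const (1 : ℝ))).add (i1.const_mul t)
    refine this.congr (Filter.Eventually.of_forall fun x => ?_)
    simp only [Pi.add_apply]
    ring
  have e1 : (defMass m M θ X t).toReal = ∫ x, J x ∂ν := by
    rw [defMass_eq_lintegral h hU hX hsub t,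
      integral_eq_lintegral_of_nonneg_ae (Filter.Eventually.of_forall hJ0) hJm.aestronglyMeasurable,
      hν, hJ]
  have e2 : ∫ x, (J x - 1 - t * tdiv (P x) (fderiv ℝ X x)) ∂ν
      = ∫ x, J x ∂ν - (wt m M θ (tsupport X)).toReal
        - t * ∫ x, tdiv (P x) (fderiv ℝ X x) ∂ν := by
    have i3 : Integrable (fun x => J x - 1) ν := iJ.sub (integrable_const (1 : ℝ))
    rw [integral_sub i3 (i1.const_mul t),
      integral_sub iJ (integrable_const (1 : ℝ)), integral_const_mul, integral_const, hνreal]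
    simp
  show |(defMass m M θ X t).toReal - _ - _| ≤ _
  rw [e1, hint, ← e2, ← Real.norm_eq_abs]
  calc ‖∫ x, (J x - 1 - t * tdiv (P x) (fderiv ℝ X x)) ∂ν‖ ≤ C * t ^ 2 * ν.real Set.univ :=
        norm_integral_le_of_norm_le_const (Filter.Eventually.of_forall hb)
    _ = C * (wt m M θ (tsupport X)).toReal * t ^ 2 := by rw [hνreal]; ring

/-- continuity of the first variation in the `C¹` topology. -/
theorem abs_integral_tdiv_sub_le (hP : Measurable P) (hproj : ∀ x, IsProj m (P x)) :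
    ∃ C : ℝ, 0 ≤ C ∧ ∀ (K : Set (E (m + n))) (X Y : E (m + n) → E (m + n)) (ε : ℝ),
      IsCompact K → wt m M θ K < ⊤ → ContDiff ℝ 1 X → ContDiff ℝ 1 Y → tsupport X ⊆ K →
      tsupport Y ⊆ K → (∀ x, ‖fderiv ℝ Y x - fderiv ℝ X x‖ ≤ ε) →
      |∫ x, tdiv (P x) (fderiv ℝ Y x) ∂(wt m M θ) - ∫ x, tdiv (P x) (fderiv ℝ X x) ∂(wt m M θ)|
        ≤ C * ε * (wt m M θ K).toReal := by
  obtain ⟨C, hC, htd⟩ := exists_tdiv_bound (m + n)
  refine ⟨C, hC, fun K X Y ε hK hKfin hX hY hXK hYK hε => ?_⟩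
  obtain ⟨ν, hν⟩ : ∃ ν : Measure (E (m + n)), ν = (wt m M θ).restrict K := ⟨_, rfl⟩
  have hνfin : IsFiniteMeasure ν := ⟨by rw [hν, Measure.restrict_apply_univ]; exact hKfin⟩
  have hνreal : ν.real Set.univ = (wt m M θ K).toReal := by
    rw [Measure.real, hν, Measure.restrict_apply_univ]
  have key : ∀ Z : E (m + n) → E (m + n), ContDiff ℝ 1 Z → tsupport Z ⊆ K →
      (∫ x, tdiv (P x) (fderiv ℝ Z x) ∂(wt m M θ) = ∫ x, tdiv (P x) (fderiv ℝ Z x) ∂ν) ∧
      Integrable (fun x => tdiv (P x) (fderiv ℝ Z x)) ν := by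
    intro Z hZ hZK
    have hZc : HasCompactSupport Z := hK.of_isClosed_subset (isClosed_tsupport _) hZK
    obtain ⟨a, ha⟩ := (hZc.fderiv ℝ).exists_bound_of_continuous (hZ.continuous_fderiv (by simp))
    constructor
    · rw [hν]
      refine (setIntegral_eq_integral_of_forall_compl_eq_zero fun x hx => ?_).symm
      rw [fderiv_eq_zero_of_notMem_tsupport (fun h => hx (hZK h)), tdiv_zero]
    · exact Integrable.of_bound (measurable_tdiv_field hP hZ).aestronglyMeasurable (C * a)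
        (Filter.Eventually.of_forall fun x => by
          rw [Real.norm_eq_abs]
          exact (htd m _ _ (hproj x)).trans (mul_le_mul_of_nonneg_left (ha x) hC))
  obtain ⟨eX, iX⟩ := key X hX hXK
  obtain ⟨eY, iY⟩ := key Y hY hYK
  rw [eX, eY, ← integral_sub iY iX, ← Real.norm_eq_abs, ← hνreal]
  refine norm_integral_le_of_norm_le_const (Filter.Eventually.of_forall fun x => ?_)
  rw [← tdiv_sub, Real.norm_eq_abs]
  exact (htd m _ _ (hproj x)).trans (mul_le_mul_of_nonneg_left (hε x) hC)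

/-- **Stationarity for `C¹` fields** from the frozen notion of stationarity. -/
theorem first_variation (h : IsTanField m n U M θ P) (hU : IsOpen U)
    (hfin : ∀ K : Set (E (m + n)), IsCompact K → K ⊆ U → wt m M θ K < ⊤)
    (hstat : ∀ X : E (m + n) → E (m + n), ContDiff ℝ ∞ X → HasCompactSupport X →
      tsupport X ⊆ U → HasDerivAt (fun t : ℝ => (defMass m M θ X t).toReal) 0 0)
    (X : E (m + n) → E (m + n)) (hX : ContDiff ℝ 1 X) (hc : HasCompactSupport X)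
    (hsub : tsupport X ⊆ U) :
    ∫ x, tdiv (P x) (fderiv ℝ X x) ∂(wt m M θ) = 0 := by
  -- smooth fields
  have hs : ∀ Y : E (m + n) → E (m + n), ContDiff ℝ ∞ Y → HasCompactSupport Y →
      tsupport Y ⊆ U → ∫ x, tdiv (P x) (fderiv ℝ Y x) ∂(wt m M θ) = 0 := by
    intro Y hY hYc hYs
    exact (hasDerivAt_defMass h hU hfin (hY.of_le (by simp)) hYc hYs).unique (hstat Y hY hYc hYs)
  obtain ⟨K, Y, hK, hKU, hXK, hY, hYK, -, hYd⟩ := exists_smooth_approx hU X hX hc hsub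
  obtain ⟨C, hC, hb⟩ := abs_integral_tdiv_sub_le (M := M) (θ := θ) h.meas h.proj
  have hKfin := hfin K hK hKU
  set I := ∫ x, tdiv (P x) (fderiv ℝ X x) ∂(wt m M θ) with hI
  have hle : ∀ j : ℕ, |I| ≤ C * (wt m M θ K).toReal * (1 / ((j : ℝ) + 1)) := by
    intro j
    have h1 := hb K X (Y j) (1 / ((j : ℝ) + 1)) hK hKfin hX ((hY j).of_le (by simp)) hXK (hYK j)
      (hYd j)
    have hYc : HasCompactSupport (Y j) := hK.of_isClosed_subset (isClosed_tsupport _) (hYK j)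
    rw [hs (Y j) (hY j) hYc ((hYK j).trans hKU), zero_sub, abs_neg] at h1
    calc |I| ≤ _ := h1
      _ = _ := by ring
  have hlim : Filter.Tendsto (fun j : ℕ => C * (wt m M θ K).toReal * (1 / ((j : ℝ) + 1)))
      Filter.atTop (nhds (C * (wt m M θ K).toReal * 0)) :=
    tendsto_one_div_add_atTop_nhds_zero_nat.const_mul _
  rw [mul_zero] at hlim
  have : |I| ≤ 0 := ge_of_tendsto' hlim hle
  exact abs_eq_zero.1 (le_antisymm this (abs_nonneg _))

end Claimed.Agent.R322.Base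
end

/- ===== packed: Claimed.Agent.R322.Sx.Flow ===== -/
section
/-!
# R322 / Sx / Flow : the comparison argument of AE Proposition 5.4, as pure real analysis

Variable `t = log s`.  An `LFlow` consists of the functions `A, Z, I` of AE (5.4), (5.5) in the variable
`t`, with the explicit derivatives `Ad = Ȧ`, `Zd = Ż`; `a = 2t - log I` is the level.  `LFlow.Reg`
lists what AE Lemma 5.2 and (5.5) provide on the path `[t0, t1]`.  NO derivative of `I` is used: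

* `A ≤ I` everywhere; `I(t') ≤ e^{K (t' - t)} I(t)`;
* off the reset set `{A = I}`, `I(t') = e^{K (t' - t)} I(t)` near `t`.

Barrier AE (5.12): `Φ = I - k U - α Z ≥ 0`, `k = kf kj aj a` (solution of `k_a / k = -k/a²` with
`k(aj) = kj`), `α = alf N k a` (we take `C_1 = 1`: the gain `k log a · D_tr` absorbs the transition loss
for large `a`).  `barrier_step`: at a zero of `Φ` the barrier survives on a right neighbourhood.
At a reset use `I(t') ≥ A(t')`, monotonicity of `x ↦ x - k(2t' - log x) U - α(2t' - log x) Z`, and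
the derivative AE (5.16) with `İ` replaced by `Ȧ`; off the reset set `I` is explicitly differentiable.
The signs are AE (5.16)-(5.17) = `barrier_alg_reset`, `barrier_alg_nonreset`
(checked numerically: the value is `≥ 1.8 k I / a²`).
-/

set_option autoImplicit false

namespace Claimed.Agent.R322.Sx

open Set

/-- path functions in logarithmic time. -/
structure LFlow where
  /-- exponent of the envelope -/
  K : ℝ
  /-- `A = s² M_s` -/
  A : ℝ → ℝ
  /-- `dA/dt` -/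
  Ad : ℝ → ℝ
  /-- `Z` -/
  Z : ℝ → ℝ
  /-- `dZ/dt` -/
  Zd : ℝ → ℝ
  /-- the future envelope -/
  I : ℝ → ℝ

namespace LFlow

/-- the level `a = log (s² / I)`. -/
noncomputable def a (F : LFlow) (t : ℝ) : ℝ := 2 * t - Real.log (F.I t)

/-- regularity of the path functions on `[t0, t1]`. -/
structure Reg (F : LFlow) (C t0 t1 : ℝ) : Prop where
  le : t0 ≤ t1
  dA : ∀ t ∈ Icc t0 t1, HasDerivAt F.A (F.Ad t) t
  dZ : ∀ t ∈ Icc t0 t1, HasDerivAt F.Z (F.Zd t) t
  I_pos : ∀ t ∈ Icc t0 t1, 0 < F.I t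
  I_cont : ContinuousOn F.I (Icc t0 t1)
  Z_nonneg : ∀ t ∈ Icc t0 t1, 0 ≤ F.Z t
  Z_le_A : ∀ t ∈ Icc t0 t1, F.Z t ≤ F.A t
  A_le_I : ∀ t ∈ Icc t0 t1, F.A t ≤ F.I t
  mono : ∀ t ∈ Icc t0 t1, ∀ t' ∈ Icc t0 t1, t ≤ t' → F.A t - F.Z t ≤ F.A t' - F.Z t'
  I_mono : ∀ t ∈ Icc t0 t1, ∀ t' ∈ Icc t0 t1, t ≤ t' →
    F.I t' ≤ Real.exp (F.K * (t' - t)) * F.I t
  nonreset : ∀ t ∈ Icc t0 t1, F.A t < F.I t → ∃ ε : ℝ, 0 < ε ∧ ∀ t' ∈ Icc t0 t1, |t' - t| < ε →
    F.I t' = Real.exp (F.K * (t' - t)) * F.I t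
  history : ∀ u ∈ Icc t0 t1, ∀ t ∈ Icc t0 t1, u ≤ t →
    F.I u ≤ F.I t ∨ ∃ v ∈ Icc u t, F.I u ≤ F.A v
  bound : ∀ t ∈ Icc t0 t1, |F.Ad t| + |F.Zd t| ≤ C * F.I t
  a_lip : ∀ t ∈ Icc t0 t1, ∀ t' ∈ Icc t0 t1, |F.a t' - F.a t| ≤ C * |t' - t|
  ZI_lip : ∀ t ∈ Icc t0 t1, ∀ t' ∈ Icc t0 t1,
    |F.Zd t' / F.I t' - F.Zd t / F.I t| ≤ C * |t' - t|

end LFlow

/-! ## The parameter `k` and the coefficient `α` -/

/-- solution of AE (5.12'): `k(a)^{-1} = kj^{-1} + aj^{-1} - a^{-1}`. -/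
noncomputable def kf (kj aj a : ℝ) : ℝ := (kj⁻¹ + aj⁻¹ - a⁻¹)⁻¹

/-- the coefficient `α` of AE (5.12), with `C_1 = 1`; `N` is the number of wells. -/
noncomputable def alf (N : ℕ) (k a : ℝ) : ℝ :=
  if 1 < N then 1 + k * a / Real.log a else 1 + (1 - 4 * k) * (-k / a ^ 2) - 2 * k

/-- `δ_α = α_a - q α`. -/
noncomputable def dalf (N : ℕ) (k a : ℝ) : ℝ :=
  if 1 < N then k / a ^ 2 + k * (Real.log a - 1) / Real.log a ^ 2
  else k / a ^ 2 + 2 * k * (1 - 4 * k) / a ^ 3 - 4 * k ^ 3 / a ^ 4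

/-- `h_1 = q + δ_α Z / I`. -/
noncomputable def hone (N : ℕ) (k a Z I : ℝ) : ℝ := -k / a ^ 2 + dalf N k a * Z / I

/-- the barrier function `Φ = I - k U - α Z`. -/
noncomputable def LFlow.Phi (F : LFlow) (N : ℕ) (kj aj : ℝ) (U : ℝ → ℝ) (t : ℝ) : ℝ :=
  F.I t - kf kj aj (F.a t) * U t - alf N (kf kj aj (F.a t)) (F.a t) * F.Z t

/-! ## Package Flow-A : elementary facts on `k`, `α` -/

theorem kf_self {kj aj : ℝ} : kf kj aj aj = kj := by
  simp [kf]

/-- the denominator of `kf`. -/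
theorem flow_den {kj aj a : ℝ} (hk : 0 < kj) (hk1 : kj ≤ 1) (haj : 2 ≤ aj) (ha : 2 ≤ a) :
    kj⁻¹ / 2 ≤ kj⁻¹ + aj⁻¹ - a⁻¹ ∧ kj⁻¹ + aj⁻¹ - a⁻¹ ≤ 2 * kj⁻¹ := by
  have h1 : 1 ≤ kj⁻¹ := (one_le_inv₀ hk).2 hk1
  have h2 : 0 < aj⁻¹ := by positivity
  have h3 : aj⁻¹ ≤ 2⁻¹ := inv_anti₀ (by norm_num) haj
  have h4 : 0 < a⁻¹ := by positivity
  have h5 : a⁻¹ ≤ 2⁻¹ := inv_anti₀ (by norm_num) ha
  constructor <;> linarith

theorem flow_one_le_log {a : ℝ} (ha : 3 ≤ a) : 1 ≤ Real.log a := by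
  rw [Real.le_log_iff_exp_le (by linarith)]
  linarith [Real.exp_one_lt_d9]

/-- `k` changes by at most a factor two on a stage. -/
theorem kf_bounds {kj aj a : ℝ} (hk : 0 < kj) (hk1 : kj ≤ 1) (haj : 2 ≤ aj) (ha : 2 ≤ a) :
    kj / 2 ≤ kf kj aj a ∧ kf kj aj a ≤ 2 * kj := by
  obtain ⟨h1, h2⟩ := flow_den hk hk1 haj ha
  have hi : 0 < kj⁻¹ := by positivity
  have hD : 0 < kj⁻¹ + aj⁻¹ - a⁻¹ := by linarith
  unfold kf
  constructor
  · have h3 := inv_anti₀ hD h2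
    have h4 : (2 * kj⁻¹)⁻¹ = kj / 2 := by rw [mul_inv, inv_inv]; ring
    rwa [h4] at h3
  · have h3 := inv_anti₀ (by positivity) h1
    have h4 : (kj⁻¹ / 2)⁻¹ = 2 * kj := by rw [inv_div, div_inv_eq_mul]
    rwa [h4] at h3

theorem hasDerivAt_kf {kj aj a : ℝ} (hk : 0 < kj) (hk1 : kj ≤ 1) (haj : 2 ≤ aj) (ha : 2 ≤ a) :
    HasDerivAt (kf kj aj) (-(kf kj aj a) ^ 2 / a ^ 2) a := by
  obtain ⟨h1, -⟩ := flow_den hk hk1 haj ha
  have hi : 0 < kj⁻¹ := by positivity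
  have hD : kj⁻¹ + aj⁻¹ - a⁻¹ ≠ 0 := by
    have : 0 < kj⁻¹ + aj⁻¹ - a⁻¹ := by linarith
    exact this.ne'
  have ha0 : a ≠ 0 := by linarith
  have h2 := ((hasDerivAt_inv ha0).const_sub (kj⁻¹ + aj⁻¹)).inv hD
  refine HasDerivAt.congr_deriv (f := kf kj aj) h2 ?_
  unfold kf
  field_simp

/-- `d/da [α(k(a), a)] = δ_α + q α`. -/
theorem hasDerivAt_alf (N : ℕ) {kj aj a : ℝ} (hk : 0 < kj) (hk1 : kj ≤ 1) (haj : 2 ≤ aj)
    (ha : 2 ≤ a) :
    HasDerivAt (fun x => alf N (kf kj aj x) x)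
      (dalf N (kf kj aj a) a + -(kf kj aj a) / a ^ 2 * alf N (kf kj aj a) a) a := by
  have hkd := hasDerivAt_kf hk hk1 haj ha
  have ha0 : a ≠ 0 := by linarith
  by_cases hN : 1 < N
  · simp only [alf, dalf, if_pos hN]
    have hL : Real.log a ≠ 0 := by
      have : 0 < Real.log a := Real.log_pos (by linarith)
      exact this.ne'
    have h1 := ((hkd.mul (hasDerivAt_id a)).div (Real.hasDerivAt_log ha0) hL).const_add 1
    refine HasDerivAt.congr_deriv (f := fun x => 1 + kf kj aj x * x / Real.log x) h1 ?_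
    simp only [id, Pi.mul_apply]
    field_simp
    ring
  · simp only [alf, dalf, if_neg hN]
    have h1 := ((((hkd.const_mul 4).const_sub 1).mul
      ((hkd.neg).div ((hasDerivAt_id a).pow 2) (pow_ne_zero 2 ha0))).const_add 1).sub (hkd.const_mul 2)
    refine HasDerivAt.congr_deriv
      (f := fun x => 1 + (1 - 4 * kf kj aj x) * (-kf kj aj x / x ^ 2) - 2 * kf kj aj x) h1 ?_
    simp only [id, Pi.neg_apply, Pi.pow_apply, Pi.div_apply]
    field_simp
    ring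

theorem alf_bounds (N : ℕ) {k a : ℝ} (hk : 0 < k) (hk1 : k ≤ 1 / 16) (ha : 3 ≤ a) :
    1 / 2 ≤ alf N k a ∧ alf N k a ≤ 1 + a ∧ (N ≤ 1 → alf N k a ≤ 1 - 2 * k) := by
  have hL := flow_one_le_log ha
  have ha0 : 0 < a := by linarith
  by_cases hN : 1 < N
  · simp only [alf, if_pos hN]
    have h1 : 0 ≤ k * a / Real.log a := by positivity
    have h2 : k * a / Real.log a ≤ a := by
      rw [div_le_iff₀ (by linarith)]
      nlinarith
    refine ⟨by linarith, by linarith, fun h => absurd hN (by omega)⟩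
  · simp only [alf, if_neg hN]
    have h1 : 0 ≤ k / a ^ 2 := by positivity
    have h2 : k / a ^ 2 ≤ k := by
      rw [div_le_iff₀ (by positivity)]
      have : (1:ℝ) ≤ a ^ 2 := by nlinarith
      nlinarith
    have h3 : (1 - 4 * k) * (-k / a ^ 2) = -((1 - 4 * k) * (k / a ^ 2)) := by ring
    have h4 : 0 ≤ (1 - 4 * k) * (k / a ^ 2) := mul_nonneg (by linarith) h1
    have h5 : (1 - 4 * k) * (k / a ^ 2) ≤ 1 * k := mul_le_mul (by linarith) h2 h1 (by norm_num)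
    rw [h3]
    refine ⟨by linarith, by linarith, fun _ => by linarith⟩

/-! ## Package Flow-B : the signs, AE (5.16)-(5.17) -/

theorem flow_rpow4 {a : ℝ} (ha : 0 < a) : a ^ (-4 : ℝ) = 1 / a ^ 4 := by
  rw [Real.rpow_neg ha.le, one_div]
  congr 1
  exact_mod_cast Real.rpow_natCast a 4

/-- linear part of AE (5.16): substitute the lower bounds of `Ȧ`, `R` and the upper bound of `U̇`. -/
theorem flow_reset_core {k a4 I Z U Ud Dd Dtr R Jm Ad Zd h α Ct : ℝ} (hk : 0 < k) (hh : 0 ≤ 1 + h)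
    (hI : I = k * U + α * Z) (hAd : 2 * I - Dd + R - Jm / 2 ≤ Ad) (hZd : Zd = 2 * I - Dd - Jm)
    (hUd : Ud ≤ 2 * Dd + Ct * Dtr + a4 * I)
    (hR : 4 * k * (Dd - Ct * Dtr) - 4 * k ^ 2 * U - a4 * k * I ≤ R) :
    (4 * k - 2) * h * I + 4 * k * (1 + h) * (α * Z) + (1 + h - 2 * k - 4 * k * h - α) * Zd
        + ((1 + h) / 2 - 2 * k - 4 * k * h) * Jm - (5 + 4 * h) * k * Ct * Dtr - (2 + h) * a4 * k * I
      ≤ (1 + h) * Ad - 2 * h * I - k * Ud - α * Zd := by
  have e1 := mul_le_mul_of_nonneg_left hAd hh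
  have e2 := mul_le_mul_of_nonneg_left hR hh
  have e3 := mul_le_mul_of_nonneg_left hUd hk.le
  subst hZd
  subst hI
  linarith [e1, e2, e3]

theorem flow_reset_one {C k P δ h a4 I ζ Zd Jm : ℝ} (hk : 0 < k) (hk1 : k ≤ 1 / 16) (hI : 0 < I)
    (hζ0 : 0 ≤ ζ) (hζ2 : ζ ≤ 2) (hh : h = -P + δ * ζ) (hP : 0 < P) (hPk : P ≤ k / 9) (hδ0 : 0 ≤ δ)
    (hδ : δ ≤ 3 * P) (hC : 3 * (2 + |C|) * P ≤ k) (ha4 : 0 ≤ a4) (ha4' : a4 * k ≤ P / 4)
    (hZd : |Zd| ≤ C * I) (hJ : 0 ≤ Jm) :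
    0 < (4 * k - 2) * h * I + 4 * k * (1 + h) * ((1 - (1 - 4 * k) * P - 2 * k) * (ζ * I))
        + (1 + h - 2 * k - 4 * k * h - (1 - (1 - 4 * k) * P - 2 * k)) * Zd
        + ((1 + h) / 2 - 2 * k - 4 * k * h) * Jm - (2 + h) * a4 * k * I := by
  have hδζ : 0 ≤ δ * ζ := mul_nonneg hδ0 hζ0
  have hδζ' : δ * ζ ≤ 6 * P := by
    have := mul_le_mul hδ hζ2 hζ0 (by positivity : (0 : ℝ) ≤ 3 * P)
    linarith
  have hh0 : -P ≤ h := by rw [hh]; linarith
  have hh1 : h ≤ 6 * P := by rw [hh]; linarith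
  have hZI : 0 ≤ ζ * I := mul_nonneg hζ0 hI.le
  have hCa : 0 ≤ |C| := abs_nonneg C
  have hkP : 0 < k * P := mul_pos hk hP
  have e1 : (4 * k - 2) * h * I = (2 - 4 * k) * P * I - (2 - 4 * k) * δ * (ζ * I) := by rw [hh]; ring
  have e2 : (1 + h - 2 * k - 4 * k * h - (1 - (1 - 4 * k) * P - 2 * k)) = (1 - 4 * k) * (δ * ζ) := by
    rw [hh]; ring
  rw [e1, e2]
  generalize hαdef : 1 - (1 - 4 * k) * P - 2 * k = α
  have hα : 13 / 16 ≤ α := by rw [← hαdef]; linarith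
  -- T2
  have b2 : k * (ζ * I) ≤ 4 * k * (1 + h) * (α * (ζ * I)) := by
    have h1 : (143 / 144 : ℝ) * (13 / 16) ≤ (1 + h) * α :=
      mul_le_mul (by linarith) hα (by norm_num) (by linarith)
    have h2 : 0 ≤ k * (ζ * I) := mul_nonneg hk.le hZI
    have h3 : 0 ≤ (4 * ((1 + h) * α) - 1) * (k * (ζ * I)) := mul_nonneg (by linarith) h2
    linarith
  -- T3
  have hZd' : -(|C| * I) ≤ Zd := by
    have h1 := (abs_le.1 hZd).1
    have h2 : C * I ≤ |C| * I := mul_le_mul_of_nonneg_right (le_abs_self C) hI.le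
    linarith
  have b3 : -(δ * |C| * (ζ * I)) ≤ (1 - 4 * k) * (δ * ζ) * Zd := by
    have h0 : 0 ≤ (1 - 4 * k) * (δ * ζ) := mul_nonneg (by linarith) hδζ
    have h1 : (1 - 4 * k) * (δ * ζ) * (-(|C| * I)) ≤ (1 - 4 * k) * (δ * ζ) * Zd :=
      mul_le_mul_of_nonneg_left hZd' h0
    have h2 : (1 - 4 * k) * (δ * ζ) * (|C| * I) ≤ 1 * (δ * ζ) * (|C| * I) := by
      apply mul_le_mul_of_nonneg_right _ (mul_nonneg hCa hI.le)
      exact mul_le_mul_of_nonneg_right (by linarith) hδζ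
    linarith
  -- T4
  have b4 : 0 ≤ ((1 + h) / 2 - 2 * k - 4 * k * h) * Jm := by
    apply mul_nonneg _ hJ
    have h1 : 0 ≤ (1 / 2 - 4 * k) * (h + P) := mul_nonneg (by linarith) (by linarith)
    linarith
  -- T5
  have b5 : (2 + h) * a4 * k * I ≤ 3 * (P / 4) * I := by
    have h1 : (2 + h) * (a4 * k) ≤ 3 * (P / 4) :=
      mul_le_mul (by linarith) ha4' (mul_nonneg ha4 hk.le) (by norm_num)
    have h2 := mul_le_mul_of_nonneg_right h1 hI.le
    linarith
  -- Z terms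
  have b6 : (2 - 4 * k) * δ * (ζ * I) + δ * |C| * (ζ * I) ≤ k * (ζ * I) := by
    have h1 : (2 - 4 * k) * δ + δ * |C| ≤ k := by
      have h2 : (2 + |C|) * δ ≤ (2 + |C|) * (3 * P) := mul_le_mul_of_nonneg_left hδ (by linarith)
      have h3 : 0 ≤ k * δ := mul_nonneg hk.le hδ0
      linarith
    have h2 := mul_le_mul_of_nonneg_right h1 hZI
    linarith
  have b7 : 0 < P * I := mul_pos hP hI
  have b8 : (2 - 4 * k) * P * I = 2 * (P * I) - 4 * k * (P * I) := by ring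
  have b9 : 4 * k * (P * I) ≤ 1 / 4 * (P * I) := mul_le_mul_of_nonneg_right (by linarith) b7.le
  have b10 : 3 * (P / 4) * I = 3 / 4 * (P * I) := by ring
  linarith

theorem flow_reset_many {Ct k P δ M G h a4 I ζ Zd Jm Dtr : ℝ} (hk : 0 < k) (hk1 : k ≤ 1 / 16)
    (hI : 0 < I) (hζ0 : 0 ≤ ζ) (hζ1 : ζ ≤ 1) (hh : h = -P + δ * ζ) (hP : 0 < P) (hPk : P ≤ k)
    (hδ0 : 0 ≤ δ) (hδ : δ ≤ k) (hM : 0 ≤ M) (hG : 0 ≤ G) (hMG : 6 * k * |Ct| ≤ M * G) (ha4 : 0 ≤ a4)
    (ha4' : a4 * (M + 3 * k) ≤ P / 4) (hZd : Zd + G * Dtr ≤ a4 * I) (hJ : 0 ≤ Jm) (hD : 0 ≤ Dtr) :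
    0 < (4 * k - 2) * h * I + 4 * k * (1 + h) * ((1 + M) * (ζ * I))
        + (1 + h - 2 * k - 4 * k * h - (1 + M)) * Zd
        + ((1 + h) / 2 - 2 * k - 4 * k * h) * Jm - (5 + 4 * h) * k * Ct * Dtr
        - (2 + h) * a4 * k * I := by
  have hδζ : 0 ≤ δ * ζ := mul_nonneg hδ0 hζ0
  have hδζ' : δ * ζ ≤ k := by
    have := mul_le_mul hδ hζ1 hζ0 hk.le
    linarith
  have hh0 : -P ≤ h := by rw [hh]; linarith
  have hh1 : h ≤ k := by rw [hh]; linarith
  have hZI : 0 ≤ ζ * I := mul_nonneg hζ0 hI.le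
  have hCa : 0 ≤ |Ct| := abs_nonneg Ct
  have e1 : (4 * k - 2) * h * I = (2 - 4 * k) * P * I - (2 - 4 * k) * δ * (ζ * I) := by rw [hh]; ring
  rw [e1]
  -- T2
  have b2 : 2 * k * (ζ * I) ≤ 4 * k * (1 + h) * ((1 + M) * (ζ * I)) := by
    have h1 : (15 / 16 : ℝ) * 1 ≤ (1 + h) * (1 + M) :=
      mul_le_mul (by linarith) (by linarith) (by norm_num) (by linarith)
    have h2 : 0 ≤ k * (ζ * I) := mul_nonneg hk.le hZI
    have h3 : 0 ≤ (4 * ((1 + h) * (1 + M)) - 2) * (k * (ζ * I)) := mul_nonneg (by linarith) h2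
    linarith
  have b6 : (2 - 4 * k) * δ * (ζ * I) ≤ 2 * k * (ζ * I) := by
    have h1 : (2 - 4 * k) * δ ≤ 2 * k := by
      have h3 : 0 ≤ k * δ := mul_nonneg hk.le hδ0
      linarith
    exact mul_le_mul_of_nonneg_right h1 hZI
  -- T3
  have hkh1 : (1 - 4 * k) * h ≤ (1 - 4 * k) * k := mul_le_mul_of_nonneg_left hh1 (by linarith)
  have hkh2 : (1 - 4 * k) * (-P) ≤ (1 - 4 * k) * h := mul_le_mul_of_nonneg_left hh0 (by linarith)
  have hkk : 0 < k * k := mul_pos hk hk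
  have hkP : 0 < k * P := mul_pos hk hP
  generalize hndef : M + 2 * k - (1 - 4 * k) * h = n at *
  have hn1 : M ≤ n := by rw [← hndef]; linarith
  have hn2 : n ≤ M + 3 * k := by rw [← hndef]; linarith
  have hn0 : 0 ≤ n := le_trans hM hn1
  have b3 : 6 * k * |Ct| * Dtr - P / 4 * I ≤ (1 + h - 2 * k - 4 * k * h - (1 + M)) * Zd := by
    have h0 : (1 + h - 2 * k - 4 * k * h - (1 + M)) * Zd = -(n * Zd) := by rw [← hndef]; ring
    have h1 : n * Zd ≤ n * (a4 * I - G * Dtr) := mul_le_mul_of_nonneg_left (by linarith) hn0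
    have h2 : M * (G * Dtr) ≤ n * (G * Dtr) := mul_le_mul_of_nonneg_right hn1 (mul_nonneg hG hD)
    have h3 : n * (a4 * I) ≤ (M + 3 * k) * (a4 * I) :=
      mul_le_mul_of_nonneg_right hn2 (mul_nonneg ha4 hI.le)
    have h4 : (M + 3 * k) * (a4 * I) ≤ P / 4 * I := by
      have := mul_le_mul_of_nonneg_right ha4' hI.le
      linarith
    have h5 : 6 * k * |Ct| * Dtr ≤ M * (G * Dtr) := by
      have := mul_le_mul_of_nonneg_right hMG hD
      linarith
    rw [h0]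
    linarith
  -- Dtr
  have b5 : (5 + 4 * h) * k * Ct * Dtr ≤ 6 * k * |Ct| * Dtr := by
    have h1 : (5 + 4 * h) * Ct ≤ 6 * |Ct| := by
      have h2 : (5 + 4 * h) * Ct ≤ (5 + 4 * h) * |Ct| :=
        mul_le_mul_of_nonneg_left (le_abs_self Ct) (by linarith)
      have h3 : (5 + 4 * h) * |Ct| ≤ 6 * |Ct| := mul_le_mul_of_nonneg_right (by linarith) hCa
      linarith
    have h4 := mul_le_mul_of_nonneg_right h1 (mul_nonneg hk.le hD)
    linarith
  have b4 : 0 ≤ ((1 + h) / 2 - 2 * k - 4 * k * h) * Jm := by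
    apply mul_nonneg _ hJ
    have h1 : 0 ≤ (1 / 2 - 4 * k) * (h + P) := mul_nonneg (by linarith) (by linarith)
    linarith
  have b7 : (2 + h) * a4 * k * I ≤ P / 4 * I := by
    have h1 : (2 + h) * (a4 * k) ≤ 3 * (a4 * k) :=
      mul_le_mul_of_nonneg_right (by linarith) (mul_nonneg ha4 hk.le)
    have h2 : 3 * (a4 * k) ≤ a4 * (M + 3 * k) := by
      have := mul_nonneg ha4 hM
      linarith
    have h3 := mul_le_mul_of_nonneg_right (h1.trans (h2.trans ha4')) hI.le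
    linarith
  have b8 : 0 < P * I := mul_pos hP hI
  have b9 : (2 - 4 * k) * P * I = 2 * (P * I) - 4 * k * (P * I) := by ring
  have b10 : 4 * k * (P * I) ≤ 1 / 4 * (P * I) := mul_le_mul_of_nonneg_right (by linarith) b8.le
  have b11 : P / 4 * I = 1 / 4 * (P * I) := by ring
  linarith

theorem flow_two_le_log {a : ℝ} (ha : 8 ≤ a) : 2 ≤ Real.log a := by
  rw [Real.le_log_iff_exp_le (by linarith)]
  have h1 : Real.exp 2 = Real.exp 1 * Real.exp 1 := by rw [← Real.exp_add]; norm_num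
  have h2 := Real.exp_one_lt_d9
  have h3 := Real.exp_pos 1
  rw [h1]
  nlinarith

/-- bounds of `δ_α` for one well. -/
theorem flow_dalf_one {k a : ℝ} (hk : 0 < k) (hk1 : k ≤ 1 / 16) (ha : 3 ≤ a) :
    0 ≤ k / a ^ 2 + 2 * k * (1 - 4 * k) / a ^ 3 - 4 * k ^ 3 / a ^ 4 ∧
      k / a ^ 2 + 2 * k * (1 - 4 * k) / a ^ 3 - 4 * k ^ 3 / a ^ 4 ≤ 3 * (k / a ^ 2) := by
  have ha0 : 0 < a := by linarith
  have hP : 0 < k / a ^ 2 := by positivity
  obtain ⟨r, hr⟩ : ∃ r, r = 1 / a := ⟨_, rfl⟩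
  have hr0 : 0 < r := by rw [hr]; positivity
  have hr1 : r ≤ 1 / 3 := by rw [hr]; exact one_div_le_one_div_of_le (by norm_num) ha
  have e : k / a ^ 2 + 2 * k * (1 - 4 * k) / a ^ 3 - 4 * k ^ 3 / a ^ 4
      = k / a ^ 2 * (1 + 2 * (1 - 4 * k) * r - 4 * k ^ 2 * r ^ 2) := by
    rw [hr]; field_simp
  rw [e]
  have hkr : 0 < k * r := mul_pos hk hr0
  have hkr1 : k * r ≤ 1 / 16 * (1 / 3) := mul_le_mul hk1 hr1 hr0.le (by norm_num)
  have hsq : (k * r) ^ 2 ≤ (1 / 48) ^ 2 := pow_le_pow_left₀ hkr.le (by linarith) 2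
  have hsq0 : 0 ≤ (k * r) ^ 2 := by positivity
  have e2 : 4 * k ^ 2 * r ^ 2 = 4 * (k * r) ^ 2 := by ring
  constructor
  · apply mul_nonneg hP.le
    rw [e2]
    nlinarith
  · have h1 : 1 + 2 * (1 - 4 * k) * r - 4 * k ^ 2 * r ^ 2 ≤ 3 := by
      rw [e2]
      nlinarith
    have := mul_le_mul_of_nonneg_left h1 hP.le
    linarith

/-- bounds of `δ_α` for several wells. -/
theorem flow_dalf_many {k a : ℝ} (hk : 0 < k) (ha : 3 ≤ a) :
    0 ≤ k / a ^ 2 + k * (Real.log a - 1) / Real.log a ^ 2 ∧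
      k / a ^ 2 + k * (Real.log a - 1) / Real.log a ^ 2 ≤ k / 2 := by
  have ha0 : 0 < a := by linarith
  have hL := flow_one_le_log ha
  have hL0 : 0 < Real.log a := by linarith
  have h1 : 0 ≤ k / a ^ 2 := by positivity
  have h2 : k / a ^ 2 ≤ k / 9 := by
    apply div_le_div_of_nonneg_left hk.le (by norm_num)
    nlinarith
  have h3 : 0 ≤ k * (Real.log a - 1) / Real.log a ^ 2 :=
    div_nonneg (mul_nonneg hk.le (by linarith)) (by positivity)
  have h4 : k * (Real.log a - 1) / Real.log a ^ 2 ≤ k / 4 := by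
    rw [div_le_div_iff₀ (by positivity) (by norm_num)]
    nlinarith [mul_nonneg hk.le (sq_nonneg (Real.log a - 2))]
  constructor <;> linarith

theorem flow_facts_many {k a c2 Ct : ℝ} (hk : 0 < k) (hc2 : 0 < c2) (ha8 : 8 ≤ a)
    (haE : Real.exp (6 * |Ct| / c2) ≤ a) :
    0 ≤ k * a / Real.log a ∧ 0 ≤ c2 * (Real.log a ^ 2 / a) ∧
      6 * k * |Ct| ≤ k * a / Real.log a * (c2 * (Real.log a ^ 2 / a)) ∧
      1 / a ^ 4 * (k * a / Real.log a + 3 * k) ≤ k / a ^ 2 / 4 := by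
  have ha0 : 0 < a := by linarith
  have hL2 := flow_two_le_log ha8
  have hL0 : 0 < Real.log a := by linarith
  have hLE : 6 * |Ct| / c2 ≤ Real.log a := (Real.le_log_iff_exp_le ha0).2 haE
  have ha4 : (0 : ℝ) ≤ 1 / a ^ 4 := by positivity
  refine ⟨by positivity, by positivity, ?_, ?_⟩
  · have e : k * a / Real.log a * (c2 * (Real.log a ^ 2 / a)) = k * (c2 * Real.log a) := by
      field_simp
    rw [e]
    rw [div_le_iff₀ hc2] at hLE
    have := mul_le_mul_of_nonneg_left hLE hk.le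
    linarith
  · have h1 : k * a / Real.log a ≤ k * a / 2 :=
      div_le_div_of_nonneg_left (by positivity) (by norm_num) hL2
    have h2 : 1 / a ^ 4 * (k * a / Real.log a + 3 * k) ≤ 1 / a ^ 4 * (k * a / 2 + 3 * k) :=
      mul_le_mul_of_nonneg_left (by linarith) ha4
    refine h2.trans ?_
    rw [div_mul_eq_mul_div, one_mul, div_div, div_le_div_iff₀ (by positivity) (by positivity)]
    have h3 : 2 * a + 12 ≤ a ^ 2 := by nlinarith
    have h4 := mul_le_mul_of_nonneg_left h3 (by positivity : 0 ≤ k * a ^ 2)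
    linarith

theorem flow_facts_one {k a C : ℝ} (hk : 0 < k) (ha8 : 8 ≤ a) (haC : 3 * (2 + |C|) ≤ a) :
    3 * (2 + |C|) * (k / a ^ 2) ≤ k ∧ 1 / a ^ 4 * k ≤ k / a ^ 2 / 4 := by
  have ha0 : 0 < a := by linarith
  have ha64 : 64 ≤ a ^ 2 := by nlinarith
  constructor
  · have h1 : 3 * (2 + |C|) ≤ a ^ 2 := by nlinarith
    rw [← mul_div_assoc, div_le_iff₀ (by positivity)]
    have := mul_le_mul_of_nonneg_right h1 hk.le
    linarith
  · rw [div_mul_eq_mul_div, one_mul, div_div, div_le_div_iff₀ (by positivity) (by positivity)]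
    have h5 : 0 ≤ k * a ^ 2 := by positivity
    have h4 := mul_le_mul_of_nonneg_left ha64 h5
    linarith

theorem flow_P_le {k a : ℝ} (hk : 0 < k) (ha8 : 8 ≤ a) : 0 < k / a ^ 2 ∧ k / a ^ 2 ≤ k / 64 := by
  have ha0 : 0 < a := by linarith
  have ha64 : 64 ≤ a ^ 2 := by nlinarith
  exact ⟨by positivity, div_le_div_of_nonneg_left hk.le (by norm_num) ha64⟩

theorem flow_hone_eq (N : ℕ) {k a ζ I : ℝ} (hI : 0 < I) :
    hone N k a (ζ * I) I = -(k / a ^ 2) + dalf N k a * ζ := by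
  unfold hone; field_simp

theorem flow_ratio {Z I : ℝ} (hI : 0 < I) (hZ : 0 ≤ Z) : ∃ ζ, 0 ≤ ζ ∧ Z = ζ * I :=
  ⟨Z / I, by positivity, by field_simp⟩

theorem flow_ratio_le {ζ I α c x : ℝ} (hI : 0 < I) (hζ : 0 ≤ ζ) (hc : 0 < c) (hα : c ≤ α) (hx : 0 ≤ x)
    (h : I = x + α * (ζ * I)) : ζ ≤ 1 / c := by
  have h1 : c * (ζ * I) ≤ α * (ζ * I) := mul_le_mul_of_nonneg_right hα (mul_nonneg hζ hI.le)
  have h2 : (c * ζ) * I ≤ 1 * I := by linarith
  have h3 : c * ζ ≤ 1 := le_of_mul_le_mul_right h2 hI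
  rw [le_div_iff₀ hc]
  linarith

theorem flow_reset_caseMany {N : ℕ} (hN : 1 < N) {Ct c2 k a I Z U Ud Dd Dtr R Jm Ad Zd : ℝ}
    (hc2 : 0 < c2) (hk : 0 < k) (hk1 : k ≤ 1 / 16) (ha8 : 8 ≤ a) (haE : Real.exp (6 * |Ct| / c2) ≤ a)
    (hI : 0 < I) (hZ : 0 ≤ Z) (hU : 0 ≤ U) (hIeq : I = k * U + alf N k a * Z)
    (hAd' : 2 * I - Dd + R - Jm / 2 ≤ Ad) (hZd : Zd = 2 * I - Dd - Jm) (hJ : 0 ≤ Jm) (hD0 : 0 ≤ Dtr)
    (hUd : Ud ≤ 2 * Dd + Ct * Dtr + 1 / a ^ 4 * I)
    (hR : 4 * k * (Dd - Ct * Dtr) - 4 * k ^ 2 * U - 1 / a ^ 4 * k * I ≤ R)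
    (hN1 : Zd + c2 * (Real.log a ^ 2 / a) * Dtr ≤ 1 / a ^ 4 * I) :
    0 < (1 + hone N k a Z I) * Ad - 2 * hone N k a Z I * I - k * Ud - alf N k a * Zd := by
  have ha0 : 0 < a := by linarith
  have ha3 : 3 ≤ a := by linarith
  obtain ⟨hP, hP64⟩ := flow_P_le hk ha8
  obtain ⟨hM, hG, hMG, hM4⟩ := flow_facts_many hk hc2 ha8 haE
  obtain ⟨hδ0, hδ1⟩ := flow_dalf_many hk ha3
  have ha4 : (0 : ℝ) ≤ 1 / a ^ 4 := by positivity
  obtain ⟨ζ, hζ0, hζ⟩ := flow_ratio hI hZ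
  subst hζ
  have hαM : alf N k a = 1 + k * a / Real.log a := by simp only [alf, if_pos hN]
  have hδ : dalf N k a = k / a ^ 2 + k * (Real.log a - 1) / Real.log a ^ 2 := by
    simp only [dalf, if_pos hN]
  rw [flow_hone_eq N hI, hδ]
  rw [hαM] at hIeq ⊢
  generalize hh : -(k / a ^ 2) + (k / a ^ 2 + k * (Real.log a - 1) / Real.log a ^ 2) * ζ = h
  have hζ1 : ζ ≤ 1 / 1 :=
    flow_ratio_le hI hζ0 one_pos (by linarith only [hM]) (mul_nonneg hk.le hU) hIeq
  have hh0 : -(k / a ^ 2) ≤ h := by rw [← hh]; linarith only [mul_nonneg hδ0 hζ0]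
  have core := flow_reset_core (h := h) hk (by linarith only [hh0, hP64, hk1]) hIeq hAd' hZd hUd hR
  have pos := flow_reset_many (Ct := Ct) hk hk1 hI hζ0 (by linarith only [hζ1]) hh.symm hP
    (by linarith only [hP64, hk]) hδ0 (by linarith only [hδ1, hk]) hM hG hMG ha4 hM4 hN1 hJ hD0
  exact lt_of_lt_of_le pos core

theorem flow_reset_caseOne {N : ℕ} (hN : ¬ 1 < N) {C Ct k a I Z U Ud Dd R Jm Ad Zd : ℝ}
    (hk : 0 < k) (hk1 : k ≤ 1 / 16) (ha8 : 8 ≤ a) (haC : 3 * (2 + |C|) ≤ a)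
    (hI : 0 < I) (hZ : 0 ≤ Z) (hU : 0 ≤ U) (hIeq : I = k * U + alf N k a * Z)
    (hAd' : 2 * I - Dd + R - Jm / 2 ≤ Ad) (hZd : Zd = 2 * I - Dd - Jm) (hZdC : |Zd| ≤ C * I)
    (hJ : 0 ≤ Jm)
    (hUd : Ud ≤ 2 * Dd + Ct * 0 + 1 / a ^ 4 * I)
    (hR : 4 * k * (Dd - Ct * 0) - 4 * k ^ 2 * U - 1 / a ^ 4 * k * I ≤ R) :
    0 < (1 + hone N k a Z I) * Ad - 2 * hone N k a Z I * I - k * Ud - alf N k a * Zd := by
  have ha0 : 0 < a := by linarith
  have ha3 : 3 ≤ a := by linarith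
  obtain ⟨hP, hP64⟩ := flow_P_le hk ha8
  obtain ⟨hCP, h4k⟩ := flow_facts_one (C := C) hk ha8 haC
  obtain ⟨hδ0, hδ1⟩ := flow_dalf_one hk hk1 ha3
  obtain ⟨hb1, -, -⟩ := alf_bounds N hk hk1 ha3
  have ha4 : (0 : ℝ) ≤ 1 / a ^ 4 := by positivity
  obtain ⟨ζ, hζ0, hζ⟩ := flow_ratio hI hZ
  subst hζ
  have hαP : alf N k a = 1 - (1 - 4 * k) * (k / a ^ 2) - 2 * k := by
    simp only [alf, if_neg hN]; ring
  have hδ : dalf N k a = k / a ^ 2 + 2 * k * (1 - 4 * k) / a ^ 3 - 4 * k ^ 3 / a ^ 4 := by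
    simp only [dalf, if_neg hN]
  rw [flow_hone_eq N hI, hδ]
  rw [hαP] at hIeq hb1 ⊢
  generalize hh : -(k / a ^ 2) + (k / a ^ 2 + 2 * k * (1 - 4 * k) / a ^ 3 - 4 * k ^ 3 / a ^ 4) * ζ = h
  have hζ2 : ζ ≤ 1 / (1 / 2) :=
    flow_ratio_le hI hζ0 (by norm_num) hb1 (mul_nonneg hk.le hU) hIeq
  have hh0 : -(k / a ^ 2) ≤ h := by rw [← hh]; linarith only [mul_nonneg hδ0 hζ0]
  have core := flow_reset_core (h := h) hk (by linarith only [hh0, hP64, hk1]) hIeq hAd' hZd hUd hR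
  have pos := flow_reset_one (C := C) hk hk1 hI hζ0 (by linarith only [hζ2]) hh.symm hP
    (by linarith only [hP64, hk]) hδ0 hδ1 hCP ha4 h4k hZdC hJ
  have e0 : (5 + 4 * h) * k * Ct * 0 = 0 := by ring
  linarith only [pos, core, e0]

/-- the derivative of the barrier at an equality on the reset set is positive. -/
theorem barrier_alg_reset (C Ct c2 : ℝ) (hc2 : 0 < c2) :
    ∃ kmax amin : ℝ, 0 < kmax ∧ ∀ (N : ℕ) (k a I Z U Ud Dd Dtr R Jm Ad Zd : ℝ),
      0 < k → k ≤ kmax → amin ≤ a → 0 < I → 0 ≤ Z → 0 ≤ U → I = k * U + alf N k a * Z →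
      |Ad - (2 * I - Dd + R)| ≤ Jm / 2 → Zd = 2 * I - Dd - Jm → |Zd| ≤ C * I → 0 ≤ Jm →
      0 ≤ Dtr → Dtr ≤ Dd →
      Ud ≤ 2 * Dd + Ct * Dtr + a ^ (-4 : ℝ) * I →
      4 * k * (Dd - Ct * Dtr) - 4 * k ^ 2 * U - a ^ (-4 : ℝ) * k * I ≤ R →
      (1 < N → Zd + c2 * (Real.log a ^ 2 / a) * Dtr ≤ a ^ (-4 : ℝ) * I) →
      (N ≤ 1 → Dtr = 0) →
      0 < (1 + hone N k a Z I) * Ad - 2 * hone N k a Z I * I - k * Ud - alf N k a * Zd := by
  refine ⟨1 / 16, 8 + Real.exp (6 * |Ct| / c2) + 3 * (2 + |C|), by norm_num, ?_⟩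
  intro N k a I Z U Ud Dd Dtr R Jm Ad Zd hk hk1 ha hI hZ hU hIeq hAd hZd hZdC hJ hD0 hD hUd hR hN1 hN0
  have hexp : 0 < Real.exp (6 * |Ct| / c2) := Real.exp_pos _
  have hCa := abs_nonneg C
  have ha8 : 8 ≤ a := by linarith only [ha, hexp, hCa]
  have haE : Real.exp (6 * |Ct| / c2) ≤ a := by linarith only [ha, hexp, hCa]
  have haC : 3 * (2 + |C|) ≤ a := by linarith only [ha, hexp, hCa]
  have ha0 : 0 < a := by linarith only [ha8]
  have hAd' : 2 * I - Dd + R - Jm / 2 ≤ Ad := by have := (abs_le.1 hAd).1; linarith only [this]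
  rw [flow_rpow4 ha0] at hUd hR hN1
  by_cases hN : 1 < N
  · exact flow_reset_caseMany hN hc2 hk hk1 ha8 haE hI hZ hU hIeq hAd' hZd hJ hD0 hUd hR (hN1 hN)
  · have hDtr : Dtr = 0 := hN0 (by omega)
    subst hDtr
    exact flow_reset_caseOne hN hk hk1 ha8 haC hI hZ hU hIeq hAd' hZd hZdC hJ hUd hR

theorem flow_nonreset_core {K k κ a4 I A Ud Dd Dtr Jm Zd h α Ct : ℝ} (hK : 6 < K) (hk : 0 < k)
    (hκ : κ = k * (2 + |Ct|)) (hκ1 : κ ≤ 1 / 4) (hh : -(1 / 16) ≤ h) (hI : 0 < I) (hA : A ≤ I)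
    (hZd : Zd = 2 * A - Dd - Jm) (hJ : 0 ≤ Jm) (hD0 : 0 ≤ Dtr) (hD : Dtr ≤ Dd)
    (hUd : Ud ≤ 2 * Dd + Ct * Dtr + a4 * I) (ha4 : k * a4 ≤ 1 / 16) (hβ : (α - κ) * Zd ≤ 2 * I) :
    0 < (1 + h) * (K * I) - 2 * h * I - k * Ud - α * Zd := by
  have u1 : Ct * Dtr ≤ |Ct| * Dd :=
    (mul_le_mul_of_nonneg_right (le_abs_self Ct) hD0).trans
      (mul_le_mul_of_nonneg_left hD (abs_nonneg Ct))
  have u2 : k * Ud ≤ k * (2 * Dd + |Ct| * Dd + a4 * I) :=
    mul_le_mul_of_nonneg_left (by linarith) hk.le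
  have u3 : Dd ≤ 2 * I - Zd := by linarith
  have hκ0 : 0 ≤ κ := by rw [hκ]; positivity
  have u4 : κ * Dd ≤ κ * (2 * I - Zd) := mul_le_mul_of_nonneg_left u3 hκ0
  have u5 : 0 ≤ (h + 1 / 16) * ((K - 2) * I) :=
    mul_nonneg (by linarith) (mul_nonneg (by linarith) hI.le)
  have u6 : k * a4 * I ≤ 1 / 16 * I := mul_le_mul_of_nonneg_right ha4 hI.le
  have u7 : κ * (2 * I) ≤ 1 / 4 * (2 * I) := mul_le_mul_of_nonneg_right hκ1 (by linarith)
  have u8 : κ * Dd = k * (2 * Dd + |Ct| * Dd) := by rw [hκ]; ring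
  have u9 : 6 * I < K * I := mul_lt_mul_of_pos_right hK hI
  linarith

/-- the derivative of the barrier at an equality off the reset set is positive. -/
theorem barrier_alg_nonreset (Ct K : ℝ) (hK : 6 < K) :
    ∃ kmax amin : ℝ, 0 < kmax ∧ ∀ (N : ℕ) (k a I A Z U Ud Dd Dtr Jm Zd : ℝ),
      0 < k → k ≤ kmax → amin ≤ a → 0 < I → 0 ≤ Z → 0 ≤ U → I = k * U + alf N k a * Z →
      A ≤ I → Zd = 2 * A - Dd - Jm → 0 ≤ Jm → 0 ≤ Dtr → Dtr ≤ Dd →
      Ud ≤ 2 * Dd + Ct * Dtr + a ^ (-4 : ℝ) * I →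
      (1 < N → Zd ≤ a ^ (-4 : ℝ) * I) →
      0 < (1 + hone N k a Z I) * (K * I) - 2 * hone N k a Z I * I - k * Ud - alf N k a * Zd := by
  have hCt : 0 < 4 * (2 + |Ct|) := by positivity
  refine ⟨min (1 / 16) (1 / (4 * (2 + |Ct|))), 8, lt_min (by norm_num) (by positivity), ?_⟩
  intro N k a I A Z U Ud Dd Dtr Jm Zd hk hkm ha8 hI hZ hU hIeq hA hZd hJ hD0 hD hUd hN1
  have hk1 : k ≤ 1 / 16 := hkm.trans (min_le_left _ _)
  have hk2 : k ≤ 1 / (4 * (2 + |Ct|)) := hkm.trans (min_le_right _ _)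
  have ha0 : 0 < a := by linarith only [ha8]
  have ha3 : 3 ≤ a := by linarith only [ha8]
  have hκ1 : k * (2 + |Ct|) ≤ 1 / 4 := by
    rw [le_div_iff₀ hCt] at hk2
    linarith only [hk2]
  obtain ⟨hP, hP64⟩ := flow_P_le hk ha8
  obtain ⟨hb1, hb2, hb3⟩ := alf_bounds N hk hk1 ha3
  rw [flow_rpow4 ha0] at hUd hN1
  have ha4 : (0 : ℝ) ≤ 1 / a ^ 4 := by positivity
  have ha41 : (1 + a) * (1 / a ^ 4) ≤ 1 := by
    rw [mul_one_div, div_le_one (by positivity)]
    have h1 : 64 ≤ a ^ 2 := by nlinarith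
    nlinarith
  have ha42 : k * (1 / a ^ 4) ≤ 1 / 16 := by
    have h1 : 1 / a ^ 4 ≤ 1 := by
      have : 0 ≤ a * (1 / a ^ 4) := mul_nonneg ha0.le ha4
      linarith only [ha41, this]
    have := mul_le_mul hk1 h1 ha4 (by norm_num)
    linarith only [this]
  have hδ0 : 0 ≤ dalf N k a := by
    by_cases hN : 1 < N
    · simp only [dalf, if_pos hN]; exact (flow_dalf_many hk ha3).1
    · simp only [dalf, if_neg hN]; exact (flow_dalf_one hk hk1 ha3).1
  have hh : -(1 / 16) ≤ hone N k a Z I := by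
    have h1 : 0 ≤ dalf N k a * Z / I := by positivity
    have h2 : hone N k a Z I = -(k / a ^ 2) + dalf N k a * Z / I := by unfold hone; ring
    rw [h2]
    linarith only [h1, hP64, hk1]
  have hβ0 : 0 ≤ alf N k a - k * (2 + |Ct|) := by linarith only [hb1, hκ1]
  have hκ0 : 0 ≤ k * (2 + |Ct|) := by positivity
  have hβ : (alf N k a - k * (2 + |Ct|)) * Zd ≤ 2 * I := by
    by_cases hN : 1 < N
    · have h1 := mul_le_mul_of_nonneg_left (hN1 hN) hβ0
      have h2 : (alf N k a - k * (2 + |Ct|)) * (1 / a ^ 4 * I) ≤ (1 + a) * (1 / a ^ 4 * I) :=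
        mul_le_mul_of_nonneg_right (by linarith only [hb2, hκ0]) (mul_nonneg ha4 hI.le)
      have h3 := mul_le_mul_of_nonneg_right ha41 hI.le
      linarith only [h1, h2, h3, hI]
    · have h0 : Zd ≤ 2 * I := by linarith only [hZd, hA, hJ, hD0, hD]
      have h1 := mul_le_mul_of_nonneg_left h0 hβ0
      have h2 : (alf N k a - k * (2 + |Ct|)) * (2 * I) ≤ 1 * (2 * I) :=
        mul_le_mul_of_nonneg_right (by linarith only [hb3 (by omega), hκ0, hk]) (by linarith only [hI])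
      linarith only [h1, h2]
  exact flow_nonreset_core hK hk rfl hκ1 hh hI hA hZd hJ hD0 hD hUd ha42 hβ

/-! ## Package Flow-C : the comparison principle -/

theorem flow_deriv_alg {κ αv δ a0 x xd U Z Ud Zd : ℝ} (hx : x ≠ 0) (hκ : κ ≠ 0)
    (heq : x = κ * U + αv * Z) :
    xd - (-κ ^ 2 / a0 ^ 2 * (2 - xd / x) * U + κ * Ud)
        - ((δ + -κ / a0 ^ 2 * αv) * (2 - xd / x) * Z + αv * Zd)
      = (1 + (-κ / a0 ^ 2 + δ * Z / x)) * xd - 2 * (-κ / a0 ^ 2 + δ * Z / x) * x - κ * Ud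
          - αv * Zd := by
  have hU : U = (x - αv * Z) / κ := by field_simp; linarith
  subst hU
  have e : -κ ^ 2 / a0 ^ 2 = -κ / a0 ^ 2 * κ := by ring
  rw [e]
  generalize -κ / a0 ^ 2 = q
  field_simp
  ring

/-- AE (5.16): derivative of `x(t) - k U - α Z` along any differentiable positive `x` with
`a = 2t - log x`, at an equality. -/
theorem barrier_deriv (N : ℕ) {kj aj t xd Ud Zd : ℝ} {x U Z : ℝ → ℝ} (hk : 0 < kj) (hk1 : kj ≤ 1)
    (haj : 2 ≤ aj) (hx : HasDerivAt x xd t) (hx0 : 0 < x t) (ha : 2 ≤ 2 * t - Real.log (x t))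
    (hU : HasDerivAt U Ud t) (hZ : HasDerivAt Z Zd t)
    (heq : x t = kf kj aj (2 * t - Real.log (x t)) * U t
      + alf N (kf kj aj (2 * t - Real.log (x t))) (2 * t - Real.log (x t)) * Z t) :
    HasDerivAt
      (fun u => x u - kf kj aj (2 * u - Real.log (x u)) * U u
        - alf N (kf kj aj (2 * u - Real.log (x u))) (2 * u - Real.log (x u)) * Z u)
      ((1 + hone N (kf kj aj (2 * t - Real.log (x t))) (2 * t - Real.log (x t)) (Z t) (x t)) * xd
        - 2 * hone N (kf kj aj (2 * t - Real.log (x t))) (2 * t - Real.log (x t)) (Z t) (x t) * x t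
        - kf kj aj (2 * t - Real.log (x t)) * Ud
        - alf N (kf kj aj (2 * t - Real.log (x t))) (2 * t - Real.log (x t)) * Zd) t := by
  have hav : HasDerivAt (fun u => 2 * u - Real.log (x u)) (2 - xd / x t) t := by
    have h1 := ((hasDerivAt_id t).const_mul 2).sub (hx.log hx0.ne')
    exact HasDerivAt.congr_deriv (f := fun u => 2 * u - Real.log (x u)) h1 (by ring)
  have hk' : HasDerivAt (fun u => kf kj aj (2 * u - Real.log (x u))) _ t :=
    HasDerivAt.comp (h₂ := kf kj aj) t (hasDerivAt_kf hk hk1 haj ha) hav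
  have hα' : HasDerivAt
      (fun u => alf N (kf kj aj (2 * u - Real.log (x u))) (2 * u - Real.log (x u))) _ t :=
    HasDerivAt.comp (h₂ := fun y => alf N (kf kj aj y) y) t (hasDerivAt_alf N hk hk1 haj ha) hav
  have htot := (hx.sub (hk'.mul hU)).sub (hα'.mul hZ)
  have hκ : kf kj aj (2 * t - Real.log (x t)) ≠ 0 := by
    have := (kf_bounds hk hk1 haj ha).1
    have h2 : 0 < kf kj aj (2 * t - Real.log (x t)) := by linarith
    exact h2.ne'
  refine HasDerivAt.congr_deriv (f := fun u => x u - kf kj aj (2 * u - Real.log (x u)) * U u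
        - alf N (kf kj aj (2 * u - Real.log (x u))) (2 * u - Real.log (x u)) * Z u) htot ?_
  unfold hone
  exact flow_deriv_alg hx0.ne' hκ heq

/-- `|dα/da| ≤ k/2`. -/
theorem flow_dalpha_abs (N : ℕ) {k a : ℝ} (hk : 0 < k) (hk1 : k ≤ 1 / 16) (ha : 3 ≤ a) :
    |dalf N k a + -k / a ^ 2 * alf N k a| ≤ k / 2 := by
  obtain ⟨hb1, hb2, -⟩ := alf_bounds N hk hk1 ha
  have ha0 : 0 < a := by linarith
  have ha9 : 9 ≤ a ^ 2 := by nlinarith
  have hP : 0 < k / a ^ 2 := by positivity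
  have hP9 : k / a ^ 2 ≤ k / 9 := div_le_div_of_nonneg_left hk.le (by norm_num) ha9
  have hδ : 0 ≤ dalf N k a ∧ dalf N k a ≤ k / 2 := by
    by_cases hN : 1 < N
    · simp only [dalf, if_pos hN]; exact flow_dalf_many hk ha
    · simp only [dalf, if_neg hN]
      obtain ⟨h1, h2⟩ := flow_dalf_one hk hk1 ha
      exact ⟨h1, by linarith⟩
  have hq0 : 0 ≤ k / a ^ 2 * alf N k a := mul_nonneg hP.le (by linarith)
  have hq1 : k / a ^ 2 * alf N k a ≤ k / 2 := by
    have h1 : k / a ^ 2 * alf N k a ≤ k / a ^ 2 * (1 + a) := mul_le_mul_of_nonneg_left hb2 hP.le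
    have h2 : k / a ^ 2 * (1 + a) ≤ k / 2 := by
      rw [div_mul_eq_mul_div, div_le_div_iff₀ (by positivity) (by norm_num)]
      have h3 : 2 * (1 + a) ≤ a ^ 2 := by nlinarith
      have := mul_le_mul_of_nonneg_left h3 hk.le
      linarith
    linarith
  have e : dalf N k a + -k / a ^ 2 * alf N k a = dalf N k a - k / a ^ 2 * alf N k a := by ring
  rw [e, abs_le]
  constructor <;> linarith [hδ.1, hδ.2]

/-- the derivative of `s ↦ s - k(τ - log s) u - α(τ - log s) z` is nonnegative. -/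
theorem flow_mono_deriv (N : ℕ) {kj aj τ u z s y : ℝ} (hk : 0 < kj) (hk1 : kj ≤ 1 / 32) (haj : 3 ≤ aj)
    (hy : 0 < y) (hys : y ≤ s) (ha : 3 ≤ τ - Real.log s) (hu : kj * |u| ≤ 4 * y) (hz0 : 0 ≤ z)
    (hz : z ≤ 4 * y) :
    ∃ G' : ℝ, 0 ≤ G' ∧ HasDerivAt (fun s => s - kf kj aj (τ - Real.log s) * u
      - alf N (kf kj aj (τ - Real.log s)) (τ - Real.log s) * z) G' s := by
  have hs0 : 0 < s := lt_of_lt_of_le hy hys
  have has : HasDerivAt (fun s => τ - Real.log s) (-s⁻¹) s :=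
    (Real.hasDerivAt_log hs0.ne').const_sub τ
  have hk' : HasDerivAt (fun s => kf kj aj (τ - Real.log s)) _ s :=
    HasDerivAt.comp (h₂ := kf kj aj) s
      (hasDerivAt_kf hk (by linarith) (by linarith) (by linarith)) has
  have hα' : HasDerivAt (fun s => alf N (kf kj aj (τ - Real.log s)) (τ - Real.log s)) _ s :=
    HasDerivAt.comp (h₂ := fun y => alf N (kf kj aj y) y) s
      (hasDerivAt_alf N hk (by linarith) (by linarith) (by linarith)) has
  have htot := ((hasDerivAt_id s).sub (hk'.mul_const u)).sub (hα'.mul_const z)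
  refine ⟨_, ?_, htot⟩
  obtain ⟨hκ1, hκ2⟩ := kf_bounds (a := τ - Real.log s) hk (by linarith) (by linarith : 2 ≤ aj)
    (by linarith)
  have hda := flow_dalpha_abs N (k := kf kj aj (τ - Real.log s)) (a := τ - Real.log s)
    (by linarith) (by linarith) ha
  generalize dalf N (kf kj aj (τ - Real.log s)) (τ - Real.log s)
    + -kf kj aj (τ - Real.log s) / (τ - Real.log s) ^ 2
      * alf N (kf kj aj (τ - Real.log s)) (τ - Real.log s) = dα at hda ⊢
  generalize kf kj aj (τ - Real.log s) = κ at *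
  generalize τ - Real.log s = a at *
  have hκ0 : 0 < κ := by linarith
  have hr0 : 0 < s⁻¹ := by positivity
  have hyr : y * s⁻¹ ≤ 1 := by
    rw [← div_eq_mul_inv, div_le_one hs0]; exact hys
  have hua : 0 ≤ |u| := abs_nonneg u
  -- first term
  have hA : κ ^ 2 * |u| ≤ y / 2 := by
    have h1 : κ ^ 2 ≤ (2 * kj) ^ 2 := pow_le_pow_left₀ hκ0.le hκ2 2
    have h2 : κ ^ 2 * |u| ≤ (2 * kj) ^ 2 * |u| := mul_le_mul_of_nonneg_right h1 hua
    have h3 : kj * (kj * |u|) ≤ kj * (4 * y) := mul_le_mul_of_nonneg_left hu hk.le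
    have h4 : kj * y ≤ 1 / 32 * y := mul_le_mul_of_nonneg_right hk1 hy.le
    nlinarith
  have hB : κ ^ 2 * |u| * s⁻¹ ≤ 1 / 2 := by
    have h1 := mul_le_mul_of_nonneg_right hA hr0.le
    linarith
  have hB0 : 0 ≤ κ ^ 2 * |u| * s⁻¹ := by positivity
  have ha9 : 9 ≤ a ^ 2 := by nlinarith
  have hC : κ ^ 2 * |u| * s⁻¹ / a ^ 2 ≤ 1 / 18 := by
    rw [div_le_iff₀ (by positivity)]
    nlinarith
  have hT1 : -κ ^ 2 / a ^ 2 * -s⁻¹ * u ≤ κ ^ 2 * |u| * s⁻¹ / a ^ 2 := by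
    have e1 : -κ ^ 2 / a ^ 2 * -s⁻¹ * u = κ ^ 2 * s⁻¹ / a ^ 2 * u := by ring
    have e2 : κ ^ 2 * |u| * s⁻¹ / a ^ 2 = κ ^ 2 * s⁻¹ / a ^ 2 * |u| := by ring
    rw [e1, e2]
    exact mul_le_mul_of_nonneg_left (le_abs_self u) (by positivity)
  -- second term
  have hzr : z * s⁻¹ ≤ 4 := by
    have h1 := mul_le_mul_of_nonneg_right hz hr0.le
    linarith
  have hzr0 : 0 ≤ z * s⁻¹ := by positivity
  have hT2 : dα * -s⁻¹ * z ≤ 1 / 8 := by
    have e1 : dα * -s⁻¹ * z = (-dα) * (z * s⁻¹) := by ring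
    rw [e1]
    have h1 : -dα ≤ κ / 2 := by have := (abs_le.1 hda).1; linarith
    have h2 : (-dα) * (z * s⁻¹) ≤ κ / 2 * (z * s⁻¹) := mul_le_mul_of_nonneg_right h1 hzr0
    have h3 : κ / 2 * (z * s⁻¹) ≤ κ / 2 * 4 := mul_le_mul_of_nonneg_left hzr (by linarith)
    linarith
  linarith

/-- monotonicity in the envelope: `x ↦ x - k(τ - log x) u - α(τ - log x) z` is nondecreasing as long as
`|u| ≤ 4 x / k`-type bounds hold. -/
theorem barrier_mono (N : ℕ) {kj aj τ u z x y : ℝ} (hk : 0 < kj) (hk1 : kj ≤ 1 / 32) (haj : 3 ≤ aj)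
    (hy : 0 < y) (hxy : y ≤ x) (ha : 3 ≤ τ - Real.log x) (hu : kj * |u| ≤ 4 * y) (hz0 : 0 ≤ z)
    (hz : z ≤ 4 * y) :
    y - kf kj aj (τ - Real.log y) * u - alf N (kf kj aj (τ - Real.log y)) (τ - Real.log y) * z
      ≤ x - kf kj aj (τ - Real.log x) * u
          - alf N (kf kj aj (τ - Real.log x)) (τ - Real.log x) * z := by
  have key : ∀ s ∈ Icc y x, ∃ G' : ℝ, 0 ≤ G' ∧ HasDerivAt (fun s => s - kf kj aj (τ - Real.log s) * u
      - alf N (kf kj aj (τ - Real.log s)) (τ - Real.log s) * z) G' s := by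
    intro s hs
    have hs0 : 0 < s := lt_of_lt_of_le hy hs.1
    have hl : Real.log s ≤ Real.log x := Real.log_le_log hs0 hs.2
    exact flow_mono_deriv N hk hk1 haj hy hs.1 (by linarith) hu hz0 hz
  have hmono : MonotoneOn (fun s => s - kf kj aj (τ - Real.log s) * u
      - alf N (kf kj aj (τ - Real.log s)) (τ - Real.log s) * z) (Icc y x) := by
    apply monotoneOn_of_deriv_nonneg (convex_Icc y x)
    · intro s hs
      obtain ⟨G', -, hG⟩ := key s hs
      exact hG.continuousAt.continuousWithinAt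
    · intro s hs
      obtain ⟨G', -, hG⟩ := key s (interior_subset hs)
      exact hG.differentiableAt.differentiableWithinAt
    · intro s hs
      obtain ⟨G', h0, hG⟩ := key s (interior_subset hs)
      rw [hG.deriv]
      exact h0
  exact hmono ⟨le_rfl, hxy⟩ ⟨hxy, le_rfl⟩ hxy

/-- a function with positive derivative at a zero stays nonnegative on a right neighbourhood. -/
theorem flow_pos_right {f : ℝ → ℝ} {f' x : ℝ} (hf : HasDerivAt f f' x) (h0 : 0 ≤ f x) (hpos : 0 < f') :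
    ∃ ε : ℝ, 0 < ε ∧ ∀ y ∈ Ico x (x + ε), 0 ≤ f y := by
  have h1 := (hasDerivAt_iff_isLittleO.1 hf).def (half_pos hpos)
  obtain ⟨ε, hε, h2⟩ := Metric.eventually_nhds_iff.1 h1
  refine ⟨ε, hε, fun y hy => ?_⟩
  have hd : dist y x < ε := by
    rw [Real.dist_eq, abs_of_nonneg (by linarith [hy.1])]
    linarith [hy.2]
  have h3 := h2 hd
  rw [Real.norm_eq_abs, Real.norm_eq_abs, abs_of_nonneg (by linarith [hy.1] : 0 ≤ y - x),
    smul_eq_mul] at h3
  have h4 := (abs_le.1 h3).1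
  have h5 : 0 ≤ f' / 2 * (y - x) := mul_nonneg (by linarith) (by linarith [hy.1])
  nlinarith

theorem flow_step_core (N : ℕ) {kj aj t xd Ud Zd : ℝ} {x U Z : ℝ → ℝ} (hk : 0 < kj) (hk1 : kj ≤ 1)
    (haj : 2 ≤ aj) (hx : HasDerivAt x xd t) (hx0 : 0 < x t) (ha : 2 ≤ 2 * t - Real.log (x t))
    (hU : HasDerivAt U Ud t) (hZ : HasDerivAt Z Zd t)
    (heq : x t = kf kj aj (2 * t - Real.log (x t)) * U t
      + alf N (kf kj aj (2 * t - Real.log (x t))) (2 * t - Real.log (x t)) * Z t)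
    (hpos : 0 < (1 + hone N (kf kj aj (2 * t - Real.log (x t))) (2 * t - Real.log (x t)) (Z t) (x t)) * xd
        - 2 * hone N (kf kj aj (2 * t - Real.log (x t))) (2 * t - Real.log (x t)) (Z t) (x t) * x t
        - kf kj aj (2 * t - Real.log (x t)) * Ud
        - alf N (kf kj aj (2 * t - Real.log (x t))) (2 * t - Real.log (x t)) * Zd) :
    ∃ ε : ℝ, 0 < ε ∧ ∀ u ∈ Ico t (t + ε), 0 ≤ x u - kf kj aj (2 * u - Real.log (x u)) * U u
        - alf N (kf kj aj (2 * u - Real.log (x u))) (2 * u - Real.log (x u)) * Z u :=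
  flow_pos_right (barrier_deriv N hk hk1 haj hx hx0 ha hU hZ heq) (by linarith) hpos

/-- **The barrier survives an equality** (AE Proposition 5.4, "it remains to prove the comparison"). -/
theorem barrier_step (C Ct c2 K : ℝ) (hc2 : 0 < c2) (hK : 6 < K) :
    ∃ kmax amin : ℝ, 0 < kmax ∧ ∀ (F : LFlow) (t0 t1 : ℝ), F.K = K → F.Reg C t0 t1 →
      ∀ (N : ℕ) (kj aj : ℝ) (U : ℝ → ℝ) (Ud Dd Dtr R Jm t : ℝ), t ∈ Ico t0 t1 →
      0 < kj → kj ≤ kmax → amin ≤ aj → amin ≤ F.a t → HasDerivAt U Ud t → 0 ≤ U t →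
      F.Phi N kj aj U t = 0 →
      |F.Ad t - (2 * F.A t - Dd + R)| ≤ Jm / 2 → F.Zd t = 2 * F.A t - Dd - Jm → 0 ≤ Jm →
      0 ≤ Dtr → Dtr ≤ Dd →
      Ud ≤ 2 * Dd + Ct * Dtr + F.a t ^ (-4 : ℝ) * F.I t →
      4 * kf kj aj (F.a t) * (Dd - Ct * Dtr) - 4 * kf kj aj (F.a t) ^ 2 * U t
          - F.a t ^ (-4 : ℝ) * kf kj aj (F.a t) * F.I t ≤ R →
      (1 < N → F.Zd t + c2 * (Real.log (F.a t) ^ 2 / F.a t) * Dtr ≤ F.a t ^ (-4 : ℝ) * F.I t) →
      (N ≤ 1 → Dtr = 0) →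
      ∃ ε : ℝ, 0 < ε ∧ ∀ t' ∈ Ico t (t + ε), 0 ≤ F.Phi N kj aj U t' := by
  obtain ⟨k1, a1, hk1pos, H1⟩ := barrier_alg_reset C Ct c2 hc2
  obtain ⟨k2, a2, hk2pos, H2⟩ := barrier_alg_nonreset Ct K hK
  refine ⟨min (min k1 k2 / 2) (1 / 32), max (max a1 a2) 4,
    lt_min (half_pos (lt_min hk1pos hk2pos)) (by norm_num), ?_⟩
  intro F t0 t1 hFK hReg N kj aj U Ud Dd Dtr R Jm t ht hkj hkjm haj hat hU hU0 hΦ hAd hZd hJ hD0 hD
    hUd hR hN1 hN0
  have htI : t ∈ Icc t0 t1 := ⟨ht.1, ht.2.le⟩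
  have hkj32 : kj ≤ 1 / 32 := hkjm.trans (min_le_right _ _)
  have hkjh : kj ≤ min k1 k2 / 2 := hkjm.trans (min_le_left _ _)
  have hkk1 : 2 * kj ≤ k1 := by have := min_le_left k1 k2; linarith
  have hkk2 : 2 * kj ≤ k2 := by have := min_le_right k1 k2; linarith
  have haj4 : 4 ≤ aj := (le_max_right _ _).trans haj
  have hat4 : 4 ≤ F.a t := (le_max_right _ _).trans hat
  have hat1 : a1 ≤ F.a t := ((le_max_left _ _).trans (le_max_left _ _)).trans hat
  have hat2 : a2 ≤ F.a t := ((le_max_right _ _).trans (le_max_left _ _)).trans hat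
  obtain ⟨hκ1, hκ2⟩ := kf_bounds (a := F.a t) hkj (by linarith) (by linarith : 2 ≤ aj) (by linarith)
  have hκ0 : 0 < kf kj aj (F.a t) := by linarith
  have hI0 := hReg.I_pos t htI
  have hZ0 := hReg.Z_nonneg t htI
  have hIeq : F.I t = kf kj aj (F.a t) * U t + alf N (kf kj aj (F.a t)) (F.a t) * F.Z t := by
    unfold LFlow.Phi at hΦ; linarith
  have ha_def : ∀ u, F.a u = 2 * u - Real.log (F.I u) := fun _ => rfl
  have htt : 0 < t1 - t := by linarith [ht.2]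
  rcases eq_or_lt_of_le (hReg.A_le_I t htI) with hres | hnon
  · -- the reset set
    have hZdC : |F.Zd t| ≤ C * F.I t := by
      have := hReg.bound t htI
      have h2 := abs_nonneg (F.Ad t)
      linarith
    rw [hres] at hAd hZd
    have hpos := H1 N (kf kj aj (F.a t)) (F.a t) (F.I t) (F.Z t) (U t) Ud Dd Dtr R Jm (F.Ad t) (F.Zd t)
      hκ0 (by linarith) hat1 hI0 hZ0 hU0 hIeq hAd hZd hZdC hJ hD0 hD hUd hR hN1 hN0
    rw [ha_def t] at hpos hIeq hat4
    obtain ⟨ε1, hε1, hΨ⟩ := flow_step_core N (x := F.A) (aj := aj) hkj (by linarith) (by linarith)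
      (hReg.dA t htI) (by rw [hres]; exact hI0) (by rw [hres]; linarith) hU (hReg.dZ t htI)
      (by rw [hres]; exact hIeq) (by rw [hres]; exact hpos)
    have hcA : ContinuousAt F.A t := (hReg.dA t htI).continuousAt
    have hcU : ContinuousAt U t := hU.continuousAt
    have hA0 : 0 < F.A t := by rw [hres]; exact hI0
    have e1 : ∀ᶠ u in nhds t, 0 < F.A u := hcA.eventually (lt_mem_nhds hA0)
    have hlt : kj * |U t| < 4 * F.A t := by
      rw [abs_of_nonneg hU0, hres]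
      obtain ⟨hb1, -, -⟩ := alf_bounds N (k := kf kj aj (2 * t - Real.log (F.I t)))
        (a := 2 * t - Real.log (F.I t)) hκ0 (by rw [← ha_def t]; linarith) (by linarith)
      have h1 : 0 ≤ alf N (kf kj aj (2 * t - Real.log (F.I t))) (2 * t - Real.log (F.I t)) * F.Z t :=
        mul_nonneg (by linarith) hZ0
      have h2 : kj / 2 * U t ≤ kf kj aj (2 * t - Real.log (F.I t)) * U t :=
        mul_le_mul_of_nonneg_right hκ1 hU0
      linarith
    have e2 : ∀ᶠ u in nhds t, kj * |U u| < 4 * F.A u :=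
      ContinuousAt.eventually_lt (continuousAt_const.mul hcU.abs) (continuousAt_const.mul hcA) hlt
    obtain ⟨ε2, hε2, h2⟩ := Metric.eventually_nhds_iff.1 (e1.and e2)
    have hC1 : 0 < |C| + 1 := by positivity
    refine ⟨min (min ε1 ε2) (min (1 / (|C| + 1)) (t1 - t)),
      lt_min (lt_min hε1 hε2) (lt_min (by positivity) htt), fun t' ht' => ?_⟩
    have hm1 : t' < t + ε1 := by
      have := (min_le_left (min ε1 ε2) (min (1 / (|C| + 1)) (t1 - t))).trans (min_le_left ε1 ε2)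
      linarith [ht'.2]
    have hm2 : t' < t + ε2 := by
      have := (min_le_left (min ε1 ε2) (min (1 / (|C| + 1)) (t1 - t))).trans (min_le_right ε1 ε2)
      linarith [ht'.2]
    have hm3 : t' - t < 1 / (|C| + 1) := by
      have := (min_le_right (min ε1 ε2) (min (1 / (|C| + 1)) (t1 - t))).trans (min_le_left _ _)
      linarith [ht'.2]
    have hm4 : t' < t1 := by
      have := (min_le_right (min ε1 ε2) (min (1 / (|C| + 1)) (t1 - t))).trans (min_le_right _ _)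
      linarith [ht'.2]
    have ht'I : t' ∈ Icc t0 t1 := ⟨ht.1.trans ht'.1, hm4.le⟩
    have hd0 : 0 ≤ t' - t := by linarith [ht'.1]
    obtain ⟨hA', hU'⟩ := h2 (show dist t' t < ε2 by
      rw [Real.dist_eq, abs_of_nonneg hd0]; linarith)
    have ha' : 3 ≤ 2 * t' - Real.log (F.I t') := by
      have h1 := hReg.a_lip t htI t' ht'I
      rw [abs_of_nonneg hd0] at h1
      have h3 : C * (t' - t) ≤ (|C| + 1) * (t' - t) :=
        mul_le_mul_of_nonneg_right (by linarith [le_abs_self C]) hd0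
      have h4 : (|C| + 1) * (t' - t) ≤ 1 := by
        rw [lt_div_iff₀ hC1] at hm3
        linarith
      have h5 := (abs_le.1 h1).1
      rw [ha_def t', ha_def t] at h5
      linarith
    have hmono := barrier_mono N (aj := aj) (τ := 2 * t') (u := U t') (z := F.Z t') (x := F.I t') (y := F.A t')
      hkj hkj32 (by linarith) hA' (hReg.A_le_I t' ht'I) ha' hU'.le (hReg.Z_nonneg t' ht'I)
      (by have := hReg.Z_le_A t' ht'I; linarith)
    have hΨ' := hΨ t' ⟨ht'.1, hm1⟩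
    unfold LFlow.Phi
    rw [ha_def t']
    linarith
  · -- off the reset set
    obtain ⟨ε0, hε0, hIx⟩ := hReg.nonreset t htI hnon
    have ha0 : 0 < F.a t := by linarith
    have hN1' : 1 < N → F.Zd t ≤ F.a t ^ (-4 : ℝ) * F.I t := by
      intro hN
      have h1 := hN1 hN
      have h2 : 0 ≤ c2 * (Real.log (F.a t) ^ 2 / F.a t) * Dtr := by positivity
      linarith
    have hpos := H2 N (kf kj aj (F.a t)) (F.a t) (F.I t) (F.A t) (F.Z t) (U t) Ud Dd Dtr Jm (F.Zd t)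
      hκ0 (by linarith) hat2 hI0 hZ0 hU0 hIeq hnon.le hZd hJ hD0 hD hUd hN1'
    rw [ha_def t] at hpos hIeq hat4
    obtain ⟨x, hxdef⟩ : ∃ x : ℝ → ℝ, ∀ u, x u = Real.exp (F.K * (u - t)) * F.I t :=
      ⟨fun u => Real.exp (F.K * (u - t)) * F.I t, fun _ => rfl⟩
    have hxt : x t = F.I t := by rw [hxdef]; simp
    have hx : HasDerivAt x (K * F.I t) t := by
      have e : x = fun u => Real.exp (F.K * (u - t)) * F.I t := funext hxdef
      rw [e]
      have h1 := ((((hasDerivAt_id t).sub_const t).const_mul F.K).exp).mul_const (F.I t)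
      refine HasDerivAt.congr_deriv (f := fun u => Real.exp (F.K * (u - t)) * F.I t) h1 ?_
      simp [hFK]
    obtain ⟨ε1, hε1, hΨ⟩ := flow_step_core N (x := x) (aj := aj) hkj (by linarith) (by linarith)
      hx (by rw [hxt]; exact hI0) (by rw [hxt]; linarith) hU (hReg.dZ t htI)
      (by rw [hxt]; exact hIeq) (by rw [hxt]; exact hpos)
    refine ⟨min (min ε0 ε1) (t1 - t), lt_min (lt_min hε0 hε1) htt, fun t' ht' => ?_⟩
    have hm0 : t' < t + ε0 := by
      have := (min_le_left (min ε0 ε1) (t1 - t)).trans (min_le_left ε0 ε1)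
      linarith [ht'.2]
    have hm1 : t' < t + ε1 := by
      have := (min_le_left (min ε0 ε1) (t1 - t)).trans (min_le_right ε0 ε1)
      linarith [ht'.2]
    have hm4 : t' < t1 := by
      have := min_le_right (min ε0 ε1) (t1 - t)
      linarith [ht'.2]
    have ht'I : t' ∈ Icc t0 t1 := ⟨ht.1.trans ht'.1, hm4.le⟩
    have hd0 : 0 ≤ t' - t := by linarith [ht'.1]
    have hIt' : F.I t' = x t' := by
      rw [hxdef]
      exact hIx t' ht'I (by rw [abs_of_nonneg hd0]; linarith)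
    have hΨ' := hΨ t' ⟨ht'.1, hm1⟩
    unfold LFlow.Phi
    rw [ha_def t', hIt']
    exact hΨ'

/-- continuous induction. -/
theorem persist {Φ : ℝ → ℝ} {α β : ℝ} (hαβ : α ≤ β) (hc : ContinuousOn Φ (Icc α β))
    (h0 : 0 ≤ Φ α)
    (hstep : ∀ t ∈ Ico α β, (∀ u ∈ Icc α t, 0 ≤ Φ u) → Φ t = 0 →
      ∃ ε : ℝ, 0 < ε ∧ ∀ t' ∈ Ico t (t + ε), 0 ≤ Φ t') :
    ∀ t ∈ Icc α β, 0 ≤ Φ t := by
  by_contra hcon
  obtain ⟨s, hs, hsneg⟩ : ∃ s ∈ Icc α β, Φ s < 0 := by
    by_contra h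
    exact hcon fun t ht => not_lt.1 fun hlt => h ⟨t, ht, hlt⟩
  set S : Set ℝ := {u | u ∈ Icc α β ∧ Φ u < 0} with hS
  have hSne : S.Nonempty := ⟨s, hs, hsneg⟩
  have hSb : BddBelow S := ⟨α, fun u hu => hu.1.1⟩
  set t := sInf S with ht
  have htα : α ≤ t := le_csInf hSne fun u hu => hu.1.1
  have hts : t ≤ s := csInf_le hSb ⟨hs, hsneg⟩
  have htβ : t ≤ β := hts.trans hs.2
  have hlt : ∀ u ∈ Icc α t, u < t → 0 ≤ Φ u := by
    intro u hu hut
    by_contra hneg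
    have : u ∈ S := ⟨⟨hu.1, hu.2.trans htβ⟩, not_le.1 hneg⟩
    exact absurd (csInf_le hSb this) (not_le.2 hut)
  have hcl1 : IsClosed (Icc α β ∩ Φ ⁻¹' Iic 0) := hc.preimage_isClosed_of_isClosed isClosed_Icc isClosed_Iic
  have hcl2 : IsClosed (Icc α β ∩ Φ ⁻¹' Ici 0) := hc.preimage_isClosed_of_isClosed isClosed_Icc isClosed_Ici
  have h3 : Φ t ≤ 0 := by
    have h1 : t ∈ closure S := csInf_mem_closure hSne hSb
    have h2 : S ⊆ Icc α β ∩ Φ ⁻¹' Iic 0 := fun u hu => ⟨hu.1, hu.2.le⟩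
    exact (closure_minimal h2 hcl1 h1).2
  have h4 : 0 ≤ Φ t := by
    rcases eq_or_lt_of_le htα with h | h
    · rw [← h]; exact h0
    · have h1 : t ∈ closure (Ico α t) := by
        rw [closure_Ico h.ne]; exact ⟨htα, le_rfl⟩
      have h2 : Ico α t ⊆ Icc α β ∩ Φ ⁻¹' Ici 0 :=
        fun u hu => ⟨⟨hu.1, hu.2.le.trans htβ⟩, hlt u ⟨hu.1, hu.2.le⟩ hu.2⟩
      exact (closure_minimal h2 hcl2 h1).2
  have h5 : Φ t = 0 := le_antisymm h3 h4
  have hts' : t < s := by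
    rcases eq_or_lt_of_le hts with h | h
    · rw [h] at h5; linarith
    · exact h
  have hall : ∀ u ∈ Icc α t, 0 ≤ Φ u := by
    intro u hu
    rcases eq_or_lt_of_le hu.2 with h | h
    · rw [h]; exact h4
    · exact hlt u hu h
  obtain ⟨ε, hε, hε'⟩ := hstep t ⟨htα, lt_of_lt_of_le hts' hs.2⟩ hall h5
  obtain ⟨u, huS, hu⟩ := exists_lt_of_csInf_lt hSne (show sInf S < t + ε by linarith)
  have := hε' u ⟨csInf_le hSb huS, hu⟩
  linarith [huS.2]

/-! ## Package Flow-D : mergers -/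

theorem flow_merge_core {k k' θ lam α α' I Z U U' g2 Cm W : ℝ} (hk : 0 < k) (hk1 : k ≤ 1 / 16)
    (hk' : 0 ≤ k') (hCm : 0 ≤ Cm) (hθ : k' * Cm = θ * k) (hlam : k' * Cm * W = lam) (hg : g2 ≤ W * I)
    (hU' : U' ≤ Cm * (U + g2)) (hbar : k * U + α * Z ≤ I) (hα' : α' ≤ (1 - k / 4) * α)
    (hθ0 : 0 ≤ θ) (hθ1 : θ ≤ 1 / 8) (hl : lam ≤ k / 4) (hU : 0 ≤ U) (hZ : 0 ≤ Z) (hI : 0 < I) :
    k' * U' + α' * Z ≤ I := by
  have s1 : k' * U' ≤ k' * (Cm * (U + g2)) := mul_le_mul_of_nonneg_left hU' hk'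
  have s2 : k' * Cm * g2 ≤ k' * Cm * (W * I) := mul_le_mul_of_nonneg_left hg (mul_nonneg hk' hCm)
  have s2' : k' * Cm * (W * I) = lam * I := by rw [← hlam]; ring
  have s3 : k' * Cm * U = θ * (k * U) := by rw [hθ]; ring
  have s4 : θ * (k * U) ≤ θ * (I - α * Z) := mul_le_mul_of_nonneg_left (by linarith) hθ0
  have s5 : α' * Z ≤ (1 - k / 4) * α * Z := mul_le_mul_of_nonneg_right hα' hZ
  have hkU : 0 ≤ k * U := mul_nonneg hk.le hU
  have s6 : (1 - k / 4 - θ) * (α * Z) ≤ (1 - k / 4 - θ) * I :=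
    mul_le_mul_of_nonneg_left (by linarith) (by linarith)
  have s7 : lam * I ≤ k / 4 * I := mul_le_mul_of_nonneg_right hl hI.le
  linarith

/-- **A merger preserves the barrier** (AE Proposition 5.4, "Finally consider a merger"), with
`k_new = c k⁶ S_1^{-6}`, AE (5.12''). -/
theorem merge_alg (Cm : ℝ) (hCm : 1 ≤ Cm) :
    ∃ c kmax amin : ℝ, 0 < c ∧ c ≤ 1 ∧ 0 < kmax ∧ ∀ (N N' : ℕ) (k a I Z U U' g S1 : ℝ),
      1 < N → N' < N → amin ≤ a → 0 < k → k ≤ kmax → 1 ≤ S1 → 0 < I → 0 ≤ Z → 0 ≤ U →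
      k * U + alf N k a * Z ≤ I → g ^ 2 ≤ S1 ^ 2 / k ^ 2 * I → U' ≤ Cm * (U + g ^ 2) →
      c * k ^ 6 / S1 ^ 6 * U' + alf N' (c * k ^ 6 / S1 ^ 6) a * Z ≤ I := by
  have hCm0 : 0 < Cm := by linarith
  have hc8 : 1 / (8 * Cm) ≤ 1 / 8 := by
    apply one_div_le_one_div_of_le (by norm_num); linarith
  refine ⟨1 / (8 * Cm), 1 / 16, 3, by positivity, by linarith, by norm_num, ?_⟩
  intro N N' k a I Z U U' g S1 hN hN' ha hk hk1 hS hI hZ hU hbar hg hU'
  have ha0 : 0 < a := by linarith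
  have hS0 : 0 < S1 := by linarith
  have hL := flow_one_le_log ha
  have hL0 : 0 < Real.log a := by linarith
  have hLa : Real.log a ≤ a := by have := Real.log_le_sub_one_of_pos ha0; linarith
  have hx : 1 ≤ a / Real.log a := by rw [le_div_iff₀ hL0]; linarith
  have hS6 : 1 ≤ S1 ^ 6 := one_le_pow₀ hS
  have hS4 : 1 ≤ S1 ^ 4 := one_le_pow₀ hS
  have hk5 : k ^ 5 ≤ 1 := pow_le_one₀ hk.le (by linarith)
  have hk3 : k ^ 3 ≤ 1 := pow_le_one₀ hk.le (by linarith)
  generalize hk'def : 1 / (8 * Cm) * k ^ 6 / S1 ^ 6 = k'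
  have hk'0 : 0 < k' := by rw [← hk'def]; positivity
  have hk'le : k' ≤ k / 8 := by
    rw [← hk'def, div_le_iff₀ (by positivity)]
    have h1 : 1 / (8 * Cm) * k ^ 6 ≤ 1 / 8 * k ^ 6 := mul_le_mul_of_nonneg_right hc8 (by positivity)
    have h2 : k ^ 6 = k * k ^ 5 := by ring
    have h3 : k * k ^ 5 ≤ k * 1 := mul_le_mul_of_nonneg_left hk5 hk.le
    have h4 : k / 8 * 1 ≤ k / 8 * S1 ^ 6 := mul_le_mul_of_nonneg_left hS6 (by positivity)
    linarith
  have hθ : k' * Cm = k ^ 5 / (8 * S1 ^ 6) * k := by rw [← hk'def]; field_simp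
  have hlam : k' * Cm * (S1 ^ 2 / k ^ 2) = k ^ 4 / (8 * S1 ^ 4) := by rw [← hk'def]; field_simp
  have hθ1 : k ^ 5 / (8 * S1 ^ 6) ≤ 1 / 8 := by
    rw [div_le_div_iff₀ (by positivity) (by norm_num)]
    linarith
  have hl : k ^ 4 / (8 * S1 ^ 4) ≤ k / 4 := by
    rw [div_le_div_iff₀ (by positivity) (by norm_num)]
    have h2 : k ^ 4 = k * k ^ 3 := by ring
    have h3 : k * k ^ 3 ≤ k * 1 := mul_le_mul_of_nonneg_left hk3 hk.le
    have h4 : k * 1 ≤ k * S1 ^ 4 := mul_le_mul_of_nonneg_left hS4 hk.le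
    linarith
  have hαN : alf N k a = 1 + k * (a / Real.log a) := by simp only [alf, if_pos hN]; ring
  have hα'1 : alf N' k' a ≤ 1 + k' * (a / Real.log a) := by
    by_cases hN1 : 1 < N'
    · simp only [alf, if_pos hN1]; exact le_of_eq (by ring)
    · have h1 := (alf_bounds N' hk'0 (by linarith) ha).2.2 (by omega)
      have h2 : 0 ≤ k' * (a / Real.log a) := by positivity
      linarith
  have hα' : alf N' k' a ≤ (1 - k / 4) * alf N k a := by
    rw [hαN]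
    refine hα'1.trans ?_
    generalize a / Real.log a = x at hx
    have h1 : k' * x ≤ k / 8 * x := mul_le_mul_of_nonneg_right hk'le (by linarith)
    have h2 : k * 1 ≤ k * x := mul_le_mul_of_nonneg_left hx hk.le
    have h3 : k * (k * x) ≤ 1 / 16 * (k * x) := mul_le_mul_of_nonneg_right hk1 (by positivity)
    nlinarith
  exact flow_merge_core hk hk1 hk'0.le hCm0.le hθ hlam hg hU' hbar hα' (by positivity) hθ1 hl hU hZ hI

end Claimed.Agent.R322.Sx
end
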