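/- Packed by merge_tool.py (helper293): 9 modules of Claimed.Agent.R322 in one file, same declarations.
   Old modules, in this order: Blow.Defs, Base.Ops.Lin, Base.Ops.Sim, Base.Ops.Fields, Tube.Geom.RegJK, Sx.Bottom.DiffA, Sx.Bottom.DiffB, Sx.Bottom.Diff, Sx.Bottom.Cover -/
import Claimed.Agent.R322.Pack037
import Claimed.Agent.R322.Pack034
import Claimed.Agent.R322.Pack042
import Claimed.Agent.R322.Pack016
import Claimed.Agent.R322.Pack019

/- ===== packed: Claimed.Agent.R322.Blow.Defs ===== -/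
section
/-!
# CO Proposition 5.1: output structure (centered height blow-up at the target scales)

`CenteredData` lists exactly the hypotheses of CO Propositions 6.1 and 6b.1.
Everything is in target units; `N i` is the normal cylinder of the rescaled varifold `V_{L_i}`
(after a subsequence and a rotation) over the reference graph `S_i = graph (N i).u`,
base `B_8`, fixed height `hc`.
-/

set_option autoImplicit false

open scoped ENNReal ContDiff
open MeasureTheory

namespace Claimed.Agent.R322.Blow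

open Claimed.Agent.R322.Tube

/-- Output of CO Proposition 5.1 together with the centre measures of CO Proposition 2.1. -/
structure CenteredData (m n : ℕ) (s : ℝ) (Q J : ℕ) (hc : ℝ) where
  N : ℕ → NCyl m n
  N_Q : ∀ i, (N i).Q = Q
  N_Ω : ∀ i, (N i).Ω = Metric.ball 0 8
  N_h : ∀ i, (N i).h = hc
  /-- all support in the ambient ball of radius 2 lies in the cylinder -/
  cover : ∀ i, ∀ X ∈ (N i).W.support, ‖X‖ ≤ 2 → X ∈ Cyl (N i).u (Metric.ball 0 8) hc
  u_smooth : ∀ i, ContDiff ℝ J (N i).u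
  /-- the reference graphs converge to the horizontal plane in `C^J` -/
  u_conv : ∀ ε : ℝ, 0 < ε → ∀ᶠ i in Filter.atTop, ∀ j : ℕ, j ≤ J → ∀ y,
    ‖iteratedFDeriv ℝ j (N i).u y‖ ≤ ε
  /-- height normalisation -/
  a : ℕ → ℝ
  a_pos : ∀ i, 0 < a i
  a_lim : Filter.Tendsto a Filter.atTop (nhds 0)
  C : ℝ
  c : ℝ
  c_pos : 0 < c
  /-- `D_i + |M_i| = O(a_i²)` -/
  mass_bd : ∀ i, ((N i).Dm + (N i).Mabs) (Metric.ball 0 8) ≤ ENNReal.ofReal (C * a i ^ 2)
  /-- `|z_i| ≤ C a_i` on the support -/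
  height_bd : ∀ i, ∀ X ∈ (N i).W.support, X ∈ Cyl (N i).u (Metric.ball 0 8) hc →
    ‖zz (N i).u X‖ ≤ C * a i
  /-- `|H| + |∇^⊥ H| = o(a_i)` -/
  curv : ∀ ε : ℝ, 0 < ε → ∀ᶠ i in Filter.atTop, ∀ y ∈ Metric.ball (0 : E m) 8,
    ‖HS (N i).u y‖ + Real.sqrt (DHSsq (N i).u y) ≤ ε * a i
  /-- vanishing first height moment -/
  moment1 : ∀ η : E m → E (m + n), Continuous η → HasCompactSupport η →
    tsupport η ⊆ Metric.ball 0 8 →
    Filter.Tendsto (fun i => (a i)⁻¹ * ∫ X, inner ℝ (η (npr (N i).u X)) (zz (N i).u X) ∂(N i).μ)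
      Filter.atTop (nhds 0)
  /-- quantitatively nonzero second height moment over `B_3` -/
  moment2 : ∀ i, c * a i ^ 2 ≤
    ∫ X in {X | npr (N i).u X ∈ Metric.ball (0 : E m) 3}, ‖zz (N i).u X‖ ^ 2 ∂(N i).μ
  /-- centre measures on density-`Q` points in the closed unit ball -/
  σ : ℕ → Measure (E (m + n))
  σ_supp : ∀ i, σ i {X | ¬ (‖X‖ ≤ 1 ∧ X ∈ (N i).W.support ∧ (N i).W.Θ X = Q)} = 0
  σ_ball : ∀ i (X : E (m + n)) (u : ℝ), 0 < u → σ i (Metric.ball X u) ≤ ENNReal.ofReal (C * u ^ s)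
  σ_lower : ∀ i, ENNReal.ofReal c ≤ σ i Set.univ
  σ_upper : ∀ i, σ i Set.univ ≤ ENNReal.ofReal C

namespace CenteredData

variable {m n : ℕ} {s : ℝ} {Q J : ℕ} {hc : ℝ}

/-- normalised height-square functional `a_i^{-2} π_# (|z_i|² μ_i)` -/
noncomputable def nuSeq (D : CenteredData m n s Q J hc) (i : ℕ) (g : E m → ℝ) : ℝ :=
  (D.a i ^ 2)⁻¹ * ∫ X, g (npr (D.N i).u X) * ‖zz (D.N i).u X‖ ^ 2 ∂(D.N i).μ

/-- normalised mass-defect functional `a_i^{-2} M_i` -/
noncomputable def mmSeq (D : CenteredData m n s Q J hc) (i : ℕ) (g : E m → ℝ) : ℝ :=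
  (D.a i ^ 2)⁻¹ * (D.N i).intM g

end CenteredData

end Claimed.Agent.R322.Blow
end

/- ===== packed: Claimed.Agent.R322.Base.Ops.Lin ===== -/
section
/-!
# Row 322, Base/Ops: linear algebra of similarities

Behaviour of `IsProj`, `tdiv`, `tanJac` under conjugation by a linear isometry `O` and scaling.

PLANS.
* `isProj_conj`: idempotent and symmetric by `O.symm (O x) = x`, `inner (O x) y = inner x (O.symm y)`
  (`LinearIsometryEquiv.inner_map_eq_flip`); trace by `LinearMap.trace_conj'` (or cyclicity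
  `LinearMap.trace_mul_comm`).
* `det_smul_proj`: `E N = range P ⊕ ker P` (`LinearMap.IsProj`, `LinearMap.isCompl_of_proj` /
  `Submodule.prodEquivOfIsCompl`), the operator is conjugate to `prodMap (a • id) id`
  (`LinearMap.det_conj`, `LinearMap.det_prodMap`, `LinearMap.det_smul`), and
  `finrank (range P) = m` by `LinearMap.IsProj.trace` and `hP.tr`.
* `tanJac_comp_smul_isometry`: with `P' = O P O⁻¹`, `B = Lᵀ L`:
  `P (cO)ᵀ B (cO) P + 1 - P = O⁻¹ (c² P' B P' + 1 - P') O` and
  `c² P' B P' + 1 - P' = (P' B P' + 1 - P') (c² P' + 1 - P')`; `det` is multiplicative and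
  conjugation invariant; `det_smul_proj`; `sqrt (c^(2m) d) = c^m sqrt d`.
-/

set_option autoImplicit false

open scoped ENNReal ContDiff Topology
open MeasureTheory

namespace Claimed.Agent.R322.Base

/-- conjugate of an operator by a linear isometry: `O A O⁻¹`. -/
noncomputable def conj {N : ℕ} (O : E N ≃ₗᵢ[ℝ] E N) (A : E N →L[ℝ] E N) : E N →L[ℝ] E N :=
  (O : E N →L[ℝ] E N) ∘L A ∘L (O.symm : E N →L[ℝ] E N)

theorem conj_apply {N : ℕ} (O : E N ≃ₗᵢ[ℝ] E N) (A : E N →L[ℝ] E N) (x : E N) :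
    conj O A x = O (A (O.symm x)) := rfl

theorem continuous_conj {N : ℕ} (O : E N ≃ₗᵢ[ℝ] E N) : Continuous (conj O) := by
  unfold conj
  exact continuous_const.clm_comp (continuous_id.clm_comp continuous_const)

theorem lin_conj_coe {N : ℕ} (O : E N ≃ₗᵢ[ℝ] E N) (A : E N →L[ℝ] E N) :
    ((conj O A : E N →L[ℝ] E N) : E N →ₗ[ℝ] E N)
      = (O.toLinearEquiv : E N →ₗ[ℝ] E N) ∘ₗ (A : E N →ₗ[ℝ] E N) ∘ₗ
        (O.toLinearEquiv.symm : E N →ₗ[ℝ] E N) := by
  ext x
  rfl

theorem lin_det_conj {N : ℕ} (O : E N ≃ₗᵢ[ℝ] E N) (A : E N →L[ℝ] E N) :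
    LinearMap.det ((conj O A : E N →L[ℝ] E N) : E N →ₗ[ℝ] E N)
      = LinearMap.det (A : E N →ₗ[ℝ] E N) := by
  rw [lin_conj_coe, LinearMap.det_conj]

/-- a conjugate of a rank-`m` orthogonal projection is one. -/
theorem isProj_conj {m N : ℕ} {P : E N →L[ℝ] E N} (hP : IsProj m P) (O : E N ≃ₗᵢ[ℝ] E N) :
    IsProj m (conj O P) := by
  refine ⟨?_, ?_, ?_⟩
  · ext1 x
    simp only [ContinuousLinearMap.comp_apply, conj_apply, LinearIsometryEquiv.symm_apply_apply,
      isProj_apply_apply hP]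
  · intro x y
    rw [conj_apply, conj_apply, LinearIsometryEquiv.inner_map_eq_flip, hP.symm,
      LinearIsometryEquiv.inner_map_eq_flip O.symm, LinearIsometryEquiv.symm_symm]
  · rw [lin_conj_coe, ← hP.tr]
    exact LinearMap.trace_conj' (P : E N →ₗ[ℝ] E N) O.toLinearEquiv

/-- `tr (O P O⁻¹ A) = tr (P O⁻¹ A O)`. -/
theorem tdiv_conj {N : ℕ} (P A : E N →L[ℝ] E N) (O : E N ≃ₗᵢ[ℝ] E N) :
    tdiv (conj O P) A = tdiv P (conj O.symm A) := by
  unfold tdiv
  have h := LinearMap.trace_mul_comm ℝ (M := E N)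
    ((O : E N →L[ℝ] E N) : E N →ₗ[ℝ] E N)
    ((P ∘L (O.symm : E N →L[ℝ] E N) ∘L A : E N →L[ℝ] E N) : E N →ₗ[ℝ] E N)
  exact h

/-- `det (a P + (1 - P)) = a ^ m` for a projection of rank `m`. -/
theorem det_smul_proj {m N : ℕ} {P : E N →L[ℝ] E N} (hP : IsProj m P) (a : ℝ) :
    LinearMap.det ((a • P + (ContinuousLinearMap.id ℝ (E N) - P) : E N →L[ℝ] E N) :
      E N →ₗ[ℝ] E N) = a ^ m := by
  set f : E N →ₗ[ℝ] E N := (P : E N →ₗ[ℝ] E N) with hf
  set p : Submodule ℝ (E N) := LinearMap.range f with hp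
  have hproj : LinearMap.IsProj p f := by
    refine ⟨fun x => LinearMap.mem_range_self f x, ?_⟩
    rintro _ ⟨y, rfl⟩
    exact isProj_apply_apply hP y
  have hrank : Module.finrank ℝ p = m := by
    have h1 := hproj.trace
    have h2 : LinearMap.trace ℝ (E N) f = m := hP.tr
    rw [h2] at h1
    exact_mod_cast h1.symm
  set e := p.prodEquivOfIsCompl (LinearMap.ker f) hproj.isCompl with he
  have h1 : f = e.conj (LinearMap.prodMap LinearMap.id 0) := hproj.eq_conj_prodMap
  have h2 : (LinearMap.id : E N →ₗ[ℝ] E N)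
      = e.conj (LinearMap.prodMap LinearMap.id LinearMap.id) := by
    rw [LinearMap.prodMap_id, LinearEquiv.conj_id]
  have h3 : ((a • P + (ContinuousLinearMap.id ℝ (E N) - P) : E N →L[ℝ] E N) : E N →ₗ[ℝ] E N)
      = e.conj (LinearMap.prodMap (a • LinearMap.id) LinearMap.id) := by
    have h4 : ((a • P + (ContinuousLinearMap.id ℝ (E N) - P) : E N →L[ℝ] E N) : E N →ₗ[ℝ] E N)
        = a • f + (LinearMap.id - f) := by
      ext x
      rfl
    have h5 : (LinearMap.prodMap (a • LinearMap.id) LinearMap.id :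
        (p × LinearMap.ker f) →ₗ[ℝ] (p × LinearMap.ker f))
        = a • LinearMap.prodMap LinearMap.id 0
          + (LinearMap.prodMap LinearMap.id LinearMap.id - LinearMap.prodMap LinearMap.id 0) := by
      ext x <;> simp
    rw [h4, h5, map_add, map_sub, map_smul, ← h1, ← h2]
  rw [h3, LinearEquiv.conj_apply, LinearMap.comp_assoc, LinearMap.det_conj,
    LinearMap.det_prodMap, LinearMap.det_smul, hrank]
  simp

theorem lin_coe_comp {N : ℕ} (A B : E N →L[ℝ] E N) :
    ((A ∘L B : E N →L[ℝ] E N) : E N →ₗ[ℝ] E N)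
      = (A : E N →ₗ[ℝ] E N) ∘ₗ (B : E N →ₗ[ℝ] E N) := rfl

/-- **the tangential Jacobian under a similarity of the domain.** -/
theorem tanJac_comp_smul_isometry {m N k : ℕ} {P : E N →L[ℝ] E N} (hP : IsProj m P)
    (O : E N ≃ₗᵢ[ℝ] E N) {c : ℝ} (hc : 0 ≤ c) (L : E N →L[ℝ] E k) :
    tanJac P (L ∘L (c • (O : E N →L[ℝ] E N))) = c ^ m * tanJac (conj O P) L := by
  have hadj : ContinuousLinearMap.adjoint (L ∘L (c • (O : E N →L[ℝ] E N)))
      = c • ((O.symm : E N →L[ℝ] E N) ∘L ContinuousLinearMap.adjoint L) := by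
    rw [ContinuousLinearMap.adjoint_comp, map_smulₛₗ, LinearIsometryEquiv.adjoint_eq_symm]
    ext1 x
    simp
  have key : (P ∘L (ContinuousLinearMap.adjoint (L ∘L (c • (O : E N →L[ℝ] E N)))) ∘L
      (L ∘L (c • (O : E N →L[ℝ] E N))) ∘L P + (ContinuousLinearMap.id ℝ (E N) - P))
      = conj O.symm (((conj O P) ∘L (ContinuousLinearMap.adjoint L) ∘L L ∘L (conj O P)
          + (ContinuousLinearMap.id ℝ (E N) - conj O P)) ∘L
          (c ^ 2 • conj O P + (ContinuousLinearMap.id ℝ (E N) - conj O P))) := by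
    rw [hadj]
    ext1 x
    have hO : ∀ y, (O : E N →L[ℝ] E N) y = O y := fun _ => rfl
    have hO' : ∀ y, (O.symm : E N →L[ℝ] E N) y = O.symm y := fun _ => rfl
    simp only [hO, hO', ContinuousLinearMap.comp_apply, add_apply,
      sub_apply, smul_apply, ContinuousLinearMap.id_apply,
      conj_apply, LinearIsometryEquiv.symm_symm, LinearIsometryEquiv.symm_apply_apply,
      map_add, map_sub, map_smul, isProj_apply_apply hP]
    module
  unfold tanJac
  rw [key, lin_det_conj, lin_coe_comp, LinearMap.det_comp,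
    det_smul_proj (isProj_conj hP O), Real.sqrt_mul' _ (by positivity), ← pow_mul, mul_comm 2 m,
    pow_mul, Real.sqrt_sq (pow_nonneg hc m), mul_comm]

/-- `tanJac P L ≤ ‖L‖ ^ m`-type bound: the tangential Jacobian is bounded on bounded sets. -/
theorem exists_tanJac_bound (N k : ℕ) (a : ℝ) : ∃ C : ℝ, 0 ≤ C ∧ ∀ (m : ℕ) (P : E N →L[ℝ] E N)
    (L : E N →L[ℝ] E k), IsProj m P → ‖L‖ ≤ a → tanJac P L ≤ C := by
  have hK : IsCompact ((Metric.closedBall (0 : E N →L[ℝ] E N) 1) ×ˢ
      (Metric.closedBall (0 : E N →L[ℝ] E k) a)) :=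
    (isCompact_closedBall _ _).prod (isCompact_closedBall _ _)
  obtain ⟨C, hC⟩ := hK.exists_bound_of_continuousOn (continuous_tanJac N k).continuousOn
  refine ⟨max C 0, le_max_right _ _, fun m P L hP hL => ?_⟩
  have h := hC (P, L) ⟨by simpa using isProj_norm_le_one hP, by simpa using hL⟩
  exact (le_trans (le_abs_self _) h).trans (le_max_left _ _)

/-- a symmetric operator with quadratic form `|v|² + |C v|²` has determinant at least one, with
equality only if `C = 0`. -/
theorem lin_one_le_det {N l : ℕ} (S : E N →L[ℝ] E N) (C : E N →L[ℝ] E l)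
    (hsym : (S : E N →ₗ[ℝ] E N).IsSymmetric)
    (hq : ∀ v, inner ℝ (S v) v = ‖v‖ ^ 2 + ‖C v‖ ^ 2) :
    1 ≤ LinearMap.det (S : E N →ₗ[ℝ] E N) ∧
      (LinearMap.det (S : E N →ₗ[ℝ] E N) = 1 → C = 0) := by
  have hn : Module.finrank ℝ (E N) = N := finrank_euclideanSpace_fin
  have hdet := hsym.det_eq_prod_eigenvalues hn
  have hmu : ∀ i, hsym.eigenvalues hn i = 1 + ‖C (hsym.eigenvectorBasis hn i)‖ ^ 2 := by
    intro i
    have h1 := hq (hsym.eigenvectorBasis hn i)
    have h2 : S (hsym.eigenvectorBasis hn i)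
        = (hsym.eigenvalues hn i : ℝ) • hsym.eigenvectorBasis hn i :=
      hsym.apply_eigenvectorBasis hn i
    rw [h2, inner_smul_left, real_inner_self_eq_norm_sq,
      (hsym.eigenvectorBasis hn).orthonormal.1 i] at h1
    simpa using h1
  have hge : ∀ i, 1 ≤ hsym.eigenvalues hn i := by
    intro i
    rw [hmu i]
    nlinarith [sq_nonneg ‖C (hsym.eigenvectorBasis hn i)‖]
  have hdet' : LinearMap.det (S : E N →ₗ[ℝ] E N) = ∏ i, hsym.eigenvalues hn i := by
    rw [hdet]
    simp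
  refine ⟨?_, ?_⟩
  · rw [hdet']
    calc (1 : ℝ) = ∏ _i : Fin N, (1 : ℝ) := by simp
      _ ≤ _ := Finset.prod_le_prod (fun _ _ => zero_le_one) (fun i _ => hge i)
  · intro h1
    rw [hdet'] at h1
    have hz : ∀ j, C (hsym.eigenvectorBasis hn j) = 0 := by
      intro j
      have h2 : hsym.eigenvalues hn j * ∏ i ∈ Finset.univ.erase j, hsym.eigenvalues hn i = 1 := by
        rw [Finset.mul_prod_erase _ _ (Finset.mem_univ j)]
        exact h1
      have h3 : 1 ≤ ∏ i ∈ Finset.univ.erase j, hsym.eigenvalues hn i := by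
        calc (1 : ℝ) = ∏ _i ∈ Finset.univ.erase j, (1 : ℝ) := by simp
          _ ≤ _ := Finset.prod_le_prod (fun _ _ => zero_le_one) (fun i _ => hge i)
      have h4 : hsym.eigenvalues hn j ≤ 1 := by
        nlinarith [hge j]
      rw [hmu j] at h4
      have h5 : ‖C (hsym.eigenvectorBasis hn j)‖ ^ 2 ≤ 0 := by linarith
      have h6 : ‖C (hsym.eigenvectorBasis hn j)‖ = 0 := by
        have := sq_nonneg ‖C (hsym.eigenvectorBasis hn j)‖
        exact pow_eq_zero_iff (two_ne_zero) |>.mp (le_antisymm h5 this)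
      exact norm_eq_zero.mp h6
    have h7 : (C : E N →ₗ[ℝ] E l) = 0 := by
      refine (hsym.eigenvectorBasis hn).toBasis.ext fun j => ?_
      simpa using hz j
    ext1 x
    have := congrArg (fun T : E N →ₗ[ℝ] E l => T x) h7
    simpa using this

theorem lin_inner_proj_self {m N : ℕ} {P : E N →L[ℝ] E N} (hP : IsProj m P) (v : E N) :
    inner ℝ (P v) v = ‖P v‖ ^ 2 := by
  rw [← real_inner_self_eq_norm_sq, hP.symm (P v) v |>.symm, isProj_apply_apply hP]

/-- the tangential Jacobian of a graph map `x ↦ (x, h x)` is at least one, with equality only if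
`Dh ∘ P = 0`.  Here `G` is the derivative of the graph map: `‖G v‖² = ‖v‖² + ‖H v‖²`. -/
theorem one_le_tanJac_graph {m N k l : ℕ} {P : E N →L[ℝ] E N} (hP : IsProj m P)
    (G : E N →L[ℝ] E k) (H : E N →L[ℝ] E l) (hG : ∀ v, ‖G v‖ ^ 2 = ‖v‖ ^ 2 + ‖H v‖ ^ 2) :
    1 ≤ tanJac P G ∧ (tanJac P G = 1 → H ∘L P = 0) := by
  set S : E N →L[ℝ] E N := P ∘L (ContinuousLinearMap.adjoint G) ∘L G ∘L P
    + (ContinuousLinearMap.id ℝ (E N) - P) with hS
  have hin : ∀ x y : E N, inner ℝ (S x) y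
      = inner ℝ (G (P x)) (G (P y)) + (inner ℝ x y - inner ℝ (P x) y) := by
    intro x y
    simp only [hS, ContinuousLinearMap.comp_apply, add_apply,
      sub_apply, ContinuousLinearMap.id_apply, inner_add_left, inner_sub_left]
    rw [hP.symm, ContinuousLinearMap.adjoint_inner_left]
  have hsym : (S : E N →ₗ[ℝ] E N).IsSymmetric := by
    intro x y
    change inner ℝ (S x) y = inner ℝ x (S y)
    rw [hin, real_inner_comm (S y) x, hin, real_inner_comm (G (P x)) (G (P y)),
      real_inner_comm x y, hP.symm x y, real_inner_comm (P y) x]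
  have hq : ∀ v, inner ℝ (S v) v = ‖v‖ ^ 2 + ‖(H ∘L P) v‖ ^ 2 := by
    intro v
    rw [hin, real_inner_self_eq_norm_sq, real_inner_self_eq_norm_sq, lin_inner_proj_self hP,
      hG (P v), ContinuousLinearMap.comp_apply]
    ring
  obtain ⟨h1, h2⟩ := lin_one_le_det S (H ∘L P) hsym hq
  have ht : tanJac P G = Real.sqrt (LinearMap.det (S : E N →ₗ[ℝ] E N)) := rfl
  rw [ht]
  exact ⟨Real.one_le_sqrt.mpr h1, fun h => h2 (Real.sqrt_eq_one.mp h)⟩

/-- the tangential Jacobian of a linear isometric embedding is one. -/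
theorem tanJac_isometry {m N k : ℕ} {P : E N →L[ℝ] E N} (hP : IsProj m P)
    (G : E N →L[ℝ] E k) (hG : ∀ v, ‖G v‖ = ‖v‖) : tanJac P G = 1 := by
  have h1 : ContinuousLinearMap.adjoint G ∘L G = 1 :=
    (ContinuousLinearMap.norm_map_iff_adjoint_comp_self G).mp hG
  have h2 : (P ∘L (ContinuousLinearMap.adjoint G) ∘L G ∘L P
      + (ContinuousLinearMap.id ℝ (E N) - P)) = ContinuousLinearMap.id ℝ (E N) := by
    ext1 x
    have h3 : ContinuousLinearMap.adjoint G (G (P x)) = P x := by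
      have := congrArg (fun T : E N →L[ℝ] E N => T (P x)) h1
      simpa using this
    simp only [ContinuousLinearMap.comp_apply, add_apply,
      sub_apply, ContinuousLinearMap.id_apply, h3, isProj_apply_apply hP]
    abel
  unfold tanJac
  rw [h2]
  simp

end Claimed.Agent.R322.Base
end

/- ===== packed: Claimed.Agent.R322.Base.Ops.Sim ===== -/
section
/-!
# Row 322, Base/Ops: similarities of `E N` and the Hausdorff measure

`simMap p r O X = O ((X - p) / r)`, `simInv p r O Y = p + r O⁻¹ Y`; elementary facts; behaviour of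
`μH[m]` and of the weight measures `wt m M θ`.

PLANS.
* `map_simMap_hausdorff`: for measurable `A`, `simMap ⁻¹' A = p +ᵥ r • (O.symm '' A)`; use
  `MeasureTheory.Measure.hausdorffMeasure_smul₀`, `LinearIsometryEquiv` →
  `IsometryEquiv.hausdorffMeasure_image`, and translation invariance
  (`IsometryEquiv.vaddConst` / `isometry_add_left`-type `Isometry.hausdorffMeasure_image`).
* `wt_simil`: `Measure.ext`; `withDensity_apply`, `lintegral_map` for the measurable
  equivalence `simMap`, and `map_simMap_hausdorff`.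
-/

set_option autoImplicit false

open scoped ENNReal ContDiff Topology
open MeasureTheory

namespace Claimed.Agent.R322

/-- the similarity `X ↦ O ((X - p) / r)` -/
noncomputable def simMap {N : ℕ} (p : E N) (r : ℝ) (O : E N ≃ₗᵢ[ℝ] E N) (X : E N) : E N :=
  O (r⁻¹ • (X - p))

/-- its inverse `Y ↦ p + r O⁻¹ Y` -/
noncomputable def simInv {N : ℕ} (p : E N) (r : ℝ) (O : E N ≃ₗᵢ[ℝ] E N) (Y : E N) : E N :=
  p + r • O.symm Y

namespace Base

variable {N : ℕ} (p : E N) {r : ℝ} (O : E N ≃ₗᵢ[ℝ] E N)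

theorem simMap_simInv (hr : 0 < r) (Y : E N) : simMap p r O (simInv p r O Y) = Y := by
  unfold simMap simInv
  rw [add_sub_cancel_left, smul_smul, inv_mul_cancel₀ hr.ne', one_smul, O.apply_symm_apply]

theorem simInv_simMap (hr : 0 < r) (X : E N) : simInv p r O (simMap p r O X) = X := by
  unfold simMap simInv
  rw [O.symm_apply_apply, smul_smul, mul_inv_cancel₀ hr.ne', one_smul, add_sub_cancel]

theorem contDiff_simMap (r : ℝ) : ContDiff ℝ ∞ (simMap p r O) := by
  exact O.contDiff.comp ((contDiff_id.sub contDiff_const).const_smul r⁻¹)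

theorem contDiff_simInv (r : ℝ) : ContDiff ℝ ∞ (simInv p r O) := by
  exact contDiff_const.add (O.symm.contDiff.const_smul r)

theorem fderiv_simMap (r : ℝ) (X : E N) :
    fderiv ℝ (simMap p r O) X = r⁻¹ • (O : E N →L[ℝ] E N) := by
  have h : HasFDerivAt (simMap p r O)
      ((O : E N →L[ℝ] E N) ∘L (r⁻¹ • ContinuousLinearMap.id ℝ (E N))) X :=
    (O : E N →L[ℝ] E N).hasFDerivAt.comp X (((hasFDerivAt_id X).sub_const p).const_smul r⁻¹)
  rw [h.fderiv]
  ext v
  simp

theorem fderiv_simInv (r : ℝ) (Y : E N) :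
    fderiv ℝ (simInv p r O) Y = r • (O.symm : E N →L[ℝ] E N) := by
  have h : HasFDerivAt (simInv p r O) (r • (O.symm : E N →L[ℝ] E N)) Y :=
    ((O.symm : E N →L[ℝ] E N).hasFDerivAt.const_smul r).const_add p
  exact h.fderiv

theorem dist_simInv (hr : 0 < r) (Y Y' : E N) :
    dist (simInv p r O Y) (simInv p r O Y') = r * dist Y Y' := by
  unfold simInv
  rw [dist_add_left, dist_smul₀, O.symm.dist_map, Real.norm_of_nonneg hr.le]

/-- preimages under `simMap` are preimages... of the inverse map. -/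
theorem simMap_preimage (hr : 0 < r) (A : Set (E N)) :
    simMap p r O ⁻¹' A = simInv p r O '' A := by
  ext X
  constructor
  · intro h
    exact ⟨simMap p r O X, h, simInv_simMap p O hr X⟩
  · rintro ⟨Y, hY, rfl⟩
    show simMap p r O (simInv p r O Y) ∈ A
    rw [simMap_simInv p O hr]
    exact hY

theorem simInv_preimage (hr : 0 < r) (A : Set (E N)) :
    simInv p r O ⁻¹' A = simMap p r O '' A := by
  ext Y
  constructor
  · intro h
    exact ⟨simInv p r O Y, h, simMap_simInv p O hr Y⟩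
  · rintro ⟨X, hX, rfl⟩
    show simInv p r O (simMap p r O X) ∈ A
    rw [simInv_simMap p O hr]
    exact hX

theorem simMap_preimage_ball (hr : 0 < r) (Y : E N) (t : ℝ) :
    simMap p r O ⁻¹' Metric.ball Y t = Metric.ball (simInv p r O Y) (r * t) := by
  ext X
  have h := dist_simInv p O hr (simMap p r O X) Y
  rw [simInv_simMap p O hr] at h
  rw [Set.mem_preimage, Metric.mem_ball, Metric.mem_ball, h]
  exact (mul_lt_mul_iff_right₀ hr).symm

/-- `simInv` is itself a similarity map. -/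
theorem simInv_eq_simMap (hr : 0 < r) :
    simInv p r O = simMap (-(r⁻¹ • O p)) r⁻¹ O.symm := by
  funext Y
  unfold simInv simMap
  rw [inv_inv, sub_neg_eq_add, smul_add, smul_smul, mul_inv_cancel₀ hr.ne', one_smul, map_add,
    map_smul, O.symm_apply_apply, add_comm]

/-- the similarity as a homeomorphism. -/
noncomputable def simHomeo (hr : 0 < r) : E N ≃ₜ E N where
  toFun := simMap p r O
  invFun := simInv p r O
  left_inv := simInv_simMap p O hr
  right_inv := simMap_simInv p O hr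
  continuous_toFun := (contDiff_simMap p O r).continuous
  continuous_invFun := (contDiff_simInv p O r).continuous

open scoped Pointwise in
/-- scaling of the Hausdorff measure. -/
theorem map_simMap_hausdorff (m : ℕ) (hr : 0 < r) :
    (μH[(m : ℝ)] : Measure (E N)).map (simMap p r O)
      = ENNReal.ofReal (r ^ m) • (μH[(m : ℝ)] : Measure (E N)) := by
  ext A hA
  rw [Measure.map_apply (contDiff_simMap p O r).continuous.measurable hA, simMap_preimage p O hr,
    Measure.smul_apply]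
  have e1 : simInv p r O '' A = (fun z => p + z) '' (r • (O.symm '' A)) := by
    rw [← Set.image_smul, Set.image_image, Set.image_image]
    rfl
  rw [e1, (isometry_add_left p).hausdorffMeasure_image (Or.inl (Nat.cast_nonneg m)),
    Measure.hausdorffMeasure_smul₀ (Nat.cast_nonneg m) hr.ne',
    O.symm.isometry.hausdorffMeasure_image (Or.inl (Nat.cast_nonneg m))]
  rw [ENNReal.smul_def, smul_eq_mul, smul_eq_mul]
  congr 1
  rw [NNReal.rpow_natCast, ENNReal.coe_pow, ENNReal.ofReal_pow hr.le]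
  congr 1
  rw [ENNReal.ofReal, Real.toNNReal_of_nonneg hr.le]
  congr 1
  ext
  simp [abs_of_pos hr]

/-- weight measure of the image of `(M, θ)` under a similarity. -/
theorem wt_simil (m : ℕ) (hr : 0 < r) {M : Set (E N)} (hM : MeasurableSet M) {θ : E N → ℕ}
    (hθ : Measurable θ) :
    wt m (simInv p r O ⁻¹' M) (fun Y => θ (simInv p r O Y))
      = ENNReal.ofReal ((r ^ m)⁻¹) • (wt m M θ).map (simMap p r O) := by
  have hT : Measurable (simMap p r O) := (contDiff_simMap p O r).continuous.measurable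
  have hS : Measurable (simInv p r O) := (contDiff_simInv p O r).continuous.measurable
  have hμ : (μH[(m : ℝ)] : Measure (E N)) = ENNReal.ofReal ((r ^ m)⁻¹) •
      (μH[(m : ℝ)] : Measure (E N)).map (simMap p r O) := by
    rw [map_simMap_hausdorff p O m hr, smul_smul, ← ENNReal.ofReal_mul (by positivity),
      inv_mul_cancel₀ (pow_pos hr m).ne', ENNReal.ofReal_one, one_smul]
  have hθ' : Measurable (fun Y => ((θ (simInv p r O Y) : ℕ) : ℝ≥0∞)) :=
    (measurable_of_countable (fun k : ℕ => (k : ℝ≥0∞))).comp (hθ.comp hS)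
  ext A hA
  rw [Measure.smul_apply, Measure.map_apply hT hA, wt, wt, withDensity_apply _ hA,
    withDensity_apply _ (hT hA), Measure.restrict_restrict hA, Measure.restrict_restrict (hT hA)]
  conv_lhs => rw [hμ]
  rw [Measure.restrict_smul, lintegral_smul_measure, setLIntegral_map (hA.inter (hS hM)) hθ' hT]
  have e1 : simMap p r O ⁻¹' (A ∩ simInv p r O ⁻¹' M) = simMap p r O ⁻¹' A ∩ M := by
    ext X
    simp only [Set.mem_preimage, Set.mem_inter_iff, simInv_simMap p O hr]
  rw [e1]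
  simp only [simInv_simMap p O hr]

/-- change of variables for `lintegral`. -/
theorem lintegral_wt_simil (m : ℕ) (hr : 0 < r) {M : Set (E N)} (hM : MeasurableSet M)
    {θ : E N → ℕ} (hθ : Measurable θ) (f : E N → ℝ≥0∞) :
    ∫⁻ Y, f Y ∂(wt m (simInv p r O ⁻¹' M) (fun Y => θ (simInv p r O Y)))
      = ENNReal.ofReal ((r ^ m)⁻¹) * ∫⁻ X, f (simMap p r O X) ∂(wt m M θ) := by
  rw [wt_simil p O m hr hM hθ, lintegral_smul_measure, smul_eq_mul]
  congr 1
  exact lintegral_map_equiv f (simHomeo p O hr).toMeasurableEquiv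

/-- change of variables for the Bochner integral. -/
theorem integral_wt_simil (m : ℕ) (hr : 0 < r) {M : Set (E N)} (hM : MeasurableSet M)
    {θ : E N → ℕ} (hθ : Measurable θ) (f : E N → ℝ) :
    ∫ Y, f Y ∂(wt m (simInv p r O ⁻¹' M) (fun Y => θ (simInv p r O Y)))
      = (r ^ m)⁻¹ * ∫ X, f (simMap p r O X) ∂(wt m M θ) := by
  rw [wt_simil p O m hr hM hθ, integral_smul_measure, smul_eq_mul,
    ENNReal.toReal_ofReal (by positivity)]
  congr 1
  exact integral_map_equiv (simHomeo p O hr).toMeasurableEquiv f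

/-- restriction of the carrier = restriction of the weight. -/
theorem wt_inter (m : ℕ) (M : Set (E N)) (θ : E N → ℕ) {A : Set (E N)} (hA : MeasurableSet A) :
    wt m (M ∩ A) θ = (wt m M θ).restrict A := by
  rw [wt, wt, restrict_withDensity hA, Measure.restrict_restrict hA, Set.inter_comm]

theorem wt_compl (m : ℕ) {M : Set (E N)} (hM : MeasurableSet M) (θ : E N → ℕ) :
    wt m M θ Mᶜ = 0 := by
  refine withDensity_absolutelyContinuous _ _ ?_
  rw [Measure.restrict_apply hM.compl, Set.compl_inter_self, measure_empty]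

end Base

end Claimed.Agent.R322
end

/- ===== packed: Claimed.Agent.R322.Base.Ops.Fields ===== -/
section
/-!
# Row 322, Base/Ops: the fields of `SIV` under similarity, restriction and extension

Every statement is about raw data `(U, M, θ, P)`; `Base/Ops.lean` plugs them into the structure.

* `IsStat U μ P` : field `stat` of `SIV`.
* `IsTanField.simil / restr / extend`, `IsStat.simil / restr / extend`,
  `HasLowerDens.simil / restr`, `locfin_simil / locfin_restr / locfin_extend`.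

PLANS.
* `IsTanField.simil`: with `T = simMap p r O`, `S = simInv p r O`, given `(k, O', g', φ')` apply the
  area formula of `(U, M, θ, P)` to `(k, S '' O' = T ⁻¹' O', g' ∘ T, φ' ∘ T)`.  Fibre sums agree by
  the bijection `Y = T X` (`Equiv.tsum_eq` for the subtype equivalence, or `tsum_subtype` +
  `Function.Injective.tsum_eq`/`Equiv.tsum_eq (simHomeo ..).toEquiv`).  Right side:
  `fderiv (g' ∘ T) X = fderiv g' (T X) ∘L (r⁻¹ • O)` at the points of the open set `T ⁻¹' O'`
  (`g'` is differentiable there), `tanJac_comp_smul_isometry` gives the factor `r⁻ᵐ`, and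
  `lintegral_wt_simil` (applied to the indicator of `O'` times the integrand) finishes.
* `IsStat.simil`: test field `X = S' ∘ X' ∘ T`, `S' = O.symm` linear: `C¹`, compact support
  `tsupport X = T ⁻¹' tsupport X'`, `fderiv X x = r⁻¹ • conj O.symm (fderiv X' (T x))`, `tdiv_conj`,
  `integral_wt_simil`.
* `IsStat.extend`: `G = {x | ∃ ρ > 0, μ (ball x ρ) = 0}` is open and `μ`-null (Lindelöf:
  `TopologicalSpace.IsOpen... countable_cover_nhds` / `measure_null_of_locally_null`); `K = tsupport X \ G` is a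
  compact subset of `U`; take a smooth `χ` with compact support in `U`, `χ = 1` near `K`
  (`exists_contDiff_tsupport_subset` or `exists_smooth...`; B4 has `exists_contDiff_eqOn`); then
  `tdiv P D(χ X) = tdiv P DX` off `G`.
-/

set_option autoImplicit false

open scoped ENNReal ContDiff Topology
open MeasureTheory

namespace Claimed.Agent.R322.Base

/-- stationarity with respect to `C¹` fields with compact support in `U` (field `stat`). -/
def IsStat {N : ℕ} (U : Set (E N)) (μ : Measure (E N)) (P : E N → E N →L[ℝ] E N) : Prop :=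
  ∀ X : E N → E N, ContDiff ℝ 1 X → HasCompactSupport X → tsupport X ⊆ U →
    ∫ x, tdiv (P x) (fderiv ℝ X x) ∂μ = 0

/-- local finiteness in `U` (field `locfin`). -/
def IsLocFin {N : ℕ} (U : Set (E N)) (μ : Measure (E N)) : Prop :=
  ∀ K : Set (E N), IsCompact K → K ⊆ U → μ K < ⊤

variable {m n : ℕ} {U M : Set (E (m + n))} {θ : E (m + n) → ℕ}
  {P : E (m + n) → E (m + n) →L[ℝ] E (m + n)}

/-! ### similarity -/

section Simil

variable (p : E (m + n)) {r : ℝ} (O : E (m + n) ≃ₗᵢ[ℝ] E (m + n))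

theorem bops_tdiv_smul {N : ℕ} (Q A : E N →L[ℝ] E N) (c : ℝ) :
    tdiv Q (c • A) = c * tdiv Q A := by
  unfold tdiv
  rw [ContinuousLinearMap.comp_smul, ContinuousLinearMap.toLinearMap_smul, map_smul, smul_eq_mul]

/-- fibre sums under the similarity -/
theorem bops_fibre_simil (hr : 0 < r) {k : ℕ} (O' : Set (E (m + n))) (g' : E (m + n) → E k)
    (φ' : E (m + n) → ℝ≥0∞) (y : E k) :
    (∑' Y : {Y // Y ∈ simInv p r O ⁻¹' M ∩ O' ∧ g' Y = y},
        ((θ (simInv p r O Y) : ℕ) : ℝ≥0∞) * φ' Y)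
      = ∑' x : {x // x ∈ M ∩ simMap p r O ⁻¹' O' ∧ (g' ∘ simMap p r O) x = y},
        ((θ x : ℕ) : ℝ≥0∞) * (φ' ∘ simMap p r O) x := by
  let e : {x // x ∈ M ∩ simMap p r O ⁻¹' O' ∧ (g' ∘ simMap p r O) x = y} ≃
      {Y // Y ∈ simInv p r O ⁻¹' M ∩ O' ∧ g' Y = y} :=
    (simHomeo p O hr).toEquiv.subtypeEquiv (by
      intro x
      show _ ↔ (simInv p r O (simMap p r O x) ∈ M ∧ simMap p r O x ∈ O') ∧ g' (simMap p r O x) = y
      rw [simInv_simMap p O hr]
      rfl)
  rw [← e.tsum_eq]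
  refine tsum_congr fun x => ?_
  show ((θ (simInv p r O (simMap p r O x)) : ℕ) : ℝ≥0∞) * φ' (simMap p r O x) = _
  rw [simInv_simMap p O hr]
  rfl

theorem IsTanField.simil (h : IsTanField m n U M θ P) (hM : MeasurableSet M) (hθ : Measurable θ)
    (hr : 0 < r) :
    IsTanField m n (simInv p r O ⁻¹' U) (simInv p r O ⁻¹' M) (fun Y => θ (simInv p r O Y))
      (fun Y => conj O (P (simInv p r O Y))) := by
  have hT : Measurable (simMap p r O) := (contDiff_simMap p O r).continuous.measurable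
  have hS : Measurable (simInv p r O) := (contDiff_simInv p O r).continuous.measurable
  have hpre : ∀ O' : Set (E (m + n)), IsOpen O' → O' ⊆ simInv p r O ⁻¹' U →
      IsOpen (simMap p r O ⁻¹' O') ∧ simMap p r O ⁻¹' O' ⊆ U := by
    intro O' hO' hsub
    refine ⟨hO'.preimage (contDiff_simMap p O r).continuous, fun x hx => ?_⟩
    have := hsub hx
    rwa [Set.mem_preimage, simInv_simMap p O hr] at this
  have hcd : ∀ {k : ℕ} (O' : Set (E (m + n))) (g' : E (m + n) → E k), ContDiffOn ℝ 1 g' O' →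
      ContDiffOn ℝ 1 (g' ∘ simMap p r O) (simMap p r O ⁻¹' O') := by
    intro k O' g' hg
    exact hg.comp ((contDiff_simMap p O r).of_le (by exact_mod_cast le_top)).contDiffOn
      (Set.mapsTo_preimage _ _)
  refine ⟨(continuous_conj O).measurable.comp (h.meas.comp hS), fun Y => isProj_conj (h.proj _) O,
    ?_, ?_⟩
  · intro k O' g' φ' hO' hsub hg hφ
    have := h.fib_meas k (simMap p r O ⁻¹' O') (g' ∘ simMap p r O) (φ' ∘ simMap p r O)
      (hpre O' hO' hsub).1 (hpre O' hO' hsub).2 (hcd O' g' hg) (hφ.comp hT)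
    simp only [bops_fibre_simil p O hr]
    exact this
  · intro k O' g' φ' hO' hsub hg hφ
    have := h.area k (simMap p r O ⁻¹' O') (g' ∘ simMap p r O) (φ' ∘ simMap p r O)
      (hpre O' hO' hsub).1 (hpre O' hO' hsub).2 (hcd O' g' hg) (hφ.comp hT)
    simp only [bops_fibre_simil p O hr]
    rw [this, ← lintegral_indicator hO'.measurableSet, lintegral_wt_simil p O m hr hM hθ,
      ← lintegral_const_mul' _ _ ENNReal.ofReal_ne_top,
      ← lintegral_indicator (hpre O' hO' hsub).1.measurableSet]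
    refine lintegral_congr fun x => ?_
    by_cases hx : simMap p r O x ∈ O'
    · rw [Set.indicator_of_mem (show x ∈ simMap p r O ⁻¹' O' from hx), Set.indicator_of_mem hx,
        simInv_simMap p O hr]
      have hd : DifferentiableAt ℝ g' (simMap p r O x) :=
        (hg.contDiffAt (hO'.mem_nhds hx)).differentiableAt one_ne_zero
      have hdT : DifferentiableAt ℝ (simMap p r O) x :=
        (contDiff_simMap p O r).differentiable (by simp) x
      rw [fderiv_comp x hd hdT, fderiv_simMap,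
        tanJac_comp_smul_isometry (h.proj x) O (inv_nonneg.2 hr.le),
        ENNReal.ofReal_mul (by positivity), inv_pow]
      simp only [Function.comp]
      ring
    · rw [Set.indicator_of_notMem (show x ∉ simMap p r O ⁻¹' O' from hx),
        Set.indicator_of_notMem hx, mul_zero]

theorem IsLocFin.simil (h : IsLocFin U (wt m M θ)) (hM : MeasurableSet M) (hθ : Measurable θ)
    (hr : 0 < r) :
    IsLocFin (simInv p r O ⁻¹' U)
      (wt m (simInv p r O ⁻¹' M) (fun Y => θ (simInv p r O Y))) := by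
  intro K hK hKU
  rw [wt_simil p O m hr hM hθ, Measure.smul_apply,
    Measure.map_apply (contDiff_simMap p O r).continuous.measurable hK.measurableSet,
    simMap_preimage p O hr]
  refine ENNReal.mul_lt_top ENNReal.ofReal_lt_top
    (h _ (hK.image (contDiff_simInv p O r).continuous) ?_)
  rintro _ ⟨Y, hY, rfl⟩
  exact hKU hY

theorem IsStat.simil (h : IsStat U (wt m M θ) P) (hM : MeasurableSet M) (hθ : Measurable θ)
    (hr : 0 < r) :
    IsStat (simInv p r O ⁻¹' U) (wt m (simInv p r O ⁻¹' M) (fun Y => θ (simInv p r O Y)))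
      (fun Y => conj O (P (simInv p r O Y))) := by
  intro X' hX' hc hsupp
  have h1 : ContDiff ℝ 1 (fun x => O.symm (X' (simMap p r O x))) :=
    O.symm.contDiff.comp (hX'.comp ((contDiff_simMap p O r).of_le (by exact_mod_cast le_top)))
  have h2 : HasCompactSupport (fun x => O.symm (X' (simMap p r O x))) :=
    (hc.comp_homeomorph (simHomeo p O hr)).comp_left (g := O.symm) (map_zero _)
  have h3 : tsupport (fun x => O.symm (X' (simMap p r O x))) ⊆ U := by
    have a1 : tsupport (fun x => O.symm (X' (simMap p r O x))) ⊆ tsupport (X' ∘ simMap p r O) :=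
      tsupport_comp_subset (g := O.symm) (map_zero _) (X' ∘ simMap p r O)
    have a2 : tsupport (X' ∘ simMap p r O) = simMap p r O ⁻¹' tsupport X' :=
      tsupport_comp_eq_preimage X' (simHomeo p O hr)
    intro x hx
    have := hsupp (a2 ▸ a1 hx : x ∈ simMap p r O ⁻¹' tsupport X')
    rwa [Set.mem_preimage, simInv_simMap p O hr] at this
  have h4 := h _ h1 h2 h3
  have h5 : ∀ x, tdiv (P x) (fderiv ℝ (fun x => O.symm (X' (simMap p r O x))) x)
      = r⁻¹ * tdiv (conj O (P (simInv p r O (simMap p r O x)))) (fderiv ℝ X' (simMap p r O x)) := by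
    intro x
    have hd : DifferentiableAt ℝ X' (simMap p r O x) := hX'.differentiable one_ne_zero _
    have hdT : DifferentiableAt ℝ (simMap p r O) x :=
      (contDiff_simMap p O r).differentiable (by simp) x
    have e1 : fderiv ℝ (fun x => O.symm (X' (simMap p r O x))) x
        = r⁻¹ • conj O.symm (fderiv ℝ X' (simMap p r O x)) := by
      have : HasFDerivAt (fun x => O.symm (X' (simMap p r O x)))
          ((O.symm : E (m + n) →L[ℝ] E (m + n)) ∘L
            ((fderiv ℝ X' (simMap p r O x)) ∘L (fderiv ℝ (simMap p r O) x))) x :=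
        (O.symm : E (m + n) →L[ℝ] E (m + n)).hasFDerivAt.comp x
          (hd.hasFDerivAt.comp x hdT.hasFDerivAt)
      rw [this.fderiv, fderiv_simMap]
      ext v
      simp [conj_apply]
    rw [e1, bops_tdiv_smul, simInv_simMap p O hr, tdiv_conj]
  rw [integral_wt_simil p O m hr hM hθ]
  simp only [h5, integral_const_mul] at h4
  rw [(mul_eq_zero.1 h4).resolve_left (inv_ne_zero hr.ne'), mul_zero]

theorem HasLowerDens.simil (h : HasLowerDens m (wt m M θ)) (hM : MeasurableSet M)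
    (hθ : Measurable θ) (hr : 0 < r) :
    HasLowerDens m (wt m (simInv p r O ⁻¹' M) (fun Y => θ (simInv p r O Y))) := by
  unfold HasLowerDens at h ⊢
  have hw := wt_simil p O m hr hM hθ
  rw [hw]
  refine Measure.ae_smul_measure ?_ _
  refine ((simHomeo p O hr).toMeasurableEquiv.measurableEmbedding.ae_map_iff).2 ?_
  filter_upwards [h] with x hx ε hε r₀ hr₀
  obtain ⟨ρ, hρ, hρr, hle⟩ := hx ε hε (r * r₀) (mul_pos hr hr₀)
  refine ⟨ρ / r, div_pos hρ hr, (div_lt_iff₀' hr).2 hρr, ?_⟩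
  show _ ≤ (ENNReal.ofReal ((r ^ m)⁻¹) • (wt m M θ).map (simMap p r O))
    (Metric.ball (simMap p r O x) (ρ / r))
  rw [Measure.smul_apply,
    Measure.map_apply (contDiff_simMap p O r).continuous.measurable Metric.isOpen_ball.measurableSet,
    simMap_preimage_ball p O hr, simInv_simMap p O hr, mul_div_cancel₀ _ hr.ne', smul_eq_mul]
  refine le_trans (le_of_eq ?_) (mul_le_mul_right hle _)
  rw [← ENNReal.ofReal_mul (by positivity)]
  congr 1
  rw [div_pow]
  field_simp

end Simil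

/-! ### restriction to an open subset -/

section Restr

variable {U' : Set (E (m + n))}

theorem IsTanField.restr (h : IsTanField m n U M θ P) (hU' : IsOpen U') (hsub : U' ⊆ U) :
    IsTanField m n U' (M ∩ U') θ P := by
  have key : ∀ O : Set (E (m + n)), O ⊆ U' → M ∩ U' ∩ O = M ∩ O := fun O hO => by
    rw [Set.inter_assoc, Set.inter_eq_right.2 hO]
  refine ⟨h.meas, h.proj, ?_, ?_⟩
  · intro k O g φ hO hOU hg hφ
    rw [key O hOU]
    exact h.fib_meas k O g φ hO (hOU.trans hsub) hg hφ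
  · intro k O g φ hO hOU hg hφ
    rw [key O hOU, wt_inter m M θ hU'.measurableSet, Measure.restrict_restrict hO.measurableSet,
      Set.inter_eq_left.2 hOU]
    exact h.area k O g φ hO (hOU.trans hsub) hg hφ

theorem IsLocFin.restr (h : IsLocFin U (wt m M θ)) (hU' : IsOpen U') (hsub : U' ⊆ U) :
    IsLocFin U' (wt m (M ∩ U') θ) := by
  intro K hK hKU
  rw [wt_inter m M θ hU'.measurableSet]
  exact (Measure.restrict_apply_le _ _).trans_lt (h K hK (hKU.trans hsub))

theorem tdiv_zero_right {N : ℕ} (P : E N →L[ℝ] E N) : tdiv P 0 = 0 := by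
  simp [tdiv]

theorem tdiv_fderiv_eq_zero {N : ℕ} (P : E N →L[ℝ] E N) {X : E N → E N} {x : E N}
    (hx : x ∉ tsupport X) : tdiv P (fderiv ℝ X x) = 0 := by
  have : fderiv ℝ X x = 0 := by
    by_contra hne
    exact hx (support_fderiv_subset ℝ hne)
  rw [this, tdiv_zero_right]

theorem IsStat.restr (h : IsStat U (wt m M θ) P) (hU' : IsOpen U') (hsub : U' ⊆ U) :
    IsStat U' (wt m (M ∩ U') θ) P := by
  intro X hX hc hs
  rw [wt_inter m M θ hU'.measurableSet,
    setIntegral_eq_integral_of_forall_compl_eq_zero fun x hx =>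
      tdiv_fderiv_eq_zero (P x) fun hx' => hx (hs hx')]
  exact h X hX hc (hs.trans hsub)

theorem HasLowerDens.restr (h : HasLowerDens m (wt m M θ)) (hU' : IsOpen U') :
    HasLowerDens m (wt m (M ∩ U') θ) := by
  unfold HasLowerDens at h ⊢
  rw [wt_inter m M θ hU'.measurableSet]
  filter_upwards [ae_restrict_of_ae h, ae_restrict_mem hU'.measurableSet] with x hx hxU ε hε r₀ hr₀
  obtain ⟨ρ, hρ, hball⟩ := Metric.isOpen_iff.1 hU' x hxU
  obtain ⟨r, hr, hrlt, hle⟩ := hx ε hε (min r₀ ρ) (lt_min hr₀ hρ)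
  refine ⟨r, hr, hrlt.trans_le (min_le_left _ _), ?_⟩
  rw [Measure.restrict_apply Metric.isOpen_ball.measurableSet, Set.inter_eq_left.2
    ((Metric.ball_subset_ball (hrlt.le.trans (min_le_right _ _))).trans hball)]
  exact hle

end Restr

/-! ### extension of the domain across a region without mass -/

section Extend

variable {U' : Set (E (m + n))}

theorem IsTanField.extend (h : IsTanField m n U M θ P) (hU : IsOpen U) (hM : MeasurableSet M)
    (hMU : M ⊆ U) : IsTanField m n U' M θ P := by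
  have key : ∀ O : Set (E (m + n)), M ∩ (O ∩ U) = M ∩ O := fun O => by
    ext x
    simp only [Set.mem_inter_iff]
    exact ⟨fun hx => ⟨hx.1, hx.2.1⟩, fun hx => ⟨hx.1, hx.2, hMU hx.1⟩⟩
  refine ⟨h.meas, h.proj, ?_, ?_⟩
  · intro k O g φ hO hOU hg hφ
    have := h.fib_meas k (O ∩ U) g φ (hO.inter hU) Set.inter_subset_right
      (hg.mono Set.inter_subset_left) hφ
    rwa [key O] at this
  · intro k O g φ hO hOU hg hφ
    have := h.area k (O ∩ U) g φ (hO.inter hU) Set.inter_subset_right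
      (hg.mono Set.inter_subset_left) hφ
    rw [key O] at this
    rw [this]
    have hnull : wt m M θ Uᶜ = 0 :=
      measure_mono_null (Set.compl_subset_compl.2 hMU) (wt_compl m hM θ)
    have hae : (O ∩ U : Set (E (m + n))) =ᵐ[wt m M θ] O := by
      have hU1 : ∀ᵐ x ∂(wt m M θ), x ∈ U := by
        rw [ae_iff]; exact hnull
      filter_upwards [hU1] with x hx
      exact propext ⟨fun h => h.1, fun h => ⟨h, hx⟩⟩
    rw [Measure.restrict_congr_set hae]

/-- the union of the null balls -/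
def nullPart {N : ℕ} (μ : Measure (E N)) : Set (E N) :=
  {x | ∃ ρ : ℝ, 0 < ρ ∧ μ (Metric.ball x ρ) = 0}

theorem isOpen_nullPart {N : ℕ} (μ : Measure (E N)) : IsOpen (nullPart μ) := by
  rw [Metric.isOpen_iff]
  rintro x ⟨ρ, hρ, h0⟩
  refine ⟨ρ / 2, by positivity, fun y hy => ⟨ρ / 2, by positivity, ?_⟩⟩
  refine measure_mono_null (fun z hz => ?_) h0
  rw [Metric.mem_ball] at hy hz ⊢
  calc dist z x ≤ dist z y + dist y x := dist_triangle _ _ _
    _ < ρ / 2 + ρ / 2 := add_lt_add hz hy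
    _ = ρ := by ring

theorem measure_nullPart {N : ℕ} (μ : Measure (E N)) : μ (nullPart μ) = 0 := by
  refine measure_null_of_locally_null _ fun x hx => ?_
  obtain ⟨ρ, hρ, h0⟩ := hx
  exact ⟨Metric.ball x ρ, mem_nhdsWithin_of_mem_nhds (Metric.ball_mem_nhds x hρ), h0⟩

theorem IsLocFin.extend (h : IsLocFin U (wt m M θ))
    (hgap : ∀ x ∈ U', x ∉ U → ∃ ρ : ℝ, 0 < ρ ∧ wt m M θ (Metric.ball x ρ) = 0) :
    IsLocFin U' (wt m M θ) := by
  intro K hK hKU
  set G := nullPart (wt m M θ) with hG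
  have hc : IsCompact (K \ G) := hK.diff (isOpen_nullPart _)
  have hsub : K \ G ⊆ U := fun x hx => by
    by_contra hxU
    exact hx.2 (hgap x (hKU hx.1) hxU)
  calc wt m M θ K ≤ wt m M θ (K \ G ∪ G) := measure_mono (by
        intro x hx
        by_cases hxG : x ∈ G
        · exact Or.inr hxG
        · exact Or.inl ⟨hx, hxG⟩)
    _ ≤ wt m M θ (K \ G) + wt m M θ G := measure_union_le _ _
    _ = wt m M θ (K \ G) := by rw [hG, measure_nullPart, add_zero]
    _ < ⊤ := h _ hc hsub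

theorem IsStat.extend (h : IsStat U (wt m M θ) P) (hU : IsOpen U)
    (hgap : ∀ x ∈ U', x ∉ U → ∃ ρ : ℝ, 0 < ρ ∧ wt m M θ (Metric.ball x ρ) = 0) :
    IsStat U' (wt m M θ) P := by
  intro X hX hc hs
  set G := nullPart (wt m M θ) with hG
  set K := tsupport X \ G with hKdef
  have hK : IsCompact K := hc.isCompact.diff (isOpen_nullPart _)
  have hKU : K ⊆ U := fun x hx => by
    by_contra hxU
    exact hx.2 (hgap x (hs hx.1) hxU)
  obtain ⟨L, hL, hKL, hLU⟩ := exists_compact_between hK hU hKU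
  obtain ⟨χ, h1, h0, -⟩ := exists_contMDiffMap_one_nhds_of_subset_interior (n := (1 : ℕ∞))
    (modelWithCornersSelf ℝ (E (m + n))) hK.isClosed hKL
  have hχ : ContDiff ℝ 1 χ := χ.contMDiff.contDiff
  set Y : E (m + n) → E (m + n) := fun x => χ x • X x with hY
  have hYc : ContDiff ℝ 1 Y := hχ.smul hX
  have hsuppY : tsupport Y ⊆ L := by
    refine closure_minimal (fun x hx => ?_) hL.isClosed
    by_contra hxL
    exact hx (by simp only [hY, h0 x hxL, zero_smul])
  have hYcs : HasCompactSupport Y := hL.of_isClosed_subset (isClosed_tsupport _) hsuppY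
  have hzero := h Y hYc hYcs (hsuppY.trans hLU)
  rw [← hzero]
  refine integral_congr_ae ?_
  have hGae : ∀ᵐ x ∂(wt m M θ), x ∉ G := by
    rw [ae_iff]
    simp only [not_not]
    exact measure_nullPart _
  filter_upwards [hGae] with x hxG
  by_cases hx : x ∈ tsupport X
  · have hxK : x ∈ K := ⟨hx, hxG⟩
    have hev : Y =ᶠ[𝓝 x] X := by
      have : ∀ᶠ y in 𝓝 x, χ y = 1 := (Filter.eventually_iff.1 h1 |> fun h' =>
        (mem_nhdsSet_iff_forall.1 h') x hxK)
      filter_upwards [this] with y hy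
      simp only [hY, hy, one_smul]
    rw [hev.fderiv_eq]
  · have hxY : x ∉ tsupport Y := by
      intro hxY
      apply hx
      have : tsupport Y ⊆ tsupport X := closure_mono fun y hy hXy => hy (by
        simp only [hY, hXy, smul_zero])
      exact this hxY
    rw [tdiv_fderiv_eq_zero _ hx, tdiv_fderiv_eq_zero _ hxY]

end Extend

end Claimed.Agent.R322.Base
end

/- ===== packed: Claimed.Agent.R322.Tube.Geom.RegJK ===== -/
section
/-!
# Row 322, Tube/Geom/RegJK: regularity of `A_z`, `J_z`, `K_z` in the tube; the derivative of `A_z`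
-/

set_option autoImplicit false

open scoped ENNReal ContDiff Topology
open MeasureTheory Filter

namespace Claimed.Agent.R322.Tube

local notation "adj" => ContinuousLinearMap.adjoint
local notation "𝟙" => ContinuousLinearMap.id ℝ _

variable {m n : ℕ} {u : E m → E n} {κ₂ : ℝ}

/-- `(y, w) ↦ A_w(y)` is `C²`. -/
theorem contDiff_Shp (hu : ContDiff ℝ 4 u) :
    ContDiff ℝ 2 (fun p : E m × E (m + n) => Shp u p.1 p.2) := by
  have hu3 : ContDiff ℝ ((2 + 1 : ℕ) : ℕ∞ω) u := hu.of_le (by norm_num)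
  have h1 : ContDiff ℝ 2 (fderiv ℝ (Ph u)) :=
    (contDiff_Ph_of (k := 3) (by exact_mod_cast hu)).fderiv_right (m := 2) (by norm_num)
  have h3 : ContDiff ℝ 2 (fun p : E m × E (m + n) => Pv u p.1 p.2) :=
    ((contDiff_Pv_of (k := 2) hu3).comp contDiff_fst).clm_apply contDiff_snd
  rw [contDiff_clm_apply_iff]
  intro b
  have h4 : ContDiff ℝ 2 (fun p : E m × E (m + n) => dFp (fderiv ℝ u p.1) b) :=
    ((contDiff_dFp_Du (k := 2) hu3).comp contDiff_fst).clm_apply contDiff_const
  exact ((h1.comp contDiff_fst).clm_apply h4).clm_apply h3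

/-- `A_z` in the tube. -/
noncomputable def Az (u : E m → E n) (X : E (m + n)) : E (m + n) →L[ℝ] E (m + n) :=
  Shp u (npr u X) (zz u X)

theorem Jz_eq_sub (u : E m → E n) (X : E (m + n)) : Jz u X = 𝟙 - Az u X := rfl

theorem contDiffAt_Az (hu : Geo κ₂ u) {h : ℝ} (hh : h ≤ 2 / 9) {X : E (m + n)}
    (hX : X ∈ Tub u h) : ContDiffAt ℝ 2 (Az u) X := by
  have h1 : ContDiffAt ℝ 2 (fun X => (npr u X, zz u X)) X :=
    ((npr_local hu hh hX).1.of_le (by norm_num)).prodMk
      ((zz_local hu hh hX).1.of_le (by norm_num))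
  have h2 : Az u = (fun p : E m × E (m + n) => Shp u p.1 p.2) ∘ fun X => (npr u X, zz u X) := rfl
  rw [h2]
  exact (contDiff_Shp hu.smooth).contDiffAt.comp X h1

theorem contDiffAt_Jz (hu : Geo κ₂ u) {h : ℝ} (hh : h ≤ 2 / 9) {X : E (m + n)}
    (hX : X ∈ Tub u h) : ContDiffAt ℝ 2 (Jz u) X :=
  contDiffAt_const.sub (contDiffAt_Az hu hh hX)

theorem isInvertible_Jz (hu : Geo κ₂ u) {h : ℝ} (hh : h ≤ 2 / 9) {X : E (m + n)}
    (hX : X ∈ Tub u h) : (Jz u X).IsInvertible :=
  ContinuousLinearMap.IsInvertible.of_inverse (g := Kz u X)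
    (Jw_comp_Kw (hu.norm_Shp_zz_le_half hh hX)) (Kw_comp_Jw (hu.norm_Shp_zz_le_half hh hX))

theorem contDiffAt_Kz (hu : Geo κ₂ u) {h : ℝ} (hh : h ≤ 2 / 9) {X : E (m + n)}
    (hX : X ∈ Tub u h) : ContDiffAt ℝ 2 (Kz u) X :=
  (isInvertible_Jz hu hh hX).contDiffAt_map_inverse.comp X (contDiffAt_Jz hu hh hX)

theorem contDiffOn_Jz (hu : Geo κ₂ u) {h : ℝ} (hh : h ≤ 2 / 9) :
    ContDiffOn ℝ 2 (Jz u) (Tub u h) := fun _ hX => (contDiffAt_Jz hu hh hX).contDiffWithinAt

theorem contDiffOn_Kz (hu : Geo κ₂ u) {h : ℝ} (hh : h ≤ 2 / 9) :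
    ContDiffOn ℝ 2 (Kz u) (Tub u h) := fun _ hX => (contDiffAt_Kz hu hh hX).contDiffWithinAt

theorem Geo.norm_fderiv_npr_le (hu : Geo κ₂ u) {h : ℝ} (hh : h ≤ 2 / 9) {X : E (m + n)}
    (hX : X ∈ Tub u h) : ‖fderiv ℝ (npr u) X‖ ≤ 3 := by
  rw [(npr_local hu hh hX).2.fderiv]
  have := norm_comp_le' _ _ (hu.norm_dFp_le (npr u X))
    (norm_comp_le' _ _ (norm_Kw_le (hu.norm_Shp_zz_le_half hh hX)) (norm_Ph_le u (npr u X)))
  rw [Kz_eq]
  linarith

theorem Geo.norm_fderiv_zz_le (hu : Geo κ₂ u) {h : ℝ} (hh : h ≤ 2 / 9) {X : E (m + n)}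
    (hX : X ∈ Tub u h) : ‖fderiv ℝ (zz u) X‖ ≤ 3 := by
  rw [(zz_local hu hh hX).2.fderiv]
  have h1 := norm_comp_le' _ _ (norm_Kw_le (hu.norm_Shp_zz_le_half hh hX)) (norm_Ph_le u (npr u X))
  have h2 := ContinuousLinearMap.norm_id_le (𝕜 := ℝ) (E := E (m + n))
  rw [Kz_eq]
  refine (norm_sub_le _ _).trans ?_
  linarith

/-- the derivative of `X ↦ A_z b`. -/
theorem fderiv_Az_apply (hu : Geo κ₂ u) {h : ℝ} (hh : h ≤ 2 / 9) {X : E (m + n)}
    (hX : X ∈ Tub u h) (a b : E (m + n)) :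
    fderiv ℝ (Az u) X a b
      = (dPh u (npr u X) (dTp u (npr u X) (fderiv ℝ (npr u) X a) b)
          + ddPh u (npr u X) (fderiv ℝ (npr u) X a) (dFp (fderiv ℝ u (npr u X)) b)) (zz u X)
        + dPh u (npr u X) (dFp (fderiv ℝ u (npr u X)) b) (fderiv ℝ (zz u) X a) := by
  have hh4 : h ≤ 1 / 4 := hh.trans (by norm_num)
  have hA : HasFDerivAt (Az u) (fderiv ℝ (Az u) X) X :=
    ((contDiffAt_Az hu hh hX).differentiableAt (by norm_num)).hasFDerivAt
  have h0 := hA.clm_apply (hasFDerivAt_const b X)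
  have hπ := (npr_local hu hh hX).2
  have hz := (zz_local hu hh hX).2
  have h1 := (hasFDerivAt_dFp_Du hu.c2 (npr u X)).clm_apply (hasFDerivAt_const b (npr u X))
  have h2 := ((hasFDerivAt_fderiv_Ph hu.c3 (npr u X)).clm_apply h1).comp X hπ
  have h3 := h2.clm_apply hz
  have heq : (fun X => Az u X b) =ᶠ[𝓝 X] fun X' =>
      ((fun y => (fderiv ℝ (Ph u) y) ((dFp (fderiv ℝ u y)) b)) ∘ npr u) X' (zz u X') := by
    filter_upwards [(isOpen_Tub u h).mem_nhds hX] with X' hX'
    change dPh u (npr u X') (dFp (fderiv ℝ u (npr u X')) b) (Pv u (npr u X') (zz u X')) = _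
    rw [Pv_zz hu hh4 hX']
    rfl
  have h4 := congrArg (fun T : E (m + n) →L[ℝ] E (m + n) => T a)
    (h0.unique (h3.congr_of_eventuallyEq heq))
  rw [hπ.fderiv, hz.fderiv]
  simp only [add_apply, ContinuousLinearMap.comp_apply, zero_apply, map_zero,
    ContinuousLinearMap.flip_apply, zero_add, fderiv_dFp_Du hu.c2, Function.comp] at h4
  simp only [add_apply, ContinuousLinearMap.comp_apply]
  rw [h4]
  unfold ddPh dPh
  abel

/-- `‖D_a A_z‖ ≤ 192 κ₂ |a|`. -/
theorem Geo.norm_fderiv_Az_le (hu : Geo κ₂ u) {h : ℝ} (hh : h ≤ 2 / 9) {X : E (m + n)}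
    (hX : X ∈ Tub u h) (a : E (m + n)) : ‖fderiv ℝ (Az u) X a‖ ≤ 192 * κ₂ * ‖a‖ := by
  have hκ := hu.nonneg
  have hκ1 := hu.le_one
  refine ContinuousLinearMap.opNorm_le_bound _ (by positivity) fun b => ?_
  rw [fderiv_Az_apply hu hh hX]
  have hz : ‖zz u X‖ ≤ 1 :=
    ((tube_unique_of_le hu (hh.trans (by norm_num)) hX).2.2.2.1).le.trans (hh.trans (by norm_num))
  set ξ := fderiv ℝ (npr u) X a with hξ
  set ζ := fderiv ℝ (zz u) X a with hζ
  have bξ : ‖ξ‖ ≤ 3 * ‖a‖ :=
    ((fderiv ℝ (npr u) X).le_opNorm a).trans (by gcongr; exact hu.norm_fderiv_npr_le hh hX)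
  have bζ : ‖ζ‖ ≤ 3 * ‖a‖ :=
    ((fderiv ℝ (zz u) X).le_opNorm a).trans (by gcongr; exact hu.norm_fderiv_zz_le hh hX)
  have b1 : ‖dTp u (npr u X) ξ b‖ ≤ 27 / 4 * κ₂ * (3 * ‖a‖) * ‖b‖ :=
    ((dTp u (npr u X) ξ).le_opNorm b).trans (by
      gcongr
      exact (hu.norm_dTp_le (npr u X) ξ).trans (by gcongr))
  have b2 : ‖dFp (fderiv ℝ u (npr u X)) b‖ ≤ 3 / 2 * ‖b‖ :=
    ((dFp (fderiv ℝ u (npr u X))).le_opNorm b).trans (by gcongr; exact hu.norm_dFp_le _)
  have c1 : ‖dPh u (npr u X) (dTp u (npr u X) ξ b)‖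
      ≤ 3 * κ₂ * (27 / 4 * κ₂ * (3 * ‖a‖) * ‖b‖) :=
    (hu.norm_dPh_le _ _).trans (by gcongr)
  have c2 : ‖ddPh u (npr u X) ξ (dFp (fderiv ℝ u (npr u X)) b)‖
      ≤ 26 * κ₂ * (3 / 2 * ‖b‖) * (3 * ‖a‖) :=
    (hu.norm_ddPh_le _ _ _).trans (by gcongr)
  have c3 : ‖dPh u (npr u X) (dFp (fderiv ℝ u (npr u X)) b)‖ ≤ 3 * κ₂ * (3 / 2 * ‖b‖) :=
    (hu.norm_dPh_le _ _).trans (by gcongr)
  have d1 : ‖(dPh u (npr u X) (dTp u (npr u X) ξ b)
      + ddPh u (npr u X) ξ (dFp (fderiv ℝ u (npr u X)) b)) (zz u X)‖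
      ≤ (3 * κ₂ * (27 / 4 * κ₂ * (3 * ‖a‖) * ‖b‖) + 26 * κ₂ * (3 / 2 * ‖b‖) * (3 * ‖a‖)) * 1 := by
    refine (ContinuousLinearMap.le_opNorm _ _).trans ?_
    gcongr
    exact (norm_add_le _ _).trans (add_le_add c1 c2)
  have d2 : ‖dPh u (npr u X) (dFp (fderiv ℝ u (npr u X)) b) ζ‖
      ≤ (3 * κ₂ * (3 / 2 * ‖b‖)) * (3 * ‖a‖) := by
    refine (ContinuousLinearMap.le_opNorm _ _).trans ?_
    gcongr
  refine (norm_add_le _ _).trans ((add_le_add d1 d2).trans ?_)
  have hp : 0 ≤ κ₂ * ‖a‖ * ‖b‖ := by positivity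
  have hq : κ₂ * (κ₂ * ‖a‖ * ‖b‖) ≤ κ₂ * ‖a‖ * ‖b‖ := by nlinarith
  nlinarith

end Claimed.Agent.R322.Tube
end

/- ===== packed: Claimed.Agent.R322.Sx.Bottom.DiffA ===== -/
section
/-!
# R322 / Sx / Bottom / DiffA   (blueprint: helper121)   LEAF `L-Bot-LebPoint`

Lebesgue points of a finite measure `ρ` on `E m`, in the form used for AE Lemma 5.1.

`acD ρ y` is the (real) density of the absolutely continuous part.  `devM ρ y` is the positive measure
`ρ_s + |f - f(y)| dy` (`f = acD ρ`).  `leb_point`: for a.e. `y`, `devM ρ y (closedBall y r) = o(r^m)`.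

Proof.  (1) singular part: `Besicovitch.ae_tendsto_rnDeriv (ρ.singularPart volume) volume` together with
`Measure.rnDeriv_singularPart` (the limit of `ρ_s(closedBall y r) / vol(closedBall y r)` is `0` a.e.).
(2) a.c. part: `f` is integrable (`Measure.integrable_toReal_rnDeriv`), hence locally integrable;
`IsUnifLocDoublingMeasure.ae_tendsto_average_norm_sub` with `w j = y`, `δ j = j`, `l = 𝓝[>] 0`, `K = 1`
(or `VitaliFamily.ae_tendsto_lintegral_enorm_sub_div` for `Besicovitch.vitaliFamily`).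
(3) `vol (closedBall y r) = ofReal (r^m) * vol (closedBall 0 1)` (`Measure.addHaar_closedBall`,
`finrank_euclideanSpace_fin`), and `vol (closedBall 0 1) < ∞`.
-/

set_option autoImplicit false

namespace Claimed.Agent.R322.Sx

open MeasureTheory Set Metric Filter Topology
open scoped ENNReal NNReal

/-- real density of the absolutely continuous part of `ρ`. -/
noncomputable def acD {m : ℕ} (ρ : Measure (E m)) (y : E m) : ℝ := (ρ.rnDeriv volume y).toReal

/-- the deviation measure `ρ_s + |f - f(y)| dy` at the point `y`. -/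
noncomputable def devM {m : ℕ} (ρ : Measure (E m)) (y : E m) : Measure (E m) :=
  ρ.singularPart volume + volume.withDensity fun z => ENNReal.ofReal |acD ρ z - acD ρ y|

theorem bt_vol_closedBall {m : ℕ} (y : E m) {r : ℝ} (hr : 0 ≤ r) :
    (volume : Measure (E m)) (closedBall y r)
      = ENNReal.ofReal (r ^ m) * (volume : Measure (E m)) (ball 0 1) := by
  rw [Measure.addHaar_closedBall _ _ hr, finrank_euclideanSpace_fin]

theorem devM_apply {m : ℕ} (ρ : Measure (E m)) (y : E m) {A : Set (E m)} (hA : MeasurableSet A) :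
    devM ρ y A = ρ.singularPart volume A + ∫⁻ z in A, ENNReal.ofReal |acD ρ z - acD ρ y| := by
  unfold devM
  rw [Measure.add_apply, withDensity_apply _ hA]

/-- a.e. point is a Lebesgue point of `ρ`. -/
theorem leb_point {m : ℕ} (ρ : Measure (E m)) [IsFiniteMeasure ρ] :
    ∀ᵐ y ∂(volume : Measure (E m)), ∀ δ : ℝ, 0 < δ → ∃ r0 : ℝ, 0 < r0 ∧ ∀ r : ℝ, 0 < r → r ≤ r0 →
      devM ρ y (closedBall y r) ≤ ENNReal.ofReal (δ * r ^ m) := by
  have hfi : Integrable (acD ρ) (volume : Measure (E m)) := Measure.integrable_toReal_rnDeriv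
  filter_upwards [Besicovitch.ae_tendsto_rnDeriv (ρ.singularPart volume) (volume : Measure (E m)),
    Measure.rnDeriv_singularPart ρ (volume : Measure (E m)),
    (Besicovitch.vitaliFamily (volume : Measure (E m))).ae_tendsto_lintegral_enorm_sub_div
      hfi.locallyIntegrable] with y h1 h2 h3 δ hδ
  rw [h2] at h1
  have h3' := h3.comp (Besicovitch.tendsto_filterAt (volume : Measure (E m)) y)
  have h4 := h1.add h3'
  simp only [Pi.zero_apply, add_zero, Function.comp_def] at h4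
  set ω := (volume : Measure (E m)) (ball 0 1) with hω
  have hω0 : ω ≠ 0 := (measure_ball_pos _ _ one_pos).ne'
  have hωt : ω ≠ ∞ := measure_ball_lt_top.ne
  have hpos : (0 : ℝ≥0∞) < ENNReal.ofReal δ / ω :=
    ENNReal.div_pos (ENNReal.ofReal_pos.2 hδ).ne' hωt
  have h5 := h4.eventually (gt_mem_nhds hpos)
  obtain ⟨r1, hr1, h6⟩ := (nhdsGT_basis (0 : ℝ)).eventually_iff.1 h5
  refine ⟨r1 / 2, by positivity, fun r hr hr' => ?_⟩
  have h7 := h6 (show r ∈ Ioo 0 r1 from ⟨hr, by linarith⟩)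
  have hv : (volume : Measure (E m)) (closedBall y r) = ENNReal.ofReal (r ^ m) * ω :=
    bt_vol_closedBall y hr.le
  have hv0 : (volume : Measure (E m)) (closedBall y r) ≠ 0 := (measure_closedBall_pos _ _ hr).ne'
  have hvt : (volume : Measure (E m)) (closedBall y r) ≠ ∞ := measure_closedBall_lt_top.ne
  rw [← ENNReal.add_div] at h7
  have h8 : devM ρ y (closedBall y r)
      = ρ.singularPart volume (closedBall y r) + ∫⁻ z in closedBall y r, ‖acD ρ z - acD ρ y‖ₑ := by
    rw [devM_apply ρ y measurableSet_closedBall]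
    simp only [Real.enorm_eq_ofReal_abs]
  rw [← h8] at h7
  rw [ENNReal.div_lt_iff (Or.inl hv0) (Or.inl hvt)] at h7
  refine h7.le.trans (le_of_eq ?_)
  rw [hv, ENNReal.ofReal_mul hδ.le, mul_comm (ENNReal.ofReal (r ^ m)) ω, ← mul_assoc,
    ENNReal.div_mul_cancel hω0 hωt]

/-- polynomial growth of the deviation measure (it is not finite when `acD ρ y ≠ 0`):
`devM ρ y A ≤ ρ_s(A) + ∫_A f + f(y) vol(A) ≤ ρ(univ) + f(y) vol(A)`; `M = ρ(univ)/r0^m + f(y) vol(B_1)`. -/
theorem devM_growth {m : ℕ} (ρ : Measure (E m)) [IsFiniteMeasure ρ] (y : E m) (r0 : ℝ) (hr0 : 0 < r0) :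
    ∃ M : ℝ, ∀ r : ℝ, r0 ≤ r → devM ρ y (closedBall y r) ≤ ENNReal.ofReal (M * r ^ m) := by
  set ω := (volume : Measure (E m)) (ball 0 1) with hω
  have hωt : ω ≠ ∞ := measure_ball_lt_top.ne
  have hf0 : 0 ≤ acD ρ y := ENNReal.toReal_nonneg
  refine ⟨(ρ univ).toReal / r0 ^ m + acD ρ y * ω.toReal, fun r hr => ?_⟩
  have hr0' : 0 < r := lt_of_lt_of_le hr0 hr
  rw [devM_apply ρ y measurableSet_closedBall]
  have h1 : ∫⁻ z in closedBall y r, ENNReal.ofReal |acD ρ z - acD ρ y|
      ≤ (∫⁻ z in closedBall y r, ρ.rnDeriv volume z)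
        + ENNReal.ofReal (acD ρ y) * volume (closedBall y r) := by
    rw [← setLIntegral_const, ← lintegral_add_left (Measure.measurable_rnDeriv ρ volume)]
    refine lintegral_mono_ae ?_
    filter_upwards [ae_restrict_of_ae (ρ.rnDeriv_lt_top volume)] with z hz
    have h2 : |acD ρ z - acD ρ y| ≤ acD ρ z + acD ρ y := by
      have : 0 ≤ acD ρ z := ENNReal.toReal_nonneg
      rw [abs_le]
      constructor <;> linarith
    refine (ENNReal.ofReal_le_ofReal h2).trans ?_
    have hz0 : 0 ≤ acD ρ z := ENNReal.toReal_nonneg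
    rw [ENNReal.ofReal_add hz0 hf0]
    refine add_le_add_left (le_of_eq ?_) _
    unfold acD
    rw [ENNReal.ofReal_toReal hz.ne]
  have h3 : ρ.singularPart volume (closedBall y r) + ∫⁻ z in closedBall y r, ρ.rnDeriv volume z
      ≤ ρ univ := by
    rw [← withDensity_apply _ measurableSet_closedBall, ← Measure.add_apply,
      ← ρ.haveLebesgueDecomposition_add volume]
    exact measure_mono (subset_univ _)
  calc ρ.singularPart volume (closedBall y r)
        + ∫⁻ z in closedBall y r, ENNReal.ofReal |acD ρ z - acD ρ y|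
      ≤ ρ univ + ENNReal.ofReal (acD ρ y) * volume (closedBall y r) := by
        refine (add_le_add_right h1 _).trans ?_
        rw [← add_assoc]
        exact add_le_add_left h3 _
    _ ≤ ENNReal.ofReal (((ρ univ).toReal / r0 ^ m + acD ρ y * ω.toReal) * r ^ m) := by
        rw [bt_vol_closedBall y hr0'.le, add_mul,
          ENNReal.ofReal_add (by positivity) (by positivity)]
        refine add_le_add ?_ (le_of_eq ?_)
        · rw [← ENNReal.ofReal_toReal (measure_ne_top ρ univ)]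
          apply ENNReal.ofReal_le_ofReal
          rw [ENNReal.toReal_ofReal ENNReal.toReal_nonneg, div_mul_eq_mul_div,
            le_div_iff₀ (by positivity)]
          exact mul_le_mul_of_nonneg_left (pow_le_pow_left₀ hr0.le hr m) ENNReal.toReal_nonneg
        · rw [ENNReal.ofReal_mul (by positivity), ENNReal.ofReal_mul hf0,
            ENNReal.ofReal_toReal hωt]
          ring

end Claimed.Agent.R322.Sx
end

/- ===== packed: Claimed.Agent.R322.Sx.Bottom.DiffB ===== -/
section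
/-!
# R322 / Sx / Bottom / DiffB   (blueprint: helper121)   LEAVES `L-Bot-GaussBasic`, `L-Bot-GavSmall`

Elementary facts on the Gaussian kernel `gauss m s` and the approximate-identity bound.

`bt_gauss_integral`: `GaussianFourier.integral_rexp_neg_mul_sq_norm` with `b = 1/(2 s²)`
(`∫ exp(-b|v|²) = (π/b)^{m/2}`), translation invariance `integral_sub_right_eq_self`.

`gav_small`.  Let `λ(closedBall y r) ≤ δ r^m` for `0 < r ≤ r0`, `≤ M r^m` for `r ≥ r0`, `|x - y| ≤ C σ`.
(`λ` is NOT finite in the application.)  Prove the bound for `∫⁻ ofReal (gauss ..) dλ` and convert with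
`integral_eq_lintegral_of_nonneg_ae`.
(a) displacement: `|z - x|² ≥ |z - y|²/2 - |x - y|²`, so
    `gauss m σ (z - x) ≤ (2π)^{-m/2} e^{C²/2} σ^{-m} exp(-|z - y|²/(4σ²))`.
(b) `exp(-t²/4) ≤ Σ_k exp(-k²/4) 1_{t ≤ k+1}` (`k = ⌊t⌋₊` alone is enough), so
    `∫ σ^{-m} exp(-|z-y|²/(4σ²)) dλ ≤ Σ_k exp(-k²/4) σ^{-m} λ(closedBall y ((k+1)σ))`  (`lintegral_tsum`).
(c) `σ^{-m} λ(closedBall y ((k+1)σ)) ≤ (k+1)^m δ` if `(k+1)σ ≤ r0`, and `≤ (k+1)^m M ≤ (k+1)^{m+1} M σ / r0` otherwise.
(d) `A = Σ_k (k+1)^{m+1} exp(-k²/4) < ∞` (`Real.summable_pow_mul_exp_neg_nat_mul`); `σ0 = δ r0 / (M⁺ + 1)`,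
    `K = 2 (2π)^{-m/2} e^{C²/2} A`.
-/

set_option autoImplicit false

namespace Claimed.Agent.R322.Sx

open MeasureTheory Set Metric
open scoped ENNReal NNReal

theorem bt_norm_nonneg (m : ℕ) (s : ℝ) : 0 ≤ (2 * Real.pi * s ^ 2) ^ (-(m : ℝ) / 2) := by
  have hpi := Real.pi_pos
  positivity

/-- `(2π s²)^{-m/2} = (2π)^{-m/2} / s^m`. -/
theorem bt_norm_eq (m : ℕ) {s : ℝ} (hs : 0 < s) :
    (2 * Real.pi * s ^ 2) ^ (-(m : ℝ) / 2) = (2 * Real.pi) ^ (-(m : ℝ) / 2) / s ^ m := by
  have hpi := Real.pi_pos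
  rw [Real.mul_rpow (by positivity) (by positivity), div_eq_mul_inv]
  congr 1
  rw [← Real.rpow_natCast s 2, ← Real.rpow_mul hs.le, ← Real.rpow_natCast s m,
    ← Real.rpow_neg hs.le]
  congr 1
  push_cast
  ring

theorem bt_gauss_nonneg (m : ℕ) (s : ℝ) (z : E m) : 0 ≤ gauss m s z := by
  unfold gauss
  exact mul_nonneg (bt_norm_nonneg m s) (Real.exp_pos _).le

theorem bt_gauss_continuous (m : ℕ) (s : ℝ) : Continuous (gauss m s) := by
  unfold gauss
  fun_prop

/-- `G_s ≤ (2π s²)^{-m/2}`. -/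
theorem bt_gauss_le (m : ℕ) (s : ℝ) (z : E m) :
    gauss m s z ≤ (2 * Real.pi * s ^ 2) ^ (-(m : ℝ) / 2) := by
  unfold gauss
  have h1 : Real.exp (-‖z‖ ^ 2 / (2 * s ^ 2)) ≤ 1 := by
    rw [Real.exp_le_one_iff, neg_div]
    have : 0 ≤ ‖z‖ ^ 2 / (2 * s ^ 2) := by positivity
    linarith
  calc _ ≤ (2 * Real.pi * s ^ 2) ^ (-(m : ℝ) / 2) * 1 :=
        mul_le_mul_of_nonneg_left h1 (bt_norm_nonneg m s)
    _ = _ := mul_one _

/-- the kernel is integrable against every finite measure. -/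
theorem bt_gauss_integrable_fin {m : ℕ} (ρ : Measure (E m)) [IsFiniteMeasure ρ] (s : ℝ) (x : E m) :
    Integrable (fun y => gauss m s (y - x)) ρ := by
  refine Integrable.of_bound
    ((bt_gauss_continuous m s).comp (continuous_id.sub continuous_const)).aestronglyMeasurable
    ((2 * Real.pi * s ^ 2) ^ (-(m : ℝ) / 2)) (Filter.Eventually.of_forall fun y => ?_)
  rw [Real.norm_of_nonneg (bt_gauss_nonneg m s _)]
  exact bt_gauss_le m s _

theorem bt_gauss_integral0 (m : ℕ) {s : ℝ} (hs : 0 < s) : ∫ y, gauss m s y = 1 := by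
  have hpi := Real.pi_pos
  have hb : (0 : ℝ) < 1 / (2 * s ^ 2) := by positivity
  have h := GaussianFourier.integral_rexp_neg_mul_sq_norm (V := E m) hb
  have h1 : ∀ y : E m, gauss m s y
      = (2 * Real.pi * s ^ 2) ^ (-(m : ℝ) / 2) * Real.exp (-(1 / (2 * s ^ 2)) * ‖y‖ ^ 2) := by
    intro y
    unfold gauss
    congr 2
    field_simp
  simp_rw [h1]
  rw [integral_const_mul, h, finrank_euclideanSpace_fin]
  have h2 : Real.pi / (1 / (2 * s ^ 2)) = 2 * Real.pi * s ^ 2 := by
    field_simp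
  rw [h2, ← Real.rpow_add (by positivity)]
  have : -(m : ℝ) / 2 + (m : ℝ) / 2 = 0 := by ring
  rw [this, Real.rpow_zero]

theorem bt_gauss_integrable_vol (m : ℕ) {s : ℝ} (hs : 0 < s) (x : E m) :
    Integrable (fun y => gauss m s (y - x)) (volume : Measure (E m)) := by
  have h0 : Integrable (gauss m s) (volume : Measure (E m)) := by
    by_contra hcon
    have := integral_undef hcon
    rw [bt_gauss_integral0 m hs] at this
    exact one_ne_zero this
  exact h0.comp_sub_right x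

/-- `∫ G_s = 1`. -/
theorem bt_gauss_integral (m : ℕ) {s : ℝ} (hs : 0 < s) (x : E m) :
    ∫ y, gauss m s (y - x) = 1 := by
  rw [integral_sub_right_eq_self (gauss m s) x]
  exact bt_gauss_integral0 m hs

/-- lower bound of the kernel on the ball of radius `s`. -/
theorem bt_gauss_ge_of_mem_ball (m : ℕ) {s : ℝ} (hs : 0 < s) {z : E m} (hz : ‖z‖ ≤ s) :
    (2 * Real.pi) ^ (-(m : ℝ) / 2) * Real.exp (-1 / 2) / s ^ m ≤ gauss m s z := by
  unfold gauss
  rw [bt_norm_eq m hs]
  have hpi := Real.pi_pos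
  have h1 : Real.exp (-1 / 2) ≤ Real.exp (-‖z‖ ^ 2 / (2 * s ^ 2)) := by
    apply Real.exp_le_exp.2
    rw [neg_div, neg_div, neg_le_neg_iff, div_le_div_iff₀ (by positivity) (by positivity)]
    have := norm_nonneg z
    nlinarith
  have h2 : 0 ≤ (2 * Real.pi) ^ (-(m : ℝ) / 2) / s ^ m := by positivity
  calc (2 * Real.pi) ^ (-(m : ℝ) / 2) * Real.exp (-1 / 2) / s ^ m
      = (2 * Real.pi) ^ (-(m : ℝ) / 2) / s ^ m * Real.exp (-1 / 2) := by ring
    _ ≤ _ := mul_le_mul_of_nonneg_left h1 h2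

theorem bt_gav_nonneg {m : ℕ} (ρ : Measure (E m)) (s : ℝ) (x : E m) : 0 ≤ gav ρ s x :=
  integral_nonneg fun _ => bt_gauss_nonneg m s _

/-- the weights of the discretised Gaussian. -/
noncomputable def btW (m : ℕ) (k : ℕ) : ℝ := ((k : ℝ) + 1) ^ (m + 1) * Real.exp (-(k : ℝ) ^ 2 / 4)

theorem btW_nonneg (m k : ℕ) : 0 ≤ btW m k := by
  unfold btW
  positivity

theorem btW_summable (m : ℕ) : Summable (btW m) := by
  have h1 : Summable fun n : ℕ => (n : ℝ) ^ (m + 1) * Real.exp (-(1 / 4 : ℝ) * n) :=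
    Real.summable_pow_mul_exp_neg_nat_mul (m + 1) (by norm_num)
  have h2 := ((summable_nat_add_iff 1).2 h1).mul_left (Real.exp (5 / 16))
  refine Summable.of_nonneg_of_le (btW_nonneg m) (fun k => ?_) h2
  unfold btW
  have h3 : Real.exp (-(k : ℝ) ^ 2 / 4)
      ≤ Real.exp (5 / 16) * Real.exp (-(1 / 4 : ℝ) * ((k + 1 : ℕ) : ℝ)) := by
    rw [← Real.exp_add]
    apply Real.exp_le_exp.2
    push_cast
    nlinarith [sq_nonneg ((k : ℝ) - 1 / 2)]
  have h4 : (0 : ℝ) ≤ ((k : ℝ) + 1) ^ (m + 1) := by positivity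
  calc ((k : ℝ) + 1) ^ (m + 1) * Real.exp (-(k : ℝ) ^ 2 / 4)
      ≤ ((k : ℝ) + 1) ^ (m + 1)
          * (Real.exp (5 / 16) * Real.exp (-(1 / 4 : ℝ) * ((k + 1 : ℕ) : ℝ))) :=
        mul_le_mul_of_nonneg_left h3 h4
    _ = Real.exp (5 / 16) * (((k + 1 : ℕ) : ℝ) ^ (m + 1)
          * Real.exp (-(1 / 4 : ℝ) * ((k + 1 : ℕ) : ℝ))) := by
        push_cast
        ring

theorem btW_tsum_pos (m : ℕ) : 0 < ∑' k, btW m k := by
  have h := (btW_summable m).le_tsum 0 fun k _ => btW_nonneg m k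
  have h0 : btW m 0 = 1 := by simp [btW]
  linarith

/-- pointwise bound of the displaced kernel by one term of the discretisation. -/
theorem bt_gauss_disp (m : ℕ) (C : ℝ) {σ : ℝ} (hσ : 0 < σ) {x y : E m} (hx : ‖x - y‖ ≤ C * σ)
    (z : E m) (k : ℕ) (hk : (k : ℝ) * σ ≤ ‖z - y‖) :
    gauss m σ (z - x)
      ≤ (2 * Real.pi) ^ (-(m : ℝ) / 2) * Real.exp (C ^ 2 / 2) / σ ^ m
        * Real.exp (-(k : ℝ) ^ 2 / 4) := by
  unfold gauss
  rw [bt_norm_eq m hσ]
  have hpi := Real.pi_pos
  have h1 : ‖z - y‖ ≤ ‖z - x‖ + ‖x - y‖ := by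
    have := norm_add_le (z - x) (x - y)
    simpa using this
  have h2 : ‖x - y‖ ^ 2 ≤ C ^ 2 * σ ^ 2 := by
    have := norm_nonneg (x - y)
    nlinarith
  have h3 : ((k : ℝ) * σ) ^ 2 ≤ ‖z - y‖ ^ 2 := by
    have : 0 ≤ (k : ℝ) * σ := by positivity
    nlinarith
  have h4 : ‖z - y‖ ^ 2 ≤ 2 * ‖z - x‖ ^ 2 + 2 * ‖x - y‖ ^ 2 := by
    have := norm_nonneg (z - y)
    nlinarith [sq_nonneg (‖z - x‖ - ‖x - y‖)]
  have h5 : Real.exp (-‖z - x‖ ^ 2 / (2 * σ ^ 2))
      ≤ Real.exp (C ^ 2 / 2) * Real.exp (-(k : ℝ) ^ 2 / 4) := by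
    rw [← Real.exp_add]
    apply Real.exp_le_exp.2
    rw [div_le_iff₀ (by positivity)]
    have h6 : (C ^ 2 / 2 + -(k : ℝ) ^ 2 / 4) * (2 * σ ^ 2)
        = C ^ 2 * σ ^ 2 - ((k : ℝ) * σ) ^ 2 / 2 := by ring
    rw [h6]
    linarith
  have h7 : 0 ≤ (2 * Real.pi) ^ (-(m : ℝ) / 2) / σ ^ m := by positivity
  calc (2 * Real.pi) ^ (-(m : ℝ) / 2) / σ ^ m * Real.exp (-‖z - x‖ ^ 2 / (2 * σ ^ 2))
      ≤ (2 * Real.pi) ^ (-(m : ℝ) / 2) / σ ^ m
          * (Real.exp (C ^ 2 / 2) * Real.exp (-(k : ℝ) ^ 2 / 4)) :=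
        mul_le_mul_of_nonneg_left h5 h7
    _ = _ := by ring

/-- approximate identity bound with uniformly displaced centres. -/
theorem gav_small (m : ℕ) (C : ℝ) : ∃ K : ℝ, 0 < K ∧
    ∀ (lam : Measure (E m)) (y : E m) (δ r0 M : ℝ), 0 < δ → 0 < r0 →
      (∀ r : ℝ, 0 < r → r ≤ r0 → lam (closedBall y r) ≤ ENNReal.ofReal (δ * r ^ m)) →
      (∀ r : ℝ, r0 ≤ r → lam (closedBall y r) ≤ ENNReal.ofReal (M * r ^ m)) →
      ∃ σ0 : ℝ, 0 < σ0 ∧ ∀ σ : ℝ, 0 < σ → σ < σ0 → ∀ x : E m, ‖x - y‖ ≤ C * σ →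
        gav lam σ x ≤ K * δ := by
  have hpi := Real.pi_pos
  set c0 : ℝ := (2 * Real.pi) ^ (-(m : ℝ) / 2) * Real.exp (C ^ 2 / 2) with hc0
  have hc0pos : 0 < c0 := by positivity
  set A : ℝ := ∑' k, btW m k with hA
  have hApos : 0 < A := btW_tsum_pos m
  refine ⟨2 * c0 * A, by positivity, ?_⟩
  intro lam y δ r0 M hδ hr0 hsmall hbig
  set M' : ℝ := max M 0 with hM'
  have hM'0 : 0 ≤ M' := le_max_right _ _
  refine ⟨δ * r0 / (M' + 1), by positivity, ?_⟩
  intro σ hσ hσ0 x hx
  have hσM : M' * σ / r0 ≤ δ := by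
    rw [lt_div_iff₀ (by positivity)] at hσ0
    rw [div_le_iff₀ hr0]
    nlinarith
  -- pointwise bound
  have hpt : ∀ z : E m, ENNReal.ofReal (gauss m σ (z - x))
      ≤ ∑' k : ℕ, ENNReal.ofReal (c0 / σ ^ m * Real.exp (-(k : ℝ) ^ 2 / 4))
          * (closedBall y (((k : ℝ) + 1) * σ)).indicator (fun _ => (1 : ℝ≥0∞)) z := by
    intro z
    set t : ℝ := ‖z - y‖ / σ with ht
    have ht0 : 0 ≤ t := by positivity
    set k : ℕ := ⌊t⌋₊ with hk
    have hk1 : (k : ℝ) ≤ t := Nat.floor_le ht0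
    have hk2 : t < (k : ℝ) + 1 := Nat.lt_floor_add_one t
    have htσ : t * σ = ‖z - y‖ := by
      rw [ht]; field_simp
    have hk1' : (k : ℝ) * σ ≤ ‖z - y‖ := by
      rw [← htσ]; exact mul_le_mul_of_nonneg_right hk1 hσ.le
    have hmem : z ∈ closedBall y (((k : ℝ) + 1) * σ) := by
      rw [mem_closedBall, dist_eq_norm, ← htσ]
      exact mul_le_mul_of_nonneg_right hk2.le hσ.le
    refine le_trans ?_ (ENNReal.le_tsum k)
    rw [indicator_of_mem hmem, mul_one]
    exact ENNReal.ofReal_le_ofReal (bt_gauss_disp m C hσ hx z k hk1')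
  -- each term
  have hterm : ∀ k : ℕ, ENNReal.ofReal (c0 / σ ^ m * Real.exp (-(k : ℝ) ^ 2 / 4))
      * lam (closedBall y (((k : ℝ) + 1) * σ)) ≤ ENNReal.ofReal (c0 * (2 * δ) * btW m k) := by
    intro k
    have hk0 : (0 : ℝ) < (k : ℝ) + 1 := by positivity
    have hk1 : (1 : ℝ) ≤ (k : ℝ) + 1 := by
      have : (0 : ℝ) ≤ k := Nat.cast_nonneg k
      linarith
    have hr : 0 < ((k : ℝ) + 1) * σ := by positivity
    have hcoef : 0 ≤ c0 / σ ^ m * Real.exp (-(k : ℝ) ^ 2 / 4) := by positivity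
    have hpow : ((k : ℝ) + 1) ^ m ≤ ((k : ℝ) + 1) ^ (m + 1) :=
      pow_le_pow_right₀ hk1 (Nat.le_succ m)
    have hE : 0 < Real.exp (-(k : ℝ) ^ 2 / 4) := Real.exp_pos _
    have hkey : ∀ b : ℝ, 0 ≤ b → lam (closedBall y (((k : ℝ) + 1) * σ))
        ≤ ENNReal.ofReal (b * (((k : ℝ) + 1) * σ) ^ m) → b * ((k : ℝ) + 1) ^ m
          ≤ 2 * δ * ((k : ℝ) + 1) ^ (m + 1) →
        ENNReal.ofReal (c0 / σ ^ m * Real.exp (-(k : ℝ) ^ 2 / 4))
          * lam (closedBall y (((k : ℝ) + 1) * σ)) ≤ ENNReal.ofReal (c0 * (2 * δ) * btW m k) := by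
      intro b hb h1 h2
      refine (mul_le_mul_right h1 _).trans ?_
      rw [← ENNReal.ofReal_mul hcoef]
      apply ENNReal.ofReal_le_ofReal
      unfold btW
      have e1 : c0 / σ ^ m * Real.exp (-(k : ℝ) ^ 2 / 4) * (b * (((k : ℝ) + 1) * σ) ^ m)
          = c0 * Real.exp (-(k : ℝ) ^ 2 / 4) * (b * ((k : ℝ) + 1) ^ m) := by
        rw [mul_pow]
        field_simp
      rw [e1]
      have e2 : c0 * (2 * δ) * (((k : ℝ) + 1) ^ (m + 1) * Real.exp (-(k : ℝ) ^ 2 / 4))
          = c0 * Real.exp (-(k : ℝ) ^ 2 / 4) * (2 * δ * ((k : ℝ) + 1) ^ (m + 1)) := by ring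
      rw [e2]
      exact mul_le_mul_of_nonneg_left h2 (by positivity)
    by_cases hcase : ((k : ℝ) + 1) * σ ≤ r0
    · refine hkey δ hδ.le (hsmall _ hr hcase) ?_
      have : δ * ((k : ℝ) + 1) ^ m ≤ δ * ((k : ℝ) + 1) ^ (m + 1) :=
        mul_le_mul_of_nonneg_left hpow hδ.le
      have : 0 ≤ δ * ((k : ℝ) + 1) ^ (m + 1) := by positivity
      linarith
    · rw [not_le] at hcase
      refine hkey M' hM'0 ((hbig _ hcase.le).trans (ENNReal.ofReal_le_ofReal ?_)) ?_
      · exact mul_le_mul_of_nonneg_right (le_max_left _ _) (by positivity)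
      · have h1 : M' ≤ δ * ((k : ℝ) + 1) := by
          have h2 : M' * r0 ≤ M' * (((k : ℝ) + 1) * σ) :=
            mul_le_mul_of_nonneg_left hcase.le hM'0
          have h3 : M' * σ ≤ δ * r0 := by
            rwa [div_le_iff₀ hr0] at hσM
          have h4 : M' * r0 ≤ δ * ((k : ℝ) + 1) * r0 := by nlinarith
          exact le_of_mul_le_mul_right h4 hr0
        have h5 : M' * ((k : ℝ) + 1) ^ m ≤ δ * ((k : ℝ) + 1) * ((k : ℝ) + 1) ^ m :=
          mul_le_mul_of_nonneg_right h1 (by positivity)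
        have h6 : δ * ((k : ℝ) + 1) * ((k : ℝ) + 1) ^ m = δ * ((k : ℝ) + 1) ^ (m + 1) := by ring
        have : 0 ≤ δ * ((k : ℝ) + 1) ^ (m + 1) := by positivity
        linarith
  -- integrate
  have hlint : ∫⁻ z, ENNReal.ofReal (gauss m σ (z - x)) ∂lam ≤ ENNReal.ofReal (2 * c0 * A * δ) := by
    calc ∫⁻ z, ENNReal.ofReal (gauss m σ (z - x)) ∂lam
        ≤ ∫⁻ z, ∑' k : ℕ, ENNReal.ofReal (c0 / σ ^ m * Real.exp (-(k : ℝ) ^ 2 / 4))
          * (closedBall y (((k : ℝ) + 1) * σ)).indicator (fun _ => (1 : ℝ≥0∞)) z ∂lam :=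
          lintegral_mono hpt
      _ = ∑' k : ℕ, ENNReal.ofReal (c0 / σ ^ m * Real.exp (-(k : ℝ) ^ 2 / 4))
          * lam (closedBall y (((k : ℝ) + 1) * σ)) := by
          rw [lintegral_tsum]
          · congr 1
            funext k
            rw [lintegral_const_mul _ (measurable_const.indicator measurableSet_closedBall),
              lintegral_indicator measurableSet_closedBall, setLIntegral_const, one_mul]
          · intro k
            exact ((measurable_const.indicator measurableSet_closedBall).const_mul _).aemeasurable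
      _ ≤ ∑' k : ℕ, ENNReal.ofReal (c0 * (2 * δ) * btW m k) := ENNReal.tsum_le_tsum hterm
      _ = ENNReal.ofReal (∑' k : ℕ, c0 * (2 * δ) * btW m k) := by
          rw [ENNReal.ofReal_tsum_of_nonneg]
          · intro k
            have := btW_nonneg m k
            positivity
          · exact (btW_summable m).mul_left _
      _ = ENNReal.ofReal (2 * c0 * A * δ) := by
          rw [tsum_mul_left]
          congr 1
          ring
  unfold gav
  have hcont : Continuous fun z : E m => gauss m σ (z - x) :=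
    (bt_gauss_continuous m σ).comp (continuous_id.sub continuous_const)
  rw [integral_eq_lintegral_of_nonneg_ae (Filter.Eventually.of_forall fun z => bt_gauss_nonneg m σ _)
    hcont.aestronglyMeasurable]
  exact ENNReal.toReal_le_of_le_ofReal (by positivity) hlint

end Claimed.Agent.R322.Sx
end

/- ===== packed: Claimed.Agent.R322.Sx.Bottom.Diff ===== -/
section
/-!
# R322 / Sx / Bottom / Diff   (blueprint: helper121)

Lebesgue differentiation for Gaussian averages of a finite measure, with uniformly displaced centres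
(AE, proof of Lemma 5.1: "Lebesgue differentiation with uniformly bounded displacement").
-/

set_option autoImplicit false

namespace Claimed.Agent.R322.Sx

open MeasureTheory Set Metric
open scoped ENNReal NNReal

theorem acD_measurable {m : ℕ} (ρ : Measure (E m)) : Measurable (acD ρ) :=
  (Measure.measurable_rnDeriv ρ volume).ennreal_toReal

theorem acD_nonneg {m : ℕ} (ρ : Measure (E m)) (y : E m) : 0 ≤ acD ρ y := ENNReal.toReal_nonneg

theorem acD_integrable {m : ℕ} (ρ : Measure (E m)) [IsFiniteMeasure ρ] :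
    Integrable (acD ρ) (volume : Measure (E m)) :=
  Measure.integrable_toReal_rnDeriv

/-- `|ρ_σ(x) - f(y)| ≤ (devM ρ y)_σ(x)`. -/
theorem gav_sub_le {m : ℕ} (ρ : Measure (E m)) [IsFiniteMeasure ρ] (y x : E m) {σ : ℝ} (hσ : 0 < σ) :
    |gav ρ σ x - acD ρ y| ≤ gav (devM ρ y) σ x := by
  set G : E m → ℝ := fun z => gauss m σ (z - x) with hG
  have hGcont : Continuous G := (bt_gauss_continuous m σ).comp (continuous_id.sub continuous_const)
  have hG0 : ∀ z, 0 ≤ G z := fun z => bt_gauss_nonneg m σ _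
  have hGle : ∀ z, G z ≤ (2 * Real.pi * σ ^ 2) ^ (-(m : ℝ) / 2) := fun z => bt_gauss_le m σ _
  have hGvol : Integrable G (volume : Measure (E m)) := bt_gauss_integrable_vol m hσ x
  have hGint : ∫ z, G z = 1 := bt_gauss_integral m hσ x
  set f := acD ρ with hf
  have hfm : Measurable f := acD_measurable ρ
  have hfi : Integrable f (volume : Measure (E m)) := acD_integrable ρ
  -- products
  have hfG : Integrable (fun z => f z * G z) (volume : Measure (E m)) :=
    hfi.mul_bdd (c := (2 * Real.pi * σ ^ 2) ^ (-(m : ℝ) / 2)) hGcont.aestronglyMeasurable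
      (Filter.Eventually.of_forall fun z => by
        rw [Real.norm_of_nonneg (hG0 z)]; exact hGle z)
  have hcG : Integrable (fun z => f y * G z) (volume : Measure (E m)) := hGvol.const_mul _
  have hdG : Integrable (fun z => (f z - f y) * G z) (volume : Measure (E m)) := by
    have := hfG.sub hcG
    refine this.congr (Filter.Eventually.of_forall fun z => ?_)
    simp only [Pi.sub_apply]
    ring
  have haG : Integrable (fun z => |f z - f y| * G z) (volume : Measure (E m)) := by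
    refine hdG.abs.congr (Filter.Eventually.of_forall fun z => ?_)
    simp only [abs_mul, abs_of_nonneg (hG0 z)]
  -- the singular part
  set ρs := ρ.singularPart volume with hρs
  have hGs : Integrable G ρs := bt_gauss_integrable_fin ρs σ x
  -- decomposition of `gav ρ`
  have h1 : gav ρ σ x = (∫ z, G z ∂ρs) + ∫ z, f z * G z := by
    have hdec := ρ.haveLebesgueDecomposition_add volume
    have hGa : Integrable G (volume.withDensity (ρ.rnDeriv volume)) :=
      bt_gauss_integrable_fin _ σ x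
    unfold gav
    conv_lhs => rw [hdec]
    rw [integral_add_measure hGs hGa,
      integral_withDensity_eq_integral_toReal_smul (Measure.measurable_rnDeriv ρ volume)
        (ρ.rnDeriv_lt_top volume)]
    rfl
  -- decomposition of `gav (devM ρ y)`
  have hdm : Measurable fun z => ENNReal.ofReal |f z - f y| :=
    ((hfm.sub_const _).abs).ennreal_ofReal
  have hdlt : ∀ᵐ z ∂(volume : Measure (E m)), ENNReal.ofReal |f z - f y| < ∞ :=
    Filter.Eventually.of_forall fun z => ENNReal.ofReal_lt_top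
  have hGd : Integrable G (volume.withDensity fun z => ENNReal.ofReal |f z - f y|) := by
    rw [integrable_withDensity_iff_integrable_smul' hdm hdlt]
    refine haG.congr (Filter.Eventually.of_forall fun z => ?_)
    simp only [smul_eq_mul, ENNReal.toReal_ofReal (abs_nonneg _)]
  have h2 : gav (devM ρ y) σ x = (∫ z, G z ∂ρs) + ∫ z, |f z - f y| * G z := by
    unfold gav devM
    rw [integral_add_measure hGs hGd, integral_withDensity_eq_integral_toReal_smul hdm hdlt]
    congr 1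
    refine integral_congr_ae (Filter.Eventually.of_forall fun z => ?_)
    simp only [smul_eq_mul, ENNReal.toReal_ofReal (abs_nonneg _)]
  have h3 : f y = ∫ z, f y * G z := by
    rw [integral_const_mul, hGint, mul_one]
  have h4 : gav ρ σ x - f y = (∫ z, G z ∂ρs) + ∫ z, (f z - f y) * G z := by
    have : ∫ z, (f z - f y) * G z = (∫ z, f z * G z) - ∫ z, f y * G z := by
      rw [← integral_sub hfG hcG]
      refine integral_congr_ae (Filter.Eventually.of_forall fun z => ?_)
      simp only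
      ring
    rw [this, ← h3, h1]
    ring
  rw [h4, h2]
  have h5 : 0 ≤ ∫ z, G z ∂ρs := integral_nonneg hG0
  have h6 : |∫ z, (f z - f y) * G z| ≤ ∫ z, |f z - f y| * G z := by
    refine (abs_integral_le_integral_abs).trans (le_of_eq ?_)
    refine integral_congr_ae (Filter.Eventually.of_forall fun z => ?_)
    simp only [abs_mul, abs_of_nonneg (hG0 z)]
  calc |(∫ z, G z ∂ρs) + ∫ z, (f z - f y) * G z|
      ≤ |∫ z, G z ∂ρs| + |∫ z, (f z - f y) * G z| := abs_add_le _ _
    _ ≤ _ := by rw [abs_of_nonneg h5]; linarith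

/-- **Lebesgue differentiation with uniformly displaced centres.** -/
theorem gav_diff {m : ℕ} (ρ : Measure (E m)) [IsFiniteMeasure ρ] (C : ℝ) :
    ∀ᵐ y ∂(volume : Measure (E m)), ∀ ε : ℝ, 0 < ε → ∃ σ0 : ℝ, 0 < σ0 ∧ ∀ σ : ℝ, 0 < σ → σ < σ0 →
      ∀ x : E m, ‖x - y‖ ≤ C * σ → |gav ρ σ x - acD ρ y| ≤ ε := by
  obtain ⟨K, hK, hsmall⟩ := gav_small m C
  filter_upwards [leb_point ρ] with y hy ε hε
  obtain ⟨r0, hr0, hr⟩ := hy (ε / K) (div_pos hε hK)
  obtain ⟨M, hM⟩ := devM_growth ρ y r0 hr0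
  obtain ⟨σ0, hσ0, h⟩ := hsmall (devM ρ y) y (ε / K) r0 M (div_pos hε hK) hr0 hr hM
  refine ⟨σ0, hσ0, fun σ hσ hσ' x hx => ?_⟩
  have h1 := h σ hσ hσ' x hx
  have h2 : K * (ε / K) = ε := by field_simp
  rw [h2] at h1
  exact (gav_sub_le ρ y x hσ).trans h1

end Claimed.Agent.R322.Sx
end

/- ===== packed: Claimed.Agent.R322.Sx.Bottom.Cover ===== -/
section
/-!
# R322 / Sx / Bottom / Cover   (blueprint: helper121)   LEAF `L-Bot-Cover`

The covering step of AE Lemma 5.1, with balls and Tonelli instead of grid cubes.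

Let `gav h σ x ≤ F x` for all `x ∈ 𝒞` (`𝒞` an arbitrary set, `h` a finite measure).  Then
`h 𝒞 ≤ K ∫⁻ y, ⨆ x ∈ 𝒞 ∩ ball y σ, ofReal (F x)`, with `K = K(m)`.

Proof.  `c = (2π)^{-m/2} e^{-1/2}`, `r = σ/4`, `U = ⋃_{x ∈ 𝒞} ball x r` (open, contains `𝒞`),
`g y = ⨆ x ∈ 𝒞 ∩ ball y σ, ofReal (F x)`.
(1) for `x ∈ 𝒞`: `c σ^{-m} (h (ball x σ)).toReal ≤ gav h σ x ≤ F x`
    (`bt_gauss_ge_of_mem_ball`, `bt_gauss_nonneg`, `bt_gauss_integrable_fin`, `setIntegral_mono…`), i.e.
    `h (ball x σ) ≤ ofReal (σ^m / c) * ofReal (F x)`.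
(2) for every `y`: `h (ball y r ∩ U) ≤ ofReal (σ^m / c) * g y`.  If the intersection is empty this is trivial;
    otherwise there are `z ∈ ball y r` and `x ∈ 𝒞` with `z ∈ ball x r`, so `dist x y < σ/2`,
    `ball y r ⊆ ball x σ`, `x ∈ 𝒞 ∩ ball y σ`; use (1) and `le_iSup₂`.
(3) Tonelli (`lintegral_lintegral_swap`; the set `{(y, z) | z ∈ ball y r ∩ U}` is open):
    `∫⁻ y, h (ball y r ∩ U) = ∫⁻ z in U, vol (ball z r) ∂h = vol (ball 0 r) * h U`.
(4) `vol (ball 0 r) = ofReal (r^m) * vol (ball 0 1)` (`Measure.addHaar_ball`), `0 < vol (ball 0 1) < ∞`.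
    `lintegral_mono` does not need measurability of `g`.  `K = 4^m / (c vol(ball 0 1))`.
-/

set_option autoImplicit false

namespace Claimed.Agent.R322.Sx

open MeasureTheory Set Metric
open scoped ENNReal NNReal

/-- mass of a ball of radius `σ` in terms of the Gaussian average at scale `σ`. -/
theorem cv_ball_le {m : ℕ} (h : Measure (E m)) [IsFiniteMeasure h] {σ : ℝ} (hσ : 0 < σ) (x : E m) :
    (2 * Real.pi) ^ (-(m : ℝ) / 2) * Real.exp (-1 / 2) / σ ^ m * (h (ball x σ)).toReal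
      ≤ gav h σ x := by
  set c : ℝ := (2 * Real.pi) ^ (-(m : ℝ) / 2) * Real.exp (-1 / 2) / σ ^ m with hc
  have hint := bt_gauss_integrable_fin h σ x
  calc c * (h (ball x σ)).toReal = ∫ _z in ball x σ, c ∂h := by
        rw [setIntegral_const, smul_eq_mul, mul_comm]
        rfl
    _ ≤ ∫ z in ball x σ, gauss m σ (z - x) ∂h := by
        refine setIntegral_mono_on (integrableOn_const (by finiteness)) hint.integrableOn
          measurableSet_ball fun z hz => ?_
        apply bt_gauss_ge_of_mem_ball m hσ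
        rw [mem_ball, dist_eq_norm] at hz
        exact hz.le
    _ ≤ ∫ z, gauss m σ (z - x) ∂h :=
        setIntegral_le_integral hint (Filter.Eventually.of_forall fun z => bt_gauss_nonneg m σ _)

/-- Tonelli for balls. -/
theorem cv_tonelli {m : ℕ} (h : Measure (E m)) [IsFiniteMeasure h] {r : ℝ} (hr : 0 < r)
    {U : Set (E m)} (hU : IsOpen U) :
    ∫⁻ y, h (ball y r ∩ U)
      = ENNReal.ofReal (r ^ m) * (volume : Measure (E m)) (ball 0 1) * h U := by
  set T : Set (E m × E m) := {p | dist p.2 p.1 < r ∧ p.2 ∈ U} with hT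
  have hTo : IsOpen T :=
    (isOpen_lt (continuous_snd.dist continuous_fst) continuous_const).inter
      (hU.preimage continuous_snd)
  have h1 : ∀ y : E m, h (ball y r ∩ U) = ∫⁻ z, T.indicator (fun _ => (1 : ℝ≥0∞)) (y, z) ∂h := by
    intro y
    have : (fun z => T.indicator (fun _ => (1 : ℝ≥0∞)) (y, z))
        = (ball y r ∩ U).indicator (fun _ => (1 : ℝ≥0∞)) := by
      funext z
      by_cases hz : z ∈ ball y r ∩ U
      · have : (y, z) ∈ T := hz
        rw [indicator_of_mem hz, indicator_of_mem this]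
      · have : (y, z) ∉ T := hz
        rw [indicator_of_notMem hz, indicator_of_notMem this]
    rw [this, lintegral_indicator (measurableSet_ball.inter hU.measurableSet), setLIntegral_const,
      one_mul]
  have h2 : ∀ z : E m, ∫⁻ y, T.indicator (fun _ => (1 : ℝ≥0∞)) (y, z)
      = U.indicator (fun _ => ENNReal.ofReal (r ^ m) * (volume : Measure (E m)) (ball 0 1)) z := by
    intro z
    by_cases hz : z ∈ U
    · have : (fun y => T.indicator (fun _ => (1 : ℝ≥0∞)) (y, z))
          = (ball z r).indicator (fun _ => (1 : ℝ≥0∞)) := by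
        funext y
        by_cases hy : y ∈ ball z r
        · have : (y, z) ∈ T := ⟨by rw [mem_ball, dist_comm] at hy; exact hy, hz⟩
          rw [indicator_of_mem hy, indicator_of_mem this]
        · have : (y, z) ∉ T := fun hh => hy (by rw [mem_ball, dist_comm]; exact hh.1)
          rw [indicator_of_notMem hy, indicator_of_notMem this]
      rw [this, lintegral_indicator measurableSet_ball, setLIntegral_const, one_mul,
        indicator_of_mem hz, Measure.addHaar_ball_of_pos _ _ hr, finrank_euclideanSpace_fin]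
    · have : (fun y => T.indicator (fun _ => (1 : ℝ≥0∞)) (y, z)) = fun _ => 0 := by
        funext y
        have : (y, z) ∉ T := fun hh => hz hh.2
        rw [indicator_of_notMem this]
      rw [this, lintegral_zero, indicator_of_notMem hz]
  simp_rw [h1]
  rw [lintegral_lintegral_swap
    (f := fun y z => T.indicator (fun _ => (1 : ℝ≥0∞)) (y, z))
    ((measurable_const.indicator hTo.measurableSet).aemeasurable)]
  simp_rw [h2]
  rw [lintegral_indicator hU.measurableSet, setLIntegral_const]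

theorem cover_bound (m : ℕ) : ∃ K : ℝ, 0 < K ∧ ∀ σ : ℝ, 0 < σ →
    ∀ (h : Measure (E m)) (𝒞 : Set (E m)) (F : E m → ℝ), IsFiniteMeasure h →
      (∀ x ∈ 𝒞, gav h σ x ≤ F x) →
      h 𝒞 ≤ ENNReal.ofReal K * ∫⁻ y, ⨆ x ∈ 𝒞 ∩ ball y σ, ENNReal.ofReal (F x) := by
  have hpi := Real.pi_pos
  set c : ℝ := (2 * Real.pi) ^ (-(m : ℝ) / 2) * Real.exp (-1 / 2) with hc
  have hc0 : 0 < c := by positivity
  set ω := (volume : Measure (E m)) (ball 0 1) with hω
  have hω0 : ω ≠ 0 := (measure_ball_pos _ _ one_pos).ne'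
  have hωt : ω ≠ ∞ := measure_ball_lt_top.ne
  have hωr : 0 < ω.toReal := ENNReal.toReal_pos hω0 hωt
  refine ⟨4 ^ m / (c * ω.toReal), by positivity, ?_⟩
  intro σ hσ h 𝒞 F hh hF
  set r : ℝ := σ / 4 with hr
  have hr0 : 0 < r := by positivity
  set U : Set (E m) := ⋃ x ∈ 𝒞, ball x r with hU
  have hUo : IsOpen U := isOpen_biUnion fun _ _ => isOpen_ball
  have h𝒞U : 𝒞 ⊆ U := fun x hx => mem_biUnion hx (mem_ball_self hr0)
  set g : E m → ℝ≥0∞ := fun y => ⨆ x ∈ 𝒞 ∩ ball y σ, ENNReal.ofReal (F x) with hg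
  -- (1)
  have h1 : ∀ x ∈ 𝒞, h (ball x σ) ≤ ENNReal.ofReal (σ ^ m / c) * ENNReal.ofReal (F x) := by
    intro x hx
    have h2 := (cv_ball_le h hσ x).trans (hF x hx)
    rw [← ENNReal.ofReal_mul (by positivity), ← ENNReal.ofReal_toReal (measure_ne_top h (ball x σ))]
    apply ENNReal.ofReal_le_ofReal
    have h3 : c / σ ^ m * (h (ball x σ)).toReal ≤ F x := h2
    have h4 : (h (ball x σ)).toReal = σ ^ m / c * (c / σ ^ m * (h (ball x σ)).toReal) := by
      field_simp
    rw [h4]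
    exact mul_le_mul_of_nonneg_left h3 (by positivity)
  -- (2)
  have h2 : ∀ y, h (ball y r ∩ U) ≤ ENNReal.ofReal (σ ^ m / c) * g y := by
    intro y
    by_cases hne : (ball y r ∩ U).Nonempty
    · obtain ⟨z, hz1, hz2⟩ := hne
      obtain ⟨x, hx, hzx⟩ := mem_iUnion₂.1 hz2
      rw [mem_ball] at hz1 hzx
      have hxy : dist x y < σ / 2 := by
        have := dist_triangle x z y
        rw [dist_comm x z] at this
        have : r + r = σ / 2 := by rw [hr]; ring
        linarith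
      have hsub : ball y r ∩ U ⊆ ball x σ := by
        intro w hw
        have hw1 := hw.1
        rw [mem_ball] at hw1 ⊢
        have := dist_triangle w y x
        rw [dist_comm y x] at this
        have : r = σ / 4 := hr
        linarith
      have hxm : x ∈ 𝒞 ∩ ball y σ := ⟨hx, by rw [mem_ball]; linarith⟩
      refine (measure_mono hsub).trans ((h1 x hx).trans (mul_le_mul_right ?_ _))
      exact le_iSup₂ (f := fun x (_ : x ∈ 𝒞 ∩ ball y σ) => ENNReal.ofReal (F x)) x hxm
    · rw [not_nonempty_iff_eq_empty.1 hne, measure_empty]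
      exact zero_le
  -- (3), (4)
  have h3 := cv_tonelli h hr0 hUo
  have h4 : ENNReal.ofReal (r ^ m) * ω * h U ≤ ENNReal.ofReal (σ ^ m / c) * ∫⁻ y, g y := by
    rw [← h3, ← lintegral_const_mul' _ _ ENNReal.ofReal_ne_top]
    exact lintegral_mono h2
  have hrm : 0 < r ^ m := by positivity
  have hne0 : ENNReal.ofReal (r ^ m) * ω ≠ 0 :=
    mul_ne_zero (ENNReal.ofReal_pos.2 hrm).ne' hω0
  have hnet : ENNReal.ofReal (r ^ m) * ω ≠ ∞ := ENNReal.mul_ne_top ENNReal.ofReal_ne_top hωt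
  have h5 : h U ≤ (ENNReal.ofReal (r ^ m) * ω)⁻¹ * (ENNReal.ofReal (σ ^ m / c) * ∫⁻ y, g y) := by
    rw [← ENNReal.div_eq_inv_mul, ENNReal.le_div_iff_mul_le (Or.inl hne0) (Or.inl hnet), mul_comm]
    exact h4
  refine (measure_mono h𝒞U).trans (h5.trans (le_of_eq ?_))
  rw [← mul_assoc]
  congr 1
  have h6 : ENNReal.ofReal (r ^ m) * ω = ENNReal.ofReal (r ^ m * ω.toReal) := by
    rw [ENNReal.ofReal_mul hrm.le, ENNReal.ofReal_toReal hωt]
  rw [h6, ← ENNReal.ofReal_inv_of_pos (by positivity), ← ENNReal.ofReal_mul (by positivity)]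
  congr 1
  rw [hr, div_pow]
  field_simp

end Claimed.Agent.R322.Sx
end
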