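/- Packed by merge_tool.py (helper293): 3 modules of Claimed.Agent.R322 in one file, same declarations.
   Old modules, in this order: Base.Mono, Base.Ops, Sx.WitFlow -/
import Claimed.Agent.R322.Pack001
import Claimed.Agent.R322.Pack002
import Claimed.Agent.R322.Pack039
import Claimed.Agent.R322.Pack042

/- ===== packed: Claimed.Agent.R322.Base.Mono ===== -/
section
/-!
# Row 322, Base/Mono: monotonicity package (AE Lemma 2.1), umbrella file

EXPORTS (all for `W : SIV m n`, `1 ≤ m`):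
`W.mono_identity`, `W.ratio_mono`, `W.tendsto_ratio`, `W.Θ_le_ratio`, `W.upper_mass`, `W.ratio_le_of_dist`, `W.Θ_usc`,
`W.lower_mass`, `W.one_le_ratio`, `W.one_le_Θ`, `W.Θ_eq_zero`, `W.support_eq`, `W.μ_compl_support`,
`W.defect_annulus`, `W.defect`, `W.hasDerivAt_kint`, `W.kint_mono`, `W.wratio_mono`, `W.mean_value`,
`layer_cake_ker`, `W.kint_one_le`, `W.tendsto_kint`, `hausdorff_le_of_lower_mass`, `W.hausdorff_support_lt_top`, `dens_of_atlas`;
calculus: `tdiv_fderiv_smul`, `W.stat_smul`, `W.stat_grad`, `W.stat_radial`, `IsProj.*`, `kap_pos`, `hausdorff_ball`.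
-/
end

/- ===== packed: Claimed.Agent.R322.Base.Ops ===== -/
section
/-!
# Operations on `SIV`: similarity, restriction, extension of the domain

The fields are proved in `Base/Ops/Fields.lean` (raw data); the transformation rules for
`μ`, `support`, `sing`, `ratio`, `Θ` are at the end of this file.

* `W.simil p r hr O` : push-forward under `X ↦ O ((X - p) / r)`;
* `W.restr U' hU' hsub` : restriction to an open subset of the domain;
* `W.extend U' hU' hsub hgap` : the same varifold in a larger domain `U'`, if every point of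
  `U' \ U` has a neighbourhood without mass;
* `W.cut A ...` : the part of `W` in an open set `A` whose boundary does not meet the
  support, as a varifold in the *same* domain (`restr` followed by `extend`).
-/

set_option autoImplicit false

open scoped ENNReal ContDiff
open MeasureTheory

namespace Claimed.Agent.R322

variable {m n : ℕ}

namespace SIV

open Base

theorem isTanField (W : SIV m n) : IsTanField m n W.U W.M W.θ W.P :=
  ⟨W.P_meas, W.P_proj, W.fib_meas, W.area⟩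

/-- push-forward of `W` under the similarity `X ↦ O ((X - p) / r)`, `r > 0`
(the weight is `r^{-m}` times the push-forward of the weight). -/
noncomputable def simil (W : SIV m n) (p : E (m + n)) (r : ℝ) (hr : 0 < r)
    (O : E (m + n) ≃ₗᵢ[ℝ] E (m + n)) : SIV m n where
  U := simInv p r O ⁻¹' W.U
  M := simInv p r O ⁻¹' W.M
  θ := fun Y => W.θ (simInv p r O Y)
  P := fun Y => (O : E (m + n) →L[ℝ] E (m + n)) ∘L W.P (simInv p r O Y) ∘L
    (O.symm : E (m + n) →L[ℝ] E (m + n))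
  isOpen_U := W.isOpen_U.preimage (contDiff_simInv p O r).continuous
  M_sub := Set.preimage_mono W.M_sub
  M_meas := W.M_meas.preimage (contDiff_simInv p O r).continuous.measurable
  θ_meas := W.θ_meas.comp (contDiff_simInv p O r).continuous.measurable
  θ_pos := fun Y hY => W.θ_pos _ hY
  P_meas := (W.isTanField.simil p O W.M_meas W.θ_meas hr).meas
  P_proj := (W.isTanField.simil p O W.M_meas W.θ_meas hr).proj
  locfin := IsLocFin.simil p O W.locfin W.M_meas W.θ_meas hr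
  fib_meas := (W.isTanField.simil p O W.M_meas W.θ_meas hr).fib_meas
  area := (W.isTanField.simil p O W.M_meas W.θ_meas hr).area
  stat := IsStat.simil p O W.stat W.M_meas W.θ_meas hr
  dens := HasLowerDens.simil p O W.dens W.M_meas W.θ_meas hr

/-- restriction of `W` to an open subset of its domain -/
noncomputable def restr (W : SIV m n) (U' : Set (E (m + n))) (hU' : IsOpen U') (hsub : U' ⊆ W.U) :
    SIV m n where
  U := U'
  M := W.M ∩ U'
  θ := W.θ
  P := W.P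
  isOpen_U := hU'
  M_sub := Set.inter_subset_right
  M_meas := W.M_meas.inter hU'.measurableSet
  θ_meas := W.θ_meas
  θ_pos := fun x hx => W.θ_pos x hx.1
  P_meas := W.P_meas
  P_proj := W.P_proj
  locfin := IsLocFin.restr W.locfin hU' hsub
  fib_meas := (W.isTanField.restr hU' hsub).fib_meas
  area := (W.isTanField.restr hU' hsub).area
  stat := IsStat.restr W.stat hU' hsub
  dens := HasLowerDens.restr W.dens hU'

/-- the same varifold in a larger domain `U'`, provided every point of `U' \ U` has a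
neighbourhood without mass. -/
noncomputable def extend (W : SIV m n) (U' : Set (E (m + n))) (hU' : IsOpen U') (hsub : W.U ⊆ U')
    (hgap : ∀ x ∈ U', x ∉ W.U → ∃ ρ : ℝ, 0 < ρ ∧ W.μ (Metric.ball x ρ) = 0) : SIV m n where
  U := U'
  M := W.M
  θ := W.θ
  P := W.P
  isOpen_U := hU'
  M_sub := W.M_sub.trans hsub
  M_meas := W.M_meas
  θ_meas := W.θ_meas
  θ_pos := W.θ_pos
  P_meas := W.P_meas
  P_proj := W.P_proj
  locfin := IsLocFin.extend W.locfin hgap
  fib_meas := (W.isTanField.extend W.isOpen_U W.M_meas W.M_sub).fib_meas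
  area := (W.isTanField.extend W.isOpen_U W.M_meas W.M_sub).area
  stat := IsStat.extend W.stat W.isOpen_U hgap
  dens := W.dens

/-! ### auxiliary lemmas for the transformation rules -/

/-- preimage of a smooth submanifold under a smooth map with surjective derivatives. -/
theorem _root_.Claimed.Agent.R322.Base.isSmoothSub_preimage {A : Set (E (m + n))}
    (g : E (m + n) → E (m + n)) (hg : ContDiff ℝ ∞ g) (hs : ∀ y, Function.Surjective (fderiv ℝ g y))
    (hA : IsSmoothSub m n A) : IsSmoothSub m n (g ⁻¹' A) := by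
  intro x hx
  obtain ⟨O₁, hO₁, hxO, f, hf, hsf, heq⟩ := hA (g x) hx
  refine ⟨g ⁻¹' O₁, hO₁.preimage hg.continuous, hxO, f ∘ g, hf.comp hg, fun y hy => ?_, ?_⟩
  · have hdf : DifferentiableAt ℝ f (g y) := (hf.differentiable (by simp)).differentiableAt
    have hdg : DifferentiableAt ℝ g y := (hg.differentiable (by simp)).differentiableAt
    rw [fderiv_comp y hdf hdg]
    exact (hsf (g y) hy).comp (hs y)
  · rw [← Set.preimage_inter, heq]
    rfl

/-- intersection of a smooth submanifold with an open set. -/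
theorem _root_.Claimed.Agent.R322.Base.isSmoothSub_inter_isOpen {A V : Set (E (m + n))}
    (hA : IsSmoothSub m n A) (hV : IsOpen V) : IsSmoothSub m n (A ∩ V) := by
  intro x hx
  obtain ⟨O₁, hO₁, hxO, f, hf, hsf, heq⟩ := hA x hx.1
  refine ⟨O₁ ∩ V, hO₁.inter hV, ⟨hxO, hx.2⟩, f, hf, fun y hy => hsf y hy.1, ?_⟩
  calc A ∩ V ∩ (O₁ ∩ V) = (A ∩ O₁) ∩ V := by
        ext y
        simp only [Set.mem_inter_iff]
        tauto
    _ = (O₁ ∩ f ⁻¹' {0}) ∩ V := by rw [heq]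
    _ = O₁ ∩ V ∩ f ⁻¹' {0} := by
        ext y
        simp only [Set.mem_inter_iff]
        tauto

/-- the two local conditions of `IsReg` pass to a smaller open set. -/
theorem _root_.Claimed.Agent.R322.Base.reg_inter_isOpen {μ : Measure (E (m + n))}
    {S O V : Set (E (m + n))} {q : ℕ} (hV : IsOpen V)
    (h1 : IsSmoothSub m n (S ∩ O))
    (h2 : μ.restrict O = (q : ℝ≥0∞) • (μH[(m : ℝ)]).restrict (S ∩ O)) :
    IsSmoothSub m n (S ∩ (O ∩ V)) ∧
      μ.restrict (O ∩ V) = (q : ℝ≥0∞) • (μH[(m : ℝ)]).restrict (S ∩ (O ∩ V)) := by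
  constructor
  · rw [← Set.inter_assoc]
    exact Base.isSmoothSub_inter_isOpen h1 hV
  · have e1 : μ.restrict (O ∩ V) = (μ.restrict O).restrict V := by
      rw [Measure.restrict_restrict hV.measurableSet, Set.inter_comm]
    rw [e1, h2, Measure.restrict_smul, Measure.restrict_restrict hV.measurableSet]
    congr 2
    ext y
    simp only [Set.mem_inter_iff]
    tauto

/-- transport of the measure identity of `IsReg` under a measurable equivalence which scales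
the Hausdorff measure. -/
theorem _root_.Claimed.Agent.R322.Base.reg_measure_transport {N : ℕ} (e : E N ≃ᵐ E N)
    {μ μ' ν : Measure (E N)} {c d : ℝ≥0∞} (hc0 : c ≠ 0) (hc : c ≠ ⊤) (hcd : c * d = 1)
    (hμ : μ' = c • μ.map e) (hν : ν.map e = d • ν) (O' A' : Set (E N)) (q : ℝ≥0∞) :
    μ'.restrict O' = q • ν.restrict A' ↔ μ.restrict (e ⁻¹' O') = q • ν.restrict (e ⁻¹' A') := by
  have e1 : μ'.restrict O' = c • (μ.restrict (e ⁻¹' O')).map e := by
    rw [hμ, Measure.restrict_smul, e.restrict_map]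
  have e2 : q • ν.restrict A' = c • (q • ν.restrict (e ⁻¹' A')).map e := by
    rw [Measure.map_smul, ← e.restrict_map, hν, Measure.restrict_smul, smul_smul, smul_smul,
      show c * q * d = c * d * q by ring, hcd, one_mul]
  rw [e1, e2]
  constructor
  · intro h
    have h1 : (μ.restrict (e ⁻¹' O')).map e = (q • ν.restrict (e ⁻¹' A')).map e := by
      have := congrArg (fun κ : Measure (E N) => c⁻¹ • κ) h
      simp only [smul_smul, ENNReal.inv_mul_cancel hc0 hc, one_smul] at this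
      exact this
    have := congrArg (fun κ : Measure (E N) => κ.map e.symm) h1
    simpa using this
  · intro h
    rw [h]

/-- multiplication by `r > 0` preserves the filter of small positive numbers. -/
theorem _root_.Claimed.Agent.R322.Base.map_mul_nhdsGT_zero {r : ℝ} (hr : 0 < r) :
    Filter.map (fun t : ℝ => r * t) (nhdsWithin (0 : ℝ) (Set.Ioi 0)) = nhdsWithin (0 : ℝ) (Set.Ioi 0) := by
  have key : ∀ a : ℝ, 0 < a → Filter.Tendsto (fun t : ℝ => a * t) (nhdsWithin (0 : ℝ) (Set.Ioi 0))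
      (nhdsWithin (0 : ℝ) (Set.Ioi 0)) := by
    intro a ha
    refine tendsto_nhdsWithin_of_tendsto_nhds_of_eventually_within _ ?_ ?_
    · have : Filter.Tendsto (fun t : ℝ => a * t) (nhds 0) (nhds (a * 0)) :=
        (continuous_const.mul continuous_id).tendsto 0
      rw [mul_zero] at this
      exact this.mono_left nhdsWithin_le_nhds
    · filter_upwards [self_mem_nhdsWithin] with t ht
      exact mul_pos ha ht
  refine le_antisymm (key r hr) ?_
  have h2 := Filter.map_mono (m := fun t : ℝ => r * t) (key r⁻¹ (inv_pos.2 hr))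
  rw [Filter.map_map] at h2
  have e : (fun t : ℝ => r * t) ∘ (fun t : ℝ => r⁻¹ * t) = id := by
    funext t
    simp only [Function.comp, id]
    field_simp
  rwa [e, Filter.map_id] at h2

/-! ### transformation rules -/

/-- weight of the similarity image -/
theorem simil_μ (W : SIV m n) (p : E (m + n)) (r : ℝ) (hr : 0 < r)
    (O : E (m + n) ≃ₗᵢ[ℝ] E (m + n)) :
    (W.simil p r hr O).μ = ENNReal.ofReal ((r ^ m)⁻¹) • W.μ.map (simMap p r O) :=
  wt_simil p O m hr W.M_meas W.θ_meas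

theorem simil_μ_ball (W : SIV m n) (p : E (m + n)) (r : ℝ) (hr : 0 < r)
    (O : E (m + n) ≃ₗᵢ[ℝ] E (m + n)) (Y : E (m + n)) (t : ℝ) :
    (W.simil p r hr O).μ (Metric.ball Y t)
      = ENNReal.ofReal ((r ^ m)⁻¹) * W.μ (Metric.ball (simInv p r O Y) (r * t)) := by
  rw [simil_μ, Measure.smul_apply, smul_eq_mul,
    Measure.map_apply (contDiff_simMap p O r).continuous.measurable Metric.isOpen_ball.measurableSet,
    simMap_preimage_ball p O hr]

theorem simil_support (W : SIV m n) (p : E (m + n)) (r : ℝ) (hr : 0 < r)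
    (O : E (m + n) ≃ₗᵢ[ℝ] E (m + n)) :
    (W.simil p r hr O).support = simInv p r O ⁻¹' W.support := by
  have hc : ENNReal.ofReal ((r ^ m)⁻¹) ≠ 0 := by
    rw [Ne, ENNReal.ofReal_eq_zero, not_le]
    positivity
  ext Y
  constructor
  · rintro ⟨hU, h⟩
    refine ⟨hU, fun s hs => ?_⟩
    have h1 := h (s / r) (by positivity)
    rw [simil_μ_ball, show r * (s / r) = s by field_simp] at h1
    exact pos_iff_ne_zero.2 (right_ne_zero_of_mul h1.ne')
  · rintro ⟨hU, h⟩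
    refine ⟨hU, fun t ht => ?_⟩
    rw [simil_μ_ball]
    exact ENNReal.mul_pos hc (h (r * t) (by positivity)).ne'

/-- regular points under a similarity. -/
theorem simil_isReg (W : SIV m n) (p : E (m + n)) (r : ℝ) (hr : 0 < r)
    (O : E (m + n) ≃ₗᵢ[ℝ] E (m + n)) (Y : E (m + n)) :
    (W.simil p r hr O).IsReg Y ↔ W.IsReg (simInv p r O Y) := by
  have hTS : ∀ Y, simMap p r O (simInv p r O Y) = Y := simMap_simInv p O hr
  have hST : ∀ X, simInv p r O (simMap p r O X) = X := simInv_simMap p O hr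
  have hc0 : ENNReal.ofReal ((r ^ m)⁻¹) ≠ 0 := by
    rw [Ne, ENNReal.ofReal_eq_zero, not_le]
    positivity
  have hc : ENNReal.ofReal ((r ^ m)⁻¹) ≠ ⊤ := ENNReal.ofReal_ne_top
  have hcd : ENNReal.ofReal ((r ^ m)⁻¹) * ENNReal.ofReal (r ^ m) = 1 := by
    rw [← ENNReal.ofReal_mul (by positivity), inv_mul_cancel₀ (by positivity), ENNReal.ofReal_one]
  have key := fun (O' A' : Set (E (m + n))) (q : ℝ≥0∞) =>
    Base.reg_measure_transport (simHomeo p O hr).toMeasurableEquiv hc0 hc hcd (W.simil_μ p r hr O)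
      (map_simMap_hausdorff p O m hr) O' A' q
  have hsT : ∀ y, Function.Surjective (fderiv ℝ (simMap p r O) y) := by
    intro y z
    refine ⟨r • O.symm z, ?_⟩
    rw [fderiv_simMap]
    simp [smul_smul, inv_mul_cancel₀ hr.ne', mul_inv_cancel₀ hr.ne']
  have hsS : ∀ y, Function.Surjective (fderiv ℝ (simInv p r O) y) := by
    intro y z
    refine ⟨r⁻¹ • O z, ?_⟩
    rw [fderiv_simInv]
    simp [smul_smul, inv_mul_cancel₀ hr.ne', mul_inv_cancel₀ hr.ne']
  have hpre : ∀ A : Set (E (m + n)), simMap p r O ⁻¹' (simInv p r O ⁻¹' A) = A := by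
    intro A
    ext X
    simp only [Set.mem_preimage, hST]
  constructor
  · rintro ⟨O', hO', hY, hsub, hsm, q, hq, hμ⟩
    have hsupp : W.support ∩ simMap p r O ⁻¹' O'
        = simMap p r O ⁻¹' ((W.simil p r hr O).support ∩ O') := by
      rw [simil_support, Set.preimage_inter, hpre]
    refine ⟨simMap p r O ⁻¹' O', hO'.preimage (contDiff_simMap p O r).continuous, ?_, ?_, ?_, q, hq, ?_⟩
    · show simMap p r O (simInv p r O Y) ∈ O'
      rw [hTS]
      exact hY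
    · intro X hX
      have h1 : simInv p r O (simMap p r O X) ∈ W.U := hsub hX
      rwa [hST] at h1
    · rw [hsupp]
      exact Base.isSmoothSub_preimage _ (contDiff_simMap p O r) hsT hsm
    · rw [hsupp]
      exact (key O' _ q).1 hμ
  · rintro ⟨O₁, hO₁, hY, hsub, hsm, q, hq, hμ⟩
    have hsupp : (W.simil p r hr O).support ∩ simInv p r O ⁻¹' O₁
        = simInv p r O ⁻¹' (W.support ∩ O₁) := by
      rw [simil_support, Set.preimage_inter]
    refine ⟨simInv p r O ⁻¹' O₁, hO₁.preimage (contDiff_simInv p O r).continuous, hY,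
      Set.preimage_mono hsub, ?_, q, hq, ?_⟩
    · rw [hsupp]
      exact Base.isSmoothSub_preimage _ (contDiff_simInv p O r) hsS hsm
    · rw [hsupp]
      refine (key _ _ q).2 ?_
      show W.μ.restrict (simMap p r O ⁻¹' (simInv p r O ⁻¹' O₁))
        = (q : ℝ≥0∞) • (μH[(m : ℝ)]).restrict (simMap p r O ⁻¹' (simInv p r O ⁻¹' (W.support ∩ O₁)))
      rw [hpre, hpre]
      exact hμ

theorem simil_sing (W : SIV m n) (p : E (m + n)) (r : ℝ) (hr : 0 < r)
    (O : E (m + n) ≃ₗᵢ[ℝ] E (m + n)) :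
    (W.simil p r hr O).sing = simInv p r O ⁻¹' W.sing := by
  ext Y
  unfold sing
  simp only [Set.mem_setOf_eq, Set.mem_preimage, simil_isReg, simil_support]

theorem simil_ratio (W : SIV m n) (p : E (m + n)) (r : ℝ) (hr : 0 < r)
    (O : E (m + n) ≃ₗᵢ[ℝ] E (m + n)) (Y : E (m + n)) (t : ℝ) (ht : 0 < t) :
    (W.simil p r hr O).ratio Y t = W.ratio (simInv p r O Y) (r * t) := by
  unfold ratio
  rw [simil_μ_ball, ENNReal.toReal_mul, ENNReal.toReal_ofReal (by positivity)]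
  simp only [div_eq_mul_inv, mul_inv, mul_pow]
  ring

theorem simil_Θ (W : SIV m n) (p : E (m + n)) (r : ℝ) (hr : 0 < r)
    (O : E (m + n) ≃ₗᵢ[ℝ] E (m + n)) (Y : E (m + n)) :
    (W.simil p r hr O).Θ Y = W.Θ (simInv p r O Y) := by
  unfold Θ
  have e1 : Filter.limsup (fun t => (W.simil p r hr O).ratio Y t) (nhdsWithin (0 : ℝ) (Set.Ioi 0))
      = Filter.limsup ((fun s => W.ratio (simInv p r O Y) s) ∘ fun t : ℝ => r * t)
          (nhdsWithin (0 : ℝ) (Set.Ioi 0)) := by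
    refine Filter.limsup_congr ?_
    filter_upwards [self_mem_nhdsWithin] with t ht
    exact W.simil_ratio p r hr O Y t ht
  rw [e1, Filter.limsup_comp, Base.map_mul_nhdsGT_zero hr]

theorem restr_μ (W : SIV m n) (U' : Set (E (m + n))) (hU' : IsOpen U') (hsub : U' ⊆ W.U) :
    (W.restr U' hU' hsub).μ = W.μ.restrict U' :=
  wt_inter m W.M W.θ hU'.measurableSet

theorem restr_support (W : SIV m n) (U' : Set (E (m + n))) (hU' : IsOpen U') (hsub : U' ⊆ W.U) :
    (W.restr U' hU' hsub).support = W.support ∩ U' := by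
  ext x
  constructor
  · rintro ⟨hx, h⟩
    refine ⟨⟨hsub hx, fun t ht => ?_⟩, hx⟩
    have h1 := h t ht
    rw [restr_μ] at h1
    exact lt_of_lt_of_le h1 (Measure.restrict_apply_le _ _)
  · rintro ⟨⟨-, h⟩, hx⟩
    refine ⟨hx, fun t ht => ?_⟩
    obtain ⟨ε, hε, hb⟩ := Metric.isOpen_iff.1 hU' x hx
    rw [restr_μ, Measure.restrict_apply Metric.isOpen_ball.measurableSet]
    refine lt_of_lt_of_le (h (min t ε) (lt_min ht hε)) (measure_mono ?_)
    exact Set.subset_inter (Metric.ball_subset_ball (min_le_left _ _))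
      ((Metric.ball_subset_ball (min_le_right _ _)).trans hb)

/-- regular points of a restriction. -/
theorem restr_isReg (W : SIV m n) (U' : Set (E (m + n))) (hU' : IsOpen U') (hsub : U' ⊆ W.U)
    {x : E (m + n)} (hx : x ∈ U') : (W.restr U' hU' hsub).IsReg x ↔ W.IsReg x := by
  constructor
  · rintro ⟨O, hO, hxO, hOU, hsm, q, hq, hμ⟩
    have hOU' : O ⊆ U' := hOU
    have e1 : (W.restr U' hU' hsub).support ∩ O = W.support ∩ O := by
      rw [restr_support, Set.inter_assoc, Set.inter_eq_right.2 hOU']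
    have e2 : (W.restr U' hU' hsub).μ.restrict O = W.μ.restrict O := by
      rw [restr_μ, Measure.restrict_restrict hO.measurableSet, Set.inter_eq_left.2 hOU']
    rw [e1] at hsm hμ
    rw [e2] at hμ
    exact ⟨O, hO, hxO, hOU'.trans hsub, hsm, q, hq, hμ⟩
  · rintro ⟨O, hO, hxO, -, hsm, q, hq, hμ⟩
    obtain ⟨h1, h2⟩ := Base.reg_inter_isOpen hU' hsm hμ
    have e1 : (W.restr U' hU' hsub).support ∩ (O ∩ U') = W.support ∩ (O ∩ U') := by
      rw [restr_support]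
      ext y
      simp only [Set.mem_inter_iff]
      tauto
    have e2 : (W.restr U' hU' hsub).μ.restrict (O ∩ U') = W.μ.restrict (O ∩ U') := by
      rw [restr_μ, Measure.restrict_restrict (hO.inter hU').measurableSet, Set.inter_assoc, Set.inter_self]
    refine ⟨O ∩ U', hO.inter hU', ⟨hxO, hx⟩, Set.inter_subset_right, ?_, q, hq, ?_⟩
    · rw [e1]
      exact h1
    · rw [e1, e2]
      exact h2

theorem restr_sing (W : SIV m n) (U' : Set (E (m + n))) (hU' : IsOpen U') (hsub : U' ⊆ W.U) :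
    (W.restr U' hU' hsub).sing = W.sing ∩ U' := by
  ext x
  unfold sing
  simp only [Set.mem_setOf_eq, Set.mem_inter_iff, restr_support]
  constructor
  · rintro ⟨⟨h1, h2⟩, h3⟩
    exact ⟨⟨h1, fun h => h3 ((W.restr_isReg U' hU' hsub h2).2 h)⟩, h2⟩
  · rintro ⟨⟨h1, h3⟩, h2⟩
    exact ⟨⟨h1, h2⟩, fun h => h3 ((W.restr_isReg U' hU' hsub h2).1 h)⟩

theorem restr_ratio (W : SIV m n) (U' : Set (E (m + n))) (hU' : IsOpen U') (hsub : U' ⊆ W.U)
    {x : E (m + n)} {t : ℝ} (hb : Metric.ball x t ⊆ U') :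
    (W.restr U' hU' hsub).ratio x t = W.ratio x t := by
  unfold ratio
  rw [restr_μ, Measure.restrict_apply Metric.isOpen_ball.measurableSet, Set.inter_eq_left.2 hb]

theorem restr_Θ (W : SIV m n) (U' : Set (E (m + n))) (hU' : IsOpen U') (hsub : U' ⊆ W.U)
    {x : E (m + n)} (hx : x ∈ U') : (W.restr U' hU' hsub).Θ x = W.Θ x := by
  unfold Θ
  refine Filter.limsup_congr ?_
  obtain ⟨ε, hε, hb⟩ := Metric.isOpen_iff.1 hU' x hx
  have h1 : Set.Iio ε ∈ nhdsWithin (0 : ℝ) (Set.Ioi 0) := mem_nhdsWithin_of_mem_nhds (Iio_mem_nhds hε)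
  filter_upwards [h1] with t ht
  exact W.restr_ratio U' hU' hsub ((Metric.ball_subset_ball (le_of_lt ht)).trans hb)

theorem extend_μ (W : SIV m n) (U' : Set (E (m + n))) (hU' : IsOpen U') (hsub : W.U ⊆ U')
    (hgap : ∀ x ∈ U', x ∉ W.U → ∃ ρ : ℝ, 0 < ρ ∧ W.μ (Metric.ball x ρ) = 0) :
    (W.extend U' hU' hsub hgap).μ = W.μ := rfl

theorem extend_support (W : SIV m n) (U' : Set (E (m + n))) (hU' : IsOpen U') (hsub : W.U ⊆ U')
    (hgap : ∀ x ∈ U', x ∉ W.U → ∃ ρ : ℝ, 0 < ρ ∧ W.μ (Metric.ball x ρ) = 0) :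
    (W.extend U' hU' hsub hgap).support = W.support := by
  ext x
  constructor
  · rintro ⟨hx, h⟩
    refine ⟨?_, h⟩
    by_contra hxU
    obtain ⟨ρ, hρ, h0⟩ := hgap x hx hxU
    exact absurd (h ρ hρ) (by rw [extend_μ, h0]; exact lt_irrefl _)
  · rintro ⟨hx, h⟩
    exact ⟨hsub hx, h⟩

theorem extend_sing (W : SIV m n) (U' : Set (E (m + n))) (hU' : IsOpen U') (hsub : W.U ⊆ U')
    (hgap : ∀ x ∈ U', x ∉ W.U → ∃ ρ : ℝ, 0 < ρ ∧ W.μ (Metric.ball x ρ) = 0) :
    (W.extend U' hU' hsub hgap).sing = W.sing := by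
  have hreg : ∀ x, (W.extend U' hU' hsub hgap).IsReg x → x ∈ W.U → W.IsReg x := by
    rintro x ⟨O, hO, hxO, -, hsm, q, hq, hμ⟩ hxU
    rw [extend_support] at hsm hμ
    rw [extend_μ] at hμ
    obtain ⟨h1, h2⟩ := Base.reg_inter_isOpen W.isOpen_U hsm hμ
    exact ⟨O ∩ W.U, hO.inter W.isOpen_U, ⟨hxO, hxU⟩, Set.inter_subset_right, h1, q, hq, h2⟩
  have hreg' : ∀ x, W.IsReg x → (W.extend U' hU' hsub hgap).IsReg x := by
    rintro x ⟨O, hO, hxO, hOU, hsm, q, hq, hμ⟩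
    refine ⟨O, hO, hxO, hOU.trans hsub, ?_, q, hq, ?_⟩
    · rw [extend_support]
      exact hsm
    · rw [extend_support, extend_μ]
      exact hμ
  ext x
  unfold sing
  simp only [Set.mem_setOf_eq, extend_support]
  constructor
  · rintro ⟨h1, h2⟩
    exact ⟨h1, fun h => h2 (hreg' x h)⟩
  · rintro ⟨h1, h2⟩
    exact ⟨h1, fun h => h2 (hreg x h h1.1)⟩

theorem extend_ratio (W : SIV m n) (U' : Set (E (m + n))) (hU' : IsOpen U') (hsub : W.U ⊆ U')
    (hgap : ∀ x ∈ U', x ∉ W.U → ∃ ρ : ℝ, 0 < ρ ∧ W.μ (Metric.ball x ρ) = 0)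
    (x : E (m + n)) (t : ℝ) : (W.extend U' hU' hsub hgap).ratio x t = W.ratio x t := rfl

theorem extend_Θ (W : SIV m n) (U' : Set (E (m + n))) (hU' : IsOpen U') (hsub : W.U ⊆ U')
    (hgap : ∀ x ∈ U', x ∉ W.U → ∃ ρ : ℝ, 0 < ρ ∧ W.μ (Metric.ball x ρ) = 0)
    (x : E (m + n)) : (W.extend U' hU' hsub hgap).Θ x = W.Θ x := rfl

/-! ### the part of `W` in an open set whose boundary carries no support -/

/-- the gap condition of `cut`: no point of the domain on the boundary of `A` is in the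
support. -/
theorem cut_gap (W : SIV m n) (A : Set (E (m + n))) (hA : IsOpen A)
    (hfr : ∀ x ∈ W.U, x ∈ frontier A → x ∉ W.support) :
    ∀ x ∈ W.U, x ∉ (W.restr (W.U ∩ A) (W.isOpen_U.inter hA) Set.inter_subset_left).U →
      ∃ ρ : ℝ, 0 < ρ ∧
        (W.restr (W.U ∩ A) (W.isOpen_U.inter hA) Set.inter_subset_left).μ (Metric.ball x ρ) = 0 := by
  intro x hxU hx
  have hxA : x ∉ A := fun h => hx ⟨hxU, h⟩
  by_cases hf : x ∈ frontier A
  · have h1 := hfr x hxU hf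
    have h2 : ∃ ρ : ℝ, 0 < ρ ∧ ¬ 0 < W.μ (Metric.ball x ρ) := by
      by_contra hcon
      push_neg at hcon
      exact h1 ⟨hxU, hcon⟩
    obtain ⟨ρ, hρ, h0⟩ := h2
    refine ⟨ρ, hρ, ?_⟩
    rw [restr_μ]
    exact nonpos_iff_eq_zero.1 ((Measure.restrict_apply_le _ _).trans (not_lt.1 h0))
  · have hcl : x ∉ closure A := by
      intro hc
      apply hf
      rw [frontier, hA.interior_eq]
      exact ⟨hc, hxA⟩
    have hopen : IsOpen (closure A)ᶜ := isClosed_closure.isOpen_compl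
    obtain ⟨ρ, hρ, hb⟩ := Metric.isOpen_iff.1 hopen x hcl
    refine ⟨ρ, hρ, ?_⟩
    rw [restr_μ, Measure.restrict_apply Metric.isOpen_ball.measurableSet]
    have : Metric.ball x ρ ∩ (W.U ∩ A) = ∅ := by
      ext y
      simp only [Set.mem_inter_iff, Set.mem_empty_iff_false, iff_false]
      rintro ⟨h1, -, h2⟩
      exact hb h1 (subset_closure h2)
    rw [this, measure_empty]

/-- the part of `W` in the open set `A`, as a stationary varifold in the whole domain of `W`. -/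
noncomputable def cut (W : SIV m n) (A : Set (E (m + n))) (hA : IsOpen A)
    (hfr : ∀ x ∈ W.U, x ∈ frontier A → x ∉ W.support) : SIV m n :=
  (W.restr (W.U ∩ A) (W.isOpen_U.inter hA) Set.inter_subset_left).extend W.U W.isOpen_U
    Set.inter_subset_left (W.cut_gap A hA hfr)

theorem cut_U (W : SIV m n) (A : Set (E (m + n))) (hA : IsOpen A)
    (hfr : ∀ x ∈ W.U, x ∈ frontier A → x ∉ W.support) : (W.cut A hA hfr).U = W.U := rfl

theorem cut_P (W : SIV m n) (A : Set (E (m + n))) (hA : IsOpen A)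
    (hfr : ∀ x ∈ W.U, x ∈ frontier A → x ∉ W.support) : (W.cut A hA hfr).P = W.P := rfl

theorem cut_μ (W : SIV m n) (A : Set (E (m + n))) (hA : IsOpen A)
    (hfr : ∀ x ∈ W.U, x ∈ frontier A → x ∉ W.support) :
    (W.cut A hA hfr).μ = W.μ.restrict A := by
  have h1 : (W.cut A hA hfr).μ = W.μ.restrict (W.U ∩ A) :=
    W.restr_μ (W.U ∩ A) (W.isOpen_U.inter hA) Set.inter_subset_left
  rw [h1]
  refine Measure.restrict_congr_set ?_
  have h0 : W.μ W.Uᶜ = 0 :=
    measure_mono_null (Set.compl_subset_compl.2 W.M_sub) (wt_compl m W.M_meas W.θ)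
  rw [ae_eq_set]
  constructor
  · have : (W.U ∩ A) \ A = ∅ := by
      ext y
      simp only [Set.mem_sdiff, Set.mem_inter_iff, Set.mem_empty_iff_false, iff_false]
      tauto
    rw [this, measure_empty]
  · refine measure_mono_null ?_ h0
    intro y hy
    simp only [Set.mem_sdiff, Set.mem_inter_iff, not_and] at hy
    exact fun hU => hy.2 hU hy.1

theorem cut_support (W : SIV m n) (A : Set (E (m + n))) (hA : IsOpen A)
    (hfr : ∀ x ∈ W.U, x ∈ frontier A → x ∉ W.support) :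
    (W.cut A hA hfr).support = W.support ∩ A := by
  have h1 : (W.cut A hA hfr).support
      = (W.restr (W.U ∩ A) (W.isOpen_U.inter hA) Set.inter_subset_left).support :=
    extend_support _ W.U W.isOpen_U Set.inter_subset_left (W.cut_gap A hA hfr)
  rw [h1, restr_support]
  ext y
  simp only [Set.mem_inter_iff]
  constructor
  · rintro ⟨h1, -, h2⟩
    exact ⟨h1, h2⟩
  · rintro ⟨h1, h2⟩
    exact ⟨h1, h1.1, h2⟩

theorem cut_sing (W : SIV m n) (A : Set (E (m + n))) (hA : IsOpen A)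
    (hfr : ∀ x ∈ W.U, x ∈ frontier A → x ∉ W.support) :
    (W.cut A hA hfr).sing = W.sing ∩ A := by
  have h1 : (W.cut A hA hfr).sing
      = (W.restr (W.U ∩ A) (W.isOpen_U.inter hA) Set.inter_subset_left).sing :=
    extend_sing _ W.U W.isOpen_U Set.inter_subset_left (W.cut_gap A hA hfr)
  rw [h1, restr_sing]
  ext y
  simp only [Set.mem_inter_iff]
  constructor
  · rintro ⟨h1, -, h2⟩
    exact ⟨h1, h2⟩
  · rintro ⟨h1, h2⟩
    exact ⟨h1, h1.1.1, h2⟩

end SIV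

end Claimed.Agent.R322
end

/- ===== packed: Claimed.Agent.R322.Sx.WitFlow ===== -/
section
/-!
# R322 / Sx / WitFlow : ordered witness scales (AE Lemma 6.1) as pure real analysis

Setting: `F : LFlow`, `F.Reg C t0 t1`, a traversal `[tb, te] ⊆ [t0, t1]` of the band `[B, 2B]`.
`Dd = s² D_s`, `Lam = s² Λ_s`, `Dtr = s² D_tr(s)` are arbitrary nonnegative functions of `t`.

NO almost-everywhere derivatives, no area formula, no integration by parts against `dM`:

* `time_bin` (AE (6.5)): `a^{-P} I = a^{-P} e^{2t - a}` is dominated pointwise by the explicit function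
  `max(A_*, 2t - μ)^{-P} e^{2t - max(A_*, 2t - μ)}`, `μ = log M_*`, whose integral is `≤ A_*^{1-P} M_*`.
* `quasi_mono` (AE (6.7)).
* first passages of a level are resets (`first_passage_reset`): off the reset set `a` decreases.
* bad first passages: with `g = (Ż)_- / I`, quasi-monotonicity gives `I ≥ I_b / 2` on the traversal, so
  `∫ g ≤ (2/I_b) (Z(t_b) + ∫ (Ż)_+) ≤ 3` as long as `max I ≤ B^{10} I_b`; afterwards `Z ≤ 4 B^{-10} I`
  forbids `Ż/I < -h_B` (`Ż/I` is Lipschitz, `Z ≥ 0`).  Levels are taken on a grid of mesh `h_B/2`: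
  the first passage times `θ_j` satisfy `θ_{j+1} - θ_j ≥ mesh / C`, `g ≥ h_B/2` on
  `[θ_j, θ_j + mesh/C]` at a bad level, so there are at most `1 + 12 C / h_B²` bad grid levels, while a
  block of levels of length `B^{1/3}` contains `≈ 2 B^{1/3}/h_B` grid levels.
* one well: `a + Z/I` is nonincreasing on every interval without witness (`one_well_mono`), so `a`
  cannot increase by more than `1` there.
-/

set_option autoImplicit false

namespace Claimed.Agent.R322.Sx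

open Set MeasureTheory

/-- `[tb, te]` is a traversal of the band `[B, 2B]`. -/
structure LFlow.Trav (F : LFlow) (B tb te : ℝ) : Prop where
  lt : tb < te
  a_tb : F.a tb = B
  a_te : F.a te = 2 * B
  band : ∀ t ∈ Icc tb te, B ≤ F.a t ∧ F.a t ≤ 2 * B

/-- the conclusion of AE Lemma 6.1: `N` ordered scales with spaced levels, satisfying `Good`. -/
def LFlow.Wit (F : LFlow) (B tb te : ℝ) (N : ℕ) (Good : ℝ → Prop) : Prop :=
  ∃ θ : ℕ → ℝ, (∀ j, j < N → θ j ∈ Icc tb te ∧ B + 1 < F.a (θ j) ∧ F.a (θ j) < 2 * B - 1 ∧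
      Good (θ j)) ∧
    ∀ j, j + 1 < N → θ j < θ (j + 1) ∧ B ^ (1 / 3 : ℝ) ≤ F.a (θ (j + 1)) - F.a (θ j)

/-! ## Package WitFlow-A : general tools -/

theorem le_of_right_le {f : ℝ → ℝ} {u w : ℝ} (huw : u ≤ w) (hc : ContinuousOn f (Icc u w))
    (h : ∀ t ∈ Ico u w, ∃ ε : ℝ, 0 < ε ∧ ∀ t' ∈ Ioo t (t + ε), t' ≤ w → f t' ≤ f t) :
    f w ≤ f u := by
  have hcl : IsClosed ({t | f t ≤ f u} ∩ Icc u w) := by
    have := hc.preimage_isClosed_of_isClosed isClosed_Icc (isClosed_Iic (a := f u))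
    rw [inter_comm]
    exact this
  have key : Icc u w ⊆ {t | f t ≤ f u} := by
    refine hcl.Icc_subset_of_forall_exists_gt (le_refl (f u)) ?_
    rintro x ⟨hx, hxI⟩ y hy
    obtain ⟨ε, hε, hε'⟩ := h x hxI
    have hy' : x < y := hy
    refine ⟨min (x + ε / 2) (min y w), ?_, ?_, ?_⟩
    · have h1 : min (x + ε / 2) (min y w) ∈ Ioo x (x + ε) := by
        constructor
        · exact lt_min (by linarith) (lt_min hy' hxI.2)
        · exact lt_of_le_of_lt (min_le_left _ _) (by linarith)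
      have h2 : min (x + ε / 2) (min y w) ≤ w := le_trans (min_le_right _ _) (min_le_right _ _)
      exact le_trans (hε' _ h1 h2) hx
    · exact lt_min (by linarith) (lt_min hy' hxI.2)
    · exact le_trans (min_le_right _ _) (min_le_left _ _)
  exact key ⟨huw, le_rfl⟩

theorem LFlow.Reg.a_cont {F : LFlow} {C t0 t1 : ℝ} (h : F.Reg C t0 t1) :
    ContinuousOn F.a (Icc t0 t1) := by
  unfold LFlow.a
  refine ContinuousOn.sub (by fun_prop) ?_
  exact h.I_cont.log fun t ht => (h.I_pos t ht).ne'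

theorem LFlow.Reg.I_eq {F : LFlow} {C t0 t1 : ℝ} (h : F.Reg C t0 t1) {t : ℝ}
    (ht : t ∈ Icc t0 t1) : F.I t = Real.exp (2 * t - F.a t) := by
  unfold LFlow.a
  rw [sub_sub_cancel, Real.exp_log (h.I_pos t ht)]

theorem LFlow.Reg.I_ratio {F : LFlow} {C t0 t1 : ℝ} (h : F.Reg C t0 t1) {t t' : ℝ}
    (ht : t ∈ Icc t0 t1) (ht' : t' ∈ Icc t0 t1) :
    F.I t' ≤ Real.exp ((C + 2) * |t' - t|) * F.I t := by
  rw [h.I_eq ht, h.I_eq ht', ← Real.exp_add]
  refine Real.exp_le_exp.2 ?_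
  have h1 := h.a_lip t ht t' ht'
  have h2 := abs_le.1 h1
  have h3 := le_abs_self (t' - t)
  nlinarith [h2.1, h2.2]

theorem wf_phi_cont {F : LFlow} {C t0 t1 : ℝ} (h : F.Reg C t0 t1) {P As u t : ℝ} (hAs : 0 < As)
    (hu : u ∈ Icc t0 t1) (ht : t ∈ Icc t0 t1) (ha : ∀ v ∈ Icc u t, As ≤ F.a v) :
    ContinuousOn (fun v => F.a v ^ (-P) * F.I v) (Icc u t) := by
  have hsub : Icc u t ⊆ Icc t0 t1 := Icc_subset_Icc hu.1 ht.2
  refine ContinuousOn.mul ?_ (h.I_cont.mono hsub)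
  exact (h.a_cont.mono hsub).rpow_const fun v hv => Or.inl (lt_of_lt_of_le hAs (ha v hv)).ne'

theorem wf_bin_low {F : LFlow} {C t0 t1 : ℝ} (h : F.Reg C t0 t1) {P As u c : ℝ} (hP : 0 ≤ P)
    (hAs : 0 < As) (hu : u ∈ Icc t0 t1) (hc : c ∈ Icc t0 t1) (huc : u ≤ c)
    (ha : ∀ v ∈ Icc u c, As ≤ F.a v) :
    ∫ v in u..c, F.a v ^ (-P) * F.I v ≤ As ^ (-P) * Real.exp (2 * c - As) / 2 := by
  have hsub : Icc u c ⊆ Icc t0 t1 := Icc_subset_Icc hu.1 hc.2
  have hd : ∀ v : ℝ, HasDerivAt (fun v : ℝ => As ^ (-P) * Real.exp (2 * v - As) / 2)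
      (As ^ (-P) * Real.exp (2 * v - As)) v := by
    intro v
    have h1 : HasDerivAt (fun v : ℝ => 2 * v - As) 2 v := by
      simpa using ((hasDerivAt_id v).const_mul 2).sub_const As
    have h2 := (h1.exp.const_mul (As ^ (-P))).div_const 2
    exact h2.congr_deriv (by ring)
  have hint := intervalIntegral.integral_le_sub_of_hasDeriv_right_of_le huc
    (g := fun v : ℝ => As ^ (-P) * Real.exp (2 * v - As) / 2)
    (g' := fun v : ℝ => As ^ (-P) * Real.exp (2 * v - As))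
    (φ := fun v => F.a v ^ (-P) * F.I v)
    (fun v _ => (hd v).continuousAt.continuousWithinAt)
    (fun v _ => (hd v).hasDerivWithinAt)
    ((wf_phi_cont h hAs hu hc ha).integrableOn_Icc) ?_
  · refine le_trans hint ?_
    have : 0 ≤ As ^ (-P) * Real.exp (2 * u - As) / 2 := by positivity
    linarith
  · intro v hv
    have hv' : v ∈ Icc u c := Ioo_subset_Icc_self hv
    rw [h.I_eq (hsub hv')]
    have h1 : F.a v ^ (-P) ≤ As ^ (-P) :=
      Real.rpow_le_rpow_of_nonpos hAs (ha v hv') (by linarith)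
    have h2 : Real.exp (2 * v - F.a v) ≤ Real.exp (2 * v - As) :=
      Real.exp_le_exp.2 (by have := ha v hv'; linarith)
    exact mul_le_mul h1 h2 (Real.exp_pos _).le (by positivity)

theorem wf_bin_high {F : LFlow} {C t0 t1 : ℝ} (h : F.Reg C t0 t1) {P As Ms c t : ℝ} (hP : 2 ≤ P)
    (hAs : 0 < As) (hc : c ∈ Icc t0 t1) (ht : t ∈ Icc t0 t1) (hct : c ≤ t) (hMs : 0 < Ms)
    (hI : ∀ v ∈ Icc c t, F.I v ≤ Ms) (hcA : As ≤ 2 * c - Real.log Ms) :
    ∫ v in c..t, F.a v ^ (-P) * F.I v ≤ Ms * As ^ (1 - P) / 2 := by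
  have hsub : Icc c t ⊆ Icc t0 t1 := Icc_subset_Icc hc.1 ht.2
  have hav : ∀ v ∈ Icc c t, 2 * v - Real.log Ms ≤ F.a v := by
    intro v hv
    unfold LFlow.a
    have := Real.log_le_log (h.I_pos v (hsub hv)) (hI v hv)
    linarith
  have hpos : ∀ v ∈ Icc c t, As ≤ 2 * v - Real.log Ms := by
    intro v hv
    have := hv.1
    linarith
  have ha : ∀ v ∈ Icc c t, As ≤ F.a v := fun v hv => le_trans (hpos v hv) (hav v hv)
  have hP1 : 0 < P - 1 := by linarith
  have hd : ∀ v ∈ Icc c t, HasDerivAt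
      (fun v : ℝ => -Ms * (2 * v - Real.log Ms) ^ (1 - P) / (2 * (P - 1)))
      (Ms * (2 * v - Real.log Ms) ^ (-P)) v := by
    intro v hv
    have hp : 0 < 2 * v - Real.log Ms := lt_of_lt_of_le hAs (hpos v hv)
    have h1 : HasDerivAt (fun v : ℝ => 2 * v - Real.log Ms) 2 v := by
      simpa using ((hasDerivAt_id v).const_mul 2).sub_const (Real.log Ms)
    have h2 := ((h1.rpow_const (p := 1 - P) (Or.inl hp.ne')).const_mul (-Ms)).div_const
      (2 * (P - 1))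
    refine h2.congr_deriv ?_
    have e : (1 - P - 1) = -P := by ring
    rw [e]
    field_simp
    ring
  have hint := intervalIntegral.integral_le_sub_of_hasDeriv_right_of_le hct
    (g := fun v : ℝ => -Ms * (2 * v - Real.log Ms) ^ (1 - P) / (2 * (P - 1)))
    (g' := fun v : ℝ => Ms * (2 * v - Real.log Ms) ^ (-P))
    (φ := fun v => F.a v ^ (-P) * F.I v)
    (fun v hv => (hd v hv).continuousAt.continuousWithinAt)
    (fun v hv => (hd v (Ioo_subset_Icc_self hv)).hasDerivWithinAt)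
    ((wf_phi_cont h hAs hc ht ha).integrableOn_Icc) ?_
  · refine le_trans hint ?_
    have hpt : 0 < 2 * t - Real.log Ms := lt_of_lt_of_le hAs (hpos t ⟨hct, le_rfl⟩)
    have h1 : 0 ≤ Ms * (2 * t - Real.log Ms) ^ (1 - P) / (2 * (P - 1)) := by positivity
    have h2 : (2 * c - Real.log Ms) ^ (1 - P) ≤ As ^ (1 - P) :=
      Real.rpow_le_rpow_of_nonpos hAs hcA (by linarith)
    have h3 : Ms * (2 * c - Real.log Ms) ^ (1 - P) / (2 * (P - 1)) ≤ Ms * As ^ (1 - P) / 2 := by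
      have h4 : 0 ≤ As ^ (1 - P) := by positivity
      calc Ms * (2 * c - Real.log Ms) ^ (1 - P) / (2 * (P - 1))
          ≤ Ms * As ^ (1 - P) / (2 * (P - 1)) := by gcongr
        _ ≤ Ms * As ^ (1 - P) / 2 := by
            apply div_le_div_of_nonneg_left (by positivity) (by norm_num)
            linarith
    have e1 : -Ms * (2 * t - Real.log Ms) ^ (1 - P) / (2 * (P - 1)) =
        -(Ms * (2 * t - Real.log Ms) ^ (1 - P) / (2 * (P - 1))) := by ring
    have e2 : -Ms * (2 * c - Real.log Ms) ^ (1 - P) / (2 * (P - 1)) =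
        -(Ms * (2 * c - Real.log Ms) ^ (1 - P) / (2 * (P - 1))) := by ring
    rw [e1, e2]
    linarith
  · intro v hv
    have hv' : v ∈ Icc c t := Ioo_subset_Icc_self hv
    have hp : 0 < 2 * v - Real.log Ms := lt_of_lt_of_le hAs (hpos v hv')
    have h1 : F.a v ^ (-P) ≤ (2 * v - Real.log Ms) ^ (-P) :=
      Real.rpow_le_rpow_of_nonpos hp (hav v hv') (by linarith)
    rw [mul_comm Ms]
    exact mul_le_mul h1 (hI v hv') (h.I_pos v (hsub hv')).le (by positivity)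

/-- AE (6.5), the time-bin estimate. -/
theorem time_bin {F : LFlow} {C t0 t1 : ℝ} (h : F.Reg C t0 t1) {P As Ms u t : ℝ} (hP : 2 ≤ P)
    (hAs : 1 ≤ As) (hu : u ∈ Icc t0 t1) (ht : t ∈ Icc t0 t1) (hut : u ≤ t)
    (ha : ∀ v ∈ Icc u t, As ≤ F.a v) (hI : ∀ v ∈ Icc u t, F.I v ≤ Ms) :
    ∫ v in u..t, F.a v ^ (-P) * F.I v ≤ As ^ (1 - P) * Ms := by
  have hAs0 : 0 < As := by linarith
  have hMs : 0 < Ms := lt_of_lt_of_le (h.I_pos u hu) (hI u ⟨le_rfl, hut⟩)
  have hA1 : 0 < As ^ (1 - P) := Real.rpow_pos_of_pos hAs0 _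
  have hA2 : As ^ (-P) ≤ As ^ (1 - P) := Real.rpow_le_rpow_of_exponent_le hAs (by linarith)
  have hA0 : 0 < As ^ (-P) := Real.rpow_pos_of_pos hAs0 _
  -- bound of the low part up to a point `c` with `2 c ≤ As + log Ms`
  have low : ∀ c, c ∈ Icc u t → 2 * c ≤ As + Real.log Ms →
      ∫ v in u..c, F.a v ^ (-P) * F.I v ≤ As ^ (1 - P) * Ms / 2 := by
    intro c hc hcv
    have hc' : c ∈ Icc t0 t1 := ⟨le_trans hu.1 hc.1, le_trans hc.2 ht.2⟩
    refine le_trans (wf_bin_low h (by linarith) hAs0 hu hc' hc.1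
      (fun v hv => ha v ⟨hv.1, le_trans hv.2 hc.2⟩)) ?_
    have h1 : Real.exp (2 * c - As) ≤ Ms := by
      calc Real.exp (2 * c - As) ≤ Real.exp (Real.log Ms) := Real.exp_le_exp.2 (by linarith)
        _ = Ms := Real.exp_log hMs
    have h2 : As ^ (-P) * Real.exp (2 * c - As) ≤ As ^ (1 - P) * Ms :=
      mul_le_mul hA2 h1 (Real.exp_pos _).le hA1.le
    linarith
  have high : ∀ c, c ∈ Icc u t → As + Real.log Ms ≤ 2 * c →
      ∫ v in c..t, F.a v ^ (-P) * F.I v ≤ As ^ (1 - P) * Ms / 2 := by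
    intro c hc hcv
    have hc' : c ∈ Icc t0 t1 := ⟨le_trans hu.1 hc.1, le_trans hc.2 ht.2⟩
    refine le_trans (wf_bin_high h hP hAs0 hc' ht hc.2 hMs
      (fun v hv => hI v ⟨le_trans hc.1 hv.1, hv.2⟩) (by linarith)) (le_of_eq (by ring))
  have hpos : 0 < As ^ (1 - P) * Ms := mul_pos hA1 hMs
  by_cases h1 : 2 * t ≤ As + Real.log Ms
  · have := low t ⟨hut, le_rfl⟩ h1
    linarith
  by_cases h2 : As + Real.log Ms ≤ 2 * u
  · have := high u ⟨le_rfl, hut⟩ h2
    linarith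
  have hc : (As + Real.log Ms) / 2 ∈ Icc u t := by
    constructor <;> linarith [not_le.1 h1, not_le.1 h2]
  have hcont := wf_phi_cont (P := P) h hAs0 hu ht ha
  have hi1 : IntervalIntegrable (fun v => F.a v ^ (-P) * F.I v) volume u ((As + Real.log Ms) / 2) :=
    (hcont.mono (Icc_subset_Icc le_rfl hc.2)).intervalIntegrable_of_Icc hc.1
  have hi2 : IntervalIntegrable (fun v => F.a v ^ (-P) * F.I v) volume ((As + Real.log Ms) / 2) t :=
    (hcont.mono (Icc_subset_Icc hc.1 le_rfl)).intervalIntegrable_of_Icc hc.2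
  rw [← intervalIntegral.integral_add_adjacent_intervals hi1 hi2]
  have := low _ hc (by linarith)
  have := high _ hc (by linarith)
  linarith

/-- first time at which the level `lam` is reached. -/
theorem exists_first_passage {F : LFlow} {C t0 t1 : ℝ} (h : F.Reg C t0 t1) {tb te lam : ℝ}
    (hb : tb ∈ Icc t0 t1) (he : te ∈ Icc t0 t1) (hbe : tb ≤ te) (h1 : F.a tb < lam)
    (h2 : lam ≤ F.a te) :
    ∃ θ ∈ Ioc tb te, F.a θ = lam ∧ ∀ t ∈ Ico tb θ, F.a t < lam := by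
  have hsub : Icc tb te ⊆ Icc t0 t1 := Icc_subset_Icc hb.1 he.2
  have hcont : ContinuousOn F.a (Icc tb te) := h.a_cont.mono hsub
  have hcl : IsClosed (Icc tb te ∩ F.a ⁻¹' Ici lam) :=
    hcont.preimage_isClosed_of_isClosed isClosed_Icc isClosed_Ici
  have hne : (Icc tb te ∩ F.a ⁻¹' Ici lam).Nonempty := ⟨te, ⟨hbe, le_rfl⟩, h2⟩
  have hbd : BddBelow (Icc tb te ∩ F.a ⁻¹' Ici lam) := ⟨tb, fun t ht => ht.1.1⟩
  have hmem := hcl.csInf_mem hne hbd
  obtain ⟨θ, hθ⟩ : ∃ θ, θ = sInf (Icc tb te ∩ F.a ⁻¹' Ici lam) := ⟨_, rfl⟩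
  rw [← hθ] at hmem
  obtain ⟨hθI, hθa⟩ := hmem
  have hθa' : lam ≤ F.a θ := hθa
  have hmin : ∀ t ∈ Icc tb te, lam ≤ F.a t → θ ≤ t := by
    intro t ht hta
    rw [hθ]
    exact csInf_le hbd ⟨ht, hta⟩
  have heq : F.a θ = lam := by
    obtain ⟨t, ht, hat⟩ := intermediate_value_Icc hθI.1
      (hcont.mono (Icc_subset_Icc le_rfl hθI.2)) ⟨h1.le, hθa'⟩
    have h3 := hmin t ⟨ht.1, le_trans ht.2 hθI.2⟩ hat.ge
    have h4 : t = θ := le_antisymm ht.2 h3
    rw [← h4]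
    exact hat
  refine ⟨θ, ⟨?_, hθI.2⟩, heq, ?_⟩
  · rcases hθI.1.eq_or_lt with h3 | h3
    · rw [← h3] at heq
      linarith
    · exact h3
  · intro t ht
    by_contra hcon
    have := hmin t ⟨ht.1, le_trans ht.2.le hθI.2⟩ (not_lt.1 hcon)
    linarith [ht.2]

/-- a first passage is a reset (off the reset set `a' = 2 - K < 0`). -/
theorem first_passage_reset {F : LFlow} {C t0 t1 : ℝ} (h : F.Reg C t0 t1) (hK : 2 < F.K)
    {tb θ : ℝ} (hb : tb ∈ Icc t0 t1) (hθ : θ ∈ Icc t0 t1) (hlt : tb < θ)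
    (hfirst : ∀ t ∈ Ico tb θ, F.a t < F.a θ) : F.A θ = F.I θ := by
  by_contra hne
  have hlt' : F.A θ < F.I θ := lt_of_le_of_ne (h.A_le_I θ hθ) hne
  obtain ⟨ε, hε, hε'⟩ := h.nonreset θ hθ hlt'
  have h1 : max tb (θ - ε / 2) < θ := max_lt hlt (by linarith)
  have h2 : tb ≤ max tb (θ - ε / 2) := le_max_left _ _
  have h3 : θ - ε / 2 ≤ max tb (θ - ε / 2) := le_max_right _ _
  generalize max tb (θ - ε / 2) = t' at h1 h2 h3
  have ht' : t' ∈ Icc t0 t1 := ⟨le_trans hb.1 h2, le_trans h1.le hθ.2⟩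
  have h4 := hε' t' ht' (by rw [abs_lt]; constructor <;> linarith)
  have h5 := hfirst t' ⟨h2, h1⟩
  unfold LFlow.a at h5
  rw [h4, Real.log_mul (Real.exp_pos _).ne' (h.I_pos θ hθ).ne', Real.log_exp] at h5
  nlinarith

/-! ## Package WitFlow-B : several wells -/

theorem wf_Z_cont {F : LFlow} {C t0 t1 : ℝ} (h : F.Reg C t0 t1) : ContinuousOn F.Z (Icc t0 t1) :=
  fun t ht => (h.dZ t ht).continuousAt.continuousWithinAt

theorem wf_A_cont {F : LFlow} {C t0 t1 : ℝ} (h : F.Reg C t0 t1) : ContinuousOn F.A (Icc t0 t1) :=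
  fun t ht => (h.dA t ht).continuousAt.continuousWithinAt

/-- growth of `Z` when `Ż ≤ a^{-P} I`. -/
theorem wf_Z_growth {F : LFlow} {C t0 t1 : ℝ} (h : F.Reg C t0 t1) {P As Ms u t : ℝ} (hP : 2 ≤ P)
    (hAs : 1 ≤ As) (hu : u ∈ Icc t0 t1) (ht : t ∈ Icc t0 t1) (hut : u ≤ t)
    (ha : ∀ v ∈ Icc u t, As ≤ F.a v) (hI : ∀ v ∈ Icc u t, F.I v ≤ Ms)
    (hZd : ∀ v ∈ Icc u t, F.Zd v ≤ F.a v ^ (-P) * F.I v) :
    F.Z t - F.Z u ≤ As ^ (1 - P) * Ms := by
  have hsub : Icc u t ⊆ Icc t0 t1 := Icc_subset_Icc hu.1 ht.2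
  refine le_trans ?_ (time_bin h hP hAs hu ht hut ha hI)
  exact intervalIntegral.sub_le_integral_of_hasDeriv_right_of_le hut ((wf_Z_cont h).mono hsub)
    (fun v hv => (h.dZ v (hsub (Ioo_subset_Icc_self hv))).hasDerivWithinAt)
    ((wf_phi_cont h (by linarith) hu ht ha).integrableOn_Icc)
    (fun v hv => hZd v (Ioo_subset_Icc_self hv))

theorem wf_Z_le_of_Zd_le {F : LFlow} {C t0 t1 : ℝ} (h : F.Reg C t0 t1) {u t c : ℝ}
    (hu : u ∈ Icc t0 t1) (ht : t ∈ Icc t0 t1) (hut : u ≤ t) (hc : ∀ v ∈ Icc u t, F.Zd v ≤ c) :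
    F.Z t - F.Z u ≤ c * (t - u) := by
  have hsub : Icc u t ⊆ Icc t0 t1 := Icc_subset_Icc hu.1 ht.2
  have := intervalIntegral.sub_le_integral_of_hasDeriv_right_of_le hut ((wf_Z_cont h).mono hsub)
    (fun v hv => (h.dZ v (hsub (Ioo_subset_Icc_self hv))).hasDerivWithinAt)
    (φ := fun _ => c) (integrableOn_const (by simp))
    (fun v hv => hc v (Ioo_subset_Icc_self hv))
  rw [intervalIntegral.integral_const, smul_eq_mul, mul_comm] at this
  exact this

theorem wf_rpow_le_inv {B e : ℝ} (hB : 1 ≤ B) (he : e ≤ -1) : B ^ e ≤ B⁻¹ := by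
  rw [← Real.rpow_neg_one]
  exact Real.rpow_le_rpow_of_exponent_le hB he

/-- AE (6.7): quasi-monotonicity of the envelope when `Ż ≤ a^{-P} I` and `Z(t0)` is small. -/
theorem quasi_mono {F : LFlow} {C t0 t1 : ℝ} (h : F.Reg C t0 t1) {P As : ℝ} (hP : 2 ≤ P)
    (hAs : 8 ≤ As) (ha : ∀ t ∈ Icc t0 t1, As ≤ F.a t) (hZ0 : F.Z t0 ≤ As ^ (-P) * F.I t0)
    (hZd : ∀ t ∈ Icc t0 t1, F.Zd t ≤ F.a t ^ (-P) * F.I t) :
    ∀ u ∈ Icc t0 t1, ∀ t ∈ Icc t0 t1, u ≤ t → F.I u ≤ 2 * F.I t := by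
  intro u hu t ht hut
  have hAs1 : 1 ≤ As := by linarith
  have hsub : Icc t0 t ⊆ Icc t0 t1 := Icc_subset_Icc le_rfl ht.2
  obtain ⟨x, hx, hmax⟩ := isCompact_Icc.exists_isMaxOn (nonempty_Icc.2 ht.1) (h.I_cont.mono hsub)
  have hmax' : ∀ v ∈ Icc t0 t, F.I v ≤ F.I x := fun v hv => hmax hv
  have hx' := hsub hx
  have hIx := h.I_pos x hx'
  have hIt := h.I_pos t ht
  have e1 : As ^ (-P) ≤ 1 / 8 := by
    refine le_trans (wf_rpow_le_inv hAs1 (by linarith)) ?_
    rw [inv_le_comm₀ (by linarith) (by norm_num)]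
    linarith
  have e2 : As ^ (1 - P) ≤ 1 / 8 := by
    refine le_trans (wf_rpow_le_inv hAs1 (by linarith)) ?_
    rw [inv_le_comm₀ (by linarith) (by norm_num)]
    linarith
  have e1' : 0 ≤ As ^ (-P) := by positivity
  have e2' : 0 ≤ As ^ (1 - P) := by positivity
  have key : F.I x ≤ F.I t + F.I x / 4 := by
    rcases h.history x hx' t ht hx.2 with h1 | ⟨v, hv, h1⟩
    · linarith
    · have hv' : v ∈ Icc t0 t1 := ⟨le_trans hx.1 hv.1, le_trans hv.2 ht.2⟩
      have hv0 : v ∈ Icc t0 t := ⟨hv'.1, hv.2⟩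
      have h2 := h.mono v hv' t ht hv.2
      have h3 := h.Z_nonneg t ht
      have h4 := h.A_le_I t ht
      have ht0 : t0 ∈ Icc t0 t1 := ⟨le_rfl, h.le⟩
      have h5 := wf_Z_growth h hP hAs1 ht0 hv' hv'.1
        (fun w hw => ha w ⟨hw.1, le_trans hw.2 hv'.2⟩)
        (fun w hw => hmax' w ⟨hw.1, le_trans hw.2 hv.2⟩)
        (fun w hw => hZd w ⟨hw.1, le_trans hw.2 hv'.2⟩)
      have h6 : F.I t0 ≤ F.I x := hmax' t0 ⟨le_rfl, ht.1⟩
      have h7 : As ^ (-P) * F.I t0 ≤ 1 / 8 * F.I x :=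
        mul_le_mul e1 h6 (h.I_pos t0 ht0).le (by norm_num)
      have h8 : As ^ (1 - P) * F.I x ≤ 1 / 8 * F.I x := mul_le_mul_of_nonneg_right e2 hIx.le
      linarith
  have := hmax' u ⟨hu.1, hut⟩
  linarith

theorem wf_ZI_cont {F : LFlow} {C t0 t1 : ℝ} (h : F.Reg C t0 t1) :
    ContinuousOn (fun t => F.Zd t / F.I t) (Icc t0 t1) := by
  have : LipschitzOnWith (Real.toNNReal C) (fun t => F.Zd t / F.I t) (Icc t0 t1) := by
    refine LipschitzOnWith.of_dist_le_mul fun x hx y hy => ?_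
    rw [Real.dist_eq, Real.dist_eq]
    refine le_trans (h.ZI_lip y hy x hx) ?_
    exact mul_le_mul_of_nonneg_right (Real.le_coe_toNNReal C) (abs_nonneg _)
  exact this.continuousOn

theorem wf_Zd_cont {F : LFlow} {C t0 t1 : ℝ} (h : F.Reg C t0 t1) :
    ContinuousOn F.Zd (Icc t0 t1) := by
  refine ((wf_ZI_cont h).mul h.I_cont).congr fun t ht => ?_
  exact (div_mul_cancel₀ _ (h.I_pos t ht).ne').symm

/-- the total time-weighted negative part of `Ż / I` while `I ≤ B^{10} I(tb)`. -/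
theorem neg_part_phase1 {F : LFlow} {C t0 t1 : ℝ} (h : F.Reg C t0 t1) {P B tb te ts : ℝ}
    (hP : 13 ≤ P) (hB : 8 ≤ B) (hb : tb ∈ Icc t0 t1) (he : te ∈ Icc t0 t1) (hT : F.Trav B tb te)
    (hq : ∀ u ∈ Icc t0 t1, ∀ t ∈ Icc t0 t1, u ≤ t → F.I u ≤ 2 * F.I t)
    (hZd : ∀ t ∈ Icc tb te, F.Zd t ≤ F.a t ^ (-P) * F.I t) (hts : ts ∈ Icc tb te)
    (hI : ∀ t ∈ Icc tb ts, F.I t ≤ B ^ (10 : ℝ) * F.I tb) :
    ∫ t in tb..ts, max (-(F.Zd t / F.I t)) 0 ≤ 3 := by
  have hB1 : 1 ≤ B := by linarith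
  have hB0 : 0 < B := by linarith
  have hts' : ts ∈ Icc t0 t1 := ⟨le_trans hb.1 hts.1, le_trans hts.2 he.2⟩
  have hsub : Icc tb ts ⊆ Icc t0 t1 := Icc_subset_Icc hb.1 hts'.2
  have hsub2 : Icc tb ts ⊆ Icc tb te := Icc_subset_Icc le_rfl hts.2
  have hIb := h.I_pos tb hb
  have haB : ∀ v ∈ Icc tb ts, B ≤ F.a v := fun v hv => (hT.band v (hsub2 hv)).1
  have hφc := wf_phi_cont (P := P) h hB0 hb hts' haB
  have hφi : IntervalIntegrable (fun v => F.a v ^ (-P) * F.I v) volume tb ts :=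
    hφc.intervalIntegrable_of_Icc hts.1
  have hZi : IntervalIntegrable F.Zd volume tb ts :=
    ((wf_Zd_cont h).mono hsub).intervalIntegrable_of_Icc hts.1
  have hψc : ContinuousOn (fun t => max (-(F.Zd t / F.I t)) 0) (Icc tb ts) :=
    ContinuousOn.sup (((wf_ZI_cont h).mono hsub).fun_neg) continuousOn_const
  have hψi : IntervalIntegrable (fun t => max (-(F.Zd t / F.I t)) 0) volume tb ts :=
    hψc.intervalIntegrable_of_Icc hts.1
  have hpt : ∀ v ∈ Icc tb ts, max (-(F.Zd v / F.I v)) 0 ≤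
      2 / F.I tb * (F.a v ^ (-P) * F.I v - F.Zd v) := by
    intro v hv
    have hi := h.I_pos v (hsub hv)
    have h1 := hq tb hb v (hsub hv) hv.1
    have h2 := hZd v (hsub2 hv)
    have ha0 : 0 < F.a v := lt_of_lt_of_le hB0 (haB v hv)
    have h3 : 0 ≤ F.a v ^ (-P) * F.I v := by positivity
    have h4 : 0 ≤ 2 / F.I tb := by positivity
    refine max_le ?_ (mul_nonneg h4 (by linarith))
    by_cases hd : 0 ≤ F.Zd v
    · have : 0 ≤ F.Zd v / F.I v := div_nonneg hd hi.le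
      have := mul_nonneg h4 (sub_nonneg.2 h2)
      linarith
    · have hd' : 0 ≤ -F.Zd v := by linarith
      have h5 : (F.I v)⁻¹ ≤ 2 / F.I tb := by
        rw [inv_le_comm₀ hi (by positivity), inv_div]
        linarith
      calc -(F.Zd v / F.I v) = (F.I v)⁻¹ * (-F.Zd v) := by rw [div_eq_mul_inv]; ring
        _ ≤ 2 / F.I tb * (-F.Zd v) := mul_le_mul_of_nonneg_right h5 hd'
        _ ≤ _ := mul_le_mul_of_nonneg_left (by linarith) h4
  have h1 : ∫ t in tb..ts, max (-(F.Zd t / F.I t)) 0 ≤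
      ∫ v in tb..ts, 2 / F.I tb * (F.a v ^ (-P) * F.I v - F.Zd v) :=
    intervalIntegral.integral_mono_on hts.1 hψi ((hφi.sub hZi).const_mul _) hpt
  rw [intervalIntegral.integral_const_mul, intervalIntegral.integral_sub hφi hZi,
    intervalIntegral.integral_eq_sub_of_hasDerivAt
      (fun v hv => h.dZ v (hsub (by rwa [uIcc_of_le hts.1] at hv))) hZi] at h1
  refine le_trans h1 ?_
  have h2 := time_bin h (by linarith : (2 : ℝ) ≤ P) hB1 hb hts' hts.1 haB hI
  have h3 : B ^ (1 - P) * (B ^ (10 : ℝ) * F.I tb) ≤ 1 / 8 * F.I tb := by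
    rw [← mul_assoc, ← Real.rpow_add hB0]
    refine mul_le_mul_of_nonneg_right ?_ hIb.le
    refine le_trans (wf_rpow_le_inv hB1 (by linarith)) ?_
    rw [inv_le_comm₀ hB0 (by norm_num)]
    linarith
  have h4 := h.Z_nonneg ts hts'
  have h5 := le_trans (h.Z_le_A tb hb) (h.A_le_I tb hb)
  calc 2 / F.I tb * ((∫ v in tb..ts, F.a v ^ (-P) * F.I v) - (F.Z ts - F.Z tb))
      ≤ 2 / F.I tb * (1 / 8 * F.I tb + F.I tb) :=
        mul_le_mul_of_nonneg_left (by linarith) (by positivity)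
    _ = 9 / 4 := by field_simp; norm_num
    _ ≤ 3 := by norm_num

/-- after the growth `I ≥ B^{10} I(tb)` no time with `Ż / I < -h` exists. -/
theorem no_bad_phase2 (C : ℝ) (hC : 1 ≤ C) :
    ∃ B0 : ℝ, ∀ (F : LFlow) (t0 t1 P B tb te ts hh t : ℝ), F.Reg C t0 t1 → 13 ≤ P → B0 ≤ B →
      tb ∈ Icc t0 t1 → te ∈ Icc t0 t1 → F.Trav B tb te →
      (∀ u ∈ Icc t0 t1, ∀ t ∈ Icc t0 t1, u ≤ t → F.I u ≤ 2 * F.I t) →
      (∀ t ∈ Icc tb te, F.Zd t ≤ F.a t ^ (-P) * F.I t) → ts ∈ Icc tb te →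
      B ^ (10 : ℝ) * F.I tb ≤ F.I ts → B ^ (-2 : ℝ) ≤ hh → hh ≤ 1 → t ∈ Icc ts te →
      F.a t < 2 * B - 1 → -hh ≤ F.Zd t / F.I t := by
  refine ⟨max 8 (32 * C), ?_⟩
  intro F t0 t1 P B tb te ts hh t h hP hB hb he hT hq hZd hts hgrow hh1 hh2 ht hat
  have hB8 : 8 ≤ B := le_trans (le_max_left _ _) hB
  have hBC : 32 * C ≤ B := le_trans (le_max_right _ _) hB
  have hB1 : 1 ≤ B := by linarith
  have hB0 : 0 < B := by linarith
  have hC0 : 0 < C := by linarith
  by_contra hcon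
  have hcon' : F.Zd t / F.I t < -hh := not_le.1 hcon
  have hts' : ts ∈ Icc t0 t1 := ⟨le_trans hb.1 hts.1, le_trans hts.2 he.2⟩
  have htbte : t ∈ Icc tb te := ⟨le_trans hts.1 ht.1, ht.2⟩
  have ht' : t ∈ Icc t0 t1 := ⟨le_trans hb.1 htbte.1, le_trans ht.2 he.2⟩
  have hIt := h.I_pos t ht'
  have hhh0 : 0 < hh := lt_of_lt_of_le (Real.rpow_pos_of_pos hB0 _) hh1
  have e10 : B ^ (10 : ℝ) = B ^ 10 := by
    rw [← Real.rpow_natCast]
    norm_num
  have e2 : B ^ (-2 : ℝ) = (B ^ 2)⁻¹ := by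
    rw [Real.rpow_neg hB0.le, ← Real.rpow_natCast]
    norm_num
  -- `Z t` is small
  have hZt : F.Z t ≤ 4 * (B ^ 10)⁻¹ * F.I t := by
    have h1 := wf_Z_growth h (by linarith : (2 : ℝ) ≤ P) hB1 hb ht' htbte.1
      (fun v hv => (hT.band v ⟨hv.1, le_trans hv.2 ht.2⟩).1)
      (fun v hv => hq v ⟨le_trans hb.1 hv.1, le_trans hv.2 ht'.2⟩ t ht' hv.2)
      (fun v hv => hZd v ⟨hv.1, le_trans hv.2 ht.2⟩)
    have h2 := le_trans (h.Z_le_A tb hb) (h.A_le_I tb hb)
    have h3 := hq ts hts' t ht' ht.1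
    have h4 : F.I tb ≤ (B ^ 10)⁻¹ * (2 * F.I t) := by
      rw [e10] at hgrow
      rw [inv_mul_eq_div, le_div_iff₀ (by positivity)]
      linarith
    have h5 : B ^ (1 - P) ≤ (B ^ 10)⁻¹ := by
      rw [← e10, ← Real.rpow_neg hB0.le]
      exact Real.rpow_le_rpow_of_exponent_le hB1 (by linarith)
    have h6 : B ^ (1 - P) * (2 * F.I t) ≤ (B ^ 10)⁻¹ * (2 * F.I t) :=
      mul_le_mul_of_nonneg_right h5 (by positivity)
    linarith
  -- room to the right
  have hroom : t + hh / (2 * C) ≤ te := by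
    have h1 := h.a_lip t ht' te he
    rw [hT.a_te, abs_of_nonneg (by linarith : (0 : ℝ) ≤ 2 * B - F.a t),
      abs_of_nonneg (by linarith [ht.2] : (0 : ℝ) ≤ te - t)] at h1
    have h2 : hh / (2 * C) ≤ 1 / C := by
      rw [div_le_div_iff₀ (by positivity) hC0]
      nlinarith
    have h3 : 1 / C < te - t := by
      rw [div_lt_iff₀ hC0]
      linarith
    linarith
  have hτ : 0 < hh / (2 * C) := by positivity
  have htτ : t + hh / (2 * C) ∈ Icc t0 t1 := ⟨by linarith [ht'.1], le_trans hroom he.2⟩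
  have hder : ∀ v ∈ Icc t (t + hh / (2 * C)), F.Zd v ≤ -(hh * F.I t / 4) := by
    intro v hv
    have hv' : v ∈ Icc t0 t1 := ⟨le_trans ht'.1 hv.1, le_trans hv.2 htτ.2⟩
    have hi := h.I_pos v hv'
    have h1 := h.ZI_lip t ht' v hv'
    rw [abs_of_nonneg (by linarith [hv.1] : (0 : ℝ) ≤ v - t)] at h1
    have h2 := (abs_le.1 h1).2
    have h3 : C * (v - t) ≤ hh / 2 := by
      have : v - t ≤ hh / (2 * C) := by linarith [hv.2]
      calc C * (v - t) ≤ C * (hh / (2 * C)) := mul_le_mul_of_nonneg_left this hC0.le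
        _ = hh / 2 := by field_simp
    have h4 : F.Zd v / F.I v ≤ -(hh / 2) := by linarith
    rw [div_le_iff₀ hi] at h4
    have h5 := hq t ht' v hv' hv.1
    nlinarith
  have h7 := wf_Z_le_of_Zd_le h ht' htτ (by linarith) hder
  have h8 := h.Z_nonneg _ htτ
  have h9 : t + hh / (2 * C) - t = hh / (2 * C) := by ring
  rw [h9] at h7
  -- numerical contradiction
  have h10 : hh * F.I t / 4 * (hh / (2 * C)) ≤ 4 * (B ^ 10)⁻¹ * F.I t := by linarith
  have h11 : hh ^ 2 ≤ 32 * C * (B ^ 10)⁻¹ := by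
    have e : hh * F.I t / 4 * (hh / (2 * C)) = hh ^ 2 / (8 * C) * F.I t := by
      field_simp
      ring
    rw [e] at h10
    have h12 := le_of_mul_le_mul_right h10 hIt
    rw [div_le_iff₀ (by positivity)] at h12
    linarith
  have h13 : ((B ^ 2)⁻¹) ^ 2 ≤ hh ^ 2 := by
    rw [e2] at hh1
    exact pow_le_pow_left₀ (by positivity) hh1 2
  have h14 : ((B ^ 2)⁻¹) ^ 2 ≤ 32 * C * (B ^ 10)⁻¹ := le_trans h13 h11
  have h15 : B ^ 6 ≤ 32 * C := by
    have e3 : ((B ^ 2)⁻¹) ^ 2 = B ^ 6 * (B ^ 10)⁻¹ := by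
      field_simp
    rw [e3] at h14
    exact le_of_mul_le_mul_right h14 (by positivity)
  have h16 : B < B ^ 6 := by
    have : B ^ 1 < B ^ 6 := pow_lt_pow_right₀ (by linarith) (by norm_num)
    simpa using this
  linarith

/-- restriction of the regularity to a subinterval. -/
theorem wf_reg_sub {F : LFlow} {C t0 t1 : ℝ} (h : F.Reg C t0 t1) {s0 s1 : ℝ} (h0 : t0 ≤ s0)
    (h01 : s0 ≤ s1) (h1 : s1 ≤ t1) : F.Reg C s0 s1 := by
  have hsub : Icc s0 s1 ⊆ Icc t0 t1 := Icc_subset_Icc h0 h1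
  refine ⟨h01, fun t ht => h.dA t (hsub ht), fun t ht => h.dZ t (hsub ht),
    fun t ht => h.I_pos t (hsub ht), h.I_cont.mono hsub, fun t ht => h.Z_nonneg t (hsub ht),
    fun t ht => h.Z_le_A t (hsub ht), fun t ht => h.A_le_I t (hsub ht),
    fun t ht t' ht' => h.mono t (hsub ht) t' (hsub ht'),
    fun t ht t' ht' => h.I_mono t (hsub ht) t' (hsub ht'), ?_,
    fun u hu t ht => h.history u (hsub hu) t (hsub ht), fun t ht => h.bound t (hsub ht),
    fun t ht t' ht' => h.a_lip t (hsub ht) t' (hsub ht'),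
    fun t ht t' ht' => h.ZI_lip t (hsub ht) t' (hsub ht')⟩
  intro t ht hlt
  obtain ⟨ε, hε, hε'⟩ := h.nonreset t (hsub ht) hlt
  exact ⟨ε, hε, fun t' ht' => hε' t' (hsub ht')⟩

/-- greedy selection of spaced good indices. -/
theorem wf_select (Bad : ℕ → Prop) [DecidablePred Bad] (n r : ℕ) (hr : 1 ≤ r) :
    ∀ (N s : ℕ), s + N * r + ((Finset.Ico s n).filter Bad).card ≤ n →
      ∃ idx : ℕ → ℕ, (∀ j, j < N → s ≤ idx j ∧ idx j < n ∧ ¬ Bad (idx j)) ∧
        ∀ j, j + 1 < N → idx j + r ≤ idx (j + 1) := by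
  intro N
  induction N with
  | zero =>
    intro s _
    exact ⟨fun _ => 0, fun j hj => absurd hj (Nat.not_lt_zero _), fun j hj => absurd hj (Nat.not_lt_zero _)⟩
  | succ N ih =>
    intro s hs
    have hex : ∃ i, s ≤ i ∧ i < n ∧ ¬ Bad i := by
      by_contra hcon
      have hall : (Finset.Ico s n).filter Bad = Finset.Ico s n := by
        refine Finset.filter_true_of_mem fun i hi => ?_
        rw [Finset.mem_Ico] at hi
        by_contra hb
        exact hcon ⟨i, hi.1, hi.2, hb⟩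
      rw [hall, Nat.card_Ico] at hs
      have : 1 ≤ (N + 1) * r := Nat.mul_pos (Nat.succ_pos _) hr
      omega
    obtain ⟨hi1, hi2, hi3⟩ := Nat.find_spec hex
    have hmin : ∀ k, s ≤ k → k < Nat.find hex → Bad k := by
      intro k hk1 hk2
      by_contra hb
      exact Nat.find_min hex hk2 ⟨hk1, lt_trans hk2 hi2, hb⟩
    generalize Nat.find hex = i at hi1 hi2 hi3 hmin
    have hcard : (i - s) + ((Finset.Ico (i + r) n).filter Bad).card ≤
        ((Finset.Ico s n).filter Bad).card := by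
      have h1 : (Finset.Ico s i) ∪ ((Finset.Ico (i + r) n).filter Bad) ⊆
          (Finset.Ico s n).filter Bad := by
        intro k hk
        rw [Finset.mem_union] at hk
        rw [Finset.mem_filter, Finset.mem_Ico]
        rcases hk with hk | hk
        · rw [Finset.mem_Ico] at hk
          exact ⟨⟨hk.1, lt_trans hk.2 hi2⟩, hmin k hk.1 hk.2⟩
        · rw [Finset.mem_filter, Finset.mem_Ico] at hk
          exact ⟨⟨by omega, hk.1.2⟩, hk.2⟩
      have h2 : Disjoint (Finset.Ico s i) ((Finset.Ico (i + r) n).filter Bad) := by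
        rw [Finset.disjoint_left]
        intro k hk hk'
        rw [Finset.mem_Ico] at hk
        rw [Finset.mem_filter, Finset.mem_Ico] at hk'
        omega
      have h3 := Finset.card_le_card h1
      rw [Finset.card_union_of_disjoint h2, Nat.card_Ico] at h3
      exact h3
    have hs' : (i + r) + N * r + ((Finset.Ico (i + r) n).filter Bad).card ≤ n := by
      have : (N + 1) * r = N * r + r := by ring
      omega
    obtain ⟨idx, h1, h2⟩ := ih (i + r) hs'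
    refine ⟨fun j => match j with | 0 => i | (j + 1) => idx j, ?_, ?_⟩
    · intro j hj
      cases j with
      | zero => exact ⟨hi1, hi2, hi3⟩
      | succ j =>
        obtain ⟨a1, a2, a3⟩ := h1 j (by omega)
        exact ⟨by simp only; omega, a2, a3⟩
    · intro j hj
      cases j with
      | zero => exact (h1 0 (by omega)).1
      | succ j => exact h2 j (by omega)

/-- at a bad time the accumulated negative part is at most `3`. -/
theorem wf_bad_gamma (C : ℝ) (hC : 1 ≤ C) :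
    ∃ B0 : ℝ, ∀ (F : LFlow) (t0 t1 P B tb te hh θ : ℝ), F.Reg C t0 t1 → 13 ≤ P → B0 ≤ B →
      tb ∈ Icc t0 t1 → te ∈ Icc t0 t1 → F.Trav B tb te →
      (∀ u ∈ Icc t0 t1, ∀ t ∈ Icc t0 t1, u ≤ t → F.I u ≤ 2 * F.I t) →
      (∀ t ∈ Icc tb te, F.Zd t ≤ F.a t ^ (-P) * F.I t) → B ^ (-2 : ℝ) ≤ hh → hh ≤ 1 →
      θ ∈ Icc tb te → F.a θ < 2 * B - 1 → F.Zd θ / F.I θ < -hh →
      ∫ t in tb..θ, max (-(F.Zd t / F.I t)) 0 ≤ 3 := by
  obtain ⟨B1, hB1⟩ := no_bad_phase2 C hC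
  refine ⟨max B1 8, ?_⟩
  intro F t0 t1 P B tb te hh θ h hP hB hb he hT hq hZd hh1 hh2 hθ haθ hbad
  by_cases hcase : ∀ t ∈ Icc tb θ, F.I t ≤ B ^ (10 : ℝ) * F.I tb
  · exact neg_part_phase1 h hP (le_trans (le_max_right _ _) hB) hb he hT hq hZd hθ hcase
  · exfalso
    push Not at hcase
    obtain ⟨ts, hts, hts'⟩ := hcase
    have := hB1 F t0 t1 P B tb te ts hh θ h hP (le_trans (le_max_left _ _) hB) hb he hT hq hZd
      ⟨hts.1, le_trans hts.2 hθ.2⟩ hts'.le hh1 hh2 ⟨hts.2, hθ.2⟩ haθ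
    linarith

/-- counting of bad indices. -/
theorem wf_count {g : ℝ → ℝ} {tb te c d : ℝ} (hg : ContinuousOn g (Icc tb te))
    (hg0 : ∀ t ∈ Icc tb te, 0 ≤ g t) (hc : 0 ≤ c) (hd : 0 ≤ d)
    (Bad : ℕ → Prop) [DecidablePred Bad] (n : ℕ) (θ : ℕ → ℝ) (hθ : ∀ i, i ≤ n → θ i ∈ Icc tb te)
    (hstep : ∀ i, i < n → θ i + d ≤ θ (i + 1))
    (hbad1 : ∀ i, i < n → Bad i → ∀ t ∈ Icc (θ i) (θ i + d), c ≤ g t)
    (hbad2 : ∀ i, i < n → Bad i → ∫ t in tb..θ i, g t ≤ 3) :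
    c * d * ((Finset.range n).filter Bad).card ≤ 3 + c * d := by
  have hsucc : ∀ i, ((Finset.range (i + 1)).filter Bad).card =
      ((Finset.range i).filter Bad).card + if Bad i then 1 else 0 := by
    intro i
    rw [Finset.range_add_one, Finset.filter_insert]
    split_ifs with hb
    · rw [Finset.card_insert_of_notMem (by simp)]
    · simp
  have hint : ∀ x ∈ Icc tb te, ∀ y ∈ Icc tb te, IntervalIntegrable g volume x y := by
    intro x hx y hy
    refine (hg.mono ?_).intervalIntegrable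
    exact uIcc_subset_Icc hx hy
  have hnn : ∀ x ∈ Icc tb te, ∀ y ∈ Icc tb te, x ≤ y → 0 ≤ ∫ t in x..y, g t := by
    intro x hx y hy hxy
    exact intervalIntegral.integral_nonneg hxy fun t ht => hg0 t ⟨le_trans hx.1 ht.1, le_trans ht.2 hy.2⟩
  have hb0 : ∀ i, i ≤ n → tb ∈ Icc tb te := fun i hi => ⟨le_rfl, le_trans (hθ i hi).1 (hθ i hi).2⟩
  have h1 : ∀ i, i ≤ n → c * d * ((Finset.range i).filter Bad).card ≤ ∫ t in tb..θ i, g t := by
    intro i
    induction i with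
    | zero =>
      intro hi
      simp only [Finset.range_zero, Finset.filter_empty, Finset.card_empty, Nat.cast_zero, mul_zero]
      exact hnn tb (hb0 0 hi) _ (hθ 0 hi) (hθ 0 hi).1
    | succ i ih =>
      intro hi
      have hi' : i ≤ n := by omega
      have hlt : i < n := by omega
      have ih' := ih hi'
      have e1 : ∫ t in tb..θ (i + 1), g t = (∫ t in tb..θ i, g t) + ∫ t in θ i..θ (i + 1), g t :=
        (intervalIntegral.integral_add_adjacent_intervals (hint _ (hb0 i hi') _ (hθ i hi'))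
          (hint _ (hθ i hi') _ (hθ _ hi))).symm
      have hst := hstep i hlt
      have hmid : θ i + d ∈ Icc tb te := ⟨by linarith [(hθ i hi').1], le_trans hst (hθ _ hi).2⟩
      rw [hsucc, e1]
      split_ifs with hb
      · have e2 : ∫ t in θ i..θ (i + 1), g t =
            (∫ t in θ i..θ i + d, g t) + ∫ t in (θ i + d)..θ (i + 1), g t :=
          (intervalIntegral.integral_add_adjacent_intervals (hint _ (hθ i hi') _ hmid)
            (hint _ hmid _ (hθ _ hi))).symm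
        have e3 : c * d ≤ ∫ t in θ i..θ i + d, g t := by
          have := intervalIntegral.integral_mono_on (f := fun _ => c) (g := g) (a := θ i)
            (b := θ i + d) (by linarith) intervalIntegrable_const (hint _ (hθ i hi') _ hmid)
            (fun t ht => hbad1 i hlt hb t ht)
          rw [intervalIntegral.integral_const, smul_eq_mul] at this
          linarith
        have e4 := hnn _ hmid _ (hθ _ hi) hst
        push_cast
        linarith
      · have e4 := hnn _ (hθ i hi') _ (hθ _ hi) (by linarith)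
        push_cast
        linarith
  have hcd : 0 ≤ c * d := mul_nonneg hc hd
  have h2 : ∀ i, i ≤ n → c * d * ((Finset.range i).filter Bad).card ≤ 3 + c * d := by
    intro i
    induction i with
    | zero =>
      intro _
      simp only [Finset.range_zero, Finset.filter_empty, Finset.card_empty, Nat.cast_zero, mul_zero]
      linarith
    | succ i ih =>
      intro hi
      have hi' : i ≤ n := by omega
      have hlt : i < n := by omega
      rw [hsucc]
      split_ifs with hb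
      · have := h1 i hi'
        have := hbad2 i hlt hb
        push_cast
        linarith
      · simpa using ih hi'
  exact h2 n le_rfl

/-- the first passages of the levels `B + 1 + (i + 1) η`. -/
theorem wf_passages {F : LFlow} {C t0 t1 : ℝ} (h : F.Reg C t0 t1) (hC : 1 ≤ C) (hK : 2 < F.K)
    {B tb te η : ℝ} (hb : tb ∈ Icc t0 t1) (he : te ∈ Icc t0 t1) (hT : F.Trav B tb te) (hη : 0 < η)
    (n : ℕ) (hn : ((n : ℝ) + 1) * η ≤ B - 1) :
    ∃ θ : ℕ → ℝ, (∀ i, i ≤ n → θ i ∈ Ioc tb te ∧ F.a (θ i) = B + 1 + ((i : ℝ) + 1) * η ∧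
        F.A (θ i) = F.I (θ i)) ∧ (∀ i k, i < k → k ≤ n → θ i < θ k) ∧
      ∀ i, i < n → θ i + η / C ≤ θ (i + 1) := by
  have hex : ∀ i : ℕ, ∃ θ : ℝ, i ≤ n → θ ∈ Ioc tb te ∧ F.a θ = B + 1 + ((i : ℝ) + 1) * η ∧
      ∀ t ∈ Ico tb θ, F.a t < B + 1 + ((i : ℝ) + 1) * η := by
    intro i
    by_cases hi : i ≤ n
    · have hi' : (i : ℝ) ≤ n := by exact_mod_cast hi
      have h1 : ((i : ℝ) + 1) * η ≤ ((n : ℝ) + 1) * η :=
        mul_le_mul_of_nonneg_right (by linarith) hη.le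
      have h2 : 0 < ((i : ℝ) + 1) * η := by positivity
      obtain ⟨θ, a1, a2, a3⟩ := exists_first_passage h hb he hT.lt.le
        (lam := B + 1 + ((i : ℝ) + 1) * η) (by rw [hT.a_tb]; linarith) (by rw [hT.a_te]; linarith)
      exact ⟨θ, fun _ => ⟨a1, a2, a3⟩⟩
    · exact ⟨0, fun h => absurd h hi⟩
  choose θ hθ using hex
  have hI : ∀ i, i ≤ n → θ i ∈ Icc t0 t1 := fun i hi =>
    ⟨le_trans hb.1 (hθ i hi).1.1.le, le_trans (hθ i hi).1.2 he.2⟩
  have hmono : ∀ i k, i < k → k ≤ n → θ i < θ k := by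
    intro i k hik hk
    by_contra hcon
    have hle : θ k ≤ θ i := not_lt.1 hcon
    have hi : i ≤ n := by omega
    have hik' : (i : ℝ) < k := by exact_mod_cast hik
    have h1 : ((i : ℝ) + 1) * η < ((k : ℝ) + 1) * η := mul_lt_mul_of_pos_right (by linarith) hη
    rcases hle.eq_or_lt with h2 | h2
    · have e1 := (hθ i hi).2.1
      have e2 := (hθ k hk).2.1
      rw [h2] at e2
      linarith
    · have e1 := (hθ i hi).2.2 (θ k) ⟨(hθ k hk).1.1.le, h2⟩
      have e2 := (hθ k hk).2.1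
      linarith
  refine ⟨θ, fun i hi => ⟨(hθ i hi).1, (hθ i hi).2.1, ?_⟩, hmono, ?_⟩
  · refine first_passage_reset h hK hb (hI i hi) (hθ i hi).1.1 ?_
    rw [(hθ i hi).2.1]
    exact (hθ i hi).2.2
  · intro i hi
    have h1 := hmono i (i + 1) (by omega) hi
    have h2 := h.a_lip (θ i) (hI i hi.le) (θ (i + 1)) (hI _ hi)
    rw [(hθ i hi.le).2.1, (hθ _ hi).2.1, abs_of_pos (by linarith : 0 < θ (i + 1) - θ i)] at h2
    have h3 := le_trans (le_abs_self _) h2
    push_cast at h3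
    have hC0 : 0 < C := by linarith
    have h4 : η / C ≤ θ (i + 1) - θ i := by
      rw [div_le_iff₀ hC0]
      linarith
    linarith

theorem wf_num_core {C B η : ℝ} (hC : 0 ≤ C) (hB : 8 ≤ B) (hη0 : 0 < η) (hη : η ≤ 1 / 2)
    (h1 : 3 * C / η ≤ B / 4) (h2 : 16 ≤ B ^ (1 / 6 : ℝ)) :
    ⌈Real.sqrt B⌉₊ * ⌈B ^ (1 / 3 : ℝ) / η⌉₊ + (⌊3 * C / η ^ 2⌋₊ + 1) ≤ ⌊(B - 3) / η⌋₊ := by
  have hB0 : 0 ≤ B := by linarith
  obtain ⟨x, hx⟩ : ∃ x, x = B ^ (1 / 6 : ℝ) := ⟨_, rfl⟩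
  have e1 : Real.sqrt B = x ^ 3 := by
    rw [hx, Real.sqrt_eq_rpow, ← Real.rpow_natCast, ← Real.rpow_mul hB0]
    norm_num
  have e2 : B ^ (1 / 3 : ℝ) = x ^ 2 := by
    rw [hx, ← Real.rpow_natCast, ← Real.rpow_mul hB0]
    norm_num
  have e3 : B = x ^ 6 := by
    rw [hx, ← Real.rpow_natCast, ← Real.rpow_mul hB0]
    norm_num
  rw [← hx] at h2
  have hx1 : 1 ≤ x := by linarith
  have hx2 : 1 ≤ x ^ 2 := one_le_pow₀ hx1
  have hx3 : 1 ≤ x ^ 3 := one_le_pow₀ hx1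
  refine Nat.le_floor ?_
  push_cast
  have a1 : (⌈Real.sqrt B⌉₊ : ℝ) ≤ 2 * x ^ 3 := by
    have := (Nat.ceil_lt_add_one (Real.sqrt_nonneg B)).le
    rw [e1] at this ⊢
    linarith
  have a2 : (⌈B ^ (1 / 3 : ℝ) / η⌉₊ : ℝ) ≤ 2 * x ^ 2 / η := by
    have h3 : 0 ≤ B ^ (1 / 3 : ℝ) / η := by positivity
    have := (Nat.ceil_lt_add_one h3).le
    rw [e2] at this ⊢
    have h4 : 1 ≤ x ^ 2 / η := by
      rw [le_div_iff₀ hη0]
      linarith
    have h5 : 2 * x ^ 2 / η = x ^ 2 / η + x ^ 2 / η := by ring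
    linarith
  have a3 : (⌊3 * C / η ^ 2⌋₊ : ℝ) ≤ 3 * C / η ^ 2 := Nat.floor_le (by positivity)
  have a4 : 3 * C / η ^ 2 ≤ B / 4 / η := by
    have : 3 * C / η ^ 2 = 3 * C / η / η := by
      field_simp
    rw [this]
    exact div_le_div_of_nonneg_right h1 hη0.le
  have a5 : (⌈Real.sqrt B⌉₊ : ℝ) * (⌈B ^ (1 / 3 : ℝ) / η⌉₊ : ℝ) ≤ (2 * x ^ 3) * (2 * x ^ 2 / η) :=
    mul_le_mul a1 a2 (Nat.cast_nonneg _) (by positivity)
  have a6 : (2 * x ^ 3) * (2 * x ^ 2 / η) ≤ B / 4 / η := by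
    have : (2 * x ^ 3) * (2 * x ^ 2 / η) = 4 * x ^ 5 / η := by ring
    rw [this]
    refine div_le_div_of_nonneg_right ?_ hη0.le
    rw [e3]
    have : 0 ≤ x ^ 5 := by positivity
    nlinarith
  have a7 : (1 : ℝ) ≤ 1 / 2 / η := by
    rw [le_div_iff₀ hη0]
    linarith
  have a8 : B / 4 / η + B / 4 / η + 1 / 2 / η ≤ (B - 3) / η := by
    rw [← add_div, ← add_div]
    exact div_le_div_of_nonneg_right (by linarith) hη0.le
  linarith

theorem wf_num (C δ1 : ℝ) (hC : 1 ≤ C) (hδ : 0 < δ1) :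
    ∃ B0 : ℝ, ∀ B : ℝ, B0 ≤ B → 0 < δ1 * Real.log B ^ 2 / B / 2 ∧
      δ1 * Real.log B ^ 2 / B / 2 ≤ 1 / 2 ∧ B ^ (-2 : ℝ) ≤ δ1 * Real.log B ^ 2 / B ∧
      ⌈Real.sqrt B⌉₊ * ⌈B ^ (1 / 3 : ℝ) / (δ1 * Real.log B ^ 2 / B / 2)⌉₊ +
        (⌊3 * C / (δ1 * Real.log B ^ 2 / B / 2) ^ 2⌋₊ + 1) ≤
          ⌊(B - 3) / (δ1 * Real.log B ^ 2 / B / 2)⌋₊ := by
  have e1 : ∀ᶠ B : ℝ in Filter.atTop, δ1 * (Real.log B ^ 2 / B) ≤ 1 := by
    have h1 := (Real.isLittleO_pow_log_id_atTop (n := 2)).tendsto_div_nhds_zero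
    have h2 := h1.const_mul δ1
    rw [mul_zero] at h2
    exact h2.eventually_le_const (by norm_num)
  obtain ⟨B1, hB1⟩ := Filter.eventually_atTop.1 e1
  refine ⟨max (max B1 (Real.exp (24 * C / δ1 + 1))) (16 ^ 6), ?_⟩
  intro B hB
  have b1 : B1 ≤ B := le_trans (le_trans (le_max_left _ _) (le_max_left _ _)) hB
  have b2 : Real.exp (24 * C / δ1 + 1) ≤ B := le_trans (le_trans (le_max_right _ _) (le_max_left _ _)) hB
  have b3 : (16 : ℝ) ^ 6 ≤ B := le_trans (le_max_right _ _) hB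
  have hB8 : 8 ≤ B := by norm_num at b3; linarith
  have hB0 : 0 < B := by linarith
  have hL : 24 * C / δ1 + 1 ≤ Real.log B := by
    rw [Real.le_log_iff_exp_le hB0]
    exact b2
  have hq : 0 ≤ 24 * C / δ1 := by positivity
  have hL2 : 24 * C / δ1 ≤ Real.log B ^ 2 := by nlinarith
  have hL3 : 24 * C ≤ δ1 * Real.log B ^ 2 := by
    rw [div_le_iff₀ hδ] at hL2
    linarith
  have hL0 : 0 < Real.log B := by linarith
  have hη0 : 0 < δ1 * Real.log B ^ 2 / B / 2 := by positivity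
  have hη : δ1 * Real.log B ^ 2 / B / 2 ≤ 1 / 2 := by
    have := hB1 B b1
    rw [← mul_div_assoc] at this
    linarith
  refine ⟨hη0, hη, ?_, ?_⟩
  · rw [Real.rpow_neg hB0.le, le_div_iff₀ hB0]
    have : (B ^ (2 : ℝ))⁻¹ * B = B⁻¹ := by
      rw [Real.rpow_two]
      field_simp
    rw [this]
    have : B⁻¹ ≤ 1 := inv_le_one_of_one_le₀ (by linarith)
    linarith
  · refine wf_num_core (by linarith) hB8 hη0 hη ?_ ?_
    · have : 3 * C / (δ1 * Real.log B ^ 2 / B / 2) = 6 * C * B / (δ1 * Real.log B ^ 2) := by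
        field_simp
        ring
      rw [this, div_le_iff₀ (by positivity)]
      nlinarith
    · have : (16 : ℝ) = ((16 : ℝ) ^ 6) ^ (1 / 6 : ℝ) := by
        rw [← Real.rpow_natCast, ← Real.rpow_mul (by norm_num)]
        norm_num
      rw [this]
      exact Real.rpow_le_rpow (by norm_num) b3 (by norm_num)

/-- selection of many spaced levels whose first passage has `Ż / I ≥ -h_B`,
`h_B = δ1 (log B)² / B`. -/
theorem good_passages (C δ1 : ℝ) (hC : 1 ≤ C) (hδ : 0 < δ1) :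
    ∃ B0 amin : ℝ, ∀ (F : LFlow) (t0 t1 P As B tb te : ℝ), F.Reg C t0 t1 → 2 < F.K → 13 ≤ P →
      B0 ≤ B → amin ≤ As → tb ∈ Icc t0 t1 → te ∈ Icc t0 t1 → F.Trav B tb te →
      (∀ t ∈ Icc t0 te, As ≤ F.a t) → F.Z t0 ≤ As ^ (-P) * F.I t0 →
      (∀ t ∈ Icc t0 te, F.Zd t ≤ F.a t ^ (-P) * F.I t) →
      F.Wit B tb te ⌈Real.sqrt B⌉₊
        (fun t => F.A t = F.I t ∧ -(δ1 * Real.log B ^ 2 / B) ≤ F.Zd t / F.I t) := by
  classical
  obtain ⟨B1, hB1⟩ := wf_bad_gamma C hC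
  obtain ⟨B2, hB2⟩ := wf_num C δ1 hC hδ
  refine ⟨max (max B1 B2) 8, 8, ?_⟩
  intro F t0 t1 P As B tb te h hK hP hB hAs hb he hT ha hZ0 hZd
  have b1 : B1 ≤ B := le_trans (le_trans (le_max_left _ _) (le_max_left _ _)) hB
  have b2 : B2 ≤ B := le_trans (le_trans (le_max_right _ _) (le_max_left _ _)) hB
  have b3 : 8 ≤ B := le_trans (le_max_right _ _) hB
  have hC0 : 0 < C := by linarith
  obtain ⟨hη0, hη, hh1, hnum⟩ := hB2 B b2
  obtain ⟨η, hηdef⟩ : ∃ η, η = δ1 * Real.log B ^ 2 / B / 2 := ⟨_, rfl⟩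
  have hhη : δ1 * Real.log B ^ 2 / B = 2 * η := by rw [hηdef]; ring
  rw [← hηdef] at hη0 hη hnum
  rw [hhη] at hh1 ⊢
  have h' : F.Reg C t0 te := wf_reg_sub h le_rfl he.1 he.2
  have hb' : tb ∈ Icc t0 te := ⟨hb.1, hT.lt.le⟩
  have he' : te ∈ Icc t0 te := ⟨he.1, le_rfl⟩
  have hsub : Icc tb te ⊆ Icc t0 te := Icc_subset_Icc hb.1 le_rfl
  have hq := quasi_mono h' (by linarith : (2 : ℝ) ≤ P) hAs ha hZ0 hZd
  obtain ⟨n, hn⟩ : ∃ n, n = ⌊(B - 3) / η⌋₊ := ⟨_, rfl⟩
  rw [← hn] at hnum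
  have hn1 : (n : ℝ) * η ≤ B - 3 := by
    have : (n : ℝ) ≤ (B - 3) / η := by
      rw [hn]
      exact Nat.floor_le (by apply div_nonneg <;> linarith)
    rwa [le_div_iff₀ hη0] at this
  obtain ⟨θ, hθ, hmono, hstep⟩ := wf_passages h' hC hK hb' he' hT hη0 n (by linarith)
  have hθI : ∀ i, i ≤ n → θ i ∈ Icc tb te := fun i hi => Ioc_subset_Icc_self (hθ i hi).1
  have hlev : ∀ i, i < n → ((i : ℝ) + 1) * η ≤ B - 3 := by
    intro i hi
    have : ((i : ℝ) + 1) ≤ n := by exact_mod_cast hi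
    exact le_trans (mul_le_mul_of_nonneg_right this hη0.le) hn1
  have hcount := wf_count (g := fun t => max (-(F.Zd t / F.I t)) 0) (tb := tb) (te := te) (c := η)
    (d := η / C) (ContinuousOn.sup (((wf_ZI_cont h').mono hsub).fun_neg) continuousOn_const)
    (fun t _ => le_max_right _ _) hη0.le (by positivity)
    (fun i => F.Zd (θ i) / F.I (θ i) < -(2 * η)) n θ hθI hstep ?_ ?_
  · have hcd : 0 < η * (η / C) := by positivity
    have hcard : ((Finset.range n).filter (fun i => F.Zd (θ i) / F.I (θ i) < -(2 * η))).card ≤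
        ⌊3 * C / η ^ 2⌋₊ + 1 := by
      have h1 : ((((Finset.range n).filter
          (fun i => F.Zd (θ i) / F.I (θ i) < -(2 * η))).card : ℝ)) ≤ 3 * C / η ^ 2 + 1 := by
        have e : 3 * C / η ^ 2 + 1 = (3 + η * (η / C)) / (η * (η / C)) := by
          field_simp
        rw [e, le_div_iff₀ hcd]
        linarith
      have h2 : 3 * C / η ^ 2 < ⌊3 * C / η ^ 2⌋₊ + 1 := Nat.lt_floor_add_one _
      have h3 : ((((Finset.range n).filter
          (fun i => F.Zd (θ i) / F.I (θ i) < -(2 * η))).card : ℝ)) < ((⌊3 * C / η ^ 2⌋₊ + 1 + 1 : ℕ) : ℝ) := by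
        push_cast
        linarith
      have h4 := Nat.cast_lt.1 h3
      omega
    have hr : 1 ≤ ⌈B ^ (1 / 3 : ℝ) / η⌉₊ := by
      rw [Nat.one_le_ceil_iff]
      have : 0 < B ^ (1 / 3 : ℝ) := Real.rpow_pos_of_pos (by linarith) _
      positivity
    obtain ⟨idx, hidx1, hidx2⟩ := wf_select (fun i => F.Zd (θ i) / F.I (θ i) < -(2 * η)) n
      ⌈B ^ (1 / 3 : ℝ) / η⌉₊ hr ⌈Real.sqrt B⌉₊ 0 (by
        rw [← Finset.range_eq_Ico]
        omega)
    refine ⟨fun j => θ (idx j), ?_, ?_⟩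
    · intro j hj
      obtain ⟨-, c1, c2⟩ := hidx1 j hj
      obtain ⟨d1, d2, d3⟩ := hθ (idx j) c1.le
      have := hlev (idx j) c1
      have h0 : 0 < ((idx j : ℝ) + 1) * η := by positivity
      refine ⟨hθI _ c1.le, by rw [d2]; linarith, by rw [d2]; linarith, d3, not_lt.1 c2⟩
    · intro j hj
      obtain ⟨-, c1, -⟩ := hidx1 j (by omega)
      obtain ⟨-, c1', -⟩ := hidx1 (j + 1) hj
      have c3 := hidx2 j hj
      refine ⟨hmono _ _ (by omega) c1'.le, ?_⟩
      rw [(hθ _ c1.le).2.1, (hθ _ c1'.le).2.1]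
      have c4 : (idx j : ℝ) + (⌈B ^ (1 / 3 : ℝ) / η⌉₊ : ℝ) ≤ idx (j + 1) := by exact_mod_cast c3
      have c5 : B ^ (1 / 3 : ℝ) / η ≤ (⌈B ^ (1 / 3 : ℝ) / η⌉₊ : ℝ) := Nat.le_ceil _
      rw [div_le_iff₀ hη0] at c5
      nlinarith
  · intro i hi hbad t ht
    have hi1 : θ i + η / C ≤ te := le_trans (hstep i hi) (hθI _ hi).2
    have htI : t ∈ Icc t0 te := ⟨le_trans (hsub (hθI i hi.le)).1 ht.1, le_trans ht.2 hi1⟩
    have h1 := h'.ZI_lip (θ i) (hsub (hθI i hi.le)) t htI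
    rw [abs_of_nonneg (by linarith [ht.1] : 0 ≤ t - θ i)] at h1
    have h2 : C * (t - θ i) ≤ η := by
      have : t - θ i ≤ η / C := by linarith [ht.2]
      rw [le_div_iff₀ hC0] at this
      linarith
    have h3 := le_trans (le_abs_self _) h1
    refine le_trans ?_ (le_max_left _ _)
    linarith
  · intro i hi hbad
    refine hB1 F t0 te P B tb te (2 * η) (θ i) h' hP b1 hb' he' hT hq (fun t ht => hZd t (hsub ht))
      hh1 (by linarith) (hθI i hi.le) ?_ hbad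
    rw [(hθ i hi.le).2.1]
    linarith [hlev i hi]

theorem LFlow.Wit.mono {F : LFlow} {B tb te : ℝ} {N : ℕ} {Good Good' : ℝ → Prop}
    (h : F.Wit B tb te N Good) (hG : ∀ t ∈ Icc tb te, Good t → Good' t) :
    F.Wit B tb te N Good' := by
  obtain ⟨θ, h1, h2⟩ := h
  exact ⟨θ, fun j hj => ⟨(h1 j hj).1, (h1 j hj).2.1, (h1 j hj).2.2.1,
    hG _ (h1 j hj).1 (h1 j hj).2.2.2⟩, h2⟩

theorem wf_num2 (δ1 : ℝ) (hδ : 0 < δ1) :
    ∃ B0 : ℝ, ∀ B : ℝ, B0 ≤ B → 8 ≤ B ∧ δ1 * Real.log B ^ 2 / B ≤ 1 ∧ 1 ≤ δ1 * Real.log B ^ 2 := by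
  have e1 : ∀ᶠ B : ℝ in Filter.atTop, δ1 * (Real.log B ^ 2 / B) ≤ 1 := by
    have h1 := (Real.isLittleO_pow_log_id_atTop (n := 2)).tendsto_div_nhds_zero
    have h2 := h1.const_mul δ1
    rw [mul_zero] at h2
    exact h2.eventually_le_const (by norm_num)
  obtain ⟨B1, hB1⟩ := Filter.eventually_atTop.1 e1
  refine ⟨max (max B1 (Real.exp (1 / δ1 + 1))) 8, ?_⟩
  intro B hB
  have b1 : B1 ≤ B := le_trans (le_trans (le_max_left _ _) (le_max_left _ _)) hB
  have b2 : Real.exp (1 / δ1 + 1) ≤ B := le_trans (le_trans (le_max_right _ _) (le_max_left _ _)) hB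
  have hB8 : 8 ≤ B := le_trans (le_max_right _ _) hB
  have hB0 : 0 < B := by linarith
  have hL : 1 / δ1 + 1 ≤ Real.log B := by
    rw [Real.le_log_iff_exp_le hB0]
    exact b2
  have hq : 0 ≤ 1 / δ1 := by positivity
  have hL2 : 1 / δ1 ≤ Real.log B ^ 2 := by nlinarith
  refine ⟨hB8, ?_, ?_⟩
  · have := hB1 B b1
    rwa [← mul_div_assoc] at this
  · rw [div_le_iff₀ hδ] at hL2
    linarith

/-- **AE Lemma 6.1, several wells.** -/
theorem witness_multi (C C0 c0 ϑ : ℝ) (hC : 1 ≤ C) (hC0 : 0 < C0) (hc0 : 0 < c0) (hϑ : 0 < ϑ) :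
    ∃ B0 amin : ℝ, ∀ (F : LFlow) (t0 t1 P As B tb te CQ : ℝ) (Dd Lam Dtr : ℝ → ℝ),
      F.Reg C t0 t1 → 2 < F.K → 13 ≤ P → B0 ≤ B → amin ≤ As → 12 * C0 ≤ CQ →
      tb ∈ Icc t0 t1 → te ∈ Icc t0 t1 → F.Trav B tb te →
      (∀ t ∈ Icc t0 te, As ≤ F.a t) → F.Z t0 ≤ As ^ (-P) * F.I t0 →
      (∀ t ∈ Icc t0 te, F.Zd t ≤ F.a t ^ (-P) * F.I t) →
      (∀ t ∈ Icc tb te, 0 ≤ Dd t ∧ 0 ≤ Lam t ∧ 0 ≤ Dtr t) →
      (∀ t ∈ Icc tb te,
        F.Zd t + c0 * (Real.log (F.a t) ^ 2 / F.a t) * Dtr t ≤ F.a t ^ (-P) * F.I t) →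
      (∀ t ∈ Icc tb te, F.Zd t ≤ 2 * F.A t - Dd t - CQ * Lam t) →
      (∀ t ∈ Icc tb te, F.A t ≤ C0 * (Dd t + Lam t) + F.a t ^ (-P) * F.I t) →
      F.Wit B tb te ⌈Real.sqrt B⌉₊
        (fun t => F.I t / (2 * C0) ≤ Dd t ∧ Dtr t ≤ ϑ * F.I t) := by
  have hδ : 0 < c0 * ϑ / 4 := by positivity
  obtain ⟨B1, amin, hgp⟩ := good_passages C (c0 * ϑ / 4) hC hδ
  obtain ⟨B2, hB2⟩ := wf_num2 (c0 * ϑ / 4) hδ
  refine ⟨max B1 B2, amin, ?_⟩
  intro F t0 t1 P As B tb te CQ Dd Lam Dtr h hK hP hB hAs hCQ hb he hT ha hZ0 hZd hnn hDtr hDd hA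
  obtain ⟨hB8, hh1, hh2⟩ := hB2 B (le_trans (le_max_right _ _) hB)
  refine (hgp F t0 t1 P As B tb te h hK hP (le_trans (le_max_left _ _) hB) hAs hb he hT ha hZ0
    hZd).mono ?_
  rintro t ht ⟨hAI, hZI⟩
  have hB0 : 0 < B := by linarith
  have htI : t ∈ Icc t0 t1 := ⟨le_trans hb.1 ht.1, le_trans ht.2 he.2⟩
  have hI := h.I_pos t htI
  obtain ⟨ha1, ha2⟩ := hT.band t ht
  obtain ⟨n1, n2, n3⟩ := hnn t ht
  have hDtr' := hDtr t ht
  have hDd' := hDd t ht
  have hA' := hA t ht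
  rw [le_div_iff₀ hI] at hZI
  have k1 : F.a t ^ (-P) ≤ B⁻¹ :=
    le_trans (wf_rpow_le_inv (by linarith) (by linarith)) (inv_anti₀ hB0 ha1)
  have k2 : B⁻¹ ≤ c0 * ϑ / 4 * Real.log B ^ 2 / B := by
    rw [inv_eq_one_div]
    exact div_le_div_of_nonneg_right hh2 hB0.le
  have hL0 : 0 < Real.log B := Real.log_pos (by linarith)
  have k3 : Real.log B ^ 2 / (2 * B) ≤ Real.log (F.a t) ^ 2 / F.a t := by
    have : Real.log B ≤ Real.log (F.a t) := Real.log_le_log hB0 ha1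
    exact div_le_div₀ (by positivity) (pow_le_pow_left₀ hL0.le this 2) (by linarith) ha2
  generalize F.a t ^ (-P) = ap at *
  generalize Real.log (F.a t) ^ 2 / F.a t = q at *
  constructor
  · have k4 : B⁻¹ ≤ 1 / 4 := by
      rw [inv_eq_one_div]
      exact div_le_div_of_nonneg_left (by norm_num) (by norm_num) (by linarith)
    have k5 : ap * F.I t ≤ 1 / 4 * F.I t := mul_le_mul_of_nonneg_right (by linarith) hI.le
    have k6 : 12 * C0 * Lam t ≤ CQ * Lam t := mul_le_mul_of_nonneg_right hCQ n2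
    have k7 : -(F.I t) ≤ -(c0 * ϑ / 4 * Real.log B ^ 2 / B) * F.I t := by nlinarith
    rw [div_le_iff₀ (by positivity)]
    rw [hAI] at hDd' hA'
    nlinarith
  · have k5 : ap * F.I t ≤ c0 * ϑ / 4 * Real.log B ^ 2 / B * F.I t :=
      mul_le_mul_of_nonneg_right (by linarith) hI.le
    have k6 : c0 * (Real.log B ^ 2 / (2 * B)) * Dtr t ≤ c0 * q * Dtr t :=
      mul_le_mul_of_nonneg_right (mul_le_mul_of_nonneg_left k3 hc0.le) n3
    have k7 : c0 * (Real.log B ^ 2 / (2 * B)) * Dtr t ≤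
        c0 * (Real.log B ^ 2 / (2 * B)) * (ϑ * F.I t) := by
      have : c0 * (Real.log B ^ 2 / (2 * B)) * (ϑ * F.I t) =
          2 * (c0 * ϑ / 4 * Real.log B ^ 2 / B * F.I t) := by
        field_simp
        ring
      rw [this]
      linarith
    exact le_of_mul_le_mul_left k7 (by positivity)

/-! ## Package WitFlow-C : one well -/

theorem wf_deriv_est {f : ℝ → ℝ} {f' t c : ℝ} (h : HasDerivAt f f' t) (hc : 0 < c) :
    ∃ ε : ℝ, 0 < ε ∧ ∀ t' : ℝ, |t' - t| < ε → |f t' - f t - (t' - t) * f'| ≤ c * |t' - t| := by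
  have h1 := (hasDerivAt_iff_isLittleO.1 h).def hc
  obtain ⟨ε, hε, h2⟩ := Metric.eventually_nhds_iff.1 h1
  refine ⟨ε, hε, fun t' ht' => ?_⟩
  have := h2 (y := t') (by rwa [Real.dist_eq])
  simpa [Real.norm_eq_abs] using this

/-- on an interval without witness the level increases by at most one. -/
theorem one_well_mono (C C0 : ℝ) (hC : 1 ≤ C) (hC0 : 1 ≤ C0) :
    ∃ amin : ℝ, ∀ (F : LFlow) (t0 t1 P CQ u w : ℝ) (Dd Lam : ℝ → ℝ),
      F.Reg C t0 t1 → 6 < F.K → 2 ≤ P → 8 * C0 ≤ CQ → u ∈ Icc t0 t1 → w ∈ Icc t0 t1 → u ≤ w →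
      (∀ t ∈ Icc u w, amin ≤ F.a t) →
      (∀ t ∈ Icc u w, 0 ≤ Dd t ∧ 0 ≤ Lam t) →
      (∀ t ∈ Icc u w, F.Zd t ≤ 2 * F.A t - Dd t - CQ * Lam t) →
      (∀ t ∈ Icc u w, F.A t ≤ C0 * (Dd t + Lam t) + F.a t ^ (-P) * F.I t) →
      (∀ t ∈ Icc u w, 2 * F.A t - Dd t - F.I t / 4 ≤ F.Ad t) →
      (∀ t ∈ Icc u w, Dd t < F.I t / (8 * C0)) →
      F.a w - F.a u ≤ 1 := by
  refine ⟨8, ?_⟩
  intro F t0 t1 P CQ u w Dd Lam h hK hP hCQ hu hw huw ha hnn hZd hA hAd hD
  have hsub : Icc u w ⊆ Icc t0 t1 := Icc_subset_Icc hu.1 hw.2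
  have hCQ0 : 0 ≤ CQ := by linarith
  have hfc : ContinuousOn (fun t => F.a t + F.Z t / F.I t) (Icc u w) :=
    (h.a_cont.mono hsub).add (((wf_Z_cont h).mono hsub).div (h.I_cont.mono hsub)
      (fun t ht => (h.I_pos t (hsub ht)).ne'))
  have key : F.a w + F.Z w / F.I w ≤ F.a u + F.Z u / F.I u := by
    refine le_of_right_le (f := fun t => F.a t + F.Z t / F.I t) huw hfc ?_
    intro t ht
    have ht' : t ∈ Icc u w := Ico_subset_Icc_self ht
    have htI : t ∈ Icc t0 t1 := hsub ht'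
    have hI := h.I_pos t htI
    rcases (h.A_le_I t htI).lt_or_eq with hlt | heq
    · -- non reset
      obtain ⟨ε, hε, hε'⟩ := h.nonreset t htI hlt
      refine ⟨ε, hε, ?_⟩
      intro s hs hsw
      have hsI : s ∈ Icc t0 t1 := ⟨le_trans htI.1 hs.1.le, le_trans hsw hw.2⟩
      have hx : 0 < s - t := by linarith [hs.1]
      have e1 : F.I s = Real.exp (F.K * (s - t)) * F.I t :=
        hε' s hsI (by rw [abs_of_pos hx]; linarith [hs.2])
      have e2 : F.a s = F.a t + (2 - F.K) * (s - t) := by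
        unfold LFlow.a
        rw [e1, Real.log_mul (Real.exp_pos _).ne' hI.ne', Real.log_exp]
        ring
      have e3 : F.Z s - F.Z t ≤ 2 * (Real.exp (F.K * (s - t)) * F.I t) * (s - t) := by
        refine wf_Z_le_of_Zd_le h htI hsI hs.1.le ?_
        intro v hv
        have hvI : v ∈ Icc t0 t1 := ⟨le_trans htI.1 hv.1, le_trans hv.2 hsI.2⟩
        have hvuw : v ∈ Icc u w := ⟨le_trans ht'.1 hv.1, le_trans hv.2 hsw⟩
        have f1 := hZd v hvuw
        have f2 := hnn v hvuw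
        have f3 := h.A_le_I v hvI
        have f4 : F.I v = Real.exp (F.K * (v - t)) * F.I t :=
          hε' v hvI (by rw [abs_of_nonneg (by linarith [hv.1])]; linarith [hv.2, hs.2])
        have f5 : Real.exp (F.K * (v - t)) ≤ Real.exp (F.K * (s - t)) := by
          apply Real.exp_le_exp.2
          apply mul_le_mul_of_nonneg_left (by linarith [hv.2]) (by linarith)
        have f6 : F.I v ≤ Real.exp (F.K * (s - t)) * F.I t := by
          rw [f4]
          exact mul_le_mul_of_nonneg_right f5 hI.le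
        have f7 : 0 ≤ CQ * Lam v := mul_nonneg hCQ0 f2.2
        linarith [f2.1]
      have hE : 1 ≤ Real.exp (F.K * (s - t)) := Real.one_le_exp (by nlinarith)
      have e4 : F.Z s / F.I s ≤ F.Z t / F.I t + 2 * (s - t) := by
        rw [e1, div_le_iff₀ (by positivity)]
        have g1 : (F.Z t / F.I t + 2 * (s - t)) * (Real.exp (F.K * (s - t)) * F.I t) =
            F.Z t * Real.exp (F.K * (s - t)) + 2 * (Real.exp (F.K * (s - t)) * F.I t) * (s - t) := by
          field_simp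
        rw [g1]
        have g2 : F.Z t ≤ F.Z t * Real.exp (F.K * (s - t)) :=
          le_mul_of_one_le_right (h.Z_nonneg t htI) hE
        linarith
      rw [e2]
      nlinarith
    · -- reset
      have hat := ha t ht'
      have k1 : F.a t ^ (-P) ≤ 1 / 8 := by
        refine le_trans (wf_rpow_le_inv (by linarith) (by linarith)) ?_
        rw [inv_eq_one_div]
        exact div_le_div_of_nonneg_left (by norm_num) (by norm_num) hat
      have k2 : F.a t ^ (-P) * F.I t ≤ 1 / 8 * F.I t := mul_le_mul_of_nonneg_right k1 hI.le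
      have hD' := hD t ht'
      have hC0' : 0 < C0 := by linarith
      have k3 : C0 * Dd t < F.I t / 8 := by
        rw [lt_div_iff₀ (by positivity)] at hD'
        linarith
      have k3' : Dd t ≤ C0 * Dd t := le_mul_of_one_le_left (hnn t ht').1 hC0
      have hA' := hA t ht'
      rw [heq] at hA'
      have k4 : 3 / 4 * F.I t < C0 * Lam t := by linarith
      have k5 : 8 * C0 * Lam t ≤ CQ * Lam t := mul_le_mul_of_nonneg_right hCQ (hnn t ht').2
      have hZd' := hZd t ht'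
      rw [heq] at hZd'
      have k6 : F.Zd t < -4 * F.I t := by linarith [(hnn t ht').1]
      have hAd' := hAd t ht'
      rw [heq] at hAd'
      have k7 : F.I t < F.Ad t := by linarith
      obtain ⟨ε1, hε1, hZest⟩ := wf_deriv_est (h.dZ t htI) hI
      obtain ⟨ε2, hε2, hAest⟩ := wf_deriv_est (h.dA t htI) hI
      refine ⟨min ε1 ε2, lt_min hε1 hε2, ?_⟩
      intro s hs hsw
      have hsI : s ∈ Icc t0 t1 := ⟨le_trans htI.1 hs.1.le, le_trans hsw hw.2⟩
      have hx : 0 < s - t := by linarith [hs.1]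
      have hs1 : |s - t| < ε1 := by
        rw [abs_of_pos hx]; linarith [hs.2, min_le_left ε1 ε2]
      have hs2 : |s - t| < ε2 := by
        rw [abs_of_pos hx]; linarith [hs.2, min_le_right ε1 ε2]
      have z1 := le_trans (le_abs_self _) (hZest s hs1)
      have a1 := le_trans (neg_abs_le _) (le_refl _) |>.trans' (neg_le_neg (hAest s hs2))
      rw [abs_of_pos hx] at z1 a1
      have z2 : F.Z s ≤ F.Z t - 3 * F.I t * (s - t) := by nlinarith
      have a2 : F.I t ≤ F.A s := by rw [← heq]; nlinarith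
      have a3 : F.I t ≤ F.I s := le_trans a2 (h.A_le_I s hsI)
      have l1 : Real.log (F.I t) ≤ Real.log (F.I s) := Real.log_le_log hI a3
      have z3 : F.Z s / F.I s ≤ F.Z s / F.I t :=
        div_le_div_of_nonneg_left (h.Z_nonneg s hsI) hI a3
      have z4 : F.Z s / F.I t ≤ F.Z t / F.I t - 3 * (s - t) := by
        rw [div_le_iff₀ hI]
        have : (F.Z t / F.I t - 3 * (s - t)) * F.I t = F.Z t - 3 * F.I t * (s - t) := by
          field_simp
        rw [this]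
        exact z2
      unfold LFlow.a
      linarith
  have h1 : 0 ≤ F.Z w / F.I w := div_nonneg (h.Z_nonneg w hw) (h.I_pos w hw).le
  have h2 : F.Z u / F.I u ≤ 1 := by
    rw [div_le_one (h.I_pos u hu)]
    exact le_trans (h.Z_le_A u hu) (h.A_le_I u hu)
  linarith

theorem wf_last_passage {g : ℝ → ℝ} {x y lam : ℝ} (hxy : x ≤ y) (hg : ContinuousOn g (Icc x y))
    (h1 : g x ≤ lam) (h2 : lam < g y) :
    ∃ τ ∈ Ico x y, g τ = lam ∧ ∀ t ∈ Ioc τ y, lam < g t := by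
  have hcl : IsClosed (Icc x y ∩ g ⁻¹' Iic lam) :=
    hg.preimage_isClosed_of_isClosed isClosed_Icc isClosed_Iic
  have hne : (Icc x y ∩ g ⁻¹' Iic lam).Nonempty := ⟨x, ⟨le_rfl, hxy⟩, h1⟩
  have hbd : BddAbove (Icc x y ∩ g ⁻¹' Iic lam) := ⟨y, fun t ht => ht.1.2⟩
  have hmem := hcl.csSup_mem hne hbd
  obtain ⟨τ, hτ⟩ : ∃ τ, τ = sSup (Icc x y ∩ g ⁻¹' Iic lam) := ⟨_, rfl⟩
  rw [← hτ] at hmem
  obtain ⟨hτI, hτa⟩ := hmem
  have hτa' : g τ ≤ lam := hτa
  have hmax : ∀ t ∈ Icc x y, g t ≤ lam → t ≤ τ := by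
    intro t ht hta
    rw [hτ]
    exact le_csSup hbd ⟨ht, hta⟩
  have heq : g τ = lam := by
    obtain ⟨t, ht, hat⟩ := intermediate_value_Icc hτI.2
      (hg.mono (Icc_subset_Icc hτI.1 le_rfl)) ⟨hτa', h2.le⟩
    have h3 := hmax t ⟨le_trans hτI.1 ht.1, ht.2⟩ hat.le
    have h4 : t = τ := le_antisymm h3 ht.1
    rw [← h4]
    exact hat
  refine ⟨τ, ⟨hτI.1, ?_⟩, heq, ?_⟩
  · rcases hτI.2.eq_or_lt with h3 | h3
    · rw [h3] at heq
      linarith
    · exact h3
  · intro t ht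
    by_contra hcon
    have := hmax t ⟨le_trans hτI.1 ht.1.le, ht.2⟩ (not_lt.1 hcon)
    linarith [ht.1]

theorem wf_single_step (C C0 : ℝ) (hC : 1 ≤ C) (hC0 : 1 ≤ C0) :
    ∃ amin : ℝ, ∀ (F : LFlow) (t0 t1 P tb te CQ μ : ℝ) (Dd Lam : ℝ → ℝ),
      F.Reg C t0 t1 → 6 < F.K → 2 ≤ P → 8 * C0 ≤ CQ →
      tb ∈ Icc t0 t1 → te ∈ Icc t0 t1 → tb ≤ te → amin ≤ μ → F.a tb ≤ μ → μ + 3 / 2 ≤ F.a te →
      (∀ t ∈ Icc tb te, 0 ≤ Dd t ∧ 0 ≤ Lam t) →
      (∀ t ∈ Icc tb te, F.Zd t ≤ 2 * F.A t - Dd t - CQ * Lam t) →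
      (∀ t ∈ Icc tb te, F.A t ≤ C0 * (Dd t + Lam t) + F.a t ^ (-P) * F.I t) →
      (∀ t ∈ Icc tb te, 2 * F.A t - Dd t - F.I t / 4 ≤ F.Ad t) →
      ∃ θ ∈ Icc tb te, μ ≤ F.a θ ∧ (∀ t ∈ Icc tb θ, F.a t ≤ μ + 3 / 2) ∧
        F.I θ / (8 * C0) ≤ Dd θ := by
  obtain ⟨amin, hmono⟩ := one_well_mono C C0 hC hC0
  refine ⟨amin, ?_⟩
  intro F t0 t1 P tb te CQ μ Dd Lam h hK hP hCQ hb he hbe hμ h1 h2 hnn hZd hA hAd
  obtain ⟨τ', hτ', e1, f1⟩ := exists_first_passage h hb he hbe (lam := μ + 3 / 2) (by linarith) h2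
  have hτI : τ' ∈ Icc t0 t1 := ⟨le_trans hb.1 hτ'.1.le, le_trans hτ'.2 he.2⟩
  obtain ⟨τ, hτ, e2, f2⟩ := wf_last_passage (g := F.a) (lam := μ) hτ'.1.le
    (h.a_cont.mono (Icc_subset_Icc hb.1 hτI.2)) h1 (by rw [e1]; linarith)
  by_contra hcon
  push Not at hcon
  have hsub : Icc τ τ' ⊆ Icc tb te := Icc_subset_Icc hτ.1 hτ'.2
  have hlow : ∀ t ∈ Icc τ τ', μ ≤ F.a t := by
    intro t ht
    rcases ht.1.eq_or_lt with h3 | h3
    · rw [← h3, e2]
    · exact (f2 t ⟨h3, ht.2⟩).le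
  have hup : ∀ t ∈ Icc tb τ', F.a t ≤ μ + 3 / 2 := by
    intro t ht
    rcases ht.2.eq_or_lt with h3 | h3
    · rw [h3, e1]
    · exact (f1 t ⟨ht.1, h3⟩).le
  have := hmono F t0 t1 P CQ τ τ' Dd Lam h hK hP hCQ
    ⟨le_trans hb.1 hτ.1, le_trans hτ.2.le hτI.2⟩ hτI hτ.2.le
    (fun t ht => le_trans hμ (hlow t ht)) (fun t ht => hnn t (hsub ht))
    (fun t ht => hZd t (hsub ht)) (fun t ht => hA t (hsub ht)) (fun t ht => hAd t (hsub ht))
    (fun t ht => hcon t (hsub ht) (hlow t ht)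
      (fun s hs => hup s ⟨hs.1, le_trans hs.2 ht.2⟩))
  rw [e1, e2] at this
  linarith

theorem wf_num3 {B : ℝ} (hB : (16 : ℝ) ^ 6 ≤ B) {j : ℕ} (hj : j < ⌈Real.sqrt B⌉₊) :
    (j : ℝ) * (B ^ (1 / 3 : ℝ) + 2) < B - 5 := by
  have hB0 : 0 ≤ B := le_trans (by norm_num) hB
  obtain ⟨x, hx⟩ : ∃ x, x = B ^ (1 / 6 : ℝ) := ⟨_, rfl⟩
  have e1 : Real.sqrt B = x ^ 3 := by
    rw [hx, Real.sqrt_eq_rpow, ← Real.rpow_natCast, ← Real.rpow_mul hB0]
    norm_num
  have e2 : B ^ (1 / 3 : ℝ) = x ^ 2 := by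
    rw [hx, ← Real.rpow_natCast, ← Real.rpow_mul hB0]
    norm_num
  have e3 : B = x ^ 6 := by
    rw [hx, ← Real.rpow_natCast, ← Real.rpow_mul hB0]
    norm_num
  have h2 : 16 ≤ x := by
    have : (16 : ℝ) = ((16 : ℝ) ^ 6) ^ (1 / 6 : ℝ) := by
      rw [← Real.rpow_natCast, ← Real.rpow_mul (by norm_num)]
      norm_num
    rw [this, hx]
    exact Real.rpow_le_rpow (by norm_num) hB (by norm_num)
  have hj' : (j : ℝ) < x ^ 3 := by
    rw [← e1]
    exact Nat.lt_ceil.1 hj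
  rw [e2]
  have h3 : (j : ℝ) * (x ^ 2 + 2) ≤ x ^ 3 * (x ^ 2 + 2) :=
    mul_le_mul_of_nonneg_right hj'.le (by positivity)
  have h4 : x ^ 3 * (x ^ 2 + 2) < x ^ 6 - 5 := by
    have p3 : (16 : ℝ) ^ 3 ≤ x ^ 3 := pow_le_pow_left₀ (by norm_num) h2 3
    have p5 : 0 ≤ x ^ 5 := by positivity
    have q1 : x ^ 6 = x * x ^ 5 := by ring
    have q2 : x ^ 5 = x ^ 2 * x ^ 3 := by ring
    have q3 : (16 : ℝ) ^ 2 ≤ x ^ 2 := pow_le_pow_left₀ (by norm_num) h2 2
    nlinarith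
  rw [← e3] at h4
  linarith

/-- **AE Lemma 6.1, one well.** -/
theorem witness_single (C C0 ε0 : ℝ) (hC : 1 ≤ C) (hC0 : 1 ≤ C0) (hε : 0 < ε0) :
    ∃ B0 : ℝ, ∀ (F : LFlow) (t0 t1 P B tb te CQ : ℝ) (Dd Lam : ℝ → ℝ),
      F.Reg C t0 t1 → 6 < F.K → 2 ≤ P → B0 ≤ B → 8 * C0 ≤ CQ →
      tb ∈ Icc t0 t1 → te ∈ Icc t0 t1 → F.Trav B tb te →
      (∀ t ∈ Icc tb te, 0 ≤ Dd t ∧ 0 ≤ Lam t) →
      (∀ t ∈ Icc tb te, F.Zd t ≤ 2 * F.A t - Dd t - CQ * Lam t) →
      (∀ t ∈ Icc tb te, F.A t ≤ C0 * (Dd t + Lam t) + F.a t ^ (-P) * F.I t) →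
      (∀ t ∈ Icc tb te, 2 * F.A t - Dd t - F.I t / 4 ≤ F.Ad t) →
      F.Wit B tb te ⌈Real.sqrt B⌉₊ (fun t => B ^ (-ε0) * F.I t ≤ Dd t) := by
  obtain ⟨amin, hstep⟩ := wf_single_step C C0 hC hC0
  refine ⟨max (max amin (16 ^ 6)) ((8 * C0) ^ (1 / ε0)), ?_⟩
  intro F t0 t1 P B tb te CQ Dd Lam h hK hP hB hCQ hb he hT hnn hZd hA hAd
  have b1 : amin ≤ B := le_trans (le_trans (le_max_left _ _) (le_max_left _ _)) hB
  have b2 : (16 : ℝ) ^ 6 ≤ B := le_trans (le_trans (le_max_right _ _) (le_max_left _ _)) hB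
  have b3 : (8 * C0) ^ (1 / ε0) ≤ B := le_trans (le_max_right _ _) hB
  have hB0 : 0 < B := lt_of_lt_of_le (by norm_num) b2
  have hq0 : 0 < B ^ (1 / 3 : ℝ) := Real.rpow_pos_of_pos hB0 _
  have hpow : B ^ (-ε0) ≤ 1 / (8 * C0) := by
    have h1 : 8 * C0 ≤ B ^ ε0 := by
      have : 8 * C0 = ((8 * C0) ^ (1 / ε0)) ^ ε0 := by
        rw [← Real.rpow_mul (by linarith)]
        rw [one_div_mul_cancel hε.ne', Real.rpow_one]
      rw [this]
      exact Real.rpow_le_rpow (by positivity) b3 hε.le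
    rw [Real.rpow_neg hB0.le, inv_eq_one_div]
    exact div_le_div_of_nonneg_left (by norm_num) (by linarith) h1
  have hex : ∀ j : ℕ, ∃ θ : ℝ, j < ⌈Real.sqrt B⌉₊ → θ ∈ Icc tb te ∧
      B + 2 + (j : ℝ) * (B ^ (1 / 3 : ℝ) + 2) ≤ F.a θ ∧
      (∀ t ∈ Icc tb θ, F.a t ≤ B + 2 + (j : ℝ) * (B ^ (1 / 3 : ℝ) + 2) + 3 / 2) ∧
      F.I θ / (8 * C0) ≤ Dd θ := by
    intro j
    by_cases hj : j < ⌈Real.sqrt B⌉₊
    · have hn := wf_num3 b2 hj
      have h0 : 0 ≤ (j : ℝ) * (B ^ (1 / 3 : ℝ) + 2) := by positivity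
      obtain ⟨θ, a1, a2, a3, a4⟩ := hstep F t0 t1 P tb te CQ
        (B + 2 + (j : ℝ) * (B ^ (1 / 3 : ℝ) + 2)) Dd Lam h hK hP hCQ hb he hT.lt.le
        (by linarith) (by rw [hT.a_tb]; linarith) (by rw [hT.a_te]; linarith) hnn hZd hA hAd
      exact ⟨θ, fun _ => ⟨a1, a2, a3, a4⟩⟩
    · exact ⟨0, fun h => absurd h hj⟩
  choose θ hθ using hex
  refine ⟨θ, ?_, ?_⟩
  · intro j hj
    obtain ⟨a1, a2, a3, a4⟩ := hθ j hj
    have hn := wf_num3 b2 hj
    have h0 : 0 ≤ (j : ℝ) * (B ^ (1 / 3 : ℝ) + 2) := by positivity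
    have a5 := a3 (θ j) ⟨a1.1, le_rfl⟩
    refine ⟨a1, by linarith, by linarith, le_trans ?_ a4⟩
    have hI := h.I_pos (θ j) ⟨le_trans hb.1 a1.1, le_trans a1.2 he.2⟩
    rw [div_eq_mul_one_div, mul_comm]
    exact mul_le_mul_of_nonneg_left hpow hI.le
  · intro j hj
    obtain ⟨a1, a2, a3, a4⟩ := hθ j (by omega)
    obtain ⟨c1, c2, c3, c4⟩ := hθ (j + 1) hj
    have a5 := a3 (θ j) ⟨a1.1, le_rfl⟩
    push_cast at c2
    constructor
    · by_contra hcon
      have := a3 (θ (j + 1)) ⟨c1.1, not_lt.1 hcon⟩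
      nlinarith
    · nlinarith

end Claimed.Agent.R322.Sx
end
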