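/- Packed by merge_tool.py (helper293): 6 modules of Claimed.Agent.R322 in one file, same declarations.
   Old modules, in this order: Tube.CylAux, Tube.Cyl, Tube.Frame, Tube.Inst, Tube.InstLam, Tube.ChartOK -/
import Claimed.Agent.R322.Pack001
import Claimed.Agent.R322.Pack016
import Claimed.Agent.R322.Pack042
import Claimed.Agent.R322.Pack044
import Claimed.Agent.R322.Pack019
import Claimed.Agent.R322.Pack039
import Claimed.Agent.R322.Pack043

/- ===== packed: Claimed.Agent.R322.Tube.CylAux ===== -/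
section
/-!
# Auxiliary facts for `Tube/Cyl.lean`

Topology of a normal cylinder (it is an intersection of the tube with a preimage, hence is an
element of the topology; sets of bounded height over compact base sets are compact), the carrier of
the restricted weight, the first variation in the cylinder and the Lebesgue decomposition estimate.
-/

set_option autoImplicit false

open scoped ENNReal ContDiff Topology Manifold
open MeasureTheory

namespace Claimed.Agent.R322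

namespace SIV

variable {m n : ℕ}

/-- the weight measure is sigma-finite -/
theorem sigmaFinite_μ (W : SIV m n) : SigmaFinite W.μ := by
  have h : ∀ x ∈ W.U, ∃ r : ℝ, 0 < r ∧ Metric.closedBall x r ⊆ W.U := fun x hx => by
    obtain ⟨r, hr, hsub⟩ := Metric.isOpen_iff.1 W.isOpen_U x hx
    exact ⟨r / 2, half_pos hr, (Metric.closedBall_subset_ball (half_lt_self hr)).trans hsub⟩
  choose! r hr hsub using h
  obtain ⟨t, htU, htc, hcov⟩ := TopologicalSpace.countable_cover_nhdsWithin (s := W.U)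
    (f := fun x => Metric.closedBall x (r x))
    (fun x hx => mem_nhdsWithin_of_mem_nhds (Metric.closedBall_mem_nhds x (hr x hx)))
  refine Measure.sigmaFinite_of_countable
    (S := insert W.Uᶜ ((fun x => Metric.closedBall x (r x)) '' t)) ((htc.image _).insert _) ?_ ?_
  · rintro s (rfl | ⟨x, hx, rfl⟩)
    · rw [W.μ_compl_U]; exact ENNReal.zero_lt_top
    · exact W.μ_compact_lt_top (isCompact_closedBall x _) (hsub x (htU hx))
  · rw [Set.eq_univ_iff_forall]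
    intro x
    by_cases hx : x ∈ W.U
    · obtain ⟨y, hy, hxy⟩ := Set.mem_iUnion₂.1 (hcov hx)
      exact ⟨_, Set.mem_insert_of_mem _ ⟨y, hy, rfl⟩, hxy⟩
    · exact ⟨_, Set.mem_insert _ _, hx⟩

end SIV

namespace Tube

variable {m n : ℕ} {κ₂ : ℝ} {u : E m → E n}

theorem cyla_sub_Tub (u : E m → E n) (Ω : Set (E m)) (h : ℝ) : Cyl u Ω h ⊆ Tub u h :=
  fun X hX => ⟨npr u X, hX.2⟩

theorem cyla_eq (hu : Geo κ₂ u) (Ω : Set (E m)) {h : ℝ} (hh : h ≤ 2 / 9) :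
    Cyl u Ω h = Tub u h ∩ npr u ⁻¹' Ω := by
  ext X
  constructor
  · intro hX
    exact ⟨cyla_sub_Tub _ _ _ hX, hX.1⟩
  · rintro ⟨h1, h2⟩
    exact ⟨h2, (tube_unique_of_le hu (hh.trans (by norm_num)) h1).2.2.2.1⟩

theorem cyla_isOpen (hu : Geo κ₂ u) {Ω : Set (E m)} (hΩ : IsOpen Ω) {h : ℝ} (hh : h ≤ 2 / 9) :
    IsOpen (Cyl u Ω h) := by
  obtain ⟨hT, hn, -, -⟩ := tube_deriv_of_le hu hh
  rw [cyla_eq hu Ω hh]
  exact hn.continuousOn.isOpen_inter_preimage hT hΩ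

theorem cyla_continuousOn_npr (hu : Geo κ₂ u) (Ω : Set (E m)) {h : ℝ} (hh : h ≤ 2 / 9) :
    ContinuousOn (npr u) (Cyl u Ω h) :=
  (tube_deriv_of_le hu hh).2.1.continuousOn.mono (cyla_sub_Tub _ _ _)

/-- bounded height over a compact base set: a compact set -/
theorem cyla_isCompact (hu : Geo κ₂ u) {K : Set (E m)} (hK : IsCompact K) {h' : ℝ}
    (hh : h' < 1 / 4) : IsCompact {X : E (m + n) | npr u X ∈ K ∧ ‖zz u X‖ ≤ h'} := by
  have hPh : Continuous (fun p : E m × E (m + n) => Ph u p.1 p.2) := by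
    have h1 : Continuous (Ph u) := (contDiff_Ph_of (k := 0) (hu.smooth.of_le (by norm_num))).continuous
    exact (h1.comp continuous_fst).clm_apply continuous_snd
  have hS : IsCompact ((K ×ˢ Metric.closedBall (0 : E (m + n)) h') ∩
      {p : E m × E (m + n) | Ph u p.1 p.2 = 0}) :=
    (hK.prod (isCompact_closedBall 0 h')).inter_right (isClosed_eq hPh continuous_const)
  have hF : Continuous (fun p : E m × E (m + n) => Fg u p.1 + p.2) := by
    have h1 : Continuous (Fg u) := (contDiff_Fg_of (k := 0) (hu.smooth.of_le (by norm_num))).continuous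
    exact (h1.comp continuous_fst).add continuous_snd
  have himg : {X : E (m + n) | npr u X ∈ K ∧ ‖zz u X‖ ≤ h'} =
      (fun p : E m × E (m + n) => Fg u p.1 + p.2) '' ((K ×ˢ Metric.closedBall (0 : E (m + n)) h') ∩
      {p : E m × E (m + n) | Ph u p.1 p.2 = 0}) := by
    ext X
    constructor
    · rintro ⟨h1, h2⟩
      have hT : X ∈ Tub u (1 / 4) := ⟨npr u X, lt_of_le_of_lt h2 hh⟩
      refine ⟨(npr u X, zz u X), ⟨⟨h1, by simpa using h2⟩,
        (tube_unique_of_le hu le_rfl hT).2.2.1⟩, ?_⟩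
      simp only [zz]
      abel
    · rintro ⟨⟨y, w⟩, ⟨⟨h1, h2⟩, h3⟩, rfl⟩
      have h2' : ‖w‖ ≤ h' := by simpa using h2
      have hT : Fg u y + w ∈ Tub u (1 / 4) := ⟨y, by
        rw [add_sub_cancel_left]; exact lt_of_le_of_lt h2' hh⟩
      obtain ⟨e1, e2⟩ := (tube_unique_of_le hu le_rfl hT).2.2.2.2 y w h3 (lt_of_le_of_lt h2' hh) rfl
      show npr u (Fg u y + w) ∈ K ∧ ‖zz u (Fg u y + w)‖ ≤ h'
      rw [e1, e2]
      exact ⟨h1, h2'⟩
  rw [himg]
  exact hS.image hF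

theorem cyla_null (N : NCyl m n) (hO : MeasurableSet (Cyl N.u N.Ω N.h)) :
    N.μ {X | ¬ (X ∈ N.W.support ∧ X ∈ Cyl N.u N.Ω N.h ∧ ‖zz N.u X‖ < N.h')} = 0 := by
  have hsub : {X | ¬ (X ∈ N.W.support ∧ X ∈ Cyl N.u N.Ω N.h ∧ ‖zz N.u X‖ < N.h')} ⊆
      N.W.supportᶜ ∪ (Cyl N.u N.Ω N.h)ᶜ := by
    intro X hX
    by_contra hc
    simp only [Set.mem_union, Set.mem_compl_iff, not_or, not_not] at hc
    exact hX ⟨hc.1, hc.2, N.gap X hc.1 hc.2⟩
  refine measure_mono_null hsub (measure_union_null ?_ ?_)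
  · exact le_antisymm ((Measure.restrict_le_self _).trans N.W.μ_compl_support.le) zero_le
  · unfold NCyl.μ
    rw [Measure.restrict_apply hO.compl, Set.compl_inter_self, measure_empty]

theorem cyla_fin (N : NCyl m n) (hu : Geo κ₂ N.u) (hh : N.h ≤ 2 / 9) {K : Set (E m)}
    (hK : IsCompact K) (hKΩ : K ⊆ N.Ω) : N.μ {X | npr N.u X ∈ K} < ⊤ := by
  have hO := cyla_isOpen hu N.isOpen_Ω hh
  have hK' : IsCompact {X : E (m + n) | npr N.u X ∈ K ∧ ‖zz N.u X‖ ≤ N.h'} :=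
    cyla_isCompact hu hK (by linarith [N.h'_lt])
  have hK'C : {X : E (m + n) | npr N.u X ∈ K ∧ ‖zz N.u X‖ ≤ N.h'} ⊆ Cyl N.u N.Ω N.h :=
    fun X hX => ⟨hKΩ hX.1, hX.2.trans_lt N.h'_lt⟩
  have hsub : {X | npr N.u X ∈ K} ⊆ {X : E (m + n) | npr N.u X ∈ K ∧ ‖zz N.u X‖ ≤ N.h'} ∪
      {X | ¬ (X ∈ N.W.support ∧ X ∈ Cyl N.u N.Ω N.h ∧ ‖zz N.u X‖ < N.h')} := by
    intro X hX
    by_cases hc : X ∈ N.W.support ∧ X ∈ Cyl N.u N.Ω N.h ∧ ‖zz N.u X‖ < N.h'
    · exact Or.inl ⟨hX, hc.2.2.le⟩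
    · exact Or.inr hc
  calc N.μ {X | npr N.u X ∈ K} ≤ N.μ {X : E (m + n) | npr N.u X ∈ K ∧ ‖zz N.u X‖ ≤ N.h'} +
        N.μ {X | ¬ (X ∈ N.W.support ∧ X ∈ Cyl N.u N.Ω N.h ∧ ‖zz N.u X‖ < N.h')} :=
        (measure_mono hsub).trans (measure_union_le _ _)
    _ = N.μ {X : E (m + n) | npr N.u X ∈ K ∧ ‖zz N.u X‖ ≤ N.h'} := by
        rw [cyla_null N hO.measurableSet, add_zero]
    _ ≤ N.W.μ {X : E (m + n) | npr N.u X ∈ K ∧ ‖zz N.u X‖ ≤ N.h'} := Measure.restrict_le_self _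
    _ < ⊤ := N.W.μ_compact_lt_top hK' (hK'C.trans N.cyl_sub)

/-- first variation in the cylinder -/
theorem cyla_stat (N : NCyl m n) (hu : Geo κ₂ N.u) (hh : N.h ≤ 2 / 9)
    (Y : E (m + n) → E (m + n)) (K : Set (E m)) (hY : ContDiffOn ℝ 1 Y (Cyl N.u N.Ω N.h))
    (hK : IsCompact K) (hKΩ : K ⊆ N.Ω) (h0 : ∀ X ∈ Cyl N.u N.Ω N.h, npr N.u X ∉ K → Y X = 0) :
    Integrable (fun X => tdiv (N.W.P X) (fderiv ℝ Y X)) N.μ ∧
      ∫ X, tdiv (N.W.P X) (fderiv ℝ Y X) ∂N.μ = 0 := by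
  have hCo : IsOpen (Cyl N.u N.Ω N.h) := cyla_isOpen hu N.isOpen_Ω hh
  have hK' : IsCompact {X : E (m + n) | npr N.u X ∈ K ∧ ‖zz N.u X‖ ≤ N.h'} :=
    cyla_isCompact hu hK (by linarith [N.h'_lt])
  have hK'C : {X : E (m + n) | npr N.u X ∈ K ∧ ‖zz N.u X‖ ≤ N.h'} ⊆ Cyl N.u N.Ω N.h :=
    fun X hX => ⟨hKΩ hX.1, hX.2.trans_lt N.h'_lt⟩
  obtain ⟨L, hL, hKL, hLC⟩ := exists_compact_between hK' hCo hK'C
  obtain ⟨χ, h1, hχ0, -⟩ := exists_contMDiffMap_one_nhds_of_subset_interior (n := 1)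
    𝓘(ℝ, E (m + n)) hK'.isClosed hKL
  have hχ : ContDiff ℝ 1 χ := χ.contMDiff.contDiff
  obtain ⟨Z, hZdef⟩ : ∃ Z : E (m + n) → E (m + n), Z = fun X => χ X • Y X := ⟨_, rfl⟩
  have hZ : ContDiff ℝ 1 Z := by
    rw [contDiff_iff_contDiffAt]
    intro x
    by_cases hx : x ∈ Cyl N.u N.Ω N.h
    · rw [hZdef]
      exact (hχ.contDiffOn.smul hY).contDiffAt (hCo.mem_nhds hx)
    · have hxL : x ∈ Lᶜ := fun h => hx (hLC h)
      have : Z =ᶠ[𝓝 x] fun _ => 0 := by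
        filter_upwards [hL.isClosed.isOpen_compl.mem_nhds hxL] with y hy
        rw [hZdef]
        simp only [hχ0 y hy, zero_smul]
      exact contDiffAt_const.congr_of_eventuallyEq this
  have hZsupp : tsupport Z ⊆ L := closure_minimal (fun X hX => by
    by_contra h
    exact hX (by rw [hZdef]; simp only [hχ0 X h, zero_smul])) hL.isClosed
  have hZc : HasCompactSupport Z := hL.of_isClosed_subset (isClosed_tsupport _) hZsupp
  have hstat := N.W.stat Z hZ hZc (hZsupp.trans (hLC.trans N.cyl_sub))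
  have hae : ∀ᵐ X ∂N.μ, tdiv (N.W.P X) (fderiv ℝ Z X) = tdiv (N.W.P X) (fderiv ℝ Y X) := by
    have hnull := cyla_null N hCo.measurableSet
    rw [← compl_compl {X | ¬ (X ∈ N.W.support ∧ X ∈ Cyl N.u N.Ω N.h ∧ ‖zz N.u X‖ < N.h')},
      ← mem_ae_iff] at hnull
    filter_upwards [hnull] with X hX
    have hX' : X ∈ N.W.support ∧ X ∈ Cyl N.u N.Ω N.h ∧ ‖zz N.u X‖ < N.h' := by
      by_contra hc
      exact hX hc
    obtain ⟨-, hXC, hXz⟩ := hX'
    congr 1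
    by_cases hXK : npr N.u X ∈ K
    · have h2 : ∀ᶠ X' in 𝓝 X, χ X' = 1 :=
        h1.filter_mono (nhds_le_nhdsSet (show X ∈ {X : E (m + n) | npr N.u X ∈ K ∧
          ‖zz N.u X‖ ≤ N.h'} from ⟨hXK, hXz.le⟩))
      refine Filter.EventuallyEq.fderiv_eq ?_
      filter_upwards [h2] with X' hX'
      rw [hZdef]
      simp only [hX', one_smul]
    · have hopen : IsOpen (Cyl N.u N.Ω N.h ∩ npr N.u ⁻¹' Kᶜ) :=
        (cyla_continuousOn_npr hu N.Ω hh).isOpen_inter_preimage hCo hK.isClosed.isOpen_compl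
      refine Filter.EventuallyEq.fderiv_eq ?_
      filter_upwards [hopen.mem_nhds ⟨hXC, hXK⟩] with X' hX'
      rw [hZdef]
      simp only [h0 X' hX'.1 hX'.2, smul_zero]
  obtain ⟨a, ha⟩ := (hZc.fderiv ℝ).exists_bound_of_continuous (hZ.continuous_fderiv (by simp))
  obtain ⟨C, hC, htd⟩ := Base.exists_tdiv_bound (m + n)
  have hint : Integrable (fun X => tdiv (N.W.P X) (fderiv ℝ Z X)) N.W.μ :=
    N.W.integrable_of_bdd hL (hLC.trans N.cyl_sub)
      (Base.measurable_tdiv_field N.W.P_meas hZ).aestronglyMeasurable (C := C * a)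
      (fun x => (htd m _ _ (N.W.P_proj x)).trans (mul_le_mul_of_nonneg_left (ha x) hC))
      (fun x hx => by
        rw [Base.fderiv_eq_zero_of_notMem_tsupport (fun h => hx (hZsupp h)), Base.tdiv_zero])
  refine ⟨(hint.mono_measure Measure.restrict_le_self).congr hae, ?_⟩
  rw [← integral_congr_ae hae]
  unfold NCyl.μ
  rw [setIntegral_eq_integral_of_forall_compl_eq_zero (fun x hx => by
    rw [Base.fderiv_eq_zero_of_notMem_tsupport (fun h => hx (hLC (hZsupp h))), Base.tdiv_zero])]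
  exact hstat

/-- bounded measurable functions vanishing off a set of finite measure are integrable -/
theorem cyla_integrable {α : Type*} [MeasurableSpace α] (μ : Measure α) {η : α → ℝ} {A : Set α}
    {B : ℝ} (hη : Measurable η) (hsupp : ∀ y ∉ A, η y = 0) (hB : ∀ y, |η y| ≤ B)
    (hfin : μ A < ⊤) : Integrable η μ := by
  have h1 : IntegrableOn η A μ :=
    Measure.integrableOn_of_bounded (M := B) hfin.ne hη.aestronglyMeasurable
      (ae_of_all _ fun x => by rw [Real.norm_eq_abs]; exact hB x)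
  exact (integrableOn_iff_integrable_of_support_subset
    (fun x hx => by_contra fun h => hx (hsupp x h))).1 h1

/-- the abstract estimate behind (G10) -/
theorem cyla_leb {α : Type*} [MeasurableSpace α] (ν lam : Measure α)
    [ν.HaveLebesgueDecomposition lam] (d : α → ℝ) (hd : Measurable d) (hd0 : ∀ y, 0 ≤ d y)
    (η : α → ℝ) (A : Set α) (B : ℝ) (hη : Measurable η) (hA : MeasurableSet A)
    (hsupp : ∀ y ∉ A, η y = 0) (hB : ∀ y, |η y| ≤ B)
    (hfin : ν A < ⊤) (hvol : ∫⁻ y in A, ENNReal.ofReal (d y) ∂lam < ⊤) :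
    |∫ y, η y ∂ν - ∫ y in A, d y * η y ∂lam| ≤
      B * (ν.singularPart lam A +
        ∫⁻ y in A, ENNReal.ofReal |(ν.rnDeriv lam y).toReal - d y| ∂lam).toReal ∧
    ν A ≤ ∫⁻ y in A, ENNReal.ofReal (d y) ∂lam +
      (ν.singularPart lam A +
        ∫⁻ y in A, ENNReal.ofReal |(ν.rnDeriv lam y).toReal - d y| ∂lam) := by
  obtain ⟨s, hs⟩ : ∃ s : Measure α, s = ν.singularPart lam := ⟨_, rfl⟩
  obtain ⟨f, hfdef⟩ : ∃ f : α → ℝ≥0∞, f = ν.rnDeriv lam := ⟨_, rfl⟩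
  have hf : Measurable f := hfdef ▸ Measure.measurable_rnDeriv ν lam
  have hdec : ν = s + lam.withDensity f := by
    rw [hs, hfdef]; exact Measure.haveLebesgueDecomposition_add ν lam
  rw [← hs, ← hfdef]
  have hνA : ν A = s A + ∫⁻ y in A, f y ∂lam := by
    conv_lhs => rw [hdec]
    rw [Measure.add_apply, withDensity_apply _ hA]
  have hsA : s A < ⊤ := lt_of_le_of_lt (by rw [hνA]; exact le_self_add) hfin
  have hfA : ∫⁻ y in A, f y ∂lam < ⊤ := lt_of_le_of_lt (by rw [hνA]; exact le_add_self) hfin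
  have hftop : ∀ᵐ y ∂lam.restrict A, f y < ⊤ := ae_lt_top hf hfA.ne
  have hgm : Measurable (fun y => (f y).toReal - d y) := hf.ennreal_toReal.sub hd
  have hgA : ∫⁻ y in A, ENNReal.ofReal |(f y).toReal - d y| ∂lam < ⊤ := by
    calc ∫⁻ y in A, ENNReal.ofReal |(f y).toReal - d y| ∂lam
        ≤ ∫⁻ y in A, (f y + ENNReal.ofReal (d y)) ∂lam := by
          refine lintegral_mono fun y => ?_
          calc ENNReal.ofReal |(f y).toReal - d y| ≤ ENNReal.ofReal ((f y).toReal + d y) := by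
                refine ENNReal.ofReal_le_ofReal ?_
                rw [abs_le]
                constructor <;> linarith [hd0 y, ENNReal.toReal_nonneg (a := f y)]
            _ = ENNReal.ofReal (f y).toReal + ENNReal.ofReal (d y) :=
                ENNReal.ofReal_add ENNReal.toReal_nonneg (hd0 y)
            _ ≤ f y + ENNReal.ofReal (d y) := by gcongr; exact ENNReal.ofReal_toReal_le
      _ = ∫⁻ y in A, f y ∂lam + ∫⁻ y in A, ENNReal.ofReal (d y) ∂lam := lintegral_add_left hf _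
      _ < ⊤ := ENNReal.add_lt_top.2 ⟨hfA, hvol⟩
  constructor
  · -- integrability
    have hfi : Integrable (fun y => (f y).toReal) (lam.restrict A) :=
      integrable_toReal_of_lintegral_ne_top hf.aemeasurable hfA.ne
    have hdi : Integrable d (lam.restrict A) :=
      ⟨hd.aestronglyMeasurable, (hasFiniteIntegral_iff_ofReal (ae_of_all _ hd0)).2 hvol⟩
    have i1 : Integrable (fun y => (f y).toReal * η y) (lam.restrict A) :=
      (hfi.mul_const B).mono' (hf.ennreal_toReal.mul hη).aestronglyMeasurable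
        (ae_of_all _ fun y => by
          rw [norm_mul, Real.norm_eq_abs, Real.norm_eq_abs, abs_of_nonneg ENNReal.toReal_nonneg]
          exact mul_le_mul_of_nonneg_left (hB y) ENNReal.toReal_nonneg)
    have i2 : Integrable (fun y => d y * η y) (lam.restrict A) :=
      (hdi.mul_const B).mono' (hd.mul hη).aestronglyMeasurable
        (ae_of_all _ fun y => by
          rw [norm_mul, Real.norm_eq_abs, Real.norm_eq_abs, abs_of_nonneg (hd0 y)]
          exact mul_le_mul_of_nonneg_left (hB y) (hd0 y))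
    have hwA : (lam.withDensity f) A < ⊤ := by rw [withDensity_apply _ hA]; exact hfA
    have e1 : ∫ y, η y ∂ν = ∫ y, η y ∂s + ∫ y in A, (f y).toReal * η y ∂lam := by
      have e0 : ∫ y, η y ∂ν = ∫ y, η y ∂(s + lam.withDensity f) := by rw [← hdec]
      rw [e0, integral_add_measure (cyla_integrable s hη hsupp hB hsA)
        (cyla_integrable _ hη hsupp hB hwA)]
      congr 1
      rw [← setIntegral_eq_integral_of_forall_compl_eq_zero (s := A) (fun y hy => hsupp y hy),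
        setIntegral_withDensity_eq_setIntegral_toReal_smul hf hftop _ hA]
      rfl
    have e2 : ∫ y, η y ∂ν - ∫ y in A, d y * η y ∂lam
        = ∫ y, η y ∂s + ∫ y in A, ((f y).toReal - d y) * η y ∂lam := by
      rw [e1, add_sub_assoc, ← integral_sub i1 i2]
      congr 1
      refine integral_congr_ae (ae_of_all _ fun y => ?_)
      ring
    have b1 : |∫ y, η y ∂s| ≤ B * (s A).toReal := by
      rw [← setIntegral_eq_integral_of_forall_compl_eq_zero (s := A) (fun y hy => hsupp y hy),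
        ← Real.norm_eq_abs]
      exact norm_setIntegral_le_of_norm_le_const hsA (fun y _ => by
        rw [Real.norm_eq_abs]; exact hB y)
    have b2 : |∫ y in A, ((f y).toReal - d y) * η y ∂lam|
        ≤ B * (∫⁻ y in A, ENNReal.ofReal |(f y).toReal - d y| ∂lam).toReal := by
      have hgi : Integrable (fun y => |(f y).toReal - d y|) (lam.restrict A) := (hfi.sub hdi).abs
      have e3 : ∫ y in A, |(f y).toReal - d y| ∂lam
          = (∫⁻ y in A, ENNReal.ofReal |(f y).toReal - d y| ∂lam).toReal :=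
        integral_eq_lintegral_of_nonneg_ae (ae_of_all _ fun y => abs_nonneg _)
          hgm.abs.aestronglyMeasurable
      rw [← e3, ← integral_const_mul, ← Real.norm_eq_abs]
      refine norm_integral_le_of_norm_le (hgi.const_mul B) (ae_of_all _ fun y => ?_)
      rw [norm_mul, Real.norm_eq_abs, Real.norm_eq_abs, mul_comm]
      exact mul_le_mul_of_nonneg_right (hB y) (abs_nonneg _)
    rw [e2, ENNReal.toReal_add hsA.ne hgA.ne, mul_add]
    exact (abs_add_le _ _).trans (add_le_add b1 b2)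
  · rw [hνA, add_left_comm]
    gcongr
    rw [← lintegral_add_left hd.ennreal_ofReal]
    refine lintegral_mono_ae ?_
    filter_upwards [hftop] with y hy
    calc f y = ENNReal.ofReal (f y).toReal := (ENNReal.ofReal_toReal hy.ne).symm
      _ ≤ ENNReal.ofReal (d y + |(f y).toReal - d y|) := by
          refine ENNReal.ofReal_le_ofReal ?_
          linarith [le_abs_self ((f y).toReal - d y)]
      _ = ENNReal.ofReal (d y) + ENNReal.ofReal |(f y).toReal - d y| :=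
          ENNReal.ofReal_add (hd0 y) (abs_nonneg _)

theorem cyla_measurable_vdens (u : E m → E n) : Measurable (fun y => vdens (fderiv ℝ u y)) := by
  have h1 : Continuous (vdens : (E m →L[ℝ] E n) → ℝ) := by
    unfold vdens
    exact Real.continuous_sqrt.comp
      (ContinuousLinearMap.continuous_det.comp (contDiff_gmatA (k := 0)).continuous)
  exact h1.measurable.comp (measurable_fderiv ℝ u)

theorem cyla_intM_le (N : NCyl m n) (η : E m → ℝ) (A : Set (E m)) (B : ℝ) (hη : Measurable η)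
    (hA : MeasurableSet A) (hAΩ : A ⊆ N.Ω) (hsupp : ∀ y ∉ A, η y = 0) (hB : ∀ y, |η y| ≤ B)
    (hfin : N.nu A < ⊤) (hvol : N.volS A < ⊤) :
    |N.intM η| ≤ B * (N.Mabs A).toReal ∧
    N.nu A ≤ (N.Q : ℝ≥0∞) * N.volS A + N.Mabs A := by
  have := isAddHaar_hausdorff m
  have : SigmaFinite N.W.μ := N.W.sigmaFinite_μ
  have : SFinite N.nu := by unfold NCyl.nu NCyl.μ; infer_instance
  have hv := cyla_measurable_vdens N.u
  have hAi : A ∩ N.Ω = A := Set.inter_eq_left.2 hAΩ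
  have hvolA : N.volS A = ∫⁻ y in A, ENNReal.ofReal (vdens (fderiv ℝ N.u y)) ∂μH[(m : ℝ)] := by
    unfold NCyl.volS
    rw [withDensity_apply _ hA, Measure.restrict_restrict hA, hAi]
  have hQvol : (N.Q : ℝ≥0∞) * N.volS A
      = ∫⁻ y in A, ENNReal.ofReal (N.Q * vdens (fderiv ℝ N.u y)) ∂μH[(m : ℝ)] := by
    rw [hvolA, ← lintegral_const_mul _ hv.ennreal_ofReal]
    refine lintegral_congr fun y => ?_
    rw [ENNReal.ofReal_mul (Nat.cast_nonneg _), ENNReal.ofReal_natCast]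
  have hMabs : N.Mabs A = N.nu.singularPart (μH[(m : ℝ)]) A + ∫⁻ y in A, ENNReal.ofReal
      |(N.nu.rnDeriv (μH[(m : ℝ)]) y).toReal - N.Q * vdens (fderiv ℝ N.u y)| ∂μH[(m : ℝ)] := by
    unfold NCyl.Mabs
    rw [Measure.restrict_apply hA, hAi, Measure.add_apply, withDensity_apply _ hA]
  have hint : (N.Q : ℝ) * ∫ y, η y ∂N.volS
      = ∫ y in A, (N.Q * vdens (fderiv ℝ N.u y)) * η y ∂μH[(m : ℝ)] := by
    unfold NCyl.volS
    rw [integral_withDensity_eq_integral_toReal_smul hv.ennreal_ofReal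
      (ae_of_all _ fun y => ENNReal.ofReal_lt_top), ← integral_const_mul]
    rw [← setIntegral_eq_of_subset_of_forall_sdiff_eq_zero N.isOpen_Ω.measurableSet hAΩ
      (fun y hy => by rw [hsupp y hy.2]; simp)]
    refine integral_congr_ae (ae_of_all _ fun y => ?_)
    simp only [smul_eq_mul]
    rw [ENNReal.toReal_ofReal (vdens_nonneg _), mul_assoc]
  have key := cyla_leb N.nu (μH[(m : ℝ)]) (fun y => N.Q * vdens (fderiv ℝ N.u y))
    (hv.const_mul _) (fun y => mul_nonneg (Nat.cast_nonneg _) (vdens_nonneg _)) η A B hη hA hsupp hB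
    hfin (by rw [← hQvol]; exact ENNReal.mul_lt_top (ENNReal.natCast_lt_top _) hvol)
  unfold NCyl.intM
  rw [hint, hQvol, hMabs]
  exact key

end Tube

end Claimed.Agent.R322
end

/- ===== packed: Claimed.Agent.R322.Tube.Cyl ===== -/
section
/-!
# First variation in an interior normal cylinder; change of physical units

* `stat_cyl` (G8): stationarity for `C¹` fields on the open cylinder with compact BASE support
  (the vertical cutoff lives in the support-free gap).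
* `lamU`, `LmU`, `RefGraphU`: geometric error and bounds of the reference graph in physical units
  dilated by a factor `t`; the two imported estimates in these units are in `Tube/Units.lean`.
-/

set_option autoImplicit false

open scoped ENNReal ContDiff
open MeasureTheory

namespace Claimed.Agent.R322.Tube

variable {m n : ℕ}

/-- **(G8) first variation in the cylinder.** -/
theorem stat_cyl (m n : ℕ) : ∃ h₀ : ℝ, 0 < h₀ ∧ ∀ (κ₂ : ℝ) (N : NCyl m n), Geo κ₂ N.u → N.h ≤ h₀ →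
    ∀ (Y : E (m + n) → E (m + n)) (K : Set (E m)), ContDiffOn ℝ 1 Y (Cyl N.u N.Ω N.h) →
      IsCompact K → K ⊆ N.Ω → (∀ X ∈ Cyl N.u N.Ω N.h, npr N.u X ∉ K → Y X = 0) →
      Integrable (fun X => tdiv (N.W.P X) (fderiv ℝ Y X)) N.μ ∧
      ∫ X, tdiv (N.W.P X) (fderiv ℝ Y X) ∂N.μ = 0 :=
  ⟨2 / 9, by norm_num, fun _ N hu hh Y K hY hK hKΩ h0 => cyla_stat N hu hh Y K hY hK hKΩ h0⟩

/-- (G9) the restricted weight is carried by support points of height `< h'`, and is finite over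
compact base sets. -/
theorem cyl_carrier (m n : ℕ) : ∃ h₀ : ℝ, 0 < h₀ ∧ ∀ (κ₂ : ℝ) (N : NCyl m n), Geo κ₂ N.u → N.h ≤ h₀ →
    IsOpen (Cyl N.u N.Ω N.h) ∧
    N.μ {X | ¬ (X ∈ N.W.support ∧ X ∈ Cyl N.u N.Ω N.h ∧ ‖zz N.u X‖ < N.h')} = 0 ∧
    ∀ K : Set (E m), IsCompact K → K ⊆ N.Ω → N.μ {X | npr N.u X ∈ K} < ⊤ :=
  ⟨2 / 9, by norm_num, fun _ N hu hh =>
    ⟨cyla_isOpen hu N.isOpen_Ω hh, cyla_null N (cyla_isOpen hu N.isOpen_Ω hh).measurableSet,
      fun _ hK hKΩ => cyla_fin N hu hh hK hKΩ⟩⟩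

/-- (G10) `∫ η dM` is controlled by `|M|`, and `ν = Q vol_S + M`. -/
theorem intM_le (N : NCyl m n) (η : E m → ℝ) (A : Set (E m)) (B : ℝ) (hη : Measurable η)
    (hA : MeasurableSet A) (hAΩ : A ⊆ N.Ω) (hsupp : ∀ y ∉ A, η y = 0) (hB : ∀ y, |η y| ≤ B)
    (hfin : N.nu A < ⊤) (hvol : N.volS A < ⊤) :
    |N.intM η| ≤ B * (N.Mabs A).toReal ∧
    N.nu A ≤ (N.Q : ℝ≥0∞) * N.volS A + N.Mabs A :=
  cyla_intM_le N η A B hη hA hAΩ hsupp hB hfin hvol

/-- geometric error density in units dilated by `t` -/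
noncomputable def lamU (t : ℝ) (u : E m → E n) (X : E (m + n)) : ℝ :=
  t ^ 2 * ‖zz u X‖ ^ 2 + (t ^ 2)⁻¹ * ‖HS u (npr u X)‖ ^ 2 + (t ^ 4)⁻¹ * DHSsq u (npr u X)

/-- `Λ` in units dilated by `t` (as a measure in the current units) -/
noncomputable def NCyl.LmU (N : NCyl m n) (t : ℝ) : Measure (E m) :=
  (N.μ.withDensity (fun X => ENNReal.ofReal (lamU t N.u X))).map (npr N.u)

/-- the reference graph has bounded geometry in units dilated by `t` -/
structure RefGraphU (t : ℝ) (J : ℕ) (K ε : ℝ) (u : E m → E n) : Prop where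
  smooth : ContDiff ℝ J u
  slope : ∀ y, ‖fderiv ℝ u y‖ ≤ ε
  bound : ∀ j : ℕ, 2 ≤ j → j ≤ J → ∀ y, ‖iteratedFDeriv ℝ j u y‖ ≤ K * t ^ (j - 1)

end Claimed.Agent.R322.Tube
end

/- ===== packed: Claimed.Agent.R322.Tube.Frame ===== -/
section
/-!
# Orthonormal frames and the product chart of a cell (AE Section 2, "radial gauge" replaced)

For a reference graph `u` and a cell centre `x₀ ∈ E m`:
* `tau0, nu0` : linear isometries of `E m`, `E n` onto `T_{x₀}S`, `N_{x₀}S` (any choice);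
* `A0 = tau0ᵀ dF(x₀)` : the affine normalisation of the graph chart, `A0ᵀ A0 = g(x₀)`;
  chart coordinate `p = A0 (y - x₀) / l`;
* `tauF y = P_h(y) tau0 (tau0ᵀ P_h(y) tau0)^{-1/2}`, `nuF y = P_v(y) nu0 (nu0ᵀ P_v(y) nu0)^{-1/2}` :
  PROJECTED orthonormal frames, smooth in `y`.  No parallel transport.
* `Cy y = tauFᵀ dF(y) A0⁻¹` (`dF(y) A0⁻¹ = tauF Cy`), `|Cy - 1| ≤ C κ₂ |y - x₀|`;
* `omgL y a = nuFᵀ D_a nuF` : normal connection form, `|omgL y| ≤ C κ₂² |y - x₀|` because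
  `P_v D_a(P_v nu0) = P_v (D_a P_v) P_h(y) nu0` and `P_h(y) nu0 = (P_h(y) - P_h(x₀)) nu0`;
  the tangential part of `D_a nuF η` is `- A_{nuF η} dF a` (Weingarten).
* heights `ζ = nuF(y)ᵀ z / l`.
-/

set_option autoImplicit false

open scoped ENNReal ContDiff
open MeasureTheory ContinuousLinearMap

namespace Claimed.Agent.R322.Tube

variable {m n : ℕ}

/-- orthonormal frames of the tangent and normal space of a graph with slope `A` -/
structure Frame0 (A : E m →L[ℝ] E n) where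
  t : E m →L[ℝ] E (m + n)
  v : E n →L[ℝ] E (m + n)
  t_iso : adjoint t ∘L t = ContinuousLinearMap.id ℝ _
  v_iso : adjoint v ∘L v = ContinuousLinearMap.id ℝ _
  t_range : t ∘L adjoint t = PhA A
  v_range : v ∘L adjoint v = ContinuousLinearMap.id ℝ _ - PhA A

/-- [Fr0] (`stdOrthonormalBasis` of `range (dF A)` and of its orthogonal complement; `finrank = m`,
`n` because `dF A` is injective). -/
theorem nonempty_frame0 (A : E m →L[ℝ] E n) : Nonempty (Frame0 A) := by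
  obtain ⟨t, ht1, ht2⟩ := IsProj.exists_iso (isProj_PhA A)
  obtain ⟨v, hv1, hv2⟩ := IsProj.exists_iso (IsProj.compl (isProj_PhA A))
  exact ⟨⟨t, v, ht1, hv1, ht2, hv2⟩⟩

noncomputable def frame0 (A : E m →L[ℝ] E n) : Frame0 A := Classical.choice (nonempty_frame0 A)

noncomputable def tau0 (u : E m → E n) (x₀ : E m) : E m →L[ℝ] E (m + n) :=
  (frame0 (fderiv ℝ u x₀)).t

noncomputable def nu0 (u : E m → E n) (x₀ : E m) : E n →L[ℝ] E (m + n) :=
  (frame0 (fderiv ℝ u x₀)).v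

/-- affine normalisation of the graph chart at `x₀` -/
noncomputable def A0 (u : E m → E n) (x₀ : E m) : E m →L[ℝ] E m :=
  adjoint (tau0 u x₀) ∘L dF (fderiv ℝ u x₀)

/-- horizontal orthonormal frame at `y` -/
noncomputable def tauF (u : E m → E n) (x₀ y : E m) : E m →L[ℝ] E (m + n) :=
  Ph u y ∘L tau0 u x₀ ∘L (Tool.opSqrt m (adjoint (tau0 u x₀) ∘L Ph u y ∘L tau0 u x₀)).inverse

/-- normal orthonormal frame at `y` -/
noncomputable def nuF (u : E m → E n) (x₀ y : E m) : E n →L[ℝ] E (m + n) :=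
  Pv u y ∘L nu0 u x₀ ∘L (Tool.opSqrt n (adjoint (nu0 u x₀) ∘L Pv u y ∘L nu0 u x₀)).inverse

/-- coordinate frame in terms of the orthonormal frame -/
noncomputable def Cy (u : E m → E n) (x₀ y : E m) : E m →L[ℝ] E m :=
  adjoint (tauF u x₀ y) ∘L dF (fderiv ℝ u y) ∘L (A0 u x₀).inverse

/-- normal connection form of the frame `nuF` -/
noncomputable def omgL (u : E m → E n) (x₀ y : E m) : E m →L[ℝ] E n →L[ℝ] E n :=
  (compL ℝ (E n) (E (m + n)) (E n) (adjoint (nuF u x₀ y))) ∘L fderiv ℝ (nuF u x₀) y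

/-- base point with chart coordinate `p` -/
noncomputable def bpt (u : E m → E n) (x₀ : E m) (l : ℝ) (p : E m) : E m :=
  x₀ + l • (A0 u x₀).inverse p

/-- chart coordinate of the base point `y` -/
noncomputable def bco (u : E m → E n) (x₀ : E m) (l : ℝ) (y : E m) : E m :=
  l⁻¹ • A0 u x₀ (y - x₀)

/-- the product chart `X ↦ (p, ζ)` -/
noncomputable def chart (u : E m → E n) (x₀ : E m) (l : ℝ) (X : E (m + n)) : E m × E n :=
  (bco u x₀ l (npr u X), l⁻¹ • adjoint (nuF u x₀ (npr u X)) (zz u X))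

/-- its inverse -/
noncomputable def unchart (u : E m → E n) (x₀ : E m) (l : ℝ) (q : E m × E n) : E (m + n) :=
  Fg u (bpt u x₀ l q.1) + l • nuF u x₀ (bpt u x₀ l q.1) q.2

/-- bounded geometry with small slope `ε₀` -/
structure GeoS (κ₂ ε₀ : ℝ) (u : E m → E n) : Prop extends Geo κ₂ u where
  slope' : ∀ y, ‖fderiv ℝ u y‖ ≤ ε₀
  smooth5 : ContDiff ℝ 5 u
  d4 : ∀ y, ‖iteratedFDeriv ℝ 4 u y‖ ≤ κ₂
  d5 : ∀ y, ‖iteratedFDeriv ℝ 5 u y‖ ≤ κ₂

/-- [Fr1] the affine normalisation. -/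
theorem A0_facts (m n : ℕ) (u : E m → E n) (x₀ : E m) (ε₀ : ℝ) (hε : ‖fderiv ℝ u x₀‖ ≤ ε₀) :
    adjoint (A0 u x₀) ∘L A0 u x₀ = gmat (fderiv ℝ u x₀) ∧
    A0 u x₀ ∘L (A0 u x₀).inverse = ContinuousLinearMap.id ℝ _ ∧
    (A0 u x₀).inverse ∘L A0 u x₀ = ContinuousLinearMap.id ℝ _ ∧
    (∀ a, ‖a‖ ≤ ‖A0 u x₀ a‖) ∧ (∀ a, ‖A0 u x₀ a‖ ≤ (1 + ε₀) * ‖a‖) ∧
    |LinearMap.det ((A0 u x₀ : E m →L[ℝ] E m) : E m →ₗ[ℝ] E m)| = vdens (fderiv ℝ u x₀) ∧
    tau0 u x₀ ∘L A0 u x₀ = dF (fderiv ℝ u x₀) :=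
  fr_A0_facts (fderiv ℝ u x₀) (tau0 u x₀) (frame0 _).t_range ε₀ hε

/-- admissible slope for the projected frames -/
noncomputable def frε (m n : ℕ) : ℝ := min (Tool.sqδ m) (Tool.sqδ n) / 48

theorem frε_pos (m n : ℕ) : 0 < frε m n := by
  have h1 := (Tool.opSqrt_spec m).1
  have h2 := (Tool.opSqrt_spec n).1
  unfold frε
  positivity

theorem frε_le (m n : ℕ) : frε m n ≤ 1 / 192 := by
  have h1 := (Tool.opSqrt_spec m).2.1
  have h2 := min_le_left (Tool.sqδ m) (Tool.sqδ n)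
  unfold frε
  linarith

theorem isProj_Pv (u : E m → E n) (y : E m) : IsProj n (Pv u y) := IsProj.compl (isProj_Ph u y)

theorem tauF_eq (u : E m → E n) (x₀ y : E m) : tauF u x₀ y = pfr m (Ph u y) (tau0 u x₀) := rfl

theorem nuF_eq (u : E m → E n) (x₀ y : E m) : nuF u x₀ y = pfr n (Pv u y) (nu0 u x₀) := rfl

theorem tau0_iso (u : E m → E n) (x₀ : E m) :
    adjoint (tau0 u x₀) ∘L tau0 u x₀ = ContinuousLinearMap.id ℝ _ := (frame0 _).t_iso

theorem nu0_iso (u : E m → E n) (x₀ : E m) :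
    adjoint (nu0 u x₀) ∘L nu0 u x₀ = ContinuousLinearMap.id ℝ _ := (frame0 _).v_iso

theorem tau0_range (u : E m → E n) (x₀ : E m) : tau0 u x₀ ∘L adjoint (tau0 u x₀) = Ph u x₀ :=
  (frame0 _).t_range

theorem nu0_range (u : E m → E n) (x₀ : E m) : nu0 u x₀ ∘L adjoint (nu0 u x₀) = Pv u x₀ :=
  (frame0 _).v_range

theorem GeoS.norm_Ph_sub_lt {κ₂ : ℝ} {u : E m → E n} (hu : GeoS κ₂ (frε m n) u) (x₀ y : E m) :
    ‖Ph u y - Ph u x₀‖ ≤ min (Tool.sqδ m) (Tool.sqδ n) / 8 := by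
  refine (hu.toGeo.norm_Ph_sub_le x₀ y).trans ?_
  have h1 := norm_sub_le (fderiv ℝ u y) (fderiv ℝ u x₀)
  have h2 := hu.slope' y
  have h3 := hu.slope' x₀
  unfold frε at h2 h3
  linarith

theorem Pv_sub_Pv (u : E m → E n) (x₀ y : E m) : Pv u y - Pv u x₀ = -(Ph u y - Ph u x₀) := by
  unfold Pv
  abel

theorem GeoS.ball_tau {κ₂ : ℝ} {u : E m → E n} (hu : GeoS κ₂ (frε m n) u) (x₀ y : E m) :
    ‖adjoint (tau0 u x₀) ∘L Ph u y ∘L tau0 u x₀ - ContinuousLinearMap.id ℝ _‖ < Tool.sqδ m := by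
  refine lt_of_le_of_lt (fr_norm_gram_sub_le (tau0_iso u x₀) _) ?_
  rw [tau0_range]
  have h1 := hu.norm_Ph_sub_lt x₀ y
  have h2 := min_le_left (Tool.sqδ m) (Tool.sqδ n)
  have h3 := (Tool.opSqrt_spec m).1
  linarith

theorem GeoS.ball_nu {κ₂ : ℝ} {u : E m → E n} (hu : GeoS κ₂ (frε m n) u) (x₀ y : E m) :
    ‖adjoint (nu0 u x₀) ∘L Pv u y ∘L nu0 u x₀ - ContinuousLinearMap.id ℝ _‖ < Tool.sqδ n := by
  refine lt_of_le_of_lt (fr_norm_gram_sub_le (nu0_iso u x₀) _) ?_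
  rw [nu0_range, Pv_sub_Pv, norm_neg]
  have h1 := hu.norm_Ph_sub_lt x₀ y
  have h2 := min_le_right (Tool.sqδ m) (Tool.sqδ n)
  have h3 := (Tool.opSqrt_spec n).1
  linarith

theorem GeoS.contDiff_tauF {κ₂ : ℝ} {u : E m → E n} (hu : GeoS κ₂ (frε m n) u) (x₀ : E m) :
    ContDiff ℝ 3 (tauF u x₀) :=
  contDiff_pfr (r := 3) (by norm_num) (fun y => isProj_Ph u y)
    (contDiff_Ph_of (k := 3) (by exact_mod_cast hu.smooth)) (hu.ball_tau x₀)

theorem GeoS.contDiff_nuF {κ₂ : ℝ} {u : E m → E n} (hu : GeoS κ₂ (frε m n) u) (x₀ : E m) :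
    ContDiff ℝ 3 (nuF u x₀) :=
  contDiff_pfr (r := 3) (by norm_num) (fun y => isProj_Pv u y)
    (contDiff_Pv_of (k := 3) (by exact_mod_cast hu.smooth)) (hu.ball_nu x₀)

/-- [Fr2] the frames are orthonormal, span the right spaces and are `C³`. -/
theorem frame_iso (m n : ℕ) : ∃ ε₀ : ℝ, 0 < ε₀ ∧ ∀ (κ₂ : ℝ) (u : E m → E n), GeoS κ₂ ε₀ u →
    ∀ x₀ : E m, ContDiff ℝ 3 (tauF u x₀) ∧ ContDiff ℝ 3 (nuF u x₀) ∧ ∀ y : E m,
      adjoint (tauF u x₀ y) ∘L tauF u x₀ y = ContinuousLinearMap.id ℝ _ ∧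
      adjoint (nuF u x₀ y) ∘L nuF u x₀ y = ContinuousLinearMap.id ℝ _ ∧
      tauF u x₀ y ∘L adjoint (tauF u x₀ y) = Ph u y ∧
      nuF u x₀ y ∘L adjoint (nuF u x₀ y) = Pv u y := by
  refine ⟨frε m n, frε_pos m n, fun κ₂ u hu x₀ => ⟨hu.contDiff_tauF x₀, hu.contDiff_nuF x₀,
    fun y => ?_⟩⟩
  obtain ⟨a1, a2, -⟩ := pfr_facts (isProj_Ph u y) (hu.ball_tau x₀ y)
  obtain ⟨b1, b2, -⟩ := pfr_facts (isProj_Pv u y) (hu.ball_nu x₀ y)
  exact ⟨a1, b1, a2, b2⟩

/-- [Fr3] quantitative bounds: coordinate frame, connection form, Weingarten. -/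
theorem frame_bounds (m n : ℕ) : ∃ ε₀ C : ℝ, 0 < ε₀ ∧ 0 < C ∧
    ∀ (κ₂ : ℝ) (u : E m → E n), GeoS κ₂ ε₀ u → ∀ x₀ y : E m,
      dF (fderiv ℝ u y) ∘L (A0 u x₀).inverse = tauF u x₀ y ∘L Cy u x₀ y ∧
      A0 u x₀ ∘L dFp (fderiv ℝ u y) = (Cy u x₀ y).inverse ∘L adjoint (tauF u x₀ y) ∧
      Cy u x₀ y ∘L (Cy u x₀ y).inverse = ContinuousLinearMap.id ℝ _ ∧
      (Cy u x₀ y).inverse ∘L Cy u x₀ y = ContinuousLinearMap.id ℝ _ ∧
      ‖Cy u x₀ y - ContinuousLinearMap.id ℝ _‖ ≤ C * κ₂ * ‖y - x₀‖ ∧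
      ‖Cy u x₀ y - ContinuousLinearMap.id ℝ _‖ ≤ 1 / 4 ∧
      ‖omgL u x₀ y‖ ≤ C * κ₂ ^ 2 * ‖y - x₀‖ ∧
      (∀ (a : E m) (η : E n), Ph u y (fderiv ℝ (nuF u x₀) y a η)
        = - Shp u y (nuF u x₀ y η) (dF (fderiv ℝ u y) a)) ∧
      (∀ (a : E m) (η η' : E n), inner ℝ (omgL u x₀ y a η) η' = - inner ℝ η (omgL u x₀ y a η')) := by
  refine ⟨frε m n, 36, frε_pos m n, by norm_num, fun κ₂ u hu x₀ y => ?_⟩
  have hg := hu.toGeo
  have hκ := hg.nonneg
  obtain ⟨c1, c2, c3⟩ := fr_Cy_facts (A := fderiv ℝ u x₀) (A' := fderiv ℝ u y) (tau0_iso u x₀)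
    (tau0_range u x₀) (hu.ball_tau x₀ y)
  have c1' : ‖Cy u x₀ y - ContinuousLinearMap.id ℝ _‖
      ≤ 16 / 3 * ‖fderiv ℝ u y - fderiv ℝ u x₀‖ := by
    have := hg.norm_Ph_sub_le x₀ y
    refine c1.trans ?_
    unfold Ph at this
    linarith
  have hq : ‖Cy u x₀ y - ContinuousLinearMap.id ℝ _‖ ≤ 1 / 4 := by
    refine c1'.trans ?_
    have h1 := norm_sub_le (fderiv ℝ u y) (fderiv ℝ u x₀)
    have h2 := hu.slope' y
    have h3 := hu.slope' x₀
    have h4 := frε_le m n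
    linarith
  obtain ⟨-, i1, i2, -⟩ := fr_near_one hq
  have hdν : DifferentiableAt ℝ (nuF u x₀) y := (hu.contDiff_nuF x₀).differentiable (by norm_num) y
  have hν : ∀ y, adjoint (nuF u x₀ y) ∘L nuF u x₀ y = ContinuousLinearMap.id ℝ _ := fun y =>
    (pfr_facts (isProj_Pv u y) (hu.ball_nu x₀ y)).1
  have homg : ∀ a, omgL u x₀ y a = adjoint (nuF u x₀ y) ∘L fderiv ℝ (nuF u x₀) y a := fun a => rfl
  refine ⟨c2, ?_, i1, i2, ?_, hq, ?_, ?_, ?_⟩
  · have c3' : Cy u x₀ y ∘L (A0 u x₀ ∘L dFp (fderiv ℝ u y)) = adjoint (tauF u x₀ y) := c3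
    rw [← c3', ← comp_assoc, i2, id_comp]
  · refine c1'.trans ?_
    have := hg.norm_Du_sub_le x₀ y
    have h0 : 0 ≤ κ₂ * ‖y - x₀‖ := by positivity
    nlinarith
  · refine opNorm_le_bound _ (by positivity) fun a => ?_
    rw [homg]
    have h1 := fr_conn_bound (fun y => isProj_Pv u y) (nu0_iso u x₀)
      (contDiff_Pv_of (k := 1) (by exact_mod_cast hg.c2)) (hu.ball_nu x₀) y a
    refine h1.trans ?_
    rw [nu0_range, Pv_sub_Pv, norm_neg, (hasFDerivAt_Pv hg.c2 y).fderiv, neg_apply, norm_neg]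
    have h2 : ‖fderiv ℝ (Ph u) y a‖ ≤ 3 * κ₂ * ‖a‖ := hg.norm_dPh_le y a
    have h3 : ‖Ph u y - Ph u x₀‖ ≤ 3 * (κ₂ * ‖y - x₀‖) :=
      (hg.norm_Ph_sub_le x₀ y).trans (by linarith [hg.norm_Du_sub_le x₀ y])
    calc 4 * (‖fderiv ℝ (Ph u) y a‖ * ‖Ph u y - Ph u x₀‖)
        ≤ 4 * ((3 * κ₂ * ‖a‖) * (3 * (κ₂ * ‖y - x₀‖))) := by gcongr
      _ = 36 * κ₂ ^ 2 * ‖y - x₀‖ * ‖a‖ := by ring
  · intro a η
    have hz : ∀ y, Ph u y ∘L nuF u x₀ y = (0 : E n →L[ℝ] E (m + n)) := by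
      intro y
      have h0 : Pv u y ∘L nuF u x₀ y = nuF u x₀ y :=
        (pfr_facts (isProj_Pv u y) (hu.ball_nu x₀ y)).2.2.1
      rw [← h0, ← comp_assoc, Ph_comp_Pv, zero_comp]
    have h1 := fr_deriv_comp (hasFDerivAt_Ph hg.c2 y).differentiableAt hdν hz a
    have h2 : fderiv ℝ (fun _ : E m => (0 : E n →L[ℝ] E (m + n))) y a = 0 := by simp
    rw [h2] at h1
    have h3 := congrArg (fun T : E n →L[ℝ] E (m + n) => T η) h1
    simp only [zero_apply, add_apply, comp_apply] at h3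
    have h4 : Pv u y (nuF u x₀ y η) = nuF u x₀ y η :=
      congrArg (fun T : E n →L[ℝ] E (m + n) => T η)
        (pfr_facts (isProj_Pv u y) (hu.ball_nu x₀ y)).2.2.1
    have h5 : Shp u y (nuF u x₀ y η) (dF (fderiv ℝ u y) a)
        = fderiv ℝ (Ph u) y a (nuF u x₀ y η) := by
      unfold Shp
      rw [comp_apply, dFp_dF, flip_apply, h4]
    rw [h5]
    exact eq_neg_of_add_eq_zero_left h3.symm
  · intro a η η'
    rw [homg]
    exact fr_conn_antisymm hν hdν a η η'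

theorem fr4_Tub_mono (u : E m → E n) {h h' : ℝ} (hh : h ≤ h') : Tub u h ⊆ Tub u h' :=
  fun _ ⟨y, hy⟩ => ⟨y, hy.trans_le hh⟩

theorem fr4_contDiff_bco (u : E m → E n) (x₀ : E m) (l : ℝ) : ContDiff ℝ 3 (bco u x₀ l) := by
  unfold bco
  exact ((A0 u x₀).contDiff.comp (contDiff_id.sub contDiff_const)).const_smul l⁻¹

theorem fr4_contDiff_bpt (u : E m → E n) (x₀ : E m) (l : ℝ) : ContDiff ℝ 3 (bpt u x₀ l) := by
  unfold bpt
  exact contDiff_const.add (((A0 u x₀).inverse.contDiff).const_smul l)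

theorem fr4_bpt_bco (u : E m → E n) (x₀ : E m) {l : ℝ} (hl : 0 < l)
    (hA : (A0 u x₀).inverse ∘L A0 u x₀ = ContinuousLinearMap.id ℝ _) (y : E m) :
    bpt u x₀ l (bco u x₀ l y) = y := by
  have h1 : (A0 u x₀).inverse (A0 u x₀ (y - x₀)) = y - x₀ := by
    have := congrArg (fun T : E m →L[ℝ] E m => T (y - x₀)) hA
    simpa using this
  unfold bpt bco
  rw [map_smul, h1, smul_smul, mul_inv_cancel₀ hl.ne', one_smul]
  abel

theorem fr4_bco_bpt (u : E m → E n) (x₀ : E m) {l : ℝ} (hl : 0 < l)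
    (hA : A0 u x₀ ∘L (A0 u x₀).inverse = ContinuousLinearMap.id ℝ _) (p : E m) :
    bco u x₀ l (bpt u x₀ l p) = p := by
  have h1 : A0 u x₀ ((A0 u x₀).inverse p) = p := by
    have := congrArg (fun T : E m →L[ℝ] E m => T p) hA
    simpa using this
  unfold bpt bco
  rw [add_sub_cancel_left, map_smul, h1, smul_smul, inv_mul_cancel₀ hl.ne', one_smul]

/-- differentiating `Nᵀ N = 1`. -/
theorem fr4_deriv_iso {N : E m → E n →L[ℝ] E (m + n)} {y : E m}
    (hN : DifferentiableAt ℝ N y)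
    (hiso : ∀ y, adjoint (N y) ∘L N y = ContinuousLinearMap.id ℝ _) (a : E m) (η : E n) :
    adjoint (N y) (fderiv ℝ N y a η) + adjoint (fderiv ℝ N y a) (N y η) = 0 := by
  have h1 : HasFDerivAt N (fderiv ℝ N y) y := hN.hasFDerivAt
  have h2 : HasFDerivAt (fun y => adjL n (m + n) (N y)) (adjL n (m + n) ∘L fderiv ℝ N y) y :=
    (adjL n (m + n)).hasFDerivAt.comp y h1
  have h3 := h2.clm_comp h1
  have h4 : (fun y => (adjL n (m + n) (N y)).comp (N y))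
      = fun _ => ContinuousLinearMap.id ℝ (E n) := funext hiso
  rw [h4] at h3
  have h5 := h3.unique (hasFDerivAt_const _ _)
  have h6 := congrArg (fun T : E m →L[ℝ] E n →L[ℝ] E n => T a η) h5
  simpa [adjL_apply] using h6

/-- [Fr4] the chart is a `C³` diffeomorphism of the tube onto its image; derivatives. -/
theorem chart_facts (m n : ℕ) : ∃ ε₀ h₀ : ℝ, 0 < ε₀ ∧ 0 < h₀ ∧
    ∀ (κ₂ : ℝ) (u : E m → E n), GeoS κ₂ ε₀ u → ∀ (x₀ : E m) (l : ℝ), 0 < l →
      ContDiffOn ℝ 3 (chart u x₀ l) (Tub u h₀) ∧ ContDiff ℝ 3 (unchart u x₀ l) ∧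
      (∀ X ∈ Tub u h₀, unchart u x₀ l (chart u x₀ l X) = X) ∧
      (∀ q : E m × E n, l * ‖q.2‖ < h₀ → unchart u x₀ l q ∈ Tub u h₀ ∧
        chart u x₀ l (unchart u x₀ l q) = q ∧ npr u (unchart u x₀ l q) = bpt u x₀ l q.1 ∧
        zz u (unchart u x₀ l q) = l • nuF u x₀ (bpt u x₀ l q.1) q.2) ∧
      (∀ X ∈ Tub u h₀, ‖(chart u x₀ l X).2‖ = l⁻¹ * ‖zz u X‖) ∧
      (∀ X ∈ Tub u h₀, ∀ ξ : E (m + n),
        (fderiv ℝ (chart u x₀ l) X ξ).1
          = l⁻¹ • A0 u x₀ (dFp (fderiv ℝ u (npr u X)) (Kz u X (Ph u (npr u X) ξ))) ∧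
        (fderiv ℝ (chart u x₀ l) X ξ).2
          = l⁻¹ • adjoint (nuF u x₀ (npr u X)) ξ
            - omgL u x₀ (npr u X) (dFp (fderiv ℝ u (npr u X)) (Kz u X (Ph u (npr u X) ξ)))
                (chart u x₀ l X).2) := by
  obtain ⟨ε₁, hε₁, hiso⟩ := frame_iso m n
  obtain ⟨h₁, hh₁, huniq⟩ := tube_unique m n
  obtain ⟨h₂, hh₂, hder⟩ := tube_deriv m n
  obtain ⟨C, -, hshape⟩ := shape_facts m n
  refine ⟨ε₁, min h₁ h₂, hε₁, lt_min hh₁ hh₂, fun κ₂ u hu x₀ l hl => ?_⟩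
  have hG : Geo κ₂ u := hu.toGeo
  obtain ⟨-, hν, hfr⟩ := hiso κ₂ u hu x₀
  obtain ⟨-, hA1, hA2, -⟩ := A0_facts m n u x₀ ε₁ (hu.slope' x₀)
  obtain ⟨hopen, hnpr, hzz, hD⟩ := hder κ₂ u hG
  have hT1 : Tub u (min h₁ h₂) ⊆ Tub u h₁ := fr4_Tub_mono u (min_le_left _ _)
  have hT2 : Tub u (min h₁ h₂) ⊆ Tub u h₂ := fr4_Tub_mono u (min_le_right _ _)
  have hNN : ∀ y, adjoint (nuF u x₀ y) ∘L nuF u x₀ y = ContinuousLinearMap.id ℝ _ :=
    fun y => (hfr y).2.1
  have hNN' : ∀ y η, adjoint (nuF u x₀ y) (nuF u x₀ y η) = η := by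
    intro y η
    have := congrArg (fun T : E n →L[ℝ] E n => T η) (hNN y)
    simpa using this
  have hNP' : ∀ y w, nuF u x₀ y (adjoint (nuF u x₀ y) w) = Pv u y w := by
    intro y w
    have := congrArg (fun T : E (m + n) →L[ℝ] E (m + n) => T w) (hfr y).2.2.2
    simpa using this
  have hPhPv : ∀ y w, Ph u y (Pv u y w) = 0 := by
    intro y w
    have := congrArg (fun T : E (m + n) →L[ℝ] E (m + n) => T w) (Ph_comp_Pv u y)
    simpa using this
  have hPhN : ∀ y η, Ph u y (nuF u x₀ y η) = 0 := by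
    intro y η
    have h1 : nuF u x₀ y η = Pv u y (nuF u x₀ y η) := by
      rw [← hNP', hNN']
    rw [h1, hPhPv]
  have hnormN : ∀ y η, ‖nuF u x₀ y η‖ = ‖η‖ := fun y =>
    (norm_map_iff_adjoint_comp_self (nuF u x₀ y)).mpr (hNN y)
  have hPv_of : ∀ y w, Ph u y w = 0 → Pv u y w = w := by
    intro y w hw
    simp [Pv, hw]
  have hadj_tan : ∀ y w, Ph u y w = w → adjoint (nuF u x₀ y) w = 0 := by
    intro y w hw
    have h1 : Pv u y w = 0 := by simp [Pv, hw]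
    rw [← hNN' y (adjoint (nuF u x₀ y) w), hNP', h1, map_zero]
  have hbb := fr4_bpt_bco u x₀ hl hA2
  have hbb' := fr4_bco_bpt u x₀ hl hA1
  have hadjN : ContDiff ℝ 3 (fun y => adjL n (m + n) (nuF u x₀ y)) :=
    (adjL n (m + n)).contDiff.comp hν
  have hchart_eq : chart u x₀ l = fun X => (bco u x₀ l (npr u X),
      l⁻¹ • (adjL n (m + n) (nuF u x₀ (npr u X))) (zz u X)) := rfl
  refine ⟨?_, ?_, ?_, ?_, ?_, ?_⟩
  · -- smoothness of the chart
    rw [hchart_eq]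
    have h1 := hnpr.mono hT2
    have h2 := hzz.mono hT2
    exact ((fr4_contDiff_bco u x₀ l).comp_contDiffOn h1).prodMk
      (((hadjN.comp_contDiffOn h1).clm_apply h2).const_smul l⁻¹)
  · -- smoothness of the inverse
    unfold unchart
    have hF : ContDiff ℝ 3 (Fg u) := contDiff_Fg_of (hG.smooth.of_le (by norm_num))
    have hb : ContDiff ℝ 3 (fun q : E m × E n => bpt u x₀ l q.1) :=
      (fr4_contDiff_bpt u x₀ l).comp contDiff_fst
    exact (hF.comp hb).add (((hν.comp hb).clm_apply contDiff_snd).const_smul l)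
  · -- left inverse
    intro X hX
    obtain ⟨-, -, hz, -⟩ := huniq κ₂ u hG X (hT1 hX)
    show Fg u (bpt u x₀ l (bco u x₀ l (npr u X)))
      + l • nuF u x₀ (bpt u x₀ l (bco u x₀ l (npr u X)))
        (l⁻¹ • adjoint (nuF u x₀ (npr u X)) (zz u X)) = X
    rw [hbb, map_smul, smul_smul, mul_inv_cancel₀ hl.ne', one_smul, hNP', hPv_of _ _ hz]
    simp [zz]
  · -- right inverse
    intro q hq
    have hw : ‖l • nuF u x₀ (bpt u x₀ l q.1) q.2‖ = l * ‖q.2‖ := by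
      rw [norm_smul, hnormN, Real.norm_of_nonneg hl.le]
    have hXT : unchart u x₀ l q ∈ Tub u (min h₁ h₂) := by
      refine ⟨bpt u x₀ l q.1, ?_⟩
      have : unchart u x₀ l q - Fg u (bpt u x₀ l q.1)
          = l • nuF u x₀ (bpt u x₀ l q.1) q.2 := by
        simp [unchart]
      rw [this, hw]
      exact hq
    obtain ⟨-, -, -, h4⟩ := huniq κ₂ u hG _ (hT1 hXT)
    obtain ⟨e1, e2⟩ := h4 (bpt u x₀ l q.1) (l • nuF u x₀ (bpt u x₀ l q.1) q.2)
      (by rw [map_smul, hPhN, smul_zero])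
      (by rw [hw]; exact hq.trans_le (min_le_left _ _)) rfl
    refine ⟨hXT, ?_, e1, e2⟩
    show (bco u x₀ l (npr u (unchart u x₀ l q)),
      l⁻¹ • adjoint (nuF u x₀ (npr u (unchart u x₀ l q))) (zz u (unchart u x₀ l q))) = q
    rw [e1, e2, hbb', map_smul, hNN', smul_smul, inv_mul_cancel₀ hl.ne', one_smul]
  · -- norm of the height
    intro X hX
    obtain ⟨-, -, hz, -⟩ := huniq κ₂ u hG X (hT1 hX)
    show ‖l⁻¹ • adjoint (nuF u x₀ (npr u X)) (zz u X)‖ = _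
    rw [norm_smul, Real.norm_of_nonneg (inv_nonneg.mpr hl.le)]
    congr 1
    rw [← hnormN (npr u X), hNP', hPv_of _ _ hz]
  · -- derivatives
    intro X hX ξ
    obtain ⟨-, -, hz, -⟩ := huniq κ₂ u hG X (hT1 hX)
    obtain ⟨hJK, -, hDn, hDz⟩ := hD X (hT2 hX)
    have hnhds : Tub u h₂ ∈ nhds X := hopen.mem_nhds (hT2 hX)
    have hn : HasFDerivAt (npr u) (fderiv ℝ (npr u) X) X :=
      ((hnpr.differentiableOn (by norm_num)).differentiableAt hnhds).hasFDerivAt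
    have hzd : HasFDerivAt (zz u) (fderiv ℝ (zz u) X) X :=
      ((hzz.differentiableOn (by norm_num)).differentiableAt hnhds).hasFDerivAt
    have hNd : DifferentiableAt ℝ (nuF u x₀) (npr u X) := hν.differentiable (by norm_num) _
    have hb : HasFDerivAt (bco u x₀ l) (l⁻¹ • A0 u x₀) (npr u X) := by
      unfold bco
      exact (((A0 u x₀).hasFDerivAt).comp (npr u X)
        ((hasFDerivAt_id (npr u X)).sub_const x₀)).const_smul l⁻¹
    have hc : HasFDerivAt (fun X => adjL n (m + n) (nuF u x₀ (npr u X)))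
        (adjL n (m + n) ∘L fderiv ℝ (nuF u x₀) (npr u X) ∘L fderiv ℝ (npr u) X) X :=
      (adjL n (m + n)).hasFDerivAt.comp X (hNd.hasFDerivAt.comp X hn)
    have h2 := (hc.clm_apply hzd).const_smul l⁻¹
    have hfull := (hb.comp X hn).prodMk h2
    have hfd : fderiv ℝ (chart u x₀ l) X = _ := hfull.fderiv
    set a : E m := dFp (fderiv ℝ u (npr u X)) (Kz u X (Ph u (npr u X) ξ)) with ha
    have hna : fderiv ℝ (npr u) X ξ = a := by
      rw [hDn]
      rfl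
    -- `K_z P_h ξ` is tangential
    have htan : Ph u (npr u X) (Kz u X (Ph u (npr u X) ξ)) = Kz u X (Ph u (npr u X) ξ) := by
      set t := Kz u X (Ph u (npr u X) ξ) with ht
      have h3 : Jz u X t = Ph u (npr u X) ξ := by
        have := congrArg (fun T : E (m + n) →L[ℝ] E (m + n) => T (Ph u (npr u X) ξ)) hJK
        simpa using this
      have h4 : t = Ph u (npr u X) ξ + Shp u (npr u X) (zz u X) t := by
        have : Jz u X t = t - Shp u (npr u X) (zz u X) t := by simp [Jz]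
        rw [this] at h3
        rw [← h3]
        abel
      have h5 : Ph u (npr u X) (Shp u (npr u X) (zz u X) t) = Shp u (npr u X) (zz u X) t := by
        have := congrArg (fun T : E (m + n) →L[ℝ] E (m + n) => T t)
          (hshape κ₂ u hG (npr u X) (zz u X)).2.1
        simpa using this
      have h6 : Ph u (npr u X) (Ph u (npr u X) ξ) = Ph u (npr u X) ξ := by
        have := congrArg (fun T : E (m + n) →L[ℝ] E (m + n) => T ξ) (Ph_comp_Ph u (npr u X))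
        simpa using this
      calc Ph u (npr u X) t
          = Ph u (npr u X) (Ph u (npr u X) ξ + Shp u (npr u X) (zz u X) t) := by rw [← h4]
        _ = Ph u (npr u X) ξ + Shp u (npr u X) (zz u X) t := by rw [map_add, h5, h6]
        _ = t := h4.symm
    have hzξ : adjoint (nuF u x₀ (npr u X)) (fderiv ℝ (zz u) X ξ)
        = adjoint (nuF u x₀ (npr u X)) ξ := by
      rw [hDz]
      simp only [sub_apply, ContinuousLinearMap.id_apply, ContinuousLinearMap.comp_apply, map_sub]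
      rw [hadj_tan _ _ htan, sub_zero]
    have hkey := fr4_deriv_iso hNd hNN a (adjoint (nuF u x₀ (npr u X)) (zz u X))
    rw [hNP', hPv_of _ _ hz] at hkey
    constructor
    · rw [hfd]
      show (l⁻¹ • A0 u x₀) (fderiv ℝ (npr u) X ξ) = _
      rw [hna]
      rfl
    · rw [hfd]
      show l⁻¹ • (adjoint (nuF u x₀ (npr u X)) (fderiv ℝ (zz u) X ξ)
        + adjoint (fderiv ℝ (nuF u x₀) (npr u X) (fderiv ℝ (npr u) X ξ)) (zz u X)) = _
      rw [hzξ, hna]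
      show _ = l⁻¹ • adjoint (nuF u x₀ (npr u X)) ξ
        - adjoint (nuF u x₀ (npr u X)) (fderiv ℝ (nuF u x₀) (npr u X) a
            (l⁻¹ • adjoint (nuF u x₀ (npr u X)) (zz u X)))
      rw [map_smul, map_smul, smul_add, eq_neg_of_add_eq_zero_right hkey, smul_neg]
      abel

end Claimed.Agent.R322.Tube
end

/- ===== packed: Claimed.Agent.R322.Tube.Inst ===== -/
section
/-!
# The sheeted system of a cell of a normal cylinder (AE Lemmas 2.2, 2.3, 2.9 curved) : definition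

`sysOf N x₀ l ρ Cg` is the abstract system `Sx.Sys m n` of the normal cylinder `N` in the product chart
`chart N.u x₀ l` over the chart ball `ball 0 ρ`.

At a chart point `q = (p, ζ)`: `X = unchart q`, `y = bpt p`, `P = N.W.P X`, `τ = tauF y`, `ν = nuF y`,
`j = τᵀ J_z τ`, `k = τᵀ K_z τ = j⁻¹`, `C = Cy y`.  All fields are the geometric ones on the GOOD region
`p ∈ ball 0 ρ`, `l |ζ| ≤ Z := supz` and the flat ones elsewhere (the axioms of `Sx.Sys.Valid` are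
pointwise for ALL `q`; the measure is carried by the good region).

**Test fields and error coefficients** (derivation: product rule, `chart_facts`, `frame_bounds`):
* horizontal: `Y_X(X') = J_z dF(y') (l A0⁻¹ X(chart X')) = l J_z τ C X`.  Then
  `tr(P DY_X) = tr(c₁ D₁X) + tr(D₂X c₂) + ⟨c₀, X⟩` with
  `c₁ = (jC)⁻¹ (1 - B) (jC)`, `c₂ = Pvh jC - l ω_{aH(·)} ζ`, `aH = dFp K_z P_h P τ jC`,
  `(c₀)_a = tr(P D(lift u (const l A0⁻¹ e_a)))`.  Hence
  `E1 = (jC)⁻¹ B (jC) - B`, `E3 = Pvh (1 - jC) + l ω_{aH(·)} ζ`,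
  `(E2)_a = divS u (const l A0⁻¹ e_a) y - tr(P D(lift u (const l A0⁻¹ e_a)))`.
* normal: `V_v(X') = l ν(y') v(chart X')`.  Then
  `tr(P DV_v) = tr((Pvv - E4) D₂v) + tr(C⁻¹ k Pvhᵀ D₁v) + l tr(P (D(ν∘π)) v)` with
  `E4 = l ω_{aV(·)} ζ`, `aV = dFp K_z P_h P ν`, `E6ᵀ = (1 - C⁻¹ k) Pvhᵀ`,
  `(E5)_b = - l tr(P D(ν(π ·) e_b))`.
-/

set_option autoImplicit false

open scoped ENNReal ContDiff
open MeasureTheory ContinuousLinearMap

namespace Claimed.Agent.R322.Tube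

variable {m n : ℕ}

/-- the Haar constant `μH[m] = haarC m • volume` on `E m` -/
noncomputable def haarC (m : ℕ) : ℝ :=
  ((μH[(m : ℝ)] : Measure (E m)) (Metric.ball 0 1)).toReal / (volume (Metric.ball (0 : E m) 1)).toReal

open Classical in
/-- chart cutoff used to extend the volume density -/
noncomputable def cellChi (m : ℕ) (ρ : ℝ) : E m → ℝ :=
  if h : 0 < ρ then ((Tool.exists_cutoff m).choose_spec.2 ρ h).choose else fun _ => 0

namespace NCyl

variable (N : NCyl m n) (x₀ : E m) (l ρ : ℝ)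

/-- the base region of the cell in graph coordinates -/
def cellBase : Set (E m) := {y | bco N.u x₀ l y ∈ Metric.ball (0 : E m) ρ}

/-- height bound of the support over the cell -/
noncomputable def cellZ : ℝ := N.supz (N.cellBase x₀ l ρ)

/-- good region of the chart -/
def good (q : E m × E n) : Prop := q.1 ∈ Metric.ball (0 : E m) ρ ∧ l * ‖q.2‖ ≤ N.cellZ x₀ l ρ

/-- tangent projection of the varifold at the chart point -/
noncomputable def Pq (q : E m × E n) : E (m + n) →L[ℝ] E (m + n) := N.W.P (unchart N.u x₀ l q)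

noncomputable def tq (q : E m × E n) : E m →L[ℝ] E (m + n) := tauF N.u x₀ (bpt N.u x₀ l q.1)

noncomputable def nq (q : E m × E n) : E n →L[ℝ] E (m + n) := nuF N.u x₀ (bpt N.u x₀ l q.1)

noncomputable def Bg (q : E m × E n) : E m →L[ℝ] E m :=
  adjoint (N.tq x₀ l q) ∘L (ContinuousLinearMap.id ℝ _ - N.Pq x₀ l q) ∘L N.tq x₀ l q

noncomputable def Pvhg (q : E m × E n) : E m →L[ℝ] E n :=
  adjoint (N.nq x₀ l q) ∘L N.Pq x₀ l q ∘L N.tq x₀ l q

noncomputable def Pvvg (q : E m × E n) : E n →L[ℝ] E n :=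
  adjoint (N.nq x₀ l q) ∘L N.Pq x₀ l q ∘L N.nq x₀ l q

/-- `j C` -/
noncomputable def jC (q : E m × E n) : E m →L[ℝ] E m :=
  adjoint (N.tq x₀ l q) ∘L Jz N.u (unchart N.u x₀ l q) ∘L N.tq x₀ l q ∘L Cy N.u x₀ (bpt N.u x₀ l q.1)

/-- `D y` restricted to the varifold plane: `dFp K_z P_h P` -/
noncomputable def dyP (q : E m × E n) : E (m + n) →L[ℝ] E m :=
  dFp (fderiv ℝ N.u (bpt N.u x₀ l q.1)) ∘L Kz N.u (unchart N.u x₀ l q) ∘L
    Ph N.u (bpt N.u x₀ l q.1) ∘L N.Pq x₀ l q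

/-- `a ↦ ω_a ζ` -/
noncomputable def omz (q : E m × E n) : E m →L[ℝ] E n :=
  (ContinuousLinearMap.apply ℝ (E n) q.2) ∘L omgL N.u x₀ (bpt N.u x₀ l q.1)

noncomputable def E1g (q : E m × E n) : E m →L[ℝ] E m :=
  (N.jC x₀ l q).inverse ∘L N.Bg x₀ l q ∘L N.jC x₀ l q - N.Bg x₀ l q

/-- constant chart field `l A0⁻¹ e_a` -/
noncomputable def cfield (a : Fin m) : E m → E m :=
  fun _ => l • (A0 N.u x₀).inverse (EuclideanSpace.single a (1 : ℝ))

noncomputable def E2g (q : E m × E n) : E m :=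
  ∑ a : Fin m, (divS N.u (N.cfield x₀ l a) (bpt N.u x₀ l q.1)
    - tdiv (N.Pq x₀ l q) (fderiv ℝ (lift N.u (N.cfield x₀ l a)) (unchart N.u x₀ l q))) •
      EuclideanSpace.single a (1 : ℝ)

noncomputable def E3g (q : E m × E n) : E m →L[ℝ] E n :=
  N.Pvhg x₀ l q ∘L (ContinuousLinearMap.id ℝ _ - N.jC x₀ l q)
    + l • (N.omz x₀ l q ∘L N.dyP x₀ l q ∘L N.tq x₀ l q ∘L N.jC x₀ l q)

noncomputable def E4g (q : E m × E n) : E n →L[ℝ] E n :=
  l • (N.omz x₀ l q ∘L N.dyP x₀ l q ∘L N.nq x₀ l q)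

noncomputable def E5g (q : E m × E n) : E n :=
  ∑ b : Fin n, (- (l * tdiv (N.Pq x₀ l q)
    (fderiv ℝ (fun X' => nuF N.u x₀ (npr N.u X') (EuclideanSpace.single b (1 : ℝ)))
      (unchart N.u x₀ l q)))) • EuclideanSpace.single b (1 : ℝ)

noncomputable def E6g (q : E m × E n) : E m →L[ℝ] E n :=
  N.Pvhg x₀ l q ∘L adjoint (ContinuousLinearMap.id ℝ _ - (N.jC x₀ l q).inverse)

noncomputable def Jpig (q : E m × E n) : ℝ :=
  tanJac (N.Pq x₀ l q) (fderiv ℝ (npr N.u) (unchart N.u x₀ l q)) *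
    vdens (fderiv ℝ N.u (bpt N.u x₀ l q.1))

/-- volume density of the chart, cut off outside the cell -/
noncomputable def ag (p : E m) : ℝ :=
  1 + cellChi m ρ p * (vdens (fderiv ℝ N.u (bpt N.u x₀ l p)) / vdens (fderiv ℝ N.u x₀) - 1)

/-- the points of the fibre over the chart point `p` with nonzero projection Jacobian -/
def fibSet (p : E m) : Set (E (m + n)) :=
  {X | X ∈ N.W.M ∧ X ∈ Cyl N.u N.Ω N.h ∧ npr N.u X = bpt N.u x₀ l p ∧
    tanJac (N.W.P X) (fderiv ℝ (npr N.u) X) ≠ 0 ∧ ‖zz N.u X‖ ≤ N.cellZ x₀ l ρ}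

open Classical in
/-- the fibre as a multiset of scaled heights (empty if the fibre is infinite) -/
noncomputable def fibg (p : E m) : Multiset (E n) :=
  if h : (N.fibSet x₀ l ρ p).Finite ∧ p ∈ Metric.ball (0 : E m) ρ then
    h.1.toFinset.val.bind (fun X => Multiset.replicate (N.W.θ X) (chart N.u x₀ l X).2)
  else 0

open Classical in
/-- **the sheeted system of the cell** -/
noncomputable def sysOf (Cg : ℝ) : Sx.Sys m n where
  Ω := Metric.ball 0 ρ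
  μ := (ENNReal.ofReal (haarC m * l ^ m))⁻¹ •
    (N.μ.restrict {X | npr N.u X ∈ N.cellBase x₀ l ρ}).map (chart N.u x₀ l)
  B := fun q => if N.good x₀ l ρ q then N.Bg x₀ l q else 0
  Pvh := fun q => if N.good x₀ l ρ q then N.Pvhg x₀ l q else 0
  Pvv := fun q => if N.good x₀ l ρ q then N.Pvvg x₀ l q else 0
  lam := fun q => if N.good x₀ l ρ q then lam N.u (unchart N.u x₀ l q) else 0
  Jpi := fun q => if N.good x₀ l ρ q then N.Jpig x₀ l q else 1
  a := N.ag x₀ l ρ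
  fib := N.fibg x₀ l ρ
  γ := l + N.cellZ x₀ l ρ
  Cg := Cg
  E1 := fun q => if N.good x₀ l ρ q then N.E1g x₀ l q else 0
  E2 := fun q => if N.good x₀ l ρ q then N.E2g x₀ l q else 0
  E3 := fun q => if N.good x₀ l ρ q then N.E3g x₀ l q else 0
  E4 := fun q => if N.good x₀ l ρ q then N.E4g x₀ l q else 0
  E5 := fun q => if N.good x₀ l ρ q then N.E5g x₀ l q else 0
  E6 := fun q => if N.good x₀ l ρ q then N.E6g x₀ l q else 0

end NCyl

end Claimed.Agent.R322.Tube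
end

/- ===== packed: Claimed.Agent.R322.Tube.InstLam ===== -/
section
/-!
# Row 322, Tube/InstLam: geometric error density and volume density of a cell (leaf V4)

* `H_S = Ψ(Du, D²u)` with a smooth `Ψ`; by compactness of `{‖A‖ ≤ 1/2, ‖B‖ ≤ 1}` the mean curvature and its
  derivative are bounded by a constant depending only on `m, n`;
* `DHSsq = tr (Lᵀ L g⁻¹) ≥ 0`, `≤ m ‖L‖²`, `L = P_v D H_S`;
* `vdens` is a smooth function of the slope; derivatives of order `≤ 4` bounded on `{‖A‖ ≤ 1/2}`;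
  `norm_iteratedFDeriv_comp_le`, Leibniz.
-/

set_option autoImplicit false

open scoped ENNReal ContDiff Topology Nat
open MeasureTheory ContinuousLinearMap

namespace Claimed.Agent.R322.Tube

variable {m n : ℕ}

local notation "adj" => ContinuousLinearMap.adjoint

/-! ### the mean curvature as a function of the 2-jet -/

/-- `H_S` as a function of `(Du, D²u)`. -/
noncomputable def v4hsFun (m n : ℕ) (p : (E m →L[ℝ] E n) × (E m →L[ℝ] E m →L[ℝ] E n)) : E (m + n) :=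
  ∑ a : Fin m, (ContinuousLinearMap.id ℝ (E (m + n)) - PhA p.1)
    (inV m n (p.2 ((gmat p.1).inverse (EuclideanSpace.single a 1)) (EuclideanSpace.single a 1)))

theorem v4_HS_eq (u : E m → E n) (y : E m) : HS u y = v4hsFun m n (fderiv ℝ u y, D2 u y) := rfl

theorem v4_contDiff_hsFun (m n : ℕ) : ContDiff ℝ 1 (v4hsFun m n) := by
  unfold v4hsFun
  refine ContDiff.sum fun a _ => ?_
  have h1 : ContDiff ℝ 1 (fun p : (E m →L[ℝ] E n) × (E m →L[ℝ] E m →L[ℝ] E n) =>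
      ContinuousLinearMap.id ℝ (E (m + n)) - PhA p.1) :=
    contDiff_const.sub (contDiff_PhA.comp contDiff_fst)
  have h2 : ContDiff ℝ 1 (fun p : (E m →L[ℝ] E n) × (E m →L[ℝ] E m →L[ℝ] E n) =>
      (gmat p.1).inverse (EuclideanSpace.single a (1 : ℝ))) :=
    (contDiff_gmatA_inverse.comp contDiff_fst).clm_apply contDiff_const
  have h3 : ContDiff ℝ 1 (fun p : (E m →L[ℝ] E n) × (E m →L[ℝ] E m →L[ℝ] E n) =>
      p.2 ((gmat p.1).inverse (EuclideanSpace.single a (1 : ℝ))) (EuclideanSpace.single a (1 : ℝ))) :=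
    (contDiff_snd.clm_apply h2).clm_apply contDiff_const
  exact h1.clm_apply ((inV m n).contDiff.comp h3)

set_option maxSynthPendingDepth 4 in
/-- bounds of the mean curvature vector and of its derivative. -/
theorem v4_exists_HS_bound (m n : ℕ) : ∃ C : ℝ, 0 ≤ C ∧ ∀ (κ₂ : ℝ) (u : E m → E n), Geo κ₂ u →
    ∀ y, ‖HS u y‖ ≤ C ∧ ‖fderiv ℝ (HS u) y‖ ≤ C := by
  have hK : IsCompact ((Metric.closedBall (0 : E m →L[ℝ] E n) (1 / 2)) ×ˢ
      (Metric.closedBall (0 : E m →L[ℝ] E m →L[ℝ] E n) 1)) :=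
    (isCompact_closedBall _ _).prod (isCompact_closedBall _ _)
  obtain ⟨C₁, hC₁⟩ := hK.exists_bound_of_continuousOn (v4_contDiff_hsFun m n).continuous.continuousOn
  obtain ⟨C₂, hC₂⟩ := hK.exists_bound_of_continuousOn
    ((v4_contDiff_hsFun m n).continuous_fderiv (by norm_num)).continuousOn
  refine ⟨max (max C₁ C₂) 0, le_max_right _ _, fun κ₂ u hu y => ?_⟩
  have hmem : (fderiv ℝ u y, D2 u y) ∈ (Metric.closedBall (0 : E m →L[ℝ] E n) (1 / 2)) ×ˢ
      (Metric.closedBall (0 : E m →L[ℝ] E m →L[ℝ] E n) 1) := by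
    refine ⟨?_, ?_⟩
    · simpa using hu.slope y
    · simpa using (hu.norm_D2_le y).trans hu.le_one
  constructor
  · rw [v4_HS_eq]
    exact (hC₁ _ hmem).trans ((le_max_left _ _).trans (le_max_left _ _))
  · have hD2 : HasFDerivAt (D2 u) (fderiv ℝ (D2 u) y) y := by
      have h3 : ContDiff ℝ 2 (fderiv ℝ (fderiv ℝ u)) := by
        have h4 : ContDiff ℝ 3 (fderiv ℝ u) := contDiff_Du (k := 3) (by exact_mod_cast hu.smooth)
        exact h4.fderiv_right (by norm_num)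
      exact (h3.differentiable (by norm_num) y).hasFDerivAt
    have hjet : HasFDerivAt (fun y => (fderiv ℝ u y, D2 u y))
        ((D2 u y).prod (fderiv ℝ (D2 u) y)) y :=
      (hasFDerivAt_Du hu.c2).prodMk hD2
    have hΨ : HasFDerivAt (v4hsFun m n) (fderiv ℝ (v4hsFun m n) (fderiv ℝ u y, D2 u y))
        (fderiv ℝ u y, D2 u y) :=
      ((v4_contDiff_hsFun m n).differentiable (by norm_num) _).hasFDerivAt
    have hcomp := hΨ.comp y hjet
    have hfun : (v4hsFun m n ∘ fun y => (fderiv ℝ u y, D2 u y)) = HS u := rfl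
    rw [hfun] at hcomp
    rw [hcomp.fderiv]
    have hn1 : ‖(D2 u y).prod (fderiv ℝ (D2 u) y)‖ ≤ 1 := by
      refine ContinuousLinearMap.opNorm_le_bound _ zero_le_one fun α => ?_
      rw [one_mul]
      refine max_le ?_ ?_
      · calc ‖D2 u y α‖ ≤ ‖D2 u y‖ * ‖α‖ := (D2 u y).le_opNorm α
          _ ≤ 1 * ‖α‖ := by gcongr; exact (hu.norm_D2_le y).trans hu.le_one
          _ = ‖α‖ := one_mul _
      · calc ‖fderiv ℝ (D2 u) y α‖ ≤ ‖iteratedFDeriv ℝ 3 u y‖ * ‖α‖ := norm_D3_apply_le u y α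
          _ ≤ 1 * ‖α‖ := by gcongr; exact (hu.d3 y).trans hu.le_one
          _ = ‖α‖ := one_mul _
    calc ‖(fderiv ℝ (v4hsFun m n) (fderiv ℝ u y, D2 u y)).comp
          ((D2 u y).prod (fderiv ℝ (D2 u) y))‖
        ≤ ‖fderiv ℝ (v4hsFun m n) (fderiv ℝ u y, D2 u y)‖ *
          ‖(D2 u y).prod (fderiv ℝ (D2 u) y)‖ := ContinuousLinearMap.opNorm_comp_le _ _
      _ ≤ ‖fderiv ℝ (v4hsFun m n) (fderiv ℝ u y, D2 u y)‖ * 1 := by gcongr
      _ ≤ max (max C₁ C₂) 0 := by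
          rw [mul_one]
          exact (hC₂ _ hmem).trans ((le_max_right _ _).trans (le_max_left _ _))

/-! ### `DHSsq` -/

/-- `DHS u y` as a continuous linear map. -/
noncomputable def v4dhsL (u : E m → E n) (y : E m) : E m →L[ℝ] E (m + n) :=
  Pv u y ∘L fderiv ℝ (HS u) y

theorem v4_DHSsq_eq_trc (u : E m → E n) (y : E m) :
    DHSsq u y = trc ((adj (v4dhsL u y) ∘L v4dhsL u y) ∘L (gmat (fderiv ℝ u y)).inverse) := by
  rw [trc_eq_sum]
  unfold DHSsq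
  refine Finset.sum_congr rfl fun a _ => ?_
  simp only [ContinuousLinearMap.comp_apply]
  rw [ContinuousLinearMap.adjoint_inner_left]
  rfl

theorem v4_DHSsq_le (u : E m → E n) (y : E m) : DHSsq u y ≤ m * ‖fderiv ℝ (HS u) y‖ ^ 2 := by
  rw [v4_DHSsq_eq_trc]
  refine (le_abs_self _).trans ((abs_trc_le _).trans ?_)
  have h1 : ‖v4dhsL u y‖ ≤ ‖fderiv ℝ (HS u) y‖ := by
    calc ‖v4dhsL u y‖ ≤ ‖Pv u y‖ * ‖fderiv ℝ (HS u) y‖ := ContinuousLinearMap.opNorm_comp_le _ _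
      _ ≤ 1 * ‖fderiv ℝ (HS u) y‖ := by gcongr; exact norm_Pv_le u y
      _ = _ := one_mul _
  have h2 : ‖(adj (v4dhsL u y) ∘L v4dhsL u y) ∘L (gmat (fderiv ℝ u y)).inverse‖
      ≤ ‖fderiv ℝ (HS u) y‖ ^ 2 := by
    calc ‖(adj (v4dhsL u y) ∘L v4dhsL u y) ∘L (gmat (fderiv ℝ u y)).inverse‖
        ≤ ‖adj (v4dhsL u y) ∘L v4dhsL u y‖ * ‖(gmat (fderiv ℝ u y)).inverse‖ :=
          ContinuousLinearMap.opNorm_comp_le _ _
      _ ≤ (‖adj (v4dhsL u y)‖ * ‖v4dhsL u y‖) * 1 := by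
          gcongr
          · exact ContinuousLinearMap.opNorm_comp_le _ _
          · exact norm_gmat_inverse_le _
      _ = ‖v4dhsL u y‖ ^ 2 := by
          rw [LinearIsometryEquiv.norm_map]
          ring
      _ ≤ _ := by gcongr
  gcongr

theorem v4_lam_nonneg (u : E m → E n) (X : E (m + n)) : 0 ≤ lam u X := by
  unfold lam
  have := DHSsq_nonneg u (npr u X)
  positivity

theorem v4_norm_zz_le_sqrt_lam (u : E m → E n) (X : E (m + n)) : ‖zz u X‖ ≤ Real.sqrt (lam u X) := by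
  refine Real.le_sqrt_of_sq_le ?_
  unfold lam
  have := DHSsq_nonneg u (npr u X)
  nlinarith [sq_nonneg ‖HS u (npr u X)‖]

theorem v4_norm_HS_le_sqrt_lam (u : E m → E n) (X : E (m + n)) :
    ‖HS u (npr u X)‖ ≤ Real.sqrt (lam u X) := by
  refine Real.le_sqrt_of_sq_le ?_
  unfold lam
  have := DHSsq_nonneg u (npr u X)
  nlinarith [sq_nonneg ‖zz u X‖]

theorem v4_sqrt_DHSsq_le_sqrt_lam (u : E m → E n) (X : E (m + n)) :
    Real.sqrt (DHSsq u (npr u X)) ≤ Real.sqrt (lam u X) := by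
  refine Real.sqrt_le_sqrt ?_
  unfold lam
  nlinarith [sq_nonneg ‖zz u X‖, sq_nonneg ‖HS u (npr u X)‖]

/-! ### the volume density as a function of the slope -/

theorem v4_one_le_dtm_gmat (A : E m →L[ℝ] E n) : 1 ≤ dtm (gmat A) :=
  (Base.lin_one_le_det (gmat A) A (fun v w => gmat_symm A v w) (fun v => by
    rw [inner_gmat, real_inner_self_eq_norm_sq, real_inner_self_eq_norm_sq])).1

theorem v4_one_le_vdens (A : E m →L[ℝ] E n) : 1 ≤ vdens A :=
  Real.one_le_sqrt.mpr (v4_one_le_dtm_gmat A)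

theorem v4_contDiff_vdens (m n : ℕ) : ContDiff ℝ ∞ (vdens : (E m →L[ℝ] E n) → ℝ) := by
  unfold vdens
  refine ContDiff.sqrt ((Base.contDiff_det m).comp contDiff_gmatA) fun A => ?_
  have := v4_one_le_dtm_gmat A
  have h2 : dtm (gmat A) ≠ 0 := by linarith
  exact h2

theorem v4_vdens_zero (m n : ℕ) : vdens (0 : E m →L[ℝ] E n) = 1 := by
  have h : gmat (0 : E m →L[ℝ] E n) = ContinuousLinearMap.id ℝ (E m) := by
    unfold gmat
    simp
  unfold vdens
  rw [h]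
  simp

/-- bounds of the derivatives of order `≤ 4` of `vdens` on the ball of radius `1/2`. -/
theorem v4_exists_vdens_bound (m n : ℕ) : ∃ C : ℝ, 0 ≤ C ∧ ∀ A : E m →L[ℝ] E n, ‖A‖ ≤ 1 / 2 →
    ∀ i : ℕ, i ≤ 4 → ‖iteratedFDeriv ℝ i (vdens : (E m →L[ℝ] E n) → ℝ) A‖ ≤ C := by
  have hK : IsCompact (Metric.closedBall (0 : E m →L[ℝ] E n) (1 / 2)) := isCompact_closedBall _ _
  have hb : ∀ i : ℕ, ∃ C : ℝ, ∀ A ∈ Metric.closedBall (0 : E m →L[ℝ] E n) (1 / 2),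
      ‖iteratedFDeriv ℝ i (vdens : (E m →L[ℝ] E n) → ℝ) A‖ ≤ C := fun i =>
    hK.exists_bound_of_continuousOn
      ((v4_contDiff_vdens m n).continuous_iteratedFDeriv (by exact_mod_cast le_top)).continuousOn
  choose C hC using hb
  refine ⟨∑ i ∈ Finset.range 5, |C i|, Finset.sum_nonneg fun _ _ => abs_nonneg _,
    fun A hA i hi => ?_⟩
  have h1 := hC i A (by simpa using hA)
  refine (h1.trans (le_abs_self _)).trans ?_
  exact Finset.single_le_sum (f := fun i => |C i|) (fun _ _ => abs_nonneg _)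
    (Finset.mem_range.mpr (by omega))

/-- small slope: the volume density is close to one. -/
theorem v4_exists_small (m n : ℕ) : ∃ ε₀ : ℝ, 0 < ε₀ ∧ ∀ A : E m →L[ℝ] E n, ‖A‖ ≤ ε₀ →
    vdens A ≤ 5 / 4 := by
  have hc : ContinuousAt (vdens : (E m →L[ℝ] E n) → ℝ) 0 :=
    (v4_contDiff_vdens m n).continuous.continuousAt
  obtain ⟨δ, hδ, h⟩ := Metric.continuousAt_iff.mp hc (1 / 4) (by norm_num)
  refine ⟨δ / 2, by positivity, fun A hA => ?_⟩
  have h1 := h (x := A) (by rw [dist_zero_right]; linarith)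
  rw [v4_vdens_zero, Real.dist_eq] at h1
  have := (abs_lt.mp h1).2
  linarith

/-- `vdens` is Lipschitz on the ball of radius `1/2`. -/
theorem v4_vdens_lip {C : ℝ} (hC : ∀ A : E m →L[ℝ] E n, ‖A‖ ≤ 1 / 2 →
    ∀ i : ℕ, i ≤ 4 → ‖iteratedFDeriv ℝ i (vdens : (E m →L[ℝ] E n) → ℝ) A‖ ≤ C)
    {A A' : E m →L[ℝ] E n} (hA : ‖A‖ ≤ 1 / 2) (hA' : ‖A'‖ ≤ 1 / 2) :
    |vdens A' - vdens A| ≤ C * ‖A' - A‖ := by
  have h := Convex.norm_image_sub_le_of_norm_fderiv_le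
    (f := (vdens : (E m →L[ℝ] E n) → ℝ)) (s := Metric.closedBall (0 : E m →L[ℝ] E n) (1 / 2))
    (C := C) (x := A) (y := A')
    (fun x _ => (v4_contDiff_vdens m n).differentiable (by simp) x)
    (fun x hx => by
      rw [← norm_iteratedFDeriv_one]
      exact hC x (by simpa using hx) 1 (by norm_num))
    (convex_closedBall _ _) (by simpa using hA) (by simpa using hA')
  simpa [Real.norm_eq_abs] using h

/-! ### iterated derivatives -/

theorem v4_iter_affine {F : E m → ℝ} (hF : ContDiff ℝ 4 F) (c d : ℝ) {j : ℕ} (hj : 1 ≤ j)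
    (hj4 : j ≤ 4) (p : E m) :
    ‖iteratedFDeriv ℝ j (fun p => c * F p + d) p‖ = |c| * ‖iteratedFDeriv ℝ j F p‖ := by
  have hFj : ContDiffAt ℝ j F p := (hF.of_le (by exact_mod_cast hj4)).contDiffAt
  have h1 : (fun p => c * F p + d) = (c • F) + fun _ => d := by
    funext p
    simp
  have hcF : ContDiffAt ℝ j (c • F) p := hFj.const_smul c
  rw [h1, iteratedFDeriv_add_apply hcF contDiffAt_const,
    iteratedFDeriv_const_smul_apply hFj, iteratedFDeriv_const_of_ne (by omega)]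
  simp [norm_smul]

/-- derivatives of the slope in the chart variable. -/
theorem v4_iter_slope {κ₂ ε₀ : ℝ} {u : E m → E n} (hu : GeoS κ₂ ε₀ u) (x₀ : E m) {l : ℝ}
    (hl : 0 < l) (p : E m) {i : ℕ} (hi : 1 ≤ i) (hi4 : i ≤ 4) :
    ‖iteratedFDeriv ℝ i (fun p => fderiv ℝ u (bpt u x₀ l p)) p‖ ≤ l ^ i := by
  obtain ⟨-, hA1, -, hA3, -⟩ := A0_facts m n u x₀ ε₀ (hu.slope' x₀)
  set Lm : E m →L[ℝ] E m := l • (A0 u x₀).inverse with hLm
  have hLn : ‖Lm‖ ≤ l := by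
    refine ContinuousLinearMap.opNorm_le_bound _ hl.le fun a => ?_
    have h1 : A0 u x₀ ((A0 u x₀).inverse a) = a := by
      have := congrArg (fun T : E m →L[ℝ] E m => T a) hA1
      simpa using this
    have h2 := hA3 ((A0 u x₀).inverse a)
    rw [h1] at h2
    rw [hLm, smul_apply, norm_smul, Real.norm_of_nonneg hl.le]
    gcongr
  have hφ : ContDiff ℝ 4 (fun z => fderiv ℝ u (x₀ + z)) :=
    (contDiff_Du (k := 4) (by exact_mod_cast hu.smooth5)).comp (contDiff_const.add contDiff_id)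
  have hfun : (fun p => fderiv ℝ u (bpt u x₀ l p)) = (fun z => fderiv ℝ u (x₀ + z)) ∘ Lm := rfl
  rw [hfun, Lm.iteratedFDeriv_comp_right hφ p (by exact_mod_cast hi4)]
  refine (ContinuousMultilinearMap.norm_compContinuousLinearMap_le _ _).trans ?_
  rw [iteratedFDeriv_comp_add_left, norm_iteratedFDeriv_fderiv, Finset.prod_const,
    Finset.card_univ, Fintype.card_fin]
  have hκ : ‖iteratedFDeriv ℝ (i + 1) u (x₀ + Lm p)‖ ≤ 1 := by
    have h1 := hu.le_one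
    interval_cases i
    · exact (hu.d2 _).trans h1
    · exact (hu.d3 _).trans h1
    · exact (hu.d4 _).trans h1
    · exact (hu.d5 _).trans h1
  calc ‖iteratedFDeriv ℝ (i + 1) u (x₀ + Lm p)‖ * ‖Lm‖ ^ i ≤ 1 * l ^ i := by gcongr
    _ = l ^ i := one_mul _

theorem v4_iter_mul {χ f : E m → ℝ} (hχ : ContDiff ℝ 4 χ) (hf : ContDiff ℝ 4 f) {Cχ B : ℝ}
    (p : E m) (hχb : ∀ i : ℕ, i ≤ 4 → ‖iteratedFDeriv ℝ i χ p‖ ≤ Cχ)
    (hfb : ∀ i : ℕ, i ≤ 4 → ‖iteratedFDeriv ℝ i f p‖ ≤ B) (hCχ : 0 ≤ Cχ) (hB : 0 ≤ B) {j : ℕ}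
    (hj : j ≤ 4) : ‖iteratedFDeriv ℝ j (fun p => χ p * f p) p‖ ≤ 16 * Cχ * B := by
  refine (norm_iteratedFDeriv_mul_le hχ hf p (n := j) (by exact_mod_cast hj)).trans ?_
  have h1 : ∑ i ∈ Finset.range (j + 1), (j.choose i : ℝ) * ‖iteratedFDeriv ℝ i χ p‖ *
      ‖iteratedFDeriv ℝ (j - i) f p‖ ≤ ∑ i ∈ Finset.range (j + 1), (j.choose i : ℝ) * (Cχ * B) := by
    refine Finset.sum_le_sum fun i hi => ?_
    have hi' : i ≤ 4 := by
      have := Finset.mem_range.mp hi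
      omega
    rw [mul_assoc]
    have := hχb i hi'
    have := hfb (j - i) (by omega)
    gcongr
  refine h1.trans ?_
  rw [← Finset.sum_mul]
  have h2 : ∑ i ∈ Finset.range (j + 1), (j.choose i : ℝ) = 2 ^ j := by
    exact_mod_cast Nat.sum_range_choose j
  rw [h2]
  have h3 : (2 : ℝ) ^ j ≤ 16 := by
    calc (2 : ℝ) ^ j ≤ 2 ^ 4 := pow_le_pow_right₀ (by norm_num) hj
      _ = 16 := by norm_num
  calc (2 : ℝ) ^ j * (Cχ * B) ≤ 16 * (Cχ * B) := by gcongr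
    _ = 16 * Cχ * B := by ring

theorem v4_cellChi_spec (m : ℕ) {ρ : ℝ} (h : 0 < ρ) :
    ContDiff ℝ ∞ (cellChi m ρ) ∧ (∀ y, 0 ≤ cellChi m ρ y ∧ cellChi m ρ y ≤ 1) ∧
    (∀ y ∈ Metric.ball (0 : E m) ρ, cellChi m ρ y = 1) ∧
    tsupport (cellChi m ρ) ⊆ Metric.closedBall 0 (ρ + 1) ∧
    ∀ j : ℕ, j ≤ 4 → ∀ y, ‖iteratedFDeriv ℝ j (cellChi m ρ) y‖ ≤ (Tool.exists_cutoff m).choose := by
  unfold cellChi
  rw [dif_pos h]
  exact ((Tool.exists_cutoff m).choose_spec.2 ρ h).choose_spec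

/-- the relative volume density minus one, in the chart variable. -/
noncomputable def v4f (u : E m → E n) (x₀ : E m) (l : ℝ) (p : E m) : ℝ :=
  (vdens (fderiv ℝ u x₀))⁻¹ * vdens (fderiv ℝ u (bpt u x₀ l p)) + (-1)

theorem v4_ag_eq (N : NCyl m n) (x₀ : E m) (l ρ : ℝ) :
    N.ag x₀ l ρ = fun p => 1 * (cellChi m ρ p * v4f N.u x₀ l p) + 1 := by
  funext p
  unfold NCyl.ag v4f
  rw [div_eq_inv_mul]
  ring

theorem v4_contDiff_V {κ₂ ε₀ : ℝ} {u : E m → E n} (hu : GeoS κ₂ ε₀ u) (x₀ : E m) (l : ℝ) :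
    ContDiff ℝ 4 (fun p => fderiv ℝ u (bpt u x₀ l p)) := by
  have hb : ContDiff ℝ 4 (bpt u x₀ l) := by
    unfold bpt
    exact contDiff_const.add (((A0 u x₀).inverse.contDiff).const_smul l)
  exact (contDiff_Du (k := 4) (by exact_mod_cast hu.smooth5)).comp hb

theorem v4_contDiff_f {κ₂ ε₀ : ℝ} {u : E m → E n} (hu : GeoS κ₂ ε₀ u) (x₀ : E m) (l : ℝ) :
    ContDiff ℝ 4 (v4f u x₀ l) := by
  unfold v4f
  exact (contDiff_const.mul (((v4_contDiff_vdens m n).of_le ENat.LEInfty.out).comp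
    (v4_contDiff_V hu x₀ l))).add contDiff_const

theorem v4_norm_bpt_sub {ε₀ : ℝ} {u : E m → E n} (x₀ : E m) (hε : ‖fderiv ℝ u x₀‖ ≤ ε₀) {l : ℝ}
    (hl : 0 < l) (p : E m) : ‖bpt u x₀ l p - x₀‖ ≤ l * ‖p‖ := by
  obtain ⟨-, hA1, -, hA3, -⟩ := A0_facts m n u x₀ ε₀ hε
  have h1 : A0 u x₀ ((A0 u x₀).inverse p) = p := by
    have := congrArg (fun T : E m →L[ℝ] E m => T p) hA1
    simpa using this
  have h2 := hA3 ((A0 u x₀).inverse p)
  rw [h1] at h2
  unfold bpt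
  rw [add_sub_cancel_left, norm_smul, Real.norm_of_nonneg hl.le]
  gcongr

/-- bounds of `v4f` and its derivatives on the support of the cutoff. -/
theorem v4_f_bound {C : ℝ} (hC0 : 0 ≤ C) (hC : ∀ A : E m →L[ℝ] E n, ‖A‖ ≤ 1 / 2 →
    ∀ i : ℕ, i ≤ 4 → ‖iteratedFDeriv ℝ i (vdens : (E m →L[ℝ] E n) → ℝ) A‖ ≤ C)
    {κ₂ ε₀ : ℝ} {u : E m → E n} (hu : GeoS κ₂ ε₀ u) (x₀ : E m) {l : ℝ} (hl : 0 < l) (hl1 : l ≤ 1)
    {R : ℝ} (p : E m) (hp : ‖p‖ ≤ R) {k : ℕ} (hk : k ≤ 4) :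
    ‖iteratedFDeriv ℝ k (v4f u x₀ l) p‖ ≤ (C * R + 24 * C) * l := by
  have hR : 0 ≤ R := (norm_nonneg p).trans hp
  have hv0 := v4_one_le_vdens (fderiv ℝ u x₀)
  have hc0 : 0 ≤ (vdens (fderiv ℝ u x₀))⁻¹ := by positivity
  have hc1 : (vdens (fderiv ℝ u x₀))⁻¹ ≤ 1 := inv_le_one_of_one_le₀ hv0
  rcases Nat.eq_zero_or_pos k with rfl | hk1
  · rw [norm_iteratedFDeriv_zero, Real.norm_eq_abs]
    have h1 : v4f u x₀ l p = (vdens (fderiv ℝ u x₀))⁻¹ *
        (vdens (fderiv ℝ u (bpt u x₀ l p)) - vdens (fderiv ℝ u x₀)) := by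
      unfold v4f
      field_simp
      ring
    rw [h1, abs_mul, abs_of_nonneg hc0]
    have h2 := v4_vdens_lip hC (hu.slope x₀) (hu.slope (bpt u x₀ l p))
    have h3 := hu.toGeo.norm_Du_sub_le x₀ (bpt u x₀ l p)
    have h4 := v4_norm_bpt_sub x₀ (hu.slope' x₀) hl p
    have h5 : ‖fderiv ℝ u (bpt u x₀ l p) - fderiv ℝ u x₀‖ ≤ l * R := by
      calc _ ≤ κ₂ * ‖bpt u x₀ l p - x₀‖ := h3
        _ ≤ 1 * (l * ‖p‖) := by
            gcongr
            exact hu.le_one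
        _ ≤ l * R := by rw [one_mul]; gcongr
    calc (vdens (fderiv ℝ u x₀))⁻¹ * |vdens (fderiv ℝ u (bpt u x₀ l p)) - vdens (fderiv ℝ u x₀)|
        ≤ 1 * (C * (l * R)) := by
          gcongr
          exact h2.trans (by gcongr)
      _ ≤ (C * R + 24 * C) * l := by nlinarith [mul_nonneg hC0 hl.le]
  · have hV : ContDiff ℝ 4 (fun p => vdens (fderiv ℝ u (bpt u x₀ l p))) :=
      ((v4_contDiff_vdens m n).of_le ENat.LEInfty.out).comp (v4_contDiff_V hu x₀ l)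
    unfold v4f
    rw [v4_iter_affine hV _ _ hk1 hk, abs_of_nonneg hc0]
    have h1 := norm_iteratedFDeriv_comp_le (n := k) (N := 4)
      (g := (vdens : (E m →L[ℝ] E n) → ℝ)) (f := fun p => fderiv ℝ u (bpt u x₀ l p))
      ((v4_contDiff_vdens m n).of_le ENat.LEInfty.out) (v4_contDiff_V hu x₀ l)
      (by exact_mod_cast hk) p (C := C) (D := l)
      (fun i hi => hC _ (hu.slope _) i (hi.trans hk))
      (fun i hi1 hi => v4_iter_slope hu x₀ hl p hi1 (hi.trans hk))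
    have h2 : (k ! : ℝ) ≤ 24 := by
      have : k ! ≤ 4 ! := Nat.factorial_le hk
      have h4 : (4 ! : ℕ) = 24 := rfl
      rw [h4] at this
      exact_mod_cast this
    have h3 : l ^ k ≤ l := by
      calc l ^ k ≤ l ^ 1 := pow_le_pow_of_le_one hl.le hl1 hk1
        _ = l := pow_one l
    calc (vdens (fderiv ℝ u x₀))⁻¹ *
          ‖iteratedFDeriv ℝ k (fun p => vdens (fderiv ℝ u (bpt u x₀ l p))) p‖
        ≤ 1 * ((k ! : ℝ) * C * l ^ k) := by
          gcongr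
          exact h1
      _ ≤ 1 * (24 * C * l) := by gcongr
      _ ≤ (C * R + 24 * C) * l := by nlinarith [mul_nonneg (mul_nonneg hC0 hR) hl.le]

theorem v4_GeoS_mono {κ₂ ε₀ ε₀' : ℝ} {u : E m → E n} (h : GeoS κ₂ ε₀ u) (hε : ε₀ ≤ ε₀') :
    GeoS κ₂ ε₀' u :=
  { toGeo := h.toGeo, slope' := fun y => (h.slope' y).trans hε, smooth5 := h.smooth5,
    d4 := h.d4, d5 := h.d5 }

/-- the height of a chart point. -/
theorem v4_norm_zz_unchart_le {κ₂ : ℝ} {u : E m → E n} (hu : Geo κ₂ u) (x₀ : E m) {l : ℝ}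
    (hl : 0 < l) (hν : ∀ y η, ‖nuF u x₀ y η‖ = ‖η‖) (q : E m × E n) :
    ‖zz u (unchart u x₀ l q)‖ ≤ l * ‖q.2‖ := by
  have h1 := npr_spec hu.differentiable.continuous (unchart u x₀ l q) (bpt u x₀ l q.1)
  have h2 : unchart u x₀ l q - Fg u (bpt u x₀ l q.1) = l • nuF u x₀ (bpt u x₀ l q.1) q.2 := by
    simp [unchart]
  rw [h2, norm_smul, hν, Real.norm_of_nonneg hl.le] at h1
  exact h1

/-- [V4], with the hypotheses of `CellHyp` unpacked. -/
theorem v_lam_a_aux (m n : ℕ) (ρm : ℝ) : ∃ ε₀ Cg₀ : ℝ, 0 < ε₀ ∧ 1 ≤ Cg₀ ∧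
    ∀ (N : NCyl m n) (x₀ : E m) (l ρ Cg : ℝ), GeoS 1 ε₀ N.u → 0 < l → 1 ≤ ρ →
      l + N.cellZ x₀ l ρ ≤ 1 → 0 ≤ N.cellZ x₀ l ρ → ρ ≤ ρm → Cg₀ ≤ Cg →
    (∀ q, 0 ≤ (N.sysOf x₀ l ρ Cg).lam q) ∧
    (∀ q, (N.sysOf x₀ l ρ Cg).lam q ≤ Cg) ∧
    (ContDiff ℝ 4 (N.ag x₀ l ρ)) ∧
    (∀ y, |N.ag x₀ l ρ y - 1| ≤ Cg * (l + N.cellZ x₀ l ρ)) ∧
    (∀ y, 1 / 2 ≤ N.ag x₀ l ρ y) ∧
    (∀ y, N.ag x₀ l ρ y ≤ 2) ∧
    (∀ (j : ℕ), 1 ≤ j → j ≤ 4 → ∀ y, ‖iteratedFDeriv ℝ j (N.ag x₀ l ρ) y‖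
      ≤ Cg * (l + N.cellZ x₀ l ρ)) := by
  obtain ⟨ε₁, hε₁, hiso⟩ := frame_iso m n
  obtain ⟨ε₂, hε₂, hsmall⟩ := v4_exists_small m n
  obtain ⟨CH, hCH0, hCH⟩ := v4_exists_HS_bound m n
  obtain ⟨Cv, hCv0, hCv⟩ := v4_exists_vdens_bound m n
  have hCχ0 : 0 < (Tool.exists_cutoff m).choose := (Tool.exists_cutoff m).choose_spec.1
  set Cχ := (Tool.exists_cutoff m).choose with hCχ
  by_cases hρm : 1 ≤ ρm
  swap
  · refine ⟨min ε₁ ε₂, 1, lt_min hε₁ hε₂, le_rfl, fun N x₀ l ρ Cg _ _ h1 _ _ h2 _ => ?_⟩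
    exact absurd (h1.trans h2) hρm
  set M : ℝ := Cv * (ρm + 1) + 24 * Cv with hM
  have hM0 : 0 ≤ M := by positivity
  refine ⟨min ε₁ ε₂, 1 + (1 + CH ^ 2 + m * CH ^ 2) + M + 16 * Cχ * M, lt_min hε₁ hε₂, ?_,
    fun N x₀ l ρ Cg hu hl hρ hγ hZ hρρ hCg => ?_⟩
  · have : 0 ≤ 16 * Cχ * M := by positivity
    have : 0 ≤ 1 + CH ^ 2 + m * CH ^ 2 := by positivity
    linarith
  have h16 : 0 ≤ 16 * Cχ * M := by positivity
  have hlam0 : 0 ≤ 1 + CH ^ 2 + m * CH ^ 2 := by positivity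
  have hG : Geo 1 N.u := hu.toGeo
  have hl1 : l ≤ 1 := by linarith
  obtain ⟨-, -, hfr⟩ := hiso 1 N.u (v4_GeoS_mono hu (min_le_left _ _)) x₀
  have hν : ∀ y η, ‖nuF N.u x₀ y η‖ = ‖η‖ := fun y =>
    (norm_map_iff_adjoint_comp_self (nuF N.u x₀ y)).mpr (hfr y).2.1
  obtain ⟨hχs, hχ01, -, hχsupp, hχb⟩ := v4_cellChi_spec m (lt_of_lt_of_le one_pos hρ)
  have hχ4 : ContDiff ℝ 4 (cellChi m ρ) := hχs.of_le ENat.LEInfty.out
  have hf4 : ContDiff ℝ 4 (v4f N.u x₀ l) := v4_contDiff_f hu x₀ l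
  have hprod : ContDiff ℝ 4 (fun p => cellChi m ρ p * v4f N.u x₀ l p) := hχ4.mul hf4
  have hfb : ∀ p ∈ tsupport (cellChi m ρ), ∀ k : ℕ, k ≤ 4 →
      ‖iteratedFDeriv ℝ k (v4f N.u x₀ l) p‖ ≤ M * l := by
    intro p hp k hk
    have hp' : ‖p‖ ≤ ρ + 1 := by simpa using hχsupp hp
    refine (v4_f_bound hCv0 hCv hu x₀ hl hl1 p hp' hk).trans ?_
    rw [hM]
    gcongr
  have hγl : l ≤ l + N.cellZ x₀ l ρ := by linarith
  have hCg0 : 0 ≤ Cg := by linarith
  have hMl : M * l ≤ Cg * (l + N.cellZ x₀ l ρ) := by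
    have : M ≤ Cg := by linarith
    exact mul_le_mul this hγl hl.le hCg0
  classical
  refine ⟨?_, ?_, ?_, ?_, ?_, ?_, ?_⟩
  · intro q
    show 0 ≤ if N.good x₀ l ρ q then lam N.u (unchart N.u x₀ l q) else 0
    split_ifs
    · exact v4_lam_nonneg _ _
    · exact le_rfl
  · intro q
    show (if N.good x₀ l ρ q then lam N.u (unchart N.u x₀ l q) else 0) ≤ Cg
    split_ifs with hq
    · have hz : ‖zz N.u (unchart N.u x₀ l q)‖ ≤ 1 :=
        (v4_norm_zz_unchart_le hG x₀ hl hν q).trans (hq.2.trans (by linarith))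
      obtain ⟨h1, h2⟩ := hCH 1 N.u hG (npr N.u (unchart N.u x₀ l q))
      have h3 := v4_DHSsq_le N.u (npr N.u (unchart N.u x₀ l q))
      have h4 : (m : ℝ) * ‖fderiv ℝ (HS N.u) (npr N.u (unchart N.u x₀ l q))‖ ^ 2 ≤ m * CH ^ 2 := by
        gcongr
      have h5 : ‖HS N.u (npr N.u (unchart N.u x₀ l q))‖ ^ 2 ≤ CH ^ 2 := by gcongr
      have h6 : ‖zz N.u (unchart N.u x₀ l q)‖ ^ 2 ≤ 1 := by
        have := norm_nonneg (zz N.u (unchart N.u x₀ l q))
        nlinarith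
      unfold lam
      linarith
    · linarith
  · rw [v4_ag_eq]
    exact (contDiff_const.mul hprod).add contDiff_const
  · intro p
    have h1 : N.ag x₀ l ρ p - 1 = cellChi m ρ p * v4f N.u x₀ l p := by
      rw [v4_ag_eq]
      ring
    rw [h1]
    by_cases hp : p ∈ tsupport (cellChi m ρ)
    · have h2 := hfb p hp 0 (by norm_num)
      rw [norm_iteratedFDeriv_zero, Real.norm_eq_abs] at h2
      rw [abs_mul, abs_of_nonneg (hχ01 p).1]
      calc cellChi m ρ p * |v4f N.u x₀ l p| ≤ 1 * (M * l) := by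
            gcongr
            exact (hχ01 p).2
        _ ≤ _ := by rw [one_mul]; exact hMl
    · rw [image_eq_zero_of_notMem_tsupport hp, zero_mul, abs_zero]
      have : 0 ≤ Cg := by linarith
      positivity
  · intro p
    have hV1 := v4_one_le_vdens (fderiv ℝ N.u (bpt N.u x₀ l p))
    have hv1 := v4_one_le_vdens (fderiv ℝ N.u x₀)
    have hv2 := hsmall _ ((hu.slope' x₀).trans (min_le_right _ _))
    have hr : 4 / 5 ≤ vdens (fderiv ℝ N.u (bpt N.u x₀ l p)) / vdens (fderiv ℝ N.u x₀) := by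
      rw [le_div_iff₀ (by linarith)]
      linarith
    unfold NCyl.ag
    nlinarith [(hχ01 p).1, (hχ01 p).2]
  · intro p
    have hV2 := hsmall _ ((hu.slope' (bpt N.u x₀ l p)).trans (min_le_right _ _))
    have hv1 := v4_one_le_vdens (fderiv ℝ N.u x₀)
    have hr : vdens (fderiv ℝ N.u (bpt N.u x₀ l p)) / vdens (fderiv ℝ N.u x₀) ≤ 5 / 4 := by
      rw [div_le_iff₀ (by linarith)]
      linarith
    unfold NCyl.ag
    nlinarith [(hχ01 p).1, (hχ01 p).2]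
  · intro j hj hj4 p
    rw [v4_ag_eq, v4_iter_affine hprod 1 1 hj hj4 p, abs_one, one_mul]
    by_cases hp : p ∈ tsupport (cellChi m ρ)
    · refine (v4_iter_mul hχ4 hf4 p (fun i hi => hχb i hi p) (hfb p hp) hCχ0.le
        (by positivity) hj4).trans ?_
      have h1 : 16 * Cχ * M ≤ Cg := by linarith
      calc 16 * Cχ * (M * l) = (16 * Cχ * M) * l := by ring
        _ ≤ Cg * (l + N.cellZ x₀ l ρ) := mul_le_mul h1 hγl hl.le hCg0
    · have hp' : p ∉ tsupport (fun p => cellChi m ρ p * v4f N.u x₀ l p) :=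
        fun h => hp (tsupport_mul_subset_left h)
      have h0 : iteratedFDeriv ℝ j (fun p => cellChi m ρ p * v4f N.u x₀ l p) p = 0 := by
        by_contra hne
        exact hp' (support_iteratedFDeriv_subset j hne)
      rw [h0, norm_zero]
      have : 0 ≤ Cg := by linarith
      positivity

theorem v4_cellZ_nonneg (N : NCyl m n) (x₀ : E m) (l ρ : ℝ) : 0 ≤ N.cellZ x₀ l ρ := by
  unfold NCyl.cellZ NCyl.supz
  apply Real.sSup_nonneg
  rintro t ⟨X, -, -, -, rfl⟩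
  exact norm_nonneg _

end Claimed.Agent.R322.Tube
end

/- ===== packed: Claimed.Agent.R322.Tube.ChartOK ===== -/
section
/-!
# The product chart of a cell: bundled facts and the chart measure

`ChartOK u x₀ l hT Cω` bundles everything the measure-theoretic leaves of `Tube/InstValid.lean`
need from `Tube/Frame.lean` and `Tube/Geom.lean`, on ONE tube `Tub u hT`; `exists_chartOK` produces it.
Then: Lipschitz bounds of the chart, the formula for the chart measure `(sysOf ..).μ`.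
-/

set_option autoImplicit false

open scoped ENNReal NNReal InnerProductSpace
open MeasureTheory ContinuousLinearMap Set Metric

namespace Claimed.Agent.R322.Tube

variable {m n : ℕ}

/-- bundled facts about the product chart on the tube of radius `hT` -/
structure ChartOK (u : E m → E n) (x₀ : E m) (l hT Cω : ℝ) : Prop where
  geo : Geo 1 u
  l_pos : 0 < l
  hT_pos : 0 < hT
  hT_le : hT ≤ 2 / 9
  Cω_pos : 0 < Cω
  chart_smooth : ContDiffOn ℝ 3 (chart u x₀ l) (Tub u hT)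
  unchart_smooth : ContDiff ℝ 3 (unchart u x₀ l)
  left_inv : ∀ X ∈ Tub u hT, unchart u x₀ l (chart u x₀ l X) = X
  right_inv : ∀ q : E m × E n, l * ‖q.2‖ < hT → unchart u x₀ l q ∈ Tub u hT ∧
    chart u x₀ l (unchart u x₀ l q) = q ∧ npr u (unchart u x₀ l q) = bpt u x₀ l q.1 ∧
    zz u (unchart u x₀ l q) = l • nuF u x₀ (bpt u x₀ l q.1) q.2
  norm_snd : ∀ X ∈ Tub u hT, ‖(chart u x₀ l X).2‖ = l⁻¹ * ‖zz u X‖
  d_fst : ∀ X ∈ Tub u hT, ∀ ξ : E (m + n), (fderiv ℝ (chart u x₀ l) X ξ).1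
    = l⁻¹ • A0 u x₀ (dFp (fderiv ℝ u (npr u X)) (Kz u X (Ph u (npr u X) ξ)))
  d_snd : ∀ X ∈ Tub u hT, ∀ ξ : E (m + n), (fderiv ℝ (chart u x₀ l) X ξ).2
    = l⁻¹ • adjoint (nuF u x₀ (npr u X)) ξ
      - omgL u x₀ (npr u X) (dFp (fderiv ℝ u (npr u X)) (Kz u X (Ph u (npr u X) ξ)))
          (chart u x₀ l X).2
  omg_le : ∀ y, ‖omgL u x₀ y‖ ≤ Cω * ‖y - x₀‖
  nu_iso : ∀ y, adjoint (nuF u x₀ y) ∘L nuF u x₀ y = ContinuousLinearMap.id ℝ _
  nu_range : ∀ y, nuF u x₀ y ∘L adjoint (nuF u x₀ y) = Pv u y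
  tau_iso : ∀ y, adjoint (tauF u x₀ y) ∘L tauF u x₀ y = ContinuousLinearMap.id ℝ _
  tau_range : ∀ y, tauF u x₀ y ∘L adjoint (tauF u x₀ y) = Ph u y
  A0_right : A0 u x₀ ∘L (A0 u x₀).inverse = ContinuousLinearMap.id ℝ _
  A0_left : (A0 u x₀).inverse ∘L A0 u x₀ = ContinuousLinearMap.id ℝ _
  A0_lower : ∀ a, ‖a‖ ≤ ‖A0 u x₀ a‖
  A0_upper : ∀ a, ‖A0 u x₀ a‖ ≤ 3 / 2 * ‖a‖
  A0_det : |LinearMap.det ((A0 u x₀ : E m →L[ℝ] E m) : E m →ₗ[ℝ] E m)| = vdens (fderiv ℝ u x₀)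

theorem GeoS.mono {κ₂ ε₀ ε₀' : ℝ} {u : E m → E n} (h : GeoS κ₂ ε₀ u) (hε : ε₀ ≤ ε₀') :
    GeoS κ₂ ε₀' u :=
  { toGeo := h.toGeo, slope' := fun y => (h.slope' y).trans hε, smooth5 := h.smooth5,
    d4 := h.d4, d5 := h.d5 }

theorem Tub_mono (u : E m → E n) {h h' : ℝ} (hh : h ≤ h') : Tub u h ⊆ Tub u h' := by
  rintro X ⟨y, hy⟩
  exact ⟨y, hy.trans_le hh⟩

theorem mem_Tub_of_zz (u : E m → E n) {h : ℝ} {X : E (m + n)} (hX : ‖zz u X‖ < h) : X ∈ Tub u h :=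
  ⟨npr u X, hX⟩

theorem exists_chartOK (m n : ℕ) : ∃ ε₀ hT Cω : ℝ, 0 < ε₀ ∧ 0 < hT ∧ 0 < Cω ∧
    ∀ u : E m → E n, GeoS 1 ε₀ u → ∀ (x₀ : E m) (l : ℝ), 0 < l → ChartOK u x₀ l hT Cω := by
  obtain ⟨ε₁, h₁, hε₁, hh₁, H1⟩ := chart_facts m n
  obtain ⟨ε₂, C₂, hε₂, hC₂, H2⟩ := frame_bounds m n
  obtain ⟨ε₃, hε₃, H3⟩ := frame_iso m n
  refine ⟨min ε₁ (min ε₂ ε₃), min h₁ (2 / 9), C₂, lt_min hε₁ (lt_min hε₂ hε₃),
    lt_min hh₁ (by norm_num), hC₂, fun u hu x₀ l hl => ?_⟩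
  have hu1 : GeoS 1 ε₁ u := hu.mono (min_le_left _ _)
  have hu2 : GeoS 1 ε₂ u := hu.mono ((min_le_right _ _).trans (min_le_left _ _))
  have hu3 : GeoS 1 ε₃ u := hu.mono ((min_le_right _ _).trans (min_le_right _ _))
  obtain ⟨c1, c2, c3, c4, c5, c6⟩ := H1 1 u hu1 x₀ l hl
  have hsub : Tub u (min h₁ (2 / 9)) ⊆ Tub u h₁ := Tub_mono u (min_le_left _ _)
  obtain ⟨a1, a2, a3, a4, a5, a6, -⟩ := A0_facts m n u x₀ (1 / 2) (hu.slope x₀)
  have hfr := (H3 1 u hu3 x₀).2.2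
  refine
    { geo := hu.toGeo
      l_pos := hl
      hT_pos := lt_min hh₁ (by norm_num)
      hT_le := min_le_right _ _
      Cω_pos := hC₂
      chart_smooth := c1.mono hsub
      unchart_smooth := c2
      left_inv := fun X hX => c3 X (hsub hX)
      right_inv := fun q hq => ?_
      norm_snd := fun X hX => c5 X (hsub hX)
      d_fst := fun X hX ξ => (c6 X (hsub hX) ξ).1
      d_snd := fun X hX ξ => (c6 X (hsub hX) ξ).2
      omg_le := fun y => ?_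
      nu_iso := fun y => (hfr y).2.1
      nu_range := fun y => (hfr y).2.2.2
      tau_iso := fun y => (hfr y).1
      tau_range := fun y => (hfr y).2.2.1
      A0_right := a2
      A0_left := a3
      A0_lower := a4
      A0_upper := fun a => by have := a5 a; norm_num at this ⊢; linarith
      A0_det := a6 }
  · obtain ⟨d1, d2, d3, d4⟩ := c4 q (hq.trans_le (min_le_left _ _))
    refine ⟨?_, d2, d3, d4⟩
    apply mem_Tub_of_zz
    have h5 := c5 _ d1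
    rw [d2] at h5
    have : ‖zz u (unchart u x₀ l q)‖ = l * ‖q.2‖ := by
      rw [h5, ← mul_assoc, mul_inv_cancel₀ hl.ne', one_mul]
    rw [this]
    exact hq
  · have := (H2 1 u hu2 x₀ y).2.2.2.2.2.2.1
    simpa using this

namespace ChartOK

variable {u : E m → E n} {x₀ : E m} {l hT Cω : ℝ}

theorem continuousOn_chart (H : ChartOK u x₀ l hT Cω) :
    ContinuousOn (chart u x₀ l) (Tub u hT) := H.chart_smooth.continuousOn

theorem differentiableAt_chart (H : ChartOK u x₀ l hT Cω) {X : E (m + n)} (hX : X ∈ Tub u hT) :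
    DifferentiableAt ℝ (chart u x₀ l) X :=
  (H.chart_smooth.differentiableOn (by norm_num)).differentiableAt ((isOpen_Tub u hT).mem_nhds hX)

theorem continuousOn_npr (H : ChartOK u x₀ l hT Cω) : ContinuousOn (npr u) (Tub u hT) :=
  (tube_deriv_of_le H.geo H.hT_le).2.1.continuousOn

theorem continuousOn_zz (H : ChartOK u x₀ l hT Cω) : ContinuousOn (zz u) (Tub u hT) :=
  (tube_deriv_of_le H.geo H.hT_le).2.2.1.continuousOn

theorem norm_zz_lt (H : ChartOK u x₀ l hT Cω) {X : E (m + n)} (hX : X ∈ Tub u hT) :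
    ‖zz u X‖ < hT :=
  (tube_unique_of_le H.geo (H.hT_le.trans (by norm_num)) hX).2.2.2.1

theorem norm_Kz_le (H : ChartOK u x₀ l hT Cω) {X : E (m + n)} (hX : X ∈ Tub u hT) :
    ‖Kz u X‖ ≤ 2 := by
  rw [Kz_eq]
  exact norm_Kw_le (H.geo.norm_Shp_zz_le_half H.hT_le hX)

theorem norm_dy_le (H : ChartOK u x₀ l hT Cω) {X : E (m + n)} (hX : X ∈ Tub u hT)
    (ξ : E (m + n)) :
    ‖dFp (fderiv ℝ u (npr u X)) (Kz u X (Ph u (npr u X) ξ))‖ ≤ 3 * ‖ξ‖ := by
  have h1 := (dFp (fderiv ℝ u (npr u X))).le_opNorm (Kz u X (Ph u (npr u X) ξ))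
  have h2 := (Kz u X).le_opNorm (Ph u (npr u X) ξ)
  have h3 := norm_Ph_apply_le u (npr u X) ξ
  have h4 : ‖dFp (fderiv ℝ u (npr u X))‖ ≤ 3 / 2 := by
    have := norm_dFp_le (fderiv ℝ u (npr u X))
    have := H.geo.slope (npr u X)
    linarith
  have h5 := H.norm_Kz_le hX
  have h6 : ‖Kz u X (Ph u (npr u X) ξ)‖ ≤ 2 * ‖ξ‖ :=
    h2.trans (mul_le_mul h5 h3 (norm_nonneg _) (by norm_num))
  calc _ ≤ ‖dFp (fderiv ℝ u (npr u X))‖ * ‖Kz u X (Ph u (npr u X) ξ)‖ := h1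
    _ ≤ 3 / 2 * (2 * ‖ξ‖) := mul_le_mul h4 h6 (norm_nonneg _) (by norm_num)
    _ = 3 * ‖ξ‖ := by ring

theorem norm_d_fst_le (H : ChartOK u x₀ l hT Cω) {X : E (m + n)} (hX : X ∈ Tub u hT)
    (ξ : E (m + n)) : ‖(fderiv ℝ (chart u x₀ l) X ξ).1‖ ≤ l⁻¹ * (9 / 2) * ‖ξ‖ := by
  rw [H.d_fst X hX, norm_smul, Real.norm_eq_abs, abs_of_pos (inv_pos.2 H.l_pos), mul_assoc]
  refine mul_le_mul_of_nonneg_left ?_ (inv_pos.2 H.l_pos).le
  have h1 := H.A0_upper (dFp (fderiv ℝ u (npr u X)) (Kz u X (Ph u (npr u X) ξ)))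
  have h2 := H.norm_dy_le hX ξ
  linarith

theorem norm_adjoint_nu_le (H : ChartOK u x₀ l hT Cω) (y : E m) (ξ : E (m + n)) :
    ‖adjoint (nuF u x₀ y) ξ‖ ≤ ‖ξ‖ := by
  have h1 : ‖adjoint (nuF u x₀ y) ξ‖ ^ 2 = ⟪Pv u y ξ, ξ⟫_ℝ := by
    rw [← H.nu_range y, ContinuousLinearMap.comp_apply, ← adjoint_inner_right,
      real_inner_self_eq_norm_sq]
  have h2 : ⟪Pv u y ξ, ξ⟫_ℝ ≤ ‖ξ‖ * ‖ξ‖ :=
    (real_inner_le_norm _ _).trans
      (mul_le_mul_of_nonneg_right (norm_Pv_apply_le u y ξ) (norm_nonneg _))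
  nlinarith [norm_nonneg ξ, norm_nonneg (adjoint (nuF u x₀ y) ξ)]

theorem norm_nu_apply (H : ChartOK u x₀ l hT Cω) (y : E m) (η : E n) :
    ‖nuF u x₀ y η‖ = ‖η‖ := by
  have h1 : ‖nuF u x₀ y η‖ ^ 2 = ‖η‖ ^ 2 := by
    rw [← real_inner_self_eq_norm_sq, ← adjoint_inner_right, ← ContinuousLinearMap.comp_apply,
      H.nu_iso y, ContinuousLinearMap.id_apply, real_inner_self_eq_norm_sq]
  exact (sq_eq_sq₀ (norm_nonneg _) (norm_nonneg _)).1 h1

theorem norm_d_snd_le (H : ChartOK u x₀ l hT Cω) {X : E (m + n)} (hX : X ∈ Tub u hT) {ρ : ℝ}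
    (hy : ‖npr u X - x₀‖ ≤ l * ρ) (ξ : E (m + n)) :
    ‖(fderiv ℝ (chart u x₀ l) X ξ).2‖ ≤ l⁻¹ * (1 + 3 * Cω * l * ρ) * ‖ξ‖ := by
  have hl := H.l_pos
  have hli := inv_pos.2 hl
  rw [H.d_snd X hX]
  set a := dFp (fderiv ℝ u (npr u X)) (Kz u X (Ph u (npr u X) ξ)) with ha
  have h1 : ‖l⁻¹ • adjoint (nuF u x₀ (npr u X)) ξ‖ ≤ l⁻¹ * ‖ξ‖ := by
    rw [norm_smul, Real.norm_eq_abs, abs_of_pos hli]
    exact mul_le_mul_of_nonneg_left (H.norm_adjoint_nu_le _ ξ) hli.le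
  have h2 : ‖a‖ ≤ 3 * ‖ξ‖ := H.norm_dy_le hX ξ
  have h3 : ‖(chart u x₀ l X).2‖ ≤ l⁻¹ := by
    rw [H.norm_snd X hX]
    have := H.norm_zz_lt hX
    have h9 := H.hT_le
    calc l⁻¹ * ‖zz u X‖ ≤ l⁻¹ * 1 := mul_le_mul_of_nonneg_left (by linarith) hli.le
      _ = l⁻¹ := mul_one _
  have hρ : 0 ≤ l * ρ := (norm_nonneg _).trans hy
  have h4 : ‖omgL u x₀ (npr u X)‖ ≤ Cω * (l * ρ) :=
    (H.omg_le _).trans (mul_le_mul_of_nonneg_left hy H.Cω_pos.le)
  have h5 : ‖omgL u x₀ (npr u X) a (chart u x₀ l X).2‖ ≤ Cω * (l * ρ) * (3 * ‖ξ‖) * l⁻¹ := by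
    refine ((omgL u x₀ (npr u X) a).le_opNorm _).trans ?_
    refine mul_le_mul ?_ h3 (norm_nonneg _) (by have := H.Cω_pos; positivity)
    refine ((omgL u x₀ (npr u X)).le_opNorm _).trans ?_
    exact mul_le_mul h4 h2 (norm_nonneg _) (by have := H.Cω_pos; positivity)
  calc _ ≤ ‖l⁻¹ • adjoint (nuF u x₀ (npr u X)) ξ‖
        + ‖omgL u x₀ (npr u X) a (chart u x₀ l X).2‖ := norm_sub_le _ _
    _ ≤ l⁻¹ * ‖ξ‖ + Cω * (l * ρ) * (3 * ‖ξ‖) * l⁻¹ := add_le_add h1 h5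
    _ = l⁻¹ * (1 + 3 * Cω * l * ρ) * ‖ξ‖ := by ring

theorem bco_bpt (H : ChartOK u x₀ l hT Cω) (p : E m) : bco u x₀ l (bpt u x₀ l p) = p := by
  unfold bco bpt
  rw [add_sub_cancel_left, map_smul, smul_smul, inv_mul_cancel₀ H.l_pos.ne', one_smul,
    ← ContinuousLinearMap.comp_apply, H.A0_right, ContinuousLinearMap.id_apply]

theorem bpt_bco (H : ChartOK u x₀ l hT Cω) (y : E m) : bpt u x₀ l (bco u x₀ l y) = y := by
  unfold bco bpt
  rw [map_smul, smul_smul, mul_inv_cancel₀ H.l_pos.ne', one_smul,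
    ← ContinuousLinearMap.comp_apply, H.A0_left, ContinuousLinearMap.id_apply, add_sub_cancel]

theorem norm_sub_le_bco (H : ChartOK u x₀ l hT Cω) (y : E m) :
    ‖y - x₀‖ ≤ l * ‖bco u x₀ l y‖ := by
  unfold bco
  rw [norm_smul, Real.norm_eq_abs, abs_of_pos (inv_pos.2 H.l_pos), ← mul_assoc,
    mul_inv_cancel₀ H.l_pos.ne', one_mul]
  exact H.A0_lower _

theorem continuous_bco (u : E m → E n) (x₀ : E m) (l : ℝ) : Continuous (bco u x₀ l) := by
  unfold bco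
  fun_prop

/-- Lipschitz bound of the base component of the chart on a ball inside the tube -/
theorem fst_lip (H : ChartOK u x₀ l hT Cω) {X₀ X : E (m + n)} {s : ℝ}
    (hs : ball X₀ s ⊆ Tub u hT) (hX : X ∈ ball X₀ s) :
    ‖(chart u x₀ l X).1 - (chart u x₀ l X₀).1‖ ≤ l⁻¹ * (9 / 2) * ‖X - X₀‖ := by
  have hs0 : 0 < s := pos_of_mem_ball hX
  refine Convex.norm_image_sub_le_of_norm_fderiv_le (𝕜 := ℝ)
    (f := fun X => (chart u x₀ l X).1) (s := ball X₀ s)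
    (fun Y hY => (H.differentiableAt_chart (hs hY)).fst) (fun Y hY => ?_) (convex_ball _ _)
    (mem_ball_self hs0) hX
  rw [fderiv.fst (H.differentiableAt_chart (hs hY))]
  refine ContinuousLinearMap.opNorm_le_bound _ (by have := H.l_pos; positivity) fun ξ => ?_
  exact H.norm_d_fst_le (hs hY) ξ

/-- Lipschitz bound of the chart on a ball inside the tube over a bounded part of the base -/
theorem chart_lip (H : ChartOK u x₀ l hT Cω) {X₀ X : E (m + n)} {s ρ : ℝ} (hρ : 0 ≤ ρ)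
    (hs : ball X₀ s ⊆ Tub u hT) (hy : ∀ Y ∈ ball X₀ s, ‖npr u Y - x₀‖ ≤ l * ρ)
    (hX : X ∈ ball X₀ s) :
    ‖chart u x₀ l X - chart u x₀ l X₀‖ ≤ l⁻¹ * (9 / 2 + 3 * Cω * l * ρ) * ‖X - X₀‖ := by
  have hs0 : 0 < s := pos_of_mem_ball hX
  have hl := H.l_pos
  have hC := H.Cω_pos
  refine Convex.norm_image_sub_le_of_norm_fderiv_le (𝕜 := ℝ)
    (f := chart u x₀ l) (s := ball X₀ s)
    (fun Y hY => H.differentiableAt_chart (hs hY)) (fun Y hY => ?_) (convex_ball _ _)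
    (mem_ball_self hs0) hX
  refine ContinuousLinearMap.opNorm_le_bound _ (by positivity) fun ξ => ?_
  rw [Prod.norm_def]
  have hli := inv_pos.2 hl
  refine max_le ((H.norm_d_fst_le (hs hY) ξ).trans ?_)
    ((H.norm_d_snd_le (hs hY) (hy Y hY) ξ).trans ?_)
  · refine mul_le_mul_of_nonneg_right (mul_le_mul_of_nonneg_left ?_ hli.le) (norm_nonneg _)
    have : 0 ≤ 3 * Cω * l * ρ := by positivity
    linarith
  · refine mul_le_mul_of_nonneg_right (mul_le_mul_of_nonneg_left ?_ hli.le) (norm_nonneg _)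
    linarith

end ChartOK

/-! ### the cylinder and the chart measure -/

theorem Cyl_subset_Tub (u : E m → E n) (Ω : Set (E m)) {h hT : ℝ} (hh : h ≤ hT) :
    Cyl u Ω h ⊆ Tub u hT := fun _ hX => mem_Tub_of_zz u (hX.2.trans_le hh)

theorem haarC_pos (m : ℕ) : 0 < haarC m := by
  unfold haarC
  refine div_pos (kap_pos m) (ENNReal.toReal_pos ?_ ?_)
  · exact (measure_ball_pos volume (0 : E m) one_pos).ne'
  · exact measure_ball_lt_top.ne

namespace ChartOK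

variable {N : NCyl m n} {x₀ : E m} {l hT Cω : ℝ}

theorem isOpen_Cyl (H : ChartOK N.u x₀ l hT Cω) (hh : N.h ≤ hT) : IsOpen (Cyl N.u N.Ω N.h) := by
  have h1 : Cyl N.u N.Ω N.h
      = (Tub N.u hT ∩ npr N.u ⁻¹' N.Ω) ∩ (Tub N.u hT ∩ (fun X => ‖zz N.u X‖) ⁻¹' Iio N.h) := by
    ext X
    constructor
    · intro hX
      have := Cyl_subset_Tub N.u N.Ω hh hX
      exact ⟨⟨this, hX.1⟩, this, hX.2⟩
    · rintro ⟨⟨-, h1⟩, -, h2⟩
      exact ⟨h1, h2⟩
  rw [h1]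
  exact (H.continuousOn_npr.isOpen_inter_preimage (isOpen_Tub _ _) N.isOpen_Ω).inter
    (H.continuousOn_zz.norm.isOpen_inter_preimage (isOpen_Tub _ _) isOpen_Iio)

theorem isOpen_cellBase (N : NCyl m n) (x₀ : E m) (l ρ : ℝ) : IsOpen (N.cellBase x₀ l ρ) :=
  isOpen_ball.preimage (continuous_bco N.u x₀ l)

/-- the region of the cell in the ambient space -/
theorem isOpen_cellRegion (H : ChartOK N.u x₀ l hT Cω) (hh : N.h ≤ hT) (ρ : ℝ) :
    IsOpen ({X | npr N.u X ∈ N.cellBase x₀ l ρ} ∩ Cyl N.u N.Ω N.h) := by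
  rw [inter_comm]
  exact (H.continuousOn_npr.mono (Cyl_subset_Tub N.u N.Ω hh)).isOpen_inter_preimage
    (H.isOpen_Cyl hh) (isOpen_cellBase N x₀ l ρ)

theorem aemeasurable_chart (H : ChartOK N.u x₀ l hT Cω) (hh : N.h ≤ hT) (ρ : ℝ) :
    AEMeasurable (chart N.u x₀ l) (N.μ.restrict {X | npr N.u X ∈ N.cellBase x₀ l ρ}) := by
  refine AEMeasurable.mono_measure ?_ Measure.restrict_le_self
  exact (H.continuousOn_chart.mono (Cyl_subset_Tub N.u N.Ω hh)).aemeasurable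
    (H.isOpen_Cyl hh).measurableSet

theorem cell_measure_eq (H : ChartOK N.u x₀ l hT Cω) (hh : N.h ≤ hT) (ρ : ℝ) :
    N.μ.restrict {X | npr N.u X ∈ N.cellBase x₀ l ρ}
      = N.W.μ.restrict ({X | npr N.u X ∈ N.cellBase x₀ l ρ} ∩ Cyl N.u N.Ω N.h) := by
  unfold NCyl.μ
  rw [Measure.restrict_restrict' (H.isOpen_Cyl hh).measurableSet]

/-- **formula for the chart measure** -/
theorem sysOf_μ_apply (H : ChartOK N.u x₀ l hT Cω) (hh : N.h ≤ hT) (ρ Cg : ℝ)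
    {A : Set (E m × E n)} (hA : MeasurableSet A) :
    (N.sysOf x₀ l ρ Cg).μ A = (ENNReal.ofReal (haarC m * l ^ m))⁻¹ *
      N.W.μ (chart N.u x₀ l ⁻¹' A ∩
        ({X | npr N.u X ∈ N.cellBase x₀ l ρ} ∩ Cyl N.u N.Ω N.h)) := by
  have h1 : (N.sysOf x₀ l ρ Cg).μ = (ENNReal.ofReal (haarC m * l ^ m))⁻¹ •
    (N.μ.restrict {X | npr N.u X ∈ N.cellBase x₀ l ρ}).map (chart N.u x₀ l) := rfl
  rw [h1, Measure.smul_apply, smul_eq_mul,
    Measure.map_apply_of_aemeasurable (H.aemeasurable_chart hh ρ) hA, H.cell_measure_eq hh,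
    Measure.restrict_apply' (H.isOpen_cellRegion hh ρ).measurableSet]

theorem haar_const_pos (H : ChartOK N.u x₀ l hT Cω) : 0 < haarC m * l ^ m :=
  mul_pos (haarC_pos m) (pow_pos H.l_pos m)

/-- the weight is carried by support points of height `< h'` -/
theorem carrier_null (N : NCyl m n) :
    N.W.μ ({X | N.h' ≤ ‖zz N.u X‖} ∩ Cyl N.u N.Ω N.h) = 0 := by
  refine measure_mono_null ?_ N.W.μ_compl_support
  rintro X ⟨h1, h2⟩ h3
  exact absurd (N.gap X h3 h2) (not_lt.2 h1)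

end ChartOK

end Claimed.Agent.R322.Tube
end
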