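/- Packed by merge_tool.py (helper293): 8 modules of Claimed.Agent.R322 in one file, same declarations.
   Old modules, in this order: Sx.Contact.Defs, Sx.Contact.PiSum, Sx.Contact.Kernel, Sx.Contact.MaxPr, Sx.Contact.LocDom, Sx.Gauss.Defs, Sx.Gauss.Ker, Sx.Wells.Clip -/
import Mathlib
import Claimed.Agent.R322.Basic
import Claimed.Agent.R322.Pack019
import Claimed.Agent.R322.Pack020

/- ===== packed: Claimed.Agent.R322.Sx.Contact.Defs ===== -/
section
/-!
# AE Lemma 4.1 (contact measure): definitions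

The flat torus `X = (ℝ / R ℤ)^m` is modelled by `R`-periodic objects on `E m`:
* functions on `X` = periodic functions on `E m`;
* finite measures on `X` = finite measures on `E m` (in practice carried by the closed cube);
  they are only ever integrated against periodic kernels;
* `theta m R s` = periodised Gaussian; `pav R μ s x = ∫ θ_s(y - x) dμ(y)` = Gaussian average on `X`;
* `Nk m R s` = kernel of `G_s * (-Δ_X)^{-1}` (zero mean), defined by its Fourier series.
-/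

set_option autoImplicit false

namespace Claimed.Agent.R322.Sx.Contact

open MeasureTheory Set Metric
open scoped ENNReal NNReal InnerProductSpace

/-- lattice vector `R k` -/
noncomputable def lat (m : ℕ) (R : ℝ) (k : Fin m → ℤ) : E m :=
  WithLp.toLp 2 (fun i => R * (k i : ℝ))

/-- coordinate unit vector -/
noncomputable def eb {m : ℕ} (i : Fin m) : E m := EuclideanSpace.single i (1 : ℝ)

/-- periodised Gaussian -/
noncomputable def theta (m : ℕ) (R s : ℝ) (x : E m) : ℝ :=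
  ∑' k : Fin m → ℤ, gauss m s (x + lat m R k)

/-- Gaussian average on the torus of a finite measure -/
noncomputable def pav {m : ℕ} (R : ℝ) (μ : Measure (E m)) (s : ℝ) (x : E m) : ℝ :=
  ∫ y, theta m R s (y - x) ∂μ

/-- phase `2π k·x / R` -/
noncomputable def phase {m : ℕ} (R : ℝ) (k : Fin m → ℤ) (x : E m) : ℝ :=
  2 * Real.pi / R * ∑ i, (k i : ℝ) * x i

/-- eigenvalue `λ_k = (2π/R)² |k|²` of `-Δ_X` -/
noncomputable def lamK {m : ℕ} (R : ℝ) (k : Fin m → ℤ) : ℝ :=
  (2 * Real.pi / R) ^ 2 * ∑ i, (k i : ℝ) ^ 2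

/-- kernel of `G_s * (-Δ_X)^{-1}` with zero mean (the term `k = 0` vanishes: division by `0`). -/
noncomputable def Nk (m : ℕ) (R s : ℝ) (x : E m) : ℝ :=
  (R ^ m)⁻¹ * ∑' k : Fin m → ℤ, Real.exp (-(lamK R k * s ^ 2 / 2)) / lamK R k * Real.cos (phase R k x)

/-- first partial derivative of `Nk` -/
noncomputable def Nk1 (m : ℕ) (R s : ℝ) (i : Fin m) (x : E m) : ℝ :=
  (R ^ m)⁻¹ * ∑' k : Fin m → ℤ, Real.exp (-(lamK R k * s ^ 2 / 2)) / lamK R k *
    (-(2 * Real.pi / R * (k i : ℝ)) * Real.sin (phase R k x))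

/-- second partial derivative of `Nk` -/
noncomputable def Nk2 (m : ℕ) (R s : ℝ) (i : Fin m) (x : E m) : ℝ :=
  (R ^ m)⁻¹ * ∑' k : Fin m → ℤ, Real.exp (-(lamK R k * s ^ 2 / 2)) / lamK R k *
    (-(2 * Real.pi / R * (k i : ℝ)) ^ 2 * Real.cos (phase R k x))

/-- closed fundamental cube (centred at the origin, as in `Sx/Contact.lean`) -/
def cube (m : ℕ) (R : ℝ) : Set (E m) := {x | ∀ i, |x i| ≤ R / 2}

/-- A continuation set (AE Section 4.1), as a periodic subset of `E m × ℝ`. -/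
structure IsCont {m : ℕ} (R a stop : ℝ) (𝒟 : Set (E m × ℝ)) : Prop where
  closed : IsClosed 𝒟
  per : ∀ (k : Fin m → ℤ) (x : E m) (s : ℝ), (x, s) ∈ 𝒟 → (x + lat m R k, s) ∈ 𝒟
  up : ∀ (x : E m) (s v : ℝ), (x, s) ∈ 𝒟 → s ≤ v → (x, v) ∈ 𝒟
  bot : ∀ (x : E m) (s : ℝ), (x, s) ∈ 𝒟 → a ≤ s
  top : ∀ (x : E m) (s : ℝ), stop ≤ s → (x, s) ∈ 𝒟

/-- entrance boundary -/
def entr {m : ℕ} (𝒟 : Set (E m × ℝ)) : Set (E m × ℝ) := 𝒟 \ interior 𝒟

/-- heat potential of the signed measure `gp - gm` -/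
noncomputable def pot {m : ℕ} (R : ℝ) (gp gm : Measure (E m)) (x : E m) (s : ℝ) : ℝ :=
  ∫ y, Nk m R s (x - y) ∂gp - ∫ y, Nk m R s (x - y) ∂gm

end Claimed.Agent.R322.Sx.Contact
end

/- ===== packed: Claimed.Agent.R322.Sx.Contact.PiSum ===== -/
section
/-!
# Sums over `Fin m → α` of products, one-dimensional Gaussian sums (helpers for `Kernel.lean`)
Owner: helper127.  Mathlib only.
-/

set_option autoImplicit false

namespace Claimed.Agent.R322.Sx.Contact

open scoped BigOperators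

/-- **product sums**: a sum over `Fin m → α` of a product of absolutely summable factors. -/
theorem pi_prod_summable_tsum {𝕜 α : Type*} [NormedField 𝕜] [CompleteSpace 𝕜] :
    ∀ (m : ℕ) (f : Fin m → α → 𝕜), (∀ i, Summable fun n => ‖f i n‖) →
      (Summable fun k : Fin m → α => ‖∏ i, f i (k i)‖) ∧
        ∑' k : Fin m → α, ∏ i, f i (k i) = ∏ i, ∑' n, f i n := by
  intro m
  induction m with
  | zero =>
    intro f _
    refine ⟨(hasSum_fintype _).summable, ?_⟩
    rw [tsum_fintype]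
    simp
  | succ m ih =>
    intro f hf
    obtain ⟨h1, h2⟩ := ih (fun i => f i.succ) (fun i => hf i.succ)
    have hprod : ∀ z : α × (Fin m → α),
        ∏ i, f i ((Fin.consEquiv (fun _ : Fin (m + 1) => α)) z i)
          = f 0 z.1 * ∏ i : Fin m, f i.succ (z.2 i) := by
      intro z
      rw [Fin.prod_univ_succ]
      simp [Fin.consEquiv]
    constructor
    · rw [← (Fin.consEquiv (fun _ : Fin (m + 1) => α)).summable_iff]
      have := Summable.mul_norm (hf 0) h1
      refine this.congr fun z => ?_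
      simp only [Function.comp_apply]
      rw [hprod z]
    · rw [← (Fin.consEquiv (fun _ : Fin (m + 1) => α)).tsum_eq, Fin.prod_univ_succ, ← h2,
        tsum_mul_tsum_of_summable_norm (hf 0) h1]
      exact tsum_congr fun z => hprod z

/-- one-dimensional shifted Gaussians are summable over the lattice. -/
theorem summable_gauss_one (c R t : ℝ) (hc : 0 < c) (hR : 0 < R) :
    Summable fun n : ℤ => Real.exp (-(c * (t + R * n) ^ 2)) := by
  have hT : 0 < c * R ^ 2 / Real.pi := by positivity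
  have h := summable_pow_mul_jacobiTheta₂_term_bound (c * |t| * R / Real.pi) hT 0
  refine Summable.of_nonneg_of_le (fun n => (Real.exp_pos _).le) (fun n => ?_) h
  rw [pow_zero, one_mul]
  refine Real.exp_le_exp.mpr ?_
  have e : -Real.pi * (c * R ^ 2 / Real.pi * (n : ℝ) ^ 2 - 2 * (c * |t| * R / Real.pi) * |(n : ℝ)|)
      = -(c * (R ^ 2 * (n : ℝ) ^ 2 - 2 * |t| * R * |(n : ℝ)|)) := by
    field_simp
  push_cast
  rw [e]
  have h1 : -(|t| * |(n : ℝ)|) ≤ t * n := by
    rw [← abs_mul]; exact neg_abs_le _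
  have h2 : R ^ 2 * (n : ℝ) ^ 2 - 2 * |t| * R * |(n : ℝ)| ≤ (t + R * n) ^ 2 := by
    nlinarith [sq_nonneg t]
  have := mul_le_mul_of_nonneg_left h2 hc.le
  linarith

/-- one-dimensional Gaussian weights. -/
theorem summable_exp_neg_sq (c : ℝ) (hc : 0 < c) :
    Summable fun n : ℤ => Real.exp (-(c * (n : ℝ) ^ 2)) := by
  have := summable_gauss_one c 1 0 hc one_pos
  simpa using this

end Claimed.Agent.R322.Sx.Contact
end

/- ===== packed: Claimed.Agent.R322.Sx.Contact.Kernel ===== -/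
section
/-!
# AE Lemma 4.1: the periodised Gaussian and the heat potential kernel (leaves)
-/

set_option autoImplicit false

namespace Claimed.Agent.R322.Sx.Contact

open MeasureTheory Set Metric
open scoped ENNReal NNReal InnerProductSpace

variable {m : ℕ}

/-! ### the eigenvalues -/

theorem lamK_eq_sum (R : ℝ) (k : Fin m → ℤ) :
    lamK R k = ∑ i, (2 * Real.pi / R * (k i : ℝ)) ^ 2 := by
  unfold lamK
  rw [Finset.mul_sum]
  exact Finset.sum_congr rfl fun i _ => by ring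

theorem lamK_nonneg (R : ℝ) (k : Fin m → ℤ) : 0 ≤ lamK R k := by
  rw [lamK_eq_sum]; positivity

theorem lamK_zero (R : ℝ) : lamK R (0 : Fin m → ℤ) = 0 := by
  simp [lamK]

theorem coord_sq_le_lamK (R : ℝ) (k : Fin m → ℤ) (i : Fin m) :
    (2 * Real.pi / R * (k i : ℝ)) ^ 2 ≤ lamK R k := by
  rw [lamK_eq_sum]
  exact Finset.single_le_sum (f := fun i => (2 * Real.pi / R * (k i : ℝ)) ^ 2)
    (fun i _ => by positivity) (Finset.mem_univ i)

theorem lamK_ge (R : ℝ) (k : Fin m → ℤ) (hk : k ≠ 0) : (2 * Real.pi / R) ^ 2 ≤ lamK R k := by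
  obtain ⟨i, hi⟩ : ∃ i, k i ≠ 0 := by
    by_contra hcon
    push Not at hcon
    exact hk (funext hcon)
  refine le_trans ?_ (coord_sq_le_lamK R k i)
  rw [mul_pow]
  have h1 : (1 : ℝ) ≤ (k i : ℝ) ^ 2 := by
    have : (1 : ℤ) ≤ (k i) ^ 2 := by
      have := sq_nonneg (k i)
      have h0 : (k i) ^ 2 ≠ 0 := pow_ne_zero 2 hi
      omega
    exact_mod_cast this
  nlinarith [sq_nonneg (2 * Real.pi / R)]

theorem lamK_pos (R : ℝ) (hR : 0 < R) (k : Fin m → ℤ) (hk : k ≠ 0) : 0 < lamK R k :=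
  lt_of_lt_of_le (by positivity) (lamK_ge R k hk)

/-- `1/λ_k ≤ (R/2π)²` (also for `k = 0`). -/
theorem inv_lamK_le (R : ℝ) (hR : 0 < R) (k : Fin m → ℤ) :
    0 ≤ (lamK R k)⁻¹ ∧ (lamK R k)⁻¹ ≤ (R / (2 * Real.pi)) ^ 2 := by
  refine ⟨inv_nonneg.2 (lamK_nonneg R k), ?_⟩
  by_cases hk : k = 0
  · rw [hk, lamK_zero, inv_zero]; positivity
  · have h1 := lamK_ge R k hk
    have h2 : (0 : ℝ) < (2 * Real.pi / R) ^ 2 := by positivity
    calc (lamK R k)⁻¹ ≤ ((2 * Real.pi / R) ^ 2)⁻¹ := inv_anti₀ h2 h1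
      _ = (R / (2 * Real.pi)) ^ 2 := by rw [← inv_pow, inv_div]

/-! ### summability of the weights -/

theorem summable_exp_lamK (R c : ℝ) (hR : 0 < R) (hc : 0 < c) :
    Summable (fun k : Fin m → ℤ => Real.exp (-(lamK R k * c))) := by
  have h := (pi_prod_summable_tsum (𝕜 := ℝ) (α := ℤ) m
    (fun _ n => Real.exp (-((2 * Real.pi / R) ^ 2 * c * (n : ℝ) ^ 2))) (fun _ => by
      have := summable_exp_neg_sq ((2 * Real.pi / R) ^ 2 * c) (by positivity)
      simpa [abs_of_pos (Real.exp_pos _)] using this)).1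
  refine h.congr fun k => ?_
  rw [← Real.exp_sum, Real.norm_of_nonneg (Real.exp_pos _).le]
  congr 1
  unfold lamK
  rw [Finset.mul_sum, Finset.sum_mul, ← Finset.sum_neg_distrib]
  exact Finset.sum_congr rfl fun i _ => by ring

/-- [leaf K2] summability of Gaussian weights with polynomial factors, uniformly for `s ≥ a` -/
theorem summable_weights (R a : ℝ) (hR : 0 < R) (ha : 0 < a) (p : ℕ) :
    Summable (fun k : Fin m → ℤ => (1 + lamK R k) ^ p * Real.exp (-(lamK R k * a ^ 2 / 2))) := by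
  set c : ℝ := a ^ 2 / 4 with hc
  have hc0 : 0 < c := by positivity
  have h := (summable_exp_lamK (m := m) R c hR hc0).mul_left
    ((p.factorial : ℝ) * (c ^ p)⁻¹ * Real.exp c)
  refine Summable.of_nonneg_of_le (fun k => ?_) (fun k => ?_) h
  · have := lamK_nonneg R k
    positivity
  · have hL := lamK_nonneg R k
    have h1 := Real.pow_div_factorial_le_exp (c * (1 + lamK R k)) (by positivity) p
    rw [div_le_iff₀ (by positivity), mul_pow] at h1
    have h2 : (1 + lamK R k) ^ p ≤ (c ^ p)⁻¹ * (Real.exp (c * (1 + lamK R k)) * p.factorial) := by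
      rw [← div_eq_inv_mul, le_div_iff₀ (by positivity)]
      linarith
    have e1 : Real.exp (-(lamK R k * a ^ 2 / 2))
        = Real.exp (-(lamK R k * c)) * Real.exp (-(lamK R k * c)) := by
      rw [← Real.exp_add]; congr 1; rw [hc]; ring
    have e2 : Real.exp (c * (1 + lamK R k)) * Real.exp (-(lamK R k * c)) = Real.exp c := by
      rw [← Real.exp_add]; congr 1; ring
    calc (1 + lamK R k) ^ p * Real.exp (-(lamK R k * a ^ 2 / 2))
        ≤ ((c ^ p)⁻¹ * (Real.exp (c * (1 + lamK R k)) * p.factorial)) *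
            Real.exp (-(lamK R k * a ^ 2 / 2)) :=
          mul_le_mul_of_nonneg_right h2 (Real.exp_pos _).le
      _ = (p.factorial : ℝ) * (c ^ p)⁻¹ *
            (Real.exp (c * (1 + lamK R k)) * Real.exp (-(lamK R k * c))) *
            Real.exp (-(lamK R k * c)) := by rw [e1]; ring
      _ = (p.factorial : ℝ) * (c ^ p)⁻¹ * Real.exp c * Real.exp (-(lamK R k * c)) := by rw [e2]



theorem gauss_eq_prod (s : ℝ) (z : E m) :
    gauss m s z = ∏ i, ((Real.sqrt (2 * Real.pi * s ^ 2))⁻¹ * Real.exp (-((2 * s ^ 2)⁻¹ * (z i) ^ 2))) := by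
  unfold gauss
  rw [Finset.prod_mul_distrib, ← Real.exp_sum, Finset.prod_const, Finset.card_univ, Fintype.card_fin]
  have h0 : (0 : ℝ) ≤ 2 * Real.pi * s ^ 2 := by positivity
  congr 1
  · generalize 2 * Real.pi * s ^ 2 = A at h0
    rw [Real.sqrt_eq_rpow, ← Real.rpow_neg h0, ← Real.rpow_natCast, ← Real.rpow_mul h0]
    congr 1; ring
  · congr 1
    rw [EuclideanSpace.real_norm_sq_eq, Finset.sum_neg_distrib, ← Finset.mul_sum]
    ring

theorem lat_apply (R : ℝ) (k : Fin m → ℤ) (i : Fin m) : lat m R k i = R * (k i : ℝ) := rfl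

/-- [leaf K0] summability of the periodisation -/
theorem summable_gauss (R s : ℝ) (hR : 0 < R) (hs : 0 < s) (x : E m) :
    Summable (fun k : Fin m → ℤ => gauss m s (x + lat m R k)) := by
  have h := (pi_prod_summable_tsum (𝕜 := ℝ) (α := ℤ) m
    (fun i n => (Real.sqrt (2 * Real.pi * s ^ 2))⁻¹ *
      Real.exp (-((2 * s ^ 2)⁻¹ * (x i + R * (n : ℝ)) ^ 2))) (fun i => by
      have := (summable_gauss_one (2 * s ^ 2)⁻¹ R (x i) (by positivity) hR).mul_left
        (Real.sqrt (2 * Real.pi * s ^ 2))⁻¹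
      refine this.congr fun n => ?_
      rw [Real.norm_of_nonneg (by positivity)])).1
  refine h.of_norm.congr fun k => ?_
  rw [gauss_eq_prod]
  rfl



theorem poisson_one (R s t : ℝ) (hR : 0 < R) (hs : 0 < s) :
    ∑' n : ℤ, (((Real.sqrt (2 * Real.pi * s ^ 2))⁻¹ *
        Real.exp (-((2 * s ^ 2)⁻¹ * (t + R * (n : ℝ)) ^ 2)) : ℝ) : ℂ)
      = (R : ℂ)⁻¹ * ∑' n : ℤ, Complex.exp (-(((2 * Real.pi / R * (n : ℝ)) ^ 2 * s ^ 2 / 2 : ℝ) : ℂ)
          - Complex.I * ((2 * Real.pi / R * ((n : ℝ) * t) : ℝ) : ℂ)) := by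
  have hA : (0 : ℝ) < 2 * Real.pi * s ^ 2 / R ^ 2 := by positivity
  have ha : 0 < ((2 * Real.pi * s ^ 2 / R ^ 2 : ℝ) : ℂ).re := by rw [Complex.ofReal_re]; exact hA
  have h := Complex.tsum_exp_neg_quadratic ha (-Complex.I * ((t / R : ℝ) : ℂ))
  have hsq : ((2 * Real.pi * s ^ 2 / R ^ 2 : ℝ) : ℂ) ^ (1 / 2 : ℂ)
      = ((Real.sqrt (2 * Real.pi * s ^ 2) / R : ℝ) : ℂ) := by
    have : (1 / 2 : ℂ) = ((1 / 2 : ℝ) : ℂ) := by push_cast; rfl
    rw [this, ← Complex.ofReal_cpow hA.le, ← Real.sqrt_eq_rpow, Real.sqrt_div (by positivity),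
      Real.sqrt_sq hR.le]
  rw [hsq] at h
  have hc : (0 : ℝ) < Real.sqrt (2 * Real.pi * s ^ 2) := Real.sqrt_pos.2 (by positivity)
  have hRc : (R : ℂ) ≠ 0 := Complex.ofReal_ne_zero.2 hR.ne'
  have hsc : (s : ℂ) ≠ 0 := Complex.ofReal_ne_zero.2 hs.ne'
  have hpc : (Real.pi : ℂ) ≠ 0 := Complex.ofReal_ne_zero.2 Real.pi_pos.ne'
  have hcc : ((Real.sqrt (2 * Real.pi * s ^ 2) : ℝ) : ℂ) ≠ 0 := Complex.ofReal_ne_zero.2 hc.ne'
  have e1 : ∀ n : ℤ, (((Real.sqrt (2 * Real.pi * s ^ 2))⁻¹ *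
        Real.exp (-((2 * s ^ 2)⁻¹ * (t + R * (n : ℝ)) ^ 2)) : ℝ) : ℂ)
      = ((Real.sqrt (2 * Real.pi * s ^ 2) : ℝ) : ℂ)⁻¹ *
        Complex.exp (-(Real.pi : ℂ) / ((2 * Real.pi * s ^ 2 / R ^ 2 : ℝ) : ℂ) *
          ((n : ℂ) + Complex.I * (-Complex.I * ((t / R : ℝ) : ℂ))) ^ 2) := by
    intro n
    rw [Complex.ofReal_mul, Complex.ofReal_inv, Complex.ofReal_exp]
    congr 2
    have hI : Complex.I * (-Complex.I * ((t / R : ℝ) : ℂ)) = ((t / R : ℝ) : ℂ) := by
      rw [← mul_assoc, mul_neg, Complex.I_mul_I]; ring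
    rw [hI]
    push_cast
    field_simp
    ring
  have e2 : ∀ n : ℤ, Complex.exp (-(((2 * Real.pi / R * (n : ℝ)) ^ 2 * s ^ 2 / 2 : ℝ) : ℂ)
          - Complex.I * ((2 * Real.pi / R * ((n : ℝ) * t) : ℝ) : ℂ))
      = Complex.exp (-(Real.pi : ℂ) * ((2 * Real.pi * s ^ 2 / R ^ 2 : ℝ) : ℂ) * (n : ℂ) ^ 2
          + 2 * (Real.pi : ℂ) * (-Complex.I * ((t / R : ℝ) : ℂ)) * (n : ℂ)) := by
    intro n
    congr 1
    push_cast
    field_simp
    ring
  rw [tsum_congr e1, tsum_congr e2, tsum_mul_left, h]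
  push_cast
  field_simp


/-- [leaf K1] **Poisson summation**: Fourier series of the periodised Gaussian. -/
theorem theta_eq_fourier (R s : ℝ) (hR : 0 < R) (hs : 0 < s) (x : E m) :
    theta m R s x
      = (R ^ m)⁻¹ * ∑' k : Fin m → ℤ, Real.exp (-(lamK R k * s ^ 2 / 2)) * Real.cos (phase R k x) := by
  set g : Fin m → ℤ → ℝ := fun i n => (Real.sqrt (2 * Real.pi * s ^ 2))⁻¹ *
      Real.exp (-((2 * s ^ 2)⁻¹ * (x i + R * (n : ℝ)) ^ 2)) with hg
  have hgs : ∀ i, Summable fun n => ‖g i n‖ := by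
    intro i
    have := (summable_gauss_one (2 * s ^ 2)⁻¹ R (x i) (by positivity) hR).mul_left
      (Real.sqrt (2 * Real.pi * s ^ 2))⁻¹
    refine this.congr fun n => ?_
    rw [Real.norm_of_nonneg (by positivity)]
  have h1 : theta m R s x = ∏ i, ∑' n, g i n := by
    unfold theta
    rw [← (pi_prod_summable_tsum m g hgs).2]
    exact tsum_congr fun k => by rw [gauss_eq_prod]; rfl
  set F : Fin m → ℤ → ℂ := fun i n =>
    Complex.exp (-(((2 * Real.pi / R * (n : ℝ)) ^ 2 * s ^ 2 / 2 : ℝ) : ℂ)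
          - Complex.I * ((2 * Real.pi / R * ((n : ℝ) * x i) : ℝ) : ℂ)) with hF
  have hFs : ∀ i, Summable fun n => ‖F i n‖ := by
    intro i
    have := summable_exp_neg_sq ((2 * Real.pi / R) ^ 2 * s ^ 2 / 2) (by positivity)
    refine this.congr fun n => ?_
    rw [hF, Complex.norm_exp]
    congr 1
    simp only [Complex.sub_re, Complex.neg_re, Complex.ofReal_re, Complex.mul_re, Complex.I_re,
      Complex.I_im, Complex.ofReal_im]
    ring
  have hPS := pi_prod_summable_tsum m F hFs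
  have h2 : ((theta m R s x : ℝ) : ℂ) = (((R ^ m)⁻¹ : ℝ) : ℂ) * ∑' k : Fin m → ℤ, ∏ i, F i (k i) := by
    rw [h1, Complex.ofReal_prod, hPS.2]
    have : ∀ i, ((∑' n, g i n : ℝ) : ℂ) = (R : ℂ)⁻¹ * ∑' n, F i n := fun i => by
      rw [Complex.ofReal_tsum]; exact poisson_one R s (x i) hR hs
    rw [Finset.prod_congr rfl (fun i _ => this i), Finset.prod_mul_distrib, Finset.prod_const,
      Finset.card_univ, Fintype.card_fin]
    push_cast
    rw [inv_pow]
  have h3 : ∀ k : Fin m → ℤ, (∏ i, F i (k i)).re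
      = Real.exp (-(lamK R k * s ^ 2 / 2)) * Real.cos (phase R k x) := by
    intro k
    have : ∏ i, F i (k i) = Complex.exp (((-(lamK R k * s ^ 2 / 2) : ℝ) : ℂ)
        + ((-(phase R k x) : ℝ) : ℂ) * Complex.I) := by
      rw [hF, ← Complex.exp_sum]
      congr 1
      rw [lamK_eq_sum, phase, Finset.sum_sub_distrib, ← Finset.mul_sum, ← Complex.ofReal_sum,
        Finset.sum_neg_distrib, ← Complex.ofReal_sum, ← Finset.mul_sum, Finset.sum_mul,
        Finset.sum_div]
      push_cast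
      ring
    rw [this, Complex.exp_re]
    simp only [Complex.add_re, Complex.add_im, Complex.ofReal_re, Complex.ofReal_im, Complex.mul_re,
      Complex.mul_im, Complex.I_re, Complex.I_im, mul_zero, mul_one, sub_zero, add_zero, zero_add,
      Real.cos_neg]
  have h4 := congrArg Complex.re h2
  rw [Complex.ofReal_re, Complex.re_ofReal_mul, Complex.re_tsum hPS.1.of_norm, tsum_congr h3] at h4
  exact h4


/-! ### generic Fourier series with Gaussian weights -/

theorem term_bound (R : ℝ) (c : (Fin m → ℤ) → ℝ) (C : ℝ)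
    (hc : ∀ k, |c k| ≤ C * (1 + lamK R k)) (a s u : ℝ) (ha : 0 ≤ a) (has : a ≤ s) (hu : |u| ≤ 1)
    (k : Fin m → ℤ) :
    ‖Real.exp (-(lamK R k * s ^ 2 / 2)) * c k * u‖
      ≤ C * ((1 + lamK R k) ^ 1 * Real.exp (-(lamK R k * a ^ 2 / 2))) := by
  have hL := lamK_nonneg R k
  have h1 : Real.exp (-(lamK R k * s ^ 2 / 2)) ≤ Real.exp (-(lamK R k * a ^ 2 / 2)) := by
    apply Real.exp_le_exp.2
    have h2 : a ^ 2 ≤ s ^ 2 := by nlinarith
    nlinarith
  rw [Real.norm_eq_abs, abs_mul, abs_mul, abs_of_pos (Real.exp_pos _), pow_one]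
  have h3 : 0 ≤ C * (1 + lamK R k) := (abs_nonneg _).trans (hc k)
  calc Real.exp (-(lamK R k * s ^ 2 / 2)) * |c k| * |u|
      ≤ Real.exp (-(lamK R k * a ^ 2 / 2)) * (C * (1 + lamK R k)) * 1 := by
        refine mul_le_mul (mul_le_mul h1 (hc k) (abs_nonneg _) (Real.exp_pos _).le) hu
          (abs_nonneg _) (mul_nonneg (Real.exp_pos _).le h3)
    _ = C * ((1 + lamK R k) * Real.exp (-(lamK R k * a ^ 2 / 2))) := by ring

theorem series_summable (R : ℝ) (hR : 0 < R) (c : (Fin m → ℤ) → ℝ) (C : ℝ)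
    (hc : ∀ k, |c k| ≤ C * (1 + lamK R k)) (s : ℝ) (hs : 0 < s) (u : (Fin m → ℤ) → ℝ)
    (hu : ∀ k, |u k| ≤ 1) :
    Summable fun k => Real.exp (-(lamK R k * s ^ 2 / 2)) * c k * u k :=
  Summable.of_norm_bounded ((summable_weights R s hR hs 1).mul_left C)
    (fun k => term_bound R c C hc s s (u k) hs.le le_rfl (hu k) k)

theorem series_abs_le (R : ℝ) (hR : 0 < R) (c : (Fin m → ℤ) → ℝ) (C : ℝ)
    (hc : ∀ k, |c k| ≤ C * (1 + lamK R k)) (a s : ℝ) (ha : 0 < a) (has : a ≤ s)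
    (u : (Fin m → ℤ) → ℝ) (hu : ∀ k, |u k| ≤ 1) :
    |∑' k, Real.exp (-(lamK R k * s ^ 2 / 2)) * c k * u k|
      ≤ C * ∑' k : Fin m → ℤ, (1 + lamK R k) ^ 1 * Real.exp (-(lamK R k * a ^ 2 / 2)) :=
  tsum_of_norm_bounded ((summable_weights R a hR ha 1).hasSum.mul_left C)
    (fun k => term_bound R c C hc a s (u k) ha.le has (hu k) k)

theorem continuous_phase (R : ℝ) (k : Fin m → ℤ) : Continuous (fun x : E m => phase R k x) := by
  unfold phase
  fun_prop

theorem series_continuousOn (R : ℝ) (hR : 0 < R) (c : (Fin m → ℤ) → ℝ) (C : ℝ)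
    (hc : ∀ k, |c k| ≤ C * (1 + lamK R k)) (τ : ℝ → ℝ) (hτ : Continuous τ) (hτ1 : ∀ u, |τ u| ≤ 1) :
    ContinuousOn (fun p : E m × ℝ =>
      ∑' k, Real.exp (-(lamK R k * p.2 ^ 2 / 2)) * c k * τ (phase R k p.1)) (univ ×ˢ Ioi 0) := by
  rintro ⟨x0, s0⟩ ⟨-, hs0⟩
  have hs0' : (0 : ℝ) < s0 := hs0
  have hU : IsOpen ((univ : Set (E m)) ×ˢ Ioi (s0 / 2)) := isOpen_univ.prod isOpen_Ioi
  have hcont : ContinuousOn (fun p : E m × ℝ =>
      ∑' k, Real.exp (-(lamK R k * p.2 ^ 2 / 2)) * c k * τ (phase R k p.1))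
      ((univ : Set (E m)) ×ˢ Ioi (s0 / 2)) := by
    refine continuousOn_tsum (fun k => ?_) ((summable_weights R (s0 / 2) hR (by positivity) 1).mul_left C)
      (fun k p hp => term_bound R c C hc (s0 / 2) p.2 _ (by positivity) (le_of_lt hp.2) (hτ1 _) k)
    have := continuous_phase R k
    exact Continuous.continuousOn (by fun_prop)
  exact (hcont.continuousAt (hU.mem_nhds ⟨mem_univ _, by
    show s0 / 2 < s0
    linarith⟩)).continuousWithinAt

/-! ### the four series in normal form -/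

theorem Nk_eq (R s : ℝ) (x : E m) :
    Nk m R s x = (R ^ m)⁻¹ * ∑' k : Fin m → ℤ,
      Real.exp (-(lamK R k * s ^ 2 / 2)) * (lamK R k)⁻¹ * Real.cos (phase R k x) := by
  unfold Nk; congr 1

theorem Nk1_eq (R s : ℝ) (i : Fin m) (x : E m) :
    Nk1 m R s i x = (R ^ m)⁻¹ * ∑' k : Fin m → ℤ,
      Real.exp (-(lamK R k * s ^ 2 / 2)) * (-(2 * Real.pi / R * (k i : ℝ)) * (lamK R k)⁻¹) *
        Real.sin (phase R k x) := by
  unfold Nk1; congr 1; exact tsum_congr fun k => by ring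

theorem Nk2_eq (R s : ℝ) (i : Fin m) (x : E m) :
    Nk2 m R s i x = (R ^ m)⁻¹ * ∑' k : Fin m → ℤ,
      Real.exp (-(lamK R k * s ^ 2 / 2)) * (-(2 * Real.pi / R * (k i : ℝ)) ^ 2 * (lamK R k)⁻¹) *
        Real.cos (phase R k x) := by
  unfold Nk2; congr 1; exact tsum_congr fun k => by ring

theorem theta_eq_series (R s : ℝ) (hR : 0 < R) (hs : 0 < s) (x : E m) :
    theta m R s x = (R ^ m)⁻¹ * ∑' k : Fin m → ℤ,
      Real.exp (-(lamK R k * s ^ 2 / 2)) * 1 * Real.cos (phase R k x) := by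
  rw [theta_eq_fourier R s hR hs]; congr 1; exact tsum_congr fun k => by ring

theorem coef_bounds (R : ℝ) (hR : 0 < R) (k : Fin m → ℤ) :
    |(1 : ℝ)| ≤ (1 + (R / (2 * Real.pi)) ^ 2) * (1 + lamK R k) ∧
    |(lamK R k)⁻¹| ≤ (1 + (R / (2 * Real.pi)) ^ 2) * (1 + lamK R k) ∧
    (∀ i, |-(2 * Real.pi / R * (k i : ℝ)) * (lamK R k)⁻¹|
      ≤ (1 + (R / (2 * Real.pi)) ^ 2) * (1 + lamK R k)) ∧
    (∀ i, |-(2 * Real.pi / R * (k i : ℝ)) ^ 2 * (lamK R k)⁻¹|
      ≤ (1 + (R / (2 * Real.pi)) ^ 2) * (1 + lamK R k)) := by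
  have hL := lamK_nonneg R k
  obtain ⟨h0, h1⟩ := inv_lamK_le R hR k
  set C0 := (R / (2 * Real.pi)) ^ 2 with hC0
  have hC0' : 0 ≤ C0 := by positivity
  refine ⟨?_, ?_, fun i => ?_, fun i => ?_⟩
  · rw [abs_one]; nlinarith
  · rw [abs_of_nonneg h0]; nlinarith
  · have hw := coord_sq_le_lamK R k i
    set w := 2 * Real.pi / R * (k i : ℝ) with hw'
    have hw1 : |w| ≤ 1 + lamK R k := by
      have : |w| ≤ 1 + w ^ 2 := by
        rw [← sq_abs w]; nlinarith [sq_nonneg (|w| - 1), abs_nonneg w]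
      linarith
    rw [abs_mul, abs_neg, abs_of_nonneg h0]
    calc |w| * (lamK R k)⁻¹ ≤ (1 + lamK R k) * C0 :=
          mul_le_mul hw1 h1 h0 (by linarith)
      _ ≤ (1 + C0) * (1 + lamK R k) := by nlinarith
  · have hw := coord_sq_le_lamK R k i
    set w := 2 * Real.pi / R * (k i : ℝ) with hw'
    rw [abs_mul, abs_neg, abs_of_nonneg h0, abs_of_nonneg (sq_nonneg w)]
    calc w ^ 2 * (lamK R k)⁻¹ ≤ (1 + lamK R k) * C0 :=
          mul_le_mul (by linarith) h1 h0 (by linarith)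
      _ ≤ (1 + C0) * (1 + lamK R k) := by nlinarith

/-! ### phases -/

theorem phase_add_lat (R : ℝ) (hR : 0 < R) (k k0 : Fin m → ℤ) (x : E m) :
    phase R k (x + lat m R k0) = phase R k x + ((∑ i, k i * k0 i : ℤ) : ℝ) * (2 * Real.pi) := by
  unfold phase
  have : ∀ i, (k i : ℝ) * (x + lat m R k0) i = (k i : ℝ) * x i + R * ((k i : ℝ) * (k0 i : ℝ)) := by
    intro i
    rw [PiLp.add_apply, lat_apply]; ring
  rw [Finset.sum_congr rfl (fun i _ => this i), Finset.sum_add_distrib, ← Finset.mul_sum]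
  push_cast
  field_simp

theorem phase_neg (R : ℝ) (k : Fin m → ℤ) (x : E m) : phase R k (-x) = -phase R k x := by
  unfold phase
  simp [Finset.sum_neg_distrib]

theorem phase_zero_index (R : ℝ) (x : E m) : phase R (0 : Fin m → ℤ) x = 0 := by
  simp [phase]

theorem phase_add_smul_eb (R : ℝ) (k : Fin m → ℤ) (x : E m) (t : ℝ) (i : Fin m) :
    phase R k (x + t • eb i) = phase R k x + t * (2 * Real.pi / R * (k i : ℝ)) := by
  unfold phase eb
  have : ∀ j, (k j : ℝ) * (x + t • EuclideanSpace.single i (1 : ℝ)) j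
      = (k j : ℝ) * x j + (if j = i then (k j : ℝ) * t else 0) := by
    intro j
    rw [PiLp.add_apply, PiLp.smul_apply, PiLp.single_apply]
    split_ifs <;> simp [mul_add]
  rw [Finset.sum_congr rfl (fun j _ => this j), Finset.sum_add_distrib, Finset.sum_ite_eq' ]
  simp only [Finset.mem_univ, if_true]
  ring

theorem lat_add (R : ℝ) (k k' : Fin m → ℤ) : lat m R (k + k') = lat m R k + lat m R k' := by
  ext i
  rw [PiLp.add_apply, lat_apply, lat_apply, lat_apply, Pi.add_apply]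
  push_cast; ring

theorem lat_neg (R : ℝ) (k : Fin m → ℤ) : lat m R (-k) = -lat m R k := by
  ext i
  rw [PiLp.neg_apply, lat_apply, lat_apply, Pi.neg_apply]
  push_cast; ring

/-! ### leaves K3, K4, K5 -/

theorem gauss_pos (s : ℝ) (hs : 0 < s) (z : E m) : 0 < gauss m s z := by
  unfold gauss
  positivity

theorem gauss_neg (s : ℝ) (z : E m) : gauss m s (-z) = gauss m s z := by
  unfold gauss
  rw [norm_neg]

/-- [leaf K3] elementary properties of `theta` -/
theorem theta_facts (R : ℝ) (hR : 0 < R) :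
    (∀ s, 0 < s → ∀ x : E m, 0 < theta m R s x) ∧
    (∀ s (x : E m) (k : Fin m → ℤ), theta m R s (x + lat m R k) = theta m R s x) ∧
    (∀ s (x : E m), theta m R s (-x) = theta m R s x) ∧
    ContinuousOn (fun p : E m × ℝ => theta m R p.2 p.1) (univ ×ˢ Ioi 0) := by
  refine ⟨fun s hs x => ?_, fun s x k0 => ?_, fun s x => ?_, ?_⟩
  · exact (summable_gauss R s hR hs x).tsum_pos (fun k => (gauss_pos s hs _).le) 0 (gauss_pos s hs _)
  · unfold theta
    rw [← (Equiv.addLeft k0).tsum_eq (fun k => gauss m s (x + lat m R k))]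
    refine tsum_congr fun k => ?_
    rw [Equiv.coe_addLeft, lat_add, add_assoc]
  · unfold theta
    rw [← (Equiv.neg (Fin m → ℤ)).tsum_eq (fun k => gauss m s (x + lat m R k))]
    refine tsum_congr fun k => ?_
    rw [Equiv.neg_apply, lat_neg, ← gauss_neg, neg_add, neg_neg]
  · have h := (series_continuousOn (m := m) R hR (fun _ => 1) _ (fun k => (coef_bounds R hR k).1)
      Real.cos Real.continuous_cos Real.abs_cos_le_one).const_smul ((R ^ m)⁻¹)
    refine h.congr fun p hp => ?_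
    exact theta_eq_series R p.2 hR hp.2 p.1

/-- [leaf K4] elementary properties of `Nk` -/
theorem Nk_facts (R : ℝ) (hR : 0 < R) :
    (∀ s (x : E m) (k : Fin m → ℤ), Nk m R s (x + lat m R k) = Nk m R s x) ∧
    (∀ s (x : E m), Nk m R s (-x) = Nk m R s x) ∧
    ContinuousOn (fun p : E m × ℝ => Nk m R p.2 p.1) (univ ×ˢ Ioi 0) ∧
    (∀ i : Fin m, ContinuousOn (fun p : E m × ℝ => Nk1 m R p.2 i p.1) (univ ×ˢ Ioi 0)) ∧
    (∀ i : Fin m, ContinuousOn (fun p : E m × ℝ => Nk2 m R p.2 i p.1) (univ ×ˢ Ioi 0)) := by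
  refine ⟨fun s x k0 => ?_, fun s x => ?_, ?_, fun i => ?_, fun i => ?_⟩
  · unfold Nk
    congr 1
    refine tsum_congr fun k => ?_
    rw [phase_add_lat R hR, Real.cos_add_int_mul_two_pi]
  · unfold Nk
    congr 1
    refine tsum_congr fun k => ?_
    rw [phase_neg, Real.cos_neg]
  · have h := (series_continuousOn (m := m) R hR (fun k => (lamK R k)⁻¹) _
      (fun k => (coef_bounds R hR k).2.1)
      Real.cos Real.continuous_cos Real.abs_cos_le_one).const_smul ((R ^ m)⁻¹)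
    refine h.congr fun p _ => ?_
    exact Nk_eq R p.2 p.1
  · have h := (series_continuousOn (m := m) R hR
      (fun k => -(2 * Real.pi / R * (k i : ℝ)) * (lamK R k)⁻¹) _
      (fun k => (coef_bounds R hR k).2.2.1 i)
      Real.sin Real.continuous_sin Real.abs_sin_le_one).const_smul ((R ^ m)⁻¹)
    refine h.congr fun p _ => ?_
    exact Nk1_eq R p.2 i p.1
  · have h := (series_continuousOn (m := m) R hR
      (fun k => -(2 * Real.pi / R * (k i : ℝ)) ^ 2 * (lamK R k)⁻¹) _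
      (fun k => (coef_bounds R hR k).2.2.2 i)
      Real.cos Real.continuous_cos Real.abs_cos_le_one).const_smul ((R ^ m)⁻¹)
    refine h.congr fun p _ => ?_
    exact Nk2_eq R p.2 i p.1

/-- [leaf K5] uniform bounds for `s ≥ a` -/
theorem Nk_bounds (R a : ℝ) (hR : 0 < R) (ha : 0 < a) :
    ∃ C : ℝ, ∀ s, a ≤ s → ∀ x : E m,
      |Nk m R s x| ≤ C ∧ |theta m R s x| ≤ C ∧
      (∀ i, |Nk1 m R s i x| ≤ C) ∧ (∀ i, |Nk2 m R s i x| ≤ C) := by
  refine ⟨(R ^ m)⁻¹ * ((1 + (R / (2 * Real.pi)) ^ 2) *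
    ∑' k : Fin m → ℤ, (1 + lamK R k) ^ 1 * Real.exp (-(lamK R k * a ^ 2 / 2))), fun s hs x => ?_⟩
  have hRm : (0 : ℝ) ≤ (R ^ m)⁻¹ := by positivity
  have hs0 : 0 < s := lt_of_lt_of_le ha hs
  refine ⟨?_, ?_, fun i => ?_, fun i => ?_⟩
  · rw [Nk_eq, abs_mul, abs_of_nonneg hRm]
    exact mul_le_mul_of_nonneg_left (series_abs_le R hR _ _ (fun k => (coef_bounds R hR k).2.1) a s
      ha hs _ (fun k => Real.abs_cos_le_one _)) hRm
  · rw [theta_eq_series R s hR hs0, abs_mul, abs_of_nonneg hRm]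
    exact mul_le_mul_of_nonneg_left (series_abs_le R hR _ _ (fun k => (coef_bounds R hR k).1) a s
      ha hs _ (fun k => Real.abs_cos_le_one _)) hRm
  · rw [Nk1_eq, abs_mul, abs_of_nonneg hRm]
    exact mul_le_mul_of_nonneg_left (series_abs_le R hR _ _ (fun k => (coef_bounds R hR k).2.2.1 i)
      a s ha hs _ (fun k => Real.abs_sin_le_one _)) hRm
  · rw [Nk2_eq, abs_mul, abs_of_nonneg hRm]
    exact mul_le_mul_of_nonneg_left (series_abs_le R hR _ _ (fun k => (coef_bounds R hR k).2.2.2 i)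
      a s ha hs _ (fun k => Real.abs_cos_le_one _)) hRm

/-! ### leaves K6, K7, K8 -/

theorem coef_unit_bound (R : ℝ) (k : Fin m → ℤ) :
    |lamK R k * (lamK R k)⁻¹| ≤ 1 * (1 + lamK R k) := by
  have hL := lamK_nonneg R k
  by_cases h : lamK R k = 0
  · rw [h]; simp
  · rw [mul_inv_cancel₀ h, abs_one]; linarith

/-- the Fourier series of `θ` without its constant term. -/
theorem series_nonzero (R s : ℝ) (hR : 0 < R) (hs : 0 < s) (x : E m) :
    (R ^ m)⁻¹ * ∑' k : Fin m → ℤ,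
      Real.exp (-(lamK R k * s ^ 2 / 2)) * (lamK R k * (lamK R k)⁻¹) * Real.cos (phase R k x)
      = theta m R s x - (R ^ m)⁻¹ := by
  have hsum : Summable fun k : Fin m → ℤ =>
      Real.exp (-(lamK R k * s ^ 2 / 2)) * 1 * Real.cos (phase R k x) :=
    series_summable R hR (fun _ => 1) _ (fun k => (coef_bounds R hR k).1) s hs _
      (fun k => Real.abs_cos_le_one _)
  have h0 : Real.exp (-(lamK R (0 : Fin m → ℤ) * s ^ 2 / 2)) * 1 * Real.cos (phase R 0 x) = 1 := by
    rw [lamK_zero, phase_zero_index]; simp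
  rw [theta_eq_series R s hR hs, hsum.tsum_eq_add_tsum_ite 0, h0, mul_add, mul_one,
    add_sub_cancel_left]
  congr 1
  refine tsum_congr fun k => ?_
  split_ifs with hk
  · rw [hk, lamK_zero]; simp
  · rw [mul_inv_cancel₀ (lamK_pos R hR k hk).ne']

/-- [leaf K6] derivative in the scale: `∂_s N_s = - s (θ_s - R^{-m})` -/
theorem hasDerivAt_Nk_scale (R s : ℝ) (hR : 0 < R) (hs : 0 < s) (x : E m) :
    HasDerivAt (fun v => Nk m R v x) (-(s * (theta m R s x - (R ^ m)⁻¹))) s := by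
  have hder : HasDerivAt (fun v => ∑' k : Fin m → ℤ,
        Real.exp (-(lamK R k * v ^ 2 / 2)) * (lamK R k)⁻¹ * Real.cos (phase R k x))
      (∑' k : Fin m → ℤ, -s * (Real.exp (-(lamK R k * s ^ 2 / 2)) * (lamK R k * (lamK R k)⁻¹) *
        Real.cos (phase R k x))) s := by
    refine hasDerivAt_tsum_of_isPreconnected
      (u := fun k : Fin m → ℤ => (2 * s) *
        (1 * ((1 + lamK R k) ^ 1 * Real.exp (-(lamK R k * (s / 2) ^ 2 / 2)))))
      (g := fun (k : Fin m → ℤ) v =>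
        Real.exp (-(lamK R k * v ^ 2 / 2)) * (lamK R k)⁻¹ * Real.cos (phase R k x))
      (g' := fun (k : Fin m → ℤ) v => -v * (Real.exp (-(lamK R k * v ^ 2 / 2)) *
        (lamK R k * (lamK R k)⁻¹) * Real.cos (phase R k x)))
      (t := Ioo (s / 2) (2 * s)) ?_ isOpen_Ioo isPreconnected_Ioo ?_ ?_ (y₀ := s)
      ⟨by linarith, by linarith⟩ ?_ ⟨by linarith, by linarith⟩
    · exact ((summable_weights R (s / 2) hR (by positivity) 1).mul_left 1).mul_left (2 * s)
    · intro k v _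
      have h1 : HasDerivAt (fun v : ℝ => -(lamK R k * v ^ 2 / 2)) (-(lamK R k * v)) v := by
        have := (((hasDerivAt_pow 2 v).const_mul (lamK R k)).div_const 2).neg
        refine this.congr_deriv ?_
        have e21 : (2 - 1 : ℕ) = 1 := rfl
        rw [e21]; push_cast; ring
      have h2 := (h1.exp.mul_const (lamK R k)⁻¹).mul_const (Real.cos (phase R k x))
      refine h2.congr_deriv ?_
      ring
    · intro k v hv
      have hv0 : 0 < v := lt_trans (by positivity) hv.1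
      rw [norm_mul, Real.norm_eq_abs, abs_neg, abs_of_pos hv0]
      exact mul_le_mul hv.2.le (term_bound R _ 1 (coef_unit_bound R) (s / 2) v _ (by positivity)
        hv.1.le (Real.abs_cos_le_one _) k) (norm_nonneg _) (by positivity)
    · exact series_summable R hR _ _ (fun k => (coef_bounds R hR k).2.1) s hs _
        (fun k => Real.abs_cos_le_one _)
  have h2 := hder.const_mul ((R ^ m)⁻¹)
  rw [tsum_mul_left] at h2
  have e : (R ^ m)⁻¹ * (-s * ∑' k : Fin m → ℤ, Real.exp (-(lamK R k * s ^ 2 / 2)) *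
      (lamK R k * (lamK R k)⁻¹) * Real.cos (phase R k x))
      = -(s * (theta m R s x - (R ^ m)⁻¹)) := by
    rw [← series_nonzero R s hR hs x]; ring
  rw [e] at h2
  exact h2.congr_of_eventuallyEq (Filter.Eventually.of_forall fun v => Nk_eq R v x)

theorem series_hasDerivAt_space (R s : ℝ) (hR : 0 < R) (hs : 0 < s) (c : (Fin m → ℤ) → ℝ) (C : ℝ)
    (i : Fin m) (hc : ∀ k, |c k| ≤ C * (1 + lamK R k))
    (hc' : ∀ k, |c k * (2 * Real.pi / R * (k i : ℝ))| ≤ C * (1 + lamK R k))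
    (τ τ' : ℝ → ℝ) (hτ : ∀ u, HasDerivAt τ (τ' u) u) (hτ1 : ∀ u, |τ u| ≤ 1)
    (hτ1' : ∀ u, |τ' u| ≤ 1) (x : E m) :
    HasDerivAt (fun t : ℝ => ∑' k : Fin m → ℤ,
        Real.exp (-(lamK R k * s ^ 2 / 2)) * c k * τ (phase R k (x + t • eb i)))
      (∑' k : Fin m → ℤ, Real.exp (-(lamK R k * s ^ 2 / 2)) *
        (c k * (2 * Real.pi / R * (k i : ℝ))) * τ' (phase R k x)) 0 := by
  have h := hasDerivAt_tsum
    (u := fun k : Fin m → ℤ => C * ((1 + lamK R k) ^ 1 * Real.exp (-(lamK R k * s ^ 2 / 2))))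
    (g := fun (k : Fin m → ℤ) (t : ℝ) =>
      Real.exp (-(lamK R k * s ^ 2 / 2)) * c k * τ (phase R k (x + t • eb i)))
    (g' := fun (k : Fin m → ℤ) (t : ℝ) => Real.exp (-(lamK R k * s ^ 2 / 2)) *
        (c k * (2 * Real.pi / R * (k i : ℝ))) * τ' (phase R k (x + t • eb i)))
    ((summable_weights R s hR hs 1).mul_left C) ?_ ?_ (y₀ := 0) ?_ 0
  · simpa using h
  · intro k t
    have h1 : HasDerivAt (fun t : ℝ => phase R k (x + t • eb i)) (2 * Real.pi / R * (k i : ℝ)) t := by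
      have := ((hasDerivAt_id t).mul_const (2 * Real.pi / R * (k i : ℝ))).const_add (phase R k x)
      simp only [one_mul, id] at this
      exact this.congr_of_eventuallyEq
        (Filter.Eventually.of_forall fun t => phase_add_smul_eb R k x t i)
    have h2 := ((hτ _).comp t h1).const_mul (Real.exp (-(lamK R k * s ^ 2 / 2)) * c k)
    refine h2.congr_deriv ?_
    ring
  · intro k t
    exact term_bound R _ C hc' s s _ hs.le le_rfl (hτ1' _) k
  · exact series_summable R hR c C hc s hs _ (fun k => hτ1 _)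

/-- [leaf K7] first and second derivatives along the coordinate lines -/
theorem hasDerivAt_Nk_space (R s : ℝ) (hR : 0 < R) (hs : 0 < s) (x : E m) (i : Fin m) :
    HasDerivAt (fun t : ℝ => Nk m R s (x + t • eb i)) (Nk1 m R s i x) 0 ∧
    HasDerivAt (fun t : ℝ => Nk1 m R s i (x + t • eb i)) (Nk2 m R s i x) 0 := by
  constructor
  · have h := (series_hasDerivAt_space R s hR hs (fun k => (lamK R k)⁻¹) _ i
      (fun k => (coef_bounds R hR k).2.1)
      (fun k => by
        have := (coef_bounds R hR k).2.2.1 i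
        rwa [neg_mul, abs_neg, mul_comm] at this)
      Real.cos (fun u => -Real.sin u) Real.hasDerivAt_cos Real.abs_cos_le_one
      (fun u => by rw [abs_neg]; exact Real.abs_sin_le_one u) x).const_mul ((R ^ m)⁻¹)
    have e : (R ^ m)⁻¹ * ∑' k : Fin m → ℤ, Real.exp (-(lamK R k * s ^ 2 / 2)) *
        ((lamK R k)⁻¹ * (2 * Real.pi / R * (k i : ℝ))) * -Real.sin (phase R k x)
        = Nk1 m R s i x := by
      rw [Nk1_eq]; congr 1; exact tsum_congr fun k => by ring
    rw [e] at h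
    exact h.congr_of_eventuallyEq (Filter.Eventually.of_forall fun t => Nk_eq R s _)
  · have h := (series_hasDerivAt_space R s hR hs
      (fun k => -(2 * Real.pi / R * (k i : ℝ)) * (lamK R k)⁻¹) _ i
      (fun k => (coef_bounds R hR k).2.2.1 i)
      (fun k => by
        have := (coef_bounds R hR k).2.2.2 i
        have e : -(2 * Real.pi / R * (k i : ℝ)) * (lamK R k)⁻¹ * (2 * Real.pi / R * (k i : ℝ))
            = -(2 * Real.pi / R * (k i : ℝ)) ^ 2 * (lamK R k)⁻¹ := by ring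
        rwa [e])
      Real.sin Real.cos Real.hasDerivAt_sin Real.abs_sin_le_one Real.abs_cos_le_one x).const_mul
        ((R ^ m)⁻¹)
    have e : (R ^ m)⁻¹ * ∑' k : Fin m → ℤ, Real.exp (-(lamK R k * s ^ 2 / 2)) *
        (-(2 * Real.pi / R * (k i : ℝ)) * (lamK R k)⁻¹ * (2 * Real.pi / R * (k i : ℝ))) *
          Real.cos (phase R k x)
        = Nk2 m R s i x := by
      rw [Nk2_eq]; congr 1; exact tsum_congr fun k => by ring
    rw [e] at h
    exact h.congr_of_eventuallyEq (Filter.Eventually.of_forall fun t => Nk1_eq R s i _)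

/-- [leaf K8] `Δ N_s = - (θ_s - R^{-m})` -/
theorem laplace_Nk (R s : ℝ) (hR : 0 < R) (hs : 0 < s) (x : E m) :
    ∑ i, Nk2 m R s i x = -(theta m R s x - (R ^ m)⁻¹) := by
  rw [← series_nonzero R s hR hs x, Finset.sum_congr rfl (fun i _ => Nk2_eq R s i x),
    ← Finset.mul_sum, ← Summable.tsum_finsetSum (fun i _ =>
      series_summable R hR _ _ (fun k => (coef_bounds R hR k).2.2.2 i) s hs _
        (fun k => Real.abs_cos_le_one _)), ← mul_neg, ← tsum_neg]
  congr 1
  refine tsum_congr fun k => ?_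
  rw [← Finset.sum_mul, ← Finset.mul_sum, ← Finset.sum_mul, Finset.sum_neg_distrib,
    ← lamK_eq_sum]
  ring

end Claimed.Agent.R322.Sx.Contact
end

/- ===== packed: Claimed.Agent.R322.Sx.Contact.MaxPr ===== -/
section
/-!
# AE Lemma 4.1, second half: parabolic maximum principle on a continuation set
-/

set_option autoImplicit false

namespace Claimed.Agent.R322.Sx.Contact

open MeasureTheory Set Metric

variable {m : ℕ}

/-- [leaf M1] second derivative test on a line -/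
theorem second_deriv_nonpos_of_isLocalMax (φ φ' : ℝ → ℝ) (c : ℝ)
    (h1 : ∀ᶠ t in nhds (0 : ℝ), HasDerivAt φ (φ' t) t) (h2 : HasDerivAt φ' c 0)
    (hmax : IsLocalMax φ 0) : c ≤ 0 := by
  by_contra hc
  push Not at hc
  have hd : deriv φ =ᶠ[nhds 0] φ' := h1.mono fun t ht => ht.deriv
  have hdd : deriv (deriv φ) 0 = c := by
    rw [hd.deriv_eq]
    exact h2.deriv
  have h0 : HasDerivAt φ (φ' 0) 0 := h1.self_of_nhds
  have hd0 : deriv φ 0 = 0 := hmax.deriv_eq_zero
  have hmin : IsLocalMin φ 0 :=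
    isLocalMin_of_deriv_deriv_pos (by rw [hdd]; exact hc) hd0 h0.continuousAt
  have hconst : φ =ᶠ[nhds 0] fun _ => φ 0 :=
    (hmax.and hmin).mono fun t ht => le_antisymm ht.1 ht.2
  have hd2 : deriv φ =ᶠ[nhds 0] fun _ => 0 := by
    have := hconst.deriv
    simpa using this
  have : deriv (deriv φ) 0 = 0 := by
    rw [hd2.deriv_eq]
    simp
  rw [hdd] at this
  linarith

theorem mxp_lat_apply (R : ℝ) (k : Fin m → ℤ) (i : Fin m) : (lat m R k) i = R * (k i : ℝ) := by
  simp [lat]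

theorem mxp_lat_neg (R : ℝ) (k : Fin m → ℤ) : lat m R (-k) = -lat m R k := by
  ext i
  simp [lat]

theorem mxp_exists_cube (R : ℝ) (hR : 0 < R) (x : E m) :
    ∃ k : Fin m → ℤ, x + lat m R k ∈ cube m R := by
  refine ⟨fun i => -round (x i / R), fun i => ?_⟩
  have h1 : (x + lat m R fun i => -round (x i / R)) i = R * (x i / R - round (x i / R)) := by
    rw [PiLp.add_apply, mxp_lat_apply]
    push_cast
    field_simp
    ring
  rw [h1, abs_mul, abs_of_pos hR]
  have := abs_sub_round (x i / R)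
  nlinarith

theorem mxp_isCompact_cube (R : ℝ) : IsCompact (cube m R) := by
  refine Metric.isCompact_of_isClosed_isBounded ?_ ?_
  · have : cube m R = ⋂ i : Fin m, {x : E m | |x i| ≤ R / 2} := by
      ext x
      simp [cube]
    rw [this]
    refine isClosed_iInter fun i => isClosed_le ?_ continuous_const
    exact (EuclideanSpace.proj i).continuous.abs
  · refine (Metric.isBounded_closedBall (x := (0 : E m)) (r := Real.sqrt (∑ _i : Fin m, (R / 2) ^ 2))).subset ?_
    intro x hx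
    rw [mem_closedBall_zero_iff, EuclideanSpace.norm_eq]
    refine Real.sqrt_le_sqrt (Finset.sum_le_sum fun i _ => ?_)
    rw [Real.norm_eq_abs]
    exact pow_le_pow_left₀ (abs_nonneg _) (hx i) 2

theorem mxp_zero_mem_cube (R : ℝ) (hR : 0 < R) : (0 : E m) ∈ cube m R := by
  intro i
  simp only [PiLp.zero_apply, abs_zero]
  positivity

/-- [leaf M2] the entrance boundary is closed, periodic, contained in `a ≤ s ≤ stop`, and its part
over the closed cube is compact and nonempty. -/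
theorem entr_facts (R a stop : ℝ) (hR : 0 < R) (ha : 0 < a) (hst : a < stop) (𝒟 : Set (E m × ℝ))
    (h𝒟 : IsCont R a stop 𝒟) :
    IsClosed (entr 𝒟) ∧ (∀ z ∈ entr 𝒟, a ≤ z.2 ∧ z.2 ≤ stop) ∧
    (∀ (k : Fin m → ℤ) (z : E m × ℝ), z ∈ entr 𝒟 → (z.1 + lat m R k, z.2) ∈ entr 𝒟) ∧
    (∀ z ∈ entr 𝒟, ∃ k : Fin m → ℤ, z.1 + lat m R k ∈ cube m R) ∧
    IsCompact (entr 𝒟 ∩ cube m R ×ˢ Icc a stop) ∧ (entr 𝒟 ∩ cube m R ×ˢ Icc a stop).Nonempty := by
  have hcl : IsClosed (entr 𝒟) := h𝒟.closed.sdiff isOpen_interior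
  have hrange : ∀ z ∈ entr 𝒟, a ≤ z.2 ∧ z.2 ≤ stop := by
    intro z hz
    refine ⟨h𝒟.bot z.1 z.2 hz.1, ?_⟩
    by_contra hcon
    push Not at hcon
    apply hz.2
    have hopen : IsOpen {p : E m × ℝ | stop < p.2} := isOpen_lt continuous_const continuous_snd
    exact interior_maximal (fun p hp => h𝒟.top p.1 p.2 (le_of_lt hp)) hopen hcon
  refine ⟨hcl, hrange, ?_, fun z _ => mxp_exists_cube R hR z.1, ?_, ?_⟩
  · intro k z hz
    refine ⟨h𝒟.per k z.1 z.2 hz.1, fun hint => hz.2 ?_⟩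
    have hc : Continuous fun p : E m × ℝ => (p.1 + lat m R k, p.2) := by fun_prop
    have hopen : IsOpen ((fun p : E m × ℝ => (p.1 + lat m R k, p.2)) ⁻¹' interior 𝒟) :=
      isOpen_interior.preimage hc
    refine interior_maximal ?_ hopen hint
    intro p hp
    have h1 : (p.1 + lat m R k, p.2) ∈ 𝒟 := interior_subset hp
    have h2 := h𝒟.per (-k) _ _ h1
    rw [mxp_lat_neg, add_neg_cancel_right] at h2
    exact h2
  · exact ((mxp_isCompact_cube R).prod isCompact_Icc).inter_left hcl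
  · set A : Set ℝ := {s | ((0 : E m), s) ∈ 𝒟} with hA
    have hAcl : IsClosed A := h𝒟.closed.preimage (by fun_prop)
    have hAne : A.Nonempty := ⟨stop, h𝒟.top 0 stop le_rfl⟩
    have hAbdd : BddBelow A := ⟨a, fun s hs => h𝒟.bot 0 s hs⟩
    have hmem : sInf A ∈ A := hAcl.csInf_mem hAne hAbdd
    have hent : ((0 : E m), sInf A) ∈ entr 𝒟 := by
      refine ⟨hmem, fun hint => ?_⟩
      have hnhds : 𝒟 ∈ nhds ((0 : E m), sInf A) := mem_interior_iff_mem_nhds.1 hint
      have hc : ContinuousAt (fun s : ℝ => ((0 : E m), s)) (sInf A) := by fun_prop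
      have hev : ∀ᶠ s in nhds (sInf A), ((0 : E m), s) ∈ 𝒟 := hc hnhds
      obtain ⟨s, hs1, hs2⟩ := ((hev.filter_mono nhdsWithin_le_nhds).and
        (self_mem_nhdsWithin (s := Iio (sInf A)))).exists
      exact absurd (csInf_le hAbdd hs1) (not_le.2 hs2)
    exact ⟨_, hent, mxp_zero_mem_cube R hR, hrange _ hent⟩

/-- sign of the derivative at a left-sided local maximum -/
theorem mxp_deriv_nonneg_of_left_max (g : ℝ → ℝ) (g' s : ℝ) (hg : HasDerivAt g g' s)
    (hmax : ∀ᶠ v in nhdsWithin s (Iio s), g v ≤ g s) : 0 ≤ g' := by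
  have h1 : Filter.Tendsto (slope g s) (nhdsWithin s (Iio s)) (nhds g') :=
    (hasDerivAt_iff_tendsto_slope.1 hg).mono_left
      (nhdsWithin_mono _ fun v hv => ne_of_lt hv)
  refine ge_of_tendsto h1 ?_
  filter_upwards [hmax, self_mem_nhdsWithin] with v hv hvs
  rw [slope_def_field]
  exact div_nonneg_of_nonpos (by linarith) (by
    have : v < s := hvs
    linarith)

/-- **Maximum principle.**  A periodic solution of `∂_s b = s Δ b` (i.e. `∂_t b = Δ b`, `t = s²/2`)
on `s > 0` is bounded on a continuation set by its maximum on the entrance boundary.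
Proof: truncate at `S > max s stop`, maximise `b - ε s²/2` over the compact set
`𝒟 ∩ (cube × [a, S])`; by periodicity the maximum is global in `x`; at a maximum outside `entr 𝒟`
one has `∂_s b ≥ ε s > 0` (two-sided below `S`, one-sided at `S`) and `∂_i² b ≤ 0` (M1). -/
theorem max_principle (R a stop : ℝ) (hR : 0 < R) (ha : 0 < a) (hst : a < stop)
    (𝒟 : Set (E m × ℝ)) (h𝒟 : IsCont R a stop 𝒟)
    (b bs : E m → ℝ → ℝ) (b1 b2 : Fin m → E m → ℝ → ℝ)
    (hcont : ContinuousOn (fun p : E m × ℝ => b p.1 p.2) (univ ×ˢ Ioi 0))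
    (hper : ∀ (k : Fin m → ℤ) x s, b (x + lat m R k) s = b x s)
    (hs : ∀ x s, 0 < s → HasDerivAt (fun v => b x v) (bs x s) s)
    (h1 : ∀ i x s, 0 < s → HasDerivAt (fun t : ℝ => b (x + t • eb i) s) (b1 i x s) 0)
    (h2 : ∀ i x s, 0 < s → HasDerivAt (fun t : ℝ => b1 i (x + t • eb i) s) (b2 i x s) 0)
    (heat : ∀ x s, 0 < s → bs x s = s * ∑ i, b2 i x s) :
    ∀ x s, (x, s) ∈ 𝒟 → ∃ z ∈ entr 𝒟 ∩ cube m R ×ˢ Icc a stop, b x s ≤ b z.1 z.2 := by
  obtain ⟨-, hrange, -, -, hΓc, hΓne⟩ := entr_facts R a stop hR ha hst 𝒟 h𝒟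
  have hsubΓ : entr 𝒟 ∩ cube m R ×ˢ Icc a stop ⊆ univ ×ˢ Ioi (0 : ℝ) := fun z hz =>
    ⟨mem_univ _, lt_of_lt_of_le ha hz.2.2.1⟩
  obtain ⟨z₀, hz₀, hz₀max⟩ := hΓc.exists_isMaxOn hΓne (hcont.mono hsubΓ)
  intro x₀' s₀ hx₀'
  refine ⟨z₀, hz₀, ?_⟩
  by_contra hcon
  push Not at hcon
  -- move the point into the cube
  obtain ⟨k₀, hk₀⟩ := mxp_exists_cube R hR x₀'
  set x₀ : E m := x₀' + lat m R k₀ with hx₀def
  have hx₀ : (x₀, s₀) ∈ 𝒟 := h𝒟.per k₀ x₀' s₀ hx₀'
  have hbx₀ : b x₀ s₀ = b x₀' s₀ := hper k₀ x₀' s₀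
  rw [← hbx₀] at hcon
  have hs₀a : a ≤ s₀ := h𝒟.bot x₀ s₀ hx₀
  have hs₀ : 0 < s₀ := lt_of_lt_of_le ha hs₀a
  set Mx : ℝ := b z₀.1 z₀.2 with hMx
  set ε : ℝ := (b x₀ s₀ - Mx) / s₀ ^ 2 with hε
  have hεpos : 0 < ε := div_pos (by linarith) (by positivity)
  have hεs : ε * s₀ ^ 2 = b x₀ s₀ - Mx := by
    rw [hε]; field_simp
  set f : E m × ℝ → ℝ := fun p => b p.1 p.2 - ε * p.2 ^ 2 / 2 with hf
  set 𝒦 : Set (E m × ℝ) := 𝒟 ∩ cube m R ×ˢ Icc a s₀ with h𝒦
  have h𝒦c : IsCompact 𝒦 := ((mxp_isCompact_cube R).prod isCompact_Icc).inter_left h𝒟.closed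
  have h𝒦sub : 𝒦 ⊆ univ ×ˢ Ioi (0 : ℝ) := fun z hz => ⟨mem_univ _, lt_of_lt_of_le ha hz.2.2.1⟩
  have hfc : ContinuousOn f 𝒦 := by
    refine (hcont.mono h𝒦sub).sub ?_
    fun_prop
  have hx₀𝒦 : (x₀, s₀) ∈ 𝒦 := ⟨hx₀, hk₀, hs₀a, le_rfl⟩
  obtain ⟨p₁, hp₁, hp₁max⟩ := h𝒦c.exists_isMaxOn ⟨_, hx₀𝒦⟩ hfc
  obtain ⟨x₁, s₁⟩ := p₁
  have hs₁a : a ≤ s₁ := hp₁.2.2.1
  have hs₁ : 0 < s₁ := lt_of_lt_of_le ha hs₁a
  have hs₁s₀ : s₁ ≤ s₀ := hp₁.2.2.2
  have hbig : Mx < f (x₁, s₁) := by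
    have h3 : f (x₀, s₀) ≤ f (x₁, s₁) := hp₁max hx₀𝒦
    have h4 : f (x₀, s₀) = b x₀ s₀ - (b x₀ s₀ - Mx) / 2 := by
      simp only [hf]
      rw [hεs]
    linarith
  -- the maximum point is interior
  have hint : (x₁, s₁) ∈ interior 𝒟 := by
    by_contra hnot
    have hent : (x₁, s₁) ∈ entr 𝒟 := ⟨hp₁.1, hnot⟩
    have hΓ : (x₁, s₁) ∈ entr 𝒟 ∩ cube m R ×ˢ Icc a stop := ⟨hent, hp₁.2.1, hrange _ hent⟩
    have h3 : b x₁ s₁ ≤ Mx := hz₀max hΓ
    have h4 : f (x₁, s₁) ≤ b x₁ s₁ := by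
      simp only [hf]
      have : 0 ≤ ε * s₁ ^ 2 / 2 := by positivity
      linarith
    linarith
  have hnhds : 𝒟 ∈ nhds (x₁, s₁) := mem_interior_iff_mem_nhds.1 hint
  -- global maximality
  have hglob : ∀ x s, (x, s) ∈ 𝒟 → s ≤ s₀ → f (x, s) ≤ f (x₁, s₁) := by
    intro x s hxs hss
    obtain ⟨k, hk⟩ := mxp_exists_cube R hR x
    have h3 : (x + lat m R k, s) ∈ 𝒦 := ⟨h𝒟.per k x s hxs, hk, h𝒟.bot x s hxs, hss⟩
    have h4 : f (x + lat m R k, s) ≤ f (x₁, s₁) := hp₁max h3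
    have h5 : f (x + lat m R k, s) = f (x, s) := by
      simp only [hf]
      rw [hper k x s]
    rwa [h5] at h4
  -- second derivatives
  have hb2 : ∀ i, b2 i x₁ s₁ ≤ 0 := by
    intro i
    refine second_deriv_nonpos_of_isLocalMax (fun t => b (x₁ + t • eb i) s₁)
      (fun t => b1 i (x₁ + t • eb i) s₁) _ (Filter.Eventually.of_forall fun t => ?_)
      (h2 i x₁ s₁ hs₁) ?_
    · have h3 := h1 i (x₁ + t • eb i) s₁ hs₁
      have h4 : HasDerivAt (fun u : ℝ => b (x₁ + t • eb i + (u - t) • eb i) s₁)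
          (b1 i (x₁ + t • eb i) s₁) t := by
        have h5 : HasDerivAt (fun τ : ℝ => b (x₁ + t • eb i + τ • eb i) s₁)
            (b1 i (x₁ + t • eb i) s₁) (t - t) := by rw [sub_self]; exact h3
        exact h5.comp_sub_const t t
      have h6 : (fun u : ℝ => b (x₁ + t • eb i + (u - t) • eb i) s₁)
          = fun u : ℝ => b (x₁ + u • eb i) s₁ := by
        funext u
        congr 1
        rw [sub_smul]
        abel
      rwa [h6] at h4
    · have hc : ContinuousAt (fun t : ℝ => (x₁ + t • eb i, s₁)) 0 := by fun_prop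
      have hev : ∀ᶠ t in nhds (0 : ℝ), (x₁ + t • eb i, s₁) ∈ 𝒟 := by
        apply hc
        simpa using hnhds
      refine hev.mono fun t ht => ?_
      have h3 := hglob _ _ ht hs₁s₀
      simp only [hf] at h3
      simp only [zero_smul, add_zero]
      linarith
  have hbs_le : bs x₁ s₁ ≤ 0 := by
    rw [heat x₁ s₁ hs₁]
    exact mul_nonpos_of_nonneg_of_nonpos hs₁.le (Finset.sum_nonpos fun i _ => hb2 i)
  -- the time derivative
  have hg : HasDerivAt (fun v : ℝ => b x₁ v - ε * v ^ 2 / 2) (bs x₁ s₁ - ε * s₁) s₁ := by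
    have h3 : HasDerivAt (fun v : ℝ => ε * v ^ 2 / 2) (ε * s₁) s₁ := by
      have h := ((hasDerivAt_id s₁).mul (hasDerivAt_id s₁)).const_mul (ε / 2)
      have e1 : (fun v : ℝ => ε * v ^ 2 / 2) = fun v => ε / 2 * (id v * id v) := by
        funext v
        simp only [id]
        ring
      have e2 : ε * s₁ = ε / 2 * (1 * id s₁ + id s₁ * 1) := by
        simp only [id]
        ring
      rw [e1, e2]
      exact h
    exact (hs x₁ s₁ hs₁).sub h3
  have hge : 0 ≤ bs x₁ s₁ - ε * s₁ := by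
    refine mxp_deriv_nonneg_of_left_max _ _ _ hg ?_
    have hc : ContinuousAt (fun v : ℝ => (x₁, v)) s₁ := by fun_prop
    have hev : ∀ᶠ v in nhds s₁, (x₁, v) ∈ 𝒟 := hc hnhds
    filter_upwards [hev.filter_mono nhdsWithin_le_nhds, self_mem_nhdsWithin] with v hv hvs
    have hvs' : v < s₁ := hvs
    exact hglob x₁ v hv (by linarith)
  have : 0 < ε * s₁ := by positivity
  linarith

end Claimed.Agent.R322.Sx.Contact
end

/- ===== packed: Claimed.Agent.R322.Sx.Contact.LocDom ===== -/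
section
/-!
# AE Lemma 4.2, part 3: periodisation of a Euclidean continuation set

`perD p a x0 D₀` = all `(x, s)`, `s ≥ a`, such that every lattice translate of `x` which lies in the OPEN
cube centred at `x0` belongs to `D₀` at scale `s`.  It is an intersection of closed sets (no local finiteness
argument), periodic, upward closed, and coincides with `D₀` over the open cube.
Blueprint: helper43.
-/

set_option autoImplicit false

namespace Claimed.Agent.R322.Sx.Contact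

open MeasureTheory Set Metric

variable {m : ℕ}

/-- periodisation of `D₀` from the open cube centred at `x0` -/
def perD (p a : ℝ) (x0 : E m) (D₀ : Set (E m × ℝ)) : Set (E m × ℝ) :=
  {z | a ≤ z.2 ∧ ∀ k : Fin m → ℤ, (∀ i, |(z.1 + lat m p k - x0) i| < p / 2) →
    (z.1 + lat m p k, z.2) ∈ D₀}

theorem dom_lat_add (p : ℝ) (k k' : Fin m → ℤ) : lat m p (k + k') = lat m p k + lat m p k' := by
  ext i
  simp [lat, mul_add]

/-- the open cube (in the product) is open -/
theorem dom_isOpen_cube (p : ℝ) (u : E m) :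
    IsOpen {z : E m × ℝ | ∀ i, |(z.1 + u) i| < p / 2} := by
  have : {z : E m × ℝ | ∀ i, |(z.1 + u) i| < p / 2}
      = ⋂ i : Fin m, {z : E m × ℝ | |(z.1 + u) i| < p / 2} := by
    ext z
    simp
  rw [this]
  refine isOpen_iInter_of_finite fun i => isOpen_lt ?_ continuous_const
  have h1 : Continuous fun z : E m × ℝ => z.1 + u := by fun_prop
  exact ((EuclideanSpace.proj i).continuous.comp h1).abs

/-- [LD1] -/
theorem perD_isCont (p a stop : ℝ) (hst : a < stop) (x0 : E m) (D₀ : Set (E m × ℝ))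
    (hcl : IsClosed D₀) (hup : ∀ (x : E m) (s v : ℝ), (x, s) ∈ D₀ → s ≤ v → (x, v) ∈ D₀)
    (htop : ∀ (x : E m) (s : ℝ), stop ≤ s → (x, s) ∈ D₀) :
    IsCont p a stop (perD p a x0 D₀) := by
  refine ⟨?_, ?_, ?_, ?_, ?_⟩
  · have h : perD p a x0 D₀ = {z : E m × ℝ | a ≤ z.2} ∩ ⋂ k : Fin m → ℤ,
        ({z : E m × ℝ | ∀ i, |(z.1 + (lat m p k - x0)) i| < p / 2}ᶜ ∪
          (fun z : E m × ℝ => (z.1 + lat m p k, z.2)) ⁻¹' D₀) := by
      ext z
      simp only [perD, mem_ofPred_eq, mem_inter_iff, mem_iInter, mem_union, mem_compl_iff,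
        mem_preimage, add_sub_assoc]
      refine and_congr_right fun _ => forall_congr' fun k => ?_
      exact imp_iff_not_or
    rw [h]
    refine (isClosed_le continuous_const continuous_snd).inter (isClosed_iInter fun k => ?_)
    exact (dom_isOpen_cube p _).isClosed_compl.union (hcl.preimage (by fun_prop))
  · intro k x s hx
    refine ⟨hx.1, fun k' hk' => ?_⟩
    have e : x + lat m p k + lat m p k' = x + lat m p (k + k') := by
      rw [dom_lat_add, add_assoc]
    simp only [e] at hk' ⊢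
    exact hx.2 (k + k') hk'
  · intro x s v hx hsv
    exact ⟨hx.1.trans hsv, fun k hk => hup _ _ _ (hx.2 k hk) hsv⟩
  · intro x s hx
    exact hx.1
  · intro x s hs
    exact ⟨hst.le.trans hs, fun k _ => htop _ _ hs⟩

theorem dom_lat_zero (p : ℝ) : lat m p 0 = 0 := by
  ext i
  simp [lat]

/-- [LD2] over the open cube nothing changes (`|p k_i| < p` forces `k = 0`) -/
theorem mem_perD_iff (p a : ℝ) (hp : 0 < p) (x0 : E m) (D₀ : Set (E m × ℝ))
    (habove : ∀ z ∈ D₀, a ≤ z.2) (z : E m × ℝ) (hz : ∀ i, |(z.1 - x0) i| < p / 2) :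
    z ∈ perD p a x0 D₀ ↔ z ∈ D₀ := by
  constructor
  · intro h
    have h1 := h.2 0 (by simpa [dom_lat_zero] using hz)
    simpa [dom_lat_zero] using h1
  · intro h
    refine ⟨habove z h, fun k hk => ?_⟩
    have hk0 : k = 0 := by
      funext i
      have h1 := hz i
      have h2 := hk i
      have e : (z.1 + lat m p k - x0) i = (z.1 - x0) i + p * (k i : ℝ) := by
        simp [lat]
        ring
      rw [e] at h2
      rw [abs_lt] at h1 h2
      have h3 : (k i : ℝ) < 1 := by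
        by_contra hcon
        push Not at hcon
        nlinarith [h1.1, h2.2]
      have h4 : (-1 : ℝ) < (k i : ℝ) := by
        by_contra hcon
        push Not at hcon
        nlinarith [h1.2, h2.1]
      have h5 : k i < 1 := by exact_mod_cast h3
      have h6 : -1 < k i := by exact_mod_cast h4
      simp only [Pi.zero_apply]
      omega
    rw [hk0, dom_lat_zero, add_zero]
    exact h

/-- [LD2] -/
theorem mem_entr_perD_iff (p a : ℝ) (hp : 0 < p) (x0 : E m) (D₀ : Set (E m × ℝ))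
    (habove : ∀ z ∈ D₀, a ≤ z.2) (z : E m × ℝ) (hz : ∀ i, |(z.1 - x0) i| < p / 2) :
    z ∈ entr (perD p a x0 D₀) ↔ z ∈ entr D₀ := by
  set U : Set (E m × ℝ) := {z : E m × ℝ | ∀ i, |(z.1 + -x0) i| < p / 2} with hU
  have hUo : IsOpen U := dom_isOpen_cube p (-x0)
  have hzU : z ∈ U := by
    intro i
    rw [← sub_eq_add_neg]
    exact hz i
  have hUn : U ∈ nhds z := hUo.mem_nhds hzU
  have hinter : perD p a x0 D₀ ∩ U = D₀ ∩ U := by
    ext y
    simp only [mem_inter_iff]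
    refine and_congr_left fun hy => ?_
    refine mem_perD_iff p a hp x0 D₀ habove y fun i => ?_
    rw [sub_eq_add_neg]
    exact hy i
  have hint : z ∈ interior (perD p a x0 D₀) ↔ z ∈ interior D₀ := by
    rw [mem_interior_iff_mem_nhds, mem_interior_iff_mem_nhds]
    constructor
    · intro h
      have h1 : perD p a x0 D₀ ∩ U ∈ nhds z := Filter.inter_mem h hUn
      rw [hinter] at h1
      exact (Filter.inter_mem_iff.1 h1).1
    · intro h
      have h1 : D₀ ∩ U ∈ nhds z := Filter.inter_mem h hUn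
      rw [← hinter] at h1
      exact (Filter.inter_mem_iff.1 h1).1
  unfold entr
  rw [mem_sdiff, mem_sdiff, mem_perD_iff p a hp x0 D₀ habove z hz, hint]

end Claimed.Agent.R322.Sx.Contact
end

/- ===== packed: Claimed.Agent.R322.Sx.Gauss.Defs ===== -/
section
/-!
# R322 / Sx / Gauss / Defs : the definitions of `Sx/Gauss.lean` (verbatim), so that the proof files
`Sx/Gauss/*.lean` can use them.  (leaf `L-Sx-Gauss`, helper297)
-/

set_option autoImplicit false

namespace Claimed.Agent.R322.Sx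

open MeasureTheory Set Metric
open scoped ENNReal NNReal InnerProductSpace

/-- the chart tail of AE (2.20). -/
noncomputable def tailG (m : ℕ) (K0 s h h1 : ℝ) : ℝ :=
  K0 * (1 + h⁻¹) * s ^ (-(m : ℝ)) * Real.exp (-h1 ^ 2 / (4 * s ^ 2))

/-- the standing assumptions on chart, cutoff, centre and scale. -/
structure Chart {m n : ℕ} (S : Sys m n) (χ : E m → ℝ) (x0 : E m) (R h : ℝ) (x : E m) (h1 K0 : ℝ) :
    Prop where
  cut : IsCutoff χ x0 R h
  h_pos : 0 < h
  R_pos : 0 < R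
  le_four : R + h ≤ 4
  sub : closedBall x0 (R + h) ⊆ S.Ω
  h1_pos : 0 < h1
  centre : ball x h1 ⊆ ball x0 R
  mass : S.nu (closedBall x0 (R + h)) + volume (closedBall x0 (R + h)) ≤ ENNReal.ofReal K0

/-- `u = (y - x)/s`. -/
noncomputable def uu {m : ℕ} (x : E m) (s : ℝ) (y : E m) : E m := s⁻¹ • (y - x)

/-- the kernel of the logarithmic scale derivative: `d G_s / d log s = G_s (|u|² - m)`. -/
noncomputable def kerDot {m : ℕ} (χ : E m → ℝ) (s : ℝ) (x : E m) : E m → ℝ :=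
  fun y => Sys.ker χ s x y * (‖uu x s y‖ ^ 2 - m)

/-- the test field `X(y) = χ(y) G_s(y - x) (y - x)`. -/
noncomputable def gX {m : ℕ} (χ : E m → ℝ) (s : ℝ) (x : E m) : E m → E m :=
  fun y => Sys.ker χ s x y • (y - x)

/-- the tail density `G_s(y - x) |Dχ(y)|`. -/
noncomputable def gT {m : ℕ} (χ : E m → ℝ) (s : ℝ) (x : E m) : E m → ℝ :=
  fun y => gauss m s (y - x) * ‖fderiv ℝ χ y‖

theorem tailG_def (m : ℕ) (K0 s h h1 : ℝ) : tailG m K0 s h h1
    = K0 * (1 + h⁻¹) * s ^ (-(m : ℝ)) * Real.exp (-h1 ^ 2 / (4 * s ^ 2)) := rfl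

theorem uu_def {m : ℕ} (x : E m) (s : ℝ) (y : E m) : uu x s y = s⁻¹ • (y - x) := rfl

theorem kerDot_def {m : ℕ} (χ : E m → ℝ) (s : ℝ) (x y : E m) :
    kerDot χ s x y = Sys.ker χ s x y * (‖uu x s y‖ ^ 2 - m) := rfl

theorem gX_def {m : ℕ} (χ : E m → ℝ) (s : ℝ) (x y : E m) :
    gX χ s x y = Sys.ker χ s x y • (y - x) := rfl

theorem gT_def {m : ℕ} (χ : E m → ℝ) (s : ℝ) (x y : E m) :
    gT χ s x y = gauss m s (y - x) * ‖fderiv ℝ χ y‖ := rfl

theorem gs_gauss_def (m : ℕ) (s : ℝ) (z : E m) : gauss m s z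
    = (2 * Real.pi * s ^ 2) ^ (-(m : ℝ) / 2) * Real.exp (-‖z‖ ^ 2 / (2 * s ^ 2)) := rfl

theorem gs_ker_def {m : ℕ} (χ : E m → ℝ) (s : ℝ) (x y : E m) :
    Sys.ker χ s x y = χ y * gauss m s (y - x) := rfl

/-- generates the equation lemmas of the definitions above in this file -/
theorem gs_eqns_cite : True := by
  have := @tailG.eq_1
  have := @uu.eq_1
  have := @kerDot.eq_1
  have := @gX.eq_1
  have := @gT.eq_1
  trivial

end Claimed.Agent.R322.Sx
end

/- ===== packed: Claimed.Agent.R322.Sx.Gauss.Ker ===== -/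
section
/-!
# R322 / Sx / Gauss / Ker : kernel calculus (K) of `Sx/Gauss.lean`  (leaf `L-Sx-Gauss`, helper297)

`z = y - x`, `u = z/s`, `G = gauss m s z`, `k = ker χ s x y = χ(y) G`, `X = gX χ s x = k • z`.
-/

set_option autoImplicit false

namespace Claimed.Agent.R322.Sx

open MeasureTheory Set Metric
open scoped ENNReal NNReal InnerProductSpace ContDiff

variable {m : ℕ}

/-! ### the Gaussian -/

theorem gs_coef (m : ℕ) {s : ℝ} (hs : 0 < s) :
    (2 * Real.pi * s ^ 2) ^ (-(m : ℝ) / 2) = (2 * Real.pi) ^ (-(m : ℝ) / 2) * s ^ (-(m : ℝ)) := by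
  rw [Real.mul_rpow (by positivity) (by positivity)]
  congr 1
  rw [← Real.rpow_natCast s 2, ← Real.rpow_mul hs.le]
  congr 1
  push_cast
  ring

theorem gs_coef_pos (m : ℕ) {s : ℝ} (hs : 0 < s) : 0 < (2 * Real.pi * s ^ 2) ^ (-(m : ℝ) / 2) :=
  Real.rpow_pos_of_pos (by positivity) _

theorem gs_twopi_le_one (m : ℕ) : (2 * Real.pi) ^ (-(m : ℝ) / 2) ≤ 1 := by
  apply Real.rpow_le_one_of_one_le_of_nonpos
  · nlinarith [Real.pi_gt_three]
  · have : (0 : ℝ) ≤ m := Nat.cast_nonneg m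
    linarith

theorem gs_coef_le (m : ℕ) {s : ℝ} (hs : 0 < s) :
    (2 * Real.pi * s ^ 2) ^ (-(m : ℝ) / 2) ≤ s ^ (-(m : ℝ)) := by
  rw [gs_coef m hs]
  have : 0 < s ^ (-(m : ℝ)) := Real.rpow_pos_of_pos hs _
  calc _ ≤ 1 * s ^ (-(m : ℝ)) := mul_le_mul_of_nonneg_right (gs_twopi_le_one m) this.le
    _ = _ := one_mul _

theorem gs_gauss_nonneg (m : ℕ) (s : ℝ) (z : E m) : 0 ≤ gauss m s z := by
  rw [gs_gauss_def]
  exact mul_nonneg (Real.rpow_nonneg (by positivity) _) (Real.exp_pos _).le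

theorem gs_gauss_pos (m : ℕ) {s : ℝ} (hs : 0 < s) (z : E m) : 0 < gauss m s z := by
  rw [gs_gauss_def]
  exact mul_pos (gs_coef_pos m hs) (Real.exp_pos _)

/-- `G_s(z) ≤ s^{-m} exp(-|z|²/(2s²))`. -/
theorem gs_gauss_le_exp (m : ℕ) {s : ℝ} (hs : 0 < s) (z : E m) :
    gauss m s z ≤ s ^ (-(m : ℝ)) * Real.exp (-‖z‖ ^ 2 / (2 * s ^ 2)) := by
  rw [gs_gauss_def]
  exact mul_le_mul_of_nonneg_right (gs_coef_le m hs) (Real.exp_pos _).le

theorem gs_gauss_le (m : ℕ) {s : ℝ} (hs : 0 < s) (z : E m) : gauss m s z ≤ s ^ (-(m : ℝ)) := by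
  refine (gs_gauss_le_exp m hs z).trans ?_
  have h1 : Real.exp (-‖z‖ ^ 2 / (2 * s ^ 2)) ≤ 1 := by
    rw [Real.exp_le_one_iff, neg_div]
    have : 0 ≤ ‖z‖ ^ 2 / (2 * s ^ 2) := by positivity
    linarith
  calc _ ≤ s ^ (-(m : ℝ)) * 1 := mul_le_mul_of_nonneg_left h1 (Real.rpow_pos_of_pos hs _).le
    _ = _ := mul_one _

theorem gs_contDiff_gauss (m : ℕ) (s : ℝ) : ContDiff ℝ ∞ (gauss m s) := by
  have h1 : ContDiff ℝ ∞ fun z : E m => -‖z‖ ^ 2 / (2 * s ^ 2) :=
    (contDiff_norm_sq ℝ).neg.div_const _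
  exact contDiff_const.mul h1.exp

theorem gs_continuous_gauss (m : ℕ) (s : ℝ) : Continuous (gauss m s) :=
  (gs_contDiff_gauss m s).continuous

/-- scale derivative. -/
theorem gs_hasDerivAt_gauss (m : ℕ) {t : ℝ} (ht : 0 < t) (z : E m) :
    HasDerivAt (fun t => gauss m t z) (t⁻¹ * (gauss m t z * (‖t⁻¹ • z‖ ^ 2 - m))) t := by
  have e0 : ‖t⁻¹ • z‖ ^ 2 = ‖z‖ ^ 2 / t ^ 2 := by
    rw [norm_smul, Real.norm_eq_abs, abs_of_pos (inv_pos.2 ht), mul_pow, inv_pow]
    field_simp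
  rw [e0]
  simp only [gs_gauss_def]
  have h1 : HasDerivAt (fun t : ℝ => 2 * Real.pi * t ^ 2) (2 * Real.pi * (2 * t)) t := by
    have := (hasDerivAt_pow 2 t).const_mul (2 * Real.pi)
    simpa using this
  have h2 := h1.rpow_const (p := -(m : ℝ) / 2) (Or.inl (by positivity))
  have h3 : HasDerivAt (fun t : ℝ => -‖z‖ ^ 2 / (2 * t ^ 2)) (‖z‖ ^ 2 / t ^ 3) t := by
    have h4 : HasDerivAt (fun t : ℝ => 2 * t ^ 2) (2 * (2 * t)) t := by
      have := (hasDerivAt_pow 2 t).const_mul 2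
      simpa using this
    refine ((hasDerivAt_const t (-‖z‖ ^ 2)).fun_div h4 (by positivity)).congr_deriv ?_
    field_simp
    ring
  refine (h2.fun_mul h3.exp).congr_deriv ?_
  rw [Real.rpow_sub_one (by positivity)]
  field_simp
  ring

/-- space derivative. -/
theorem gs_hasFDerivAt_gauss (m : ℕ) {s : ℝ} (hs : 0 < s) (z : E m) :
    HasFDerivAt (gauss m s) (-(s⁻¹ * gauss m s z) • innerSL ℝ (s⁻¹ • z)) z := by
  have h1 : HasFDerivAt (fun z : E m => ‖z‖ ^ 2) (2 • innerSL ℝ z) z :=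
    (hasStrictFDerivAt_norm_sq z).hasFDerivAt
  have h2' := h1.neg.const_mul (2 * s ^ 2)⁻¹
  have h2 := h2'.congr_of_eventuallyEq (f₁ := fun z : E m => -‖z‖ ^ 2 / (2 * s ^ 2))
    (Filter.Eventually.of_forall fun w => by
      simp only [Pi.neg_apply]
      rw [div_eq_inv_mul])
  have h3 := h2.exp.const_mul ((2 * Real.pi * s ^ 2) ^ (-(m : ℝ) / 2))
  refine h3.congr_fderiv ?_
  ext w
  simp only [gs_gauss_def, _root_.smul_apply, _root_.neg_apply,
    innerSL_apply_apply, smul_eq_mul, inner_smul_left, RCLike.conj_to_real, nsmul_eq_mul,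
    Nat.cast_ofNat]
  field_simp

/-! ### the kernel `k = χ G` -/

theorem gs_hasFDerivAt_gauss_sub (m : ℕ) {s : ℝ} (hs : 0 < s) (x y : E m) :
    HasFDerivAt (fun y => gauss m s (y - x))
      (-(s⁻¹ * gauss m s (y - x)) • innerSL ℝ (uu x s y)) y := by
  have h := (gs_hasFDerivAt_gauss m hs (y - x)).comp y ((hasFDerivAt_id y).sub_const x)
  rw [ContinuousLinearMap.comp_id] at h
  exact h

theorem gs_hasFDerivAt_ker {χ : E m → ℝ} {s : ℝ} (hs : 0 < s) (x : E m) {y : E m}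
    (hχ : DifferentiableAt ℝ χ y) :
    HasFDerivAt (Sys.ker χ s x)
      (gauss m s (y - x) • fderiv ℝ χ y - (s⁻¹ * Sys.ker χ s x y) • innerSL ℝ (uu x s y)) y := by
  have h := hχ.hasFDerivAt.mul (gs_hasFDerivAt_gauss_sub m hs x y)
  refine h.congr_fderiv ?_
  ext w
  simp only [gs_ker_def, _root_.add_apply, _root_.smul_apply, _root_.sub_apply, smul_eq_mul]
  ring

theorem gs_fderiv_ker_apply {χ : E m → ℝ} {s : ℝ} (hs : 0 < s) (x : E m) {y : E m}
    (hχ : DifferentiableAt ℝ χ y) (w : E m) :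
    fderiv ℝ (Sys.ker χ s x) y w
      = gauss m s (y - x) * fderiv ℝ χ y w - s⁻¹ * Sys.ker χ s x y * ⟪uu x s y, w⟫_ℝ := by
  rw [(gs_hasFDerivAt_ker hs x hχ).fderiv]
  simp only [_root_.sub_apply, _root_.smul_apply, smul_eq_mul, innerSL_apply_apply]

/-- `DX = k (1 - u ⊗ u) + G Dχ ⊗ z`. -/
theorem gs_hasFDerivAt_gX {χ : E m → ℝ} {s : ℝ} (hs : 0 < s) (x : E m) {y : E m}
    (hχ : DifferentiableAt ℝ χ y) :
    HasFDerivAt (gX χ s x)
      (Sys.ker χ s x y • (ContinuousLinearMap.id ℝ (E m) - (innerSL ℝ (uu x s y)).smulRight (uu x s y))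
        + gauss m s (y - x) • (fderiv ℝ χ y).smulRight (y - x)) y := by
  have h := (gs_hasFDerivAt_ker hs x hχ).smul ((hasFDerivAt_id y).sub_const x)
  refine h.congr_fderiv ?_
  ext1 w
  simp only [_root_.add_apply, _root_.smul_apply, _root_.sub_apply,
    ContinuousLinearMap.smulRight_apply, ContinuousLinearMap.id_apply, innerSL_apply_apply,
    smul_eq_mul, uu_def, id_eq]
  module

/-- `tr (A ∘ DX) = k (tr A - ⟨A u, u⟩) + G Dχ(A z)`. -/
theorem gs_tr_comp_fderiv_gX {χ : E m → ℝ} {s : ℝ} (hs : 0 < s) (x : E m) {y : E m}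
    (hχ : DifferentiableAt ℝ χ y) (A : E m →L[ℝ] E m) :
    tr (A ∘L fderiv ℝ (gX χ s x) y)
      = Sys.ker χ s x y * (tr A - ⟪A (uu x s y), uu x s y⟫_ℝ)
        + gauss m s (y - x) * fderiv ℝ χ y (A (y - x)) := by
  rw [(gs_hasFDerivAt_gX hs x hχ).fderiv]
  have e : A ∘L (Sys.ker χ s x y • (ContinuousLinearMap.id ℝ (E m)
        - (innerSL ℝ (uu x s y)).smulRight (uu x s y))
        + gauss m s (y - x) • (fderiv ℝ χ y).smulRight (y - x))
      = Sys.ker χ s x y • (A - (innerSL ℝ (uu x s y)).smulRight (A (uu x s y)))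
        + gauss m s (y - x) • (fderiv ℝ χ y).smulRight (A (y - x)) := by
    ext1 w
    simp only [ContinuousLinearMap.comp_apply, _root_.add_apply, _root_.smul_apply,
      _root_.sub_apply, ContinuousLinearMap.smulRight_apply, ContinuousLinearMap.id_apply,
      map_add, map_smul, map_sub]
  rw [e, tr_add, tr_smul, tr_smul, tr_sub, tr_smulRight, tr_smulRight, innerSL_apply_apply,
    real_inner_comm]

/-- `div X = - kerDot + G Dχ(z)`. -/
theorem gs_dvg_gX {χ : E m → ℝ} {s : ℝ} (hs : 0 < s) (x : E m) {y : E m}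
    (hχ : DifferentiableAt ℝ χ y) :
    dvg (gX χ s x) y = - kerDot χ s x y + gauss m s (y - x) * fderiv ℝ χ y (y - x) := by
  have h := gs_tr_comp_fderiv_gX hs x hχ (ContinuousLinearMap.id ℝ (E m))
  rw [ContinuousLinearMap.id_comp, tr_id] at h
  show tr (fderiv ℝ (gX χ s x) y) = _
  rw [h, kerDot_def]
  simp only [ContinuousLinearMap.id_apply, real_inner_self_eq_norm_sq]
  ring

/-! ### regularity and supports -/

theorem gs_contDiff_ker {χ : E m → ℝ} {k : WithTop ℕ∞} (hk : k ≤ (∞ : WithTop ℕ∞)) (hχ : ContDiff ℝ k χ) (s : ℝ)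
    (x : E m) : ContDiff ℝ k (Sys.ker χ s x) :=
  hχ.mul (((gs_contDiff_gauss m s).of_le hk).comp (contDiff_id.sub contDiff_const))

theorem gs_contDiff_gX {χ : E m → ℝ} {k : WithTop ℕ∞} (hk : k ≤ (∞ : WithTop ℕ∞)) (hχ : ContDiff ℝ k χ) (s : ℝ)
    (x : E m) : ContDiff ℝ k (gX χ s x) :=
  (gs_contDiff_ker hk hχ s x).smul (contDiff_id.sub contDiff_const)

theorem gs_continuous_uu (x : E m) (s : ℝ) : Continuous (uu x s) :=
  (continuous_id.sub continuous_const).const_smul s⁻¹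

theorem gs_ker_nonneg {χ : E m → ℝ} (hχ : ∀ y, 0 ≤ χ y) (s : ℝ) (x y : E m) :
    0 ≤ Sys.ker χ s x y :=
  mul_nonneg (hχ y) (gs_gauss_nonneg m s _)

theorem gs_smul_uu {s : ℝ} (hs : 0 < s) (x y : E m) : s • uu x s y = y - x := by
  rw [uu_def, smul_smul, mul_inv_cancel₀ hs.ne', one_smul]

theorem gs_gX_eq {χ : E m → ℝ} {s : ℝ} (hs : 0 < s) (x y : E m) :
    gX χ s x y = (Sys.ker χ s x y * s) • uu x s y := by
  rw [gX_def, mul_smul, gs_smul_uu hs]

end Claimed.Agent.R322.Sx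
end

/- ===== packed: Claimed.Agent.R322.Sx.Wells.Clip ===== -/
section
/-!
# R322 / Sx / Wells / Clip : the clipping function of AE (5.10)

`clip t = t` for `t ≤ 1`, constant for `t ≥ 2`, nondecreasing, `min t 1 ≤ clip t ≤ min t 2` for `t ≥ 0`.
-/

set_option autoImplicit false

namespace Claimed.Agent.R322.Sx

open MeasureTheory Set Metric
open scoped ENNReal NNReal InnerProductSpace

/-! ## Package Wells-A : the clipping function -/

/-- derivative of the clipping function. -/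
noncomputable def clipD (t : ℝ) : ℝ := Real.smoothTransition (2 - t)

/-- the clipping function. -/
noncomputable def clip (t : ℝ) : ℝ := ∫ x in (0 : ℝ)..t, clipD x

theorem clipD_contDiff_top : ContDiff ℝ (⊤ : ℕ∞) clipD :=
  Real.smoothTransition.contDiff.comp (contDiff_const.sub contDiff_id)

theorem clipD_contDiff : ContDiff ℝ 2 clipD :=
  Real.smoothTransition.contDiff.comp (contDiff_const.sub contDiff_id)

theorem clipD_continuous : Continuous clipD := clipD_contDiff.continuous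

theorem clipD_mem (t : ℝ) : 0 ≤ clipD t ∧ clipD t ≤ 1 :=
  ⟨Real.smoothTransition.nonneg _, Real.smoothTransition.le_one _⟩

theorem clipD_of_le {t : ℝ} (ht : t ≤ 1) : clipD t = 1 :=
  Real.smoothTransition.one_of_one_le (by linarith)

theorem clipD_of_ge {t : ℝ} (ht : 2 ≤ t) : clipD t = 0 :=
  Real.smoothTransition.zero_of_nonpos (by linarith)

theorem clipD_deriv_bound : ∃ C : ℝ, 0 < C ∧ ∀ t, |deriv clipD t| ≤ C := by
  have hc : Continuous (deriv clipD) := clipD_contDiff.continuous_deriv (by norm_num)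
  obtain ⟨C, hC⟩ := (isCompact_Icc (a := (0 : ℝ)) (b := 3)).exists_bound_of_continuousOn
    hc.continuousOn
  refine ⟨max C 1, by positivity, fun t => ?_⟩
  by_cases h1 : t < 1
  · have : deriv clipD t = 0 := by
      have he : clipD =ᶠ[nhds t] fun _ => (1 : ℝ) := by
        filter_upwards [Iio_mem_nhds h1] with u hu
        exact clipD_of_le (le_of_lt hu)
      rw [he.deriv_eq]; simp
    rw [this]; simp
  · by_cases h2 : 2 < t
    · have : deriv clipD t = 0 := by
        have he : clipD =ᶠ[nhds t] fun _ => (0 : ℝ) := by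
          filter_upwards [Ioi_mem_nhds h2] with u hu
          exact clipD_of_ge (le_of_lt hu)
        rw [he.deriv_eq]; simp
      rw [this]; simp
    · have := hC t ⟨by linarith [not_lt.mp h1], by linarith [not_lt.mp h2]⟩
      exact le_trans this (le_max_left _ _)

theorem hasDerivAt_clip (t : ℝ) : HasDerivAt clip (clipD t) t :=
  intervalIntegral.integral_hasDerivAt_right (clipD_continuous.intervalIntegrable _ _)
    (clipD_continuous.stronglyMeasurableAtFilter _ _) clipD_continuous.continuousAt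

theorem deriv_clip : deriv clip = clipD := funext fun t => (hasDerivAt_clip t).deriv

theorem clip_contDiff : ContDiff ℝ 3 clip := by
  have : ContDiff ℝ (2 + 1) clip := by
    rw [contDiff_succ_iff_deriv]
    refine ⟨fun t => (hasDerivAt_clip t).differentiableAt, by simp, ?_⟩
    rw [deriv_clip]; exact clipD_contDiff
  exact this

theorem clip_continuous : Continuous clip := clip_contDiff.continuous

theorem clip_of_le {t : ℝ} (ht : t ≤ 1) : clip t = t := by
  have : ∫ x in (0 : ℝ)..t, clipD x = ∫ _x in (0 : ℝ)..t, (1 : ℝ) := by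
    apply intervalIntegral.integral_congr
    intro x hx
    have hx' : x ≤ 1 := by
      rcases le_total 0 t with h | h
      · rw [uIcc_of_le h] at hx; exact hx.2.trans ht
      · rw [uIcc_of_ge h] at hx; exact hx.2.trans zero_le_one
    exact clipD_of_le hx'
  unfold clip
  rw [this]; simp

theorem clip_mono : Monotone clip :=
  monotone_of_deriv_nonneg (fun t => (hasDerivAt_clip t).differentiableAt)
    (fun t => by rw [deriv_clip]; exact (clipD_mem t).1)

theorem clip_of_ge {t : ℝ} (ht : 2 ≤ t) : clip t = clip 2 := by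
  have h := intervalIntegral.integral_add_adjacent_intervals (μ := volume)
    (clipD_continuous.intervalIntegrable 0 2) (clipD_continuous.intervalIntegrable 2 t)
  have h0 : ∫ x in (2 : ℝ)..t, clipD x = ∫ _x in (2 : ℝ)..t, (0 : ℝ) := by
    apply intervalIntegral.integral_congr
    intro x hx
    rw [uIcc_of_le ht] at hx
    exact clipD_of_ge hx.1
  unfold clip
  rw [← h, h0]; simp

theorem clip_le_self (t : ℝ) (ht : 0 ≤ t) : clip t ≤ t := by
  have h : ∫ x in (0 : ℝ)..t, clipD x ≤ ∫ _x in (0 : ℝ)..t, (1 : ℝ) :=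
    intervalIntegral.integral_mono_on ht (clipD_continuous.intervalIntegrable _ _)
      (continuous_const.intervalIntegrable _ _) (fun x _ => (clipD_mem x).2)
  unfold clip
  simpa using h

theorem clip_le_two (t : ℝ) : clip t ≤ 2 := by
  rcases le_total t 2 with h | h
  · exact (clip_mono h).trans (clip_le_self 2 (by norm_num))
  · rw [clip_of_ge h]; exact clip_le_self 2 (by norm_num)

theorem clip_le (t : ℝ) (ht : 0 ≤ t) : clip t ≤ min t 2 :=
  le_min (clip_le_self t ht) (clip_le_two t)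

theorem clip_ge (t : ℝ) (_ht : 0 ≤ t) : min t 1 ≤ clip t := by
  rcases le_total t 1 with h | h
  · rw [clip_of_le h]; exact min_le_left _ _
  · calc min t 1 ≤ 1 := min_le_right _ _
      _ = clip 1 := (clip_of_le le_rfl).symm
      _ ≤ clip t := clip_mono h

theorem clip_nonneg {t : ℝ} (ht : 0 ≤ t) : 0 ≤ clip t :=
  le_trans (le_min ht zero_le_one) (clip_ge t ht)

theorem deriv_clipD_of_le {t : ℝ} (ht : t ≤ 1) : deriv clipD t = 0 := by
  apply IsLocalMax.deriv_eq_zero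
  filter_upwards with u
  rw [clipD_of_le ht]; exact (clipD_mem u).2

theorem deriv_clipD_of_ge {t : ℝ} (ht : 2 ≤ t) : deriv clipD t = 0 := by
  apply IsLocalMin.deriv_eq_zero
  filter_upwards with u
  rw [clipD_of_ge ht]; exact (clipD_mem u).1

/-- common bound for `clipD` and its first two derivatives. -/
theorem clipD_bounds : ∃ h0 : ℝ, 1 ≤ h0 ∧ (∀ t, |clipD t| ≤ h0) ∧ (∀ t, |deriv clipD t| ≤ h0) ∧
    ∀ t, |deriv (deriv clipD) t| ≤ h0 := by
  obtain ⟨C1, _, hC1⟩ := clipD_deriv_bound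
  have hd : ContDiff ℝ 1 (deriv clipD) := by
    have h2 : ContDiff ℝ (1 + 1) clipD := clipD_contDiff
    exact (contDiff_succ_iff_deriv.mp h2).2.2
  have hc : Continuous (deriv (deriv clipD)) := hd.continuous_deriv (by norm_num)
  obtain ⟨C, hC⟩ := (isCompact_Icc (a := (0 : ℝ)) (b := 3)).exists_bound_of_continuousOn
    hc.continuousOn
  refine ⟨max (max C C1) 1, le_max_right _ _, fun t => ?_, fun t => ?_, fun t => ?_⟩
  · rw [abs_of_nonneg (clipD_mem t).1]; exact (clipD_mem t).2.trans (le_max_right _ _)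
  · exact (hC1 t).trans ((le_max_right _ _).trans (le_max_left _ _))
  · by_cases h1 : t < 1
    · have : deriv (deriv clipD) t = 0 := by
        have he : deriv clipD =ᶠ[nhds t] fun _ => (0 : ℝ) := by
          filter_upwards [Iio_mem_nhds h1] with u hu
          exact deriv_clipD_of_le (le_of_lt hu)
        rw [he.deriv_eq]; simp
      rw [this]; simp
    · by_cases h2 : 2 < t
      · have : deriv (deriv clipD) t = 0 := by
          have he : deriv clipD =ᶠ[nhds t] fun _ => (0 : ℝ) := by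
            filter_upwards [Ioi_mem_nhds h2] with u hu
            exact deriv_clipD_of_ge (le_of_lt hu)
          rw [he.deriv_eq]; simp
        rw [this]; simp
      · have := hC t ⟨by linarith [not_lt.mp h1], by linarith [not_lt.mp h2]⟩
        exact le_trans this ((le_max_left _ _).trans (le_max_left _ _))

end Claimed.Agent.R322.Sx
end
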