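/- Packed by merge_tool.py (helper293): 3 modules of Claimed.Agent.R322 in one file, same declarations.
   Old modules, in this order: Sx.Contact.Nash, Sx.Contact.Main, Sx.Contact.LocUnfold -/
import Mathlib
import Claimed.Agent.Lib.BrouwerConvex
import Claimed.Agent.R322.Pack040

/- ===== packed: Claimed.Agent.R322.Sx.Contact.Nash ===== -/
section
/-!
# AE Lemma 4.1, first half: a probability measure carried by the maximisers of its own potential

General statement on a compact metric space; no geometry.  All leaves proved (helper127).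
-/

set_option autoImplicit false

namespace Claimed.Agent.R322.Sx.Contact

open MeasureTheory Set

/-- [leaf N1] **finite equilibrium.**  For a finite index set and an affine payoff
`b_p(i) = β i - ∑ j, κ i j * p j` there is a probability vector carried by the maximisers of its
own payoff.  (Brouwer `Claimed.Agent.Lib.bfp_brouwer` on `stdSimplex` with Nash's map
`p i ↦ (p i + max 0 (b_p i - ∑ j, p j * b_p j)) / (1 + ∑ l, max 0 (b_p l - ∑ j, p j * b_p j))`.) -/
theorem exists_finite_equilibrium {ι : Type*} [Fintype ι] [Nonempty ι] (β : ι → ℝ) (κ : ι → ι → ℝ) :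
    ∃ p : ι → ℝ, p ∈ stdSimplex ℝ ι ∧
      ∀ i, 0 < p i → ∀ l, β l - ∑ j, κ l j * p j ≤ β i - ∑ j, κ i j * p j := by
  classical
  set b : (ι → ℝ) → ι → ℝ := fun p i => β i - ∑ j, κ i j * p j with hb
  set avg : (ι → ℝ) → ℝ := fun p => ∑ j, p j * b p j with havg
  set g : (ι → ℝ) → ι → ℝ := fun p i => max 0 (b p i - avg p) with hg
  set T : (ι → ℝ) → ι → ℝ := fun p i => (p i + g p i) / (1 + ∑ l, g p l) with hT
  have hbc : ∀ i, Continuous fun p : ι → ℝ => b p i := by
    intro i
    simp only [hb]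
    fun_prop
  have havgc : Continuous avg := by
    simp only [havg]
    exact continuous_finsetSum _ fun j _ => (continuous_apply j).mul (hbc j)
  have hgc : ∀ i, Continuous fun p : ι → ℝ => g p i := by
    intro i
    exact continuous_const.max ((hbc i).sub havgc)
  have hg0 : ∀ p i, 0 ≤ g p i := fun p i => le_max_left _ _
  have hG0 : ∀ p, 0 ≤ ∑ l, g p l := fun p => Finset.sum_nonneg fun l _ => hg0 p l
  have hden : ∀ p, 0 < 1 + ∑ l, g p l := fun p => by linarith [hG0 p]
  have hTc : Continuous T := by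
    refine continuous_pi fun i => ?_
    exact ((continuous_apply i).add (hgc i)).div
      (continuous_const.add (continuous_finsetSum _ fun l _ => hgc l)) fun p => (hden p).ne'
  have hmaps : MapsTo T (stdSimplex ℝ ι) (stdSimplex ℝ ι) := by
    intro p hp
    refine ⟨fun i => div_nonneg (add_nonneg (hp.1 i) (hg0 p i)) (hden p).le, ?_⟩
    simp only [hT]
    rw [← Finset.sum_div, Finset.sum_add_distrib, hp.2]
    exact div_self (hden p).ne'
  obtain ⟨i₀⟩ := ‹Nonempty ι›
  obtain ⟨p, hp, hfix⟩ := Claimed.Agent.Lib.bfp_brouwer (isCompact_stdSimplex ℝ ι)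
    (convex_stdSimplex ℝ ι) ⟨_, single_mem_stdSimplex ℝ i₀⟩ T hTc.continuousOn hmaps
  refine ⟨p, hp, ?_⟩
  set G : ℝ := ∑ l, g p l with hGd
  have hfix' : ∀ i, p i * G = g p i := by
    intro i
    have h1 : (p i + g p i) / (1 + G) = p i := congrFun hfix i
    rw [div_eq_iff (hden p).ne'] at h1
    linarith
  -- the weighted deviations sum to zero
  have hsum0 : ∑ i, p i * (b p i - avg p) = 0 := by
    simp only [mul_sub, Finset.sum_sub_distrib, ← Finset.sum_mul, hp.2, one_mul]
    exact sub_self _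
  have hGz : G = 0 := by
    by_contra hne
    have hGpos : 0 < G := lt_of_le_of_ne (hG0 p) (Ne.symm hne)
    have hpos : ∀ i, 0 < p i → 0 < b p i - avg p := by
      intro i hi
      have h1 : 0 < g p i := by rw [← hfix' i]; exact mul_pos hi hGpos
      by_contra hcon
      have : g p i = 0 := max_eq_left (not_lt.mp hcon)
      linarith
    have hterm : ∀ i ∈ Finset.univ, 0 ≤ p i * (b p i - avg p) := by
      intro i _
      rcases (hp.1 i).eq_or_lt with h0 | h0
      · rw [← h0, zero_mul]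
      · exact (mul_pos h0 (hpos i h0)).le
    have hall := (Finset.sum_eq_zero_iff_of_nonneg hterm).mp hsum0
    obtain ⟨i, hi⟩ : ∃ i, 0 < p i := by
      by_contra hcon
      push Not at hcon
      have : ∑ i, p i ≤ 0 := Finset.sum_nonpos fun i _ => hcon i
      rw [hp.2] at this
      linarith
    have := hall i (Finset.mem_univ i)
    have h2 := mul_pos hi (hpos i hi)
    linarith
  have hgz : ∀ l, g p l = 0 := by
    intro l
    rw [← hfix' l, hGz, mul_zero]
  have hle : ∀ l, b p l ≤ avg p := by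
    intro l
    have h1 : b p l - avg p ≤ g p l := le_max_right _ _
    rw [hgz l] at h1
    linarith
  intro i hi l
  have hterm : ∀ i ∈ Finset.univ, 0 ≤ p i * (avg p - b p i) := fun i _ =>
    mul_nonneg (hp.1 i) (by linarith [hle i])
  have hsum0' : ∑ i, p i * (avg p - b p i) = 0 := by
    have : ∑ i, p i * (avg p - b p i) = -∑ i, p i * (b p i - avg p) := by
      rw [← Finset.sum_neg_distrib]
      exact Finset.sum_congr rfl fun i _ => by ring
    rw [this, hsum0, neg_zero]
  have hall := (Finset.sum_eq_zero_iff_of_nonneg hterm).mp hsum0' i (Finset.mem_univ i)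
  have hbi : avg p - b p i = 0 := by
    rcases mul_eq_zero.mp hall with h | h
    · linarith
    · exact h
  have := hle l
  show b p l ≤ b p i
  linarith

/-- N2 for an arbitrary filter (used with an ultrafilter in `exists_equilibrium`). -/
theorem tendstoUniformly_potential_filter {Z ι : Type*} [MetricSpace Z] [CompactSpace Z]
    [MeasurableSpace Z] [BorelSpace Z] (κ : Z → Z → ℝ)
    (hκ : Continuous (fun p : Z × Z => κ p.1 p.2)) (L : Filter ι)
    (σs : ι → ProbabilityMeasure Z) (σ : ProbabilityMeasure Z)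
    (h : Filter.Tendsto σs L (nhds σ)) :
    TendstoUniformly (fun j z => ∫ w, κ z w ∂(σs j : Measure Z)) (fun z => ∫ w, κ z w ∂(σ : Measure Z))
      L := by
  rw [Metric.tendstoUniformly_iff]
  intro ε hε
  have huc : UniformContinuous (fun p : Z × Z => κ p.1 p.2) :=
    CompactSpace.uniformContinuous_of_continuous hκ
  obtain ⟨δ, hδ, hδκ⟩ := Metric.uniformContinuous_iff.mp huc (ε / 3) (by positivity)
  obtain ⟨t, -, htfin, hcover⟩ := (isCompact_univ (X := Z)).finite_cover_balls hδ
  have hcz : ∀ z, Continuous fun w => κ z w := fun z =>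
    hκ.comp (Continuous.prodMk continuous_const continuous_id)
  have hint : ∀ (z : Z) (μ : ProbabilityMeasure Z), Integrable (fun w => κ z w) (μ : Measure Z) :=
    fun z μ => (hcz z).integrable_of_hasCompactSupport (HasCompactSupport.of_compactSpace _)
  have hpt : ∀ z, Filter.Tendsto (fun j => ∫ w, κ z w ∂(σs j : Measure Z)) L
      (nhds (∫ w, κ z w ∂(σ : Measure Z))) := by
    intro z
    have := (ProbabilityMeasure.tendsto_iff_forall_integral_tendsto.mp h)
      (BoundedContinuousFunction.mkOfCompact ⟨fun w => κ z w, hcz z⟩)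
    simpa using this
  have hev : ∀ᶠ j in L, ∀ z ∈ t,
      dist (∫ w, κ z w ∂(σs j : Measure Z)) (∫ w, κ z w ∂(σ : Measure Z)) < ε / 3 := by
    rw [htfin.eventually_all]
    intro z _
    exact (Metric.tendsto_nhds.mp (hpt z)) _ (by positivity)
  filter_upwards [hev] with j hj z
  obtain ⟨zk, hzk, hz⟩ : ∃ zk ∈ t, z ∈ Metric.ball zk δ := by
    simpa using hcover (mem_univ z)
  have key : ∀ μ : ProbabilityMeasure Z,
      |∫ w, κ z w ∂(μ : Measure Z) - ∫ w, κ zk w ∂(μ : Measure Z)| ≤ ε / 3 := by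
    intro μ
    rw [← integral_sub (hint z μ) (hint zk μ)]
    have h1 := norm_integral_le_of_norm_le_const (μ := (μ : Measure Z))
      (f := fun w => κ z w - κ zk w) (C := ε / 3) (Filter.Eventually.of_forall fun w => by
        have h2 := hδκ (a := (z, w)) (b := (zk, w)) (by
          rw [Prod.dist_eq, dist_self]
          exact max_lt hz hδ)
        rw [Real.dist_eq] at h2
        exact h2.le)
    simpa using h1
  have k1 := key (σs j)
  have k2 := key σ
  have k3 := hj zk hzk
  rw [Real.dist_eq] at k3 ⊢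
  rw [abs_le] at k1 k2
  rw [abs_lt] at k3 ⊢
  constructor <;> linarith [k1.1, k1.2, k2.1, k2.2, k3.1, k3.2]

/-- [leaf N2] weak convergence of probability measures implies uniform convergence of the
potentials of a continuous kernel on a compact space. -/
theorem tendstoUniformly_potential {Z : Type*} [MetricSpace Z] [CompactSpace Z] [MeasurableSpace Z]
    [BorelSpace Z] (κ : Z → Z → ℝ) (hκ : Continuous (fun p : Z × Z => κ p.1 p.2))
    (σs : ℕ → ProbabilityMeasure Z) (σ : ProbabilityMeasure Z)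
    (h : Filter.Tendsto σs Filter.atTop (nhds σ)) :
    TendstoUniformly (fun j z => ∫ w, κ z w ∂(σs j : Measure Z)) (fun z => ∫ w, κ z w ∂(σ : Measure Z))
      Filter.atTop :=
  tendstoUniformly_potential_filter κ hκ Filter.atTop σs σ h

/-- [leaf N3] finitely supported equilibrium on a finite `ε`-net: a probability measure `σ` carried by
a finite set `F` such that every atom maximises the potential of `σ` over `F`. -/
theorem exists_net_equilibrium {Z : Type*} [MetricSpace Z] [MeasurableSpace Z] [BorelSpace Z]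
    (β : Z → ℝ) (κ : Z → Z → ℝ) (F : Finset Z) (hF : F.Nonempty) :
    ∃ σ : ProbabilityMeasure Z, (σ : Measure Z) (F : Set Z)ᶜ = 0 ∧
      ∀ z ∈ F, 0 < (σ : Measure Z) {z} → ∀ z' ∈ F,
        β z' - ∫ w, κ z' w ∂(σ : Measure Z) ≤ β z - ∫ w, κ z w ∂(σ : Measure Z) := by
  classical
  have : Nonempty ↥F := hF.to_subtype
  obtain ⟨p, hp, heq⟩ := exists_finite_equilibrium (ι := ↥F) (fun i => β i) (fun i j => κ i j)
  set μ : Measure Z := ∑ i : ↥F, ENNReal.ofReal (p i) • Measure.dirac (i : Z) with hμ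
  have hprob : IsProbabilityMeasure μ := by
    constructor
    rw [hμ, Measure.finsetSum_apply]
    simp only [Measure.smul_apply, measure_univ, smul_eq_mul, mul_one]
    rw [← ENNReal.ofReal_sum_of_nonneg (fun i _ => hp.1 i), hp.2, ENNReal.ofReal_one]
  have hint : ∀ f : Z → ℝ, ∫ w, f w ∂μ = ∑ i : ↥F, p i * f i := by
    intro f
    rw [hμ, integral_finsetSum_measure]
    · refine Finset.sum_congr rfl fun i _ => ?_
      rw [integral_smul_measure, integral_dirac, ENNReal.toReal_ofReal (hp.1 i), smul_eq_mul]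
    · intro i _
      exact (integrable_dirac (by simp)).smul_measure ENNReal.ofReal_ne_top
  have hsing : ∀ z (hz : z ∈ F), μ {z} = ENNReal.ofReal (p ⟨z, hz⟩) := by
    intro z hz
    rw [hμ, Measure.finsetSum_apply, Finset.sum_eq_single ⟨z, hz⟩]
    · simp
    · intro i _ hne
      have : (i : Z) ≠ z := fun h => hne (Subtype.ext h)
      simp [this]
    · simp
  refine ⟨⟨μ, hprob⟩, ?_, ?_⟩
  · show μ (F : Set Z)ᶜ = 0
    rw [hμ, Measure.finsetSum_apply]
    refine Finset.sum_eq_zero fun i _ => ?_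
    rw [Measure.smul_apply, Measure.dirac_apply' _ F.measurableSet.compl]
    simp
  · intro z hz hpos z' hz'
    show β z' - ∫ w, κ z' w ∂μ ≤ β z - ∫ w, κ z w ∂μ
    rw [hint, hint]
    have h0 : 0 < p ⟨z, hz⟩ := by
      have h1 : 0 < μ {z} := hpos
      rw [hsing z hz] at h1
      exact ENNReal.ofReal_pos.mp h1
    have := heq ⟨z, hz⟩ h0 ⟨z', hz'⟩
    simp only [mul_comm (p _)]
    exact this

/-- **Equilibrium measure** (AE (4.5)): `spt σ ⊆ argmax b_σ`, `b_σ = β - ∫ κ(·, w) dσ(w)`.
Proof: N3 on `1/j`-nets, compactness of `ProbabilityMeasure Z`, N2. -/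
theorem exists_equilibrium {Z : Type*} [MetricSpace Z] [CompactSpace Z] [Nonempty Z]
    [MeasurableSpace Z] [BorelSpace Z] (β : Z → ℝ) (κ : Z → Z → ℝ) (hβ : Continuous β)
    (hκ : Continuous (fun p : Z × Z => κ p.1 p.2)) :
    ∃ (σ : ProbabilityMeasure Z) (S : Set Z), IsClosed S ∧ (σ : Measure Z) Sᶜ = 0 ∧
      ∀ z ∈ S, ∀ z', β z' - ∫ w, κ z' w ∂(σ : Measure Z) ≤ β z - ∫ w, κ z w ∂(σ : Measure Z) := by
  classical
  -- finite nets
  have hnet : ∀ n : ℕ, ∃ F : Finset Z, F.Nonempty ∧ ∀ z, ∃ y ∈ F, dist z y < 1 / (n + 1 : ℝ) := by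
    intro n
    obtain ⟨t, -, htfin, hcover⟩ :=
      (isCompact_univ (X := Z)).finite_cover_balls (e := 1 / (n + 1 : ℝ)) (by positivity)
    have hex : ∀ z, ∃ y ∈ htfin.toFinset, dist z y < 1 / (n + 1 : ℝ) := by
      intro z
      obtain ⟨y, hy, hz⟩ : ∃ y ∈ t, z ∈ Metric.ball y (1 / (n + 1 : ℝ)) := by
        simpa using hcover (mem_univ z)
      exact ⟨y, htfin.mem_toFinset.mpr hy, hz⟩
    obtain ⟨z₀⟩ := ‹Nonempty Z›
    obtain ⟨y, hy, _⟩ := hex z₀
    exact ⟨htfin.toFinset, ⟨y, hy⟩, hex⟩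
  choose F hFne hFnet using hnet
  choose σs hσF hσeq using fun n => exists_net_equilibrium β κ (F n) (hFne n)
  -- a limit along an ultrafilter
  obtain ⟨σ, hσc⟩ := exists_clusterPt_of_compactSpace (Filter.map σs Filter.atTop)
  obtain ⟨U, hU, hlim⟩ := mapClusterPt_iff_ultrafilter.mp hσc
  have hunif := tendstoUniformly_potential_filter κ hκ (U : Filter ℕ) σs σ hlim
  set b : Z → ℝ := fun z => β z - ∫ w, κ z w ∂(σ : Measure Z) with hb
  have hbc : Continuous b := by
    refine hβ.sub ?_
    have := continuous_parametric_integral_of_continuous (μ := (σ : Measure Z)) (f := κ)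
      (by exact hκ) (isCompact_univ (X := Z))
    simpa using this
  obtain ⟨zs, -, hzs⟩ := (isCompact_univ (X := Z)).exists_isMaxOn univ_nonempty hbc.continuousOn
  have hmax : ∀ z, b z ≤ b zs := fun z => hzs (mem_univ z)
  refine ⟨σ, {z | b zs ≤ b z}, isClosed_le continuous_const hbc, ?_, ?_⟩
  swap
  · intro z hz z'
    exact le_trans (hmax z') hz
  -- the complement is a countable union of open null sets
  have hcompl : {z | b zs ≤ b z}ᶜ ⊆ ⋃ k : ℕ, {z | b z < b zs - 1 / (k + 1 : ℝ)} := by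
    intro z hz
    have hlt : b z < b zs := not_le.mp hz
    obtain ⟨k, hk⟩ := exists_nat_one_div_lt (sub_pos.mpr hlt)
    exact mem_iUnion.mpr ⟨k, by show b z < b zs - 1 / (k + 1 : ℝ); linarith⟩
  refine measure_mono_null hcompl (measure_iUnion_null fun k => ?_)
  set G : Set Z := {z | b z < b zs - 1 / (k + 1 : ℝ)} with hG
  have hGo : IsOpen G := isOpen_lt hbc continuous_const
  set ε : ℝ := 1 / (4 * (k + 1 : ℝ)) with hε
  have hεpos : 0 < ε := by positivity
  have hε4 : 1 / (k + 1 : ℝ) = 4 * ε := by rw [hε]; field_simp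
  have ha : ∀ᶠ n in (U : Filter ℕ), ∀ z,
      dist (∫ w, κ z w ∂(σ : Measure Z)) (∫ w, κ z w ∂(σs n : Measure Z)) < ε :=
    Metric.tendstoUniformly_iff.mp hunif ε hεpos
  have hbn : ∀ᶠ n in (U : Filter ℕ), ∃ y ∈ F n, b zs - ε < b y := by
    obtain ⟨δ, hδ, hδb⟩ := Metric.continuous_iff.mp hbc zs ε hεpos
    obtain ⟨N, hN⟩ := exists_nat_one_div_lt hδ
    have : ∀ᶠ n in Filter.atTop, ∃ y ∈ F n, b zs - ε < b y := by
      filter_upwards [Filter.eventually_ge_atTop N] with n hn
      obtain ⟨y, hy, hd⟩ := hFnet n zs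
      refine ⟨y, hy, ?_⟩
      have h1 : 1 / (n + 1 : ℝ) ≤ 1 / (N + 1 : ℝ) := by
        apply one_div_le_one_div_of_le (by positivity)
        have : (N : ℝ) ≤ n := by exact_mod_cast hn
        linarith
      have h2 := hδb y (by rw [dist_comm]; linarith)
      rw [Real.dist_eq, abs_lt] at h2
      linarith [h2.1]
    exact this.filter_mono hU
  have hzero : ∀ᶠ n in (U : Filter ℕ), (σs n : Measure Z) G = 0 := by
    filter_upwards [ha, hbn] with n h1 h2
    obtain ⟨y, hy, hyb⟩ := h2
    have hsub : G ⊆ (⋃ z ∈ (F n).filter (fun z => z ∈ G), {z}) ∪ ((F n : Set Z))ᶜ := by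
      intro z hz
      by_cases hzF : z ∈ F n
      · left
        exact mem_biUnion (Finset.mem_filter.mpr ⟨hzF, hz⟩) rfl
      · right
        exact hzF
    refine measure_mono_null hsub (measure_union_null ?_ (hσF n))
    refine (measure_biUnion_null_iff (Finset.countable_toSet _)).mpr fun z hz => ?_
    obtain ⟨hzF, hzG⟩ := Finset.mem_filter.mp hz
    by_contra hne
    have hpos : 0 < (σs n : Measure Z) {z} := pos_iff_ne_zero.mpr hne
    have h3 := hσeq n z hzF hpos y hy
    have h4 := h1 z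
    have h5 := h1 y
    rw [Real.dist_eq, abs_lt] at h4 h5
    have h6 : b z < b zs - 1 / (k + 1 : ℝ) := hzG
    simp only [hb] at h6 hyb
    rw [hε4] at h6
    linarith [h4.1, h4.2, h5.1, h5.2]
  have hle := ProbabilityMeasure.le_liminf_measure_open_of_tendsto hlim hGo
  rw [Filter.liminf_congr hzero, Filter.liminf_const] at hle
  exact le_antisymm hle zero_le

end Claimed.Agent.R322.Sx.Contact
end

/- ===== packed: Claimed.Agent.R322.Sx.Contact.Main ===== -/
section
/-!
# AE Lemma 4.1 (contact measure)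
-/

set_option autoImplicit false

namespace Claimed.Agent.R322.Sx.Contact

open MeasureTheory Set Metric
open scoped ENNReal NNReal

variable {m : ℕ}

/-- first partial derivative of the potential -/
noncomputable def pot1 (R : ℝ) (gp gm : Measure (E m)) (i : Fin m) (x : E m) (s : ℝ) : ℝ :=
  ∫ y, Nk1 m R s i (x - y) ∂gp - ∫ y, Nk1 m R s i (x - y) ∂gm

/-- second partial derivative of the potential -/
noncomputable def pot2 (R : ℝ) (gp gm : Measure (E m)) (i : Fin m) (x : E m) (s : ℝ) : ℝ :=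
  ∫ y, Nk2 m R s i (x - y) ∂gp - ∫ y, Nk2 m R s i (x - y) ∂gm

/-- admissible kernels: jointly continuous on `s > 0`, bounded on `a ≤ s ≤ A` -/
structure PotKer (K : ℝ → E m → ℝ) : Prop where
  cont : ContinuousOn (fun p : E m × ℝ => K p.2 p.1) (univ ×ˢ Ioi 0)
  bdd : ∀ a A : ℝ, 0 < a → ∃ C : ℝ, ∀ s, a ≤ s → s ≤ A → ∀ x, |K s x| ≤ C

theorem PotKer.continuousAt {K : ℝ → E m → ℝ} (hK : PotKer K) (p : E m × ℝ) (hp : 0 < p.2) :
    ContinuousAt (fun p : E m × ℝ => K p.2 p.1) p :=
  hK.cont.continuousAt ((isOpen_univ.prod isOpen_Ioi).mem_nhds ⟨mem_univ _, hp⟩)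

theorem PotKer.continuous_slice {K : ℝ → E m → ℝ} (hK : PotKer K) {s : ℝ} (hs : 0 < s) :
    Continuous (K s) := by
  have h : Continuous fun x : E m => (x, s) := by fun_prop
  exact hK.cont.comp_continuous h fun x => ⟨mem_univ _, hs⟩

theorem PotKer.aesm {K : ℝ → E m → ℝ} (hK : PotKer K) (μ : Measure (E m)) {s : ℝ} (hs : 0 < s)
    (x : E m) : AEStronglyMeasurable (fun y => K s (x - y)) μ :=
  ((hK.continuous_slice hs).comp (continuous_const.sub continuous_id)).aestronglyMeasurable

theorem PotKer.integrable {K : ℝ → E m → ℝ} (hK : PotKer K) (μ : Measure (E m)) [IsFiniteMeasure μ]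
    {s : ℝ} (hs : 0 < s) (x : E m) : Integrable (fun y => K s (x - y)) μ := by
  obtain ⟨C, hC⟩ := hK.bdd s s hs
  exact Integrable.of_bound (hK.aesm μ hs x) C
    (Filter.Eventually.of_forall fun y => hC s le_rfl le_rfl _)

theorem PotKer.continuousOn_conv {K : ℝ → E m → ℝ} (hK : PotKer K) (μ : Measure (E m))
    [IsFiniteMeasure μ] :
    ContinuousOn (fun p : E m × ℝ => ∫ y, K p.2 (p.1 - y) ∂μ) (univ ×ˢ Ioi 0) := by
  intro p₀ hp₀
  have hs₀ : 0 < p₀.2 := hp₀.2
  refine ContinuousAt.continuousWithinAt ?_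
  obtain ⟨C, hC⟩ := hK.bdd (p₀.2 / 2) (2 * p₀.2) (by positivity)
  have hev : ∀ᶠ p : E m × ℝ in nhds p₀, p₀.2 / 2 < p.2 ∧ p.2 < 2 * p₀.2 := by
    have h1 : ∀ᶠ p : E m × ℝ in nhds p₀, p₀.2 / 2 < p.2 :=
      continuous_snd.continuousAt.eventually (lt_mem_nhds (by linarith))
    have h2 : ∀ᶠ p : E m × ℝ in nhds p₀, p.2 < 2 * p₀.2 :=
      continuous_snd.continuousAt.eventually (gt_mem_nhds (by linarith))
    exact h1.and h2
  refine continuousAt_of_dominated (bound := fun _ => C) ?_ ?_ (integrable_const C) ?_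
  · exact hev.mono fun p hp => hK.aesm μ (by linarith [hp.1]) p.1
  · exact hev.mono fun p hp => Filter.Eventually.of_forall fun y => hC p.2 hp.1.le hp.2.le _
  · refine Filter.Eventually.of_forall fun y => ?_
    have h1 : ContinuousAt (fun p : E m × ℝ => (p.1 - y, p.2)) p₀ := by fun_prop
    exact ContinuousAt.comp (f := fun p : E m × ℝ => (p.1 - y, p.2))
      (g := fun p : E m × ℝ => K p.2 p.1) (hK.continuousAt (p₀.1 - y, p₀.2) hs₀) h1

theorem pot_hasDerivAt_space (K K' : E m → ℝ) (e : E m) (hKc : Continuous K) (hK'c : Continuous K')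
    (C : ℝ) (hKb : ∀ x, |K x| ≤ C) (hK'b : ∀ x, |K' x| ≤ C)
    (hd : ∀ x, HasDerivAt (fun t : ℝ => K (x + t • e)) (K' x) 0) (μ : Measure (E m))
    [IsFiniteMeasure μ] (x : E m) :
    HasDerivAt (fun t : ℝ => ∫ y, K (x + t • e - y) ∂μ) (∫ y, K' (x - y) ∂μ) 0 := by
  have hm : ∀ (G : E m → ℝ), Continuous G → ∀ t : ℝ,
      AEStronglyMeasurable (fun y => G (x + t • e - y)) μ := fun G hG t =>
    (hG.comp (continuous_const.sub continuous_id)).aestronglyMeasurable
  have key := hasDerivAt_integral_of_dominated_loc_of_deriv_le (μ := μ) (x₀ := (0 : ℝ))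
    (F := fun t y => K (x + t • e - y)) (F' := fun t y => K' (x + t • e - y))
    (bound := fun _ => C) (s := univ) Filter.univ_mem
    (Filter.Eventually.of_forall fun t => hm K hKc t)
    (Integrable.of_bound (hm K hKc 0) C (Filter.Eventually.of_forall fun y => hKb _))
    (hm K' hK'c 0)
    (Filter.Eventually.of_forall fun y t _ => hK'b _) (integrable_const C)
    (Filter.Eventually.of_forall fun y t _ => by
      have h3 := hd (x + t • e - y)
      have h5 : HasDerivAt (fun τ : ℝ => K (x + t • e - y + τ • e)) (K' (x + t • e - y)) (t - t) := by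
        rw [sub_self]; exact h3
      have h4 := h5.comp_sub_const t t
      have h6 : (fun u : ℝ => K (x + t • e - y + (u - t) • e)) = fun u : ℝ => K (x + u • e - y) := by
        funext u
        congr 1
        rw [sub_smul]
        abel
      rwa [h6] at h4)
  have h7 := key.2
  simpa using h7

theorem pot_hasDerivAt_scale (K K' : ℝ → E m → ℝ) (hK : PotKer K) (hK' : PotKer K')
    (hd : ∀ s, 0 < s → ∀ x, HasDerivAt (fun v => K v x) (K' s x) s) (μ : Measure (E m))
    [IsFiniteMeasure μ] (x : E m) (s : ℝ) (hs : 0 < s) :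
    HasDerivAt (fun v => ∫ y, K v (x - y) ∂μ) (∫ y, K' s (x - y) ∂μ) s := by
  obtain ⟨C, hC⟩ := hK'.bdd (s / 2) (2 * s) (by positivity)
  have hnhds : Ioo (s / 2) (2 * s) ∈ nhds s := Ioo_mem_nhds (by linarith) (by linarith)
  have key := hasDerivAt_integral_of_dominated_loc_of_deriv_le (μ := μ) (x₀ := s)
    (F := fun v y => K v (x - y)) (F' := fun v y => K' v (x - y))
    (bound := fun _ => C) (s := Ioo (s / 2) (2 * s)) hnhds
    (Filter.eventually_of_mem hnhds fun v hv => hK.aesm μ (by linarith [hv.1]) x)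
    (hK.integrable μ hs x) (hK'.aesm μ hs x)
    (Filter.Eventually.of_forall fun y v hv => hC v hv.1.le hv.2.le _) (integrable_const C)
    (Filter.Eventually.of_forall fun y v hv => hd v (by linarith [hv.1]) _)
  exact key.2

theorem potKer_Nk (R : ℝ) (hR : 0 < R) : PotKer (fun s x => Nk m R s x) :=
  ⟨(Nk_facts R hR).2.2.1, fun a _ ha => by
    obtain ⟨C, hC⟩ := Nk_bounds (m := m) R a hR ha
    exact ⟨C, fun s hs _ x => (hC s hs x).1⟩⟩

theorem potKer_theta (R : ℝ) (hR : 0 < R) : PotKer (fun s x => theta m R s x) :=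
  ⟨(theta_facts R hR).2.2.2, fun a _ ha => by
    obtain ⟨C, hC⟩ := Nk_bounds (m := m) R a hR ha
    exact ⟨C, fun s hs _ x => (hC s hs x).2.1⟩⟩

theorem potKer_Nk1 (R : ℝ) (hR : 0 < R) (i : Fin m) : PotKer (fun s x => Nk1 m R s i x) :=
  ⟨(Nk_facts R hR).2.2.2.1 i, fun a _ ha => by
    obtain ⟨C, hC⟩ := Nk_bounds (m := m) R a hR ha
    exact ⟨C, fun s hs _ x => (hC s hs x).2.2.1 i⟩⟩

theorem potKer_Nk2 (R : ℝ) (hR : 0 < R) (i : Fin m) : PotKer (fun s x => Nk2 m R s i x) :=
  ⟨(Nk_facts R hR).2.2.2.2 i, fun a _ ha => by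
    obtain ⟨C, hC⟩ := Nk_bounds (m := m) R a hR ha
    exact ⟨C, fun s hs _ x => (hC s hs x).2.2.2 i⟩⟩

theorem potKer_dscale (R : ℝ) (hR : 0 < R) :
    PotKer (fun s x => -(s * (theta m R s x - (R ^ m)⁻¹))) := by
  refine ⟨?_, fun a A ha => ?_⟩
  · have h1 := (potKer_theta (m := m) R hR).cont
    have h2 : ContinuousOn (fun p : E m × ℝ => p.2) (univ ×ˢ Ioi 0) := continuous_snd.continuousOn
    exact (h2.mul (h1.sub continuousOn_const)).neg
  · obtain ⟨C, hC⟩ := (potKer_theta (m := m) R hR).bdd a A ha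
    refine ⟨A * (C + |(R ^ m)⁻¹|), fun s hs hsA x => ?_⟩
    have hs0 : 0 ≤ s := ha.le.trans hs
    rw [abs_neg, abs_mul, abs_of_nonneg hs0]
    have h1 : |theta m R s x - (R ^ m)⁻¹| ≤ C + |(R ^ m)⁻¹| :=
      (abs_sub _ _).trans (add_le_add (hC s hs hsA x) le_rfl)
    exact mul_le_mul hsA h1 (abs_nonneg _) (hs0.trans hsA)

theorem pav_eq_conv (R : ℝ) (hR : 0 < R) (μ : Measure (E m)) (s : ℝ) (x : E m) :
    pav R μ s x = ∫ y, theta m R s (x - y) ∂μ := by
  unfold pav
  refine integral_congr_ae (Filter.Eventually.of_forall fun y => ?_)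
  simp only
  rw [← (theta_facts R hR).2.2.1 s (x - y), neg_sub]

theorem pot_integral_dscale (R : ℝ) (hR : 0 < R) (μ : Measure (E m)) [IsFiniteMeasure μ]
    (s : ℝ) (hs : 0 < s) (x : E m) :
    ∫ y, -(s * (theta m R s (x - y) - (R ^ m)⁻¹)) ∂μ
      = -(s * (pav R μ s x - (R ^ m)⁻¹ * (μ univ).toReal)) := by
  have hi := (potKer_theta (m := m) R hR).integrable μ hs x
  rw [integral_neg, integral_const_mul, integral_sub hi (integrable_const _), integral_const,
    pav_eq_conv R hR, smul_eq_mul, mul_comm ((R ^ m)⁻¹)]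
  rfl

/-- [leaf P1] calculus of the heat potential of a signed measure of zero mass
(differentiation under the integral sign; bounds `Nk_bounds`). -/
theorem pot_facts (R : ℝ) (hR : 0 < R) (gp gm : Measure (E m)) [IsFiniteMeasure gp]
    [IsFiniteMeasure gm] (hmass : gp univ = gm univ) :
    ContinuousOn (fun p : E m × ℝ => pot R gp gm p.1 p.2) (univ ×ˢ Ioi 0) ∧
    (∀ (k : Fin m → ℤ) x s, pot R gp gm (x + lat m R k) s = pot R gp gm x s) ∧
    (∀ x s, 0 < s → HasDerivAt (fun v => pot R gp gm x v) (-(s * (pav R gp s x - pav R gm s x))) s) ∧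
    (∀ i x s, 0 < s →
      HasDerivAt (fun t : ℝ => pot R gp gm (x + t • eb i) s) (pot1 R gp gm i x s) 0) ∧
    (∀ i x s, 0 < s →
      HasDerivAt (fun t : ℝ => pot1 R gp gm i (x + t • eb i) s) (pot2 R gp gm i x s) 0) ∧
    (∀ x s, 0 < s → ∑ i, pot2 R gp gm i x s = -(pav R gp s x - pav R gm s x)) ∧
    (∀ x, ContinuousOn (fun v => v * (pav R gp v x - pav R gm v x)) (Ioi 0)) := by
  refine ⟨?_, ?_, ?_, ?_, ?_, ?_, ?_⟩
  · exact ((potKer_Nk R hR).continuousOn_conv gp).sub ((potKer_Nk R hR).continuousOn_conv gm)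
  · intro k x s
    unfold pot
    have h : ∀ y, Nk m R s (x + lat m R k - y) = Nk m R s (x - y) := by
      intro y
      rw [← (Nk_facts R hR).1 s (x - y) k]
      congr 1
      abel
    simp only [h]
  · intro x s hs
    have h1 := pot_hasDerivAt_scale _ _ (potKer_Nk (m := m) R hR) (potKer_dscale R hR)
      (fun s hs x => hasDerivAt_Nk_scale R s hR hs x) gp x s hs
    have h2 := pot_hasDerivAt_scale _ _ (potKer_Nk (m := m) R hR) (potKer_dscale R hR)
      (fun s hs x => hasDerivAt_Nk_scale R s hR hs x) gm x s hs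
    have h3 := h1.sub h2
    rw [pot_integral_dscale R hR gp s hs x, pot_integral_dscale R hR gm s hs x, hmass] at h3
    have e : -(s * (pav R gp s x - pav R gm s x))
        = -(s * (pav R gp s x - (R ^ m)⁻¹ * (gm univ).toReal))
          - -(s * (pav R gm s x - (R ^ m)⁻¹ * (gm univ).toReal)) := by ring
    rw [e]
    exact h3
  · intro i x s hs
    obtain ⟨C, hC⟩ := Nk_bounds (m := m) R s hR hs
    have h := fun μ [IsFiniteMeasure μ] => pot_hasDerivAt_space (Nk m R s) (Nk1 m R s i) (eb i)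
      ((potKer_Nk R hR).continuous_slice hs) ((potKer_Nk1 R hR i).continuous_slice hs) C
      (fun x => (hC s le_rfl x).1) (fun x => (hC s le_rfl x).2.2.1 i)
      (fun x => (hasDerivAt_Nk_space R s hR hs x i).1) μ x
    exact (h gp).sub (h gm)
  · intro i x s hs
    obtain ⟨C, hC⟩ := Nk_bounds (m := m) R s hR hs
    have h := fun μ [IsFiniteMeasure μ] => pot_hasDerivAt_space (Nk1 m R s i) (Nk2 m R s i) (eb i)
      ((potKer_Nk1 R hR i).continuous_slice hs) ((potKer_Nk2 R hR i).continuous_slice hs) C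
      (fun x => (hC s le_rfl x).2.2.1 i) (fun x => (hC s le_rfl x).2.2.2 i)
      (fun x => (hasDerivAt_Nk_space R s hR hs x i).2) μ x
    exact (h gp).sub (h gm)
  · intro x s hs
    have h : ∀ (μ : Measure (E m)) [IsFiniteMeasure μ], ∑ i, ∫ y, Nk2 m R s i (x - y) ∂μ
        = -(pav R μ s x - (R ^ m)⁻¹ * (μ univ).toReal) := by
      intro μ _
      rw [← integral_finsetSum _ fun i _ => (potKer_Nk2 R hR i).integrable μ hs x]
      simp only [laplace_Nk R s hR hs]
      have hi := (potKer_theta (m := m) R hR).integrable μ hs x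
      rw [integral_neg, integral_sub hi (integrable_const _), integral_const,
        pav_eq_conv R hR, smul_eq_mul, mul_comm ((R ^ m)⁻¹)]
      rfl
    unfold pot2
    rw [Finset.sum_sub_distrib, h gp, h gm, hmass]
    ring
  · intro x
    have h : ∀ (μ : Measure (E m)) [IsFiniteMeasure μ],
        ContinuousOn (fun v => pav R μ v x) (Ioi 0) := by
      intro μ _
      have h1 := (potKer_theta (m := m) R hR).continuousOn_conv μ
      have h2 : ContinuousOn (fun v : ℝ => (x, v)) (Ioi 0) := by fun_prop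
      have h3 := h1.comp h2 (fun v hv => ⟨mem_univ _, hv⟩)
      refine h3.congr fun v _ => ?_
      exact pav_eq_conv R hR μ v x
    exact continuousOn_id.mul ((h gp).sub (h gm))

/-- sign of the derivative at a right-sided local maximum -/
theorem pot_deriv_nonpos_of_right_max (g : ℝ → ℝ) (g' s : ℝ) (hg : HasDerivAt g g' s)
    (hmax : ∀ᶠ v in nhdsWithin s (Ioi s), g v ≤ g s) : g' ≤ 0 := by
  have h1 : Filter.Tendsto (slope g s) (nhdsWithin s (Ioi s)) (nhds g') :=
    (hasDerivAt_iff_tendsto_slope.1 hg).mono_left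
      (nhdsWithin_mono _ fun v hv => ne_of_gt hv)
  refine le_of_tendsto h1 ?_
  filter_upwards [hmax, self_mem_nhdsWithin] with v hv hvs
  rw [slope_def_field]
  exact div_nonpos_of_nonpos_of_nonneg (by linarith) (by
    have : s < v := hvs
    linarith)

theorem pav_add_measure (R : ℝ) (hR : 0 < R) (μ ν : Measure (E m)) [IsFiniteMeasure μ]
    [IsFiniteMeasure ν] (s : ℝ) (hs : 0 < s) (x : E m) :
    pav R (μ + ν) s x = pav R μ s x + pav R ν s x := by
  rw [pav_eq_conv R hR, pav_eq_conv R hR, pav_eq_conv R hR]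
  exact integral_add_measure ((potKer_theta R hR).integrable μ hs x)
    ((potKer_theta R hR).integrable ν hs x)

/-- **AE Lemma 4.1 (contact measure).**  `f = fp - fm` finite signed measure of positive mass
`Mf`; `σ` is a probability measure carried by a compact set `S` of entrance boundary points over the
closed cube; `h = Mf · (π_X)_# σ`; at every point of `S` the two contact inequalities (4.2) hold. -/
theorem contact (R a stop : ℝ) (hR : 0 < R) (ha : 0 < a) (hst : a < stop)
    (fp fm : Measure (E m)) [IsFiniteMeasure fp] [IsFiniteMeasure fm] (hM : fm univ < fp univ)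
    (𝒟 : Set (E m × ℝ)) (h𝒟 : IsCont R a stop 𝒟) :
    ∃ (σ : Measure (E m × ℝ)) (S : Set (E m × ℝ)), IsProbabilityMeasure σ ∧ IsCompact S ∧
      S ⊆ entr 𝒟 ∩ cube m R ×ˢ Icc a stop ∧ σ Sᶜ = 0 ∧
      ∀ h : Measure (E m), h = (fp univ - fm univ) • σ.map Prod.fst →
        ∀ z ∈ S,
          0 ≤ pav R fp z.2 z.1 - pav R fm z.2 z.1 - pav R h z.2 z.1 ∧
          ∀ s, z.2 ≤ s →
            0 ≤ ∫ v in z.2..s, v * (pav R fp v z.1 - pav R fm v z.1 - pav R h v z.1) := by
  obtain ⟨-, -, -, -, hΓc, hΓne⟩ := entr_facts R a stop hR ha hst 𝒟 h𝒟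
  set Γ : Set (E m × ℝ) := entr 𝒟 ∩ cube m R ×ˢ Icc a stop with hΓ
  have : CompactSpace ↥Γ := isCompact_iff_compactSpace.1 hΓc
  have : Nonempty ↥Γ := hΓne.to_subtype
  have hpos : ∀ z : ↥Γ, 0 < z.1.2 := fun z => lt_of_lt_of_le ha z.2.2.2.1
  set c : ℝ≥0∞ := fp univ - fm univ with hc
  have hctop : c ≠ ⊤ := ne_top_of_le_ne_top (measure_ne_top fp univ) tsub_le_self
  set β : ↥Γ → ℝ := fun z => pot R fp fm z.1.1 z.1.2 with hβdef
  set κ : ↥Γ → ↥Γ → ℝ := fun z w => c.toReal * Nk m R z.1.2 (z.1.1 - w.1.1) with hκdef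
  have hβ : Continuous β := by
    have h1 : ContinuousOn (fun p : E m × ℝ => pot R fp fm p.1 p.2) (univ ×ˢ Ioi 0) :=
      ((potKer_Nk R hR).continuousOn_conv fp).sub ((potKer_Nk R hR).continuousOn_conv fm)
    exact h1.comp_continuous continuous_subtype_val fun z => ⟨mem_univ _, hpos z⟩
  have hκ : Continuous (fun p : ↥Γ × ↥Γ => κ p.1 p.2) := by
    have h1 : Continuous fun p : ↥Γ × ↥Γ => (p.1.1.1 - p.2.1.1, p.1.1.2) := by fun_prop
    exact continuous_const.mul
      ((potKer_Nk (m := m) R hR).cont.comp_continuous h1 fun p => ⟨mem_univ _, hpos p.1⟩)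
  obtain ⟨σZ, SZ, hSZcl, hSZ0, hopt⟩ := exists_equilibrium β κ hβ hκ
  have hσprob : IsProbabilityMeasure ((σZ : Measure ↥Γ).map Subtype.val) :=
    Measure.isProbabilityMeasure_map measurable_subtype_coe.aemeasurable
  have hScomp : IsCompact (Subtype.val '' SZ) := hSZcl.isCompact.image continuous_subtype_val
  refine ⟨(σZ : Measure ↥Γ).map Subtype.val, Subtype.val '' SZ, hσprob, hScomp, ?_, ?_, ?_⟩
  · rintro _ ⟨z, -, rfl⟩
    exact z.2
  · rw [Measure.map_apply measurable_subtype_coe hScomp.isClosed.measurableSet.compl,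
      preimage_compl, preimage_image_eq _ Subtype.val_injective]
    exact hSZ0
  intro h hh
  have hmap : ((σZ : Measure ↥Γ).map Subtype.val).map Prod.fst
      = (σZ : Measure ↥Γ).map (fun w : ↥Γ => w.1.1) :=
    Measure.map_map measurable_fst measurable_subtype_coe
  rw [hmap] at hh
  have hπprob : IsProbabilityMeasure ((σZ : Measure ↥Γ).map (fun w : ↥Γ => w.1.1)) :=
    Measure.isProbabilityMeasure_map (measurable_fst.comp measurable_subtype_coe).aemeasurable
  have hhfin : IsFiniteMeasure h := by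
    rw [hh]
    exact Measure.smul_finite _ hctop
  have hmass : fp univ = (fm + h) univ := by
    have h1 : ((σZ : Measure ↥Γ).map (fun w : ↥Γ => w.1.1)) univ = 1 := measure_univ
    rw [Measure.add_apply, hh, Measure.smul_apply, h1, smul_eq_mul, mul_one, hc]
    exact (add_tsub_cancel_of_le hM.le).symm
  -- integrals against `h`
  have hinth : ∀ (s : ℝ), 0 < s → ∀ x : E m, ∫ y, Nk m R s (x - y) ∂h
      = c.toReal * ∫ w : ↥Γ, Nk m R s (x - w.1.1) ∂(σZ : Measure ↥Γ) := by
    intro s hs x
    have hmeas : Measurable (fun w : ↥Γ => w.1.1) := measurable_fst.comp measurable_subtype_coe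
    rw [hh, integral_smul_measure, smul_eq_mul,
      integral_map hmeas.aemeasurable ((potKer_Nk R hR).aesm _ hs x)]
  have hbeq : ∀ z : ↥Γ, pot R fp (fm + h) z.1.1 z.1.2
      = β z - ∫ w, κ z w ∂(σZ : Measure ↥Γ) := by
    intro z
    simp only [hβdef, hκdef, pot]
    rw [integral_add_measure ((potKer_Nk R hR).integrable fm (hpos z) _)
      ((potKer_Nk R hR).integrable h (hpos z) _), hinth _ (hpos z), integral_const_mul]
    ring
  obtain ⟨c1, c2, c3, c4, c5, c6, c7⟩ := pot_facts R hR fp (fm + h) hmass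
  have hmaxpr := max_principle R a stop hR ha hst 𝒟 h𝒟 (pot R fp (fm + h))
    (fun x s => -(s * (pav R fp s x - pav R (fm + h) s x))) (pot1 R fp (fm + h))
    (pot2 R fp (fm + h)) c1 c2 c3 c4 c5 (fun x s hs => by rw [c6 x s hs]; ring)
  rintro _ ⟨z, hz, rfl⟩
  have hzpos := hpos z
  have hglob : ∀ x s, (x, s) ∈ 𝒟 → pot R fp (fm + h) x s ≤ pot R fp (fm + h) z.1.1 z.1.2 := by
    intro x s hxs
    obtain ⟨z', hz', hle⟩ := hmaxpr x s hxs
    have h1 := hopt z hz ⟨z', hz'⟩
    rw [← hbeq, ← hbeq] at h1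
    exact hle.trans h1
  have hz𝒟 : (z.1.1, z.1.2) ∈ 𝒟 := z.2.1.1
  have hup : ∀ s, z.1.2 ≤ s → pot R fp (fm + h) z.1.1 s ≤ pot R fp (fm + h) z.1.1 z.1.2 :=
    fun s hs => hglob _ _ (h𝒟.up _ _ _ hz𝒟 hs)
  have hD : ∀ v, 0 < v → ∀ x, pav R fp v x - pav R (fm + h) v x
      = pav R fp v x - pav R fm v x - pav R h v x := by
    intro v hv x
    rw [pav_add_measure R hR fm h v hv x]
    ring
  constructor
  · have h1 := pot_deriv_nonpos_of_right_max _ _ _ (c3 z.1.1 z.1.2 hzpos)
      (Filter.eventually_of_mem self_mem_nhdsWithin fun v hv => hup v (le_of_lt hv))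
    rw [hD _ hzpos] at h1
    by_contra hcon
    push Not at hcon
    have := mul_neg_of_pos_of_neg hzpos hcon
    linarith
  · intro s hs
    have hsub : uIcc z.1.2 s ⊆ Ioi (0 : ℝ) := by
      rw [uIcc_of_le hs]
      exact fun v hv => lt_of_lt_of_le hzpos hv.1
    have hftc := intervalIntegral.integral_eq_sub_of_hasDerivAt
      (f := fun v => pot R fp (fm + h) z.1.1 v)
      (f' := fun v => -(v * (pav R fp v z.1.1 - pav R (fm + h) v z.1.1)))
      (a := z.1.2) (b := s) (fun v hv => c3 z.1.1 v (hsub hv))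
      (((c7 z.1.1).mono hsub).neg.intervalIntegrable)
    rw [intervalIntegral.integral_neg] at hftc
    have hcongr : ∫ v in z.1.2..s, v * (pav R fp v z.1.1 - pav R fm v z.1.1 - pav R h v z.1.1)
        = ∫ v in z.1.2..s, v * (pav R fp v z.1.1 - pav R (fm + h) v z.1.1) :=
      intervalIntegral.integral_congr fun v hv => by
        rw [hD v (hsub hv)]
    rw [hcongr]
    have := hup s hs
    linarith

end Claimed.Agent.R322.Sx.Contact
end

/- ===== packed: Claimed.Agent.R322.Sx.Contact.LocUnfold ===== -/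
section
/-!
# AE Lemma 4.2, part 2: Lebesgue measure on the torus

The volume measure of the torus of period `p` is modelled by Lebesgue measure on the HALF-OPEN cube
`hcube m p x0` (its lattice translates tile `E m` exactly, no null sets).  Unfolding:
`∫_{hcube} ∑_k F(y + p k) dy = ∫ F`, hence the periodised Gaussian average of the torus volume is `1`.
Blueprint: helper43.
-/

set_option autoImplicit false

namespace Claimed.Agent.R322.Sx.Contact

open MeasureTheory Set Metric
open scoped ENNReal NNReal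

variable {m : ℕ}

/-- half-open fundamental cube centred at `x0` -/
def hcube (m : ℕ) (p : ℝ) (x0 : E m) : Set (E m) := {y | ∀ i, y i - x0 i ∈ Ico (-(p / 2)) (p / 2)}

/-- [LU1] -/
theorem measurableSet_hcube (p : ℝ) (x0 : E m) : MeasurableSet (hcube m p x0) := by
  have h : hcube m p x0 = ⋂ i : Fin m, (fun y : E m => y i - x0 i) ⁻¹' Ico (-(p / 2)) (p / 2) := by
    ext y
    simp [hcube]
  rw [h]
  refine MeasurableSet.iInter fun i => ?_
  have hc : Continuous fun y : E m => y i - x0 i :=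
    (EuclideanSpace.proj i).continuous.sub continuous_const
  exact hc.measurable measurableSet_Ico

theorem mem_hcube_iff (p : ℝ) (hp : 0 < p) (x0 y : E m) (k : Fin m → ℤ) :
    y - lat m p k ∈ hcube m p x0 ↔ ∀ i, ⌊(y i - x0 i + p / 2) / p⌋ = k i := by
  unfold hcube
  simp only [mem_ofPred_eq]
  refine forall_congr' fun i => ?_
  have e : (y - lat m p k) i - x0 i = y i - x0 i - p * (k i : ℝ) := by
    simp [lat]
    ring
  rw [e, Int.floor_eq_iff, le_div_iff₀ hp, div_lt_iff₀ hp, mem_Ico]
  constructor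
  · rintro ⟨h1, h2⟩
    constructor <;> linarith
  · rintro ⟨h1, h2⟩
    constructor <;> linarith

/-- [LU1] exactly one lattice translate of `y` lies in the half-open cube:
`k i = ⌊(y i - x0 i + p/2)/p⌋` (`Int.floor_eq_iff`). -/
theorem existsUnique_hcube (p : ℝ) (hp : 0 < p) (x0 y : E m) :
    ∃! k : Fin m → ℤ, y - lat m p k ∈ hcube m p x0 := by
  refine ⟨fun i => ⌊(y i - x0 i + p / 2) / p⌋, (mem_hcube_iff p hp x0 y _).2 fun i => rfl, ?_⟩
  intro k hk
  funext i
  exact ((mem_hcube_iff p hp x0 y k).1 hk i).symm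

theorem tsum_indicator_hcube (p : ℝ) (hp : 0 < p) (x0 y : E m) :
    ∑' k : Fin m → ℤ, (hcube m p x0).indicator (1 : E m → ℝ≥0∞) (y - lat m p k) = 1 := by
  obtain ⟨k0, hk0, huniq⟩ := existsUnique_hcube p hp x0 y
  rw [tsum_eq_single k0 fun k hk => indicator_of_notMem (fun hmem => hk (huniq k hmem)) _,
    indicator_of_mem hk0]
  rfl

/-- [LU1] **unfolding.** -/
theorem lintegral_hcube_tsum (p : ℝ) (hp : 0 < p) (x0 : E m) (F : E m → ℝ≥0∞) (hF : Measurable F) :
    ∫⁻ y in hcube m p x0, ∑' k : Fin m → ℤ, F (y + lat m p k) = ∫⁻ y, F y := by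
  have hH := measurableSet_hcube (m := m) p x0
  set H := hcube m p x0 with hHdef
  set G : (Fin m → ℤ) → E m → ℝ≥0∞ := fun k y =>
    H.indicator (1 : E m → ℝ≥0∞) (y - lat m p k) * F y with hG
  have hGm : ∀ k, Measurable (G k) := fun k =>
    ((measurable_one.indicator hH).comp (measurable_id.sub_const _)).mul hF
  have h1 : ∀ y, H.indicator (fun y => ∑' k : Fin m → ℤ, F (y + lat m p k)) y
      = ∑' k : Fin m → ℤ, G k (y + lat m p k) := by
    intro y
    simp only [hG, add_sub_cancel_right]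
    by_cases hy : y ∈ H
    · simp [indicator_of_mem hy]
    · simp [indicator_of_notMem hy]
  calc ∫⁻ y in H, ∑' k : Fin m → ℤ, F (y + lat m p k)
      = ∫⁻ y, H.indicator (fun y => ∑' k : Fin m → ℤ, F (y + lat m p k)) y :=
        (lintegral_indicator hH _).symm
    _ = ∫⁻ y, ∑' k : Fin m → ℤ, G k (y + lat m p k) := by simp only [h1]
    _ = ∑' k : Fin m → ℤ, ∫⁻ y, G k (y + lat m p k) :=
        lintegral_tsum fun k => ((hGm k).comp (measurable_id.add_const _)).aemeasurable
    _ = ∑' k : Fin m → ℤ, ∫⁻ y, G k y :=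
        tsum_congr fun k => lintegral_add_right_eq_self (G k) (lat m p k)
    _ = ∫⁻ y, ∑' k : Fin m → ℤ, G k y := (lintegral_tsum fun k => (hGm k).aemeasurable).symm
    _ = ∫⁻ y, F y := by
        refine lintegral_congr fun y => ?_
        simp only [hG]
        rw [ENNReal.tsum_mul_right, tsum_indicator_hcube p hp x0 y, one_mul]

/-- [LU2] [`PiLp.volume_preserving_ofLp`, `Real.volume_pi_Ico`] -/
theorem volume_hcube (p : ℝ) (hp : 0 < p) (x0 : E m) :
    volume (hcube m p x0) = ENNReal.ofReal (p ^ m) := by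
  have h : hcube m p x0 = (WithLp.ofLp : E m → Fin m → ℝ) ⁻¹'
      (Set.pi univ fun i => Ico (x0 i - p / 2) (x0 i + p / 2)) := by
    ext y
    simp only [hcube, mem_ofPred_eq, mem_preimage, mem_pi, mem_univ, true_imp_iff, mem_Ico]
    refine forall_congr' fun i => ?_
    constructor
    · rintro ⟨h1, h2⟩
      constructor <;> linarith
    · rintro ⟨h1, h2⟩
      constructor <;> linarith
  rw [h, (PiLp.volume_preserving_ofLp (Fin m)).measure_preimage
    (MeasurableSet.univ_pi fun i => measurableSet_Ico).nullMeasurableSet, Real.volume_pi_Ico]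
  have : ∀ i : Fin m, ENNReal.ofReal (x0 i + p / 2 - (x0 i - p / 2)) = ENNReal.ofReal p := by
    intro i
    congr 1
    ring
  simp only [this, Finset.prod_const, Finset.card_univ, Fintype.card_fin]
  rw [ENNReal.ofReal_pow hp.le]

/-- [LU2] -/
theorem integral_gauss (s : ℝ) (hs : 0 < s) (x : E m) : ∫ y, gauss m s (y - x) = 1 := by
  rw [integral_sub_right_eq_self (fun y => gauss m s y) x]
  unfold gauss
  rw [integral_const_mul]
  have hb : (0 : ℝ) < (2 * s ^ 2)⁻¹ := by positivity
  have h := GaussianFourier.integral_rexp_neg_mul_sq_norm (V := E m) hb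
  have e : ∀ y : E m, Real.exp (-‖y‖ ^ 2 / (2 * s ^ 2)) = Real.exp (-(2 * s ^ 2)⁻¹ * ‖y‖ ^ 2) := by
    intro y
    congr 1
    field_simp
  simp only [e]
  rw [h, finrank_euclideanSpace_fin, div_inv_eq_mul]
  have e2 : Real.pi * (2 * s ^ 2) = 2 * Real.pi * s ^ 2 := by ring
  rw [e2, ← Real.rpow_add (by positivity)]
  have e3 : -(m : ℝ) / 2 + (m : ℝ) / 2 = 0 := by ring
  rw [e3, Real.rpow_zero]

theorem integrable_gauss (s : ℝ) (hs : 0 < s) (x : E m) :
    Integrable (fun y : E m => gauss m s (y - x)) :=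
  integrable_of_integral_eq_one (integral_gauss s hs x)

/-- [LU3] the periodised Gaussian average of the torus volume is `1` -/
theorem pav_hcube (p s : ℝ) (hp : 0 < p) (hs : 0 < s) (x0 x : E m) :
    pav p (volume.restrict (hcube m p x0)) s x = 1 := by
  unfold pav
  have hθc : Continuous fun y : E m => theta m p s (y - x) :=
    ((potKer_theta (m := m) p hp).continuous_slice hs).comp (continuous_id.sub continuous_const)
  have hθ0 : ∀ y : E m, 0 ≤ theta m p s (y - x) := fun y => ((theta_facts p hp).1 s hs _).le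
  rw [integral_eq_lintegral_of_nonneg_ae (Filter.Eventually.of_forall hθ0)
    hθc.aestronglyMeasurable]
  set F : E m → ℝ≥0∞ := fun y => ENNReal.ofReal (gauss m s (y - x)) with hF
  have hGc : Continuous fun y : E m => gauss m s (y - x) := by
    unfold gauss
    fun_prop
  have hFm : Measurable F := hGc.measurable.ennreal_ofReal
  have h1 : ∀ y : E m, ENNReal.ofReal (theta m p s (y - x))
      = ∑' k : Fin m → ℤ, F (y + lat m p k) := by
    intro y
    unfold theta
    rw [ENNReal.ofReal_tsum_of_nonneg (fun k => (gauss_pos s hs _).le)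
      (summable_gauss p s hp hs (y - x))]
    refine tsum_congr fun k => ?_
    simp only [hF]
    rw [add_sub_right_comm]
  simp only [h1]
  rw [lintegral_hcube_tsum p hp x0 F hFm, hF,
    ← ofReal_integral_eq_lintegral_ofReal (integrable_gauss s hs x)
      (Filter.Eventually.of_forall fun y => (gauss_pos s hs _).le), integral_gauss s hs x]
  simp

end Claimed.Agent.R322.Sx.Contact
end
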