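/- Packed by merge_tool.py (helper293): 7 modules of Claimed.Agent.R322 in one file, same declarations.
   Old modules, in this order: Sx.Signed, Sx.Contact.LocKer, Sx.Contact.LocSrc, Sx.Contact.LocShift, Sx.Contact.LocMain, Sx.Contact, Sx.Cutoff -/
import Claimed.Agent.R322.Pack019
import Claimed.Agent.R322.Pack040
import Claimed.Agent.R322.Pack014

/- ===== packed: Claimed.Agent.R322.Sx.Signed ===== -/
section
/-!
# R322 / Sx / Signed : statement of the signed-excess theorem (AE Theorem 3.1)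

`SignedAt m n Q` is AE Theorem 3.1 at the reference count `Q` for all valid sheeted systems.
The flat case is `γ = 0`, `lam = 0`.  "After an interior rescaling in the inherited frames" is
automatic: `Sys.Valid` is closed under `Sys.rescale` (`Ops.lean`), with the same `γ`.
The proof is by strong induction on `Q`; the induction step `signed_step` (AE Sections 4-6) and
the theorem `signed` are in `Sx/Main.lean`.
-/

set_option autoImplicit false

namespace Claimed.Agent.R322.Sx

open MeasureTheory Set Metric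
open scoped ENNReal NNReal InnerProductSpace

/-- The rate `F_Q(T) = exp_{2Q} (√(log_{2Q} T))`, AE (3.1). -/
noncomputable def FQ (Q : ℕ) (T : ℝ) : ℝ :=
  Real.exp^[2 * Q] (Real.sqrt (Real.log^[2 * Q] T))

/-- Admissible weight on `B_R(x)`: `0 ≤ w ≤ 1`, `Lip w ≤ 1/R`, `w = 0` outside `B_R(x)`. -/
structure IsWeight {m : ℕ} (w : E m → ℝ) (x : E m) (R : ℝ) : Prop where
  nonneg : ∀ y, 0 ≤ w y
  le_one : ∀ y, w y ≤ 1
  lip : ∀ y y', |w y - w y'| ≤ R⁻¹ * ‖y - y'‖
  supp : Function.support w ⊆ ball x R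

/-- Hypotheses of AE Theorem 3.1 on the unit scale: `B_4` available, `τ(B_4) ≤ e^{-T}`,
`γ ≤ e^{-κ T}`. -/
structure SignedHyp {m n : ℕ} (S : Sys m n) (Q : ℕ) (κ Cg T : ℝ) : Prop where
  valid : S.Valid
  Cg_le : S.Cg ≤ Cg
  room : ball (0 : E m) 4 ⊆ S.Ω
  small : S.tau Q (ball (0 : E m) 4) ≤ ENNReal.ofReal (Real.exp (-T))
  geom : S.γ ≤ Real.exp (-κ * T)

/-- AE Theorem 3.1 at the reference count `Q`. -/
def SignedAt (m n Q : ℕ) : Prop :=
  ∀ κ Cg : ℝ, 0 < κ → ∃ CQ T0 : ℝ, 0 < CQ ∧ ∀ (S : Sys m n) (T : ℝ), T0 ≤ T →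
    SignedHyp S Q κ Cg T → ∀ w : E m → ℝ, IsWeight w 0 1 →
      S.intL Q w - CQ * S.intLam w ≤ Real.exp (-(FQ Q T)) * Real.exp (-T)

end Claimed.Agent.R322.Sx
end

/- ===== packed: Claimed.Agent.R322.Sx.Contact.LocKer ===== -/
section
/-!
# AE Lemma 4.2 (uniform weight localisation), part 1: deterministic kernel estimates

Period `p = 16 R`.  `θ = theta m (16 R) s` periodised Gaussian, `G = gauss m s`.
For `x` in the closed cube centred at `x0`, every `y`, and an admissible weight `w` on `B_R(x0)`: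
`|θ(y - x) w(y) - w(x) G(y - x)| ≤ ε G(y - x) + locErr m R s ε`   (`loc_kernel_bound`),
and `locErr` is negligible at the scales `s ≤ η² R / T²`           (`loc_numeric`).
Blueprint + proofs: helper43.
-/

set_option autoImplicit false

namespace Claimed.Agent.R322.Sx.Contact

open MeasureTheory Set Metric
open scoped ENNReal NNReal

variable {m : ℕ}

/-- peak value of the Gaussian -/
noncomputable def pk (m : ℕ) (s : ℝ) : ℝ := (2 * Real.pi * s ^ 2) ^ (-(m : ℝ) / 2)

theorem pk_pos (s : ℝ) (hs : 0 < s) : 0 < pk m s := by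
  unfold pk
  positivity

theorem gauss_eq_pk (s : ℝ) (z : E m) :
    gauss m s z = pk m s * Real.exp (-‖z‖ ^ 2 / (2 * s ^ 2)) := rfl

/-- [LK1] -/
theorem gauss_le_of_le_norm (s : ℝ) (hs : 0 < s) (r : ℝ) (hr : 0 ≤ r) (z : E m) (hz : r ≤ ‖z‖) :
    gauss m s z ≤ pk m s * Real.exp (-(r ^ 2 / (2 * s ^ 2))) := by
  rw [gauss_eq_pk]
  refine mul_le_mul_of_nonneg_left (Real.exp_le_exp.2 ?_) (pk_pos s hs).le
  rw [neg_div, neg_le_neg_iff]
  have : r ^ 2 ≤ ‖z‖ ^ 2 := pow_le_pow_left₀ hr hz 2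
  gcongr

/-- [LK1] `(2π s²)^{-m/2} R^m ≤ (R/s)^m` -/
theorem pk_mul_pow_le (s R : ℝ) (hs : 0 < s) (hR : 0 ≤ R) : pk m s * R ^ m ≤ (R / s) ^ m := by
  have h1 : pk m s ≤ (s ^ m)⁻¹ := by
    unfold pk
    have h2 : (s ^ 2 : ℝ) ≤ 2 * Real.pi * s ^ 2 := by
      have hpi := Real.pi_gt_three
      have : 0 < s ^ 2 := by positivity
      nlinarith
    have hm0 : -(m : ℝ) / 2 ≤ 0 := by
      have : (0 : ℝ) ≤ m := Nat.cast_nonneg m
      linarith
    calc (2 * Real.pi * s ^ 2) ^ (-(m : ℝ) / 2) ≤ (s ^ 2) ^ (-(m : ℝ) / 2) :=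
          Real.rpow_le_rpow_of_nonpos (by positivity) h2 hm0
      _ = (s ^ m)⁻¹ := by
          rw [← Real.rpow_natCast s 2, ← Real.rpow_mul hs.le, ← Real.rpow_natCast s m,
            ← Real.rpow_neg hs.le]
          congr 1
          push_cast
          ring
  calc pk m s * R ^ m ≤ (s ^ m)⁻¹ * R ^ m := mul_le_mul_of_nonneg_right h1 (by positivity)
    _ = (R / s) ^ m := by rw [div_pow, div_eq_mul_inv, mul_comm]

/-- [LK1] near/far splitting of the commutator at distance `ε R` -/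
theorem loc_near_far (w : E m → ℝ) (x0 : E m) (R : ℝ) (hw : IsWeight w x0 R) (hR : 0 < R)
    (s : ℝ) (hs : 0 < s) (ε : ℝ) (hε : 0 ≤ ε) (x y : E m) :
    gauss m s (y - x) * |w y - w x|
      ≤ ε * gauss m s (y - x) + pk m s * Real.exp (-((ε * R) ^ 2 / (2 * s ^ 2))) := by
  have hG : 0 ≤ gauss m s (y - x) := (gauss_pos s hs _).le
  have hP : 0 ≤ pk m s * Real.exp (-((ε * R) ^ 2 / (2 * s ^ 2))) :=
    mul_nonneg (pk_pos s hs).le (Real.exp_pos _).le
  rcases le_total ‖y - x‖ (ε * R) with hnear | hfar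
  · have h1 : |w y - w x| ≤ ε := by
      refine (hw.lip y x).trans ?_
      rw [inv_mul_le_iff₀ hR, mul_comm]
      exact hnear
    have h2 : gauss m s (y - x) * |w y - w x| ≤ gauss m s (y - x) * ε :=
      mul_le_mul_of_nonneg_left h1 hG
    linarith
  · have h1 : |w y - w x| ≤ 1 := by
      rw [abs_le]
      constructor <;> linarith [hw.nonneg y, hw.nonneg x, hw.le_one y, hw.le_one x]
    have h2 := gauss_le_of_le_norm s hs (ε * R) (by positivity) (y - x) hfar
    have h3 : gauss m s (y - x) * |w y - w x| ≤ gauss m s (y - x) * 1 :=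
      mul_le_mul_of_nonneg_left h1 hG
    have h4 : 0 ≤ ε * gauss m s (y - x) := mul_nonneg hε hG
    linarith

/-- the lattice constant `∑_k exp(-|k|²/2)` -/
noncomputable def Cm (m : ℕ) : ℝ := ∑' k : Fin m → ℤ, Real.exp (-((∑ i, (k i : ℝ) ^ 2) / 2))

/-- [LK2] (`summable_exp_lamK (2π) (1/2)`) -/
theorem summable_Cm : Summable fun k : Fin m → ℤ => Real.exp (-((∑ i, (k i : ℝ) ^ 2) / 2)) := by
  have h := summable_exp_lamK (m := m) (2 * Real.pi) (1 / 2) (by positivity) (by norm_num)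
  refine h.congr fun k => ?_
  congr 2
  unfold lamK
  rw [div_self (by positivity)]
  ring

theorem Cm_nonneg : 0 ≤ Cm m := tsum_nonneg fun _ => (Real.exp_pos _).le

theorem lat_zero (R : ℝ) : lat m R 0 = 0 := by
  ext i
  simp [lat]

/-- [LK2] -/
theorem gauss_le_theta (R s : ℝ) (hR : 0 < R) (hs : 0 < s) (z : E m) :
    gauss m s z ≤ theta m R s z := by
  have h := (summable_gauss R s hR hs z).le_tsum 0 fun k _ => (gauss_pos s hs _).le
  simp only [lat_zero, add_zero] at h
  exact h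

/-- coordinatewise lower bound for the shifted copies -/
theorem loc_copy_norm_sq (R : ℝ) (hR : 0 < R) (x0 x y : E m)
    (hx : x - x0 ∈ cube m (16 * R)) (hy : y ∈ ball x0 R) (k : Fin m → ℤ) :
    49 * R ^ 2 * ∑ i, (k i : ℝ) ^ 2 ≤ ‖y - x + lat m (16 * R) k‖ ^ 2 := by
  rw [EuclideanSpace.real_norm_sq_eq, Finset.mul_sum]
  refine Finset.sum_le_sum fun i _ => ?_
  have h1 : |(y - x0) i| ≤ R := by
    have h2 : |(y - x0) i| ≤ ‖y - x0‖ := by simpa using PiLp.norm_apply_le (y - x0) i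
    have h3 : ‖y - x0‖ < R := by rwa [mem_ball, dist_eq_norm] at hy
    linarith
  have h4 : |(x - x0) i| ≤ 16 * R / 2 := hx i
  have e : (y - x + lat m (16 * R) k) i = (y - x0) i - (x - x0) i + 16 * R * (k i : ℝ) := by
    simp [lat]
  rw [e]
  rw [abs_le] at h1 h4
  set u : ℝ := (y - x0) i - (x - x0) i with hu
  have hu1 : -(9 * R) ≤ u := by linarith [h1.1, h4.2]
  have hu2 : u ≤ 9 * R := by linarith [h1.2, h4.1]
  rcases lt_trichotomy (k i) 0 with hk | hk | hk
  · have hk' : (k i : ℝ) ≤ -1 := by exact_mod_cast Int.le_sub_one_of_lt hk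
    have h5 : -(7 * R * (k i : ℝ)) ≤ -(u + 16 * R * (k i : ℝ)) := by nlinarith
    have h6 : 0 ≤ -(7 * R * (k i : ℝ)) := by nlinarith
    have h7 := pow_le_pow_left₀ h6 h5 2
    nlinarith
  · rw [hk]
    simp only [Int.cast_zero]
    nlinarith [sq_nonneg (u + 16 * R * 0)]
  · have hk' : (1 : ℝ) ≤ (k i : ℝ) := by exact_mod_cast Int.add_one_le_of_lt hk
    have h5 : 7 * R * (k i : ℝ) ≤ u + 16 * R * (k i : ℝ) := by nlinarith
    have h6 : 0 ≤ 7 * R * (k i : ℝ) := by positivity
    have h7 := pow_le_pow_left₀ h6 h5 2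
    nlinarith

theorem loc_one_le_sum_sq (k : Fin m → ℤ) (hk : k ≠ 0) : (1 : ℝ) ≤ ∑ i, (k i : ℝ) ^ 2 := by
  obtain ⟨i, hi⟩ : ∃ i, k i ≠ 0 := by
    by_contra hcon
    push Not at hcon
    exact hk (funext hcon)
  have h1 : (1 : ℝ) ≤ (k i : ℝ) ^ 2 := by
    have : (1 : ℤ) ≤ (k i) ^ 2 := by
      have := sq_nonneg (k i)
      have h0 : (k i) ^ 2 ≠ 0 := pow_ne_zero 2 hi
      omega
    exact_mod_cast this
  exact h1.trans (Finset.single_le_sum (f := fun i => (k i : ℝ) ^ 2) (fun i _ => by positivity)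
    (Finset.mem_univ i))

/-- [LK2] the copies `k ≠ 0` of the kernel: for `y ∈ B_R(x0)` and `x` in the closed cube every
coordinate with `k_i ≠ 0` satisfies `|(y - x + 16 R k)_i| ≥ 16 R |k_i| - 9 R ≥ 7 R |k_i|`;
`A K ≥ A/2 + K/2` for `A = 49 R²/(2 s²) ≥ 1`, `K = |k|² ≥ 1`. -/
theorem loc_far_copies (R s : ℝ) (hR : 0 < R) (hs : 0 < s) (hsR : s ≤ R) (x0 x y : E m)
    (hx : x - x0 ∈ cube m (16 * R)) (hy : y ∈ ball x0 R) :
    theta m (16 * R) s (y - x) - gauss m s (y - x)
      ≤ pk m s * (Cm m * Real.exp (-(49 * R ^ 2 / (4 * s ^ 2)))) := by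
  classical
  have h16 : (0 : ℝ) < 16 * R := by positivity
  have hsum := summable_gauss (16 * R) s h16 hs (y - x)
  have h1 : theta m (16 * R) s (y - x) = gauss m s (y - x)
      + ∑' k : Fin m → ℤ, ite (k = 0) 0 (gauss m s (y - x + lat m (16 * R) k)) := by
    unfold theta
    rw [hsum.tsum_eq_add_tsum_ite 0, lat_zero, add_zero]
  rw [h1, add_sub_cancel_left]
  set A : ℝ := 49 * R ^ 2 / (2 * s ^ 2) with hA
  have hA1 : 1 ≤ A := by
    rw [hA, le_div_iff₀ (by positivity)]
    have : s ^ 2 ≤ R ^ 2 := pow_le_pow_left₀ hs.le hsR 2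
    nlinarith
  have hterm : ∀ k : Fin m → ℤ, ite (k = 0) 0 (gauss m s (y - x + lat m (16 * R) k))
      ≤ pk m s * Real.exp (-(49 * R ^ 2 / (4 * s ^ 2))) *
        Real.exp (-((∑ i, (k i : ℝ) ^ 2) / 2)) := by
    intro k
    have hpk := pk_pos (m := m) s hs
    by_cases hk : k = 0
    · rw [if_pos hk]
      positivity
    · rw [if_neg hk, gauss_eq_pk, mul_assoc, ← Real.exp_add]
      refine mul_le_mul_of_nonneg_left (Real.exp_le_exp.2 ?_) hpk.le
      set K : ℝ := ∑ i, (k i : ℝ) ^ 2 with hKdef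
      have hK1 : 1 ≤ K := loc_one_le_sum_sq k hk
      have hn := loc_copy_norm_sq R hR x0 x y hx hy k
      have h2 : A * K ≤ ‖y - x + lat m (16 * R) k‖ ^ 2 / (2 * s ^ 2) := by
        rw [hA, div_mul_eq_mul_div]
        gcongr
      have h3 : 49 * R ^ 2 / (4 * s ^ 2) = A / 2 := by
        rw [hA]; field_simp; ring
      rw [h3, neg_div]
      nlinarith
  have hsumR : Summable fun k : Fin m → ℤ => pk m s * Real.exp (-(49 * R ^ 2 / (4 * s ^ 2))) *
      Real.exp (-((∑ i, (k i : ℝ) ^ 2) / 2)) := summable_Cm.mul_left _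
  have hsumL : Summable fun k : Fin m → ℤ =>
      ite (k = 0) 0 (gauss m s (y - x + lat m (16 * R) k)) := by
    refine Summable.of_nonneg_of_le (fun k => ?_) hterm hsumR
    by_cases hk : k = 0
    · rw [if_pos hk]
    · rw [if_neg hk]; exact (gauss_pos s hs _).le
  calc ∑' k : Fin m → ℤ, ite (k = 0) 0 (gauss m s (y - x + lat m (16 * R) k))
      ≤ ∑' k : Fin m → ℤ, pk m s * Real.exp (-(49 * R ^ 2 / (4 * s ^ 2))) *
        Real.exp (-((∑ i, (k i : ℝ) ^ 2) / 2)) := hsumL.tsum_le_tsum hterm hsumR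
    _ = pk m s * (Cm m * Real.exp (-(49 * R ^ 2 / (4 * s ^ 2)))) := by
        rw [tsum_mul_left]
        unfold Cm
        ring

/-- the error constant of the localisation -/
noncomputable def locErr (m : ℕ) (R s ε : ℝ) : ℝ :=
  pk m s * (Real.exp (-((ε * R) ^ 2 / (2 * s ^ 2))) + Cm m * Real.exp (-(49 * R ^ 2 / (4 * s ^ 2))))

theorem locErr_nonneg (R s ε : ℝ) (hs : 0 < s) : 0 ≤ locErr m R s ε := by
  unfold locErr
  have := pk_pos (m := m) s hs
  have := Cm_nonneg (m := m)
  positivity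

/-- **pointwise kernel estimate** -/
theorem loc_kernel_bound (w : E m → ℝ) (x0 : E m) (R : ℝ) (hw : IsWeight w x0 R) (hR : 0 < R)
    (s : ℝ) (hs : 0 < s) (hsR : s ≤ R) (ε : ℝ) (hε : 0 ≤ ε) (x y : E m)
    (hx : x - x0 ∈ cube m (16 * R)) :
    |theta m (16 * R) s (y - x) * w y - w x * gauss m s (y - x)|
      ≤ ε * gauss m s (y - x) + locErr m R s ε := by
  have h16 : (0 : ℝ) < 16 * R := by positivity
  have h1 := loc_near_far w x0 R hw hR s hs ε hε x y
  have h2 := gauss_le_theta (16 * R) s h16 hs (y - x)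
  have h3 : (theta m (16 * R) s (y - x) - gauss m s (y - x)) * w y
      ≤ pk m s * (Cm m * Real.exp (-(49 * R ^ 2 / (4 * s ^ 2)))) := by
    have hnn : 0 ≤ pk m s * (Cm m * Real.exp (-(49 * R ^ 2 / (4 * s ^ 2)))) := by
      have := pk_pos (m := m) s hs
      have := Cm_nonneg (m := m)
      positivity
    by_cases hy : w y = 0
    · rw [hy, mul_zero]; exact hnn
    · have hyb : y ∈ ball x0 R := hw.supp hy
      calc (theta m (16 * R) s (y - x) - gauss m s (y - x)) * w y
          ≤ (theta m (16 * R) s (y - x) - gauss m s (y - x)) * 1 :=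
            mul_le_mul_of_nonneg_left (hw.le_one y) (by linarith)
        _ ≤ _ := by rw [mul_one]; exact loc_far_copies R s hR hs hsR x0 x y hx hyb
  have e : theta m (16 * R) s (y - x) * w y - w x * gauss m s (y - x)
      = gauss m s (y - x) * (w y - w x)
        + (theta m (16 * R) s (y - x) - gauss m s (y - x)) * w y := by ring
  have hG : 0 ≤ gauss m s (y - x) := (gauss_pos s hs _).le
  have h4 : 0 ≤ (theta m (16 * R) s (y - x) - gauss m s (y - x)) * w y :=
    mul_nonneg (by linarith) (hw.nonneg y)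
  rw [e]
  calc |gauss m s (y - x) * (w y - w x)
        + (theta m (16 * R) s (y - x) - gauss m s (y - x)) * w y|
      ≤ |gauss m s (y - x) * (w y - w x)|
        + |(theta m (16 * R) s (y - x) - gauss m s (y - x)) * w y| := abs_add_le _ _
    _ = gauss m s (y - x) * |w y - w x|
        + (theta m (16 * R) s (y - x) - gauss m s (y - x)) * w y := by
        rw [abs_mul, abs_of_nonneg hG, abs_of_nonneg h4]
    _ ≤ ε * gauss m s (y - x) + locErr m R s ε := by
        unfold locErr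
        rw [mul_add]
        linarith

/-- the scalar core of `loc_numeric` -/
theorem loc_numeric_core (n : ℕ) (L' c₂ A X : ℝ) (hL' : 0 ≤ L') (hA : 0 ≤ A)
    (hX1 : 1 ≤ X) (hX : L' * (n.factorial : ℝ) + A + 1 ≤ c₂ * X) :
    L' * X ^ n * Real.exp (A * X) * Real.exp (-(c₂ * X ^ 2)) ≤ 1 := by
  have hX0 : 0 ≤ X := by linarith
  set L : ℝ := L' * (n.factorial : ℝ) with hL
  have hL0 : 0 ≤ L := by positivity
  have h1 : X ^ n ≤ (n.factorial : ℝ) * Real.exp X := by
    have := Real.pow_div_factorial_le_exp X hX0 n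
    rwa [div_le_iff₀ (by positivity), mul_comm] at this
  have h2 : L ≤ Real.exp L := by
    have := Real.add_one_le_exp L
    linarith
  have h3 : L + (A + 1) * X ≤ c₂ * X ^ 2 := by
    have h4 : (L + A + 1) * X ≤ c₂ * X * X := mul_le_mul_of_nonneg_right hX hX0
    have h5 : L * 1 ≤ L * X := mul_le_mul_of_nonneg_left hX1 hL0
    linarith
  calc L' * X ^ n * Real.exp (A * X) * Real.exp (-(c₂ * X ^ 2))
      ≤ L' * ((n.factorial : ℝ) * Real.exp X) * Real.exp (A * X) * Real.exp (-(c₂ * X ^ 2)) := by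
        gcongr
    _ = L * (Real.exp X * Real.exp (A * X) * Real.exp (-(c₂ * X ^ 2))) := by rw [hL]; ring
    _ ≤ Real.exp L * (Real.exp X * Real.exp (A * X) * Real.exp (-(c₂ * X ^ 2))) := by
        gcongr
    _ = Real.exp (L + (A + 1) * X - c₂ * X ^ 2) := by
        rw [← Real.exp_add, ← Real.exp_add, ← Real.exp_add]
        congr 1
        ring
    _ ≤ 1 := by
        rw [Real.exp_le_one_iff]
        linarith

/-- `loc_numeric` with all constants as variables -/
theorem loc_numeric_aux (m : ℕ) (K C1 : ℝ) (hK1 : 1 ≤ K) (R d η T s : ℝ) (hR : 0 < R) (hd : 0 < d)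
    (hη : 0 < η) (hη1 : η < 1) (hT1 : 1 ≤ T)
    (hT2 : (2 * K * (1 + Cm m) * ((2 * m + 1).factorial : ℝ) + |C1| + 1) / (1 / (32 * K ^ 2)) ≤ T)
    (hs : 0 < s) (hsρ : s ≤ 1 * η ^ 2 * R / T ^ 2) :
    s ≤ R ∧ K * locErr m R s (η / (4 * K)) * (Real.exp (C1 * T) * (d * R ^ m)) ≤ η * d / 2 := by
  have hK0 : 0 < K := lt_of_lt_of_le one_pos hK1
  obtain ⟨c₂, hc₂⟩ : ∃ c₂ : ℝ, c₂ = 1 / (32 * K ^ 2) := ⟨_, rfl⟩
  have hc₂0 : 0 < c₂ := by rw [hc₂]; positivity
  have hCm := Cm_nonneg (m := m)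
  obtain ⟨L', hL'⟩ : ∃ L' : ℝ, L' = 2 * K * (1 + Cm m) := ⟨_, rfl⟩
  have hL'0 : 0 ≤ L' := by rw [hL']; positivity
  rw [← hc₂, ← hL'] at hT2
  have hT0 : 0 < T := by linarith
  have hTsq : T ≤ T ^ 2 := by
    have := mul_le_mul_of_nonneg_left hT1 hT0.le
    linarith
  rw [one_mul, le_div_iff₀ (by positivity)] at hsρ
  have hsR : s ≤ R := by
    have h1 : s * 1 ≤ s * T ^ 2 := mul_le_mul_of_nonneg_left (by linarith) hs.le
    have h2 : η ^ 2 * R ≤ 1 * R := mul_le_mul_of_nonneg_right (pow_le_one₀ hη.le hη1.le) hR.le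
    linarith
  refine ⟨hsR, ?_⟩
  obtain ⟨X, hX⟩ : ∃ X : ℝ, X = η * R / s := ⟨_, rfl⟩
  have hX0 : 0 < X := by rw [hX]; positivity
  have hηX : T ^ 2 ≤ η * X := by
    rw [hX, ← mul_div_assoc, le_div_iff₀ hs]
    linarith
  have hXT2 : T ^ 2 ≤ X := by
    have := mul_le_mul_of_nonneg_right hη1.le hX0.le
    linarith
  have hXT : T ≤ X := hTsq.trans hXT2
  have hX1 : 1 ≤ X := hT1.trans hXT
  have h1ηX : 1 ≤ η * X := by linarith
  have e1 : (η / (4 * K) * R) ^ 2 / (2 * s ^ 2) = c₂ * X ^ 2 := by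
    rw [hc₂, hX]
    field_simp
    ring
  have e2 : c₂ * X ^ 2 ≤ 49 * R ^ 2 / (4 * s ^ 2) := by
    have h1 : c₂ * X ^ 2 = η ^ 2 / (32 * K ^ 2) * (R ^ 2 / s ^ 2) := by
      rw [hc₂, hX]
      field_simp
    have h2 : 49 * R ^ 2 / (4 * s ^ 2) = 49 / 4 * (R ^ 2 / s ^ 2) := by
      field_simp
    rw [h1, h2]
    refine mul_le_mul_of_nonneg_right ?_ (by positivity)
    rw [div_le_iff₀ (by positivity)]
    have hη2 : η ^ 2 ≤ 1 := pow_le_one₀ hη.le hη1.le
    have hK2 : 1 ≤ K ^ 2 := one_le_pow₀ hK1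
    linarith
  have hpk := pk_pos (m := m) s hs
  have hErr : locErr m R s (η / (4 * K)) ≤ pk m s * ((1 + Cm m) * Real.exp (-(c₂ * X ^ 2))) := by
    unfold locErr
    rw [e1]
    refine mul_le_mul_of_nonneg_left ?_ hpk.le
    have h3 : Real.exp (-(49 * R ^ 2 / (4 * s ^ 2))) ≤ Real.exp (-(c₂ * X ^ 2)) :=
      Real.exp_le_exp.2 (by linarith)
    have h4 := mul_le_mul_of_nonneg_left h3 hCm
    linarith
  have hRs : (R / s) ^ m ≤ X ^ (2 * m) := by
    rw [pow_mul]
    refine pow_le_pow_left₀ (by positivity) ?_ m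
    have h5 : R / s = X / η := by
      rw [hX]; field_simp
    rw [h5, div_le_iff₀ hη]
    have := mul_le_mul_of_nonneg_left h1ηX hX0.le
    linarith
  have hpkR : pk m s * R ^ m ≤ X ^ (2 * m) := (pk_mul_pow_le s R hs hR.le).trans hRs
  have hexp : Real.exp (C1 * T) ≤ Real.exp (|C1| * X) := by
    refine Real.exp_le_exp.2 ?_
    calc C1 * T ≤ |C1| * T := mul_le_mul_of_nonneg_right (le_abs_self _) hT0.le
      _ ≤ |C1| * X := mul_le_mul_of_nonneg_left hXT (abs_nonneg _)
  have hcore := loc_numeric_core (2 * m + 1) L' c₂ |C1| X hL'0 (abs_nonneg _) hX1 (by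
    rw [div_le_iff₀ hc₂0] at hT2
    have := mul_le_mul_of_nonneg_right hXT hc₂0.le
    linarith)
  obtain ⟨W, hW⟩ : ∃ W : ℝ, W = K * (1 + Cm m) * Real.exp (-(c₂ * X ^ 2)) * Real.exp (|C1| * X)
      * X ^ (2 * m) := ⟨_, rfl⟩
  have hW0 : 0 ≤ W := by rw [hW]; positivity
  have hWX : 2 * W * X ≤ 1 := by
    have : 2 * W * X = L' * X ^ (2 * m + 1) * Real.exp (|C1| * X) * Real.exp (-(c₂ * X ^ 2)) := by
      rw [hW, hL', pow_succ]
      ring
    rw [this]
    exact hcore
  have hWη : 2 * W ≤ η := by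
    have : 2 * W * X ≤ η * X := hWX.trans h1ηX
    exact le_of_mul_le_mul_right this hX0
  have hEnn : 0 ≤ locErr m R s (η / (4 * K)) := locErr_nonneg R s _ hs
  calc K * locErr m R s (η / (4 * K)) * (Real.exp (C1 * T) * (d * R ^ m))
      ≤ K * (pk m s * ((1 + Cm m) * Real.exp (-(c₂ * X ^ 2))))
          * (Real.exp (|C1| * X) * (d * R ^ m)) := by
        gcongr
    _ = K * (1 + Cm m) * Real.exp (-(c₂ * X ^ 2)) * Real.exp (|C1| * X) * (pk m s * R ^ m) * d := by
        ring
    _ ≤ K * (1 + Cm m) * Real.exp (-(c₂ * X ^ 2)) * Real.exp (|C1| * X) * X ^ (2 * m) * d := by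
        gcongr
    _ = W * d := by rw [hW]
    _ ≤ η * d / 2 := by
        have := mul_le_mul_of_nonneg_right hWη hd.le
        linarith

/-- [LK3] **numerics.**  `C0' = max C0 1`, `ε = η/(4 C0')`, `X = η R / s ≥ T²/η`, `c₂ = 1/(32 C0'²)`:
`locErr ≤ pk (1 + Cm) exp(-c₂ X²)`, `pk R^m ≤ (R/s)^m = (X/η)^m ≤ X^{2m}`, `1/η ≤ X`, `T ≤ X`;
`X^{2m+1} ≤ (2m+1)! e^X`; `L := 2 C0' (1 + Cm) (2m+1)! ≤ e^L`;
`T0 := max 1 ((L + |C1| + 1)/c₂)` gives `L + (|C1| + 1) X ≤ c₂ X²`. -/
theorem loc_numeric (m : ℕ) (C0 C1 : ℝ) : ∃ T0 : ℝ, 1 ≤ T0 ∧ ∀ (R d η T s : ℝ), 0 < R → 0 < d →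
    0 < η → η < 1 → T0 ≤ T → 0 < s → s ≤ 1 * η ^ 2 * R / T ^ 2 →
    s ≤ R ∧ max C0 1 * locErr m R s (η / (4 * max C0 1)) * (Real.exp (C1 * T) * (d * R ^ m))
      ≤ η * d / 2 :=
  ⟨max 1 ((2 * max C0 1 * (1 + Cm m) * ((2 * m + 1).factorial : ℝ) + |C1| + 1)
      / (1 / (32 * max C0 1 ^ 2))), le_max_left _ _,
    fun R d η T s hR hd hη hη1 hT hs hsρ =>
      loc_numeric_aux m (max C0 1) C1 (le_max_right _ _) R d η T s hR hd hη hη1
        ((le_max_left _ _).trans hT) ((le_max_right _ _).trans hT) hs hsρ⟩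

end Claimed.Agent.R322.Sx.Contact
end

/- ===== packed: Claimed.Agent.R322.Sx.Contact.LocSrc ===== -/
section
/-!
# AE Lemma 4.2, part 4: the source `f = w L' - η (τ' + d dy)` on the torus of period `16 R`

`wMeas`, `srcM` = positive and negative part of the source (finite measures on `E m`);
`localized_source` = AE (4.7) with periodic averages on the left and EUCLIDEAN averages on the right.
Blueprint: helper43.
-/

set_option autoImplicit false

namespace Claimed.Agent.R322.Sx.Contact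

open MeasureTheory Set Metric
open scoped ENNReal NNReal

variable {m : ℕ}

/-- `w L` -/
noncomputable def wMeas (L : Measure (E m)) (w : E m → ℝ) : Measure (E m) :=
  L.withDensity fun y => ENNReal.ofReal (w y)

/-- negative part of the source: `w L⁻ + η (τ' + d dy)` -/
noncomputable def srcM (τ' Lm : Measure (E m)) (w : E m → ℝ) (x0 : E m) (R d η : ℝ) :
    Measure (E m) :=
  wMeas Lm w + ENNReal.ofReal η • (τ' + ENNReal.ofReal d • volume.restrict (hcube m (16 * R) x0))

theorem continuous_of_isWeight {w : E m → ℝ} {x0 : E m} {R : ℝ} (hw : IsWeight w x0 R) :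
    Continuous w := by
  have h : LipschitzWith (Real.toNNReal R⁻¹) w := by
    refine LipschitzWith.of_dist_le_mul fun y y' => ?_
    rw [Real.dist_eq, dist_eq_norm, Real.coe_toNNReal']
    exact (hw.lip y y').trans (mul_le_mul_of_nonneg_right (le_max_left _ _) (norm_nonneg _))
  exact h.continuous

theorem src_integrable_w (L : Measure (E m)) [IsFiniteMeasure L] (w : E m → ℝ) (x0 : E m)
    (R : ℝ) (hw : IsWeight w x0 R) : Integrable w L :=
  Integrable.of_bound (continuous_of_isWeight hw).aestronglyMeasurable 1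
    (Filter.Eventually.of_forall fun y => by
      rw [Real.norm_eq_abs, abs_of_nonneg (hw.nonneg y)]
      exact hw.le_one y)

theorem isFiniteMeasure_wMeas (L : Measure (E m)) [IsFiniteMeasure L] (w : E m → ℝ) (x0 : E m)
    (R : ℝ) (hw : IsWeight w x0 R) : IsFiniteMeasure (wMeas L w) :=
  isFiniteMeasure_withDensity_ofReal (src_integrable_w L w x0 R hw).2

theorem wMeas_univ (L : Measure (E m)) [IsFiniteMeasure L] (w : E m → ℝ) (x0 : E m)
    (R : ℝ) (hw : IsWeight w x0 R) : (wMeas L w univ).toReal = ∫ y, w y ∂L := by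
  unfold wMeas
  rw [withDensity_apply _ MeasurableSet.univ, Measure.restrict_univ,
    integral_eq_lintegral_of_nonneg_ae (Filter.Eventually.of_forall hw.nonneg)
      (continuous_of_isWeight hw).aestronglyMeasurable]

theorem integral_wMeas (L : Measure (E m)) (w : E m → ℝ) (x0 : E m)
    (R : ℝ) (hw : IsWeight w x0 R) (g : E m → ℝ) : ∫ y, g y ∂(wMeas L w) = ∫ y, g y * w y ∂L := by
  unfold wMeas
  rw [integral_withDensity_eq_integral_toReal_smul
    (continuous_of_isWeight hw).measurable.ennreal_ofReal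
    (Filter.Eventually.of_forall fun y => ENNReal.ofReal_lt_top)]
  refine integral_congr_ae (Filter.Eventually.of_forall fun y => ?_)
  simp only [ENNReal.toReal_ofReal (hw.nonneg y), smul_eq_mul]
  ring

theorem src_isFiniteMeasure_hcube (p : ℝ) (hp : 0 < p) (x0 : E m) :
    IsFiniteMeasure (volume.restrict (hcube m p x0)) :=
  ⟨by rw [Measure.restrict_apply_univ, volume_hcube p hp]; exact ENNReal.ofReal_lt_top⟩

theorem isFiniteMeasure_srcM (τ' Lm : Measure (E m)) [IsFiniteMeasure τ'] [IsFiniteMeasure Lm]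
    (w : E m → ℝ) (x0 : E m) (R d η : ℝ) (hw : IsWeight w x0 R) (hR : 0 < R) :
    IsFiniteMeasure (srcM τ' Lm w x0 R d η) := by
  have h1 := isFiniteMeasure_wMeas Lm w x0 R hw
  have h2 := src_isFiniteMeasure_hcube (m := m) (16 * R) (by positivity) x0
  have h3 : IsFiniteMeasure (ENNReal.ofReal d • volume.restrict (hcube m (16 * R) x0)) :=
    Measure.smul_finite _ ENNReal.ofReal_ne_top
  have h4 : IsFiniteMeasure (ENNReal.ofReal η •
      (τ' + ENNReal.ofReal d • volume.restrict (hcube m (16 * R) x0))) :=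
    Measure.smul_finite _ ENNReal.ofReal_ne_top
  unfold srcM
  infer_instance

theorem srcM_univ (τ' Lm : Measure (E m)) [IsFiniteMeasure τ'] [IsFiniteMeasure Lm]
    (w : E m → ℝ) (x0 : E m) (R d η : ℝ) (hw : IsWeight w x0 R) (hR : 0 < R) (hd : 0 ≤ d)
    (hη : 0 ≤ η) :
    (srcM τ' Lm w x0 R d η univ).toReal
      = (∫ y, w y ∂Lm) + η * ((τ' univ).toReal + d * (16 * R) ^ m) := by
  have h1 := isFiniteMeasure_wMeas Lm w x0 R hw
  have h16 : (0 : ℝ) < 16 * R := by positivity
  unfold srcM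
  simp only [Measure.add_apply, Measure.smul_apply, smul_eq_mul, Measure.restrict_apply_univ,
    volume_hcube (16 * R) h16]
  rw [ENNReal.toReal_add (measure_ne_top _ _) (by finiteness), ENNReal.toReal_mul,
    ENNReal.toReal_add (measure_ne_top _ _) (by finiteness), ENNReal.toReal_mul,
    ENNReal.toReal_ofReal hη, ENNReal.toReal_ofReal hd, ENNReal.toReal_ofReal (by positivity),
    wMeas_univ Lm w x0 R hw]

theorem pav_smul_measure (R : ℝ) (c : ℝ≥0∞) (μ : Measure (E m)) (s : ℝ) (x : E m) :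
    pav R (c • μ) s x = c.toReal * pav R μ s x := by
  unfold pav
  rw [integral_smul_measure, smul_eq_mul]

theorem pav_srcM (τ' Lm : Measure (E m)) [IsFiniteMeasure τ'] [IsFiniteMeasure Lm]
    (w : E m → ℝ) (x0 : E m) (R d η : ℝ) (hw : IsWeight w x0 R) (hR : 0 < R) (hd : 0 ≤ d)
    (hη : 0 ≤ η) (s : ℝ) (hs : 0 < s) (x : E m) :
    pav (16 * R) (srcM τ' Lm w x0 R d η) s x
      = (∫ y, theta m (16 * R) s (y - x) * w y ∂Lm) + η * (pav (16 * R) τ' s x + d) := by
  have h16 : (0 : ℝ) < 16 * R := by positivity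
  have h1 := isFiniteMeasure_wMeas Lm w x0 R hw
  have h2 := src_isFiniteMeasure_hcube (m := m) (16 * R) h16 x0
  have h3 : IsFiniteMeasure (ENNReal.ofReal d • volume.restrict (hcube m (16 * R) x0)) :=
    Measure.smul_finite _ ENNReal.ofReal_ne_top
  have h4 : IsFiniteMeasure (ENNReal.ofReal η •
      (τ' + ENNReal.ofReal d • volume.restrict (hcube m (16 * R) x0))) :=
    Measure.smul_finite _ ENNReal.ofReal_ne_top
  unfold srcM
  rw [pav_add_measure (16 * R) h16 _ _ s hs x, pav_smul_measure,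
    pav_add_measure (16 * R) h16 _ _ s hs x, pav_smul_measure, pav_hcube (16 * R) s h16 hs,
    ENNReal.toReal_ofReal hη, ENNReal.toReal_ofReal hd, mul_one]
  congr 1
  exact integral_wMeas Lm w x0 R hw _

theorem pk_anti (a s : ℝ) (ha : 0 < a) (hs : a ≤ s) : pk m s ≤ pk m a := by
  unfold pk
  refine Real.rpow_le_rpow_of_nonpos (by positivity) ?_ ?_
  · have : a ^ 2 ≤ s ^ 2 := pow_le_pow_left₀ ha.le hs 2
    have hpi := Real.pi_pos
    nlinarith
  · have : (0 : ℝ) ≤ m := Nat.cast_nonneg m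
    linarith

theorem gauss_le_pk (s : ℝ) (hs : 0 < s) (z : E m) : gauss m s z ≤ pk m s := by
  rw [gauss_eq_pk]
  have h1 : Real.exp (-‖z‖ ^ 2 / (2 * s ^ 2)) ≤ 1 := by
    rw [Real.exp_le_one_iff]
    have : 0 ≤ ‖z‖ ^ 2 / (2 * s ^ 2) := by positivity
    rw [neg_div]
    linarith
  calc pk m s * Real.exp (-‖z‖ ^ 2 / (2 * s ^ 2)) ≤ pk m s * 1 :=
        mul_le_mul_of_nonneg_left h1 (pk_pos s hs).le
    _ = pk m s := mul_one _

theorem potKer_gauss : PotKer (fun s (x : E m) => gauss m s x) := by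
  refine ⟨?_, fun a _ ha => ⟨pk m a, fun s hs _ x => ?_⟩⟩
  · unfold gauss
    refine ContinuousOn.mul ?_ ?_
    · refine ContinuousOn.rpow_const (by fun_prop) fun p hp => Or.inl ?_
      have : 0 < p.2 := hp.2
      positivity
    · refine Real.continuous_exp.comp_continuousOn ?_
      refine ContinuousOn.div (by fun_prop) (by fun_prop) fun p hp => ?_
      have : 0 < p.2 := hp.2
      positivity
  · have hs0 : 0 < s := lt_of_lt_of_le ha hs
    rw [abs_of_nonneg (gauss_pos s hs0 x).le]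
    exact (gauss_le_pk s hs0 x).trans (pk_anti a s ha hs)

theorem gauss_sub_comm (s : ℝ) (x y : E m) : gauss m s (y - x) = gauss m s (x - y) := by
  rw [← gauss_neg, neg_sub]

theorem integrable_gav (μ : Measure (E m)) [IsFiniteMeasure μ] (s : ℝ) (hs : 0 < s) (x : E m) :
    Integrable (fun y => gauss m s (y - x)) μ := by
  simp only [gauss_sub_comm s x]
  exact potKer_gauss.integrable μ hs x

theorem theta_sub_comm (R : ℝ) (hR : 0 < R) (s : ℝ) (x y : E m) :
    theta m R s (y - x) = theta m R s (x - y) := by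
  rw [← (theta_facts R hR).2.2.1 s (x - y), neg_sub]

theorem integrable_pav (R : ℝ) (hR : 0 < R) (μ : Measure (E m)) [IsFiniteMeasure μ] (s : ℝ)
    (hs : 0 < s) (x : E m) : Integrable (fun y => theta m R s (y - x)) μ := by
  simp only [theta_sub_comm R hR s x]
  exact (potKer_theta R hR).integrable μ hs x

theorem continuousOn_gav (μ : Measure (E m)) [IsFiniteMeasure μ] (x : E m) :
    ContinuousOn (fun v => gav μ v x) (Ioi 0) := by
  have h1 := (potKer_gauss (m := m)).continuousOn_conv μ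
  have h2 : ContinuousOn (fun v : ℝ => (x, v)) (Ioi 0) := by fun_prop
  have h3 := h1.comp h2 (fun v hv => ⟨mem_univ _, hv⟩)
  refine h3.congr fun v _ => ?_
  unfold gav
  simp only [gauss_sub_comm v x]
  rfl

theorem continuousOn_pav (R : ℝ) (hR : 0 < R) (μ : Measure (E m)) [IsFiniteMeasure μ] (x : E m) :
    ContinuousOn (fun v => pav R μ v x) (Ioi 0) := by
  have h1 := (potKer_theta (m := m) R hR).continuousOn_conv μ
  have h2 : ContinuousOn (fun v : ℝ => (x, v)) (Ioi 0) := by fun_prop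
  have h3 := h1.comp h2 (fun v hv => ⟨mem_univ _, hv⟩)
  refine h3.congr fun v _ => ?_
  exact pav_eq_conv R hR μ v x

theorem gav_nonneg (μ : Measure (E m)) (s : ℝ) (hs : 0 < s) (x : E m) : 0 ≤ gav μ s x :=
  integral_nonneg fun _ => (gauss_pos s hs _).le

/-- `h^per_s ≥ h_s` by positivity -/
theorem gav_le_pav (R : ℝ) (hR : 0 < R) (μ : Measure (E m)) [IsFiniteMeasure μ] (s : ℝ)
    (hs : 0 < s) (x : E m) : gav μ s x ≤ pav R μ s x :=
  integral_mono (integrable_gav μ s hs x) (integrable_pav R hR μ s hs x)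
    fun y => gauss_le_theta R s hR hs (y - x)

theorem signed_le_of_dominated (τ' Lp Lm : Measure (E m)) [IsFiniteMeasure τ'] (C0 : ℝ)
    (hdom : Lp + Lm ≤ ENNReal.ofReal C0 • τ') (φ ψ : E m → ℝ) (hφ : Continuous φ)
    (hψ : Integrable ψ τ') (hle : ∀ y, |φ y| ≤ ψ y) :
    (∫ y, φ y ∂Lp) - (∫ y, φ y ∂Lm) ≤ max C0 1 * ∫ y, ψ y ∂τ' := by
  have hφτ : Integrable φ τ' :=
    hψ.mono' hφ.aestronglyMeasurable (Filter.Eventually.of_forall fun y => hle y)
  have hφC : Integrable φ (ENNReal.ofReal C0 • τ') := hφτ.smul_measure ENNReal.ofReal_ne_top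
  have hφs : Integrable φ (Lp + Lm) := hφC.mono_measure hdom
  have hφp : Integrable φ Lp := hφs.mono_measure (Measure.le_add_right le_rfl)
  have hφm : Integrable φ Lm := hφs.mono_measure (Measure.le_add_left le_rfl)
  have h1 : ∫ y, φ y ∂Lp ≤ ∫ y, |φ y| ∂Lp := integral_mono hφp hφp.abs fun y => le_abs_self _
  have h2 : -∫ y, φ y ∂Lm ≤ ∫ y, |φ y| ∂Lm := by
    rw [← integral_neg]
    exact integral_mono hφm.neg hφm.abs fun y => neg_le_abs _
  have h3 : ∫ y, |φ y| ∂(Lp + Lm) = ∫ y, |φ y| ∂Lp + ∫ y, |φ y| ∂Lm :=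
    integral_add_measure hφp.abs hφm.abs
  have h4 : ∫ y, |φ y| ∂(Lp + Lm) ≤ ∫ y, |φ y| ∂(ENNReal.ofReal C0 • τ') :=
    integral_mono_measure hdom (Filter.Eventually.of_forall fun y => abs_nonneg _) hφC.abs
  have h5 : ∫ y, |φ y| ∂(ENNReal.ofReal C0 • τ') = (ENNReal.ofReal C0).toReal * ∫ y, |φ y| ∂τ' := by
    rw [integral_smul_measure, smul_eq_mul]
  have h6 : ∫ y, |φ y| ∂τ' ≤ ∫ y, ψ y ∂τ' := integral_mono hφτ.abs hψ hle
  have h7 : 0 ≤ ∫ y, |φ y| ∂τ' := integral_nonneg fun y => abs_nonneg _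
  have h8 : (ENNReal.ofReal C0).toReal ≤ max C0 1 := by
    rw [ENNReal.toReal_ofReal']
    exact max_le_max le_rfl zero_le_one
  have h9 : (ENNReal.ofReal C0).toReal * ∫ y, |φ y| ∂τ' ≤ max C0 1 * ∫ y, ψ y ∂τ' :=
    mul_le_mul h8 h6 h7 (le_trans zero_le_one (le_max_right _ _))
  linarith

theorem localized_source (C0 C1 : ℝ) (τ' Lp Lm : Measure (E m)) [IsFiniteMeasure τ']
    [IsFiniteMeasure Lp] [IsFiniteMeasure Lm] (w : E m → ℝ) (x0 : E m) (R d η T s : ℝ)
    (hdom : Lp + Lm ≤ ENNReal.ofReal C0 • τ') (hw : IsWeight w x0 R) (hR : 0 < R) (hd : 0 < d)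
    (hη : 0 < η) (hs : 0 < s) (hsR : s ≤ R)
    (hmass : (τ' univ).toReal ≤ Real.exp (C1 * T) * (d * R ^ m))
    (hnum : max C0 1 * locErr m R s (η / (4 * max C0 1)) * (Real.exp (C1 * T) * (d * R ^ m))
      ≤ η * d / 2)
    (x : E m) (hx : x - x0 ∈ cube m (16 * R)) :
    pav (16 * R) (wMeas Lp w) s x - pav (16 * R) (srcM τ' Lm w x0 R d η) s x
      ≤ w x * (gav Lp s x - gav Lm s x) - η / 2 * (gav τ' s x + d) := by
  have h16 : (0 : ℝ) < 16 * R := by positivity
  set K : ℝ := max C0 1 with hK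
  have hK1 : 1 ≤ K := le_max_right _ _
  have hK0 : 0 < K := lt_of_lt_of_le one_pos hK1
  set ε : ℝ := η / (4 * K) with hε
  have hε0 : 0 ≤ ε := by positivity
  have hwc := continuous_of_isWeight hw
  have hθc : Continuous fun y : E m => theta m (16 * R) s (y - x) :=
    ((potKer_theta (m := m) (16 * R) h16).continuous_slice hs).comp (continuous_id.sub continuous_const)
  have hGc : Continuous fun y : E m => gauss m s (y - x) :=
    ((potKer_gauss (m := m)).continuous_slice hs).comp (continuous_id.sub continuous_const)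
  set φ : E m → ℝ := fun y => theta m (16 * R) s (y - x) * w y - w x * gauss m s (y - x) with hφ
  set ψ : E m → ℝ := fun y => ε * gauss m s (y - x) + locErr m R s ε with hψ
  have hφc : Continuous φ := (hθc.mul hwc).sub (continuous_const.mul hGc)
  have hψi : Integrable ψ τ' := ((integrable_gav τ' s hs x).const_mul ε).add (integrable_const _)
  have hle : ∀ y, |φ y| ≤ ψ y := fun y => loc_kernel_bound w x0 R hw hR s hs hsR ε hε0 x y hx
  have hsig := signed_le_of_dominated τ' Lp Lm C0 hdom φ ψ hφc hψi hle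
  -- the integral of ψ
  have hψint : ∫ y, ψ y ∂τ' = ε * gav τ' s x + locErr m R s ε * (τ' univ).toReal := by
    rw [hψ, integral_add ((integrable_gav τ' s hs x).const_mul ε) (integrable_const _),
      integral_const_mul, integral_const, smul_eq_mul, mul_comm (locErr m R s ε)]
    rfl
  -- integrals of θ w
  have hθw : ∀ (L : Measure (E m)) [IsFiniteMeasure L],
      ∫ y, theta m (16 * R) s (y - x) * w y ∂L = (∫ y, φ y ∂L) + w x * gav L s x := by
    intro L _
    have hb : Integrable (fun y => theta m (16 * R) s (y - x) * w y) L := by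
      refine (integrable_pav (16 * R) h16 L s hs x).mul_bdd (c := 1) hwc.aestronglyMeasurable
        (Filter.Eventually.of_forall fun y => ?_)
      rw [Real.norm_eq_abs, abs_of_nonneg (hw.nonneg y)]
      exact hw.le_one y
    have hg : Integrable (fun y => w x * gauss m s (y - x)) L :=
      (integrable_gav L s hs x).const_mul _
    rw [hφ, integral_sub hb hg, integral_const_mul]
    unfold gav
    ring
  have hP : pav (16 * R) (wMeas Lp w) s x = ∫ y, theta m (16 * R) s (y - x) * w y ∂Lp :=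
    integral_wMeas Lp w x0 R hw _
  rw [hP, pav_srcM τ' Lm w x0 R d η hw hR hd.le hη.le s hs x, hθw Lp, hθw Lm]
  have hgτ := gav_nonneg τ' s hs x
  have hpτ := gav_le_pav (16 * R) h16 τ' s hs x
  have hE := locErr_nonneg (m := m) R s ε hs
  have h1 : K * (locErr m R s ε * (τ' univ).toReal) ≤ η * d / 2 := by
    calc K * (locErr m R s ε * (τ' univ).toReal)
        ≤ K * (locErr m R s ε * (Real.exp (C1 * T) * (d * R ^ m))) := by gcongr
      _ = K * locErr m R s ε * (Real.exp (C1 * T) * (d * R ^ m)) := by ring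
      _ ≤ η * d / 2 := hnum
  have h2 : K * (ε * gav τ' s x) = η / 4 * gav τ' s x := by
    rw [hε]; field_simp
  rw [hψint, mul_add, h2] at hsig
  have h3 : η * gav τ' s x ≤ η * pav (16 * R) τ' s x := mul_le_mul_of_nonneg_left hpτ hη.le
  have h4 : 0 ≤ η * gav τ' s x := by positivity
  nlinarith

end Claimed.Agent.R322.Sx.Contact
end

/- ===== packed: Claimed.Agent.R322.Sx.Contact.LocShift ===== -/
section
/-!
# AE Lemma 4.1 with the fundamental cube centred at an arbitrary point (translation of `contact`)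
Blueprint: helper43.
-/

set_option autoImplicit false

namespace Claimed.Agent.R322.Sx.Contact

open MeasureTheory Set Metric
open scoped ENNReal NNReal

variable {m : ℕ}

/-- [LS1] [`(MeasurableEquiv.addRight u).measurableEmbedding.integral_map`] -/
theorem pav_map_add (R : ℝ) (μ : Measure (E m)) (u : E m) (s : ℝ) (x : E m) :
    pav R (μ.map (· + u)) s (x + u) = pav R μ s x := by
  unfold pav
  have h := (MeasurableEquiv.addRight u).measurableEmbedding.integral_map (μ := μ)
    (fun y => theta m R s (y - (x + u)))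
  simp only [MeasurableEquiv.coe_addRight, add_sub_add_right_eq_sub] at h
  exact h

theorem shift_pav_smul (R : ℝ) (c : ℝ≥0∞) (μ : Measure (E m)) (s : ℝ) (x : E m) :
    pav R (c • μ) s x = c.toReal * pav R μ s x := by
  unfold pav
  rw [integral_smul_measure, smul_eq_mul]

/-- [LS2] **AE Lemma 4.1, cube centred at `x0`.** -/
theorem contact_at (x0 : E m) (R a stop : ℝ) (hR : 0 < R) (ha : 0 < a) (hst : a < stop)
    (fp fm : Measure (E m)) [IsFiniteMeasure fp] [IsFiniteMeasure fm] (hM : fm univ < fp univ)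
    (𝒟 : Set (E m × ℝ)) (h𝒟 : IsCont R a stop 𝒟) :
    ∃ (σ : Measure (E m × ℝ)) (S : Set (E m × ℝ)), IsProbabilityMeasure σ ∧ IsCompact S ∧
      S ⊆ entr 𝒟 ∧ (∀ z ∈ S, z.1 - x0 ∈ cube m R ∧ z.2 ∈ Icc a stop) ∧ σ Sᶜ = 0 ∧
      ∀ h : Measure (E m), h = (fp univ - fm univ) • σ.map Prod.fst →
        ∀ z ∈ S,
          0 ≤ pav R fp z.2 z.1 - pav R fm z.2 z.1 - pav R h z.2 z.1 ∧
          ∀ s, z.2 ≤ s →
            0 ≤ ∫ v in z.2..s, v * (pav R fp v z.1 - pav R fm v z.1 - pav R h v z.1) := by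
  set e : E m × ℝ ≃ₜ E m × ℝ := (Homeomorph.addRight x0).prodCongr (Homeomorph.refl ℝ) with he
  have he_apply : ∀ z, e z = (z.1 + x0, z.2) := fun z => rfl
  have hem : Measurable e := e.continuous.measurable
  have h𝒟' : IsCont R a stop (e ⁻¹' 𝒟) :=
    { closed := h𝒟.closed.preimage e.continuous
      per := fun k x s h => by
        show (x + lat m R k + x0, s) ∈ 𝒟
        rw [add_right_comm]
        exact h𝒟.per k _ _ h
      up := fun x s v h hsv => h𝒟.up _ _ _ h hsv
      bot := fun x s h => h𝒟.bot _ _ h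
      top := fun x s hs => h𝒟.top _ _ hs }
  have hmeas : Measurable (fun y : E m => y + -x0) := measurable_id.add_const _
  have hmeas' : Measurable (fun y : E m => y + x0) := measurable_id.add_const _
  have hfpu : (fp.map (· + -x0)) univ = fp univ := by
    rw [Measure.map_apply hmeas MeasurableSet.univ, preimage_univ]
  have hfmu : (fm.map (· + -x0)) univ = fm univ := by
    rw [Measure.map_apply hmeas MeasurableSet.univ, preimage_univ]
  obtain ⟨σ', S', hσ', hS', hS'sub, hσ'S', hc⟩ := contact R a stop hR ha hst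
    (fp.map (· + -x0)) (fm.map (· + -x0)) (by rw [hfpu, hfmu]; exact hM) (e ⁻¹' 𝒟) h𝒟'
  refine ⟨σ'.map e, e '' S', ?_, hS'.image e.continuous, ?_, ?_, ?_, ?_⟩
  · exact Measure.isProbabilityMeasure_map hem.aemeasurable
  · rintro _ ⟨z, hz, rfl⟩
    have h1 := (hS'sub hz).1
    refine ⟨h1.1, fun hint => h1.2 ?_⟩
    rw [← e.preimage_interior]
    exact hint
  · rintro _ ⟨z, hz, rfl⟩
    have h1 := (hS'sub hz).2
    refine ⟨?_, h1.2⟩
    show z.1 + x0 - x0 ∈ cube m R
    rw [add_sub_cancel_right]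
    exact h1.1
  · rw [Measure.map_apply hem (hS'.image e.continuous).isClosed.measurableSet.compl,
      preimage_compl, preimage_image_eq _ e.injective]
    exact hσ'S'
  · intro h hh
    rintro _ ⟨z, hz, rfl⟩
    have key := hc _ rfl z hz
    have hP : ∀ (μ : Measure (E m)) (v : ℝ),
        pav R (μ.map (· + -x0)) v z.1 = pav R μ v (z.1 + x0) := by
      intro μ v
      have := pav_map_add R μ (-x0) v (z.1 + x0)
      rwa [add_neg_cancel_right] at this
    have hmap : (σ'.map e).map Prod.fst = (σ'.map Prod.fst).map (· + x0) := by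
      rw [Measure.map_map measurable_fst hem, Measure.map_map hmeas' measurable_fst]
      rfl
    have hH : ∀ v : ℝ, pav R (((fp.map (· + -x0)) univ - (fm.map (· + -x0)) univ)
        • σ'.map Prod.fst) v z.1 = pav R h v (z.1 + x0) := by
      intro v
      rw [hh, hmap, hfpu, hfmu, shift_pav_smul, shift_pav_smul, pav_map_add]
    simp only [hP, hH] at key
    exact key

end Claimed.Agent.R322.Sx.Contact
end

/- ===== packed: Claimed.Agent.R322.Sx.Contact.LocMain ===== -/
section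
/-!
# AE Lemmas 4.1 + 4.2 with Euclidean output: assembly
Blueprint + glue: helper43.
-/

set_option autoImplicit false

namespace Claimed.Agent.R322.Sx.Contact

open MeasureTheory Set Metric
open scoped ENNReal NNReal

variable {m : ℕ}

/-- a point of `B_R(x0)` lies in the open cube of side `16 R` -/
theorem loc_ball_subset_cube (x0 x : E m) (R : ℝ) (hR : 0 < R) (hx : x ∈ ball x0 R) (i : Fin m) :
    |(x - x0) i| < 16 * R / 2 := by
  have h1 : |(x - x0) i| ≤ ‖x - x0‖ := by simpa using PiLp.norm_apply_le (x - x0) i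
  have h2 : ‖x - x0‖ < R := by rwa [mem_ball, dist_eq_norm] at hx
  linarith

theorem contact_local_core (m : ℕ) (C0 C1 : ℝ) :
    ∃ T0 : ℝ, 1 ≤ T0 ∧ ∀ (τ' Lp Lm : Measure (E m)) (w : E m → ℝ) (x0 : E m)
      (R d η T ρ a : ℝ) (D₀ : Set (E m × ℝ)),
      IsFiniteMeasure τ' → Lp + Lm ≤ ENNReal.ofReal C0 • τ' →
      IsWeight w x0 R → 0 < R → 0 < d → 0 < η → η < 1 → T0 ≤ T →
      (τ' univ).toReal ≤ Real.exp (C1 * T) * (d * R ^ m) →
      ρ ≤ 1 * η ^ 2 * R / T ^ 2 → 0 < a → a < ρ → IsClosed D₀ → (∀ z ∈ D₀, a ≤ z.2) →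
      (∀ (x : E m) (s v : ℝ), (x, s) ∈ D₀ → s ≤ v → (x, v) ∈ D₀) →
      (∀ (x : E m) (s : ℝ), ρ ≤ s → (x, s) ∈ D₀) →
      0 < (∫ y, w y ∂Lp) - (∫ y, w y ∂Lm) - η * ((τ' univ).toReal + d * (16 * R) ^ m) →
      ∃ (σ : Measure (E m × ℝ)) (𝒮 : Set (E m × ℝ)), IsProbabilityMeasure σ ∧ IsCompact 𝒮 ∧
        σ 𝒮ᶜ = 0 ∧ 𝒮 ⊆ entr D₀ ∧ (∀ z ∈ 𝒮, 0 < w z.1) ∧
        ∀ z ∈ 𝒮,
          gav (ENNReal.ofReal ((∫ y, w y ∂Lp) - (∫ y, w y ∂Lm)
              - η * ((τ' univ).toReal + d * (16 * R) ^ m)) • σ.map Prod.fst) z.2 z.1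
              + η / 2 * (gav τ' z.2 z.1 + d)
            ≤ gav Lp z.2 z.1 - gav Lm z.2 z.1 ∧
          ∀ s : ℝ, z.2 ≤ s → s ≤ ρ →
            0 ≤ ∫ v in z.2..s, v * (gav Lp v z.1 - gav Lm v z.1 - η / 2 * (gav τ' v z.1 + d)) := by
  obtain ⟨T0, hT0, hnum⟩ := loc_numeric m C0 C1
  refine ⟨T0, hT0, ?_⟩
  intro τ' Lp Lm w x0 R d η T ρ a D₀ hτfin hdom hw hR hd hη hη1 hT hmass hρ ha haρ hcl habove hup
    htop hsrc
  have h16 : (0 : ℝ) < 16 * R := by positivity
  have hCτ : IsFiniteMeasure (ENNReal.ofReal C0 • τ') := Measure.smul_finite _ ENNReal.ofReal_ne_top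
  have hLp : IsFiniteMeasure Lp :=
    isFiniteMeasure_of_le _ ((Measure.le_add_right le_rfl).trans hdom)
  have hLm : IsFiniteMeasure Lm :=
    isFiniteMeasure_of_le _ ((Measure.le_add_left le_rfl).trans hdom)
  set fp : Measure (E m) := wMeas Lp w with hfp
  set fm : Measure (E m) := srcM τ' Lm w x0 R d η with hfm
  have hfpfin : IsFiniteMeasure fp := isFiniteMeasure_wMeas Lp w x0 R hw
  have hfmfin : IsFiniteMeasure fm := isFiniteMeasure_srcM τ' Lm w x0 R d η hw hR
  have hfpu : (fp univ).toReal = ∫ y, w y ∂Lp := wMeas_univ Lp w x0 R hw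
  have hfmu : (fm univ).toReal = (∫ y, w y ∂Lm) + η * ((τ' univ).toReal + d * (16 * R) ^ m) :=
    srcM_univ τ' Lm w x0 R d η hw hR hd.le hη.le
  have hfptop : fp univ ≠ ⊤ := measure_ne_top fp univ
  have hfmtop : fm univ ≠ ⊤ := measure_ne_top fm univ
  have hM : fm univ < fp univ := (ENNReal.toReal_lt_toReal hfmtop hfptop).1 (by
    rw [hfpu, hfmu]; linarith)
  have hc : ENNReal.ofReal ((∫ y, w y ∂Lp) - (∫ y, w y ∂Lm)
      - η * ((τ' univ).toReal + d * (16 * R) ^ m)) = fp univ - fm univ := by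
    have e : (∫ y, w y ∂Lp) - (∫ y, w y ∂Lm) - η * ((τ' univ).toReal + d * (16 * R) ^ m)
        = (fp univ).toReal - (fm univ).toReal := by rw [hfpu, hfmu]; ring
    rw [e, ENNReal.ofReal_sub _ ENNReal.toReal_nonneg, ENNReal.ofReal_toReal hfptop,
      ENNReal.ofReal_toReal hfmtop]
  have hD := perD_isCont (16 * R) a ρ haρ x0 D₀ hcl hup htop
  obtain ⟨σ, S, hσ, hS, hSent, hScube, hσS, hcontact⟩ :=
    contact_at x0 (16 * R) a ρ h16 ha haρ fp fm hM (perD (16 * R) a x0 D₀) hD
  rw [hc]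
  set h : Measure (E m) := (fp univ - fm univ) • σ.map Prod.fst with hh
  have hπ : IsProbabilityMeasure (σ.map Prod.fst) :=
    Measure.isProbabilityMeasure_map measurable_fst.aemeasurable
  have hhfin : IsFiniteMeasure h :=
    Measure.smul_finite _ (ne_top_of_le_ne_top hfptop tsub_le_self)
  -- the localized source inequality at all admissible scales
  have hkey : ∀ z ∈ S, ∀ v, 0 < v → v ≤ ρ →
      pav (16 * R) fp v z.1 - pav (16 * R) fm v z.1
        ≤ w z.1 * (gav Lp v z.1 - gav Lm v z.1) - η / 2 * (gav τ' v z.1 + d) := by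
    intro z hz v hv hvρ
    obtain ⟨hvR, hn⟩ := hnum R d η T v hR hd hη hη1 hT hv (hvρ.trans hρ)
    exact localized_source C0 C1 τ' Lp Lm w x0 R d η T v hdom hw hR hd hη hv hvR hmass hn z.1
      (hScube z hz).1
  have hzpos : ∀ z ∈ S, 0 < z.2 := fun z hz => lt_of_lt_of_le ha (hScube z hz).2.1
  -- initial inequality
  have hinit : ∀ z ∈ S, gav h z.2 z.1 + η / 2 * (gav τ' z.2 z.1 + d)
      ≤ w z.1 * (gav Lp z.2 z.1 - gav Lm z.2 z.1) := by
    intro z hz
    have h1 := (hcontact h rfl z hz).1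
    have h2 := hkey z hz z.2 (hzpos z hz) (hScube z hz).2.2
    have h3 := gav_le_pav (16 * R) h16 h z.2 (hzpos z hz) z.1
    linarith
  have hwpos : ∀ z ∈ S, 0 < w z.1 := by
    intro z hz
    have h1 := hinit z hz
    have h2 := gav_nonneg h z.2 (hzpos z hz) z.1
    have h3 := gav_nonneg τ' z.2 (hzpos z hz) z.1
    have h4 : 0 < η / 2 * (gav τ' z.2 z.1 + d) := by positivity
    rcases (hw.nonneg z.1).eq_or_lt with h0 | h0
    · rw [← h0, zero_mul] at h1
      linarith
    · exact h0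
  refine ⟨σ, S, hσ, hS, hσS, ?_, hwpos, ?_⟩
  · intro z hz
    have hzb : z.1 ∈ ball x0 R := hw.supp (hwpos z hz).ne'
    exact (mem_entr_perD_iff (16 * R) a h16 x0 D₀ habove z
      (loc_ball_subset_cube x0 z.1 R hR hzb)).1 (hSent hz)
  · intro z hz
    have hw0 := hwpos z hz
    have hw1 := hw.le_one z.1
    constructor
    · have h1 := hinit z hz
      have h2 := gav_nonneg h z.2 (hzpos z hz) z.1
      have h3 := gav_nonneg τ' z.2 (hzpos z hz) z.1
      have h4 : 0 < η / 2 * (gav τ' z.2 z.1 + d) := by positivity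
      have h5 : 0 < gav Lp z.2 z.1 - gav Lm z.2 z.1 := by
        by_contra hcon
        push Not at hcon
        have := mul_nonpos_of_nonneg_of_nonpos hw0.le hcon
        linarith
      have h6 : w z.1 * (gav Lp z.2 z.1 - gav Lm z.2 z.1) ≤ 1 * (gav Lp z.2 z.1 - gav Lm z.2 z.1) :=
        mul_le_mul_of_nonneg_right hw1 h5.le
      linarith
    · intro s hs hsρ
      have hsub : uIcc z.2 s ⊆ Ioi (0 : ℝ) := by
        rw [uIcc_of_le hs]
        exact fun v hv => lt_of_lt_of_le (hzpos z hz) hv.1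
      have h1 := (hcontact h rfl z hz).2 s hs
      have cP : ∀ (μ : Measure (E m)) [IsFiniteMeasure μ],
          ContinuousOn (fun v => pav (16 * R) μ v z.1) (uIcc z.2 s) := fun μ _ =>
        (continuousOn_pav (16 * R) h16 μ z.1).mono hsub
      have cG : ∀ (μ : Measure (E m)) [IsFiniteMeasure μ],
          ContinuousOn (fun v => gav μ v z.1) (uIcc z.2 s) := fun μ _ =>
        (continuousOn_gav μ z.1).mono hsub
      have i1 : IntervalIntegrable (fun v => v * (pav (16 * R) fp v z.1 - pav (16 * R) fm v z.1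
          - pav (16 * R) h v z.1)) volume z.2 s :=
        (continuousOn_id.mul (((cP fp).sub (cP fm)).sub (cP h))).intervalIntegrable
      have iA : IntervalIntegrable (fun v => v * (gav Lp v z.1 - gav Lm v z.1)) volume z.2 s :=
        (continuousOn_id.mul ((cG Lp).sub (cG Lm))).intervalIntegrable
      have iB : IntervalIntegrable (fun v => v * (η / 2 * (gav τ' v z.1 + d))) volume z.2 s :=
        (continuousOn_id.mul (continuousOn_const.mul ((cG τ').add continuousOn_const))).intervalIntegrable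
      have h2 : ∫ v in z.2..s, v * (pav (16 * R) fp v z.1 - pav (16 * R) fm v z.1
            - pav (16 * R) h v z.1)
          ≤ ∫ v in z.2..s, (w z.1 * (v * (gav Lp v z.1 - gav Lm v z.1))
            - v * (η / 2 * (gav τ' v z.1 + d))) := by
        refine intervalIntegral.integral_mono_on hs i1 ((iA.const_mul _).sub iB) fun v hv => ?_
        have hv0 : 0 < v := lt_of_lt_of_le (hzpos z hz) hv.1
        have h3 := hkey z hz v hv0 (hv.2.trans hsρ)
        have h4 := (gav_nonneg h v hv0 z.1).trans (gav_le_pav (16 * R) h16 h v hv0 z.1)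
        have h5 : pav (16 * R) fp v z.1 - pav (16 * R) fm v z.1 - pav (16 * R) h v z.1
            ≤ w z.1 * (gav Lp v z.1 - gav Lm v z.1) - η / 2 * (gav τ' v z.1 + d) := by linarith
        have h6 := mul_le_mul_of_nonneg_left h5 hv0.le
        linarith
      rw [intervalIntegral.integral_sub (iA.const_mul _) iB,
        intervalIntegral.integral_const_mul] at h2
      have hB : 0 ≤ ∫ v in z.2..s, v * (η / 2 * (gav τ' v z.1 + d)) := by
        refine intervalIntegral.integral_nonneg hs fun v hv => ?_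
        have hv0 : 0 < v := lt_of_lt_of_le (hzpos z hz) hv.1
        have := gav_nonneg τ' v hv0 z.1
        positivity
      have e : ∫ v in z.2..s, v * (gav Lp v z.1 - gav Lm v z.1 - η / 2 * (gav τ' v z.1 + d))
          = (∫ v in z.2..s, v * (gav Lp v z.1 - gav Lm v z.1))
            - ∫ v in z.2..s, v * (η / 2 * (gav τ' v z.1 + d)) := by
        rw [← intervalIntegral.integral_sub iA iB]
        exact intervalIntegral.integral_congr fun v _ => by ring
      rw [e]
      set A : ℝ := ∫ v in z.2..s, v * (gav Lp v z.1 - gav Lm v z.1) with hA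
      set B : ℝ := ∫ v in z.2..s, v * (η / 2 * (gav τ' v z.1 + d)) with hBdef
      have h7 : 0 ≤ w z.1 * A - B := h1.trans h2
      have h8 : 0 ≤ A := by
        by_contra hcon
        push Not at hcon
        have := mul_neg_of_pos_of_neg hw0 hcon
        linarith
      have h9 : w z.1 * A ≤ 1 * A := mul_le_mul_of_nonneg_right hw1 h8
      linarith

end Claimed.Agent.R322.Sx.Contact
end

/- ===== packed: Claimed.Agent.R322.Sx.Contact ===== -/
section
/-!
# R322 / Sx / Contact : the contact measure (AE Lemma 4.1) and its localisation (AE Lemma 4.2)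

No geometry: only finite measures on `E m` and Gaussian averages.

* `contact` is AE Lemma 4.1 on the flat torus `E m / (p ℤ)^m`, written with periodic objects on
  `E m`: periodised kernel `gaussP`, periodic continuation set.  A signed measure `f` is a pair of
  finite positive measures `(fp, fm)`.  Instead of `spt σ` we produce a compact set `𝒮 ⊆ K` of full
  `σ`-measure on which the contact inequalities hold (the argmax set of the potential).
  `v² d log v = v dv`.
* `contact_local` = AE Lemma 4.1 + Lemma 4.2 with EUCLIDEAN output; this is the only statement used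
  by AE Proposition 4.3 and AE Sections 5-6.  The torus has period `16 R`; the continuation set `D₀`
  is any closed, upward closed subset of `E m × [a, ∞)` containing `E m × [ρ, ∞)`; it is used on the
  closed fundamental cube and extended periodically.  The source is `f = w L' - η (τ' + d dy)`.
  Non-nearest copies of the kernel are absorbed in the margin exactly as the far part of the
  commutator in AE Lemma 4.2; `h^per_s ≥ h_s` by positivity.
  Brouwer: `Claimed/Agent/FixPt/Brouwer.lean`.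
-/

set_option autoImplicit false

namespace Claimed.Agent.R322.Sx

open MeasureTheory Set Metric
open scoped ENNReal NNReal

/-- lattice vector `p k`. -/
noncomputable def lat {m : ℕ} (p : ℝ) (k : Fin m → ℤ) : E m := WithLp.toLp 2 fun i => p * (k i : ℝ)

/-- periodised Gaussian. -/
noncomputable def gaussP (m : ℕ) (p s : ℝ) (z : E m) : ℝ := ∑' k : Fin m → ℤ, gauss m s (z + lat p k)

/-- periodised Gaussian average of a finite measure. -/
noncomputable def gavP {m : ℕ} (p : ℝ) (ρ : Measure (E m)) (s : ℝ) (x : E m) : ℝ :=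
  ∫ y, gaussP m p s (y - x) ∂ρ

/-- closed fundamental cube. -/
def cube (m : ℕ) (p : ℝ) : Set (E m) := {x | ∀ i, |x i| ≤ p / 2}

/-- closed, upward closed subset of `E m × [a, ∞)` containing `E m × [stop, ∞)`. -/
structure IsContinuation {m : ℕ} (a stop : ℝ) (D : Set (E m × ℝ)) : Prop where
  a_pos : 0 < a
  a_lt : a < stop
  closed : IsClosed D
  above : ∀ z ∈ D, a ≤ z.2
  up : ∀ (x : E m) (s v : ℝ), (x, s) ∈ D → s ≤ v → (x, v) ∈ D
  top : ∀ (x : E m) (s : ℝ), stop ≤ s → (x, s) ∈ D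

/-- entrance boundary. -/
def entrance {m : ℕ} (D : Set (E m × ℝ)) : Set (E m × ℝ) := D \ interior D

/-- **AE Lemma 4.1 (contact measure)**, periodic form. -/
theorem contact (m : ℕ) (hm : 1 ≤ m) (p a stop : ℝ) (hp : 0 < p) (D : Set (E m × ℝ))
    (hD : IsContinuation a stop D)
    (hper : ∀ (x : E m) (s : ℝ) (k : Fin m → ℤ), (x, s) ∈ D ↔ (x + lat p k, s) ∈ D)
    (fp fm : Measure (E m)) [IsFiniteMeasure fp] [IsFiniteMeasure fm]
    (hM : 0 < (fp univ).toReal - (fm univ).toReal) :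
    ∃ (σ : Measure (E m × ℝ)) (𝒮 : Set (E m × ℝ)), IsProbabilityMeasure σ ∧ IsCompact 𝒮 ∧
      σ 𝒮ᶜ = 0 ∧ 𝒮 ⊆ entrance D ∧ (∀ z ∈ 𝒮, z.1 ∈ cube m p) ∧
      ∀ z ∈ 𝒮,
        0 ≤ gavP p fp z.2 z.1 - gavP p fm z.2 z.1
            - gavP p (ENNReal.ofReal ((fp univ).toReal - (fm univ).toReal) • σ.map Prod.fst)
                z.2 z.1 ∧
        ∀ s : ℝ, z.2 ≤ s →
          0 ≤ ∫ v in z.2..s, v * (gavP p fp v z.1 - gavP p fm v z.1
            - gavP p (ENNReal.ofReal ((fp univ).toReal - (fm univ).toReal) • σ.map Prod.fst)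
                v z.1) := by
  have hfp : fp univ ≠ ⊤ := measure_ne_top fp univ
  have hfm : fm univ ≠ ⊤ := measure_ne_top fm univ
  have hM' : fm univ < fp univ := (ENNReal.toReal_lt_toReal hfm hfp).1 (by linarith)
  have hc : ENNReal.ofReal ((fp univ).toReal - (fm univ).toReal) = fp univ - fm univ := by
    rw [ENNReal.ofReal_sub _ ENNReal.toReal_nonneg, ENNReal.ofReal_toReal hfp,
      ENNReal.ofReal_toReal hfm]
  have hcont : Contact.IsCont p a stop D :=
    { closed := hD.closed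
      per := fun k x s h => (hper x s k).1 h
      up := hD.up
      bot := fun x s h => hD.above _ h
      top := hD.top }
  obtain ⟨σ, S, h1, h2, h3, h4, h5⟩ := Contact.contact p a stop hp hD.a_pos hD.a_lt fp fm hM' D hcont
  refine ⟨σ, S, h1, h2, h4, fun z hz => (h3 hz).1, fun z hz => (h3 hz).2.1, fun z hz => ?_⟩
  rw [hc]
  exact h5 _ rfl z hz

/-- total mass of the source `f = w L' - η (τ' + d dy)` on the torus of period `16 R`. -/
noncomputable def srcMass {m : ℕ} (τ' Lp Lm : Measure (E m)) (w : E m → ℝ) (R d η : ℝ) : ℝ :=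
  (∫ y, w y ∂Lp) - (∫ y, w y ∂Lm) - η * ((τ' univ).toReal + d * (16 * R) ^ m)

/-- **AE Lemmas 4.1 + 4.2, Euclidean output.**  `L' = Lp - Lm`, `|L'| ≤ C0 τ'`,
`ν = τ' + d dy`; conclusions AE (4.8), (4.9) at every point of the compact full-measure set `𝒮` of
contacts; contacts lie on the entrance boundary of `D₀` and in `{w > 0}`. -/
theorem contact_local (m : ℕ) (hm : 1 ≤ m) (C0 C1 : ℝ) :
    ∃ c T0 : ℝ, 0 < c ∧ ∀ (τ' Lp Lm : Measure (E m)) (w : E m → ℝ) (x0 : E m)
      (R d η T ρ a : ℝ) (D₀ : Set (E m × ℝ)),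
      IsFiniteMeasure τ' → Lp + Lm ≤ ENNReal.ofReal C0 • τ' → τ' (closedBall x0 (4 * R))ᶜ = 0 →
      IsWeight w x0 R → 0 < R → 0 < d → 0 < η → η < 1 → T0 ≤ T →
      (τ' univ).toReal ≤ Real.exp (C1 * T) * (d * R ^ m) →
      ρ ≤ c * η ^ 2 * R / T ^ 2 → IsContinuation a ρ D₀ →
      0 < srcMass τ' Lp Lm w R d η →
      ∃ (σ : Measure (E m × ℝ)) (𝒮 : Set (E m × ℝ)), IsProbabilityMeasure σ ∧ IsCompact 𝒮 ∧
        σ 𝒮ᶜ = 0 ∧ 𝒮 ⊆ entrance D₀ ∧ (∀ z ∈ 𝒮, 0 < w z.1) ∧
        ∀ z ∈ 𝒮,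
          gav (ENNReal.ofReal (srcMass τ' Lp Lm w R d η) • σ.map Prod.fst) z.2 z.1
              + η / 2 * (gav τ' z.2 z.1 + d)
            ≤ gav Lp z.2 z.1 - gav Lm z.2 z.1 ∧
          ∀ s : ℝ, z.2 ≤ s → s ≤ ρ →
            0 ≤ ∫ v in z.2..s, v * (gav Lp v z.1 - gav Lm v z.1 - η / 2 * (gav τ' v z.1 + d)) := by
  obtain ⟨T0, -, h⟩ := Contact.contact_local_core m C0 C1
  refine ⟨1, T0, one_pos, ?_⟩
  intro τ' Lp Lm w x0 R d η T ρ a D₀ h1 h2 _ h4 h5 h6 h7 h8 h9 h10 h11 h12 h13
  exact h τ' Lp Lm w x0 R d η T ρ a D₀ h1 h2 h4 h5 h6 h7 h8 h9 h10 h11 h12.a_pos h12.a_lt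
    h12.closed h12.above h12.up h12.top h13

end Claimed.Agent.R322.Sx
end

/- ===== packed: Claimed.Agent.R322.Sx.Cutoff ===== -/
section
/-!
# R322 / Sx / Cutoff : existence of chart cutoffs

`exists_isCutoff`: for every centre `x0`, radius `R` and width `h > 0` there is a smooth `χ` with `IsCutoff χ x0 R h`
(even `|∇χ| ≤ 2/h`).  Construction: mollification (normed bump of radius `h/4`) of the `2/h`-Lipschitz profile
`y ↦ clamp ((R + 3h/4 - |y - x0|) · 2/h)`.
-/

set_option autoImplicit false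

namespace Claimed.Agent.R322.Sx

open MeasureTheory Set Metric
open scoped ENNReal NNReal InnerProductSpace ContDiff Convolution

/-- the Lipschitz profile. -/
noncomputable def cutProfile {m : ℕ} (x0 : E m) (R h : ℝ) (y : E m) : ℝ :=
  max 0 (min 1 ((R + 3 * h / 4 - ‖y - x0‖) * (2 / h)))

theorem cutProfile_nonneg {m : ℕ} (x0 : E m) (R h : ℝ) (y : E m) : 0 ≤ cutProfile x0 R h y :=
  le_max_left _ _

theorem cutProfile_le_one {m : ℕ} (x0 : E m) (R h : ℝ) (y : E m) : cutProfile x0 R h y ≤ 1 :=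
  max_le zero_le_one (min_le_left _ _)

theorem cutProfile_lip {m : ℕ} (x0 : E m) (R h : ℝ) (hh : 0 < h) (y y' : E m) :
    |cutProfile x0 R h y - cutProfile x0 R h y'| ≤ 2 / h * ‖y - y'‖ := by
  unfold cutProfile
  rw [max_comm 0, max_comm 0]
  refine (abs_max_sub_max_le_abs _ _ _).trans ?_
  refine (abs_min_sub_min_le_max _ _ _ _).trans ?_
  rw [sub_self, abs_zero]
  apply max_le (by positivity)
  have e : (R + 3 * h / 4 - ‖y - x0‖) * (2 / h) - (R + 3 * h / 4 - ‖y' - x0‖) * (2 / h)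
      = 2 / h * (‖y' - x0‖ - ‖y - x0‖) := by ring
  rw [e, abs_mul, abs_of_pos (by positivity : 0 < 2 / h)]
  apply mul_le_mul_of_nonneg_left _ (by positivity)
  refine (abs_norm_sub_norm_le _ _).trans ?_
  rw [sub_sub_sub_cancel_right, norm_sub_rev]

theorem cutProfile_continuous {m : ℕ} (x0 : E m) (R h : ℝ) : Continuous (cutProfile x0 R h) := by
  unfold cutProfile
  fun_prop

theorem cutProfile_eq_one {m : ℕ} (x0 : E m) (R h : ℝ) (hh : 0 < h) {y : E m} (hy : ‖y - x0‖ ≤ R + h / 4) :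
    cutProfile x0 R h y = 1 := by
  unfold cutProfile
  have h1 : 1 ≤ (R + 3 * h / 4 - ‖y - x0‖) * (2 / h) := by
    rw [mul_div_assoc', le_div_iff₀ hh]
    linarith
  rw [min_eq_left h1]
  exact max_eq_right zero_le_one

theorem cutProfile_eq_zero {m : ℕ} (x0 : E m) (R h : ℝ) (hh : 0 < h) {y : E m} (hy : R + 3 * h / 4 ≤ ‖y - x0‖) :
    cutProfile x0 R h y = 0 := by
  unfold cutProfile
  have h1 : (R + 3 * h / 4 - ‖y - x0‖) * (2 / h) ≤ 0 :=
    mul_nonpos_of_nonpos_of_nonneg (by linarith) (by positivity)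
  exact max_eq_left ((min_le_right _ _).trans h1)

/-- **Existence of chart cutoffs.** -/
theorem exists_isCutoff (m : ℕ) (x0 : E m) (R h : ℝ) (hh : 0 < h) :
    ∃ χ : E m → ℝ, ContDiff ℝ ∞ χ ∧ IsCutoff χ x0 R h := by
  obtain ⟨g, hg⟩ : ∃ g : E m → ℝ, g = cutProfile x0 R h := ⟨_, rfl⟩
  have hgc : Continuous g := hg ▸ cutProfile_continuous x0 R h
  let φ : ContDiffBump (0 : E m) := ⟨h / 8, h / 4, by positivity, by linarith⟩
  have hφout : φ.rOut = h / 4 := rfl
  obtain ⟨f, hf⟩ : ∃ f : E m → ℝ, f = φ.normed volume := ⟨_, rfl⟩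
  have hf0 : ∀ t, 0 ≤ f t := fun t => hf ▸ φ.nonneg_normed t
  have hfc : Continuous f := hf ▸ φ.continuous_normed
  have hfs : HasCompactSupport f := hf ▸ φ.hasCompactSupport_normed
  have hf1 : ∫ t, f t = 1 := hf ▸ φ.integral_normed
  have hfi : Integrable f := hfc.integrable_of_hasCompactSupport hfs
  obtain ⟨χ, hχ⟩ : ∃ χ : E m → ℝ, χ = f ⋆[ContinuousLinearMap.lsmul ℝ ℝ, volume] g := ⟨_, rfl⟩
  have hval : ∀ y, χ y = ∫ t, f t * g (y - t) := by
    intro y
    rw [hχ]
    rfl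
  have hint : ∀ y, Integrable (fun t => f t * g (y - t)) := by
    intro y
    apply Continuous.integrable_of_hasCompactSupport
    · exact hfc.mul (hgc.comp (continuous_const.sub continuous_id))
    · exact hfs.mul_right
  have hsm : ContDiff ℝ ∞ χ := by
    rw [hχ, hf]
    exact φ.hasCompactSupport_normed.contDiff_convolution_left _ φ.contDiff_normed hgc.locallyIntegrable
  have hloc : ∀ y, (∀ x ∈ ball y (h / 4), g x = g y) → χ y = g y := by
    intro y hy
    rw [hχ, hf]
    exact φ.normed_convolution_eq_right hy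
  have hlip : LipschitzWith (Real.toNNReal (2 / h)) χ := by
    apply LipschitzWith.of_dist_le_mul
    intro y y'
    rw [Real.coe_toNNReal _ (by positivity), Real.dist_eq, dist_eq_norm, hval, hval, ← integral_sub (hint y) (hint y')]
    calc |∫ t, (f t * g (y - t) - f t * g (y' - t))| ≤ ∫ t, |f t * g (y - t) - f t * g (y' - t)| :=
          abs_integral_le_integral_abs
      _ ≤ ∫ t, f t * (2 / h * ‖y - y'‖) := by
          apply integral_mono ((hint y).sub (hint y')).abs (hfi.mul_const _)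
          intro t
          simp only [Pi.sub_apply]
          rw [← mul_sub, abs_mul, abs_of_nonneg (hf0 t)]
          apply mul_le_mul_of_nonneg_left _ (hf0 t)
          rw [hg]
          refine (cutProfile_lip x0 R h hh _ _).trans ?_
          rw [sub_sub_sub_cancel_right]
      _ = 2 / h * ‖y - y'‖ := by rw [integral_mul_const, hf1, one_mul]
  refine ⟨χ, hsm, hsm.of_le (by norm_cast), ?_, ?_, ?_, ?_, ?_⟩
  · intro y
    rw [hval]
    exact integral_nonneg fun t => mul_nonneg (hf0 t) (hg ▸ cutProfile_nonneg x0 R h _)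
  · intro y
    rw [hval, ← hf1]
    apply integral_mono (hint y) hfi
    intro t
    exact mul_le_of_le_one_right (hf0 t) (hg ▸ cutProfile_le_one x0 R h _)
  · intro y hy
    have hy' : ‖y - x0‖ < R := by simpa [dist_eq_norm] using hy
    have h1 : ∀ x ∈ ball y (h / 4), g x = 1 := by
      intro x hx
      rw [hg]
      apply cutProfile_eq_one x0 R h hh
      have hx' : ‖x - y‖ < h / 4 := by simpa [dist_eq_norm] using hx
      have : ‖x - x0‖ ≤ ‖x - y‖ + ‖y - x0‖ := by
        have := norm_add_le (x - y) (y - x0)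
        simpa using this
      linarith
    have h2 : g y = 1 := h1 y (mem_ball_self (by positivity))
    rw [hloc y (fun x hx => by rw [h1 x hx, h2]), h2]
  · apply closure_minimal _ isClosed_closedBall
    intro y hy
    by_contra hcon
    have hy' : R + h < ‖y - x0‖ := by
      have : ¬ dist y x0 ≤ R + h := hcon
      rw [dist_eq_norm] at this
      linarith
    have h1 : ∀ x ∈ ball y (h / 4), g x = 0 := by
      intro x hx
      rw [hg]
      apply cutProfile_eq_zero x0 R h hh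
      have hx' : ‖x - y‖ < h / 4 := by simpa [dist_eq_norm] using hx
      have : ‖y - x0‖ ≤ ‖x - y‖ + ‖x - x0‖ := by
        have := norm_sub_le (x - x0) (x - y)
        rw [sub_sub_sub_cancel_left] at this
        linarith
      linarith
    have h2 : g y = 0 := h1 y (mem_ball_self (by positivity))
    exact hy (by rw [hloc y (fun x hx => by rw [h1 x hx, h2]), h2])
  · intro y
    have := norm_fderiv_le_of_lipschitz ℝ hlip (x₀ := y)
    rw [Real.coe_toNNReal _ (by positivity)] at this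
    refine this.trans ?_
    apply div_le_div_of_nonneg_right (by norm_num) hh.le

end Claimed.Agent.R322.Sx
end
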