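/- Packed by merge_tool.py (helper293): 5 modules of Claimed.Agent.R322 in one file, same declarations.
   Old modules, in this order: Sx.Dyadic.Grid, Sx.Dyadic, Sx.Charge, Fit.Boot.Defs, Haus.Sat -/
import Claimed.Agent.R322.Basic
import Claimed.Agent.R322.Pack031
import Mathlib

/- ===== packed: Claimed.Agent.R322.Sx.Dyadic.Grid ===== -/
section
/-!
# R322 / Sx / Dyadic / Grid : shifted dyadic grids

Definitions of the cubes (`Cube`, `Cube.set`, `Cube.dens`, `Cube.lowPart`), the basic facts on one grid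
(the cubes of one generation partition `E m`, generations are nested, measurability, volume,
maximal cubes of a family) and the one-third trick `exists_cube`.
-/

set_option autoImplicit false

namespace Claimed.Agent.R322.Sx

open MeasureTheory Set Metric
open scoped ENNReal NNReal

/-- dyadic cube: generation and position. -/
structure Cube (m : ℕ) where
  /-- generation `j`; the side is `2^{-j}` -/
  gen : ℕ
  /-- integer position -/
  pos : Fin m → ℤ

namespace Cube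

variable {m : ℕ}

/-- side length. -/
noncomputable def side (c : Cube m) : ℝ := (2 : ℝ)⁻¹ ^ c.gen

/-- lower corner coordinate in the grid `g`. -/
noncomputable def lo (g : Fin m → Fin 3) (c : Cube m) (i : Fin m) : ℝ :=
  c.side * ((c.pos i : ℝ) + (-1 : ℝ) ^ c.gen * ((g i : ℕ) : ℝ) / 3)

/-- the half-open cube. -/
def set (g : Fin m → Fin 3) (c : Cube m) : Set (E m) :=
  {y | ∀ i, c.lo g i ≤ y i ∧ y i < c.lo g i + c.side}

/-- Lebesgue volume. -/
noncomputable def vol (c : Cube m) : ℝ := c.side ^ m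

/-- density `ν(R)/|R|`. -/
noncomputable def dens (g : Fin m → Fin 3) (ν : Measure (E m)) (c : Cube m) : ℝ :=
  (ν (c.set g)).toReal / c.vol

/-- the part of `P` on which no dyadic subcube has density above `Λ`. -/
def lowPart (g : Fin m → Fin 3) (ν : Measure (E m)) (P : Cube m) (Λ : ℝ) : Set (E m) :=
  {y | y ∈ P.set g ∧ ∀ R : Cube m, R.set g ⊆ P.set g → y ∈ R.set g → R.dens g ν ≤ Λ}

/-! ### basic facts -/

theorem side_pos (c : Cube m) : 0 < c.side := by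
  unfold side
  positivity

theorem vol_pos (c : Cube m) : 0 < c.vol := pow_pos c.side_pos m

theorem ext' {c c' : Cube m} (h1 : c.gen = c'.gen) (h2 : c.pos = c'.pos) : c = c' := by
  cases c
  cases c'
  simp only at h1 h2
  subst h1
  subst h2
  rfl

instance instCountable : Countable (Cube m) := by
  have : Function.Injective (fun c : Cube m => (c.gen, c.pos)) := by
    intro c c' h
    simp only [Prod.mk.injEq] at h
    exact ext' h.1 h.2
  exact this.countable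

/-- the cube of generation `j` of the grid `g` which contains `y`. -/
noncomputable def ofPt (g : Fin m → Fin 3) (j : ℕ) (y : E m) : Cube m where
  gen := j
  pos := fun i => ⌊y i / (2 : ℝ)⁻¹ ^ j - (-1 : ℝ) ^ j * ((g i : ℕ) : ℝ) / 3⌋

theorem mem_set_iff (g : Fin m → Fin 3) (c : Cube m) (y : E m) :
    y ∈ c.set g ↔ c = ofPt g c.gen y := by
  have hs := c.side_pos
  constructor
  · intro h
    refine ext' rfl ?_
    funext i
    obtain ⟨h1, h2⟩ := h i
    symm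
    show ⌊y i / (2 : ℝ)⁻¹ ^ c.gen - (-1 : ℝ) ^ c.gen * ((g i : ℕ) : ℝ) / 3⌋ = c.pos i
    rw [Int.floor_eq_iff]
    unfold lo at h1 h2
    change _ ≤ y i / c.side - _ ∧ y i / c.side - _ < _
    constructor
    · rw [le_sub_iff_add_le, le_div_iff₀ hs]
      linarith
    · rw [sub_lt_iff_lt_add, div_lt_iff₀ hs]
      linarith
  · intro h i
    have h1 : c.pos i = ⌊y i / (2 : ℝ)⁻¹ ^ c.gen - (-1 : ℝ) ^ c.gen * ((g i : ℕ) : ℝ) / 3⌋ := by
      conv_lhs => rw [h]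
      rfl
    have h2 := Int.floor_eq_iff.1 h1.symm
    change _ ≤ y i / c.side - _ ∧ y i / c.side - _ < _ at h2
    obtain ⟨h3, h4⟩ := h2
    rw [le_sub_iff_add_le, le_div_iff₀ hs] at h3
    rw [sub_lt_iff_lt_add, div_lt_iff₀ hs] at h4
    unfold lo
    constructor <;> linarith

theorem mem_ofPt (g : Fin m → Fin 3) (j : ℕ) (y : E m) : y ∈ (ofPt g j y).set g :=
  (mem_set_iff g _ y).2 rfl

theorem floor_half {a b : ℝ} {t : ℤ} (h : ⌊2 * a + t⌋ = ⌊2 * b + t⌋) : ⌊a⌋ = ⌊b⌋ := by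
  rw [Int.floor_add_intCast, Int.floor_add_intCast, add_left_inj] at h
  have ha := Int.floor_eq_iff.1 (rfl : ⌊2 * a⌋ = ⌊2 * a⌋)
  have hb := Int.floor_eq_iff.1 h.symm
  have hk := Int.floor_eq_iff.1 (rfl : ⌊a⌋ = ⌊a⌋)
  symm
  rw [Int.floor_eq_iff]
  generalize ⌊2 * a⌋ = n at ha hb
  generalize ⌊a⌋ = k at hk ⊢
  have h1 : (n : ℝ) < 2 * k + 2 := by linarith
  have h2 : (2 * k : ℝ) < n + 1 := by linarith
  have h1' : n < 2 * k + 2 := by exact_mod_cast h1
  have h2' : 2 * k < n + 1 := by exact_mod_cast h2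
  have h3 : 2 * k ≤ n := by omega
  have h4 : n + 1 ≤ 2 * k + 2 := by omega
  have h3' : (2 * k : ℝ) ≤ n := by exact_mod_cast h3
  have h4' : (n : ℝ) + 1 ≤ 2 * k + 2 := by exact_mod_cast h4
  constructor <;> linarith

theorem ofPt_succ (g : Fin m → Fin 3) (j : ℕ) {y z : E m} (h : ofPt g (j + 1) z = ofPt g (j + 1) y) :
    ofPt g j z = ofPt g j y := by
  refine ext' rfl ?_
  funext i
  have h1 : (ofPt g (j + 1) z).pos i = (ofPt g (j + 1) y).pos i := by rw [h]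
  change ⌊z i / (2 : ℝ)⁻¹ ^ (j + 1) - (-1 : ℝ) ^ (j + 1) * ((g i : ℕ) : ℝ) / 3⌋ =
    ⌊y i / (2 : ℝ)⁻¹ ^ (j + 1) - (-1 : ℝ) ^ (j + 1) * ((g i : ℕ) : ℝ) / 3⌋ at h1
  show ⌊z i / (2 : ℝ)⁻¹ ^ j - (-1 : ℝ) ^ j * ((g i : ℕ) : ℝ) / 3⌋ =
    ⌊y i / (2 : ℝ)⁻¹ ^ j - (-1 : ℝ) ^ j * ((g i : ℕ) : ℝ) / 3⌋
  have hp : (0 : ℝ) < (2 : ℝ)⁻¹ ^ j := by positivity
  have e : ∀ u : ℝ, u / (2 : ℝ)⁻¹ ^ (j + 1) - (-1 : ℝ) ^ (j + 1) * ((g i : ℕ) : ℝ) / 3 =
      2 * (u / (2 : ℝ)⁻¹ ^ j - (-1 : ℝ) ^ j * ((g i : ℕ) : ℝ) / 3) +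
        (((-1 : ℤ) ^ j * ((g i : ℕ) : ℤ) : ℤ) : ℝ) := by
    intro u
    push_cast
    rw [pow_succ, pow_succ]
    field_simp
    ring
  rw [e, e] at h1
  exact floor_half h1

theorem ofPt_mono (g : Fin m → Fin 3) {j j' : ℕ} (hj : j ≤ j') {y z : E m}
    (h : ofPt g j' z = ofPt g j' y) : ofPt g j z = ofPt g j y := by
  induction j', hj using Nat.le_induction with
  | base => exact h
  | succ k _ ih => exact ih (ofPt_succ g k h)

/-- two cubes of the same grid which meet are nested. -/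
theorem subset_of_mem (g : Fin m → Fin 3) {R R' : Cube m} {y : E m} (hy : y ∈ R.set g)
    (hy' : y ∈ R'.set g) (hgen : R.gen ≤ R'.gen) : R'.set g ⊆ R.set g := by
  intro z hz
  rw [mem_set_iff] at hy hy' hz ⊢
  rw [hy]
  show ofPt g R.gen y = ofPt g R.gen z
  refine (ofPt_mono g hgen ?_).symm
  rw [← hz, ← hy']

theorem eq_of_mem (g : Fin m → Fin 3) {R R' : Cube m} {y : E m} (hy : y ∈ R.set g)
    (hy' : y ∈ R'.set g) (hgen : R.gen = R'.gen) : R = R' := by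
  rw [mem_set_iff] at hy hy'
  rw [hy, hy', hgen]

theorem set_eq_preimage (g : Fin m → Fin 3) (c : Cube m) :
    c.set g = (WithLp.ofLp : E m → (Fin m → ℝ)) ⁻¹'
      (Set.pi univ fun i => Ico (c.lo g i) (c.lo g i + c.side)) := by
  ext y
  simp only [set, mem_ofPred_eq, mem_preimage, mem_pi, mem_univ, forall_true_left, mem_Ico]

theorem measurableSet_set (g : Fin m → Fin 3) (c : Cube m) : MeasurableSet (c.set g) := by
  rw [set_eq_preimage]
  exact (PiLp.volume_preserving_ofLp (Fin m)).measurable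
    (MeasurableSet.univ_pi fun i => measurableSet_Ico)

theorem volume_set (g : Fin m → Fin 3) (c : Cube m) :
    (volume : Measure (E m)) (c.set g) = ENNReal.ofReal c.vol := by
  rw [set_eq_preimage, (PiLp.volume_preserving_ofLp (Fin m)).measure_preimage
    (MeasurableSet.univ_pi fun i => measurableSet_Ico).nullMeasurableSet, Real.volume_pi_Ico]
  simp only [add_sub_cancel_left, Finset.prod_const, Finset.card_univ, Fintype.card_fin]
  rw [vol, ENNReal.ofReal_pow c.side_pos.le]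

theorem vol_eq_of_set_eq (g : Fin m → Fin 3) {c c' : Cube m} (h : c.set g = c'.set g) :
    c.vol = c'.vol := by
  have h1 := volume_set g c
  rw [h, volume_set g c'] at h1
  exact ((ENNReal.ofReal_eq_ofReal_iff c'.vol_pos.le c.vol_pos.le).1 h1).symm

theorem dens_eq_of_set_eq (g : Fin m → Fin 3) (ν : Measure (E m)) {c c' : Cube m}
    (h : c.set g = c'.set g) : c.dens g ν = c'.dens g ν := by
  unfold dens
  rw [h, vol_eq_of_set_eq g h]

theorem dens_nonneg (g : Fin m → Fin 3) (ν : Measure (E m)) (c : Cube m) : 0 ≤ c.dens g ν :=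
  div_nonneg ENNReal.toReal_nonneg c.vol_pos.le

/-- `ν(R) ≤ Λ |R|` if the density is at most `Λ`. -/
theorem measure_le_of_dens_le (g : Fin m → Fin 3) (ν : Measure (E m)) [IsFiniteMeasure ν]
    (c : Cube m) {Λ : ℝ} (h : c.dens g ν ≤ Λ) :
    ν (c.set g) ≤ ENNReal.ofReal Λ * (volume : Measure (E m)) (c.set g) := by
  unfold dens at h
  rw [div_le_iff₀ c.vol_pos] at h
  have hΛ : 0 ≤ Λ := by
    by_contra hneg
    have : Λ * c.vol < 0 := mul_neg_of_neg_of_pos (not_le.1 hneg) c.vol_pos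
    have := ENNReal.toReal_nonneg (a := ν (c.set g))
    linarith
  rw [volume_set, ← ENNReal.ofReal_mul hΛ, ← ENNReal.ofReal_toReal (measure_ne_top ν (c.set g))]
  exact ENNReal.ofReal_le_ofReal h

/-- `|R| ≤ ν(R)/Λ` if the density is at least `Λ > 0`. -/
theorem volume_le_of_le_dens (g : Fin m → Fin 3) (ν : Measure (E m)) [IsFiniteMeasure ν]
    (c : Cube m) {Λ : ℝ} (hΛ : 0 < Λ) (h : Λ ≤ c.dens g ν) :
    (volume : Measure (E m)) (c.set g) ≤ ENNReal.ofReal Λ⁻¹ * ν (c.set g) := by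
  unfold dens at h
  rw [le_div_iff₀ c.vol_pos] at h
  rw [volume_set]
  conv_rhs => rw [← ENNReal.ofReal_toReal (measure_ne_top ν (c.set g))]
  rw [← ENNReal.ofReal_mul (inv_nonneg.2 hΛ.le)]
  refine ENNReal.ofReal_le_ofReal ?_
  rw [inv_mul_eq_div, le_div_iff₀ hΛ]
  linarith

/-! ### maximal cubes of a family -/

/-- the cubes of the family which meet no cube of the family of a smaller generation. -/
def maxOf (g : Fin m → Fin 3) (S : Set (Cube m)) : Set (Cube m) :=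
  {R | R ∈ S ∧ ∀ R' ∈ S, R'.gen < R.gen → Disjoint (R'.set g) (R.set g)}

theorem maxOf_subset (g : Fin m → Fin 3) (S : Set (Cube m)) : maxOf g S ⊆ S := fun _ h => h.1

theorem maxOf_pairwiseDisjoint (g : Fin m → Fin 3) (S : Set (Cube m)) :
    (maxOf g S).PairwiseDisjoint (fun R => R.set g) := by
  intro R hR R' hR' hne
  rcases lt_trichotomy R.gen R'.gen with h | h | h
  · exact hR'.2 R hR.1 h
  · show Disjoint (R.set g) (R'.set g)
    rw [Set.disjoint_left]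
    intro y hy hy'
    exact hne (eq_of_mem g hy hy' h)
  · exact (hR.2 R' hR'.1 h).symm

theorem exists_maxOf (g : Fin m → Fin 3) (S : Set (Cube m)) {R : Cube m} (hR : R ∈ S) :
    ∃ R' ∈ maxOf g S, R.set g ⊆ R'.set g := by
  classical
  have hex : ∃ j, ∃ R' ∈ S, R'.gen = j ∧ R.set g ⊆ R'.set g := ⟨R.gen, R, hR, rfl, subset_rfl⟩
  obtain ⟨R', hR', hgen, hsub⟩ := Nat.find_spec hex
  refine ⟨R', ⟨hR', fun R'' hR'' hlt => ?_⟩, hsub⟩
  rw [Set.disjoint_left]
  intro y hy hy'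
  have h1 : R'.set g ⊆ R''.set g := subset_of_mem g hy hy' hlt.le
  have h2 := Nat.find_min hex (m := R''.gen) (by rw [← hgen]; exact hlt)
  exact h2 ⟨R'', hR'', rfl, hsub.trans h1⟩

theorem iUnion_maxOf (g : Fin m → Fin 3) (S : Set (Cube m)) :
    ⋃ R ∈ maxOf g S, R.set g = ⋃ R ∈ S, R.set g := by
  apply subset_antisymm
  · exact biUnion_subset_biUnion_left (maxOf_subset g S)
  · intro y hy
    simp only [mem_iUnion, exists_prop] at hy ⊢
    obtain ⟨R, hR, hy⟩ := hy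
    obtain ⟨R', hR', hsub⟩ := exists_maxOf g S hR
    exact ⟨R', hR', hsub hy⟩

/-- comparison of two measures on a union of cubes. -/
theorem measure_iUnion_le (g : Fin m → Fin 3) (S : Set (Cube m)) (μ₁ μ₂ : Measure (E m)) (c : ℝ≥0∞)
    (h : ∀ R ∈ S, μ₁ (R.set g) ≤ c * μ₂ (R.set g)) :
    μ₁ (⋃ R ∈ S, R.set g) ≤ c * μ₂ (⋃ R ∈ S, R.set g) := by
  rw [← iUnion_maxOf g S]
  rw [measure_biUnion (maxOf g S).to_countable (maxOf_pairwiseDisjoint g S)
      (fun R _ => measurableSet_set g R),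
    measure_biUnion (maxOf g S).to_countable (maxOf_pairwiseDisjoint g S)
      (fun R _ => measurableSet_set g R), ← ENNReal.tsum_mul_left]
  exact ENNReal.tsum_le_tsum fun R => h R.1 (maxOf_subset g S R.2)

end Cube

/-- one coordinate of the one-third trick. -/
theorem exists_cube_coord (j : ℕ) (t r : ℝ) (hr : 6 * r ≤ (2 : ℝ)⁻¹ ^ j) (hr0 : 0 < r) :
    ∃ (γ : Fin 3) (k : ℤ),
      (2 : ℝ)⁻¹ ^ j * ((k : ℝ) + (-1 : ℝ) ^ j * ((γ : ℕ) : ℝ) / 3) ≤ t - r ∧
      t + r ≤ (2 : ℝ)⁻¹ ^ j * ((k : ℝ) + (-1 : ℝ) ^ j * ((γ : ℕ) : ℝ) / 3) + (2 : ℝ)⁻¹ ^ j := by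
  have hs : (0 : ℝ) < (2 : ℝ)⁻¹ ^ j := by positivity
  generalize (2 : ℝ)⁻¹ ^ j = s at hr hs
  obtain ⟨n0, hn0⟩ : ∃ n0 : ℤ, n0 = ⌊3 * t / s + 1 / 2⌋ := ⟨_, rfl⟩
  obtain ⟨h1, h2⟩ := Int.floor_eq_iff.1 hn0.symm
  obtain ⟨σ, hσ⟩ : ∃ σ : ℤ, σ = (-1) ^ j := ⟨_, rfl⟩
  have hσσ : σ * σ = 1 := by
    rw [hσ, ← mul_pow]
    norm_num
  have hσR : ((-1 : ℝ) ^ j) = (σ : ℝ) := by
    rw [hσ]
    push_cast
    rfl
  obtain ⟨b, hb⟩ : ∃ b : ℤ, b = σ * (n0 - 2) := ⟨_, rfl⟩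
  have hb0 : 0 ≤ b % 3 := Int.emod_nonneg _ (by norm_num)
  have hb3 : b % 3 < 3 := Int.emod_lt_of_pos _ (by norm_num)
  have hcast : (((b % 3).toNat : ℕ) : ℝ) = ((b % 3 : ℤ) : ℝ) := by
    have := Int.toNat_of_nonneg hb0
    exact_mod_cast congrArg (Int.cast : ℤ → ℝ) this
  have hid : 3 * (σ * (b / 3)) + σ * (b % 3) = n0 - 2 := by
    have h3 : b % 3 + 3 * (b / 3) = b := Int.emod_add_mul_ediv b 3
    calc 3 * (σ * (b / 3)) + σ * (b % 3) = σ * (b % 3 + 3 * (b / 3)) := by ring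
      _ = σ * b := by rw [h3]
      _ = (σ * σ) * (n0 - 2) := by rw [hb]; ring
      _ = n0 - 2 := by rw [hσσ, one_mul]
  have hidR : 3 * ((σ : ℝ) * ((b / 3 : ℤ) : ℝ)) + (σ : ℝ) * ((b % 3 : ℤ) : ℝ) = (n0 : ℝ) - 2 := by
    exact_mod_cast congrArg (Int.cast : ℤ → ℝ) hid
  refine ⟨⟨(b % 3).toNat, by omega⟩, σ * (b / 3), ?_⟩
  simp only [hcast, hσR]
  have e : s * (((σ * (b / 3) : ℤ) : ℝ) + (σ : ℝ) * ((b % 3 : ℤ) : ℝ) / 3) = s / 3 * ((n0 : ℝ) - 2) := by
    rw [← hidR]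
    push_cast
    ring
  rw [e]
  have h1' : (n0 : ℝ) * s ≤ 3 * t + s / 2 := by
    have := mul_le_mul_of_nonneg_right h1 hs.le
    have e2 : (3 * t / s + 1 / 2) * s = 3 * t + s / 2 := by
      field_simp
    linarith
  have h2' : 3 * t + s / 2 < ((n0 : ℝ) + 1) * s := by
    have := mul_lt_mul_of_pos_right h2 hs
    have e2 : (3 * t / s + 1 / 2) * s = 3 * t + s / 2 := by
      field_simp
    linarith
  constructor <;> nlinarith

/-- every ball of radius `r ≤ 1/12` lies, with room `r`, in a cube of comparable side of one of the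
`3^m` grids. -/
theorem exists_cube (m : ℕ) (x : E m) (r : ℝ) (hr : 0 < r) (hr1 : r ≤ 1 / 12) :
    ∃ (g : Fin m → Fin 3) (c : Cube m), ball x r ⊆ interior (c.set g) ∧ c.side ≤ 12 * r := by
  obtain ⟨j, hj1, hj2⟩ : ∃ j : ℕ, (2 : ℝ)⁻¹ ^ (j + 1) < 6 * r ∧ 6 * r ≤ (2 : ℝ)⁻¹ ^ j :=
    exists_nat_pow_near_of_lt_one (by positivity) (by linarith) (by norm_num) (by norm_num)
  have key := fun i : Fin m => exists_cube_coord j (x i) r hj2 hr
  choose γ k hk using key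
  refine ⟨γ, ⟨j, k⟩, interior_maximal ?_ isOpen_ball, ?_⟩
  · intro y hy i
    have h1 : |y i - x i| < r := by
      have h2 : ‖(y - x) i‖ ≤ ‖y - x‖ := PiLp.norm_apply_le (y - x) i
      rw [mem_ball, dist_eq_norm] at hy
      rw [Real.norm_eq_abs] at h2
      have h3 : (y - x) i = y i - x i := rfl
      rw [h3] at h2
      linarith
    rw [abs_lt] at h1
    obtain ⟨h3, h4⟩ := hk i
    show (2 : ℝ)⁻¹ ^ j * ((k i : ℝ) + (-1 : ℝ) ^ j * ((γ i : ℕ) : ℝ) / 3) ≤ y i ∧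
      y i < (2 : ℝ)⁻¹ ^ j * ((k i : ℝ) + (-1 : ℝ) ^ j * ((γ i : ℕ) : ℝ) / 3) + (2 : ℝ)⁻¹ ^ j
    constructor <;> linarith
  · show (2 : ℝ)⁻¹ ^ j ≤ 12 * r
    rw [pow_succ] at hj1
    linarith

end Claimed.Agent.R322.Sx
end

/- ===== packed: Claimed.Agent.R322.Sx.Dyadic ===== -/
section
/-!
# R322 / Sx / Dyadic : shifted dyadic grids, dyadic packing (AE Lemma 6.3)

No geometry: finite measures on `E m`.

* `Cube m` = (generation `j ≥ 0`, integer position); `c.set g` is the half-open cube of side `2^{-j}`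
  of the grid with shift `g : Fin m → Fin 3` ("one-third trick": shift `(-1)^j g_i / 3`).
  For fixed `g` the cubes of one generation partition `E m` and the generations are nested.
  The dyadic forest of AE Lemma 6.3 is the set of all cubes of generation `≥ 0` of one grid.
* `packing` = AE (6.11)-(6.12).  (`charge` = AE Lemma 6.4 is in `Charge.lean`.)
* `Marked`, `packed_witnesses` = AE (6.13): the application to the witness cubes of a band `[B, 2B]`.
-/

set_option autoImplicit false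

namespace Claimed.Agent.R322.Sx

open MeasureTheory Set Metric
open scoped ENNReal NNReal

/-- marked chain `W_0 ⊋ W_1 ⊋ … ⊋ W_{N-1}` with density ratios at least `Sf`. -/
def IsChain {m : ℕ} (g : Fin m → Fin 3) (ν : Measure (E m)) (Mk : Set (Cube m)) (Sf : ℝ) (N : ℕ)
    (W : ℕ → Cube m) : Prop :=
  (∀ j, j < N → W j ∈ Mk) ∧
  ∀ j, j + 1 < N → (W (j + 1)).set g ⊂ (W j).set g ∧ Sf * (W j).dens g ν ≤ (W (j + 1)).dens g ν

/-- union of the innermost cubes of all marked chains of length `N`. -/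
def chainEnd {m : ℕ} (g : Fin m → Fin 3) (ν : Measure (E m)) (Mk : Set (Cube m)) (Sf : ℝ) (N : ℕ) :
    Set (E m) :=
  ⋃ (W : ℕ → Cube m) (_ : IsChain g ν Mk Sf N W), (W (N - 1)).set g

section Packing

variable {m : ℕ} (g : Fin m → Fin 3) (ν : Measure (E m))

/-- cubes of density at most `c` below a cube of density at least `lam`. -/
def pkRet (lam c : ℝ) : Set (Cube m) :=
  {R | R.dens g ν ≤ c ∧ ∃ H : Cube m, R.set g ⊆ H.set g ∧ lam ≤ H.dens g ν}

theorem pk_ret_le [IsFiniteMeasure ν] (lam c : ℝ) (hlam : 0 < lam) (hc : 0 ≤ c) :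
    ν (⋃ R ∈ pkRet g ν lam c, R.set g) ≤ ENNReal.ofReal (c / lam) * ν univ := by
  have h1 : ν (⋃ R ∈ pkRet g ν lam c, R.set g) ≤
      ENNReal.ofReal c * (volume : Measure (E m)) (⋃ R ∈ pkRet g ν lam c, R.set g) :=
    Cube.measure_iUnion_le g _ ν volume _ fun R hR => Cube.measure_le_of_dens_le g ν R hR.1
  have h2 : (⋃ R ∈ pkRet g ν lam c, R.set g) ⊆ ⋃ H ∈ {H : Cube m | lam ≤ H.dens g ν}, H.set g := by
    intro y hy
    simp only [mem_iUnion, exists_prop] at hy ⊢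
    obtain ⟨R, ⟨_, H, hRH, hH⟩, hy⟩ := hy
    exact ⟨H, hH, hRH hy⟩
  have h3 : (volume : Measure (E m)) (⋃ H ∈ {H : Cube m | lam ≤ H.dens g ν}, H.set g) ≤
      ENNReal.ofReal lam⁻¹ * ν (⋃ H ∈ {H : Cube m | lam ≤ H.dens g ν}, H.set g) :=
    Cube.measure_iUnion_le g _ volume ν _ fun H hH => Cube.volume_le_of_le_dens g ν H hlam hH
  calc ν (⋃ R ∈ pkRet g ν lam c, R.set g)
      ≤ ENNReal.ofReal c * (volume : Measure (E m)) (⋃ R ∈ pkRet g ν lam c, R.set g) := h1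
    _ ≤ ENNReal.ofReal c * (ENNReal.ofReal lam⁻¹ * ν univ) := by
        gcongr
        exact le_trans (measure_mono h2) (le_trans h3 (by gcongr; exact subset_univ _))
    _ = ENNReal.ofReal (c / lam) * ν univ := by
        rw [← mul_assoc, ← ENNReal.ofReal_mul hc, div_eq_mul_inv]

/-- the retrace set. -/
def pkRetSet (lamm lamp Rs : ℝ) : Set (E m) :=
  {y | ∃ P P' : Cube m, y ∈ P'.set g ∧ P'.set g ⊆ P.set g ∧ lamm ≤ P.dens g ν ∧ P.dens g ν ≤ lamp ∧
    P'.dens g ν ≤ P.dens g ν / Rs}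

theorem pk_retSet_subset (lamm lamp Rs : ℝ) (hlm : 0 < lamm) (hRs : 0 < Rs) :
    pkRetSet g ν lamm lamp Rs ⊆ ⋃ j ∈ Finset.range (⌊Real.log (lamp / lamm)⌋₊ + 1),
      ⋃ R ∈ pkRet g ν (lamm * Real.exp j) (Real.exp 1 * (lamm * Real.exp j) / Rs), R.set g := by
  rintro y ⟨P, P', hy, hsub, h1, h2, h3⟩
  have hd : 0 < P.dens g ν := lt_of_lt_of_le hlm h1
  have hq : 1 ≤ P.dens g ν / lamm := by rwa [le_div_iff₀ hlm, one_mul]
  have hlog0 : 0 ≤ Real.log (P.dens g ν / lamm) := Real.log_nonneg hq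
  have hj1 : ((⌊Real.log (P.dens g ν / lamm)⌋₊ : ℕ) : ℝ) ≤ Real.log (P.dens g ν / lamm) :=
    Nat.floor_le hlog0
  have hj2 : Real.log (P.dens g ν / lamm) < ((⌊Real.log (P.dens g ν / lamm)⌋₊ : ℕ) : ℝ) + 1 :=
    Nat.lt_floor_add_one _
  have hjJ : ⌊Real.log (P.dens g ν / lamm)⌋₊ ≤ ⌊Real.log (lamp / lamm)⌋₊ := by
    refine Nat.floor_le_floor (Real.log_le_log (by positivity) ?_)
    exact div_le_div_of_nonneg_right h2 hlm.le
  generalize ⌊Real.log (P.dens g ν / lamm)⌋₊ = j at hj1 hj2 hjJ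
  have e1 : lamm * Real.exp j ≤ P.dens g ν := by
    have := Real.exp_le_exp.2 hj1
    rw [Real.exp_log (by positivity), le_div_iff₀ hlm] at this
    linarith
  have e2 : P.dens g ν < Real.exp 1 * (lamm * Real.exp j) := by
    have := Real.exp_lt_exp.2 hj2
    rw [Real.exp_log (by positivity), div_lt_iff₀ hlm, Real.exp_add] at this
    linarith
  simp only [mem_iUnion, exists_prop, Finset.mem_range]
  refine ⟨j, by omega, P', ⟨?_, P, hsub, e1⟩, hy⟩
  exact le_trans h3 (div_le_div_of_nonneg_right e2.le hRs.le)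

theorem pk_retSet_le [IsFiniteMeasure ν] (lamm lamp Rs : ℝ) (hlm : 0 < lamm) (hRs : 0 < Rs) :
    ν (pkRetSet g ν lamm lamp Rs) ≤
      ENNReal.ofReal (Real.exp 1 / Rs * ((⌊Real.log (lamp / lamm)⌋₊ + 1 : ℕ) : ℝ)) * ν univ := by
  refine le_trans (measure_mono (pk_retSet_subset g ν lamm lamp Rs hlm hRs)) ?_
  refine le_trans (measure_biUnion_finset_le _ _) ?_
  have h : ∀ j ∈ Finset.range (⌊Real.log (lamp / lamm)⌋₊ + 1),
      ν (⋃ R ∈ pkRet g ν (lamm * Real.exp j) (Real.exp 1 * (lamm * Real.exp j) / Rs), R.set g) ≤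
        ENNReal.ofReal (Real.exp 1 / Rs) * ν univ := by
    intro j _
    have hl : 0 < lamm * Real.exp j := by positivity
    refine le_trans (pk_ret_le g ν _ _ hl (by positivity)) (le_of_eq ?_)
    congr 2
    field_simp
  refine le_trans (Finset.sum_le_sum h) ?_
  rw [Finset.sum_const, Finset.card_range, nsmul_eq_mul, ← mul_assoc]
  refine le_of_eq ?_
  congr 1
  rw [mul_comm (Real.exp 1 / Rs), ENNReal.ofReal_mul (Nat.cast_nonneg _), ENNReal.ofReal_natCast]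

theorem pk_lowPart_eq (P : Cube m) (Λ : ℝ) :
    P.lowPart g ν Λ =
      P.set g \ ⋃ R ∈ {R : Cube m | R.set g ⊆ P.set g ∧ Λ < R.dens g ν}, R.set g := by
  ext y
  simp only [Cube.lowPart, mem_ofPred_eq, mem_sdiff, mem_iUnion, exists_prop, not_exists, not_and,
    and_imp]
  constructor
  · rintro ⟨h1, h2⟩
    exact ⟨h1, fun R hR hlt hy => absurd (h2 R hR hy) (not_le.2 hlt)⟩
  · rintro ⟨h1, h2⟩
    refine ⟨h1, fun R hR hy => ?_⟩
    by_contra hlt
    exact h2 R hR (not_le.1 hlt) hy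

theorem pk_measurableSet_lowPart (P : Cube m) (Λ : ℝ) : MeasurableSet (P.lowPart g ν Λ) := by
  rw [pk_lowPart_eq]
  exact (Cube.measurableSet_set g P).diff
    (MeasurableSet.biUnion (Set.to_countable _) fun R _ => Cube.measurableSet_set g R)

theorem pk_lowPart_subset (P : Cube m) (Λ : ℝ) : P.lowPart g ν Λ ⊆ P.set g := fun _ h => h.1

/-- the complement of the low part carries at most the fraction `1 - ζ`. -/
theorem pk_diff_le [IsFiniteMeasure ν] (P : Cube m) (Λ ζ : ℝ) (hζ0 : 0 ≤ ζ) (hζ1 : ζ ≤ 1)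
    (h : ENNReal.ofReal ζ * ν (P.set g) ≤ ν (P.lowPart g ν Λ)) :
    ν (P.set g \ P.lowPart g ν Λ) ≤ ENNReal.ofReal (1 - ζ) * ν (P.set g) := by
  have h1 : ν (P.set g ∩ P.lowPart g ν Λ) + ν (P.set g \ P.lowPart g ν Λ) = ν (P.set g) :=
    measure_inter_add_sdiff _ (pk_measurableSet_lowPart g ν P Λ)
  rw [inter_eq_self_of_subset_right (pk_lowPart_subset g ν P Λ)] at h1
  have h2 : ENNReal.ofReal (1 - ζ) * ν (P.set g) + ENNReal.ofReal ζ * ν (P.set g) = ν (P.set g) := by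
    rw [← add_mul, ← ENNReal.ofReal_add (by linarith) hζ0]
    simp
  have h3 : ENNReal.ofReal ζ * ν (P.set g) ≠ ∞ :=
    ENNReal.mul_ne_top ENNReal.ofReal_ne_top (measure_ne_top _ _)
  refine (ENNReal.add_le_add_iff_right h3).1 ?_
  calc ν (P.set g \ P.lowPart g ν Λ) + ENNReal.ofReal ζ * ν (P.set g)
      ≤ ν (P.set g \ P.lowPart g ν Λ) + ν (P.lowPart g ν Λ) := by gcongr
    _ = ν (P.set g) := by rw [add_comm]; exact h1
    _ = _ := h2.symm

/-- the marked subcubes of `P` whose density exceeds `L d(P)`. -/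
def pkNext (Mk : Set (Cube m)) (L : ℝ) (P : Cube m) : Set (Cube m) :=
  {P' | P' ∈ Mk ∧ P'.set g ⊆ P.set g ∧ L * P.dens g ν < P'.dens g ν}

/-- the paying generations. -/
def pkGen (Mk : Set (Cube m)) (L : ℝ) : ℕ → Set (Cube m)
  | 0 => Cube.maxOf g Mk
  | j + 1 => {P' | ∃ P ∈ pkGen Mk L j, P' ∈ Cube.maxOf g (pkNext g ν Mk L P)}

theorem pk_gen_subset (Mk : Set (Cube m)) (L : ℝ) (j : ℕ) : pkGen g ν Mk L j ⊆ Mk := by
  cases j with
  | zero => exact Cube.maxOf_subset g Mk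
  | succ j =>
    rintro P' ⟨P, _, hP'⟩
    exact (Cube.maxOf_subset g _ hP').1

theorem pk_gen_disjoint (Mk : Set (Cube m)) (L : ℝ) (j : ℕ) :
    (pkGen g ν Mk L j).PairwiseDisjoint (fun R => R.set g) := by
  induction j with
  | zero => exact Cube.maxOf_pairwiseDisjoint g Mk
  | succ j ih =>
    rintro P₁' ⟨P₁, hP₁, h₁⟩ P₂' ⟨P₂, hP₂, h₂⟩ hne
    by_cases hP : P₁ = P₂
    · subst hP
      exact Cube.maxOf_pairwiseDisjoint g _ h₁ h₂ hne
    · exact (ih hP₁ hP₂ hP).mono (Cube.maxOf_subset g _ h₁).2.1 (Cube.maxOf_subset g _ h₂).2.1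

theorem pk_gen_succ_le [IsFiniteMeasure ν] (Mk : Set (Cube m)) (L ζ : ℝ) (hζ0 : 0 ≤ ζ) (hζ1 : ζ ≤ 1)
    (hpay : ∀ P ∈ Mk, ENNReal.ofReal ζ * ν (P.set g) ≤ ν (P.lowPart g ν (L * P.dens g ν))) (j : ℕ) :
    ν (⋃ P ∈ pkGen g ν Mk L (j + 1), P.set g) ≤
      ENNReal.ofReal (1 - ζ) * ν (⋃ P ∈ pkGen g ν Mk L j, P.set g) := by
  have hsub : (⋃ P ∈ pkGen g ν Mk L (j + 1), P.set g) ⊆
      ⋃ P ∈ pkGen g ν Mk L j, (P.set g \ P.lowPart g ν (L * P.dens g ν)) := by
    intro y hy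
    simp only [mem_iUnion, exists_prop] at hy ⊢
    obtain ⟨P', ⟨P, hP, hP'⟩, hy⟩ := hy
    obtain ⟨_, hs, hd⟩ := Cube.maxOf_subset g _ hP'
    refine ⟨P, hP, hs hy, fun hlow => ?_⟩
    exact absurd (hlow.2 P' hs hy) (not_le.2 hd)
  refine le_trans (measure_mono hsub) ?_
  refine le_trans (measure_biUnion_le ν (Set.to_countable _) _) ?_
  rw [measure_biUnion (Set.to_countable _) (pk_gen_disjoint g ν Mk L j)
    (fun R _ => Cube.measurableSet_set g R), ← ENNReal.tsum_mul_left]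
  exact ENNReal.tsum_le_tsum fun P =>
    pk_diff_le g ν P.1 _ ζ hζ0 hζ1 (hpay P.1 (pk_gen_subset g ν Mk L j P.2))

theorem pk_gen_le [IsFiniteMeasure ν] (Mk : Set (Cube m)) (L ζ : ℝ) (hζ0 : 0 ≤ ζ) (hζ1 : ζ ≤ 1)
    (hpay : ∀ P ∈ Mk, ENNReal.ofReal ζ * ν (P.set g) ≤ ν (P.lowPart g ν (L * P.dens g ν))) (j : ℕ) :
    ν (⋃ P ∈ pkGen g ν Mk L j, P.set g) ≤ ENNReal.ofReal ((1 - ζ) ^ j) * ν univ := by
  induction j with
  | zero =>
    simp only [pow_zero, ENNReal.ofReal_one, one_mul]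
    exact measure_mono (subset_univ _)
  | succ j ih =>
    refine le_trans (pk_gen_succ_le g ν Mk L ζ hζ0 hζ1 hpay j) ?_
    rw [pow_succ, mul_comm ((1 - ζ) ^ j), ENNReal.ofReal_mul (by linarith), mul_assoc]
    gcongr

theorem pk_chain_subset {Mk : Set (Cube m)} {Sf : ℝ} {N : ℕ} {W : ℕ → Cube m}
    (hW : IsChain g ν Mk Sf N W) {j j' : ℕ} (hj : j ≤ j') (hj' : j' < N) :
    (W j').set g ⊆ (W j).set g := by
  induction j', hj using Nat.le_induction with
  | base => exact subset_rfl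
  | succ k _ ih => exact (hW.2 k hj').1.subset.trans (ih (by omega))

theorem pk_chainEnd_subset (Mk : Set (Cube m)) (lamm lamp L Sf Rs : ℝ) (N : ℕ) (hN : 1 ≤ N)
    (hlm : 0 < lamm) (hL : 0 ≤ L) (hRs : 0 < Rs) (hS : L * Rs < Sf)
    (hband : ∀ P ∈ Mk, lamm ≤ P.dens g ν ∧ P.dens g ν ≤ lamp) :
    chainEnd g ν Mk Sf N ⊆
      pkRetSet g ν lamm lamp Rs ∪ ⋃ P ∈ pkGen g ν Mk L (N - 1), P.set g := by
  intro y hy
  unfold chainEnd at hy
  simp only [mem_iUnion, exists_prop] at hy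
  obtain ⟨W, hW, hy⟩ := hy
  by_cases hret : y ∈ pkRetSet g ν lamm lamp Rs
  · exact Or.inl hret
  right
  have key : ∀ j, j < N → ∃ P ∈ pkGen g ν Mk L j, (W j).set g ⊆ P.set g := by
    intro j
    induction j with
    | zero =>
      intro h0
      exact Cube.exists_maxOf g Mk (hW.1 0 h0)
    | succ j ih =>
      intro hj
      obtain ⟨P, hP, hsub⟩ := ih (by omega)
      have hPb := hband P (pk_gen_subset g ν Mk L j hP)
      have hyW : y ∈ (W j).set g := pk_chain_subset g ν hW (by omega) (by omega) hy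
      have hnr : P.dens g ν / Rs < (W j).dens g ν := by
        by_contra hle
        exact hret ⟨P, W j, hyW, hsub, hPb.1, hPb.2, not_lt.1 hle⟩
      obtain ⟨hss, hd⟩ := hW.2 j hj
      have hWpos : 0 < (W j).dens g ν := lt_of_lt_of_le hlm (hband _ (hW.1 j (by omega))).1
      rw [div_lt_iff₀ hRs] at hnr
      have hnext : W (j + 1) ∈ pkNext g ν Mk L P := by
        refine ⟨hW.1 _ hj, hss.subset.trans hsub, ?_⟩
        calc L * P.dens g ν ≤ L * ((W j).dens g ν * Rs) := mul_le_mul_of_nonneg_left hnr.le hL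
          _ = (L * Rs) * (W j).dens g ν := by ring
          _ < Sf * (W j).dens g ν := mul_lt_mul_of_pos_right hS hWpos
          _ ≤ _ := hd
      obtain ⟨P', hP', hsub'⟩ := Cube.exists_maxOf g _ hnext
      exact ⟨P', ⟨P, hP, hP'⟩, hsub'⟩
  obtain ⟨P, hP, hsub⟩ := key (N - 1) (by omega)
  simp only [mem_iUnion, exists_prop]
  exact ⟨P, hP, hsub hy⟩

end Packing

/-- **AE Lemma 6.3 (dyadic packing)**, abstract part (6.11)-(6.12). -/
theorem packing (m : ℕ) (g : Fin m → Fin 3) (ν : Measure (E m)) [IsFiniteMeasure ν]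
    (Mk : Set (Cube m)) (lamm lamp L ζ Sf Rs : ℝ) (N : ℕ) (hN : 1 ≤ N)
    (hlm : 0 < lamm) (hlp : lamm ≤ lamp) (hL : 1 ≤ L) (hζ0 : 0 < ζ) (hζ1 : ζ < 1)
    (hRs : Real.exp 1 < Rs) (hS : L * Rs < Sf)
    (hband : ∀ P ∈ Mk, lamm ≤ P.dens g ν ∧ P.dens g ν ≤ lamp)
    (hpay : ∀ P ∈ Mk, ENNReal.ofReal ζ * ν (P.set g) ≤ ν (P.lowPart g ν (L * P.dens g ν))) :
    ν (chainEnd g ν Mk Sf N)
      ≤ ENNReal.ofReal ((1 - ζ) ^ (N - 1)
          + Real.exp 1 / Rs * (1 + ⌊Real.log (lamp / lamm)⌋)) * ν univ := by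
  have hRs0 : 0 < Rs := lt_trans (Real.exp_pos 1) hRs
  have hlog : 0 ≤ Real.log (lamp / lamm) := Real.log_nonneg (by rwa [le_div_iff₀ hlm, one_mul])
  have hfl : ((1 : ℝ) + ((⌊Real.log (lamp / lamm)⌋ : ℤ) : ℝ)) =
      ((⌊Real.log (lamp / lamm)⌋₊ + 1 : ℕ) : ℝ) := by
    rw [← Int.natCast_floor_eq_floor hlog]
    push_cast
    ring
  rw [hfl]
  refine le_trans (measure_mono (pk_chainEnd_subset g ν Mk lamm lamp L Sf Rs N hN hlm (by linarith)
    hRs0 hS hband)) ?_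
  refine le_trans (measure_union_le _ _) ?_
  rw [ENNReal.ofReal_add (pow_nonneg (by linarith) _) (by positivity), add_mul, add_comm]
  exact add_le_add (pk_gen_le g ν Mk L ζ hζ0.le hζ1.le hpay (N - 1))
    (pk_retSet_le g ν lamm lamp Rs hlm hRs0)

/-- A cube that admits a witness label of the band `[B, 2B]`: AE (6.9) (density range) and (6.10)
(controlled-density fraction), for some `δ = e^{-a}`, `B ≤ a ≤ 2B`. -/
def Marked {m : ℕ} (g : Fin m → Fin 3) (ν : Measure (E m)) (B ε0 Cs cs c : ℝ) : Set (Cube m) :=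
  {J | ∃ δ : ℝ, Real.exp (-2 * B) ≤ δ ∧ δ ≤ Real.exp (-B) ∧
    c * B ^ (-2 * ε0) * δ ≤ J.dens g ν ∧ J.dens g ν ≤ B ^ ε0 * δ ∧
    ENNReal.ofReal (B ^ (-cs * ε0)) * ν (J.set g) ≤ ν (J.lowPart g ν (B ^ Cs * δ))}

/-- `K y^C ≤ exp(y^a)` eventually. -/
theorem pk_ev_exp (K C a : ℝ) (ha : 0 < a) :
    ∀ᶠ y : ℝ in Filter.atTop, K * y ^ C ≤ Real.exp (y ^ a) := by
  have hc : (0 : ℝ) < 1 / (2 * (|C| + 1)) := by positivity
  have h1 := (isLittleO_log_rpow_atTop ha).bound hc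
  have h2 : ∀ᶠ y : ℝ in Filter.atTop, 2 * |K| ≤ y ^ a :=
    (tendsto_rpow_atTop ha).eventually_ge_atTop _
  filter_upwards [h1, h2, Filter.eventually_gt_atTop 1] with y a1 a2 hy
  have hy0 : 0 < y := by linarith
  have hl : 0 < Real.log y := Real.log_pos hy
  have hya : 0 < y ^ a := Real.rpow_pos_of_pos hy0 a
  rw [Real.norm_of_nonneg hl.le, Real.norm_of_nonneg hya.le] at a1
  have e1 : y ^ C = Real.exp (C * Real.log y) := by
    rw [Real.rpow_def_of_pos hy0, mul_comm]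
  have e2 : K ≤ Real.exp |K| := by
    have := Real.add_one_le_exp |K|
    have := le_abs_self K
    linarith
  have e3 : C * Real.log y ≤ y ^ a / 2 := by
    have b1 : C * Real.log y ≤ (|C| + 1) * Real.log y :=
      mul_le_mul_of_nonneg_right (by have := le_abs_self C; linarith) hl.le
    have b2 : (|C| + 1) * Real.log y ≤ (|C| + 1) * (1 / (2 * (|C| + 1)) * y ^ a) :=
      mul_le_mul_of_nonneg_left a1 (by positivity)
    have b3 : (|C| + 1) * (1 / (2 * (|C| + 1)) * y ^ a) = y ^ a / 2 := by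
      field_simp
    linarith
  calc K * y ^ C ≤ Real.exp |K| * Real.exp (C * Real.log y) := by
        rw [e1]
        exact mul_le_mul_of_nonneg_right e2 (Real.exp_pos _).le
    _ = Real.exp (|K| + C * Real.log y) := (Real.exp_add _ _).symm
    _ ≤ Real.exp (y ^ a) := Real.exp_le_exp.2 (by linarith)

theorem pk_num_A (c C : ℝ) : ∀ᶠ B : ℝ in Filter.atTop,
    max 1 (c⁻¹ * B ^ C) * Real.exp (B ^ (1 / 4 : ℝ)) < Real.exp (B ^ (1 / 3 : ℝ) / 2) := by
  have h2 : ∀ᶠ B : ℝ in Filter.atTop, 4 < B ^ (1 / 12 : ℝ) :=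
    (tendsto_rpow_atTop (by norm_num)).eventually_gt_atTop _
  filter_upwards [pk_ev_exp c⁻¹ C (1 / 4) (by norm_num), h2, Filter.eventually_gt_atTop 0]
    with B a1 a2 hB
  have hx : 0 < B ^ (1 / 4 : ℝ) := Real.rpow_pos_of_pos hB _
  have e : B ^ (1 / 3 : ℝ) = B ^ (1 / 4 : ℝ) * B ^ (1 / 12 : ℝ) := by
    rw [← Real.rpow_add hB]
    norm_num
  have h1 : max 1 (c⁻¹ * B ^ C) ≤ Real.exp (B ^ (1 / 4 : ℝ)) :=
    max_le (Real.one_le_exp hx.le) a1
  calc max 1 (c⁻¹ * B ^ C) * Real.exp (B ^ (1 / 4 : ℝ))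
      ≤ Real.exp (B ^ (1 / 4 : ℝ)) * Real.exp (B ^ (1 / 4 : ℝ)) :=
        mul_le_mul_of_nonneg_right h1 (Real.exp_pos _).le
    _ = Real.exp (B ^ (1 / 4 : ℝ) + B ^ (1 / 4 : ℝ)) := (Real.exp_add _ _).symm
    _ < _ := by
        refine Real.exp_lt_exp.2 ?_
        rw [e]
        nlinarith

theorem pk_num_B (c' : ℝ) (hc' : 0 < c') : ∀ᶠ B : ℝ in Filter.atTop, ∀ N : ℕ,
    c' * Real.sqrt B ≤ N → (1 - B ^ (-(1 / 4) : ℝ)) ^ (N - 1) ≤ Real.exp (-B ^ (1 / 8 : ℝ)) / 2 := by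
  have h2 : ∀ᶠ B : ℝ in Filter.atTop, 2 + 2 / c' ≤ B ^ (1 / 8 : ℝ) :=
    (tendsto_rpow_atTop (by norm_num)).eventually_ge_atTop _
  filter_upwards [h2, Filter.eventually_gt_atTop 1] with B a2 hB N hN
  have hB0 : 0 < B := by linarith
  have hu : 0 < B ^ (1 / 8 : ℝ) := Real.rpow_pos_of_pos hB0 _
  have hζ0 : 0 < B ^ (-(1 / 4) : ℝ) := Real.rpow_pos_of_pos hB0 _
  have hζ1 : B ^ (-(1 / 4) : ℝ) ≤ 1 := Real.rpow_le_one_of_one_le_of_nonpos hB.le (by norm_num)
  have ex : B ^ (-(1 / 4) : ℝ) * Real.sqrt B = B ^ (1 / 8 : ℝ) * B ^ (1 / 8 : ℝ) := by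
    rw [Real.sqrt_eq_rpow, ← Real.rpow_add hB0, ← Real.rpow_add hB0]
    norm_num
  have hsq : 0 < Real.sqrt B := Real.sqrt_pos.2 hB0
  have hN1 : 1 ≤ N := by
    have : (0 : ℝ) < N := lt_of_lt_of_le (mul_pos hc' hsq) hN
    exact_mod_cast this
  have hcast : ((N - 1 : ℕ) : ℝ) = (N : ℝ) - 1 := by
    rw [Nat.cast_sub hN1]
    simp
  have h1 : 1 - B ^ (-(1 / 4) : ℝ) ≤ Real.exp (-B ^ (-(1 / 4) : ℝ)) := by
    have := Real.add_one_le_exp (-B ^ (-(1 / 4) : ℝ))
    linarith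
  have h3 : (1 - B ^ (-(1 / 4) : ℝ)) ^ (N - 1) ≤ Real.exp (-B ^ (-(1 / 4) : ℝ)) ^ (N - 1) :=
    pow_le_pow_left₀ (by linarith) h1 _
  rw [← Real.exp_nat_mul, hcast] at h3
  refine le_trans h3 ?_
  have h2e : (2 : ℝ) ≤ Real.exp 1 := by
    have := Real.add_one_le_exp (1 : ℝ)
    linarith
  rw [le_div_iff₀ (by norm_num : (0 : ℝ) < 2)]
  calc Real.exp (((N : ℝ) - 1) * -B ^ (-(1 / 4) : ℝ)) * 2
      ≤ Real.exp (((N : ℝ) - 1) * -B ^ (-(1 / 4) : ℝ)) * Real.exp 1 :=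
        mul_le_mul_of_nonneg_left h2e (Real.exp_pos _).le
    _ = Real.exp (((N : ℝ) - 1) * -B ^ (-(1 / 4) : ℝ) + 1) := (Real.exp_add _ _).symm
    _ ≤ _ := by
        refine Real.exp_le_exp.2 ?_
        have h4 : c' * (B ^ (1 / 8 : ℝ) * B ^ (1 / 8 : ℝ)) ≤ (N : ℝ) * B ^ (-(1 / 4) : ℝ) := by
          rw [← ex]
          have := mul_le_mul_of_nonneg_right hN hζ0.le
          linarith
        have h5 : (2 + 2 / c') * c' = 2 * c' + 2 := by
          field_simp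
        have h6 : 2 * c' + 2 ≤ B ^ (1 / 8 : ℝ) * c' := by
          rw [← h5]
          exact mul_le_mul_of_nonneg_right a2 hc'.le
        have h7 : 2 ≤ B ^ (1 / 8 : ℝ) := by
          have : 0 < 2 / c' := by positivity
          linarith
        nlinarith

theorem pk_num_C : ∀ᶠ B : ℝ in Filter.atTop,
    Real.exp 1 / Real.exp (B ^ (1 / 4 : ℝ)) * (1 + 2 * B) ≤ Real.exp (-B ^ (1 / 8 : ℝ)) / 2 := by
  have h2 : ∀ᶠ B : ℝ in Filter.atTop, 2 ≤ B ^ (1 / 8 : ℝ) :=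
    (tendsto_rpow_atTop (by norm_num)).eventually_ge_atTop _
  filter_upwards [pk_ev_exp (6 * Real.exp 1) 1 (1 / 8) (by norm_num), h2,
    Filter.eventually_ge_atTop 1] with B a1 a2 hB
  have hB0 : 0 < B := by linarith
  rw [Real.rpow_one] at a1
  have ex : B ^ (1 / 4 : ℝ) = B ^ (1 / 8 : ℝ) * B ^ (1 / 8 : ℝ) := by
    rw [← Real.rpow_add hB0]
    norm_num
  have he : 0 < Real.exp 1 := Real.exp_pos 1
  have h3 : Real.exp 1 * (1 + 2 * B) ≤ Real.exp (B ^ (1 / 8 : ℝ)) / 2 := by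
    nlinarith
  rw [div_mul_eq_mul_div, div_le_iff₀ (Real.exp_pos _)]
  refine le_trans h3 ?_
  rw [div_mul_eq_mul_div]
  refine div_le_div_of_nonneg_right ?_ (by norm_num)
  rw [← Real.exp_add]
  refine Real.exp_le_exp.2 ?_
  rw [ex]
  nlinarith

theorem pk_num_D (c ε0 : ℝ) (hc : 0 < c) : ∀ᶠ B : ℝ in Filter.atTop,
    Real.log (B ^ ε0 * Real.exp (-B) / (c * B ^ (-2 * ε0) * Real.exp (-2 * B))) ≤ 2 * B := by
  filter_upwards [pk_ev_exp c⁻¹ (3 * ε0) 1 (by norm_num), Filter.eventually_gt_atTop 0] with B a1 hB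
  rw [Real.rpow_one] at a1
  have h1 : 0 < B ^ ε0 := Real.rpow_pos_of_pos hB _
  have h2 : 0 < B ^ (-2 * ε0) := Real.rpow_pos_of_pos hB _
  have e : B ^ (3 * ε0) = B ^ ε0 / B ^ (-2 * ε0) := by
    rw [← Real.rpow_sub hB]
    congr 1
    ring
  have h3 : B ^ ε0 * Real.exp (-B) / (c * B ^ (-2 * ε0) * Real.exp (-2 * B)) ≤ Real.exp (2 * B) := by
    rw [div_le_iff₀ (by positivity)]
    have e2 : Real.exp (2 * B) * (c * B ^ (-2 * ε0) * Real.exp (-2 * B)) = c * B ^ (-2 * ε0) := by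
      have : Real.exp (2 * B) * Real.exp (-2 * B) = 1 := by
        rw [← Real.exp_add]
        simp
      calc _ = (Real.exp (2 * B) * Real.exp (-2 * B)) * (c * B ^ (-2 * ε0)) := by ring
        _ = _ := by rw [this, one_mul]
    rw [e2]
    rw [e, inv_mul_eq_div, div_le_iff₀ hc, div_le_iff₀ h2] at a1
    have e3 : Real.exp (-B) * Real.exp B = 1 := by
      rw [← Real.exp_add]
      simp
    calc B ^ ε0 * Real.exp (-B) ≤ (Real.exp B * c * B ^ (-2 * ε0)) * Real.exp (-B) :=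
          mul_le_mul_of_nonneg_right a1 (Real.exp_pos _).le
      _ = (Real.exp (-B) * Real.exp B) * (c * B ^ (-2 * ε0)) := by ring
      _ = _ := by rw [e3, one_mul]
  calc _ ≤ Real.log (Real.exp (2 * B)) := Real.log_le_log (by positivity) h3
    _ = 2 * B := Real.log_exp _

theorem pk_num_E (c ε0 : ℝ) (hc : 0 < c) (hε : 0 < ε0) : ∀ᶠ B : ℝ in Filter.atTop,
    c * B ^ (-2 * ε0) * Real.exp (-2 * B) ≤ B ^ ε0 * Real.exp (-B) := by
  filter_upwards [Filter.eventually_ge_atTop 1, Filter.eventually_ge_atTop c] with B hB hBc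
  have h1 : B ^ (-2 * ε0) ≤ 1 := Real.rpow_le_one_of_one_le_of_nonpos hB (by linarith)
  have h2 : 1 ≤ B ^ ε0 := Real.one_le_rpow hB hε.le
  have h0 : 0 < B ^ (-2 * ε0) := Real.rpow_pos_of_pos (by linarith) _
  have h3 : c * Real.exp (-B) ≤ 1 := by
    have : c ≤ Real.exp B := by
      have := Real.add_one_le_exp B
      linarith
    rw [Real.exp_neg, ← div_eq_mul_inv, div_le_one (Real.exp_pos _)]
    exact this
  have e : Real.exp (-2 * B) = Real.exp (-B) * Real.exp (-B) := by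
    rw [← Real.exp_add]
    congr 1
    ring
  rw [e]
  have hp := Real.exp_pos (-B)
  calc c * B ^ (-2 * ε0) * (Real.exp (-B) * Real.exp (-B))
      = B ^ (-2 * ε0) * (c * Real.exp (-B)) * Real.exp (-B) := by ring
    _ ≤ 1 * 1 * Real.exp (-B) := by
        refine mul_le_mul_of_nonneg_right ?_ hp.le
        exact mul_le_mul h1 h3 (by positivity) (by norm_num)
    _ ≤ _ := by nlinarith

theorem pk_lowPart_mono {m : ℕ} (g : Fin m → Fin 3) (ν : Measure (E m)) (P : Cube m) {Λ Λ' : ℝ}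
    (h : Λ ≤ Λ') : P.lowPart g ν Λ ⊆ P.lowPart g ν Λ' :=
  fun _ hy => ⟨hy.1, fun R hR hyR => le_trans (hy.2 R hR hyR) h⟩

/-- AE (6.13): the innermost cubes of long chains of marked cubes carry little `ν`-mass. -/
theorem packed_witnesses (m : ℕ) (ε0 Cs cs c c' : ℝ) (hε : 0 < ε0) (hcs : cs * ε0 < 1 / 4)
    (hc : 0 < c) (hc' : 0 < c') :
    ∃ B0 : ℝ, ∀ (B : ℝ) (g : Fin m → Fin 3) (ν : Measure (E m)) (N : ℕ), IsFiniteMeasure ν →
      B0 ≤ B → c' * Real.sqrt B ≤ N →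
      ν (chainEnd g ν (Marked g ν B ε0 Cs cs c) (Real.exp (B ^ (1 / 3 : ℝ) / 2)) N)
        ≤ ENNReal.ofReal (Real.exp (-B ^ (1 / 8 : ℝ))) * ν univ := by
  have hev := (pk_num_A c (Cs + 2 * ε0)).and ((pk_num_B c' hc').and (pk_num_C.and
    ((pk_num_D c ε0 hc).and ((pk_num_E c ε0 hc hε).and (Filter.eventually_gt_atTop (1 : ℝ))))))
  obtain ⟨B0, hB0⟩ := Filter.eventually_atTop.1 hev
  refine ⟨B0, fun B g ν N hν hB hN => ?_⟩
  obtain ⟨nA, nB, nC, nD, nE, hB1⟩ := hB0 B hB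
  have hBpos : 0 < B := by linarith
  have hsq : 0 < Real.sqrt B := Real.sqrt_pos.2 hBpos
  have hN1 : 1 ≤ N := by
    have : (0 : ℝ) < N := lt_of_lt_of_le (mul_pos hc' hsq) hN
    exact_mod_cast this
  have hp1 : 0 < B ^ (-2 * ε0) := Real.rpow_pos_of_pos hBpos _
  have hp2 : 0 < B ^ ε0 := Real.rpow_pos_of_pos hBpos _
  have hζ0 : 0 < B ^ (-(1 / 4) : ℝ) := Real.rpow_pos_of_pos hBpos _
  have hζ1 : B ^ (-(1 / 4) : ℝ) < 1 := Real.rpow_lt_one_of_one_lt_of_neg hB1 (by norm_num)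
  have hx1 : 1 < B ^ (1 / 4 : ℝ) := Real.one_lt_rpow hB1 (by norm_num)
  have hlm : 0 < c * B ^ (-2 * ε0) * Real.exp (-2 * B) := by positivity
  have hpk := packing m g ν (Marked g ν B ε0 Cs cs c) (c * B ^ (-2 * ε0) * Real.exp (-2 * B))
    (B ^ ε0 * Real.exp (-B)) (max 1 (c⁻¹ * B ^ (Cs + 2 * ε0))) (B ^ (-(1 / 4) : ℝ))
    (Real.exp (B ^ (1 / 3 : ℝ) / 2)) (Real.exp (B ^ (1 / 4 : ℝ))) N hN1 hlm nE (le_max_left _ _)
    hζ0 hζ1 (Real.exp_lt_exp.2 hx1) nA ?_ ?_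
  · refine le_trans hpk ?_
    gcongr
    have h1 := nB N hN
    have h2 : ((⌊Real.log (B ^ ε0 * Real.exp (-B) / (c * B ^ (-2 * ε0) * Real.exp (-2 * B)))⌋ : ℤ) : ℝ)
        ≤ 2 * B := le_trans (Int.floor_le _) nD
    have h3 : Real.exp 1 / Real.exp (B ^ (1 / 4 : ℝ)) *
        (1 + ((⌊Real.log (B ^ ε0 * Real.exp (-B) / (c * B ^ (-2 * ε0) * Real.exp (-2 * B)))⌋ : ℤ) : ℝ))
        ≤ Real.exp 1 / Real.exp (B ^ (1 / 4 : ℝ)) * (1 + 2 * B) :=
      mul_le_mul_of_nonneg_left (by linarith) (by positivity)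
    linarith
  · rintro P ⟨δ, h1, h2, h3, h4, _⟩
    constructor
    · refine le_trans ?_ h3
      exact mul_le_mul_of_nonneg_left h1 (by positivity)
    · refine le_trans h4 ?_
      exact mul_le_mul_of_nonneg_left h2 hp2.le
  · rintro P ⟨δ, h1, h2, h3, h4, h5⟩
    have hδ : 0 < δ := lt_of_lt_of_le (Real.exp_pos _) h1
    have a1 : B ^ (-(1 / 4) : ℝ) ≤ B ^ (-cs * ε0) :=
      Real.rpow_le_rpow_of_exponent_le hB1.le (by linarith)
    have a2 : B ^ Cs * δ ≤ max 1 (c⁻¹ * B ^ (Cs + 2 * ε0)) * P.dens g ν := by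
      have b1 : c⁻¹ * B ^ (Cs + 2 * ε0) * (c * B ^ (-2 * ε0) * δ) = B ^ Cs * δ := by
        have : B ^ (Cs + 2 * ε0) * B ^ (-2 * ε0) = B ^ Cs := by
          rw [← Real.rpow_add hBpos]
          congr 1
          ring
        calc _ = (c⁻¹ * c) * (B ^ (Cs + 2 * ε0) * B ^ (-2 * ε0)) * δ := by ring
          _ = _ := by rw [this, inv_mul_cancel₀ hc.ne', one_mul]
      rw [← b1]
      refine mul_le_mul (le_max_right _ _) h3 (by positivity) ?_
      exact le_trans zero_le_one (le_max_left _ _)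
    calc ENNReal.ofReal (B ^ (-(1 / 4) : ℝ)) * ν (P.set g)
        ≤ ENNReal.ofReal (B ^ (-cs * ε0)) * ν (P.set g) := by
          gcongr
      _ ≤ ν (P.lowPart g ν (B ^ Cs * δ)) := h5
      _ ≤ _ := measure_mono (pk_lowPart_mono g ν P a2)

end Claimed.Agent.R322.Sx
end

/- ===== packed: Claimed.Agent.R322.Sx.Charge ===== -/
section
/-!
# R322 / Sx / Charge : charging the contact measure (AE Lemma 6.4)

No geometry: finite measures on `E m`, Euclidean Gaussian averages `gav`.  The outer measure `h^*` is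
the value of the measure `h` on an arbitrary set.
-/

set_option autoImplicit false

namespace Claimed.Agent.R322.Sx

open MeasureTheory Set Metric
open scoped ENNReal NNReal

/-- covering of a set of centres by small balls with a volume packing bound. -/
theorem ch_cover {m : ℕ} (h : Measure (E m)) (A : Set (E m)) (u : E m → ℝ) (b : E m) (R0 ρ K : ℝ)
    (hK : 0 ≤ K) (hR0 : 0 ≤ R0) (hρ : 0 < ρ) (hu : ∀ x ∈ A, 0 < u x ∧ u x ≤ ρ)
    (hA : ∀ x ∈ A, dist x b ≤ R0)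
    (hh : ∀ x ∈ A, h (ball x (3 * u x)) ≤ ENNReal.ofReal (K * u x ^ m)) :
    h A ≤ ENNReal.ofReal (K * (R0 + ρ) ^ m) := by
  obtain ⟨V, hVA, hVd, hVc⟩ := Vitali.exists_disjoint_subfamily_covering_enlargement
    (fun x : E m => ball x (u x)) A u 2 one_lt_two (fun x hx => (hu x hx).1.le) ρ
    (fun x hx => (hu x hx).2) (fun x hx => nonempty_ball.2 (hu x hx).1)
  have hVcount : V.Countable := hVd.countable_of_isOpen (fun x _ => isOpen_ball)
    (fun x hx => nonempty_ball.2 (hu x (hVA hx)).1)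
  have hcov : A ⊆ ⋃ v ∈ V, ball v (3 * u v) := by
    intro x hx
    obtain ⟨v, hv, ⟨y, hy1, hy2⟩, hle⟩ := hVc x hx
    simp only [mem_iUnion, exists_prop]
    refine ⟨v, hv, ?_⟩
    rw [mem_ball] at hy1 hy2 ⊢
    have := dist_triangle x y v
    rw [dist_comm] at hy1
    linarith
  have hω0 : (volume : Measure (E m)) (ball 0 1) ≠ 0 := (measure_ball_pos _ _ one_pos).ne'
  have hωt : (volume : Measure (E m)) (ball 0 1) ≠ ∞ := measure_ball_lt_top.ne
  have hvol : ∀ (x : E m) (r : ℝ), 0 < r →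
      (volume : Measure (E m)) (ball x r) = ENNReal.ofReal (r ^ m) * volume (ball (0 : E m) 1) := by
    intro x r hr
    rw [Measure.addHaar_ball_of_pos _ x hr, finrank_euclideanSpace_fin]
  have hsum : ∑' v : V, ENNReal.ofReal (u v ^ m) ≤ ENNReal.ofReal ((R0 + ρ) ^ m) := by
    have h1 : (∑' v : V, ENNReal.ofReal (u v ^ m)) * (volume : Measure (E m)) (ball 0 1) ≤
        ENNReal.ofReal ((R0 + ρ) ^ m) * (volume : Measure (E m)) (ball 0 1) := by
      rw [← ENNReal.tsum_mul_right, ← hvol b (R0 + ρ) (by linarith)]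
      have h2 : ∀ v : V, ENNReal.ofReal (u v ^ m) * (volume : Measure (E m)) (ball 0 1) =
          volume (ball (v : E m) (u v)) := fun v => (hvol v _ (hu v (hVA v.2)).1).symm
      simp only [h2]
      rw [← measure_biUnion hVcount hVd (fun v _ => measurableSet_ball)]
      refine measure_mono ?_
      intro y hy
      simp only [mem_iUnion, exists_prop] at hy
      obtain ⟨v, hv, hy⟩ := hy
      rw [mem_ball] at hy ⊢
      have := dist_triangle y v b
      have := hA v (hVA hv)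
      have := (hu v (hVA hv)).2
      linarith
    exact (ENNReal.mul_le_mul_iff_left hω0 hωt).1 h1
  calc h A ≤ h (⋃ v ∈ V, ball v (3 * u v)) := measure_mono hcov
    _ ≤ ∑' v : V, h (ball (v : E m) (3 * u v)) := measure_biUnion_le h hVcount _
    _ ≤ ∑' v : V, ENNReal.ofReal K * ENNReal.ofReal (u v ^ m) := by
        refine ENNReal.tsum_le_tsum fun v => ?_
        rw [← ENNReal.ofReal_mul hK]
        exact hh v (hVA v.2)
    _ = ENNReal.ofReal K * ∑' v : V, ENNReal.ofReal (u v ^ m) := ENNReal.tsum_mul_left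
    _ ≤ ENNReal.ofReal K * ENNReal.ofReal ((R0 + ρ) ^ m) := by gcongr
    _ = _ := (ENNReal.ofReal_mul hK).symm

theorem ch_norm_eq (m : ℕ) {s : ℝ} (hs : 0 < s) :
    (2 * Real.pi * s ^ 2) ^ (-(m : ℝ) / 2) = ((2 * Real.pi) ^ ((m : ℝ) / 2) * s ^ m)⁻¹ := by
  have hpi := Real.pi_pos
  rw [neg_div, Real.rpow_neg (by positivity), Real.mul_rpow (by positivity) (by positivity)]
  congr 2
  rw [← Real.rpow_natCast s 2, ← Real.rpow_mul hs.le, ← Real.rpow_natCast s m]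
  congr 1
  push_cast
  ring

theorem ch_norm_pos (m : ℕ) {s : ℝ} (hs : 0 < s) : 0 < (2 * Real.pi * s ^ 2) ^ (-(m : ℝ) / 2) := by
  have hpi := Real.pi_pos
  positivity

theorem ch_gauss_nonneg (m : ℕ) {s : ℝ} (hs : 0 < s) (z : E m) : 0 ≤ gauss m s z := by
  unfold gauss
  exact mul_nonneg (ch_norm_pos m hs).le (Real.exp_pos _).le

theorem ch_gauss_le (m : ℕ) {s : ℝ} (hs : 0 < s) (z : E m) :
    gauss m s z ≤ (2 * Real.pi * s ^ 2) ^ (-(m : ℝ) / 2) := by
  unfold gauss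
  have h1 : Real.exp (-‖z‖ ^ 2 / (2 * s ^ 2)) ≤ 1 := by
    rw [Real.exp_le_one_iff, neg_div]
    have : 0 ≤ ‖z‖ ^ 2 / (2 * s ^ 2) := by positivity
    linarith
  calc _ ≤ (2 * Real.pi * s ^ 2) ^ (-(m : ℝ) / 2) * 1 :=
        mul_le_mul_of_nonneg_left h1 (ch_norm_pos m hs).le
    _ = _ := mul_one _

theorem ch_gauss_ge (m : ℕ) {s : ℝ} (hs : 0 < s) {z : E m} (hz : ‖z‖ ≤ 3 * s) :
    (2 * Real.pi * s ^ 2) ^ (-(m : ℝ) / 2) * Real.exp (-(9 / 2)) ≤ gauss m s z := by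
  unfold gauss
  refine mul_le_mul_of_nonneg_left (Real.exp_le_exp.2 ?_) (ch_norm_pos m hs).le
  rw [neg_div, neg_le_neg_iff, div_le_iff₀ (by positivity)]
  have := norm_nonneg z
  nlinarith

theorem ch_gauss_far (m : ℕ) {s L0 : ℝ} (hs : 0 < s) (hL0 : 0 ≤ L0) {z : E m} (hz : L0 * s ≤ ‖z‖) :
    gauss m s z ≤ (2 : ℝ) ^ ((m : ℝ) / 2) * Real.exp (-(L0 ^ 2 / 4)) * gauss m (Real.sqrt 2 * s) z := by
  unfold gauss
  have hpi := Real.pi_pos
  have h2 : (Real.sqrt 2 * s) ^ 2 = 2 * s ^ 2 := by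
    rw [mul_pow, Real.sq_sqrt (by norm_num)]
  rw [h2]
  have e1 : (2 * Real.pi * (2 * s ^ 2)) ^ (-(m : ℝ) / 2) =
      ((2 : ℝ) ^ ((m : ℝ) / 2))⁻¹ * (2 * Real.pi * s ^ 2) ^ (-(m : ℝ) / 2) := by
    have : 2 * Real.pi * (2 * s ^ 2) = 2 * (2 * Real.pi * s ^ 2) := by ring
    rw [this, Real.mul_rpow (by norm_num) (by positivity), neg_div, Real.rpow_neg (by norm_num)]
  rw [e1]
  have hp : (0 : ℝ) < (2 : ℝ) ^ ((m : ℝ) / 2) := by positivity
  have e2 : (2 : ℝ) ^ ((m : ℝ) / 2) * Real.exp (-(L0 ^ 2 / 4)) *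
      (((2 : ℝ) ^ ((m : ℝ) / 2))⁻¹ * (2 * Real.pi * s ^ 2) ^ (-(m : ℝ) / 2) *
        Real.exp (-‖z‖ ^ 2 / (2 * (2 * s ^ 2)))) =
      (2 * Real.pi * s ^ 2) ^ (-(m : ℝ) / 2) *
        (Real.exp (-(L0 ^ 2 / 4)) * Real.exp (-‖z‖ ^ 2 / (2 * (2 * s ^ 2)))) := by
    field_simp
  rw [e2, ← Real.exp_add]
  refine mul_le_mul_of_nonneg_left (Real.exp_le_exp.2 ?_) (ch_norm_pos m hs).le
  have h3 : L0 ^ 2 / 4 ≤ ‖z‖ ^ 2 / (2 * (2 * s ^ 2)) := by
    rw [div_le_div_iff₀ (by norm_num) (by positivity)]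
    have : (L0 * s) ^ 2 ≤ ‖z‖ ^ 2 := pow_le_pow_left₀ (by positivity) hz 2
    nlinarith
  have h4 : -‖z‖ ^ 2 / (2 * s ^ 2) = -‖z‖ ^ 2 / (2 * (2 * s ^ 2)) + -(‖z‖ ^ 2 / (2 * (2 * s ^ 2))) := by
    field_simp
    ring
  rw [h4]
  linarith

theorem ch_gauss_continuous (m : ℕ) (s : ℝ) (x : E m) : Continuous fun y : E m => gauss m s (y - x) := by
  unfold gauss
  fun_prop

theorem ch_gauss_integrable (m : ℕ) {s : ℝ} (hs : 0 < s) (x : E m) (ρ : Measure (E m))
    [IsFiniteMeasure ρ] : Integrable (fun y : E m => gauss m s (y - x)) ρ := by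
  refine Integrable.of_bound (ch_gauss_continuous m s x).aestronglyMeasurable
    ((2 * Real.pi * s ^ 2) ^ (-(m : ℝ) / 2)) (Filter.Eventually.of_forall fun y => ?_)
  rw [Real.norm_of_nonneg (ch_gauss_nonneg m hs _)]
  exact ch_gauss_le m hs _

/-- the mass of a small ball is controlled by the Gaussian average. -/
theorem ch_small (m : ℕ) (h : Measure (E m)) [IsFiniteMeasure h] {u : ℝ} (hu : 0 < u) (v : E m) :
    (2 * Real.pi * u ^ 2) ^ (-(m : ℝ) / 2) * Real.exp (-(9 / 2)) * (h (ball v (3 * u))).toReal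
      ≤ gav h u v := by
  unfold gav
  have hint := ch_gauss_integrable m hu v h
  calc (2 * Real.pi * u ^ 2) ^ (-(m : ℝ) / 2) * Real.exp (-(9 / 2)) * (h (ball v (3 * u))).toReal
      = ∫ _y in ball v (3 * u), (2 * Real.pi * u ^ 2) ^ (-(m : ℝ) / 2) * Real.exp (-(9 / 2)) ∂h := by
        rw [setIntegral_const, smul_eq_mul, mul_comm]
        rfl
    _ ≤ ∫ y in ball v (3 * u), gauss m u (y - v) ∂h := by
        refine setIntegral_mono_on (integrableOn_const (measure_ne_top _ _)) hint.integrableOn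
          measurableSet_ball fun y hy => ?_
        refine ch_gauss_ge m hu ?_
        rw [mem_ball, dist_eq_norm] at hy
        exact hy.le
    _ ≤ ∫ y, gauss m u (y - v) ∂h :=
        setIntegral_le_integral hint (Filter.Eventually.of_forall fun y => ch_gauss_nonneg m hu _)

/-- threshold payment. -/
theorem ch_payment (m : ℕ) (ν : Measure (E m)) [IsFiniteMeasure ν] {s L0 : ℝ} (hs : 0 < s)
    (hL0 : 0 ≤ L0) (x : E m) :
    gav ν s x ≤ (2 * Real.pi * s ^ 2) ^ (-(m : ℝ) / 2) * (ν (ball x (L0 * s))).toReal +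
      (2 : ℝ) ^ ((m : ℝ) / 2) * Real.exp (-(L0 ^ 2 / 4)) * gav ν (Real.sqrt 2 * s) x := by
  unfold gav
  have hs2 : 0 < Real.sqrt 2 * s := by positivity
  have hint := ch_gauss_integrable m hs x ν
  have hint2 := ch_gauss_integrable m hs2 x ν
  rw [← integral_add_compl (measurableSet_ball (x := x) (ε := L0 * s)) hint]
  refine add_le_add ?_ ?_
  · calc ∫ y in ball x (L0 * s), gauss m s (y - x) ∂ν
        ≤ ∫ _y in ball x (L0 * s), (2 * Real.pi * s ^ 2) ^ (-(m : ℝ) / 2) ∂ν := by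
          refine setIntegral_mono_on hint.integrableOn (integrableOn_const (measure_ne_top _ _))
            measurableSet_ball fun y _ => ch_gauss_le m hs _
      _ = _ := by
          rw [setIntegral_const, smul_eq_mul, mul_comm]
          rfl
  · calc ∫ y in (ball x (L0 * s))ᶜ, gauss m s (y - x) ∂ν
        ≤ ∫ y in (ball x (L0 * s))ᶜ, (2 : ℝ) ^ ((m : ℝ) / 2) * Real.exp (-(L0 ^ 2 / 4)) *
            gauss m (Real.sqrt 2 * s) (y - x) ∂ν := by
          refine setIntegral_mono_on hint.integrableOn (hint2.const_mul _).integrableOn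
            measurableSet_ball.compl fun y hy => ?_
          refine ch_gauss_far m hs hL0 ?_
          rw [mem_compl_iff, mem_ball, dist_eq_norm, not_lt] at hy
          exact hy
      _ ≤ ∫ y, (2 : ℝ) ^ ((m : ℝ) / 2) * Real.exp (-(L0 ^ 2 / 4)) *
            gauss m (Real.sqrt 2 * s) (y - x) ∂ν := by
          refine setIntegral_le_integral (hint2.const_mul _) (Filter.Eventually.of_forall fun y => ?_)
          exact mul_nonneg (by positivity) (ch_gauss_nonneg m hs2 _)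
      _ = _ := integral_const_mul _ _

theorem ch_exp_small {L0 : ℝ} (hL0 : 1 ≤ L0) : Real.exp (-(L0 ^ 2 / 4)) ≤ 4 / L0 := by
  have h1 : L0 / 4 ≤ Real.exp (L0 ^ 2 / 4) := by
    have := Real.add_one_le_exp (L0 ^ 2 / 4)
    nlinarith
  rw [Real.exp_neg, inv_le_comm₀ (Real.exp_pos _) (by positivity), inv_div]
  exact h1

/-- **AE Lemma 6.4 (charging the contact measure).** -/
theorem charge (m : ℕ) (hm : 1 ≤ m) (c C : ℝ) (hc : 0 < c) :
    ∃ L0 C' : ℝ, 1 ≤ L0 ∧ 0 < C' ∧ ∀ (h ν : Measure (E m)), IsFiniteMeasure h → IsFiniteMeasure ν →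
      ∀ (θ : ℝ) (𝒞 Eb : Set (E m)) (u s : E m → ℝ), 0 < θ → MeasurableSet Eb →
      (∀ x ∈ 𝒞, 0 < u x ∧ u x ≤ s x ∧ c * θ ≤ gav ν (s x) x ∧
        gav ν (Real.sqrt 2 * s x) x ≤ C * θ ∧ gav h (u x) x ≤ C * θ ∧ ball x (L0 * s x) ⊆ Eb) →
      h 𝒞 ≤ ENNReal.ofReal C' * ν Eb := by
  have hpi := Real.pi_pos
  obtain ⟨Cp, hCp⟩ : ∃ Cp : ℝ, Cp = max C 1 := ⟨_, rfl⟩
  have hCp1 : 1 ≤ Cp := hCp ▸ le_max_right _ _
  have hCC : C ≤ Cp := hCp ▸ le_max_left _ _
  obtain ⟨κ, hκ⟩ : ∃ κ : ℝ, κ = (2 * Real.pi) ^ ((m : ℝ) / 2) := ⟨_, rfl⟩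
  have hκ0 : 0 < κ := by rw [hκ]; positivity
  obtain ⟨p2, hp2⟩ : ∃ p2 : ℝ, p2 = (2 : ℝ) ^ ((m : ℝ) / 2) := ⟨_, rfl⟩
  have hp20 : 0 < p2 := by rw [hp2]; positivity
  obtain ⟨L0, hL0def⟩ : ∃ L0 : ℝ, L0 = 1 + 8 * p2 * Cp / c := ⟨_, rfl⟩
  have hL01 : 1 ≤ L0 := by
    rw [hL0def]
    have : 0 ≤ 8 * p2 * Cp / c := by positivity
    linarith
  have hL0pos : 0 < L0 := by linarith
  have ha : p2 * Real.exp (-(L0 ^ 2 / 4)) * Cp ≤ c / 2 := by
    have h1 := ch_exp_small hL01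
    have h2 : 8 * p2 * Cp / c ≤ L0 := by rw [hL0def]; linarith
    rw [div_le_iff₀ hc] at h2
    calc p2 * Real.exp (-(L0 ^ 2 / 4)) * Cp ≤ p2 * (4 / L0) * Cp := by gcongr
      _ = (8 * p2 * Cp) / (2 * L0) := by field_simp; ring
      _ ≤ (L0 * c) / (2 * L0) := by gcongr
      _ = c / 2 := by field_simp
  refine ⟨L0, Cp * Real.exp (9 / 2) * (3 * L0 + 2) ^ m * (2 / c), hL01, by positivity, ?_⟩
  intro h ν hh hν θ 𝒞 Eb u s hθ _ hyp
  -- facts on the contacts
  have hs : ∀ x ∈ 𝒞, 0 < s x := fun x hx => lt_of_lt_of_le (hyp x hx).1 (hyp x hx).2.1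
  have F1 : ∀ x ∈ 𝒞, c * θ / 2 * (κ * s x ^ m) ≤ (ν (ball x (L0 * s x))).toReal := by
    intro x hx
    obtain ⟨_, _, h3, h4, _, _⟩ := hyp x hx
    have h5 := ch_payment m ν (hs x hx) hL0pos.le x
    rw [← hp2, ch_norm_eq m (hs x hx), ← hκ] at h5
    have h6 : p2 * Real.exp (-(L0 ^ 2 / 4)) * gav ν (Real.sqrt 2 * s x) x ≤ c / 2 * θ := by
      calc _ ≤ p2 * Real.exp (-(L0 ^ 2 / 4)) * (Cp * θ) := by
            refine mul_le_mul_of_nonneg_left (le_trans h4 ?_) (by positivity)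
            exact mul_le_mul_of_nonneg_right hCC hθ.le
        _ = (p2 * Real.exp (-(L0 ^ 2 / 4)) * Cp) * θ := by ring
        _ ≤ _ := mul_le_mul_of_nonneg_right ha hθ.le
    have h7 : c * θ / 2 ≤ (κ * s x ^ m)⁻¹ * (ν (ball x (L0 * s x))).toReal := by linarith
    have hpos : 0 < κ * s x ^ m := mul_pos hκ0 (pow_pos (hs x hx) m)
    rwa [inv_mul_eq_div, le_div_iff₀ hpos] at h7
  have F3 : ∀ x ∈ 𝒞, h (ball x (3 * u x)) ≤
      ENNReal.ofReal (Cp * θ * Real.exp (9 / 2) * κ * u x ^ m) := by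
    intro x hx
    obtain ⟨h1, _, _, _, h5, _⟩ := hyp x hx
    have h6 := ch_small m h h1 x
    rw [ch_norm_eq m h1, ← hκ] at h6
    have hpos : 0 < κ * u x ^ m := mul_pos hκ0 (pow_pos h1 m)
    have h7 : (h (ball x (3 * u x))).toReal ≤ Cp * θ * Real.exp (9 / 2) * κ * u x ^ m := by
      have h8 : (κ * u x ^ m)⁻¹ * Real.exp (-(9 / 2)) * (h (ball x (3 * u x))).toReal ≤ Cp * θ :=
        le_trans h6 (le_trans h5 (mul_le_mul_of_nonneg_right hCC hθ.le))
      rw [Real.exp_neg] at h8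
      have he := Real.exp_pos (9 / 2 : ℝ)
      have h9 : (κ * u x ^ m)⁻¹ * (Real.exp (9 / 2))⁻¹ * (h (ball x (3 * u x))).toReal =
          (h (ball x (3 * u x))).toReal / (κ * u x ^ m * Real.exp (9 / 2)) := by
        field_simp
      rw [h9, div_le_iff₀ (by positivity)] at h8
      linarith
    rw [← ENNReal.ofReal_toReal (measure_ne_top h _)]
    exact ENNReal.ofReal_le_ofReal h7
  -- bounded radii
  have hR : ∀ x ∈ 𝒞, s x ≤ max 1 ((ν univ).toReal / (c * θ / 2 * κ)) := by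
    intro x hx
    by_cases h1 : s x ≤ 1
    · exact le_trans h1 (le_max_left _ _)
    · refine le_trans ?_ (le_max_right _ _)
      have h2 : s x ≤ s x ^ m := by
        have := pow_le_pow_right₀ (not_le.1 h1).le hm
        simpa using this
      have h3 : (ν (ball x (L0 * s x))).toReal ≤ (ν univ).toReal :=
        ENNReal.toReal_mono (measure_ne_top _ _) (measure_mono (subset_univ _))
      rw [le_div_iff₀ (by positivity)]
      have := F1 x hx
      have h4 : 0 < c * θ / 2 * κ := by positivity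
      nlinarith
  -- first selection
  obtain ⟨U, hU𝒞, hUd, hUc⟩ := Vitali.exists_disjoint_subfamily_covering_enlargement
    (fun x : E m => ball x (L0 * s x)) 𝒞 s 2 one_lt_two (fun x hx => (hs x hx).le) _ hR
    (fun x hx => nonempty_ball.2 (mul_pos hL0pos (hs x hx)))
  have hUcount : U.Countable := hUd.countable_of_isOpen (fun x _ => isOpen_ball)
    (fun x hx => nonempty_ball.2 (mul_pos hL0pos (hs x (hU𝒞 hx))))
  have hcov : 𝒞 ⊆ ⋃ b ∈ U,
      {x | x ∈ 𝒞 ∧ (ball x (L0 * s x) ∩ ball b (L0 * s b)).Nonempty ∧ s x ≤ 2 * s b} := by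
    intro x hx
    obtain ⟨b, hb, h1, h2⟩ := hUc x hx
    simp only [mem_iUnion, exists_prop]
    exact ⟨b, hb, hx, h1, h2⟩
  have hone : ∀ b ∈ U,
      h {x | x ∈ 𝒞 ∧ (ball x (L0 * s x) ∩ ball b (L0 * s b)).Nonempty ∧ s x ≤ 2 * s b} ≤
        ENNReal.ofReal (Cp * Real.exp (9 / 2) * (3 * L0 + 2) ^ m * (2 / c)) *
          ν (ball b (L0 * s b)) := by
    intro b hb
    have hsb := hs b (hU𝒞 hb)
    have h1 := ch_cover h
      {x | x ∈ 𝒞 ∧ (ball x (L0 * s x) ∩ ball b (L0 * s b)).Nonempty ∧ s x ≤ 2 * s b} u b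
      (3 * L0 * s b) (2 * s b) (Cp * θ * Real.exp (9 / 2) * κ) (by positivity) (by positivity)
      (by positivity) ?_ ?_ ?_
    · refine le_trans h1 ?_
      rw [← ENNReal.ofReal_toReal (measure_ne_top ν (ball b (L0 * s b))),
        ← ENNReal.ofReal_mul (by positivity)]
      refine ENNReal.ofReal_le_ofReal ?_
      have h2 := F1 b (hU𝒞 hb)
      have e1 : (3 * L0 * s b + 2 * s b) ^ m = (3 * L0 + 2) ^ m * s b ^ m := by
        rw [← mul_pow]
        congr 1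
        ring
      rw [e1]
      calc Cp * θ * Real.exp (9 / 2) * κ * ((3 * L0 + 2) ^ m * s b ^ m)
          = Cp * Real.exp (9 / 2) * (3 * L0 + 2) ^ m * (2 / c) * (c * θ / 2 * (κ * s b ^ m)) := by
            field_simp
        _ ≤ _ := mul_le_mul_of_nonneg_left h2 (by positivity)
    · rintro x ⟨hx, _, hle⟩
      exact ⟨(hyp x hx).1, le_trans (hyp x hx).2.1 hle⟩
    · rintro x ⟨hx, ⟨y, hy1, hy2⟩, hle⟩
      rw [mem_ball] at hy1 hy2
      have := dist_triangle x y b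
      rw [dist_comm] at hy1
      have : L0 * s x ≤ L0 * (2 * s b) := mul_le_mul_of_nonneg_left hle hL0pos.le
      linarith
    · rintro x ⟨hx, _, _⟩
      exact F3 x hx
  calc h 𝒞 ≤ h (⋃ b ∈ U,
        {x | x ∈ 𝒞 ∧ (ball x (L0 * s x) ∩ ball b (L0 * s b)).Nonempty ∧ s x ≤ 2 * s b}) :=
        measure_mono hcov
    _ ≤ ∑' b : U, h {x | x ∈ 𝒞 ∧ (ball x (L0 * s x) ∩ ball (b : E m) (L0 * s b)).Nonempty ∧
          s x ≤ 2 * s b} := measure_biUnion_le h hUcount _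
    _ ≤ ∑' b : U, ENNReal.ofReal (Cp * Real.exp (9 / 2) * (3 * L0 + 2) ^ m * (2 / c)) *
          ν (ball (b : E m) (L0 * s b)) := ENNReal.tsum_le_tsum fun b => hone b b.2
    _ = ENNReal.ofReal (Cp * Real.exp (9 / 2) * (3 * L0 + 2) ^ m * (2 / c)) *
          ∑' b : U, ν (ball (b : E m) (L0 * s b)) := ENNReal.tsum_mul_left
    _ = ENNReal.ofReal (Cp * Real.exp (9 / 2) * (3 * L0 + 2) ^ m * (2 / c)) *
          ν (⋃ b ∈ U, ball b (L0 * s b)) := by
        rw [measure_biUnion hUcount hUd (fun b _ => measurableSet_ball)]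
    _ ≤ _ := by
        gcongr
        exact iUnion₂_subset fun b hb => (hyp b (hU𝒞 hb)).2.2.2.2.2

end Claimed.Agent.R322.Sx
end

/- ===== packed: Claimed.Agent.R322.Fit.Boot.Defs ===== -/
section
/-!
# Row 322, Fit/Boot: the operator of the minimal surface system (definition only)

`mssOp u y = g^{ab}(Du(y)) D_{ab} u(y)`, `g = 1 + Duᵀ Du`  (definition by helper281, moved here verbatim from
`Fit/Boot.lean`).
-/

set_option autoImplicit false

open scoped ENNReal ContDiff Topology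
open MeasureTheory

namespace Claimed.Agent.R322.Fit

/-- the operator `g^{ab}(Du) D_{ab} u` of the non-parametric minimal surface system. -/
noncomputable def mssOp {m n : ℕ} (u : E m → E n) (y : E m) : E n :=
  ∑ a : Fin m, fderiv ℝ (fderiv ℝ u) y
    ((ContinuousLinearMap.id ℝ (E m)
      + ContinuousLinearMap.adjoint (fderiv ℝ u y) ∘L fderiv ℝ u y).inverse
        (EuclideanSpace.single a 1))
    (EuclideanSpace.single a 1)

end Claimed.Agent.R322.Fit
end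

/- ===== packed: Claimed.Agent.R322.Haus.Sat ===== -/
section
/-!
# Haus (a), leaves F0 and F1 (Mathlib only)

* `exists_content_pos` : positive Hausdorff measure gives a positive lower bound for the `s`-sums of all finite
  covers by sets of small diameter;
* `exists_saturated_weights` : the finite optimisation lemma behind Frostman's lemma.
-/

set_option autoImplicit false

open scoped ENNReal NNReal
open MeasureTheory Filter Topology

namespace Claimed.Agent.R322.Haus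

/-- **F0.**  [By contradiction: for every `n` there is a finite cover `T n` of `K` with diameters `≤ 1/(n+1)` and
`∑ ediam ^ s < 1/(n+1)`; `Measure.hausdorffMeasure_le_liminf_sum` (index types `↥(F n)`) gives `μH[s] K ≤ 0`.] -/
theorem exists_content_pos {X : Type*} [EMetricSpace X] [MeasurableSpace X] [BorelSpace X]
    (K : Set X) (s : ℝ) (hpos : 0 < μH[s] K) :
    ∃ r b : ℝ, 0 < r ∧ 0 < b ∧ ∀ (ι : Type) (F : Finset ι) (T : ι → Set X),
      (∀ i ∈ F, Metric.ediam (T i) ≤ ENNReal.ofReal r) → K ⊆ ⋃ i ∈ F, T i →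
      ENNReal.ofReal b ≤ ∑ i ∈ F, Metric.ediam (T i) ^ s := by
  by_contra hcon
  push Not at hcon
  have hn : ∀ n : ℕ, (0 : ℝ) < 1 / ((n : ℝ) + 1) := fun n => by positivity
  choose ι F T h1 h2 h3 using fun n : ℕ => hcon (1 / ((n : ℝ) + 1)) (1 / ((n : ℝ) + 1)) (hn n) (hn n)
  have hr : Tendsto (fun n : ℕ => ENNReal.ofReal (1 / ((n : ℝ) + 1))) atTop (𝓝 0) := by
    have := ENNReal.tendsto_ofReal (tendsto_one_div_add_atTop_nhds_zero_nat (𝕜 := ℝ))
    simpa using this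
  have key := Measure.hausdorffMeasure_le_liminf_sum (ι := fun n => ↥(F n)) s K
    (fun n : ℕ => ENNReal.ofReal (1 / ((n : ℝ) + 1))) hr (fun n i => T n i.1)
    (Eventually.of_forall fun n i => h1 n i.1 i.2)
    (Eventually.of_forall fun n x hx => by
      obtain ⟨i, hi, hxi⟩ := Set.mem_iUnion₂.1 (h2 n hx)
      exact Set.mem_iUnion.2 ⟨⟨i, hi⟩, hxi⟩)
  have hle : liminf (fun n => ∑ i : ↥(F n), Metric.ediam (T n i.1) ^ s) atTop ≤ 0 := by
    have h4 : ∀ n, ∑ i : ↥(F n), Metric.ediam (T n i.1) ^ s ≤ ENNReal.ofReal (1 / ((n : ℝ) + 1)) := by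
      intro n
      rw [Finset.sum_coe_sort (F n) (fun i => Metric.ediam (T n i) ^ s)]
      exact (h3 n).le
    calc liminf (fun n => ∑ i : ↥(F n), Metric.ediam (T n i.1) ^ s) atTop
        ≤ liminf (fun n : ℕ => ENNReal.ofReal (1 / ((n : ℝ) + 1))) atTop :=
          liminf_le_liminf (Eventually.of_forall h4)
      _ = 0 := hr.liminf_eq
      _ ≤ 0 := le_rfl
  exact absurd (key.trans hle) (not_le.2 hpos)

/-- **F1.**  Finite family of atoms `P`, finite family of "cells" `ι` with capacities; every atom lies in a cell.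
There are weights respecting all capacities such that every atom lies in a saturated cell.
[The set of admissible `w : P → ℝ` (`0 ≤ w`, all constraints) is closed and bounded in `P → ℝ` (each `w p ≤ cap c`
for a cell `c ∋ p`), nonempty (`w = 0`): compact.  Take a maximiser of `∑ p, w p`
(`IsCompact.exists_isMaxOn`).  If an atom `p` lies in no saturated cell, add to `w p` the minimum over the (finitely
many, at least one) cells `c ∋ p` of the slack `cap c - ∑ ...> 0`: still admissible, bigger sum.] -/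
theorem exists_saturated_weights {P ι : Type*} [Fintype P] [Fintype ι] (mem : P → ι → Prop)
    [∀ p c, Decidable (mem p c)] (cap : ι → ℝ) (hcap : ∀ c, 0 ≤ cap c) (hcov : ∀ p, ∃ c, mem p c) :
    ∃ w : P → ℝ, (∀ p, 0 ≤ w p) ∧ (∀ c, ∑ p with mem p c, w p ≤ cap c) ∧
      ∀ p, ∃ c, mem p c ∧ ∑ q with mem q c, w q = cap c := by
  classical
  set S : Set (P → ℝ) := {w | (∀ p, 0 ≤ w p) ∧ ∀ c, ∑ p with mem p c, w p ≤ cap c} with hS
  set M : ℝ := ∑ c, cap c with hM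
  have hsub : S ⊆ Set.pi Set.univ (fun _ : P => Set.Icc (0 : ℝ) M) := by
    intro w hw p _
    refine ⟨hw.1 p, ?_⟩
    obtain ⟨c, hc⟩ := hcov p
    calc w p ≤ ∑ q with mem q c, w q :=
          Finset.single_le_sum (f := w) (fun q _ => hw.1 q) (by simp [hc])
      _ ≤ cap c := hw.2 c
      _ ≤ M := Finset.single_le_sum (f := cap) (fun c _ => hcap c) (Finset.mem_univ c)
  have hclosed : IsClosed S := by
    have h1 : S = (⋂ p, {w : P → ℝ | 0 ≤ w p}) ∩ ⋂ c, {w : P → ℝ | ∑ p with mem p c, w p ≤ cap c} := by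
      ext w
      simp [hS]
    rw [h1]
    refine IsClosed.inter (isClosed_iInter fun p => ?_) (isClosed_iInter fun c => ?_)
    · exact isClosed_le continuous_const (continuous_apply p)
    · exact isClosed_le (continuous_finsetSum _ fun p _ => continuous_apply p) continuous_const
  have hcomp : IsCompact S :=
    (isCompact_univ_pi fun _ => isCompact_Icc).of_isClosed_subset hclosed hsub
  have hne : S.Nonempty := ⟨0, fun p => le_rfl, fun c => by simpa using hcap c⟩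
  obtain ⟨w, hw, hmax⟩ := hcomp.exists_isMaxOn hne
    (f := fun w : P → ℝ => ∑ p, w p)
    (continuous_finsetSum _ fun p _ => continuous_apply p).continuousOn
  refine ⟨w, hw.1, hw.2, fun p => ?_⟩
  by_contra hcon
  push Not at hcon
  have hlt : ∀ c, mem p c → 0 < cap c - ∑ q with mem q c, w q := fun c hc =>
    sub_pos.2 (lt_of_le_of_ne (hw.2 c) (hcon c hc))
  have hCne : (Finset.univ.filter fun c => mem p c).Nonempty := by
    obtain ⟨c, hc⟩ := hcov p
    exact ⟨c, by simp [hc]⟩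
  set ε : ℝ := (Finset.univ.filter fun c => mem p c).inf' hCne
    (fun c => cap c - ∑ q with mem q c, w q) with hε
  have hεpos : 0 < ε := by
    rw [hε, Finset.lt_inf'_iff]
    intro c hc
    exact hlt c (by simpa using hc)
  have hεle : ∀ c, mem p c → ε ≤ cap c - ∑ q with mem q c, w q := fun c hc =>
    Finset.inf'_le _ (by simp [hc])
  have hw' : (w + Pi.single p ε) ∈ S := by
    refine ⟨fun q => ?_, fun c => ?_⟩
    · have : 0 ≤ (Pi.single p ε : P → ℝ) q := by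
        by_cases hq : q = p
        · subst hq; simpa using hεpos.le
        · simp [hq]
      simpa using add_nonneg (hw.1 q) this
    · simp only [Pi.add_apply, Finset.sum_add_distrib, Finset.sum_pi_single', Finset.mem_filter,
        Finset.mem_univ, true_and]
      by_cases hc : mem p c
      · rw [if_pos hc]
        have := hεle c hc
        linarith
      · rw [if_neg hc, add_zero]
        exact hw.2 c
  have h5 : ∑ q, (w + Pi.single p ε : P → ℝ) q ≤ ∑ q, w q := hmax hw'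
  simp only [Pi.add_apply, Finset.sum_add_distrib, Finset.sum_pi_single', Finset.mem_univ,
    if_true] at h5
  linarith

end Claimed.Agent.R322.Haus
end
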