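/- Packed by merge_tool.py (helper293): 8 modules of Claimed.Agent.R322 in one file, same declarations.
   Old modules, in this order: Fit.Boot.Mult, Fit.Boot.Step, Fit.Boot.Pde, Fit.Boot.Scale, Tool.WhitneyPf, Tool.CutInterp, Tool.Whitney, Flat.Defs -/
import Claimed.Agent.R322.Pack001
import Claimed.Agent.R322.Pack005
import Claimed.Agent.R322.Basic
import Claimed.Agent.R322.Pack044

/- ===== packed: Claimed.Agent.R322.Fit.Boot.Mult ===== -/
section
/-!
# Row 322, Fit/Boot: multipliers of the Wiener classes  (architect helper137)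

`mulA m s` = the functions `F` with `F · InA s ⊆ InA s`: a unital subalgebra of `E m → ℂ` containing `InA s`.
Polynomial expressions (here: entries of an adjugate matrix) of members are members.
-/

set_option autoImplicit false

open MeasureTheory FourierTransform Module
open scoped ENNReal ContDiff Topology RealInnerProductSpace

namespace Claimed.Agent.R322.Fit.Boot

variable {m : ℕ}

/-- the multiplier algebra of `InA s`. -/
def mulA (m s : ℕ) : Subalgebra ℂ (E m → ℂ) where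
  carrier := {F | ∀ φ : E m → ℂ, InA s φ → InA s (fun x => F x * φ x)}
  mul_mem' := by
    intro F G hF hG φ hφ
    have := hF _ (hG φ hφ)
    simpa [mul_assoc] using this
  add_mem' := by
    intro F G hF hG φ hφ
    have := (hF φ hφ).add (hG φ hφ)
    simpa [add_mul] using this
  algebraMap_mem' := by
    intro c φ hφ
    exact hφ.const_mul c

theorem mem_mulA {s : ℕ} {F : E m → ℂ} :
    F ∈ mulA m s ↔ ∀ φ : E m → ℂ, InA s φ → InA s (fun x => F x * φ x) := Iff.rfl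

theorem mem_mulA_of_InA {s : ℕ} {f : E m → ℂ} (h : InA s f) : f ∈ mulA m s :=
  fun _ hφ => h.mul hφ

theorem const_mem_mulA (s : ℕ) (c : ℂ) : (fun _ : E m => c) ∈ mulA m s :=
  fun _ hφ => hφ.const_mul c

/-! ### leaf L-Fit-Boot-M -/

/-- entries of the pointwise adjugate of a matrix of members are members.
Route: lift `M` to a matrix `M'` over the commutative ring `S`; `RingHom.map_adjugate` for `S.val` and for
`Pi.evalRingHom _ y`. -/
theorem adjugate_mem {X : Type*} {d : ℕ} (S : Subalgebra ℂ (X → ℂ))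
    (M : Fin d → Fin d → X → ℂ) (hM : ∀ a c, M a c ∈ S) (a c : Fin d) :
    (fun y => (Matrix.adjugate (Matrix.of fun a c => M a c y)) a c) ∈ S := by
  let M' : Matrix (Fin d) (Fin d) S := Matrix.of fun a c => ⟨M a c, hM a c⟩
  have key : ∀ y, (Matrix.adjugate (Matrix.of fun a c => M a c y)) a c
      = ((M'.adjugate a c : S) : X → ℂ) y := by
    intro y
    let φ : S →+* ℂ := (Pi.evalRingHom (fun _ : X => ℂ) y).comp S.val.toRingHom
    have h : φ.mapMatrix M' = Matrix.of fun a c => M a c y := by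
      ext a c
      rfl
    rw [← h, ← RingHom.map_adjugate]
    rfl
  have h2 : (fun y => (Matrix.adjugate (Matrix.of fun a c => M a c y)) a c)
      = ((M'.adjugate a c : S) : X → ℂ) := funext key
  rw [h2]
  exact (M'.adjugate a c).2

end Claimed.Agent.R322.Fit.Boot
end

/- ===== packed: Claimed.Agent.R322.Fit.Boot.Step ===== -/
section
/-!
# Row 322, Fit/Boot: one step of the bootstrap  (architect helper137)

`U : Fin n → E m → ℂ` are the (complexified) components of the graph function.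
`Gm U y = 1 + DUᵀ DU`, `Ad U y` its adjugate, `Sol U O` : `∑ Ad_ac D_a D_c U^α = 0` on `O`.

`step`: three nested cutoffs `χ ≺ χ₁ ≺ χ'`.  If `χ' U^α ∈ A^{j+2}` and the coefficient perturbation
`χ₁ (Ad U - a0)` is small in `A^0` then `χ U^α ∈ A^{j+3}`.

Proof.  `Ut = χ' U`, `w = χ U^α = χ Ut^α`.  For every `y`
`∑ a0_ac D_a D_c w = - ∑ b_ac D_a D_c w + f`, `b_ac = χ₁ (Ad Ut_ac - a0_ac)`,
`f = ∑ Ad Ut_ac (D_a χ D_c Ut^α + D_c χ D_a Ut^α + Ut^α D_a D_c χ)`:
on `tsupport χ` we have `χ₁ = 1`, `Ut = U` near `y` and the equation; off `tsupport χ` everything vanishes.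
`Ad Ut_ac` is a multiplier of `A^{j+1}` (`adjugate_mem`).  Then `elliptic_step (j+1)`.
-/

set_option autoImplicit false

open MeasureTheory Module
open scoped ENNReal ContDiff Topology

namespace Claimed.Agent.R322.Fit.Boot

variable {m n : ℕ}

/-- the metric `1 + DUᵀ DU`. -/
noncomputable def Gm (U : Fin n → E m → ℂ) (y : E m) : Matrix (Fin m) (Fin m) ℂ :=
  Matrix.of fun a c => (if a = c then 1 else 0) + ∑ α, pdv a (U α) y * pdv c (U α) y

/-- its adjugate. -/
noncomputable def Ad (U : Fin n → E m → ℂ) (y : E m) : Matrix (Fin m) (Fin m) ℂ :=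
  (Gm U y).adjugate

/-- the minimal surface system in polynomial form. -/
def Sol (U : Fin n → E m → ℂ) (O : Set (E m)) : Prop :=
  ∀ y ∈ O, ∀ α, ∑ a, ∑ c, Ad U y a c * pdv a (pdv c (U α)) y = 0

/-! ### leaf L-Fit-Boot-SA : calculus of `pdv` -/

theorem pdv_congr {f g : E m → ℂ} {x : E m} (h : f =ᶠ[𝓝 x] g) (a : Fin m) :
    pdv a f x = pdv a g x := by
  unfold pdv
  rw [h.fderiv_eq]

theorem pdv_eventuallyEq {f g : E m → ℂ} {x : E m} (h : f =ᶠ[𝓝 x] g) (a : Fin m) :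
    pdv a f =ᶠ[𝓝 x] pdv a g := by
  filter_upwards [h.eventuallyEq_nhds] with z hz using pdv_congr hz a

theorem pdv_mul {f g : E m → ℂ} {x : E m} (hf : DifferentiableAt ℝ f x)
    (hg : DifferentiableAt ℝ g x) (a : Fin m) :
    pdv a (fun y => f y * g y) x = pdv a f x * g x + f x * pdv a g x := by
  unfold pdv
  rw [fderiv_fun_mul hf hg]
  simp only [_root_.add_apply, _root_.smul_apply, smul_eq_mul]
  ring

theorem contDiff_pdv {f : E m → ℂ} {k : ℕ} (hf : ContDiff ℝ (k + 1 : ℕ) f) (a : Fin m) :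
    ContDiff ℝ k (pdv a f) := by
  unfold pdv
  exact (hf.fderiv_right (m := k) (by norm_cast)).clm_apply contDiff_const

theorem pdv_pdv_mul {f g : E m → ℂ} (hf : ContDiff ℝ 2 f) (hg : ContDiff ℝ 2 g) (a c : Fin m)
    (x : E m) :
    pdv a (pdv c (fun y => f y * g y)) x
      = pdv a (pdv c f) x * g x + pdv c f x * pdv a g x + pdv a f x * pdv c g x
        + f x * pdv a (pdv c g) x := by
  have hf1 : Differentiable ℝ f := hf.differentiable (by norm_num)
  have hg1 : Differentiable ℝ g := hg.differentiable (by norm_num)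
  have hf2 : Differentiable ℝ (pdv c f) :=
    (contDiff_pdv (k := 1) (by exact_mod_cast hf) c).differentiable (by norm_num)
  have hg2 : Differentiable ℝ (pdv c g) :=
    (contDiff_pdv (k := 1) (by exact_mod_cast hg) c).differentiable (by norm_num)
  have h1 : pdv c (fun y => f y * g y) = fun y => pdv c f y * g y + f y * pdv c g y :=
    funext fun y => pdv_mul (hf1 y) (hg1 y) c
  have h2 : pdv a (fun y => pdv c f y * g y + f y * pdv c g y) x
      = pdv a (fun y => pdv c f y * g y) x + pdv a (fun y => f y * pdv c g y) x := by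
    have hA : DifferentiableAt ℝ (fun y => pdv c f y * g y) x := (hf2 x).mul (hg1 x)
    have hB : DifferentiableAt ℝ (fun y => f y * pdv c g y) x := (hf1 x).mul (hg2 x)
    show fderiv ℝ (fun y => pdv c f y * g y + f y * pdv c g y) x _ = _
    rw [fderiv_fun_add hA hB]
    rfl
  rw [h1, h2, pdv_mul (hf2 x) (hg1 x), pdv_mul (hf1 x) (hg2 x)]
  ring

theorem pdv_eq_zero_of_notMem {f : E m → ℂ} {x : E m} (h : x ∉ tsupport f) (a : Fin m) :
    pdv a f x = 0 := by
  have h0 : f =ᶠ[𝓝 x] fun _ => 0 := notMem_tsupport_iff_eventuallyEq.mp h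
  rw [pdv_congr h0]
  simp [pdv]

theorem pdv_pdv_eq_zero_of_notMem {f : E m → ℂ} {x : E m} (h : x ∉ tsupport f) (a c : Fin m) :
    pdv a (pdv c f) x = 0 := by
  have h0 : f =ᶠ[𝓝 x] fun _ => 0 := notMem_tsupport_iff_eventuallyEq.mp h
  have h1 : pdv c (fun _ : E m => (0 : ℂ)) = fun _ => 0 := by
    funext z
    simp [pdv]
  rw [pdv_congr (pdv_eventuallyEq h0 c), h1]
  simp [pdv]

theorem Ad_congr {U U' : Fin n → E m → ℂ} {y : E m} (h : ∀ α, U α =ᶠ[𝓝 y] U' α) :
    Ad U y = Ad U' y := by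
  unfold Ad Gm
  congr 1
  ext a c
  simp only [Matrix.of_apply]
  congr 1
  exact Finset.sum_congr rfl fun α _ => by rw [pdv_congr (h α), pdv_congr (h α)]

/-! ### the step (glue) -/

theorem step (j : ℕ) (U : Fin n → E m → ℂ) (O : Set (E m)) (hsol : Sol U O)
    (χ' χ₁ χ : E m → ℂ) (hχ₁ : ContDiff ℝ ∞ χ₁) (hχ : ContDiff ℝ ∞ χ)
    (hs₁ : HasCompactSupport χ₁) (hs : HasCompactSupport χ)
    (h1 : ∀ y ∈ tsupport χ₁, χ' =ᶠ[𝓝 y] 1) (h2 : ∀ y ∈ tsupport χ, χ₁ y = 1)
    (hO : tsupport χ ⊆ O) (a0 : Matrix (Fin m) (Fin m) ℂ) {κ : ℝ} (hκ : 0 < κ)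
    (hell : ∀ ξ : E m, κ * ‖ξ‖ ^ 2 ≤ ‖∑ a, ∑ c, a0 a c * ((ξ a : ℝ) : ℂ) * ((ξ c : ℝ) : ℂ)‖)
    (hsmall : ENNReal.ofReal (2 ^ (j + 1) / κ) *
      ∑ a, ∑ c, nA 0 (fun y => χ₁ y * (Ad U y a c - a0 a c)) ≤ 1 / 2)
    (hk : ∀ α, InA (j + 2) (fun y => χ' y * U α y)) :
    ∀ α, InA (j + 3) (fun y => χ y * U α y) := by
  intro α
  set Ut : Fin n → E m → ℂ := fun β y => χ' y * U β y with hUt
  -- germs
  have hgerm : ∀ y ∈ tsupport χ₁, ∀ β, Ut β =ᶠ[𝓝 y] U β := by
    intro y hy β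
    filter_upwards [h1 y hy] with z hz
    simp only [hUt, hz, Pi.one_apply, one_mul]
  have hsub : tsupport χ ⊆ tsupport χ₁ := by
    intro y hy
    apply subset_tsupport
    rw [Function.mem_support, h2 y hy]
    exact one_ne_zero
  -- regularity
  have hUt2 : ∀ β, ContDiff ℝ 2 (Ut β) := fun β =>
    ((hk β).contDiff).of_le (by exact_mod_cast (Nat.le_add_left 2 j))
  have hχ2 : ContDiff ℝ 2 χ := hχ.of_le ENat.LEInfty.out
  have hχA : ∀ s, InA s χ := fun s => InA.of_smooth hχ hs s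
  have hχ₁A : ∀ s, InA s χ₁ := fun s => InA.of_smooth hχ₁ hs₁ s
  have hdU : ∀ β a, InA (j + 1) (pdv a (Ut β)) := fun β a => (hk β).pdv _
  -- multipliers
  have hAd : ∀ a c, (fun y => Ad Ut y a c) ∈ mulA m (j + 1) := by
    intro a c
    refine adjugate_mem (mulA m (j + 1))
      (fun a c y => (if a = c then 1 else 0) + ∑ β, pdv a (Ut β) y * pdv c (Ut β) y)
      (fun a c => ?_) a c
    refine Subalgebra.add_mem _ (const_mem_mulA _ _) ?_
    have : InA (j + 1) (fun y => ∑ β, pdv a (Ut β) y * pdv c (Ut β) y) :=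
      InA.sum _ fun β _ => (hdU β a).mul (hdU β c)
    exact mem_mulA_of_InA this
  -- the function `w`
  have hw_eq : (fun y => χ y * U α y) = fun y => χ y * Ut α y := by
    funext y
    by_cases hy : y ∈ tsupport χ
    · rw [(hgerm y (hsub hy) α).eq_of_nhds]
    · rw [image_eq_zero_of_notMem_tsupport hy, zero_mul, zero_mul]
  rw [hw_eq]
  have hw : InA (j + 2) (fun y => χ y * Ut α y) := (hχA _).mul (hk α)
  -- coefficients
  have hb_eq : ∀ a c, (fun y => χ₁ y * (Ad U y a c - a0 a c))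
      = fun y => (Ad Ut y a c - a0 a c) * χ₁ y := by
    intro a c
    funext y
    by_cases hy : y ∈ tsupport χ₁
    · rw [Ad_congr (hgerm y hy), mul_comm]
    · rw [image_eq_zero_of_notMem_tsupport hy, zero_mul, mul_zero]
  have hb : ∀ a c, InA (j + 1) (fun y => χ₁ y * (Ad U y a c - a0 a c)) := by
    intro a c
    rw [hb_eq]
    exact (Subalgebra.sub_mem _ (hAd a c) (const_mem_mulA _ (a0 a c))) _ (hχ₁A _)
  -- right hand side
  set f : E m → ℂ := fun y => ∑ a, ∑ c, Ad Ut y a c *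
    (pdv a (pdv c χ) y * Ut α y + pdv c χ y * pdv a (Ut α) y
      + pdv a χ y * pdv c (Ut α) y) with hf_def
  have hf : InA (j + 1) f := by
    refine InA.sum _ fun a _ => InA.sum _ fun c _ => hAd a c _ ?_
    refine (InA.add ?_ ?_).add ?_
    · exact (((hχA (j + 3)).pdv c).pdv a).mul ((hk α).mono (Nat.le_succ _))
    · exact ((hχA (j + 2)).pdv c).mul (hdU α a)
    · exact ((hχA (j + 2)).pdv a).mul (hdU α c)
  -- the equation
  have hpde : ∀ y, ∑ a, ∑ c, a0 a c * pdv a (pdv c (fun y => χ y * Ut α y)) y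
      = - ∑ a, ∑ c, (χ₁ y * (Ad U y a c - a0 a c)) *
        pdv a (pdv c (fun y => χ y * Ut α y)) y + f y := by
    intro y
    by_cases hy : y ∈ tsupport χ
    · have hA : Ad Ut y = Ad U y := Ad_congr (hgerm y (hsub hy))
      have hsol' : ∑ a, ∑ c, Ad U y a c * pdv a (pdv c (Ut α)) y = 0 := by
        rw [← hsol y (hO hy) α]
        refine Finset.sum_congr rfl fun a _ => Finset.sum_congr rfl fun c _ => ?_
        rw [pdv_congr (pdv_eventuallyEq (hgerm y (hsub hy) α) c)]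
      have hfy : f y = ∑ a, ∑ c, Ad U y a c * pdv a (pdv c (fun y => χ y * Ut α y)) y := by
        rw [hf_def]
        simp only [hA]
        have : ∀ a c, Ad U y a c * pdv a (pdv c (fun y => χ y * Ut α y)) y
            = Ad U y a c * (pdv a (pdv c χ) y * Ut α y + pdv c χ y * pdv a (Ut α) y
              + pdv a χ y * pdv c (Ut α) y)
              + χ y * (Ad U y a c * pdv a (pdv c (Ut α)) y) := by
          intro a c
          rw [pdv_pdv_mul hχ2 (hUt2 α)]
          ring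
        simp only [this, Finset.sum_add_distrib, ← Finset.mul_sum, hsol', mul_zero, add_zero]
      rw [hfy, ← Finset.sum_neg_distrib, ← Finset.sum_add_distrib]
      refine Finset.sum_congr rfl fun a _ => ?_
      rw [← Finset.sum_neg_distrib, ← Finset.sum_add_distrib]
      refine Finset.sum_congr rfl fun c _ => ?_
      rw [h2 y hy]
      ring
    · have hw0 : y ∉ tsupport (fun y => χ y * Ut α y) := fun h => hy (tsupport_mul_subset_left h)
      have hfy : f y = 0 := by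
        rw [hf_def]
        refine Finset.sum_eq_zero fun a _ => Finset.sum_eq_zero fun c _ => ?_
        rw [pdv_pdv_eq_zero_of_notMem hy, pdv_eq_zero_of_notMem hy, pdv_eq_zero_of_notMem hy]
        ring
      rw [hfy]
      simp only [pdv_pdv_eq_zero_of_notMem hw0, mul_zero, Finset.sum_const_zero, add_zero, neg_zero]
  exact elliptic_step (j + 1) (b := fun a c y => χ₁ y * (Ad U y a c - a0 a c)) (a₀ := a0) hκ hell
    (hw.mono (Nat.le_add_left 2 j)) hb hf hpde hsmall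

end Claimed.Agent.R322.Fit.Boot
end

/- ===== packed: Claimed.Agent.R322.Fit.Boot.Pde ===== -/
section
/-!
# Row 322, Fit/Boot: from `mssOp` to the polynomial form  (architect helper137)

`cxv u α y = (u y α : ℂ)`.

`sol_of_mss`.  Let `T = Du(y)`, `g = 1 + T† T` (invertible: `⟪g x, x⟫ ≥ |x|²`, so `g` is injective, hence bijective
in finite dimension; `ContinuousLinearMap.inverse` is then the true inverse), `G_ac = ⟪g e_c, e_a⟫ = δ_ac + ⟪T e_a, T e_c⟫`
(real symmetric matrix), `A = adjugate G`.  `G * A = det G • 1` gives `g (∑ c, A_ca e_c) = det G • e_a`, i.e.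
`∑ c, A_ca e_c = det G • g⁻¹ e_a`.  Hence `det G • mssOp u y = ∑ a c, A_ca D²u(y)(e_c, e_a)`, which is `0`.
Take the component `α`, cast to `ℂ` (`RingHom.map_adjugate` for `Complex.ofRealHom`),
`pdv c (pdv a (cxv u α)) y = ((D²u(y)(e_c, e_a)) α : ℂ)`; rename the indices.
-/

set_option autoImplicit false

open MeasureTheory Module
open scoped ENNReal ContDiff Topology RealInnerProductSpace

namespace Claimed.Agent.R322.Fit.Boot

variable {m n : ℕ}

/-- complexified components. -/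
noncomputable def cxv (u : E m → E n) (α : Fin n) (y : E m) : ℂ := ((u y α : ℝ) : ℂ)

/-! ### leaf L-Fit-Boot-PA -/

/-- the continuous linear map `v ↦ (v α : ℂ)`. -/
noncomputable def cxL (n : ℕ) (α : Fin n) : E n →L[ℝ] ℂ :=
  Complex.ofRealCLM ∘L (EuclideanSpace.proj α : E n →L[ℝ] ℝ)

theorem cxL_apply (α : Fin n) (v : E n) : cxL n α v = ((v α : ℝ) : ℂ) := rfl

theorem cxv_eq (u : E m → E n) (α : Fin n) : cxv u α = fun y => cxL n α (u y) := rfl

theorem contDiff_cxv {u : E m → E n} {k : ℕ∞} (hu : ContDiff ℝ k u) (α : Fin n) :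
    ContDiff ℝ k (cxv u α) := by
  rw [cxv_eq]
  exact (cxL n α).contDiff.comp hu

theorem contDiffAt_of_cxv {u : E m → E n} {k : ℕ} {x : E m}
    (h : ∀ α, ContDiffAt ℝ k (cxv u α) x) : ContDiffAt ℝ k u x := by
  rw [contDiffAt_euclidean]
  intro α
  have : (fun y => u y α) = fun y => Complex.reCLM (cxv u α y) := by
    funext y
    simp [cxv]
  rw [this]
  exact Complex.reCLM.contDiff.contDiffAt.comp x (h α)

theorem fderiv_cxv {u : E m → E n} {y : E m} (hu : DifferentiableAt ℝ u y) (α : Fin n) :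
    fderiv ℝ (cxv u α) y = (cxL n α) ∘L fderiv ℝ u y := by
  rw [cxv_eq]
  exact ((cxL n α).hasFDerivAt.comp y hu.hasFDerivAt).fderiv

theorem pdv_cxv {u : E m → E n} (hu : ContDiff ℝ 1 u) (a : Fin m) (α : Fin n) (y : E m) :
    pdv a (cxv u α) y = ((fderiv ℝ u y (EuclideanSpace.single a 1) α : ℝ) : ℂ) := by
  unfold pdv
  rw [fderiv_cxv (hu.differentiable (by norm_num) y)]
  rfl

theorem pdv_pdv_cxv {u : E m → E n} (hu : ContDiff ℝ 2 u) (a c : Fin m) (α : Fin n) (y : E m) :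
    pdv a (pdv c (cxv u α)) y
      = ((fderiv ℝ (fderiv ℝ u) y (EuclideanSpace.single a 1) (EuclideanSpace.single c 1) α : ℝ)
          : ℂ) := by
  have h1 : ContDiff ℝ 1 u := hu.of_le (by norm_num)
  have hd : ContDiff ℝ 1 (fderiv ℝ u) := hu.fderiv_right (by norm_num)
  have hfun : pdv c (cxv u α) = fun z => cxL n α (fderiv ℝ u z (EuclideanSpace.single c 1)) := by
    funext z
    rw [pdv_cxv h1]
    rfl
  rw [hfun]
  unfold pdv
  have hD : HasFDerivAt (fun z => fderiv ℝ u z (EuclideanSpace.single c 1))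
      ((ContinuousLinearMap.apply ℝ (E n) (EuclideanSpace.single c (1:ℝ))) ∘L
        fderiv ℝ (fderiv ℝ u) y) y :=
    (ContinuousLinearMap.apply ℝ (E n) (EuclideanSpace.single c (1:ℝ))).hasFDerivAt.comp y
      (hd.differentiable (by norm_num) y).hasFDerivAt
  have hD2 : HasFDerivAt (fun z => cxL n α (fderiv ℝ u z (EuclideanSpace.single c 1)))
      ((cxL n α) ∘L ((ContinuousLinearMap.apply ℝ (E n) (EuclideanSpace.single c (1:ℝ))) ∘L
        fderiv ℝ (fderiv ℝ u) y)) y := (cxL n α).hasFDerivAt.comp y hD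
  rw [hD2.fderiv]
  rfl

theorem norm_pdv_cxv_le {u : E m → E n} (hu : ContDiff ℝ 1 u) (a : Fin m) (α : Fin n) (y : E m) :
    ‖pdv a (cxv u α) y‖ ≤ ‖fderiv ℝ u y‖ := by
  rw [pdv_cxv hu, Complex.norm_real]
  calc ‖fderiv ℝ u y (EuclideanSpace.single a 1) α‖
      ≤ ‖fderiv ℝ u y (EuclideanSpace.single a 1)‖ := PiLp.norm_apply_le _ _
    _ ≤ ‖fderiv ℝ u y‖ * ‖(EuclideanSpace.single a 1 : E m)‖ := ContinuousLinearMap.le_opNorm _ _
    _ = ‖fderiv ℝ u y‖ := by simp

/-! ### leaf L-Fit-Boot-PB -/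

/-- the real metric matrix of a linear map. -/
noncomputable def GmR (T : E m →L[ℝ] E n) : Matrix (Fin m) (Fin m) ℝ :=
  Matrix.of fun a c => (if a = c then 1 else 0)
    + ∑ α, T (EuclideanSpace.single a 1) α * T (EuclideanSpace.single c 1) α

/-- the metric operator `1 + T† T`. -/
noncomputable def gOp (T : E m →L[ℝ] E n) : E m →L[ℝ] E m :=
  ContinuousLinearMap.id ℝ (E m) + ContinuousLinearMap.adjoint T ∘L T

theorem gOp_inner (T : E m →L[ℝ] E n) (x z : E m) :
    ⟪x, gOp T z⟫ = ⟪x, z⟫ + ⟪T x, T z⟫ := by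
  simp [gOp, inner_add_right, ContinuousLinearMap.adjoint_inner_right]

theorem gOp_injective (T : E m →L[ℝ] E n) : Function.Injective (gOp T) := by
  rw [injective_iff_map_eq_zero]
  intro x hx
  have h := gOp_inner T x x
  rw [hx, inner_zero_right, real_inner_self_eq_norm_sq, real_inner_self_eq_norm_sq] at h
  have h1 : ‖x‖ ^ 2 = 0 := by nlinarith [sq_nonneg ‖x‖, sq_nonneg ‖T x‖]
  simpa using h1

theorem gOp_isInvertible (T : E m →L[ℝ] E n) : (gOp T).IsInvertible := by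
  refine ⟨(LinearEquiv.ofInjectiveEndo (gOp T : E m →ₗ[ℝ] E m) (gOp_injective T)).toContinuousLinearEquiv,
    ?_⟩
  ext x
  rfl

theorem gOp_single (T : E m →L[ℝ] E n) (c : Fin m) :
    gOp T (EuclideanSpace.single c 1) = ∑ b, GmR T b c • (EuclideanSpace.single b 1 : E m) := by
  ext b
  have h1 : (gOp T (EuclideanSpace.single c 1)) b
      = ⟪(EuclideanSpace.single b 1 : E m), gOp T (EuclideanSpace.single c 1)⟫ := by
    rw [EuclideanSpace.inner_single_left]
    simp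
  rw [h1, gOp_inner]
  have h2 : ⟪T (EuclideanSpace.single b 1), T (EuclideanSpace.single c 1)⟫
      = ∑ α, T (EuclideanSpace.single b 1) α * T (EuclideanSpace.single c 1) α := by
    rw [PiLp.inner_apply]
    refine Finset.sum_congr rfl fun α _ => ?_
    simp [mul_comm]
  have h3 : ⟪(EuclideanSpace.single b 1 : E m), (EuclideanSpace.single c 1 : E m)⟫
      = if b = c then 1 else 0 := by
    rw [EuclideanSpace.inner_single_left]
    simp
  rw [h2, h3]
  have h4 : (∑ b', GmR T b' c • (EuclideanSpace.single b' 1 : E m)) b = GmR T b c := by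
    simp [Finset.sum_apply, Pi.single_apply]
  rw [h4]
  rfl

theorem gOp_adj (T : E m →L[ℝ] E n) (a : Fin m) :
    gOp T (∑ c, (GmR T).adjugate c a • (EuclideanSpace.single c 1 : E m))
      = (GmR T).det • (EuclideanSpace.single a 1 : E m) := by
  rw [map_sum]
  simp only [map_smul, gOp_single, Finset.smul_sum, smul_smul]
  rw [Finset.sum_comm]
  have h : ∀ b, ∑ c, ((GmR T).adjugate c a * GmR T b c) • (EuclideanSpace.single b 1 : E m)
      = ((GmR T).det * (if b = a then 1 else 0)) • (EuclideanSpace.single b 1 : E m) := by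
    intro b
    rw [← Finset.sum_smul]
    congr 1
    have := congrFun (congrFun (Matrix.mul_adjugate (GmR T)) b) a
    rw [Matrix.mul_apply, Matrix.smul_apply, Matrix.one_apply] at this
    rw [← smul_eq_mul (a := (GmR T).det), ← this]
    exact Finset.sum_congr rfl fun c _ => mul_comm _ _
  simp only [h]
  simp

theorem det_smul_inverse_single (T : E m →L[ℝ] E n) (a : Fin m) :
    (GmR T).det • (gOp T).inverse (EuclideanSpace.single a 1)
      = ∑ c, (GmR T).adjugate c a • (EuclideanSpace.single c 1 : E m) := by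
  rw [← map_smul, ← gOp_adj, (gOp_isInvertible T).inverse_apply_self]

theorem Gm_cxv {u : E m → E n} (hu : ContDiff ℝ 1 u) (y : E m) :
    Gm (cxv u) y = Complex.ofRealHom.mapMatrix (GmR (fderiv ℝ u y)) := by
  ext a c
  simp only [Gm, GmR, Matrix.of_apply, pdv_cxv hu, RingHom.mapMatrix_apply, Matrix.map_apply]
  simp
  split_ifs <;> simp

theorem Ad_cxv {u : E m → E n} (hu : ContDiff ℝ 1 u) (y : E m) (a c : Fin m) :
    Ad (cxv u) y a c = (((GmR (fderiv ℝ u y)).adjugate a c : ℝ) : ℂ) := by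
  unfold Ad
  rw [Gm_cxv hu, ← RingHom.map_adjugate]
  rfl

theorem sol_of_mss {u : E m → E n} (hu : ContDiff ℝ 2 u) {O : Set (E m)}
    (h : ∀ y ∈ O, mssOp u y = 0) : Sol (cxv u) O := by
  intro y hy α
  have h1 : ContDiff ℝ 1 u := hu.of_le (by norm_num)
  simp only [Ad_cxv h1, pdv_pdv_cxv hu]
  set T := fderiv ℝ u y with hT
  set D := fderiv ℝ (fderiv ℝ u) y with hD
  have h0 : (GmR T).det • mssOp u y = 0 := by rw [h y hy, smul_zero]
  have h2 : (GmR T).det • mssOp u y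
      = ∑ a, ∑ c, (GmR T).adjugate a c • D (EuclideanSpace.single a 1) (EuclideanSpace.single c 1) := by
    unfold mssOp
    rw [Finset.smul_sum, Finset.sum_comm]
    refine Finset.sum_congr rfl fun c _ => ?_
    have := det_smul_inverse_single T c
    unfold gOp at this
    rw [← _root_.smul_apply, ← map_smul, this, map_sum, _root_.sum_apply]
    refine Finset.sum_congr rfl fun a _ => ?_
    rw [map_smul, _root_.smul_apply]
  rw [h2] at h0
  have h3 := congrArg (fun v : E n => ((v α : ℝ) : ℂ)) h0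
  simp only at h3
  have h4 : (((0 : E n) α : ℝ) : ℂ) = 0 := by simp
  rw [h4] at h3
  rw [← h3]
  simp [Finset.sum_apply]

end Claimed.Agent.R322.Fit.Boot
end

/- ===== packed: Claimed.Agent.R322.Fit.Boot.Scale ===== -/
section
/-!
# Row 322, Fit/Boot: rescaling, smallness, cutoffs, ellipticity  (architect helper137)

* `resc U x0 r α y = (U α (x0 + r y) - U α x0) / r` solves the same system; `Ad (resc U x0 r) y = Ad U (x0 + r y)`.
* `small_scale`: `|φ · F(x0 + r ·)|_{A^0} → 0` as `r ↓ 0` if `F x0 = 0`, `F ∈ C^{m+1}`, `φ ∈ C_c^∞`.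
  Route: `exists_nA_le m 0`; for `0 < r ≤ 1`, `j ≤ m+1`, `y ∈ tsupport φ ⊆ closedBall 0 R`:
  `‖D^j (φ F_r) y‖ ≤ ∑ i, C(j,i) ‖D^i φ y‖ ‖D^(j-i) F_r y‖` (`norm_iteratedFDeriv_mul_le`),
  `D^l F_r y = r^l D^l F (x0 + r y)` (`ContinuousLinearMap.iteratedFDeriv_comp_right` for `r • id`,
  `iteratedFDeriv_comp_add_left`), so `‖D^l F_r y‖ ≤ r M` for `l ≥ 1` and `‖F_r y‖ ≤ r R M` (mean value
  inequality on the segment, `F x0 = 0`), `M` = bound of `‖D^l F‖`, `l ≤ m+1`, on `closedBall x0 R` (compact).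
  Hence `∑ j, ∫ ‖D^j (φ F_r)‖ ≤ C r`.
* `exists_chain`: `ContDiffBump` with `rIn i = 1 + 1/(2i+3)`, `rOut i = 1 + 1/(2i+2)`.
* `exists_ell`: continuity of `p ↦ adjugate (1 + pᵀ p)` at `p = 0` (`Continuous.matrix_adjugate`), value `1`;
  `|∑ (A_ac - δ_ac) ξ_a ξ_c| ≤ max |A - 1| (∑ |ξ_a|)² ≤ max |A-1| m |ξ|²`.
-/

set_option autoImplicit false

open MeasureTheory Module Filter
open scoped ENNReal ContDiff Topology

namespace Claimed.Agent.R322.Fit.Boot

variable {m n : ℕ}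

/-- the rescaled components. -/
noncomputable def resc (U : Fin n → E m → ℂ) (x0 : E m) (r : ℝ) : Fin n → E m → ℂ :=
  fun α y => (r : ℂ)⁻¹ * (U α (x0 + r • y) - U α x0)

/-! ### leaf L-Fit-Boot-RA : rescaling -/

theorem contDiff_resc {U : Fin n → E m → ℂ} {k : ℕ∞} (hU : ∀ α, ContDiff ℝ k (U α)) (x0 : E m)
    (r : ℝ) (α : Fin n) : ContDiff ℝ k (resc U x0 r α) := by
  unfold resc
  have h : ContDiff ℝ k (fun y : E m => x0 + r • y) := contDiff_const.add (contDiff_id.const_smul r)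
  exact contDiff_const.mul (((hU α).comp h).sub contDiff_const)

theorem hasFDerivAt_affine (x0 : E m) (r : ℝ) (y : E m) :
    HasFDerivAt (fun y : E m => x0 + r • y) (r • ContinuousLinearMap.id ℝ (E m)) y :=
  ((hasFDerivAt_id y).const_smul r).const_add x0

/-- chain rule for `pdv` and the affine substitution. -/
theorem pdv_comp_affine {f : E m → ℂ} (x0 : E m) (r : ℝ) (y : E m)
    (hf : DifferentiableAt ℝ f (x0 + r • y)) (a : Fin m) :
    pdv a (fun y => f (x0 + r • y)) y = (r : ℂ) * pdv a f (x0 + r • y) := by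
  unfold pdv
  have h : HasFDerivAt (fun y => f (x0 + r • y))
      ((fderiv ℝ f (x0 + r • y)) ∘L (r • ContinuousLinearMap.id ℝ (E m))) y :=
    hf.hasFDerivAt.comp y (hasFDerivAt_affine x0 r y)
  rw [h.fderiv]
  simp

theorem pdv_resc {U : Fin n → E m → ℂ} (hU : ∀ α, ContDiff ℝ 1 (U α)) (x0 : E m) {r : ℝ}
    (hr : r ≠ 0) (a : Fin m) (α : Fin n) (y : E m) :
    pdv a (resc U x0 r α) y = pdv a (U α) (x0 + r • y) := by
  have hd : DifferentiableAt ℝ (U α) (x0 + r • y) := (hU α).differentiable (by norm_num) _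
  have h1 : DifferentiableAt ℝ (fun y => U α (x0 + r • y)) y :=
    hd.comp y (hasFDerivAt_affine x0 r y).differentiableAt
  have h2 : pdv a (resc U x0 r α) y = (r : ℂ)⁻¹ * pdv a (fun y => U α (x0 + r • y)) y := by
    unfold resc pdv
    rw [fderiv_const_mul (h1.sub_const _), fderiv_sub_const]
    rfl
  rw [h2, pdv_comp_affine x0 r y hd, ← mul_assoc, inv_mul_cancel₀ (by exact_mod_cast hr), one_mul]

theorem pdv_pdv_resc {U : Fin n → E m → ℂ} (hU : ∀ α, ContDiff ℝ 2 (U α)) (x0 : E m) {r : ℝ}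
    (hr : r ≠ 0) (a c : Fin m) (α : Fin n) (y : E m) :
    pdv a (pdv c (resc U x0 r α)) y = (r : ℂ) * pdv a (pdv c (U α)) (x0 + r • y) := by
  have h1 : ∀ α, ContDiff ℝ 1 (U α) := fun α => (hU α).of_le (by norm_num)
  have h2 : pdv c (resc U x0 r α) = fun y => pdv c (U α) (x0 + r • y) :=
    funext fun y => pdv_resc h1 x0 hr c α y
  rw [h2]
  exact pdv_comp_affine x0 r y
    ((contDiff_pdv (k := 1) (by exact_mod_cast hU α) c).differentiable (by norm_num) _) a

theorem Ad_resc {U : Fin n → E m → ℂ} (hU : ∀ α, ContDiff ℝ 1 (U α)) (x0 : E m) {r : ℝ}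
    (hr : r ≠ 0) (y : E m) : Ad (resc U x0 r) y = Ad U (x0 + r • y) := by
  unfold Ad Gm
  simp only [pdv_resc hU x0 hr]

theorem Sol.resc {U : Fin n → E m → ℂ} {O O' : Set (E m)} (h : Sol U O)
    (hU : ∀ α, ContDiff ℝ 2 (U α)) (x0 : E m) {r : ℝ} (hr : r ≠ 0)
    (hsub : ∀ y ∈ O', x0 + r • y ∈ O) : Sol (resc U x0 r) O' := by
  intro y hy α
  have h1 : ∀ α, ContDiff ℝ 1 (U α) := fun α => (hU α).of_le (by norm_num)
  simp only [Ad_resc h1 x0 hr, pdv_pdv_resc hU x0 hr]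
  have := h _ (hsub y hy) α
  calc ∑ a, ∑ c, Ad U (x0 + r • y) a c * ((r : ℂ) * pdv a (pdv c (U α)) (x0 + r • y))
      = (r : ℂ) * ∑ a, ∑ c, Ad U (x0 + r • y) a c * pdv a (pdv c (U α)) (x0 + r • y) := by
        simp only [Finset.mul_sum]
        refine Finset.sum_congr rfl fun a _ => Finset.sum_congr rfl fun c _ => by ring
    _ = 0 := by rw [this, mul_zero]

theorem contDiffAt_of_resc {U : Fin n → E m → ℂ} (x0 : E m) {r : ℝ} (hr : r ≠ 0) (α : Fin n)
    {K : ℕ} (h : ContDiffAt ℝ K (resc U x0 r α) 0) : ContDiffAt ℝ K (U α) x0 := by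
  have hr' : (r : ℂ) ≠ 0 := by exact_mod_cast hr
  have h1 : U α = fun z => U α x0 + (r : ℂ) * resc U x0 r α (r⁻¹ • (z - x0)) := by
    funext z
    unfold resc
    rw [smul_smul, mul_inv_cancel₀ hr, one_smul, ← mul_assoc, mul_inv_cancel₀ hr', one_mul]
    simp
  rw [h1]
  have h2 : ContDiffAt ℝ K (fun z : E m => r⁻¹ • (z - x0)) x0 :=
    ((contDiff_id.sub contDiff_const).const_smul r⁻¹).contDiffAt
  have h3 : ContDiffAt ℝ K (resc U x0 r α) (r⁻¹ • (x0 - x0)) := by
    rw [sub_self, smul_zero]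
    exact h
  have h4 : ContDiffAt ℝ K (fun z : E m => resc U x0 r α (r⁻¹ • (z - x0))) x0 :=
    ContDiffAt.comp (g := resc U x0 r α) (f := fun z : E m => r⁻¹ • (z - x0)) x0 h3 h2
  exact contDiffAt_const.add (contDiffAt_const.mul h4)

/-- the algebra of `C^k` functions. -/
def cdA (m k : ℕ) : Subalgebra ℂ (E m → ℂ) where
  carrier := {F | ContDiff ℝ k F}
  mul_mem' := by
    intro F G hF hG
    exact ContDiff.mul (𝕜 := ℝ) (n := k) hF hG
  add_mem' := by
    intro F G hF hG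
    exact ContDiff.add (𝕜 := ℝ) (n := k) hF hG
  algebraMap_mem' := by
    intro c
    exact (contDiff_const : ContDiff ℝ k (fun _ : E m => c))

theorem contDiff_Ad {U : Fin n → E m → ℂ} {k : ℕ} (hU : ∀ α, ContDiff ℝ (k + 1 : ℕ) (U α))
    (a c : Fin m) : ContDiff ℝ k (fun y => Ad U y a c) := by
  refine adjugate_mem (cdA m k)
    (fun a c y => (if a = c then 1 else 0) + ∑ β, pdv a (U β) y * pdv c (U β) y)
    (fun a c => ?_) a c
  show ContDiff ℝ k _
  exact contDiff_const.add (ContDiff.sum fun β _ =>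
    (contDiff_pdv (hU β) a).mul (contDiff_pdv (hU β) c))

/-! ### leaf L-Fit-Boot-RB : smallness -/

theorem norm_iteratedFDeriv_affine_le {F : E m → ℂ} {N : ℕ} (hF : ContDiff ℝ N F) (x0 : E m)
    (r : ℝ) (y : E m) {l : ℕ} (hl : l ≤ N) :
    ‖iteratedFDeriv ℝ l (fun y => F (x0 + r • y)) y‖
      ≤ |r| ^ l * ‖iteratedFDeriv ℝ l F (x0 + r • y)‖ := by
  have h1 : ContDiff ℝ N (fun z => F (x0 + z)) := hF.comp (contDiff_const.add contDiff_id)
  have h2 := ContinuousLinearMap.iteratedFDeriv_comp_right (r • ContinuousLinearMap.id ℝ (E m)) h1 y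
    (i := l) (by exact_mod_cast hl)
  have h3 : ((fun z => F (x0 + z)) ∘ (r • ContinuousLinearMap.id ℝ (E m)))
      = fun y => F (x0 + r • y) := by
    funext z
    simp
  rw [h3] at h2
  rw [h2, iteratedFDeriv_comp_add_left]
  refine (ContinuousMultilinearMap.norm_compContinuousLinearMap_le _ _).trans ?_
  have h4 : ‖r • ContinuousLinearMap.id ℝ (E m)‖ ≤ |r| := by
    rw [norm_smul, Real.norm_eq_abs]
    calc |r| * ‖ContinuousLinearMap.id ℝ (E m)‖ ≤ |r| * 1 :=
          mul_le_mul_of_nonneg_left ContinuousLinearMap.norm_id_le (abs_nonneg r)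
      _ = |r| := mul_one _
  have h5 : ∏ _i : Fin l, ‖r • ContinuousLinearMap.id ℝ (E m)‖ ≤ |r| ^ l := by
    rw [Finset.prod_const, Finset.card_univ, Fintype.card_fin]
    exact pow_le_pow_left₀ (norm_nonneg _) h4 l
  have h6 : (r • ContinuousLinearMap.id ℝ (E m)) y = r • y := by simp
  rw [h6, mul_comm]
  exact mul_le_mul_of_nonneg_right h5 (norm_nonneg _)

theorem small_scale (φ F : E m → ℂ) (hφ : ContDiff ℝ ∞ φ) (hφs : HasCompactSupport φ)
    (hF : ContDiff ℝ ((m + 1 : ℕ) : ℕ∞) F) (x0 : E m) (hF0 : F x0 = 0) :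
    Tendsto (fun r : ℝ => nA 0 (fun y => φ y * F (x0 + r • y))) (𝓝[>] 0) (𝓝 0) := by
  obtain ⟨C, hC0, hC⟩ := exists_nA_le m 0
  set N : ℕ := m + 1 with hN
  have hF' : ContDiff ℝ N F := hF
  have hφN : ContDiff ℝ N φ := hφ.of_le (by exact_mod_cast le_top)
  have hN1 : 1 ≤ N := by omega
  -- radius
  obtain ⟨R, hR0, hR⟩ : ∃ R : ℝ, 0 < R ∧ tsupport φ ⊆ Metric.closedBall 0 R := by
    obtain ⟨R, hR⟩ := hφs.isCompact.isBounded.subset_closedBall 0
    exact ⟨max R 1, by positivity,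
      hR.trans (Metric.closedBall_subset_closedBall (le_max_left _ _))⟩
  -- derivatives of `φ`
  obtain ⟨P, hP0, hP⟩ : ∃ P : ℝ, 0 ≤ P ∧ ∀ i ≤ N, ∀ y, ‖iteratedFDeriv ℝ i φ y‖ ≤ P := by
    have h1 : ∀ i : ℕ, ∃ P : ℝ, ∀ y, ‖iteratedFDeriv ℝ i φ y‖ ≤ P := by
      intro i
      exact (hφ.continuous_iteratedFDeriv (by exact_mod_cast le_top)).bounded_above_of_compact_support
        (hφs.iteratedFDeriv i)
    choose P hP using h1
    refine ⟨∑ i ∈ Finset.range (N + 1), |P i|, Finset.sum_nonneg fun _ _ => abs_nonneg _,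
      fun i hi y => ?_⟩
    exact ((hP i y).trans (le_abs_self _)).trans
      (Finset.single_le_sum (f := fun i => |P i|) (fun _ _ => abs_nonneg _)
        (Finset.mem_range.mpr (by omega)))
  -- derivatives of `F` on the compact ball
  obtain ⟨M, hM0, hM⟩ : ∃ M : ℝ, 0 ≤ M ∧ ∀ l ≤ N, ∀ z ∈ Metric.closedBall x0 R,
      ‖iteratedFDeriv ℝ l F z‖ ≤ M := by
    have h1 : ∀ l : ℕ, ∃ M : ℝ, l ≤ N → ∀ z ∈ Metric.closedBall x0 R,
        ‖iteratedFDeriv ℝ l F z‖ ≤ M := by
      intro l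
      by_cases hl : l ≤ N
      · obtain ⟨M, hM⟩ := (isCompact_closedBall x0 R).exists_bound_of_continuousOn
          (hF'.continuous_iteratedFDeriv (m := l) (by exact_mod_cast hl)).continuousOn
        exact ⟨M, fun _ => hM⟩
      · exact ⟨0, fun h => absurd h hl⟩
    choose M hM using h1
    refine ⟨∑ i ∈ Finset.range (N + 1), |M i|, Finset.sum_nonneg fun _ _ => abs_nonneg _,
      fun l hl z hz => ?_⟩
    exact ((hM l hl z hz).trans (le_abs_self _)).trans
      (Finset.single_le_sum (f := fun i => |M i|) (fun _ _ => abs_nonneg _)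
        (Finset.mem_range.mpr (by omega)))
  -- the rescaled function
  have hmem : ∀ r : ℝ, 0 < r → r ≤ 1 → ∀ y ∈ Metric.closedBall (0 : E m) R,
      x0 + r • y ∈ Metric.closedBall x0 R := by
    intro r hr0 hr1 y hy
    rw [mem_closedBall_zero_iff] at hy
    rw [Metric.mem_closedBall, dist_eq_norm, add_sub_cancel_left, norm_smul, Real.norm_eq_abs,
      abs_of_pos hr0]
    calc r * ‖y‖ ≤ 1 * R := mul_le_mul hr1 hy (norm_nonneg _) zero_le_one
      _ = R := one_mul R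
  have hG : ∀ r : ℝ, 0 < r → r ≤ 1 → ∀ y ∈ Metric.closedBall (0 : E m) R, ∀ l ≤ N,
      ‖iteratedFDeriv ℝ l (fun y => F (x0 + r • y)) y‖ ≤ M * (1 + R) * r := by
    intro r hr0 hr1 y hy l hl
    have hz := hmem r hr0 hr1 y hy
    rcases Nat.eq_zero_or_pos l with rfl | hl0
    · rw [norm_iteratedFDeriv_zero]
      have h1 := (convex_closedBall x0 R).norm_image_sub_le_of_norm_fderiv_le (𝕜 := ℝ) (f := F)
        (C := M) (fun z _ => hF'.differentiable (by exact_mod_cast (by omega : N ≠ 0)) z)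
        (fun z hz => by rw [← norm_iteratedFDeriv_one]; exact hM 1 hN1 z hz)
        (Metric.mem_closedBall_self hR0.le) hz
      rw [hF0, sub_zero, add_sub_cancel_left, norm_smul, Real.norm_eq_abs, abs_of_pos hr0] at h1
      rw [mem_closedBall_zero_iff] at hy
      calc ‖F (x0 + r • y)‖ ≤ M * (r * ‖y‖) := h1
        _ ≤ M * (r * (1 + R)) := by gcongr; linarith
        _ = M * (1 + R) * r := by ring
    · refine (norm_iteratedFDeriv_affine_le hF' x0 r y hl).trans ?_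
      rw [abs_of_pos hr0]
      have h1 : r ^ l ≤ r := by
        calc r ^ l ≤ r ^ 1 := pow_le_pow_of_le_one hr0.le hr1 hl0
          _ = r := pow_one r
      calc r ^ l * ‖iteratedFDeriv ℝ l F (x0 + r • y)‖ ≤ r * M :=
            mul_le_mul h1 (hM l hl _ hz) (norm_nonneg _) hr0.le
        _ ≤ M * (1 + R) * r := by nlinarith [mul_nonneg (mul_nonneg hM0 hR0.le) hr0.le]
  have hGc : ∀ r : ℝ, ContDiff ℝ N (fun y => F (x0 + r • y)) := fun r =>
    hF'.comp (contDiff_const.add (contDiff_id.const_smul r))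
  set V : ℝ := (volume : Measure (E m)).real (Metric.closedBall 0 R) with hV
  have hV0 : 0 ≤ V := measureReal_nonneg
  have hint : ∀ r : ℝ, 0 < r → r ≤ 1 → ∀ j ≤ N,
      ∫ y, ‖iteratedFDeriv ℝ j (fun y => φ y * F (x0 + r • y)) y‖
        ≤ 2 ^ N * P * (M * (1 + R)) * V * r := by
    intro r hr0 hr1 j hj
    have hzero : ∀ y, y ∉ Metric.closedBall (0 : E m) R →
        ‖iteratedFDeriv ℝ j (fun y => φ y * F (x0 + r • y)) y‖ = 0 := by
      intro y hy
      rw [norm_eq_zero]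
      by_contra hne
      exact hy (hR (tsupport_mul_subset_left (support_iteratedFDeriv_subset (𝕜 := ℝ) j hne)))
    rw [← setIntegral_eq_integral_of_forall_compl_eq_zero hzero]
    have hb : ∀ y ∈ Metric.closedBall (0 : E m) R,
        ‖‖iteratedFDeriv ℝ j (fun y => φ y * F (x0 + r • y)) y‖‖
          ≤ 2 ^ N * P * (M * (1 + R)) * r := by
      intro y hy
      rw [norm_norm]
      refine (norm_iteratedFDeriv_mul_le hφN (hGc r) y (n := j) (by exact_mod_cast hj)).trans ?_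
      calc ∑ i ∈ Finset.range (j + 1), (j.choose i : ℝ) * ‖iteratedFDeriv ℝ i φ y‖
              * ‖iteratedFDeriv ℝ (j - i) (fun y => F (x0 + r • y)) y‖
          ≤ ∑ i ∈ Finset.range (j + 1), (j.choose i : ℝ) * P * (M * (1 + R) * r) := by
            refine Finset.sum_le_sum fun i hi => ?_
            have hi' : i ≤ N := by have := Finset.mem_range.mp hi; omega
            exact mul_le_mul (mul_le_mul_of_nonneg_left (hP i hi' y) (Nat.cast_nonneg _))
              (hG r hr0 hr1 y hy (j - i) (by omega)) (norm_nonneg _)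
              (mul_nonneg (Nat.cast_nonneg _) hP0)
        _ = (2 : ℝ) ^ j * P * (M * (1 + R) * r) := by
            rw [← Finset.sum_mul, ← Finset.sum_mul]
            congr 2
            exact_mod_cast Nat.sum_range_choose j
        _ ≤ (2 : ℝ) ^ N * P * (M * (1 + R) * r) := by
            have : (2 : ℝ) ^ j ≤ 2 ^ N := pow_le_pow_right₀ (by norm_num) hj
            gcongr
        _ = _ := by ring
    have h2 := norm_setIntegral_le_of_norm_le_const (μ := (volume : Measure (E m)))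
      (s := Metric.closedBall (0 : E m) R) measure_closedBall_lt_top hb
    calc ∫ y in Metric.closedBall (0 : E m) R,
          ‖iteratedFDeriv ℝ j (fun y => φ y * F (x0 + r • y)) y‖
        ≤ ‖∫ y in Metric.closedBall (0 : E m) R,
          ‖iteratedFDeriv ℝ j (fun y => φ y * F (x0 + r • y)) y‖‖ := le_abs_self _
      _ ≤ 2 ^ N * P * (M * (1 + R)) * r * V := h2
      _ = _ := by ring
  set K : ℝ := ((N : ℝ) + 1) * (2 ^ N * P * (M * (1 + R)) * V) with hK
  have hlim : Tendsto (fun r : ℝ => ENNReal.ofReal (C * (K * r))) (𝓝[>] 0) (𝓝 0) := by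
    have h1 : Tendsto (fun r : ℝ => ENNReal.ofReal (C * (K * r))) (𝓝 0)
        (𝓝 (ENNReal.ofReal (C * (K * 0)))) :=
      (ENNReal.continuous_ofReal.comp (by fun_prop : Continuous fun r : ℝ => C * (K * r))).tendsto 0
    rw [mul_zero, mul_zero, ENNReal.ofReal_zero] at h1
    exact h1.mono_left nhdsWithin_le_nhds
  refine tendsto_of_tendsto_of_tendsto_of_le_of_le' tendsto_const_nhds hlim
    (Eventually.of_forall fun _ => bot_le) ?_
  filter_upwards [Ioc_mem_nhdsGT (zero_lt_one' ℝ)] with r hr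
  obtain ⟨hr0, hr1⟩ := hr
  have hcd : ContDiff ℝ (0 + m + 1 : ℕ) (fun y => φ y * F (x0 + r • y)) := by
    have : 0 + m + 1 = N := by omega
    rw [this]
    exact hφN.mul (hGc r)
  refine (hC _ hcd hφs.mul_right).trans (ENNReal.ofReal_le_ofReal ?_)
  refine mul_le_mul_of_nonneg_left ?_ hC0
  calc ∑ j ∈ Finset.range (0 + m + 2), ∫ y, ‖iteratedFDeriv ℝ j (fun y => φ y * F (x0 + r • y)) y‖
      ≤ ∑ _j ∈ Finset.range (0 + m + 2), 2 ^ N * P * (M * (1 + R)) * V * r :=
        Finset.sum_le_sum fun j hj => hint r hr0 hr1 j (by have := Finset.mem_range.mp hj; omega)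
    _ = K * r := by
        rw [Finset.sum_const, Finset.card_range, nsmul_eq_mul, hK, hN]
        push_cast
        ring

/-! ### leaf L-Fit-Boot-RC : cutoffs and ellipticity -/

/-- the bump functions of the chain. -/
noncomputable def chainBump (m i : ℕ) : ContDiffBump (0 : E m) where
  rIn := 1 + 1 / (2 * (i : ℝ) + 3)
  rOut := 1 + 1 / (2 * (i : ℝ) + 2)
  rIn_pos := by positivity
  rIn_lt_rOut := by
    have h1 : (0 : ℝ) < 2 * (i : ℝ) + 2 := by positivity
    have h2 : 2 * (i : ℝ) + 2 < 2 * (i : ℝ) + 3 := by linarith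
    have := one_div_lt_one_div_of_lt h1 h2
    linarith

theorem exists_chain (m : ℕ) : ∃ χ : ℕ → E m → ℂ, (∀ i, ContDiff ℝ ∞ (χ i)) ∧
    (∀ i, HasCompactSupport (χ i)) ∧ (∀ i, tsupport (χ i) ⊆ Metric.ball 0 2) ∧
    (∀ i, ∀ y ∈ tsupport (χ (i + 1)), χ i =ᶠ[𝓝 y] 1) ∧
    (∀ i, ∀ y ∈ Metric.ball (0 : E m) 1, χ i y = 1) := by
  have hts : ∀ i, tsupport (fun y => ((chainBump m i y : ℝ) : ℂ))
      ⊆ Metric.closedBall 0 (1 + 1 / (2 * (i : ℝ) + 2)) := by
    intro i
    have h1 : tsupport (fun y => ((chainBump m i y : ℝ) : ℂ)) ⊆ tsupport (chainBump m i) :=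
      tsupport_comp_subset (g := fun t : ℝ => (t : ℂ)) (by simp) _
    rw [(chainBump m i).tsupport_eq] at h1
    exact h1
  refine ⟨fun i y => ((chainBump m i y : ℝ) : ℂ), fun i => ?_, fun i => ?_, fun i => ?_,
    fun i y hy => ?_, fun i y hy => ?_⟩
  · exact Complex.ofRealCLM.contDiff.comp (chainBump m i).contDiff
  · exact (chainBump m i).hasCompactSupport.comp_left (g := fun t : ℝ => (t : ℂ)) (by simp)
  · refine (hts i).trans (Metric.closedBall_subset_ball ?_)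
    have h1 : (1 : ℝ) / (2 * (i : ℝ) + 2) ≤ 1 / 2 :=
      one_div_le_one_div_of_le (by norm_num) (by have : (0 : ℝ) ≤ i := Nat.cast_nonneg i; linarith)
    linarith
  · have h1 := hts (i + 1) hy
    have h2 : y ∈ Metric.ball (0 : E m) (1 + 1 / (2 * (i : ℝ) + 3)) := by
      rw [Metric.mem_closedBall] at h1
      rw [Metric.mem_ball]
      refine h1.trans_lt ?_
      have h3 : (0 : ℝ) < 2 * (i : ℝ) + 3 := by positivity
      have h4 : 2 * (i : ℝ) + 3 < 2 * ((i + 1 : ℕ) : ℝ) + 2 := by push_cast; linarith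
      have := one_div_lt_one_div_of_lt h3 h4
      linarith
    filter_upwards [Metric.isOpen_ball.mem_nhds h2] with z hz
    have : chainBump m i z = 1 :=
      (chainBump m i).one_of_mem_closedBall (Metric.ball_subset_closedBall hz)
    simp [this]
  · have : chainBump m i y = 1 := by
      refine (chainBump m i).one_of_mem_closedBall ?_
      rw [Metric.mem_ball] at hy
      rw [Metric.mem_closedBall]
      have h3 : (0 : ℝ) ≤ 1 / (2 * (i : ℝ) + 3) := by positivity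
      show dist y 0 ≤ 1 + 1 / (2 * (i : ℝ) + 3)
      linarith
    simp [this]

theorem exists_ell (m n : ℕ) : ∃ ε₀ : ℝ, 0 < ε₀ ∧ ∀ p : Fin n → Fin m → ℂ,
    (∀ α a, ‖p α a‖ ≤ ε₀) → ∀ ξ : E m, 1 / 2 * ‖ξ‖ ^ 2 ≤
      ‖∑ a, ∑ c, (Matrix.adjugate (Matrix.of fun a c : Fin m =>
        (if a = c then (1 : ℂ) else 0) + ∑ α, p α a * p α c)) a c
          * ((ξ a : ℝ) : ℂ) * ((ξ c : ℝ) : ℂ)‖ := by
  set Φ : (Fin n → Fin m → ℂ) → Matrix (Fin m) (Fin m) ℂ := fun p =>
    Matrix.adjugate (Matrix.of fun a c : Fin m =>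
      (if a = c then (1 : ℂ) else 0) + ∑ α, p α a * p α c) with hΦ
  have hcont : Continuous Φ := by
    apply Continuous.matrix_adjugate
    apply continuous_matrix
    intro a c
    simp only [Matrix.of_apply]
    fun_prop
  have h0 : Φ 0 = 1 := by
    have : (Matrix.of fun a c : Fin m => (if a = c then (1 : ℂ) else 0)
        + ∑ α : Fin n, (0 : Fin n → Fin m → ℂ) α a * (0 : Fin n → Fin m → ℂ) α c) = 1 := by
      ext a c
      simp [Matrix.one_apply]
    simp only [hΦ, this, Matrix.adjugate_one]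
  set η : ℝ := 1 / (2 * ((m : ℝ) ^ 2 + 1)) with hηdef
  have hη : 0 < η := by positivity
  have hev : ∀ a c, ∀ᶠ p in 𝓝 (0 : Fin n → Fin m → ℂ),
      ‖Φ p a c - (1 : Matrix (Fin m) (Fin m) ℂ) a c‖ < η := by
    intro a c
    have hc : Continuous fun p => Φ p a c := hcont.matrix_elem a c
    have h1 := hc.tendsto 0
    rw [h0] at h1
    have h2 := Metric.tendsto_nhds.mp h1 η hη
    simpa [dist_eq_norm] using h2
  have hev' : ∀ᶠ p in 𝓝 (0 : Fin n → Fin m → ℂ), ∀ a c,
      ‖Φ p a c - (1 : Matrix (Fin m) (Fin m) ℂ) a c‖ < η := by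
    rw [eventually_all]
    intro a
    rw [eventually_all]
    exact hev a
  obtain ⟨ε, hε, hball⟩ := Metric.eventually_nhds_iff_ball.mp hev'
  refine ⟨ε / 2, by positivity, fun p hp ξ => ?_⟩
  have hpb : p ∈ Metric.ball (0 : Fin n → Fin m → ℂ) ε := by
    rw [mem_ball_zero_iff]
    calc ‖p‖ ≤ ε / 2 := (pi_norm_le_iff_of_nonneg (by positivity)).mpr fun α =>
          (pi_norm_le_iff_of_nonneg (by positivity)).mpr (hp α)
      _ < ε := by linarith
  have hΦp := hball p hpb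
  show 1 / 2 * ‖ξ‖ ^ 2 ≤ ‖∑ a, ∑ c, Φ p a c * ((ξ a : ℝ) : ℂ) * ((ξ c : ℝ) : ℂ)‖
  set B : ℂ := ∑ a, ∑ c, (Φ p a c - (1 : Matrix (Fin m) (Fin m) ℂ) a c)
    * ((ξ a : ℝ) : ℂ) * ((ξ c : ℝ) : ℂ) with hB
  have hone : ∑ a, ∑ c, (1 : Matrix (Fin m) (Fin m) ℂ) a c * ((ξ a : ℝ) : ℂ) * ((ξ c : ℝ) : ℂ)
      = ((‖ξ‖ ^ 2 : ℝ) : ℂ) := by
    rw [EuclideanSpace.norm_sq_eq]
    push_cast
    refine Finset.sum_congr rfl fun a _ => ?_
    have h5 : ((‖ξ a‖ : ℝ) : ℂ) ^ 2 = ((ξ a : ℝ) : ℂ) * ((ξ a : ℝ) : ℂ) := by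
      rw [← Complex.ofReal_pow, Real.norm_eq_abs, sq_abs, sq, Complex.ofReal_mul]
    rw [h5]
    simp [Matrix.one_apply]
  have hsum : ∑ a, ∑ c, Φ p a c * ((ξ a : ℝ) : ℂ) * ((ξ c : ℝ) : ℂ)
      = ((‖ξ‖ ^ 2 : ℝ) : ℂ) + B := by
    rw [← hone, hB, ← Finset.sum_add_distrib]
    refine Finset.sum_congr rfl fun a _ => ?_
    rw [← Finset.sum_add_distrib]
    refine Finset.sum_congr rfl fun c _ => ?_
    ring
  have hBle : ‖B‖ ≤ 1 / 2 * ‖ξ‖ ^ 2 := by
    have h1 : ∀ a c, ‖(Φ p a c - (1 : Matrix (Fin m) (Fin m) ℂ) a c)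
        * ((ξ a : ℝ) : ℂ) * ((ξ c : ℝ) : ℂ)‖ ≤ η * ‖ξ‖ ^ 2 := by
      intro a c
      rw [norm_mul, norm_mul, Complex.norm_real, Complex.norm_real, mul_assoc, sq]
      exact mul_le_mul (hΦp a c).le
        (mul_le_mul (abs_apply_le_norm ξ a) (abs_apply_le_norm ξ c) (norm_nonneg _) (norm_nonneg _))
        (by positivity) hη.le
    calc ‖B‖ ≤ ∑ a : Fin m, ∑ c : Fin m, η * ‖ξ‖ ^ 2 :=
          (norm_sum_le _ _).trans (Finset.sum_le_sum fun a _ =>
            (norm_sum_le _ _).trans (Finset.sum_le_sum fun c _ => h1 a c))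
      _ = ((m : ℝ) ^ 2 * η) * ‖ξ‖ ^ 2 := by
          simp only [Finset.sum_const, Finset.card_univ, Fintype.card_fin, nsmul_eq_mul]
          ring
      _ ≤ 1 / 2 * ‖ξ‖ ^ 2 := by
          refine mul_le_mul_of_nonneg_right ?_ (by positivity)
          rw [hηdef, mul_one_div, div_le_iff₀ (by positivity)]
          nlinarith [sq_nonneg (m : ℝ)]
  rw [hsum]
  have h2 : ‖((‖ξ‖ ^ 2 : ℝ) : ℂ)‖ = ‖ξ‖ ^ 2 := by
    rw [Complex.norm_real, Real.norm_of_nonneg (by positivity)]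
  have h3 : ‖((‖ξ‖ ^ 2 : ℝ) : ℂ)‖ ≤ ‖((‖ξ‖ ^ 2 : ℝ) : ℂ) + B‖ + ‖B‖ := by
    have := norm_sub_le (((‖ξ‖ ^ 2 : ℝ) : ℂ) + B) B
    simpa using this
  rw [h2] at h3
  linarith

end Claimed.Agent.R322.Fit.Boot
end

/- ===== packed: Claimed.Agent.R322.Tool.WhitneyPf ===== -/
section
/-!
# Proof of the Whitney partition of unity `Tool.whitney_pou` (helper238)

Cells: grid points `whX m c (j, κ)` of the scale `c 2^j / 8` with `2^(j-1) ≤ t < 2^(j+2)` (`WhSel`); raw bumps `whB`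
(dilates of one profile `whP`), their sum `whS` (locally finite on `{t > 0}`, `≥ 1` there), normalised bumps `whChi`.
Reusable: `wh_quot` (scale invariant derivative bounds of a quotient), `wh_scale`, `wh_overlap_sum`.
-/

set_option autoImplicit false
open scoped ContDiff ENNReal Nat Topology
open MeasureTheory

namespace Claimed.Agent.R322.Tool

/-- derivatives of the inverse at points `≥ 1`. -/
theorem wh_inv_bound (i : ℕ) {s : ℝ} (hs : 1 ≤ s) :
    ‖iteratedFDerivWithin ℝ i (Inv.inv : ℝ → ℝ) {0}ᶜ s‖ ≤ i ! := by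
  have hopen : IsOpen ({0}ᶜ : Set ℝ) := isOpen_compl_singleton
  have hmem : s ∈ ({0}ᶜ : Set ℝ) := by
    simp only [Set.mem_compl_iff, Set.mem_singleton_iff]
    linarith
  rw [iteratedFDerivWithin_of_isOpen i hopen hmem, norm_iteratedFDeriv_eq_norm_iteratedDeriv,
    iteratedDeriv_eq_iterate, iter_deriv_inv, norm_mul, norm_mul, norm_pow, norm_neg, norm_one,
    one_pow, one_mul, Real.norm_natCast]
  have h1 : ‖s ^ (-1 - (i : ℤ))‖ ≤ 1 := by
    rw [Real.norm_eq_abs, abs_of_pos (zpow_pos (by linarith) _)]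
    exact zpow_le_one_of_nonpos₀ hs (by omega)
  calc (i ! : ℝ) * ‖s ^ (-1 - (i : ℤ))‖ ≤ (i ! : ℝ) * 1 :=
        mul_le_mul_of_nonneg_left h1 (by positivity)
    _ = i ! := mul_one _

/-- scale invariant bound for the derivatives of a quotient -/
theorem wh_quot (m J : ℕ) (A : ℝ) (hA : 1 ≤ A) : ∃ C : ℝ, 0 < C ∧
    ∀ (U : Set (E m)) (f S : E m → ℝ) (y : E m) (D : ℝ), IsOpen U → y ∈ U → 0 ≤ D →
      ContDiffOn ℝ ∞ f U → ContDiffOn ℝ ∞ S U → (∀ z ∈ U, 1 ≤ S z) →
      (∀ i ≤ J, ‖iteratedFDeriv ℝ i f y‖ ≤ A * D ^ i) →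
      (∀ i ≤ J, ‖iteratedFDeriv ℝ i S y‖ ≤ A * D ^ i) →
      ∀ n ≤ J, ‖iteratedFDeriv ℝ n (fun z => f z / S z) y‖ ≤ C * D ^ n := by
  have hA0 : 0 < A := by linarith
  set G : ℝ := (J ! : ℝ) * (J ! : ℝ) * A ^ J with hG
  have hG0 : 0 < G := by positivity
  refine ⟨2 ^ J * (A * G), by positivity, ?_⟩
  intro U f S y D hU hy hD hf hS hS1 hfb hSb n hn
  have hUd : UniqueDiffOn ℝ U := hU.uniqueDiffOn
  have hmaps : Set.MapsTo S U ({0}ᶜ : Set ℝ) := by
    intro z hz
    have := hS1 z hz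
    simp only [Set.mem_compl_iff, Set.mem_singleton_iff]
    linarith
  have hh : ContDiffOn ℝ ∞ ((Inv.inv : ℝ → ℝ) ∘ S) U :=
    ContDiffOn.comp (contDiffOn_inv (𝕜 := ℝ) (𝕜' := ℝ)) hS hmaps
  have hhb : ∀ k ≤ J, ‖iteratedFDerivWithin ℝ k ((Inv.inv : ℝ → ℝ) ∘ S) U y‖ ≤ G * D ^ k := by
    intro k hk
    have h1 := norm_iteratedFDerivWithin_comp_le (𝕜 := ℝ) (g := (Inv.inv : ℝ → ℝ)) (f := S) (n := k)
      (s := U) (t := ({0}ᶜ : Set ℝ)) (x := y) (N := ∞) (C := (J ! : ℝ)) (D := A * D)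
      (contDiffOn_inv ℝ) hS (by exact_mod_cast le_top)
      isOpen_compl_singleton.uniqueDiffOn hUd hmaps hy
      (fun i hi => (wh_inv_bound i (hS1 y hy)).trans
        (by exact_mod_cast Nat.factorial_le (hi.trans hk)))
      (fun i hi1 hi => by
        rw [iteratedFDerivWithin_of_isOpen i hU hy]
        refine (hSb i (hi.trans hk)).trans ?_
        rw [mul_pow]
        apply mul_le_mul_of_nonneg_right _ (by positivity)
        exact le_self_pow₀ hA (by omega))
    refine h1.trans ?_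
    rw [mul_pow, hG]
    have h2 : (k ! : ℝ) ≤ J ! := by exact_mod_cast Nat.factorial_le hk
    have h3 : A ^ k ≤ A ^ J := pow_le_pow_right₀ hA hk
    have h4 : (k ! : ℝ) * (J ! : ℝ) * A ^ k ≤ (J ! : ℝ) * (J ! : ℝ) * A ^ J := by
      apply mul_le_mul _ h3 (by positivity) (by positivity)
      exact mul_le_mul_of_nonneg_right h2 (by positivity)
    calc (k ! : ℝ) * (J ! : ℝ) * (A ^ k * D ^ k) = ((k ! : ℝ) * (J ! : ℝ) * A ^ k) * D ^ k := by ring
      _ ≤ ((J ! : ℝ) * (J ! : ℝ) * A ^ J) * D ^ k :=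
        mul_le_mul_of_nonneg_right h4 (by positivity)
  have h1 := norm_iteratedFDerivWithin_mul_le hf hh hUd hy (n := n) (by exact_mod_cast le_top)
  have e : (fun z => f z / S z) = fun z => f z * ((Inv.inv : ℝ → ℝ) ∘ S) z := by
    funext z
    simp [div_eq_mul_inv]
  rw [e, ← iteratedFDerivWithin_of_isOpen n hU hy]
  refine h1.trans ?_
  have h2 : ∀ i ∈ Finset.range (n + 1), (n.choose i : ℝ) * ‖iteratedFDerivWithin ℝ i f U y‖ *
      ‖iteratedFDerivWithin ℝ (n - i) ((Inv.inv : ℝ → ℝ) ∘ S) U y‖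
      ≤ (n.choose i : ℝ) * (A * G * D ^ n) := by
    intro i hi
    have hi' : i ≤ n := Nat.lt_succ_iff.1 (Finset.mem_range.1 hi)
    have h3 : ‖iteratedFDerivWithin ℝ i f U y‖ ≤ A * D ^ i := by
      rw [iteratedFDerivWithin_of_isOpen i hU hy]
      exact hfb i (hi'.trans hn)
    have h4 := hhb (n - i) ((Nat.sub_le _ _).trans hn)
    have h5 : D ^ n = D ^ i * D ^ (n - i) := by
      rw [← pow_add]
      congr 1
      omega
    rw [mul_assoc]
    apply mul_le_mul_of_nonneg_left _ (by positivity)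
    calc ‖iteratedFDerivWithin ℝ i f U y‖ *
        ‖iteratedFDerivWithin ℝ (n - i) ((Inv.inv : ℝ → ℝ) ∘ S) U y‖
        ≤ (A * D ^ i) * (G * D ^ (n - i)) := mul_le_mul h3 h4 (norm_nonneg _) (by positivity)
      _ = A * G * D ^ n := by rw [h5]; ring
  refine (Finset.sum_le_sum h2).trans ?_
  rw [← Finset.sum_mul]
  have h6 : (∑ i ∈ Finset.range (n + 1), (n.choose i : ℝ)) = 2 ^ n := by
    exact_mod_cast Nat.sum_range_choose n
  rw [h6]
  have h7 : (2 : ℝ) ^ n ≤ 2 ^ J := pow_le_pow_right₀ (by norm_num) hn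
  calc (2 : ℝ) ^ n * (A * G * D ^ n) ≤ 2 ^ J * (A * G * D ^ n) :=
        mul_le_mul_of_nonneg_right h7 (by positivity)
    _ = 2 ^ J * (A * G) * D ^ n := by ring

/-- derivatives of a dilated and translated function -/
theorem wh_scale (m : ℕ) (χ₀ : E m → ℝ) (hs : ContDiff ℝ ∞ χ₀) (j : ℕ) (Cj : ℝ)
    (hCj : ∀ y, ‖iteratedFDeriv ℝ j χ₀ y‖ ≤ Cj) (l : ℝ) (hl : 0 < l) (a y : E m) :
    l ^ j * ‖iteratedFDeriv ℝ j (fun y => χ₀ (l⁻¹ • (y - a))) y‖ ≤ Cj := by
  have hli : 0 < l⁻¹ := inv_pos.2 hl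
  set g : E m →L[ℝ] E m := l⁻¹ • ContinuousLinearMap.id ℝ (E m) with hg
  have hgn : ‖g‖ ≤ l⁻¹ := by
    rw [hg, norm_smul, Real.norm_eq_abs, abs_of_pos hli]
    calc l⁻¹ * ‖ContinuousLinearMap.id ℝ (E m)‖ ≤ l⁻¹ * 1 :=
          mul_le_mul_of_nonneg_left ContinuousLinearMap.norm_id_le hli.le
      _ = l⁻¹ := mul_one _
  have hfs : ContDiff ℝ ∞ (fun z => χ₀ (z - l⁻¹ • a)) :=
    hs.comp (contDiff_id.sub contDiff_const)
  have e1 : (fun y => χ₀ (l⁻¹ • (y - a))) = (fun z => χ₀ (z - l⁻¹ • a)) ∘ g := by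
    funext z
    simp [hg, smul_sub]
  rw [e1, g.iteratedFDeriv_comp_right hfs y (i := j) (by exact_mod_cast le_top),
    iteratedFDeriv_comp_sub]
  have h1 := (iteratedFDeriv ℝ j χ₀ (g y - l⁻¹ • a)).norm_compContinuousLinearMap_le
    (fun _ => g)
  rw [Finset.prod_const, Finset.card_univ, Fintype.card_fin] at h1
  have h2 : ‖g‖ ^ j ≤ (l⁻¹) ^ j := pow_le_pow_left₀ (norm_nonneg _) hgn j
  have h3 : ‖iteratedFDeriv ℝ j χ₀ (g y - l⁻¹ • a)‖ ≤ Cj := hCj _
  have hC0 : 0 ≤ Cj := (norm_nonneg _).trans h3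
  calc l ^ j * ‖(iteratedFDeriv ℝ j χ₀ (g y - l⁻¹ • a)).compContinuousLinearMap fun _ => g‖
      ≤ l ^ j * (Cj * (l⁻¹) ^ j) := by
        apply mul_le_mul_of_nonneg_left _ (by positivity)
        exact h1.trans (mul_le_mul h3 h2 (by positivity) hC0)
    _ = Cj := by
        rw [inv_pow]
        field_simp

/-- centres of the Whitney cells: grid points of the scale `c 2^j / 8` -/
noncomputable def whX (m : ℕ) (c : ℝ) (i : ℤ × (Fin m → ℤ)) : E m :=
  gpt m (c * (2 : ℝ) ^ i.1 / 8) i.2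

/-- the selected grid points -/
def WhSel (m : ℕ) (c : ℝ) (t : E m → ℝ) (i : ℤ × (Fin m → ℤ)) : Prop :=
  (2 : ℝ) ^ (i.1 - 1) ≤ t (whX m c i) ∧ t (whX m c i) < (2 : ℝ) ^ (i.1 + 2)

theorem wh_two_zpow_add (j : ℤ) : (2 : ℝ) ^ (j + 2) = 4 * (2 : ℝ) ^ j := by
  rw [zpow_add₀ (by norm_num : (2 : ℝ) ≠ 0)]
  norm_num
  ring

theorem wh_two_zpow_sub (j : ℤ) : (2 : ℝ) ^ (j - 1) = (2 : ℝ) ^ j / 2 := by
  rw [zpow_sub_one₀ (by norm_num : (2 : ℝ) ≠ 0)]
  ring

theorem WhSel.pos {m : ℕ} {c : ℝ} {t : E m → ℝ} {i : ℤ × (Fin m → ℤ)} (h : WhSel m c t i) :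
    0 < t (whX m c i) := lt_of_lt_of_le (zpow_pos (by norm_num) _) h.1

/-- comparison of `t` at the centre and at a point of the cell -/
theorem wh_compare {m : ℕ} {t : E m → ℝ} (hl : ∀ y y', |t y - t y'| ≤ ‖y - y'‖) {x y : E m} {r : ℝ}
    (h : ‖y - x‖ ≤ r) : t x - r ≤ t y ∧ t y ≤ t x + r := by
  have := abs_le.1 ((hl y x).trans h)
  constructor <;> linarith [this.1, this.2]

/-- bounded overlap of the cells -/
theorem wh_count (m : ℕ) : ∃ Nov : ℕ, ∀ (c : ℝ), 0 < c → c ≤ 1 / 10 → ∀ t : E m → ℝ,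
    (∀ y y', |t y - t y'| ≤ ‖y - y'‖) → ∀ y : E m,
    {i | WhSel m c t i ∧ y ∈ Metric.ball (whX m c i) (c * t (whX m c i))}.Finite ∧
    {i | WhSel m c t i ∧ y ∈ Metric.ball (whX m c i) (c * t (whX m c i))}.ncard ≤ Nov := by
  obtain ⟨N, hN⟩ := gpt_count m 32
  refine ⟨5 * N, fun c hc hc1 t hl y => ?_⟩
  have key : ∀ i, WhSel m c t i → y ∈ Metric.ball (whX m c i) (c * t (whX m c i)) →
      (1 - c) * t (whX m c i) < t y ∧ t y < (1 + c) * t (whX m c i) := by
    intro i hi hy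
    rw [Metric.mem_ball, dist_eq_norm] at hy
    have := abs_lt.1 ((hl y (whX m c i)).trans_lt hy)
    constructor <;> linarith [this.1, this.2]
  by_cases hty : 0 < t y
  · obtain ⟨j0, hj0⟩ := exists_mem_Ico_zpow hty (by norm_num : (1 : ℝ) < 2)
    have hl0 : ∀ j : ℤ, 0 < c * (2 : ℝ) ^ j / 8 := fun j => by positivity
    set T : ℤ → Finset (Fin m → ℤ) := fun j => (hN ((c * (2 : ℝ) ^ j / 8)⁻¹ • y)).1.toFinset with hT
    set F : Finset (ℤ × (Fin m → ℤ)) :=
      (Finset.Icc (j0 - 2) (j0 + 2)).biUnion (fun j => (T j).image (Prod.mk j)) with hF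
    have hsub : {i | WhSel m c t i ∧ y ∈ Metric.ball (whX m c i) (c * t (whX m c i))}
        ⊆ (F : Set (ℤ × (Fin m → ℤ))) := by
      rintro ⟨j, κ⟩ ⟨hi, hy⟩
      obtain ⟨k1, k2⟩ := key _ hi hy
      obtain ⟨s1, s2⟩ := hi
      simp only at s1 s2
      set X := t (whX m c (j, κ)) with hX
      have hp : ∀ a : ℤ, 0 < (2 : ℝ) ^ a := fun a => zpow_pos (by norm_num) _
      rw [wh_two_zpow_sub] at s1
      rw [wh_two_zpow_add] at s2
      have hj0' : t y < 2 * (2 : ℝ) ^ j0 := by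
        have := hj0.2
        rwa [zpow_add_one₀ (by norm_num : (2 : ℝ) ≠ 0), mul_comm] at this
      have hb : j ≤ j0 + 2 := by
        by_contra hcon
        have h3 : (2 : ℝ) ^ (j0 + 2 + 1) ≤ (2 : ℝ) ^ j :=
          zpow_le_zpow_right₀ (by norm_num) (by omega)
        rw [zpow_add_one₀ (by norm_num : (2 : ℝ) ≠ 0), wh_two_zpow_add] at h3
        nlinarith [hp j0, hp j]
      have ha : j0 - 2 ≤ j := by
        by_contra hcon
        have h3 : (2 : ℝ) ^ (j + 2 + 1) ≤ (2 : ℝ) ^ j0 :=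
          zpow_le_zpow_right₀ (by norm_num) (by omega)
        rw [zpow_add_one₀ (by norm_num : (2 : ℝ) ≠ 0), wh_two_zpow_add] at h3
        have := hj0.1
        nlinarith [hp j0, hp j]
      rw [Finset.mem_coe, hF, Finset.mem_biUnion]
      refine ⟨j, Finset.mem_Icc.2 ⟨ha, hb⟩, Finset.mem_image.2 ⟨κ, ?_, rfl⟩⟩
      rw [hT, Set.Finite.mem_toFinset, Set.mem_ofPred_eq, ← gpt_mem_ball_scale m (hl0 j)]
      refine Metric.ball_subset_ball ?_ hy
      nlinarith [hp j]
    have hcard : F.card ≤ 5 * N := by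
      calc F.card ≤ ∑ j ∈ Finset.Icc (j0 - 2) (j0 + 2), ((T j).image (Prod.mk j)).card :=
            Finset.card_biUnion_le
        _ ≤ ∑ _j ∈ Finset.Icc (j0 - 2) (j0 + 2), N := by
            refine Finset.sum_le_sum fun j _ => Finset.card_image_le.trans ?_
            rw [hT, ← Set.ncard_eq_toFinset_card _ _]
            exact (hN _).2
        _ = 5 * N := by
            rw [Finset.sum_const, Int.card_Icc, smul_eq_mul]
            congr 1
            omega
    refine ⟨F.finite_toSet.subset hsub, ?_⟩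
    calc _ ≤ (F : Set (ℤ × (Fin m → ℤ))).ncard := Set.ncard_le_ncard hsub F.finite_toSet
      _ = F.card := Set.ncard_coe_finset F
      _ ≤ 5 * N := hcard
  · have hempty : {i | WhSel m c t i ∧ y ∈ Metric.ball (whX m c i) (c * t (whX m c i))} = ∅ := by
      rw [Set.eq_empty_iff_forall_notMem]
      rintro i ⟨hi, hy⟩
      have h1 := (key i hi hy).1
      have h2 := hi.pos
      apply hty
      refine lt_trans ?_ h1
      apply mul_pos _ h2
      linarith
    rw [hempty]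
    simp

/-- the fixed profile -/
noncomputable def whP (m : ℕ) : ContDiffBump (0 : E m) := ⟨1 / 2, 1, by norm_num, by norm_num⟩

open Classical in
/-- raw bumps -/
noncomputable def whB (m : ℕ) (c : ℝ) (t : E m → ℝ) (i : ℤ × (Fin m → ℤ)) (y : E m) : ℝ :=
  if WhSel m c t i then whP m ((c * t (whX m c i) / 2)⁻¹ • (y - whX m c i)) else 0

theorem whB_of_sel {m : ℕ} {c : ℝ} {t : E m → ℝ} {i : ℤ × (Fin m → ℤ)} (hi : WhSel m c t i) :
    whB m c t i = fun y => whP m ((c * t (whX m c i) / 2)⁻¹ • (y - whX m c i)) := by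
  funext y
  simp [whB, hi]

theorem whB_of_not_sel {m : ℕ} {c : ℝ} {t : E m → ℝ} {i : ℤ × (Fin m → ℤ)}
    (hi : ¬ WhSel m c t i) : whB m c t i = fun _ => 0 := by
  funext y
  simp [whB, hi]

theorem whB_contDiff (m : ℕ) (c : ℝ) (t : E m → ℝ) (i : ℤ × (Fin m → ℤ)) :
    ContDiff ℝ ∞ (whB m c t i) := by
  by_cases hi : WhSel m c t i
  · rw [whB_of_sel hi]
    exact (whP m).contDiff.comp ((contDiff_id.sub contDiff_const).const_smul _)
  · rw [whB_of_not_sel hi]
    exact contDiff_const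

theorem whB_nonneg (m : ℕ) (c : ℝ) (t : E m → ℝ) (i : ℤ × (Fin m → ℤ)) (y : E m) :
    0 ≤ whB m c t i y := by
  by_cases hi : WhSel m c t i
  · rw [whB_of_sel hi]
    exact (whP m).nonneg
  · rw [whB_of_not_sel hi]

theorem whB_le_one (m : ℕ) (c : ℝ) (t : E m → ℝ) (i : ℤ × (Fin m → ℤ)) (y : E m) :
    whB m c t i y ≤ 1 := by
  by_cases hi : WhSel m c t i
  · rw [whB_of_sel hi]
    exact (whP m).le_one
  · rw [whB_of_not_sel hi]
    exact zero_le_one

theorem whB_ne_zero {m : ℕ} {c : ℝ} (hc : 0 < c) {t : E m → ℝ} {i : ℤ × (Fin m → ℤ)} {y : E m}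
    (h : whB m c t i y ≠ 0) :
    WhSel m c t i ∧ ‖y - whX m c i‖ < c * t (whX m c i) / 2 := by
  by_cases hi : WhSel m c t i
  · refine ⟨hi, ?_⟩
    rw [whB_of_sel hi] at h
    have hr : 0 < c * t (whX m c i) / 2 := by have := hi.pos; positivity
    have h1 : (c * t (whX m c i) / 2)⁻¹ • (y - whX m c i) ∈ Function.support (whP m) := h
    rw [(whP m).support_eq, Metric.mem_ball, dist_zero_right, norm_smul, Real.norm_eq_abs,
      abs_of_pos (inv_pos.2 hr)] at h1
    have h2 : (whP m).rOut = 1 := rfl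
    rw [h2, inv_mul_lt_iff₀ hr, mul_one] at h1
    exact h1
  · rw [whB_of_not_sel hi] at h
    exact absurd rfl h

theorem whB_eq_one {m : ℕ} {c : ℝ} (hc : 0 < c) {t : E m → ℝ} {i : ℤ × (Fin m → ℤ)} {y : E m}
    (hi : WhSel m c t i) (h : ‖y - whX m c i‖ ≤ c * t (whX m c i) / 4) : whB m c t i y = 1 := by
  rw [whB_of_sel hi]
  have hr : 0 < c * t (whX m c i) / 2 := by have := hi.pos; positivity
  apply (whP m).one_of_mem_closedBall
  rw [mem_closedBall_zero_iff, norm_smul, Real.norm_eq_abs, abs_of_pos (inv_pos.2 hr)]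
  have h2 : (whP m).rIn = 1 / 2 := rfl
  rw [h2, inv_mul_le_iff₀ hr]
  linarith

theorem whB_tsupport {m : ℕ} {c : ℝ} (hc : 0 < c) {t : E m → ℝ} (i : ℤ × (Fin m → ℤ)) :
    tsupport (whB m c t i) ⊆ Metric.closedBall (whX m c i) (c * t (whX m c i) / 2) := by
  refine closure_minimal (fun y hy => ?_) Metric.isClosed_closedBall
  rw [Metric.mem_closedBall, dist_eq_norm]
  exact (whB_ne_zero hc hy).2.le

/-- scale invariant bounds for the raw bumps -/
theorem whB_deriv (m J : ℕ) (c : ℝ) (hc : 0 < c) : ∃ A : ℝ, 1 ≤ A ∧ ∀ t : E m → ℝ,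
    (∀ y, 0 ≤ t y) → (∀ y y', |t y - t y'| ≤ ‖y - y'‖) → ∀ (i : ℤ × (Fin m → ℤ)) (n : ℕ), n ≤ J →
    ∀ y, t y ^ n * ‖iteratedFDeriv ℝ n (whB m c t i) y‖ ≤ A := by
  have hbd : ∀ j : ℕ, ∃ C, ∀ y, ‖iteratedFDeriv ℝ j (whP m) y‖ ≤ C := fun j =>
    ((whP m).contDiff.continuous_iteratedFDeriv (by exact_mod_cast le_top)).bounded_above_of_compact_support
      ((whP m).hasCompactSupport.iteratedFDeriv j)
  choose Cj hCj using hbd
  set C : ℝ := 1 + ∑ j ∈ Finset.range (J + 1), |Cj j| with hC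
  have hC1 : 1 ≤ C := by
    have : 0 ≤ ∑ j ∈ Finset.range (J + 1), |Cj j| := Finset.sum_nonneg fun _ _ => abs_nonneg _
    linarith
  set K : ℝ := (2 + c) / c with hK
  have hK1 : 1 ≤ K := by
    rw [hK, le_div_iff₀ hc]
    linarith
  refine ⟨K ^ J * C, ?_, ?_⟩
  · calc (1 : ℝ) = 1 * 1 := (one_mul 1).symm
      _ ≤ K ^ J * C := mul_le_mul (one_le_pow₀ hK1) hC1 zero_le_one (by positivity)
  intro t ht hl i n hn y
  have hpos : 0 ≤ K ^ J * C := by positivity
  by_cases hi : WhSel m c t i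
  · by_cases hy : y ∈ tsupport (whB m c t i)
    · have hr : 0 < c * t (whX m c i) / 2 := by have := hi.pos; positivity
      have h1 := whB_tsupport hc i hy
      rw [Metric.mem_closedBall, dist_eq_norm] at h1
      have h2 := (wh_compare hl h1).2
      have h3 : t y ≤ K * (c * t (whX m c i) / 2) := by
        rw [hK]
        have : (2 + c) / c * (c * t (whX m c i) / 2) = t (whX m c i) + c * t (whX m c i) / 2 := by
          field_simp
        rw [this]
        exact h2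
      have h4 := wh_scale m (whP m) (whP m).contDiff n (Cj n) (hCj n) _ hr (whX m c i) y
      rw [← whB_of_sel hi] at h4
      have h5 : Cj n ≤ C := by
        have := Finset.single_le_sum (f := fun j => |Cj j|) (fun i _ => abs_nonneg _)
          (Finset.mem_range.2 (Nat.lt_succ_of_le hn))
        have h6 := le_abs_self (Cj n)
        linarith
      calc t y ^ n * ‖iteratedFDeriv ℝ n (whB m c t i) y‖
          ≤ (K * (c * t (whX m c i) / 2)) ^ n * ‖iteratedFDeriv ℝ n (whB m c t i) y‖ :=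
            mul_le_mul_of_nonneg_right (pow_le_pow_left₀ (ht y) h3 n) (norm_nonneg _)
        _ = K ^ n * ((c * t (whX m c i) / 2) ^ n * ‖iteratedFDeriv ℝ n (whB m c t i) y‖) := by
            rw [mul_pow]; ring
        _ ≤ K ^ J * C := by
            apply mul_le_mul (pow_le_pow_right₀ hK1 hn) (h4.trans h5) (by positivity) (by positivity)
    · have h0 : iteratedFDeriv ℝ n (whB m c t i) y = 0 :=
        image_eq_zero_of_notMem_tsupport (fun h => hy (tsupport_iteratedFDeriv_subset n h))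
      rw [h0, norm_zero, mul_zero]
      exact hpos
  · rw [whB_of_not_sel hi]
    have h0 : iteratedFDeriv ℝ n (fun _ : E m => (0 : ℝ)) y = 0 := by
      have := iteratedFDeriv_fun_zero (𝕜 := ℝ) (E := E m) (F := ℝ) (n := n)
      exact congrFun this y
    rw [h0, norm_zero, mul_zero]
    exact hpos

/-- the sum of the raw bumps -/
noncomputable def whS (m : ℕ) (c : ℝ) (t : E m → ℝ) (y : E m) : ℝ := ∑ᶠ i, whB m c t i y

theorem whB_support_subset {m : ℕ} {c : ℝ} (hc : 0 < c) (t : E m → ℝ) (y : E m) :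
    (Function.support fun i => whB m c t i y)
      ⊆ {i | WhSel m c t i ∧ y ∈ Metric.ball (whX m c i) (c * t (whX m c i))} := by
  intro i hi
  obtain ⟨h1, h2⟩ := whB_ne_zero hc hi
  refine ⟨h1, ?_⟩
  rw [Metric.mem_ball, dist_eq_norm]
  have := h1.pos
  have h3 : 0 < c * t (whX m c i) := by positivity
  linarith

theorem whB_support_local {m : ℕ} {c : ℝ} (hc : 0 < c) (hc1 : c ≤ 1 / 10) {t : E m → ℝ}
    (hl : ∀ y y', |t y - t y'| ≤ ‖y - y'‖) {y0 z : E m} (h0 : 0 < t y0)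
    (hz : z ∈ Metric.ball y0 (c * t y0 / 4)) :
    (Function.support fun i => whB m c t i z)
      ⊆ {i | WhSel m c t i ∧ y0 ∈ Metric.ball (whX m c i) (c * t (whX m c i))} := by
  intro i hi
  obtain ⟨h1, h2⟩ := whB_ne_zero hc hi
  refine ⟨h1, ?_⟩
  rw [Metric.mem_ball, dist_eq_norm] at hz ⊢
  have hT := h1.pos
  set T := t (whX m c i) with hTdef
  have h3 : ‖y0 - whX m c i‖ ≤ ‖z - y0‖ + ‖z - whX m c i‖ := by
    have e : y0 - whX m c i = -(z - y0) + (z - whX m c i) := by abel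
    rw [e]
    refine (norm_add_le _ _).trans ?_
    rw [norm_neg]
  have h4 := (wh_compare hl (le_refl ‖y0 - whX m c i‖)).2
  rw [← hTdef] at h4
  have h5 : c * T ≤ T / 10 := by nlinarith
  have h6 : c * t y0 ≤ t y0 / 10 := by nlinarith
  nlinarith

theorem whS_finite {m : ℕ} {c : ℝ} (hc : 0 < c) (hc1 : c ≤ 1 / 10) {t : E m → ℝ}
    (hl : ∀ y y', |t y - t y'| ≤ ‖y - y'‖) (y : E m) :
    (Function.support fun i => whB m c t i y).Finite := by
  obtain ⟨N, hN⟩ := wh_count m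
  exact (hN c hc hc1 t hl y).1.subset (whB_support_subset hc t y)

theorem whS_eventually {m : ℕ} {c : ℝ} (hc : 0 < c) (hc1 : c ≤ 1 / 10) {t : E m → ℝ}
    (hl : ∀ y y', |t y - t y'| ≤ ‖y - y'‖) {y0 : E m} (h0 : 0 < t y0)
    (F : Finset (ℤ × (Fin m → ℤ)))
    (hF : {i | WhSel m c t i ∧ y0 ∈ Metric.ball (whX m c i) (c * t (whX m c i))} ⊆ F) :
    whS m c t =ᶠ[𝓝 y0] fun z => ∑ i ∈ F, whB m c t i z := by
  filter_upwards [Metric.ball_mem_nhds y0 (by positivity : 0 < c * t y0 / 4)] with z hz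
  exact finsum_eq_sum_of_support_subset _ ((whB_support_local hc hc1 hl h0 hz).trans hF)

theorem wh_cover (m : ℕ) {l : ℝ} (hl : 0 < l) (y : E m) : ∃ κ, ‖y - gpt m l κ‖ ≤ l / 4 := by
  obtain ⟨κ, hκ⟩ := gpt_cover m (l⁻¹ • y)
  refine ⟨κ, ?_⟩
  rw [gpt_norm_scale m hl]
  nlinarith

/-- every point of `{t > 0}` lies in the core of a selected cell -/
theorem wh_exists_sel {m : ℕ} {c : ℝ} (hc : 0 < c) (hc1 : c ≤ 1 / 10) {t : E m → ℝ}
    (hl : ∀ y y', |t y - t y'| ≤ ‖y - y'‖) {y : E m} (hy : 0 < t y) :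
    ∃ i, WhSel m c t i ∧ ‖y - whX m c i‖ ≤ c * t (whX m c i) / 4 := by
  obtain ⟨j, hj⟩ := exists_mem_Ico_zpow hy (by norm_num : (1 : ℝ) < 2)
  have hp : 0 < (2 : ℝ) ^ j := zpow_pos (by norm_num) _
  have hl0 : 0 < c * (2 : ℝ) ^ j / 8 := by positivity
  obtain ⟨κ, hκ⟩ := wh_cover m hl0 y
  have h1 := wh_compare hl hκ
  have hj2 : t y < 2 * (2 : ℝ) ^ j := by
    have := hj.2
    rwa [zpow_add_one₀ (by norm_num : (2 : ℝ) ≠ 0), mul_comm] at this
  have hj1 := hj.1
  have h5 : c * (2 : ℝ) ^ j ≤ (2 : ℝ) ^ j / 10 := by nlinarith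
  have hx : whX m c (j, κ) = gpt m (c * (2 : ℝ) ^ j / 8) κ := rfl
  refine ⟨(j, κ), ⟨?_, ?_⟩, ?_⟩
  · rw [wh_two_zpow_sub, hx]
    linarith [h1.1, h1.2]
  · rw [wh_two_zpow_add, hx]
    linarith [h1.1, h1.2]
  · rw [hx]
    have h6 : (2 : ℝ) ^ j / 2 ≤ t (gpt m (c * (2 : ℝ) ^ j / 8) κ) := by linarith [h1.1, h1.2]
    nlinarith

theorem whS_ge_one {m : ℕ} {c : ℝ} (hc : 0 < c) (hc1 : c ≤ 1 / 10) {t : E m → ℝ}
    (hl : ∀ y y', |t y - t y'| ≤ ‖y - y'‖) {y : E m} (hy : 0 < t y) : 1 ≤ whS m c t y := by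
  obtain ⟨i, hi, h⟩ := wh_exists_sel hc hc1 hl hy
  calc 1 = whB m c t i y := (whB_eq_one hc hi h).symm
    _ ≤ whS m c t y := single_le_finsum i (whS_finite hc hc1 hl y) (fun j => whB_nonneg m c t j y)

theorem whB_le_whS {m : ℕ} {c : ℝ} (hc : 0 < c) (hc1 : c ≤ 1 / 10) {t : E m → ℝ}
    (hl : ∀ y y', |t y - t y'| ≤ ‖y - y'‖) (i : ℤ × (Fin m → ℤ)) (y : E m) :
    whB m c t i y ≤ whS m c t y :=
  single_le_finsum i (whS_finite hc hc1 hl y) (fun j => whB_nonneg m c t j y)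

theorem wh_continuous {m : ℕ} {t : E m → ℝ} (hl : ∀ y y', |t y - t y'| ≤ ‖y - y'‖) :
    Continuous t :=
  (LipschitzWith.of_dist_le_mul (K := 1) (fun x y => by
    simpa [Real.dist_eq, dist_eq_norm] using hl x y)).continuous

theorem wh_isOpen {m : ℕ} {t : E m → ℝ} (hl : ∀ y y', |t y - t y'| ≤ ‖y - y'‖) :
    IsOpen {y | 0 < t y} := isOpen_lt continuous_const (wh_continuous hl)

theorem whS_contDiffAt {m : ℕ} {c : ℝ} (hc : 0 < c) (hc1 : c ≤ 1 / 10) {t : E m → ℝ}
    (hl : ∀ y y', |t y - t y'| ≤ ‖y - y'‖) {y : E m} (hy : 0 < t y) :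
    ContDiffAt ℝ ∞ (whS m c t) y := by
  obtain ⟨N, hN⟩ := wh_count m
  have hfin := (hN c hc hc1 t hl y).1
  refine ContDiffAt.congr_of_eventuallyEq ?_
    (whS_eventually hc hc1 hl hy hfin.toFinset (by rw [Set.Finite.coe_toFinset]))
  exact ContDiffAt.sum fun i _ => (whB_contDiff m c t i).contDiffAt

theorem whS_contDiffOn {m : ℕ} {c : ℝ} (hc : 0 < c) (hc1 : c ≤ 1 / 10) {t : E m → ℝ}
    (hl : ∀ y y', |t y - t y'| ≤ ‖y - y'‖) : ContDiffOn ℝ ∞ (whS m c t) {y | 0 < t y} :=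
  fun _ hy => (whS_contDiffAt hc hc1 hl hy).contDiffWithinAt

/-- scale invariant bounds for the sum -/
theorem whS_deriv (m J : ℕ) (c : ℝ) (hc : 0 < c) (hc1 : c ≤ 1 / 10) : ∃ A : ℝ, 1 ≤ A ∧
    ∀ t : E m → ℝ, (∀ y, 0 ≤ t y) → (∀ y y', |t y - t y'| ≤ ‖y - y'‖) → ∀ n : ℕ, n ≤ J →
    ∀ y, 0 < t y → t y ^ n * ‖iteratedFDeriv ℝ n (whS m c t) y‖ ≤ A := by
  obtain ⟨N, hN⟩ := wh_count m
  obtain ⟨A, hA1, hA⟩ := whB_deriv m J c hc
  refine ⟨(N + 1) * A, ?_, ?_⟩
  · have : (0 : ℝ) ≤ N := Nat.cast_nonneg _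
    nlinarith
  intro t ht hl n hn y hy
  obtain ⟨hfin, hcard⟩ := hN c hc hc1 t hl y
  have h1 := whS_eventually hc hc1 hl hy hfin.toFinset (by rw [Set.Finite.coe_toFinset])
  rw [(Filter.EventuallyEq.iteratedFDeriv ℝ h1 n).eq_of_nhds]
  have h2 : iteratedFDeriv ℝ n (fun z => ∑ i ∈ hfin.toFinset, whB m c t i z) y
      = ∑ i ∈ hfin.toFinset, iteratedFDeriv ℝ n (whB m c t i) y := by
    exact iteratedFDeriv_fun_sum_apply
      (fun i _ => ((whB_contDiff m c t i).of_le (by exact_mod_cast le_top)).contDiffAt)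
  rw [h2]
  calc t y ^ n * ‖∑ i ∈ hfin.toFinset, iteratedFDeriv ℝ n (whB m c t i) y‖
      ≤ t y ^ n * ∑ i ∈ hfin.toFinset, ‖iteratedFDeriv ℝ n (whB m c t i) y‖ :=
        mul_le_mul_of_nonneg_left (norm_sum_le _ _) (pow_nonneg (ht y) n)
    _ = ∑ i ∈ hfin.toFinset, t y ^ n * ‖iteratedFDeriv ℝ n (whB m c t i) y‖ := Finset.mul_sum _ _ _
    _ ≤ ∑ _i ∈ hfin.toFinset, A := Finset.sum_le_sum fun i _ => hA t ht hl i n hn y
    _ = hfin.toFinset.card * A := by rw [Finset.sum_const, nsmul_eq_mul]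
    _ ≤ (N + 1) * A := by
        apply mul_le_mul_of_nonneg_right _ (by linarith)
        rw [← Set.ncard_eq_toFinset_card _ hfin]
        have : ((_ : ℕ) : ℝ) ≤ (N : ℝ) := Nat.cast_le.2 hcard
        linarith

/-- the normalised bumps -/
noncomputable def whChi (m : ℕ) (c : ℝ) (t : E m → ℝ) (i : ℤ × (Fin m → ℤ)) (y : E m) : ℝ :=
  whB m c t i y / whS m c t y

theorem whS_nonneg (m : ℕ) (c : ℝ) (t : E m → ℝ) (y : E m) : 0 ≤ whS m c t y :=
  finsum_nonneg fun i => whB_nonneg m c t i y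

theorem whChi_ne_zero {m : ℕ} {c : ℝ} {t : E m → ℝ} {i : ℤ × (Fin m → ℤ)} {y : E m}
    (h : whChi m c t i y ≠ 0) : whB m c t i y ≠ 0 := fun h0 => h (by simp [whChi, h0])

theorem whChi_tsupport_subset (m : ℕ) (c : ℝ) (t : E m → ℝ) (i : ℤ × (Fin m → ℤ)) :
    tsupport (whChi m c t i) ⊆ tsupport (whB m c t i) :=
  closure_mono fun _ hy => whChi_ne_zero hy

theorem wh_of_mem_tsupport {m : ℕ} {c : ℝ} (hc : 0 < c) (hc1 : c ≤ 1 / 10) {t : E m → ℝ}
    (hl : ∀ y y', |t y - t y'| ≤ ‖y - y'‖) {i : ℤ × (Fin m → ℤ)} {y : E m}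
    (hy : y ∈ tsupport (whB m c t i)) :
    WhSel m c t i ∧ t (whX m c i) ≤ 2 * t y ∧ 0 < t y := by
  have hi : WhSel m c t i := by
    by_contra hi
    rw [whB_of_not_sel hi] at hy
    simp [tsupport] at hy
  have h1 := whB_tsupport hc i hy
  rw [Metric.mem_closedBall, dist_eq_norm] at h1
  have h2 := (wh_compare hl h1).1
  have h3 := hi.pos
  have h4 : c * t (whX m c i) ≤ t (whX m c i) / 10 := by nlinarith
  refine ⟨hi, by linarith, by linarith⟩

theorem whChi_contDiff {m : ℕ} {c : ℝ} (hc : 0 < c) (hc1 : c ≤ 1 / 10) {t : E m → ℝ}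
    (hl : ∀ y y', |t y - t y'| ≤ ‖y - y'‖) (i : ℤ × (Fin m → ℤ)) :
    ContDiff ℝ ∞ (whChi m c t i) := by
  rw [contDiff_iff_contDiffAt]
  intro y
  by_cases hy : y ∈ tsupport (whB m c t i)
  · obtain ⟨-, -, h0⟩ := wh_of_mem_tsupport hc hc1 hl hy
    have h1 := whS_ge_one hc hc1 hl h0
    exact (whB_contDiff m c t i).contDiffAt.div (whS_contDiffAt hc hc1 hl h0) (by linarith)
  · have h1 : whChi m c t i =ᶠ[𝓝 y] fun _ => 0 := by
      filter_upwards [notMem_tsupport_iff_eventuallyEq.1 hy] with z hz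
      simp only [Pi.zero_apply] at hz
      simp [whChi, hz]
    exact contDiffAt_const.congr_of_eventuallyEq h1

theorem whChi_nonneg (m : ℕ) (c : ℝ) (t : E m → ℝ) (i : ℤ × (Fin m → ℤ)) (y : E m) :
    0 ≤ whChi m c t i y := div_nonneg (whB_nonneg m c t i y) (whS_nonneg m c t y)

theorem whChi_le_one {m : ℕ} {c : ℝ} (hc : 0 < c) (hc1 : c ≤ 1 / 10) {t : E m → ℝ}
    (hl : ∀ y y', |t y - t y'| ≤ ‖y - y'‖) (i : ℤ × (Fin m → ℤ)) (y : E m) :
    whChi m c t i y ≤ 1 :=
  div_le_one_of_le₀ (whB_le_whS hc hc1 hl i y) (whS_nonneg m c t y)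

theorem whChi_sum {m : ℕ} {c : ℝ} (hc : 0 < c) (hc1 : c ≤ 1 / 10) {t : E m → ℝ}
    (hl : ∀ y y', |t y - t y'| ≤ ‖y - y'‖) {y : E m} (hy : 0 < t y) :
    ∑ᶠ i, whChi m c t i y = 1 := by
  have h1 := whS_ge_one hc hc1 hl hy
  simp only [whChi, div_eq_mul_inv]
  rw [← finsum_mul]
  exact mul_inv_cancel₀ (by rw [whS] at h1; linarith)

/-- scale invariant bounds for the normalised bumps -/
theorem whChi_deriv (m J : ℕ) (c : ℝ) (hc : 0 < c) (hc1 : c ≤ 1 / 10) : ∃ C : ℝ, 0 < C ∧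
    ∀ t : E m → ℝ, (∀ y, 0 ≤ t y) → (∀ y y', |t y - t y'| ≤ ‖y - y'‖) →
    ∀ (i : ℤ × (Fin m → ℤ)) (n : ℕ), n ≤ J →
    ∀ y, t (whX m c i) ^ n * ‖iteratedFDeriv ℝ n (whChi m c t i) y‖ ≤ C := by
  obtain ⟨A1, hA1, hB⟩ := whB_deriv m J c hc
  obtain ⟨A2, hA2, hS⟩ := whS_deriv m J c hc hc1
  obtain ⟨C, hC, hq⟩ := wh_quot m J (A1 + A2) (by linarith)
  refine ⟨2 ^ J * C, by positivity, ?_⟩
  intro t ht hl i n hn y
  by_cases hy : y ∈ tsupport (whB m c t i)
  · obtain ⟨hi, h1, h0⟩ := wh_of_mem_tsupport hc hc1 hl hy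
    have hconv : ∀ (k : ℕ) (a A : ℝ), t y ^ k * a ≤ A → A ≤ A1 + A2 → a ≤ (A1 + A2) * (t y)⁻¹ ^ k := by
      intro k a A h2 h3
      rw [inv_pow, ← div_eq_mul_inv, le_div_iff₀ (by positivity), mul_comm]
      exact h2.trans h3
    have h2 := hq {y | 0 < t y} (whB m c t i) (whS m c t) y (t y)⁻¹ (wh_isOpen hl) h0
      (by positivity) (whB_contDiff m c t i).contDiffOn (whS_contDiffOn hc hc1 hl)
      (fun z hz => whS_ge_one hc hc1 hl hz)
      (fun k hk => hconv k _ A1 (hB t ht hl i k hk y) (by linarith))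
      (fun k hk => hconv k _ A2 (hS t ht hl k hk y h0) (by linarith)) n hn
    have h3 : t (whX m c i) ^ n ≤ 2 ^ n * t y ^ n := by
      rw [← mul_pow]
      exact pow_le_pow_left₀ hi.pos.le h1 n
    have h4 : (2 : ℝ) ^ n ≤ 2 ^ J := pow_le_pow_right₀ (by norm_num) hn
    calc t (whX m c i) ^ n * ‖iteratedFDeriv ℝ n (whChi m c t i) y‖
        ≤ (2 ^ n * t y ^ n) * (C * (t y)⁻¹ ^ n) :=
          mul_le_mul h3 h2 (norm_nonneg _) (by positivity)
      _ = 2 ^ n * C := by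
          rw [inv_pow]
          field_simp
      _ ≤ 2 ^ J * C := mul_le_mul_of_nonneg_right h4 hC.le
  · have h0 : iteratedFDeriv ℝ n (whChi m c t i) y = 0 :=
      image_eq_zero_of_notMem_tsupport
        (fun h => hy (whChi_tsupport_subset m c t i (tsupport_iteratedFDeriv_subset n h)))
    rw [h0, norm_zero, mul_zero]
    positivity

/-- unless `t` vanishes identically there are infinitely many cells -/
theorem wh_infinite {m : ℕ} (hm : 1 ≤ m) {c : ℝ} (hc : 0 < c) (hc1 : c ≤ 1 / 10) {t : E m → ℝ}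
    (hl : ∀ y y', |t y - t y'| ≤ ‖y - y'‖) {y0 : E m} (h0 : 0 < t y0) :
    {i | WhSel m c t i}.Infinite := by
  intro hfin
  have hU : {y | 0 < t y}
      = ⋃ i ∈ {i | WhSel m c t i}, Metric.closedBall (whX m c i) (c * t (whX m c i) / 4) := by
    apply Set.Subset.antisymm
    · intro y hy
      obtain ⟨i, hi, h⟩ := wh_exists_sel hc hc1 hl hy
      refine Set.mem_biUnion hi ?_
      rwa [Metric.mem_closedBall, dist_eq_norm]
    · intro y hy
      obtain ⟨i, hi, h⟩ := Set.mem_iUnion₂.1 hy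
      rw [Metric.mem_closedBall, dist_eq_norm] at h
      have h2 := (wh_compare hl h).1
      have h3 : 0 < t (whX m c i) := WhSel.pos hi
      have h4 : c * t (whX m c i) ≤ t (whX m c i) / 10 := by nlinarith
      show 0 < t y
      linarith
  have hclosed : IsClosed {y | 0 < t y} := by
    rw [hU]
    exact hfin.isClosed_biUnion fun i _ => Metric.isClosed_closedBall
  have hcomp : IsCompact {y | 0 < t y} := by
    rw [hU]
    exact hfin.isCompact_biUnion fun i _ => isCompact_closedBall _ _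
  have huniv : {y | 0 < t y} = Set.univ :=
    IsClopen.eq_univ ⟨hclosed, wh_isOpen hl⟩ ⟨y0, h0⟩
  rw [huniv] at hcomp
  have : Nonempty (Fin m) := ⟨⟨0, hm⟩⟩
  have : Nontrivial (E m) := inferInstance
  have : NoncompactSpace (E m) := NormedSpace.noncompactSpace ℝ (E m)
  exact noncompact_univ (E m) hcomp

/-- bounded overlap in integrated form -/
theorem wh_overlap_sum {m : ℕ} (B : ℕ → Set (E m)) (hB : ∀ k, MeasurableSet (B k)) (Nov : ℕ)
    (h : ∀ y, {k | y ∈ B k}.Finite ∧ {k | y ∈ B k}.ncard ≤ Nov) (ρ : Measure (E m))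
    (A : Set (E m)) (hA : MeasurableSet A) : ∑' k : ℕ, ρ (B k ∩ A) ≤ (Nov : ℝ≥0∞) * ρ A := by
  have hm : ∀ k, MeasurableSet (B k ∩ A) := fun k => (hB k).inter hA
  have e1 : ∀ k, ρ (B k ∩ A) = ∫⁻ y, (B k ∩ A).indicator (fun _ => (1 : ℝ≥0∞)) y ∂ρ := by
    intro k
    rw [lintegral_indicator (hm k), setLIntegral_const, one_mul]
  simp_rw [e1]
  rw [← lintegral_tsum fun k => (measurable_const.indicator (hm k)).aemeasurable]
  have e2 : (Nov : ℝ≥0∞) * ρ A = ∫⁻ y, A.indicator (fun _ => (Nov : ℝ≥0∞)) y ∂ρ := by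
    rw [lintegral_indicator hA, setLIntegral_const]
  rw [e2]
  refine lintegral_mono fun y => ?_
  obtain ⟨hfin, hcard⟩ := h y
  by_cases hy : y ∈ A
  · rw [Set.indicator_of_mem hy]
    rw [tsum_eq_sum (s := hfin.toFinset)]
    · calc ∑ k ∈ hfin.toFinset, (B k ∩ A).indicator (fun _ => (1 : ℝ≥0∞)) y
          ≤ ∑ _k ∈ hfin.toFinset, (1 : ℝ≥0∞) :=
            Finset.sum_le_sum fun k _ => Set.indicator_le_self' (fun _ _ => zero_le) y
        _ = (hfin.toFinset.card : ℝ≥0∞) := by simp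
        _ ≤ Nov := by
            rw [← Set.ncard_eq_toFinset_card _ hfin]
            exact_mod_cast hcard
    · intro k hk
      rw [Set.Finite.mem_toFinset] at hk
      exact Set.indicator_of_notMem (fun h => hk h.1) _
  · rw [Set.indicator_of_notMem hy]
    apply le_of_eq
    rw [ENNReal.tsum_eq_zero]
    intro k
    exact Set.indicator_of_notMem (fun h => hy h.2) _

/-- **Whitney partition of unity** (proof of `whitney_pou`). -/
theorem whitney_pou_pf (m J : ℕ) (hm : 1 ≤ m) (c : ℝ) (hc : 0 < c) (hc1 : c ≤ 1 / 10) :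
    ∃ (C : ℝ) (Nov : ℕ), 0 < C ∧ ∀ t : E m → ℝ, (∀ y, 0 ≤ t y) → (∀ y y', |t y - t y'| ≤ ‖y - y'‖) →
      ∃ (p : ℕ → E m) (χ : ℕ → E m → ℝ),
        (∀ k, ContDiff ℝ ∞ (χ k)) ∧ (∀ k y, 0 ≤ χ k y ∧ χ k y ≤ 1) ∧
        (∀ k, tsupport (χ k) ⊆ Metric.ball (p k) (c * t (p k))) ∧
        (∀ y, {k | χ k y ≠ 0}.Finite) ∧ (∀ y, 0 < t y → ∑ᶠ k, χ k y = 1) ∧
        (∀ k (j : ℕ), j ≤ J → ∀ y, t (p k) ^ j * ‖iteratedFDeriv ℝ j (χ k) y‖ ≤ C) ∧
        (∀ y, {k | y ∈ Metric.ball (p k) (c * t (p k))}.Finite ∧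
          {k | y ∈ Metric.ball (p k) (c * t (p k))}.ncard ≤ Nov) ∧
        (∀ (ρ : Measure (E m)) (A : Set (E m)), MeasurableSet A →
          ∑' k : ℕ, ρ (Metric.ball (p k) (c * t (p k)) ∩ A) ≤ (Nov : ℝ≥0∞) * ρ A) := by
  obtain ⟨Nov, hN⟩ := wh_count m
  obtain ⟨C, hC, hD⟩ := whChi_deriv m J c hc hc1
  refine ⟨C, Nov, hC, fun t ht hl => ?_⟩
  by_cases h0 : ∃ y0, 0 < t y0
  · obtain ⟨y0, hy0⟩ := h0
    have hinf := wh_infinite hm hc hc1 hl hy0
    have : Infinite {i // WhSel m c t i} := hinf.to_subtype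
    obtain ⟨e⟩ : Nonempty (ℕ ≃ {i // WhSel m c t i}) := nonempty_equiv_of_countable
    set f : ℕ → ℤ × (Fin m → ℤ) := fun k => (e k).1 with hf
    have hfinj : Function.Injective f := Subtype.val_injective.comp e.injective
    have hfsel : ∀ k, WhSel m c t (f k) := fun k => (e k).2
    have hfsurj : ∀ i, WhSel m c t i → i ∈ Set.range f := fun i hi =>
      ⟨e.symm ⟨i, hi⟩, by simp [hf]⟩
    have h7 : ∀ y, {k | y ∈ Metric.ball (whX m c (f k)) (c * t (whX m c (f k)))}.Finite ∧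
        {k | y ∈ Metric.ball (whX m c (f k)) (c * t (whX m c (f k)))}.ncard ≤ Nov := by
      intro y
      obtain ⟨hfin, hcard⟩ := hN c hc hc1 t hl y
      have hsub : {k | y ∈ Metric.ball (whX m c (f k)) (c * t (whX m c (f k)))}
          ⊆ f ⁻¹' {i | WhSel m c t i ∧ y ∈ Metric.ball (whX m c i) (c * t (whX m c i))} :=
        fun k hk => ⟨hfsel k, hk⟩
      refine ⟨(hfin.preimage hfinj.injOn).subset hsub, ?_⟩
      exact (Set.ncard_le_ncard_of_injOn f (fun k hk => hsub hk) hfinj.injOn hfin).trans hcard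
    refine ⟨fun k => whX m c (f k), fun k => whChi m c t (f k), ?_, ?_, ?_, ?_, ?_, ?_, h7, ?_⟩
    · exact fun k => whChi_contDiff hc hc1 hl _
    · exact fun k y => ⟨whChi_nonneg m c t _ y, whChi_le_one hc hc1 hl _ y⟩
    · intro k
      refine ((whChi_tsupport_subset m c t _).trans (whB_tsupport hc _)).trans ?_
      apply Metric.closedBall_subset_ball
      have := (hfsel k).pos
      have h3 : 0 < c * t (whX m c (f k)) := by positivity
      linarith
    · intro y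
      refine (h7 y).1.subset fun k hk => ?_
      exact (whB_support_subset hc t y (whChi_ne_zero hk)).2
    · intro y hy
      rw [← whChi_sum hc hc1 hl hy, ← finsum_mem_range (f := fun i => whChi m c t i y) hfinj,
        ← finsum_mem_univ (fun i => whChi m c t i y)]
      apply finsum_mem_inter_support_eq
      rw [Set.univ_inter]
      apply Set.inter_eq_right.2
      intro i hi
      exact hfsurj i (whB_ne_zero hc (whChi_ne_zero hi)).1
    · exact fun k j hj y => hD t ht hl _ j hj y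
    · intro ρ A hA
      exact wh_overlap_sum _ (fun k => Metric.isOpen_ball.measurableSet) Nov h7 ρ A hA
  · have ht0 : ∀ y, t y = 0 := fun y => le_antisymm (not_lt.1 fun h => h0 ⟨y, h⟩) (ht y)
    have hball : ∀ k : ℕ, Metric.ball (0 : E m) (c * t 0) = ∅ := fun _ => by
      rw [ht0, mul_zero, Metric.ball_zero]
    refine ⟨fun _ => 0, fun _ _ => 0, ?_, ?_, ?_, ?_, ?_, ?_, ?_, ?_⟩
    · exact fun _ => contDiff_const
    · exact fun _ _ => ⟨le_rfl, zero_le_one⟩
    · intro k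
      simp [tsupport]
    · intro y
      simp
    · intro y hy
      rw [ht0] at hy
      exact absurd hy (lt_irrefl _)
    · intro k j hj y
      have h0 : iteratedFDeriv ℝ j (fun _ : E m => (0 : ℝ)) y = 0 := by
        have := iteratedFDeriv_fun_zero (𝕜 := ℝ) (E := E m) (F := ℝ) (n := j)
        exact congrFun this y
      rw [h0, norm_zero, mul_zero]
      exact hC.le
    · intro y
      simp [hball 0]
    · intro ρ A hA
      simp [hball 0]

end Claimed.Agent.R322.Tool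
end

/- ===== packed: Claimed.Agent.R322.Tool.CutInterp ===== -/
section
/-!
# Interpolation between `C⁰` and `C^{J+1}`, product with a cutoff

Helper file for `Tool.cut_interp` (`Tool/Whitney.lean`).  Mathlib only.
-/

set_option autoImplicit false

open scoped ContDiff

namespace Claimed.Agent.R322.Tool

section general

variable {X Y : Type*} [NormedAddCommGroup X] [NormedSpace ℝ X] [NormedAddCommGroup Y] [NormedSpace ℝ Y]

/-- one step of the Landau--Kolmogorov interpolation -/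
theorem ci_step (g : X → Y) (hg : Differentiable ℝ g) (K d h R : ℝ) (hK : 0 ≤ K) (hh : 0 < h)
    (hL : ∀ x y, ‖fderiv ℝ g y - fderiv ℝ g x‖ ≤ K * ‖y - x‖)
    (hd : ∀ x, ‖x‖ ≤ R + h → ‖g x‖ ≤ d) (x : X) (hx : ‖x‖ ≤ R) :
    ‖fderiv ℝ g x‖ ≤ 2 * d / h + K * h := by
  have hd0 : 0 ≤ d := (norm_nonneg _).trans (hd x (by linarith))
  refine ContinuousLinearMap.opNorm_le_of_unit_norm (by positivity) fun v hv => ?_
  have hmem : x + h • v ∈ Metric.closedBall x h := by
    rw [mem_closedBall_iff_norm]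
    simp [norm_smul, hv, abs_of_pos hh]
  have key := Convex.norm_image_sub_le_of_norm_fderiv_le' (𝕜 := ℝ) (f := g) (φ := fderiv ℝ g x)
    (C := K * h) (s := Metric.closedBall x h) (fun y _ => hg y)
    (fun y hy => (hL x y).trans (by
      rw [mem_closedBall_iff_norm] at hy
      exact mul_le_mul_of_nonneg_left hy hK))
    (convex_closedBall x h) (Metric.mem_closedBall_self hh.le) hmem
  have e1 : x + h • v - x = h • v := by abel
  rw [e1, map_smul, norm_smul, hv, Real.norm_eq_abs, abs_of_pos hh, mul_one] at key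
  have h1 : ‖g (x + h • v)‖ ≤ d := by
    apply hd
    calc ‖x + h • v‖ ≤ ‖x‖ + ‖h • v‖ := norm_add_le _ _
      _ ≤ R + h := by rw [norm_smul, hv, Real.norm_eq_abs, abs_of_pos hh, mul_one]; linarith
  have h2 : ‖g x‖ ≤ d := hd x (by linarith)
  have h3 : ‖h • fderiv ℝ g x v‖ ≤ 2 * d + K * h * h := by
    have : h • fderiv ℝ g x v = (g (x + h • v) - g x) - (g (x + h • v) - g x - h • fderiv ℝ g x v) := by abel
    rw [this]
    calc _ ≤ ‖g (x + h • v) - g x‖ + ‖g (x + h • v) - g x - h • fderiv ℝ g x v‖ := norm_sub_le _ _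
      _ ≤ (‖g (x + h • v)‖ + ‖g x‖) + K * h * h := add_le_add (norm_sub_le _ _) key
      _ ≤ _ := by linarith
  rw [norm_smul, Real.norm_eq_abs, abs_of_pos hh] at h3
  have : 2 * d / h + K * h = (2 * d + K * h * h) / h := by field_simp
  rw [this, le_div_iff₀ hh]
  linarith

/-- the derivative of an iterated derivative is Lipschitz -/
theorem ci_lip (f : X → Y) (N i : ℕ) (hf : ContDiff ℝ N f) (hi : i + 2 ≤ N) (K : ℝ)
    (hK : ∀ x, ‖iteratedFDeriv ℝ (i + 2) f x‖ ≤ K) (x y : X) :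
    ‖fderiv ℝ (iteratedFDeriv ℝ i f) y - fderiv ℝ (iteratedFDeriv ℝ i f) x‖ ≤ K * ‖y - x‖ := by
  have hdiff : Differentiable ℝ (iteratedFDeriv ℝ (i + 1) f) :=
    hf.differentiable_iteratedFDeriv (by exact_mod_cast (by omega : i + 1 < N))
  have h1 : ‖iteratedFDeriv ℝ (i + 1) f y - iteratedFDeriv ℝ (i + 1) f x‖ ≤ K * ‖y - x‖ :=
    Convex.norm_image_sub_le_of_norm_fderiv_le (𝕜 := ℝ) (s := Set.univ) (fun z _ => hdiff z)
      (fun z _ => by rw [norm_fderiv_iteratedFDeriv]; exact hK z) convex_univ (Set.mem_univ _)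
      (Set.mem_univ _)
  rw [fderiv_iteratedFDeriv]
  simp only [Function.comp_apply]
  rw [← LinearIsometryEquiv.map_sub, LinearIsometryEquiv.norm_map]
  exact h1

/-- interpolation: all derivatives up to the order `i ≤ J` are small on a smaller ball -/
theorem ci_interp (J : ℕ) (K R₀ : ℝ) (i : ℕ) (hi : i ≤ J) : ∀ (R η : ℝ), R < R₀ → 0 < η →
    ∃ d : ℝ, 0 < d ∧ ∀ f : X → Y, ContDiff ℝ (J + 1 : ℕ) f →
      (∀ j : ℕ, 1 ≤ j → j ≤ J + 1 → ∀ x, ‖iteratedFDeriv ℝ j f x‖ ≤ K) →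
      (∀ x, ‖x‖ ≤ R₀ → ‖f x‖ ≤ d) →
      ∀ j : ℕ, j ≤ i → ∀ x, ‖x‖ ≤ R → ‖iteratedFDeriv ℝ j f x‖ ≤ η := by
  induction i with
  | zero =>
    intro R η hR hη
    refine ⟨η, hη, fun f _ _ hd j hj x hx => ?_⟩
    obtain rfl : j = 0 := by omega
    rw [norm_iteratedFDeriv_zero]
    exact hd x (by linarith)
  | succ i ih =>
    intro R η hR hη
    obtain ⟨h, hh⟩ : ∃ h : ℝ, h = min ((R₀ - R) / 2) (η / (2 * (|K| + 1))) := ⟨_, rfl⟩
    have hK1 : 0 < |K| + 1 := by positivity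
    have hpos : 0 < h := by
      rw [hh]; exact lt_min (by linarith) (by positivity)
    have hh1 : h ≤ (R₀ - R) / 2 := hh ▸ min_le_left _ _
    have hh2 : h ≤ η / (2 * (|K| + 1)) := hh ▸ min_le_right _ _
    obtain ⟨d, hd, H⟩ := ih (by omega) (R + h) (min η (η * h / 4)) (by linarith)
      (lt_min hη (by positivity))
    refine ⟨d, hd, fun f hf hb hd0 j hj x hx => ?_⟩
    have H' := H f hf hb hd0
    rcases Nat.lt_or_ge j (i + 1) with hj' | hj'
    · exact (H' j (by omega) x (by linarith)).trans (min_le_left _ _)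
    · obtain rfl : j = i + 1 := by omega
      rw [← norm_fderiv_iteratedFDeriv]
      have hdiff : Differentiable ℝ (iteratedFDeriv ℝ i f) :=
        hf.differentiable_iteratedFDeriv (by exact_mod_cast (by omega : i < J + 1))
      have := ci_step (iteratedFDeriv ℝ i f) hdiff |K| (η * h / 4) h R (abs_nonneg K) hpos
        (ci_lip f (J + 1) i hf (by omega) |K|
          (fun z => (hb (i + 2) (by omega) (by omega) z).trans (le_abs_self K)))
        (fun z hz => (H' i le_rfl z hz).trans (min_le_right _ _)) x hx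
      refine this.trans ?_
      have e1 : 2 * (η * h / 4) / h = η / 2 := by field_simp; ring
      have e2 : |K| * h ≤ η / 2 := by
        have : (|K| + 1) * h ≤ η / 2 := by
          rw [le_div_iff₀ (by positivity)] at hh2
          nlinarith
        nlinarith
      rw [e1]; linarith

end general

/-- the derivatives of a bump function are bounded -/
theorem ci_bump_bound (m J : ℕ) (b : ContDiffBump (0 : E m)) :
    ∃ C : ℝ, 0 < C ∧ ∀ i : ℕ, i ≤ J → ∀ x, ‖iteratedFDeriv ℝ i (fun x => b x) x‖ ≤ C := by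
  have h : ∀ i : ℕ, ∃ C : ℝ, ∀ x, ‖iteratedFDeriv ℝ i (fun x => b x) x‖ ≤ C := fun i =>
    (b.contDiff.continuous_iteratedFDeriv (m := i) (by exact_mod_cast le_top)).bounded_above_of_compact_support
      (b.hasCompactSupport.iteratedFDeriv i)
  choose C hC using h
  refine ⟨∑ i ∈ Finset.range (J + 1), |C i| + 1, by positivity, fun i hi x => ?_⟩
  have h1 : |C i| ≤ ∑ i ∈ Finset.range (J + 1), |C i| :=
    Finset.single_le_sum (f := fun i => |C i|) (fun _ _ => abs_nonneg _) (Finset.mem_range.2 (by omega))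
  linarith [hC i x, le_abs_self (C i)]

/-- **Interpolation and cutoff**, for a general bump function -/
theorem ci_main (m n J : ℕ) (b : ContDiffBump (0 : E m)) (R₀ : ℝ) (hb : b.rOut < R₀) (K ε : ℝ)
    (hε : 0 < ε) :
    ∃ d : ℝ, 0 < d ∧ ∀ f : E m → E n, ContDiff ℝ (J + 1 : ℕ) f →
      (∀ j : ℕ, 1 ≤ j → j ≤ J + 1 → ∀ x, ‖iteratedFDeriv ℝ j f x‖ ≤ K) →
      (∀ x, ‖x‖ ≤ R₀ → ‖f x‖ ≤ d) →
      ∀ j : ℕ, j ≤ J → ∀ x, ‖iteratedFDeriv ℝ j (fun x => b x • f x) x‖ ≤ ε := by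
  obtain ⟨C, hC, hCb⟩ := ci_bump_bound m J b
  obtain ⟨d, hd, H⟩ := ci_interp (X := E m) (Y := E n) J K R₀ J le_rfl b.rOut (ε / (2 ^ J * C)) hb
    (by positivity)
  refine ⟨d, hd, fun f hf hK hd0 j hj x => ?_⟩
  have H' := H f hf hK hd0
  have hbs : ContDiff ℝ (J + 1 : ℕ) (fun x => b x) := b.contDiff
  refine (norm_iteratedFDeriv_smul_le hbs hf x (n := j) (by exact_mod_cast (by omega : j ≤ J + 1))).trans ?_
  have hterm : ∀ i ∈ Finset.range (j + 1), (j.choose i : ℝ) * ‖iteratedFDeriv ℝ i (fun x => b x) x‖ *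
      ‖iteratedFDeriv ℝ (j - i) f x‖ ≤ (j.choose i : ℝ) * (C * (ε / (2 ^ J * C))) := by
    intro i hi
    rw [Finset.mem_range] at hi
    rw [mul_assoc]
    refine mul_le_mul_of_nonneg_left ?_ (by positivity)
    by_cases hx : x ∈ tsupport (fun x => b x)
    · have hx' : ‖x‖ ≤ b.rOut := by
        have : x ∈ Metric.closedBall (0 : E m) b.rOut := by
          rw [← b.tsupport_eq]; exact hx
        simpa using this
      exact mul_le_mul (hCb i (by omega) x) (H' (j - i) (by omega) x hx') (norm_nonneg _) hC.le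
    · have : iteratedFDeriv ℝ i (fun x => b x) x = 0 := by
        by_contra hne
        exact hx (support_iteratedFDeriv_subset (𝕜 := ℝ) i hne)
      rw [this, norm_zero, zero_mul]
      positivity
  refine (Finset.sum_le_sum hterm).trans ?_
  rw [← Finset.sum_mul, ← Nat.cast_sum, Nat.sum_range_choose]
  have h2 : ((2 ^ j : ℕ) : ℝ) ≤ 2 ^ J := by
    push_cast
    exact pow_le_pow_right₀ (by norm_num) hj
  calc ((2 ^ j : ℕ) : ℝ) * (C * (ε / (2 ^ J * C))) ≤ 2 ^ J * (C * (ε / (2 ^ J * C))) :=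
        mul_le_mul_of_nonneg_right h2 (by positivity)
    _ = ε := by field_simp

end Claimed.Agent.R322.Tool
end

/- ===== packed: Claimed.Agent.R322.Tool.Whitney ===== -/
section
/-!
# Whitney partition of unity for a `1`-Lipschitz scale function; interpolation with a cutoff

Shared tools (paper-free, Mathlib only).

* `whitney_pou` : CO Section 5 ("Cover `{t > 0}` by balls of radii a small fixed multiple of `t` ..."), AE Proposition 7.3 (gluing).
* `cut_interp`  : a function which is small in `C⁰` and bounded in `C^{J+1}` on `ball 0 20` is small in `C^J` after a cutoff.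
-/

set_option autoImplicit false

open scoped ContDiff ENNReal
open MeasureTheory

namespace Claimed.Agent.R322.Tool

/-- **Whitney partition of unity.**  `t ≥ 0` is `1`-Lipschitz.  The cells are the balls `ball (p k) (c t(p k))` (empty if
`t (p k) = 0`, then `χ k = 0`).

PLAN.  For `j : ℤ` let `l_j = c 2^j / 8` and select the grid points `x = gpt m l_j κ` with `2^{j-1} ≤ t x < 2^{j+2}` (OVERLAPPING
windows); enumerate all selected pairs `(j, κ)` by `ℕ` (if some point has `t = 0` fill up with it; otherwise the selected set is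
infinite because `1 ≤ m`).  Raw bumps
`b_k y = β (|y - p_k|² / (c t(p_k) / 2)²)` with a fixed smooth `β : ℝ → [0,1]`, `β = 1` on `[0, 1/4]`, `β = 0` on `[1, ∞)`.
If `2^j ≤ t y < 2^{j+1}`, a grid point `x` of the scale `j` lies within `l_j` of `y`; `t x ∈ [2^j - l_j, 2^{j+1} + l_j)`, so it is selected
and `|y - x| ≤ l_j ≤ c t x / 4`, so `Σ b ≥ 1`; if `b_k y ≠ 0` then `t (p k) / t y ∈ [1/(1+c), 1/(1-c)]`, so only five scales and
boundedly many grid points contribute (`grid_pou`, last items).  `χ_k = b_k / Σ b` on `{t > 0}`, `0` elsewhere (smooth because `tsupport b_k ⊆ {t > 0}`).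
Derivatives: `norm_iteratedFDeriv_mul_le`, `norm_iteratedFDeriv_comp_le` for `s ↦ 1/s` on `[1, Nov]`. -/
theorem whitney_pou (m J : ℕ) (hm : 1 ≤ m) (c : ℝ) (hc : 0 < c) (hc1 : c ≤ 1 / 10) :
    ∃ (C : ℝ) (Nov : ℕ), 0 < C ∧ ∀ t : E m → ℝ, (∀ y, 0 ≤ t y) → (∀ y y', |t y - t y'| ≤ ‖y - y'‖) →
      ∃ (p : ℕ → E m) (χ : ℕ → E m → ℝ),
        (∀ k, ContDiff ℝ ∞ (χ k)) ∧ (∀ k y, 0 ≤ χ k y ∧ χ k y ≤ 1) ∧
        (∀ k, tsupport (χ k) ⊆ Metric.ball (p k) (c * t (p k))) ∧
        (∀ y, {k | χ k y ≠ 0}.Finite) ∧ (∀ y, 0 < t y → ∑ᶠ k, χ k y = 1) ∧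
        (∀ k (j : ℕ), j ≤ J → ∀ y, t (p k) ^ j * ‖iteratedFDeriv ℝ j (χ k) y‖ ≤ C) ∧
        (∀ y, {k | y ∈ Metric.ball (p k) (c * t (p k))}.Finite ∧
          {k | y ∈ Metric.ball (p k) (c * t (p k))}.ncard ≤ Nov) ∧
        (∀ (ρ : Measure (E m)) (A : Set (E m)), MeasurableSet A →
          ∑' k : ℕ, ρ (Metric.ball (p k) (c * t (p k)) ∩ A) ≤ (Nov : ℝ≥0∞) * ρ A) :=
  whitney_pou_pf m J hm c hc hc1

/-- the fixed cutoff: `1` on `closedBall 0 16`, support `ball 0 18` -/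
noncomputable def cutB (m : ℕ) : ContDiffBump (0 : E m) := ⟨16, 18, by norm_num, by norm_num⟩

/-- **Interpolation and cutoff.**

PLAN.  One step: if `g` is `C²` on `ball 0 R`, `|g| ≤ d`, `|D²g| ≤ K` there, `0 < h`, then `|Dg x| ≤ 2 d / h + K h / 2` for
`x ∈ ball 0 (R - h)` (Taylor along segments: `g (x + h v) - g x - h Dg x v`, mean value inequality for `Dg`).  Apply it to
`g = iteratedFDeriv ℝ j f` (`norm_fderiv_iteratedFDeriv`, `iteratedFDeriv_succ_eq_comp_left`) with `h = sqrt d_j ≤ 1 / (J+1)`: `d_{j+1} = (2 + K) sqrt d_j`,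
radii `20 - j / (J + 1) ≥ 19`.  Product with the cutoff: `norm_iteratedFDeriv_mul_le` / `ContinuousLinearMap.norm_iteratedFDeriv_le_of_bilinear`;
the derivatives of `cutB m` are bounded (continuous with compact support); outside `ball 0 18` the product vanishes identically. -/
theorem cut_interp (m n J : ℕ) (K ε : ℝ) (hε : 0 < ε) :
    ∃ d : ℝ, 0 < d ∧ ∀ f : E m → E n, ContDiff ℝ (J + 1 : ℕ) f →
      (∀ j : ℕ, 1 ≤ j → j ≤ J + 1 → ∀ x, ‖iteratedFDeriv ℝ j f x‖ ≤ K) →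
      (∀ x, ‖x‖ ≤ 20 → ‖f x‖ ≤ d) →
      ∀ j : ℕ, j ≤ J → ∀ x, ‖iteratedFDeriv ℝ j (fun x => cutB m x • f x) x‖ ≤ ε :=
  ci_main m n J (cutB m) 20 (by norm_num [cutB]) K ε hε

end Claimed.Agent.R322.Tool
end

/- ===== packed: Claimed.Agent.R322.Flat.Defs ===== -/
section
/-!
# CO Proposition 2.1: output structure (flat scales carrying many density-`Q` centres)
-/

set_option autoImplicit false

open scoped ENNReal ContDiff
open MeasureTheory

namespace Claimed.Agent.R322.Flat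

/-- Output of CO Proposition 2.1.  The varifold `W` is already translated and rotated: the fixed
singular point is `0` and the limit plane is the horizontal plane `E m × {0}`. -/
structure FlatData (m n : ℕ) (s : ℝ) where
  W : SIV m n
  Q : ℕ
  Q_pos : 1 ≤ Q
  zero_sing : (0 : E (m + n)) ∈ W.sing
  dens_zero : W.Θ 0 = Q
  /-- target scales -/
  L : ℕ → ℝ
  L_pos : ∀ i, 0 < L i
  L_lim : Filter.Tendsto L Filter.atTop (nhds 0)
  /-- the weights of the rescalings `V_{L i}` converge to `Q` times the horizontal plane -/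
  flat : ∀ g : E (m + n) → ℝ, Continuous g → HasCompactSupport g →
    Filter.Tendsto (fun i => ((L i) ^ m)⁻¹ * ∫ x, g ((L i)⁻¹ • x) ∂W.μ) Filter.atTop
      (nhds (Q * ∫ y : E m, g (mkHV y 0) ∂μH[(m : ℝ)]))
  /-- compact set of density-`Q` points carrying the centre measures -/
  K : Set (E (m + n))
  K_cpt : IsCompact K
  K_sub : K ⊆ W.support
  K_dens : ∀ p ∈ K, W.Θ p = Q
  /-- centre measures, in target units -/
  σ : ℕ → Measure (E (m + n))
  σ_supp : ∀ i, σ i {X | ¬ (‖X‖ ≤ 1 ∧ L i • X ∈ K)} = 0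
  c : ℝ
  C : ℝ
  c_pos : 0 < c
  σ_ball : ∀ i (X : E (m + n)) (u : ℝ), 0 < u → σ i (Metric.ball X u) ≤ ENNReal.ofReal (C * u ^ s)
  σ_lower : ∀ i, ENNReal.ofReal c ≤ σ i Set.univ
  σ_upper : ∀ i, σ i Set.univ ≤ ENNReal.ofReal C

end Claimed.Agent.R322.Flat
end
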