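/- Packed by merge_tool.py (helper293): 3 modules of Claimed.Agent.R322 in one file, same declarations.
   Old modules, in this order: Tube.Transport, Tube.RegraphAux, Tube.Regraph -/
import Claimed.Agent.R322.Pack010
import Claimed.Agent.R322.Pack016
import Claimed.Agent.R322.Pack012
import Claimed.Agent.R322.Pack044
import Claimed.Agent.R322.Pack017
import Claimed.Agent.R322.Pack047

/- ===== packed: Claimed.Agent.R322.Tube.Transport ===== -/
section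
/-!
# Invariance of the geometric quantities of a graph under similarities (proof of `Tube.transport`)

`u, u'` are two graph functions with `F' (ψ y) = r⁻¹ G (F y)` for `y` in an open set `A`,
`ψ y = r⁻¹ prH (G (F y))`.
-/

set_option autoImplicit false

open scoped ENNReal ContDiff Topology
open MeasureTheory

namespace Claimed.Agent.R322.Tube

local notation "adj" => ContinuousLinearMap.adjoint

variable {m n : ℕ}

/-- `HS u` is `C¹` if `u` is `C³`. -/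
theorem tr_contDiff_HS {u : E m → E n} (hu : ContDiff ℝ 3 u) : ContDiff ℝ 1 (HS u) := by
  have h2 : ContDiff ℝ 1 (Pv u) := contDiff_Pv_of (k := 1) (hu.of_le (by norm_num))
  have h3 : ContDiff ℝ 1 (fun y => (gmat (fderiv ℝ u y)).inverse) :=
    contDiff_gmat_inverse_Du (k := 1) (hu.of_le (by norm_num))
  have h4 : ContDiff ℝ 1 (D2 u) := by
    have h5 : ContDiff ℝ 2 (fderiv ℝ u) := contDiff_Du (k := 2) (by exact_mod_cast hu)
    exact h5.fderiv_right (by norm_num)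
  unfold HS II
  refine ContDiff.sum fun a _ => ?_
  refine h2.clm_apply ((inV m n).contDiff.comp ?_)
  exact (h4.clm_apply (h3.clm_apply contDiff_const)).clm_apply contDiff_const

/-- conjugation by a linear isometry, as a continuous linear map on operators -/
noncomputable def conjL {N : ℕ} (G : E N ≃ₗᵢ[ℝ] E N) : (E N →L[ℝ] E N) →L[ℝ] (E N →L[ℝ] E N) :=
  (ContinuousLinearMap.compL ℝ (E N) (E N) (E N) (G : E N →L[ℝ] E N)) ∘L
    ((ContinuousLinearMap.compL ℝ (E N) (E N) (E N)).flip (G.symm : E N →L[ℝ] E N))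

theorem conjL_apply {N : ℕ} (G : E N ≃ₗᵢ[ℝ] E N) (T : E N →L[ℝ] E N) :
    conjL G T = (G : E N →L[ℝ] E N) ∘L T ∘L (G.symm : E N →L[ℝ] E N) := rfl

theorem trc_conjL {N : ℕ} (G : E N ≃ₗᵢ[ℝ] E N) (T : E N →L[ℝ] E N) : trc (conjL G T) = trc T := by
  rw [conjL_apply, trc_comp_comm, ContinuousLinearMap.comp_assoc]
  have : (G.symm : E N →L[ℝ] E N) ∘L (G : E N →L[ℝ] E N) = ContinuousLinearMap.id ℝ _ := by
    ext1 v; simp
  rw [this, ContinuousLinearMap.comp_id]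

/-- the derivative of `ψ` -/
noncomputable def Dps (u : E m → E n) (G : E (m + n) ≃ₗᵢ[ℝ] E (m + n)) (r : ℝ) (y : E m) : E m →L[ℝ] E m :=
  r⁻¹ • (prH m n ∘L (G : E (m + n) →L[ℝ] E (m + n)) ∘L dF (fderiv ℝ u y))

/-- the hypotheses of the transport theorem -/
structure Simil (u u' : E m → E n) (G : E (m + n) ≃ₗᵢ[ℝ] E (m + n)) (r : ℝ) (A : Set (E m))
    (ψ : E m → E m) : Prop where
  su : ContDiff ℝ 4 u
  su' : ContDiff ℝ 4 u'
  r_pos : 0 < r
  isOpen : IsOpen A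
  psi : ∀ y, ψ y = r⁻¹ • prH m n (G (Fg u y))
  graph : ∀ y ∈ A, Fg u' (ψ y) = r⁻¹ • G (Fg u y)

namespace Simil

variable {u u' : E m → E n} {G : E (m + n) ≃ₗᵢ[ℝ] E (m + n)} {r : ℝ} {A : Set (E m)} {ψ : E m → E m}


theorem du (h : Simil u u' G r A ψ) : Differentiable ℝ u := h.su.differentiable (by norm_num)

theorem du' (h : Simil u u' G r A ψ) : Differentiable ℝ u' := h.su'.differentiable (by norm_num)

theorem hasFDerivAt_psi (h : Simil u u' G r A ψ) (y : E m) : HasFDerivAt ψ (Dps u G r y) y := by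
  have h1 : ψ = fun y => r⁻¹ • prH m n (G (Fg u y)) := funext h.psi
  rw [h1]
  have h2 := hasFDerivAt_Fg (h.du y)
  have h3 : HasFDerivAt (fun y => (G : E (m + n) →L[ℝ] E (m + n)) (Fg u y))
      ((G : E (m + n) →L[ℝ] E (m + n)) ∘L dF (fderiv ℝ u y)) y :=
    (G : E (m + n) →L[ℝ] E (m + n)).hasFDerivAt.comp y h2
  have h4 := ((prH m n).hasFDerivAt.comp y h3).const_smul r⁻¹
  exact h4

/-- chain rule for the graph identity -/
theorem chain (h : Simil u u' G r A ψ) {y : E m} (hy : y ∈ A) :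
    dF (fderiv ℝ u' (ψ y)) ∘L Dps u G r y
      = r⁻¹ • ((G : E (m + n) →L[ℝ] E (m + n)) ∘L dF (fderiv ℝ u y)) := by
  have h1 : HasFDerivAt (fun y => Fg u' (ψ y)) (dF (fderiv ℝ u' (ψ y)) ∘L Dps u G r y) y :=
    (hasFDerivAt_Fg (h.du' (ψ y))).comp y (h.hasFDerivAt_psi y)
  have h2 : HasFDerivAt (fun y => r⁻¹ • (G : E (m + n) →L[ℝ] E (m + n)) (Fg u y))
      (r⁻¹ • ((G : E (m + n) →L[ℝ] E (m + n)) ∘L dF (fderiv ℝ u y))) y :=
    ((G : E (m + n) →L[ℝ] E (m + n)).hasFDerivAt.comp y (hasFDerivAt_Fg (h.du y))).const_smul r⁻¹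
  have h3 : (fun y => Fg u' (ψ y)) =ᶠ[𝓝 y] fun y => r⁻¹ • (G : E (m + n) →L[ℝ] E (m + n)) (Fg u y) := by
    filter_upwards [h.isOpen.mem_nhds hy] with y' hy'
    exact h.graph y' hy'
  exact h1.unique (h2.congr_of_eventuallyEq h3)

theorem chain_apply (h : Simil u u' G r A ψ) {y : E m} (hy : y ∈ A) (α : E m) :
    dF (fderiv ℝ u' (ψ y)) (Dps u G r y α) = r⁻¹ • G (dF (fderiv ℝ u y) α) := by
  have := congrArg (fun T : E m →L[ℝ] E (m + n) => T α) (h.chain hy)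
  simpa using this

theorem Dpsi_injective (h : Simil u u' G r A ψ) {y : E m} (hy : y ∈ A) :
    Function.Injective (Dps u G r y) := by
  intro a b hab
  have h1 := h.chain_apply hy a
  have h2 := h.chain_apply hy b
  rw [hab, h2] at h1
  have h3 : G (dF (fderiv ℝ u y) b) = G (dF (fderiv ℝ u y) a) :=
    smul_right_injective _ (inv_ne_zero h.r_pos.ne') h1
  exact (dF_injective _ (G.injective h3)).symm

theorem Dpsi_surjective (h : Simil u u' G r A ψ) {y : E m} (hy : y ∈ A) :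
    Function.Surjective (Dps u G r y) :=
  (LinearMap.injective_iff_surjective (f := ((Dps u G r y : E m →L[ℝ] E m) : E m →ₗ[ℝ] E m))).1
    (h.Dpsi_injective hy)

/-- tangent projections are conjugate -/
theorem Ph_eq (h : Simil u u' G r A ψ) {y : E m} (hy : y ∈ A) :
    Ph u' (ψ y) = conjL G (Ph u y) := by
  ext1 w
  rw [conjL_apply]
  simp only [ContinuousLinearMap.comp_apply]
  unfold Ph
  conv_lhs => unfold PhA
  refine Submodule.eq_starProjection_of_mem_of_inner_eq_zero ?_ ?_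
  · rw [PhA_eq]
    refine ⟨r • Dps u G r y (dFp (fderiv ℝ u y) (G.symm w)), ?_⟩
    have := h.chain_apply hy (dFp (fderiv ℝ u y) (G.symm w))
    simp only [ContinuousLinearMap.coe_coe, map_smul, this, smul_smul,
      mul_inv_cancel₀ h.r_pos.ne', one_smul]
    rfl
  · rintro p ⟨β, rfl⟩
    obtain ⟨α, rfl⟩ := h.Dpsi_surjective hy β
    have h1 := h.chain_apply hy α
    simp only [ContinuousLinearMap.coe_coe]
    rw [h1]
    have h2 : w - (G : E (m + n) →L[ℝ] E (m + n)) (PhA (fderiv ℝ u y)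
        ((G.symm : E (m + n) →L[ℝ] E (m + n)) w)) = G (Pv u y (G.symm w)) := by
      unfold Pv Ph
      simp
    rw [h2, inner_smul_right, LinearIsometryEquiv.inner_map_map]
    have h3 : inner ℝ (Pv u y (G.symm w)) (dF (fderiv ℝ u y) α)
        = inner ℝ (G.symm w) ((Pv u y ∘L dF (fderiv ℝ u y)) α) := by
      rw [ContinuousLinearMap.comp_apply, inner_Pv_left]
    rw [h3, Pv_comp_dF]
    simp

theorem Pv_eq (h : Simil u u' G r A ψ) {y : E m} (hy : y ∈ A) :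
    Pv u' (ψ y) = conjL G (Pv u y) := by
  unfold Pv
  rw [h.Ph_eq hy, map_sub]
  congr 1
  rw [conjL_apply]
  ext1 v
  simp

theorem dFp_eq (h : Simil u u' G r A ψ) {y : E m} (hy : y ∈ A) (a : E (m + n)) :
    dFp (fderiv ℝ u' (ψ y)) (G a) = r • Dps u G r y (dFp (fderiv ℝ u y) a) := by
  apply dF_injective (fderiv ℝ u' (ψ y))
  have h1 : dF (fderiv ℝ u' (ψ y)) (dFp (fderiv ℝ u' (ψ y)) (G a)) = Ph u' (ψ y) (G a) := by
    unfold Ph
    rw [PhA_eq]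
    rfl
  have h2 : dF (fderiv ℝ u y) (dFp (fderiv ℝ u y) a) = Ph u y a := by
    unfold Ph
    rw [PhA_eq]
    rfl
  rw [h1, h.Ph_eq hy, conjL_apply, map_smul, h.chain_apply hy, h2, smul_smul,
    mul_inv_cancel₀ h.r_pos.ne', one_smul]
  simp

theorem dPh_eq (h : Simil u u' G r A ψ) {y : E m} (hy : y ∈ A) (α : E m) :
    fderiv ℝ (Ph u') (ψ y) (Dps u G r y α) = conjL G (fderiv ℝ (Ph u) y α) := by
  have h1 : HasFDerivAt (fun y => Ph u' (ψ y)) (fderiv ℝ (Ph u') (ψ y) ∘L Dps u G r y) y :=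
    (hasFDerivAt_Ph (h.su'.of_le (by norm_num)) (ψ y)).comp y (h.hasFDerivAt_psi y)
  have h2 : HasFDerivAt (fun y => conjL G (Ph u y)) (conjL G ∘L fderiv ℝ (Ph u) y) y :=
    (conjL G).hasFDerivAt.comp y (hasFDerivAt_Ph (h.su.of_le (by norm_num)) y)
  have h3 : (fun y => Ph u' (ψ y)) =ᶠ[𝓝 y] fun y => conjL G (Ph u y) := by
    filter_upwards [h.isOpen.mem_nhds hy] with y' hy'
    exact h.Ph_eq hy'
  have h4 := h1.unique (h2.congr_of_eventuallyEq h3)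
  have := congrArg (fun T : E m →L[ℝ] (E (m + n) →L[ℝ] E (m + n)) => T α) h4
  simpa using this

/-- shape operators are conjugate, with the factor `r` -/
theorem Shp_eq (h : Simil u u' G r A ψ) {y : E m} (hy : y ∈ A) (w : E (m + n)) :
    Shp u' (ψ y) (G w) = r • conjL G (Shp u y w) := by
  ext1 b
  obtain ⟨a, rfl⟩ := G.surjective b
  have h1 : Shp u' (ψ y) (G w) (G a)
      = fderiv ℝ (Ph u') (ψ y) (dFp (fderiv ℝ u' (ψ y)) (G a)) (Pv u' (ψ y) (G w)) := rfl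
  have h2 : Shp u y w a = fderiv ℝ (Ph u) y (dFp (fderiv ℝ u y) a) (Pv u y w) := rfl
  rw [h1, h.dFp_eq hy, map_smul, h.dPh_eq hy, h.Pv_eq hy]
  simp only [conjL_apply, ContinuousLinearMap.smul_apply, ContinuousLinearMap.comp_apply]
  simp [h2]

/-- mean curvature vectors -/
theorem HS_eq (h : Simil u u' G r A ψ) {y : E m} (hy : y ∈ A) :
    HS u' (ψ y) = r • G (HS u y) := by
  refine ext_inner_right ℝ fun v => ?_
  obtain ⟨w, rfl⟩ := G.surjective v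
  rw [← trc_Shp (h.su'.of_le (by norm_num)), h.Shp_eq hy, trc_smul, trc_conjL,
    trc_Shp (h.su.of_le (by norm_num)), inner_smul_left, LinearIsometryEquiv.inner_map_map]
  simp

theorem dHS_eq (h : Simil u u' G r A ψ) {y : E m} (hy : y ∈ A) (α : E m) :
    fderiv ℝ (HS u') (ψ y) (Dps u G r y α) = r • G (fderiv ℝ (HS u) y α) := by
  have d1 : DifferentiableAt ℝ (HS u') (ψ y) :=
    (tr_contDiff_HS (h.su'.of_le (by norm_num))).differentiable (by norm_num) _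
  have d2 : DifferentiableAt ℝ (HS u) y :=
    (tr_contDiff_HS (h.su.of_le (by norm_num))).differentiable (by norm_num) _
  have h1 : HasFDerivAt (fun y => HS u' (ψ y)) (fderiv ℝ (HS u') (ψ y) ∘L Dps u G r y) y :=
    d1.hasFDerivAt.comp y (h.hasFDerivAt_psi y)
  have h2 : HasFDerivAt (fun y => r • (G : E (m + n) →L[ℝ] E (m + n)) (HS u y))
      (r • ((G : E (m + n) →L[ℝ] E (m + n)) ∘L fderiv ℝ (HS u) y)) y :=
    ((G : E (m + n) →L[ℝ] E (m + n)).hasFDerivAt.comp y d2.hasFDerivAt).const_smul r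
  have h3 : (fun y => HS u' (ψ y)) =ᶠ[𝓝 y] fun y => r • (G : E (m + n) →L[ℝ] E (m + n)) (HS u y) := by
    filter_upwards [h.isOpen.mem_nhds hy] with y' hy'
    exact h.HS_eq hy'
  have h4 := h1.unique (h2.congr_of_eventuallyEq h3)
  have := congrArg (fun T : E m →L[ℝ] E (m + n) => T α) h4
  simpa using this

end Simil

theorem DHSsq_eq_trc (u : E m → E n) (y : E m) :
    DHSsq u y = trc (adj (DHSop u y) ∘L DHSop u y ∘L (gmat (fderiv ℝ u y)).inverse) := by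
  rw [trc_eq_sum]
  unfold DHSsq
  refine Finset.sum_congr rfl fun a _ => ?_
  simp only [ContinuousLinearMap.comp_apply, ContinuousLinearMap.adjoint_inner_left]
  rfl

namespace Simil

variable {u u' : E m → E n} {G : E (m + n) ≃ₗᵢ[ℝ] E (m + n)} {r : ℝ} {A : Set (E m)} {ψ : E m → E m}

theorem DHSop_comp (h : Simil u u' G r A ψ) {y : E m} (hy : y ∈ A) :
    DHSop u' (ψ y) ∘L Dps u G r y = r • ((G : E (m + n) →L[ℝ] E (m + n)) ∘L DHSop u y) := by
  ext1 α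
  simp only [DHSop, ContinuousLinearMap.comp_apply, ContinuousLinearMap.smul_apply]
  rw [h.dHS_eq hy, h.Pv_eq hy, conjL_apply]
  simp

theorem dFp_comp (h : Simil u u' G r A ψ) {y : E m} (hy : y ∈ A) :
    dFp (fderiv ℝ u' (ψ y))
      = r • (Dps u G r y ∘L dFp (fderiv ℝ u y) ∘L (G.symm : E (m + n) →L[ℝ] E (m + n))) := by
  ext1 b
  obtain ⟨a, rfl⟩ := G.surjective b
  rw [h.dFp_eq hy]
  simp

theorem ginv_eq (h : Simil u u' G r A ψ) {y : E m} (hy : y ∈ A) :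
    (gmat (fderiv ℝ u' (ψ y))).inverse
      = r ^ 2 • (Dps u G r y ∘L (gmat (fderiv ℝ u y)).inverse ∘L adj (Dps u G r y)) := by
  rw [← dFp_comp_adjoint_dFp, ← dFp_comp_adjoint_dFp, h.dFp_comp hy]
  have hG : adj (G.symm : E (m + n) →L[ℝ] E (m + n)) = (G : E (m + n) →L[ℝ] E (m + n)) := by
    rw [LinearIsometryEquiv.adjoint_eq_symm]
    rfl
  have hGG : (G.symm : E (m + n) →L[ℝ] E (m + n)) ∘L (G : E (m + n) →L[ℝ] E (m + n))
      = ContinuousLinearMap.id ℝ _ := by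
    ext1 v; simp
  ext1 v
  simp only [map_smul, ContinuousLinearMap.adjoint_comp, hG, ContinuousLinearMap.comp_apply,
    ContinuousLinearMap.smul_apply, smul_smul]
  simp [pow_two]

theorem DHSsq_eq (h : Simil u u' G r A ψ) {y : E m} (hy : y ∈ A) :
    DHSsq u' (ψ y) = r ^ 4 * DHSsq u y := by
  rw [DHSsq_eq_trc, DHSsq_eq_trc, h.ginv_eq hy]
  set B' := DHSop u' (ψ y)
  set B := DHSop u y
  set D := Dps u G r y
  set gi := (gmat (fderiv ℝ u y)).inverse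
  have hBD : B' ∘L D = r • ((G : E (m + n) →L[ℝ] E (m + n)) ∘L B) := h.DHSop_comp hy
  have hG : adj (G : E (m + n) →L[ℝ] E (m + n)) ∘L (G : E (m + n) →L[ℝ] E (m + n))
      = ContinuousLinearMap.id ℝ _ := by
    rw [LinearIsometryEquiv.adjoint_eq_symm]
    ext1 v; simp
  have e1 : adj B' ∘L B' ∘L (r ^ 2 • (D ∘L gi ∘L adj D))
      = r ^ 2 • ((adj B' ∘L (B' ∘L D) ∘L gi) ∘L adj D) := by
    ext1 v
    simp
  rw [e1, trc_smul, trc_comp_comm]
  have e2 : adj D ∘L adj B' ∘L (B' ∘L D) ∘L gi = adj (B' ∘L D) ∘L (B' ∘L D) ∘L gi := by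
    rw [ContinuousLinearMap.adjoint_comp]
    ext1 v
    simp
  rw [e2, hBD]
  have e3 : adj (r • ((G : E (m + n) →L[ℝ] E (m + n)) ∘L B)) ∘L
      (r • ((G : E (m + n) →L[ℝ] E (m + n)) ∘L B)) ∘L gi
      = r ^ 2 • (adj B ∘L (adj (G : E (m + n) →L[ℝ] E (m + n)) ∘L (G : E (m + n) →L[ℝ] E (m + n))) ∘L
        B ∘L gi) := by
    ext1 v
    simp [ContinuousLinearMap.adjoint_comp, smul_smul, pow_two]
  rw [e3, hG, trc_smul, ContinuousLinearMap.id_comp]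
  ring

end Simil

/-- **Invariance of the geometric quantities under similarities.** -/
theorem transport_aux {κ κ' : ℝ} {u u' : E m → E n} {G : E (m + n) ≃ₗᵢ[ℝ] E (m + n)} {r : ℝ}
    {A : Set (E m)} {ψ : E m → E m} (hu : Geo κ u) (hu' : Geo κ' u') (hr : 0 < r) (hA : IsOpen A)
    (hψ : ∀ y, ψ y = r⁻¹ • prH m n (G (Fg u y)))
    (hg : ∀ y ∈ A, Fg u' (ψ y) = r⁻¹ • G (Fg u y)) {y : E m} (hy : y ∈ A) :
    Ph u' (ψ y) = (G : E (m + n) →L[ℝ] E (m + n)) ∘L Ph u y ∘L (G.symm : E (m + n) →L[ℝ] E (m + n)) ∧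
    HS u' (ψ y) = r • G (HS u y) ∧
    DHSsq u' (ψ y) = r ^ 4 * DHSsq u y ∧
    ∀ w : E (m + n), Ph u y w = 0 → ‖w‖ < r * (1 / 4) →
      npr u' (r⁻¹ • G (Fg u y + w)) = ψ y ∧ zz u' (r⁻¹ • G (Fg u y + w)) = r⁻¹ • G w := by
  have h : Simil u u' G r A ψ := ⟨hu.smooth, hu'.smooth, hr, hA, hψ, hg⟩
  refine ⟨h.Ph_eq hy, h.HS_eq hy, h.DHSsq_eq hy, fun w hw hwn => ?_⟩
  have hn : ‖r⁻¹ • G w‖ < 1 / 4 := by
    rw [norm_smul, LinearIsometryEquiv.norm_map, Real.norm_eq_abs, abs_of_pos (inv_pos.2 hr),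
      inv_mul_lt_iff₀ hr]
    exact hwn
  have hX : r⁻¹ • G (Fg u y + w) = Fg u' (ψ y) + r⁻¹ • G w := by
    rw [hg y hy, map_add, smul_add]
  have hT : r⁻¹ • G (Fg u y + w) ∈ Tub u' (1 / 4) := by
    refine ⟨ψ y, ?_⟩
    rw [hX, add_sub_cancel_left]
    exact hn
  have hP : Ph u' (ψ y) (r⁻¹ • G w) = 0 := by
    rw [h.Ph_eq hy, conjL_apply]
    simp [hw]
  exact (tube_unique_of_le hu' le_rfl hT).2.2.2.2 (ψ y) (r⁻¹ • G w) hP hn hX

end Claimed.Agent.R322.Tube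
end

/- ===== packed: Claimed.Agent.R322.Tube.RegraphAux ===== -/
section
/-!
# Regraphing: auxiliary lemmas for `Tube/Regraph.lean` (`regraph_bij`, `regraph_bound`)

`rgPsi u G y = prH (G (F y))` is the unscaled change of the graph coordinate.
-/

set_option autoImplicit false
set_option maxSynthPendingDepth 3

open scoped ENNReal ContDiff Nat NNReal

namespace Claimed.Agent.R322.Tube

variable {m n : ℕ}

/-- unscaled change of the graph coordinate -/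
noncomputable def rgPsi (u : E m → E n) (G : E (m + n) ≃ₗᵢ[ℝ] E (m + n)) (y : E m) : E m :=
  prH m n (G (Fg u y))

/-- unscaled vertical part -/
noncomputable def rgV (u : E m → E n) (G : E (m + n) ≃ₗᵢ[ℝ] E (m + n)) (y : E m) : E n :=
  prV m n (G (Fg u y))

/-- an endomorphism which is bounded below is an equivalence -/
theorem rg_exists_equiv (T : E m →L[ℝ] E m) (c : ℝ) (hc : 0 < c) (h : ∀ a, c * ‖a‖ ≤ ‖T a‖) :
    ∃ e : E m ≃L[ℝ] E m, (e : E m →L[ℝ] E m) = T ∧ ∀ x, ‖e.symm x‖ ≤ c⁻¹ * ‖x‖ := by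
  have hinj : Function.Injective (T : E m →ₗ[ℝ] E m) := by
    intro a b hab
    have h1 : T (a - b) = 0 := by
      rw [map_sub]; exact sub_eq_zero.2 hab
    have h2 := h (a - b)
    rw [h1, norm_zero] at h2
    have h3 : ‖a - b‖ ≤ 0 := by
      by_contra hne
      push Not at hne
      nlinarith
    exact sub_eq_zero.1 (norm_le_zero_iff.1 h3)
  refine ⟨(LinearEquiv.ofInjectiveEndo (T : E m →ₗ[ℝ] E m) hinj).toContinuousLinearEquiv, ?_, ?_⟩
  · ext1 x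
    rfl
  · intro x
    obtain ⟨e, he⟩ : ∃ e : E m ≃L[ℝ] E m,
      e = (LinearEquiv.ofInjectiveEndo (T : E m →ₗ[ℝ] E m) hinj).toContinuousLinearEquiv := ⟨_, rfl⟩
    rw [← he]
    have h1 : T (e.symm x) = x := by
      have : e (e.symm x) = x := e.apply_symm_apply x
      rw [he] at this ⊢
      exact this
    have h2 := h (e.symm x)
    rw [h1] at h2
    rw [inv_mul_eq_div, le_div_iff₀ hc]
    linarith

theorem rg_norm_G (G : E (m + n) ≃ₗᵢ[ℝ] E (m + n)) (X : E (m + n)) : ‖G X‖ = ‖X‖ := G.norm_map X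

/-- lower bound for the horizontal block -/
theorem rg_block_lower (G : E (m + n) ≃ₗᵢ[ℝ] E (m + n)) {ε : ℝ} (hε : ε ≤ 1 / 4)
    (hG : ‖prV m n ∘L (G : E (m + n) →L[ℝ] E (m + n)) ∘L inH m n‖ ≤ ε) (a : E m) :
    3 / 4 * ‖a‖ ≤ ‖prH m n (G (inH m n a))‖ := by
  have h1 : ‖prV m n (G (inH m n a))‖ ≤ 1 / 4 * ‖a‖ := by
    have := (prV m n ∘L (G : E (m + n) →L[ℝ] E (m + n)) ∘L inH m n).le_opNorm a
    refine this.trans ?_
    exact mul_le_mul_of_nonneg_right (hG.trans hε) (norm_nonneg _)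
  have h2 := norm_sq_eq_prH_prV (G (inH m n a))
  rw [rg_norm_G, norm_inH] at h2
  have h3 : (3 / 4 * ‖a‖) ^ 2 ≤ ‖prH m n (G (inH m n a))‖ ^ 2 := by
    have h4 : ‖prV m n (G (inH m n a))‖ ^ 2 ≤ (1 / 4 * ‖a‖) ^ 2 :=
      pow_le_pow_left₀ (norm_nonneg _) h1 2
    nlinarith [sq_nonneg ‖a‖]
  exact (pow_le_pow_iff_left₀ (by positivity) (norm_nonneg _) two_ne_zero).1 h3

theorem rg_prH_G_le (G : E (m + n) ≃ₗᵢ[ℝ] E (m + n)) (X : E (m + n)) : ‖prH m n (G X)‖ ≤ ‖X‖ :=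
  (norm_prH_le _).trans (rg_norm_G G X).le

theorem rg_prV_G_le (G : E (m + n) ≃ₗᵢ[ℝ] E (m + n)) (X : E (m + n)) : ‖prV m n (G X)‖ ≤ ‖X‖ :=
  (norm_prV_le _).trans (rg_norm_G G X).le

/-- lower bound for `prH G dF(A)` -/
theorem rg_dpsi_lower (G : E (m + n) ≃ₗᵢ[ℝ] E (m + n)) {ε : ℝ} (hε : ε ≤ 1 / 4)
    (hG : ‖prV m n ∘L (G : E (m + n) →L[ℝ] E (m + n)) ∘L inH m n‖ ≤ ε) (A : E m →L[ℝ] E n)
    (hA : ‖A‖ ≤ ε) (a : E m) : 1 / 2 * ‖a‖ ≤ ‖prH m n (G (dF A a))‖ := by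
  have e : prH m n (G (dF A a)) = prH m n (G (inH m n a)) + prH m n (G (inV m n (A a))) := by
    have : dF A a = inH m n a + inV m n (A a) := rfl
    rw [this, map_add, map_add]
  have h1 := rg_block_lower G hε hG a
  have h2 : ‖prH m n (G (inV m n (A a)))‖ ≤ 1 / 4 * ‖a‖ := by
    refine (rg_prH_G_le G _).trans ?_
    rw [norm_inV]
    exact (A.le_opNorm a).trans (mul_le_mul_of_nonneg_right (hA.trans hε) (norm_nonneg _))
  rw [e]
  have h3 := norm_sub_le_norm_add (prH m n (G (inH m n a))) (prH m n (G (inV m n (A a))))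
  linarith

theorem rg_u_lip {u : E m → E n} {ε : ℝ} (hu : Differentiable ℝ u) (hs : ∀ y, ‖fderiv ℝ u y‖ ≤ ε)
    (y y' : E m) : ‖u y - u y'‖ ≤ ε * ‖y - y'‖ :=
  Convex.norm_image_sub_le_of_norm_fderiv_le (𝕜 := ℝ) (s := Set.univ) (fun z _ => hu z)
    (fun z _ => hs z) convex_univ (Set.mem_univ _) (Set.mem_univ _)

theorem rgPsi_sub (u : E m → E n) (G : E (m + n) ≃ₗᵢ[ℝ] E (m + n)) (y y' : E m) :
    rgPsi u G y - rgPsi u G y' =
      prH m n (G (inH m n (y - y'))) + prH m n (G (inV m n (u y - u y'))) := by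
  unfold rgPsi
  have e : Fg u y - Fg u y' = inH m n (y - y') + inV m n (u y - u y') := by
    rw [Fg_eq, Fg_eq, map_sub, map_sub]
    abel
  rw [← map_sub, ← map_sub, e, map_add, map_add]

theorem rgPsi_lower {u : E m → E n} (G : E (m + n) ≃ₗᵢ[ℝ] E (m + n)) {ε : ℝ} (hε : ε ≤ 1 / 4)
    (hu : Differentiable ℝ u) (hs : ∀ y, ‖fderiv ℝ u y‖ ≤ ε)
    (hG : ‖prV m n ∘L (G : E (m + n) →L[ℝ] E (m + n)) ∘L inH m n‖ ≤ ε) (y y' : E m) :
    ‖y - y'‖ ≤ 2 * ‖rgPsi u G y - rgPsi u G y'‖ := by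
  have h1 := rg_block_lower G hε hG (y - y')
  have h2 : ‖prH m n (G (inV m n (u y - u y')))‖ ≤ 1 / 4 * ‖y - y'‖ := by
    refine (rg_prH_G_le G _).trans ?_
    rw [norm_inV]
    exact (rg_u_lip hu hs y y').trans (mul_le_mul_of_nonneg_right hε (norm_nonneg _))
  rw [rgPsi_sub]
  have h3 := norm_sub_le_norm_add (prH m n (G (inH m n (y - y'))))
    (prH m n (G (inV m n (u y - u y'))))
  linarith

theorem rgPsi_upper {u : E m → E n} (G : E (m + n) ≃ₗᵢ[ℝ] E (m + n)) {ε : ℝ} (hε : ε ≤ 1 / 4)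
    (hu : Differentiable ℝ u) (hs : ∀ y, ‖fderiv ℝ u y‖ ≤ ε) (y y' : E m) :
    ‖rgPsi u G y - rgPsi u G y'‖ ≤ 2 * ‖y - y'‖ := by
  have h1 : ‖prH m n (G (inH m n (y - y')))‖ ≤ ‖y - y'‖ := by
    refine (rg_prH_G_le G _).trans ?_
    rw [norm_inH]
  have h2 : ‖prH m n (G (inV m n (u y - u y')))‖ ≤ 1 / 4 * ‖y - y'‖ := by
    refine (rg_prH_G_le G _).trans ?_
    rw [norm_inV]
    exact (rg_u_lip hu hs y y').trans (mul_le_mul_of_nonneg_right hε (norm_nonneg _))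
  rw [rgPsi_sub]
  have h3 := norm_add_le (prH m n (G (inH m n (y - y')))) (prH m n (G (inV m n (u y - u y'))))
  have := norm_nonneg (y - y')
  linarith

theorem rgPsi_injective {u : E m → E n} (G : E (m + n) ≃ₗᵢ[ℝ] E (m + n)) {ε : ℝ} (hε : ε ≤ 1 / 4)
    (hu : Differentiable ℝ u) (hs : ∀ y, ‖fderiv ℝ u y‖ ≤ ε)
    (hG : ‖prV m n ∘L (G : E (m + n) →L[ℝ] E (m + n)) ∘L inH m n‖ ≤ ε) :
    Function.Injective (rgPsi u G) := by
  intro y y' h
  have h1 := rgPsi_lower G hε hu hs hG y y'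
  rw [h, sub_self, norm_zero, mul_zero] at h1
  exact sub_eq_zero.1 (norm_le_zero_iff.1 h1)

theorem rgPsi_surjective {u : E m → E n} (G : E (m + n) ≃ₗᵢ[ℝ] E (m + n)) {ε : ℝ} (hε : ε ≤ 1 / 4)
    (hu : Differentiable ℝ u) (hs : ∀ y, ‖fderiv ℝ u y‖ ≤ ε)
    (hG : ‖prV m n ∘L (G : E (m + n) →L[ℝ] E (m + n)) ∘L inH m n‖ ≤ ε) :
    Function.Surjective (rgPsi u G) := by
  obtain ⟨e, he, hes⟩ := rg_exists_equiv
    (prH m n ∘L (G : E (m + n) →L[ℝ] E (m + n)) ∘L inH m n) (3 / 4) (by norm_num)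
    (fun a => rg_block_lower G hε hG a)
  have happ : ApproximatesLinearOn (rgPsi u G) (e : E m →L[ℝ] E m) Set.univ (1 / 4 : ℝ≥0) := by
    intro y _ y' _
    rw [he, rgPsi_sub]
    have : (prH m n ∘L (G : E (m + n) →L[ℝ] E (m + n)) ∘L inH m n) (y - y')
        = prH m n (G (inH m n (y - y'))) := rfl
    rw [this, add_sub_cancel_left]
    refine (rg_prH_G_le G _).trans ?_
    rw [norm_inV]
    refine (rg_u_lip hu hs y y').trans ?_
    have : ((1 / 4 : ℝ≥0) : ℝ) = 1 / 4 := by norm_num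
    rw [this]
    exact mul_le_mul_of_nonneg_right hε (norm_nonneg _)
  refine happ.surjective ?_
  rcases subsingleton_or_nontrivial (E m) with hS | hN
  · exact Or.inl hS
  · right
    have hpos : 0 < ‖(e.symm : E m →L[ℝ] E m)‖₊ := e.nnnorm_symm_pos
    have hle : ‖(e.symm : E m →L[ℝ] E m)‖₊ ≤ (4 / 3 : ℝ≥0) := by
      rw [← NNReal.coe_le_coe]
      refine ContinuousLinearMap.opNorm_le_bound _ (by positivity) fun x => ?_
      have := hes x
      have e2 : (((4 / 3 : ℝ≥0) : ℝ≥0) : ℝ) = (3 / 4 : ℝ)⁻¹ := by norm_num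
      rw [e2]
      exact this
    rw [NNReal.lt_inv_iff_mul_lt hpos.ne']
    calc (1 / 4 : ℝ≥0) * ‖(e.symm : E m →L[ℝ] E m)‖₊ ≤ 1 / 4 * (4 / 3) := by gcongr
      _ < 1 := by
        rw [← NNReal.coe_lt_coe]
        norm_num

/-! ### the scaled map -/

theorem rg_scaled_norm (u : E m → E n) (G : E (m + n) ≃ₗᵢ[ℝ] E (m + n)) {r : ℝ} (hr : 0 < r)
    (y y' : E m) :
    r * ‖r⁻¹ • rgPsi u G y - r⁻¹ • rgPsi u G y'‖ = ‖rgPsi u G y - rgPsi u G y'‖ := by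
  rw [← smul_sub, norm_smul, norm_inv, Real.norm_eq_abs, abs_of_pos hr, ← mul_assoc,
    mul_inv_cancel₀ hr.ne', one_mul]

theorem rg_scaled_bijective {u : E m → E n} (G : E (m + n) ≃ₗᵢ[ℝ] E (m + n)) {r : ℝ} (hr : 0 < r)
    {ε : ℝ} (hε : ε ≤ 1 / 4) (hu : Differentiable ℝ u) (hs : ∀ y, ‖fderiv ℝ u y‖ ≤ ε)
    (hG : ‖prV m n ∘L (G : E (m + n) →L[ℝ] E (m + n)) ∘L inH m n‖ ≤ ε) :
    Function.Bijective (fun y => r⁻¹ • rgPsi u G y) := by
  constructor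
  · intro y y' h
    exact rgPsi_injective G hε hu hs hG (smul_right_injective _ (inv_ne_zero hr.ne') h)
  · intro x
    obtain ⟨y, hy⟩ := rgPsi_surjective G hε hu hs hG (r • x)
    refine ⟨y, ?_⟩
    simp only [hy, smul_smul, inv_mul_cancel₀ hr.ne', one_smul]

theorem rg_mkHV_smul (c : ℝ) (X : E (m + n)) :
    mkHV (c • prH m n X) (c • prV m n X) = c • X := by
  rw [mkHV_eq, map_smul, map_smul, ← smul_add, inH_prH_add_inV_prV]

/-- all statements of `regraph_bij` -/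
theorem rg_bij_core {u : E m → E n} (G : E (m + n) ≃ₗᵢ[ℝ] E (m + n)) {r : ℝ} (hr : 0 < r)
    {ε : ℝ} (hε : ε ≤ 1 / 4) (hu : Differentiable ℝ u) (hs : ∀ y, ‖fderiv ℝ u y‖ ≤ ε)
    (hG : ‖prV m n ∘L (G : E (m + n) →L[ℝ] E (m + n)) ∘L inH m n‖ ≤ ε) :
    Function.Bijective (fun y => r⁻¹ • rgPsi u G y) ∧
    (∀ y y', ‖y - y'‖ ≤ 2 * r * ‖r⁻¹ • rgPsi u G y - r⁻¹ • rgPsi u G y'‖) ∧
    (∀ y y', r * ‖r⁻¹ • rgPsi u G y - r⁻¹ • rgPsi u G y'‖ ≤ 2 * ‖y - y'‖) ∧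
    (∀ y, Fg (fun x => r⁻¹ • prV m n (G (Fg u (Function.invFun (fun y => r⁻¹ • rgPsi u G y) x))))
      (r⁻¹ • rgPsi u G y) = r⁻¹ • G (Fg u y)) := by
  have hb := rg_scaled_bijective G hr hε hu hs hG
  refine ⟨hb, fun y y' => ?_, fun y y' => ?_, fun y => ?_⟩
  · rw [mul_assoc, rg_scaled_norm u G hr]
    exact rgPsi_lower G hε hu hs hG y y'
  · rw [rg_scaled_norm u G hr]
    exact rgPsi_upper G hε hu hs y y'
  · have h1 : Function.invFun (fun y => r⁻¹ • rgPsi u G y) (r⁻¹ • rgPsi u G y) = y :=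
      Function.leftInverse_invFun hb.1 y
    unfold Fg at h1 ⊢
    simp only [h1]
    exact rg_mkHV_smul _ _

/-! ### derivative bounds -/

theorem rg_clm_bound {X Y : Type*} [NormedAddCommGroup X] [NormedSpace ℝ X] [NormedAddCommGroup Y]
    [NormedSpace ℝ Y] (L : X →L[ℝ] Y) (j : ℕ) (hj : 1 ≤ j) (x : X) :
    ‖iteratedFDeriv ℝ j L x‖ ≤ ‖L‖ := by
  obtain ⟨k, rfl⟩ : ∃ k, j = k + 1 := ⟨j - 1, by omega⟩
  rw [← norm_iteratedFDeriv_fderiv]
  have : fderiv ℝ L = fun _ => L := funext fun x => L.fderiv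
  rw [this]
  rcases Nat.eq_zero_or_pos k with rfl | hk
  · simp
  · rw [iteratedFDeriv_const_of_ne (by omega)]
    simp

theorem rg_norm_inH_le : ‖inH m n‖ ≤ 1 :=
  ContinuousLinearMap.opNorm_le_bound _ zero_le_one fun y => by rw [norm_inH, one_mul]

theorem rg_norm_inV_le : ‖inV m n‖ ≤ 1 :=
  ContinuousLinearMap.opNorm_le_bound _ zero_le_one fun y => by rw [norm_inV, one_mul]

theorem rg_u_bound {J : ℕ} {K ε : ℝ} {u : E m → E n} (hu : RefGraph J K ε u) (hε : ε ≤ 1 / 4)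
    (j : ℕ) (h1 : 1 ≤ j) (hj : j ≤ J) (y : E m) : ‖iteratedFDeriv ℝ j u y‖ ≤ 1 + |K| := by
  rcases Nat.lt_or_ge j 2 with h2 | h2
  · obtain rfl : j = 1 := by omega
    rw [norm_iteratedFDeriv_one]
    have := hu.slope y
    have := abs_nonneg K
    linarith
  · have := hu.bound j h2 hj y
    have := le_abs_self K
    linarith

theorem rg_Fg_bound {J : ℕ} {K ε : ℝ} {u : E m → E n} (hu : RefGraph J K ε u) (hε : ε ≤ 1 / 4)
    (j : ℕ) (h1 : 1 ≤ j) (hj : j ≤ J) (y : E m) : ‖iteratedFDeriv ℝ j (Fg u) y‖ ≤ 2 + |K| := by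
  have huj : ContDiff ℝ j u := hu.smooth.of_le (by exact_mod_cast hj)
  have e : Fg u = (inH m n : E m → E (m + n)) + (inV m n ∘ u) := funext (Fg_eq u)
  rw [e, iteratedFDeriv_add_apply (inH m n).contDiff.contDiffAt
    ((inV m n).contDiff.comp huj).contDiffAt]
  refine (norm_add_le _ _).trans ?_
  have a1 := (rg_clm_bound (inH m n) j h1 y).trans rg_norm_inH_le
  have a2 := (inV m n).norm_iteratedFDeriv_comp_left (f := u) (x := y) (N := j) (n := j)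
    huj.contDiffAt le_rfl
  have a3 : ‖inV m n‖ * ‖iteratedFDeriv ℝ j u y‖ ≤ 1 * (1 + |K|) :=
    mul_le_mul rg_norm_inV_le (rg_u_bound hu hε j h1 hj y) (norm_nonneg _) zero_le_one
  linarith

theorem rg_norm_prH_G_le (G : E (m + n) ≃ₗᵢ[ℝ] E (m + n)) :
    ‖prH m n ∘L (G : E (m + n) →L[ℝ] E (m + n))‖ ≤ 1 :=
  ContinuousLinearMap.opNorm_le_bound _ zero_le_one fun X => by
    rw [one_mul]; exact rg_prH_G_le G X

theorem rg_norm_prV_G_le (G : E (m + n) ≃ₗᵢ[ℝ] E (m + n)) :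
    ‖prV m n ∘L (G : E (m + n) →L[ℝ] E (m + n))‖ ≤ 1 :=
  ContinuousLinearMap.opNorm_le_bound _ zero_le_one fun X => by
    rw [one_mul]; exact rg_prV_G_le G X

theorem rgPsi_bound {J : ℕ} {K ε : ℝ} {u : E m → E n} (G : E (m + n) ≃ₗᵢ[ℝ] E (m + n))
    (hu : RefGraph J K ε u) (hε : ε ≤ 1 / 4) (j : ℕ) (h1 : 1 ≤ j) (hj : j ≤ J) (y : E m) :
    ‖iteratedFDeriv ℝ j (rgPsi u G) y‖ ≤ 2 + |K| := by
  have huj : ContDiff ℝ j (Fg u) := contDiff_Fg_of (hu.smooth.of_le (by exact_mod_cast hj))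
  have a2 := (prH m n ∘L (G : E (m + n) →L[ℝ] E (m + n))).norm_iteratedFDeriv_comp_left
    (f := Fg u) (x := y) (N := j) (n := j) huj.contDiffAt le_rfl
  have a3 : ‖prH m n ∘L (G : E (m + n) →L[ℝ] E (m + n))‖ * ‖iteratedFDeriv ℝ j (Fg u) y‖
      ≤ 1 * (2 + |K|) :=
    mul_le_mul (rg_norm_prH_G_le G) (rg_Fg_bound hu hε j h1 hj y) (norm_nonneg _) zero_le_one
  rw [one_mul] at a3
  exact a2.trans a3

theorem rgV_bound {J : ℕ} {K ε : ℝ} {u : E m → E n} (G : E (m + n) ≃ₗᵢ[ℝ] E (m + n))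
    (hu : RefGraph J K ε u) (hε : ε ≤ 1 / 4) (j : ℕ) (h1 : 1 ≤ j) (hj : j ≤ J) (y : E m) :
    ‖iteratedFDeriv ℝ j (rgV u G) y‖ ≤ 2 + |K| := by
  have huj : ContDiff ℝ j (Fg u) := contDiff_Fg_of (hu.smooth.of_le (by exact_mod_cast hj))
  have a2 := (prV m n ∘L (G : E (m + n) →L[ℝ] E (m + n))).norm_iteratedFDeriv_comp_left
    (f := Fg u) (x := y) (N := j) (n := j) huj.contDiffAt le_rfl
  have a3 : ‖prV m n ∘L (G : E (m + n) →L[ℝ] E (m + n))‖ * ‖iteratedFDeriv ℝ j (Fg u) y‖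
      ≤ 1 * (2 + |K|) :=
    mul_le_mul (rg_norm_prV_G_le G) (rg_Fg_bound hu hε j h1 hj y) (norm_nonneg _) zero_le_one
  rw [one_mul] at a3
  exact a2.trans a3

theorem contDiff_rgPsi {k : ℕ∞ω} {u : E m → E n} (G : E (m + n) ≃ₗᵢ[ℝ] E (m + n))
    (hu : ContDiff ℝ k u) : ContDiff ℝ k (rgPsi u G) :=
  (prH m n ∘L (G : E (m + n) →L[ℝ] E (m + n))).contDiff.comp (contDiff_Fg_of hu)

theorem contDiff_rgV {k : ℕ∞ω} {u : E m → E n} (G : E (m + n) ≃ₗᵢ[ℝ] E (m + n))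
    (hu : ContDiff ℝ k u) : ContDiff ℝ k (rgV u G) :=
  (prV m n ∘L (G : E (m + n) →L[ℝ] E (m + n))).contDiff.comp (contDiff_Fg_of hu)

theorem hasFDerivAt_rgPsi {u : E m → E n} (G : E (m + n) ≃ₗᵢ[ℝ] E (m + n)) {y : E m}
    (hu : DifferentiableAt ℝ u y) :
    HasFDerivAt (rgPsi u G)
      ((prH m n ∘L (G : E (m + n) →L[ℝ] E (m + n))) ∘L dF (fderiv ℝ u y)) y :=
  (prH m n ∘L (G : E (m + n) →L[ℝ] E (m + n))).hasFDerivAt.comp y (hasFDerivAt_Fg hu)

theorem hasFDerivAt_rgV {u : E m → E n} (G : E (m + n) ≃ₗᵢ[ℝ] E (m + n)) {y : E m}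
    (hu : DifferentiableAt ℝ u y) :
    HasFDerivAt (rgV u G)
      ((prV m n ∘L (G : E (m + n) →L[ℝ] E (m + n))) ∘L dF (fderiv ℝ u y)) y :=
  (prV m n ∘L (G : E (m + n) →L[ℝ] E (m + n))).hasFDerivAt.comp y (hasFDerivAt_Fg hu)

/-- the inverse of `rgPsi` is `2`-Lipschitz -/
theorem rg_inv_lip {u : E m → E n} (G : E (m + n) ≃ₗᵢ[ℝ] E (m + n)) {ε : ℝ} (hε : ε ≤ 1 / 4)
    (hu : Differentiable ℝ u) (hs : ∀ y, ‖fderiv ℝ u y‖ ≤ ε)
    (hG : ‖prV m n ∘L (G : E (m + n) →L[ℝ] E (m + n)) ∘L inH m n‖ ≤ ε) :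
    LipschitzWith 2 (Function.invFun (rgPsi u G)) := by
  refine LipschitzWith.of_dist_le_mul fun x x' => ?_
  have hr := Function.rightInverse_invFun (rgPsi_surjective G hε hu hs hG)
  have := rgPsi_lower G hε hu hs hG (Function.invFun (rgPsi u G) x) (Function.invFun (rgPsi u G) x')
  rw [hr x, hr x'] at this
  rw [dist_eq_norm, dist_eq_norm]
  exact this

/-- `rgPsi` as a homeomorphism -/
noncomputable def rgHomeo {u : E m → E n} (G : E (m + n) ≃ₗᵢ[ℝ] E (m + n)) {ε : ℝ} (hε : ε ≤ 1 / 4)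
    (hu : Differentiable ℝ u) (hs : ∀ y, ‖fderiv ℝ u y‖ ≤ ε)
    (hG : ‖prV m n ∘L (G : E (m + n) →L[ℝ] E (m + n)) ∘L inH m n‖ ≤ ε) : E m ≃ₜ E m where
  toFun := rgPsi u G
  invFun := Function.invFun (rgPsi u G)
  left_inv := Function.leftInverse_invFun (rgPsi_injective G hε hu hs hG)
  right_inv := Function.rightInverse_invFun (rgPsi_surjective G hε hu hs hG)
  continuous_toFun := by
    have : Differentiable ℝ (rgPsi u G) := fun y => (hasFDerivAt_rgPsi G (hu y)).differentiableAt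
    exact this.continuous
  continuous_invFun := (rg_inv_lip G hε hu hs hG).continuous

theorem contDiff_rg_inv {J : ℕ} {K ε : ℝ} {u : E m → E n} (G : E (m + n) ≃ₗᵢ[ℝ] E (m + n))
    (hJ : 1 ≤ J) (hu : RefGraph J K ε u) (hε : ε ≤ 1 / 4)
    (hG : ‖prV m n ∘L (G : E (m + n) →L[ℝ] E (m + n)) ∘L inH m n‖ ≤ ε) :
    ContDiff ℝ J (Function.invFun (rgPsi u G)) := by
  have hd : Differentiable ℝ u :=
    hu.smooth.differentiable (by exact_mod_cast (by omega : J ≠ 0))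
  have hex : ∀ y, ∃ e : E m ≃L[ℝ] E m, (e : E m →L[ℝ] E m) =
      (prH m n ∘L (G : E (m + n) →L[ℝ] E (m + n))) ∘L dF (fderiv ℝ u y) := fun y => by
    obtain ⟨e, he, _⟩ := rg_exists_equiv
      ((prH m n ∘L (G : E (m + n) →L[ℝ] E (m + n))) ∘L dF (fderiv ℝ u y)) (1 / 2) (by norm_num)
      (fun a => rg_dpsi_lower G hε hG (fderiv ℝ u y) (hu.slope y) a)
    exact ⟨e, he⟩
  choose e he using hex
  exact (rgHomeo G hε hd hu.slope hG).contDiff_symm (f₀' := e)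
    (fun y => by rw [he y]; exact hasFDerivAt_rgPsi G (hd y)) (contDiff_rgPsi G hu.smooth)

theorem rg_pair {J : ℕ} {K ε : ℝ} {u : E m → E n} (G : E (m + n) ≃ₗᵢ[ℝ] E (m + n))
    (hJ : 1 ≤ J) (hu : RefGraph J K ε u) (hε : ε ≤ 1 / 4)
    (hG : ‖prV m n ∘L (G : E (m + n) →L[ℝ] E (m + n)) ∘L inH m n‖ ≤ ε) :
    Tool.IbPair J (2 + |K|) 2 (rgPsi u G) (Function.invFun (rgPsi u G)) := by
  have hd : Differentiable ℝ u :=
    hu.smooth.differentiable (by exact_mod_cast (by omega : J ≠ 0))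
  exact
  { hψ := contDiff_rgPsi G hu.smooth
    hχ := contDiff_rg_inv G hJ hu hε hG
    right := Function.rightInverse_invFun (rgPsi_surjective G hε hd hu.slope hG)
    left := Function.leftInverse_invFun (rgPsi_injective G hε hd hu.slope hG)
    bd := fun j h1 hj y => rgPsi_bound G hu hε j h1 hj y
    sl := fun x => by
      have := norm_fderiv_le_of_lipschitz ℝ (rg_inv_lip G hε hd hu.slope hG) (x₀ := x)
      simpa using this }

/-- upper bound for `prV G dF(A)` -/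
theorem rg_dV_upper (G : E (m + n) ≃ₗᵢ[ℝ] E (m + n)) {ε : ℝ}
    (hG : ‖prV m n ∘L (G : E (m + n) →L[ℝ] E (m + n)) ∘L inH m n‖ ≤ ε) (A : E m →L[ℝ] E n)
    (hA : ‖A‖ ≤ ε) : ‖(prV m n ∘L (G : E (m + n) →L[ℝ] E (m + n))) ∘L dF A‖ ≤ 2 * ε := by
  have hε : 0 ≤ ε := (norm_nonneg _).trans hA
  refine ContinuousLinearMap.opNorm_le_bound _ (by positivity) fun a => ?_
  have e : ((prV m n ∘L (G : E (m + n) →L[ℝ] E (m + n))) ∘L dF A) a
      = (prV m n ∘L (G : E (m + n) →L[ℝ] E (m + n)) ∘L inH m n) a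
        + prV m n (G (inV m n (A a))) := by
    have : dF A a = inH m n a + inV m n (A a) := rfl
    simp only [ContinuousLinearMap.comp_apply, this, map_add]
    rfl
  rw [e]
  refine (norm_add_le _ _).trans ?_
  have h1 := ((prV m n ∘L (G : E (m + n) →L[ℝ] E (m + n)) ∘L inH m n).le_opNorm a).trans
    (mul_le_mul_of_nonneg_right hG (norm_nonneg _))
  have h2 : ‖prV m n (G (inV m n (A a)))‖ ≤ ε * ‖a‖ := by
    refine (rg_prV_G_le G _).trans ?_
    rw [norm_inV]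
    exact (A.le_opNorm a).trans (mul_le_mul_of_nonneg_right hA (norm_nonneg _))
  linarith

/-- bounds for the unscaled regraphed function -/
theorem rg_bound_unscaled (m n J : ℕ) (K : ℝ) : ∃ C : ℝ, 0 < C ∧
    ∀ (u : E m → E n) (G : E (m + n) ≃ₗᵢ[ℝ] E (m + n)), 1 ≤ J → RefGraph J K (1 / 16) u →
    ‖prV m n ∘L (G : E (m + n) →L[ℝ] E (m + n)) ∘L inH m n‖ ≤ 1 / 16 →
    ContDiff ℝ J (fun x => rgV u G (Function.invFun (rgPsi u G) x)) ∧
    (∀ x, ‖fderiv ℝ (fun x => rgV u G (Function.invFun (rgPsi u G) x)) x‖ ≤ 1 / 4) ∧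
    ∀ j : ℕ, 1 ≤ j → j ≤ J → ∀ x,
      ‖iteratedFDeriv ℝ j (fun x => rgV u G (Function.invFun (rgPsi u G) x)) x‖ ≤ C := by
  obtain ⟨C, hC1, hC⟩ := Tool.ib_inverse (V := E m) J (2 + |K|) 2
  have hK : 0 < 2 + |K| := by positivity
  have hC0 : 0 < C := by linarith
  refine ⟨J ! * (2 + |K|) * C ^ J, by positivity, fun u G hJ hu hG => ?_⟩
  have hε : (1 / 16 : ℝ) ≤ 1 / 4 := by norm_num
  have hp := rg_pair G hJ hu hε hG
  have hd : Differentiable ℝ u :=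
    hu.smooth.differentiable (by exact_mod_cast (by omega : J ≠ 0))
  have hJ' : (J : ℕ∞ω) ≠ 0 := by exact_mod_cast (by omega : J ≠ 0)
  refine ⟨(contDiff_rgV G hu.smooth).comp hp.hχ, fun x => ?_, fun j h1 hj x => ?_⟩
  · have h1 : HasFDerivAt (fun x => rgV u G (Function.invFun (rgPsi u G) x))
        (((prV m n ∘L (G : E (m + n) →L[ℝ] E (m + n))) ∘L
          dF (fderiv ℝ u (Function.invFun (rgPsi u G) x))) ∘L
          fderiv ℝ (Function.invFun (rgPsi u G)) x) x :=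
      (hasFDerivAt_rgV G (hd _)).comp x ((hp.hχ.differentiable hJ') x).hasFDerivAt
    rw [h1.fderiv]
    refine (ContinuousLinearMap.opNorm_comp_le _ _).trans ?_
    have a1 := rg_dV_upper G hG (fderiv ℝ u (Function.invFun (rgPsi u G) x)) (hu.slope _)
    have a2 := hp.sl x
    calc _ ≤ (2 * (1 / 16 : ℝ)) * 2 := mul_le_mul a1 a2 (norm_nonneg _) (by norm_num)
      _ = 1 / 4 := by norm_num
  · have hjJ : ((j : ℕ) : ℕ∞ω) ≤ J := by exact_mod_cast hj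
    have key := Tool.ib_comp (g := rgV u G) (f := Function.invFun (rgPsi u G)) (n := j)
      ((contDiff_rgV G hu.smooth).of_le hjJ) (hp.hχ.of_le hjJ) h1 x (C := 2 + |K|) (D := C)
      (fun i hi1 hij => rgV_bound G hu hε i hi1 (hij.trans hj) _)
      (fun i hi1 hij => (hC _ _ hp i hi1 (hij.trans hj) x).trans (le_self_pow₀ hC1 (by omega)))
    refine key.trans ?_
    have hf : ((j ! : ℕ) : ℝ) ≤ (J ! : ℕ) := by exact_mod_cast Nat.factorial_le hj
    have hpw : C ^ j ≤ C ^ J := pow_le_pow_right₀ hC1 hj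
    exact mul_le_mul (mul_le_mul_of_nonneg_right hf hK.le) hpw (by positivity) (by positivity)

theorem rg_invFun_scaled {u : E m → E n} (G : E (m + n) ≃ₗᵢ[ℝ] E (m + n)) {r : ℝ} (hr : 0 < r)
    {ε : ℝ} (hε : ε ≤ 1 / 4) (hu : Differentiable ℝ u) (hs : ∀ y, ‖fderiv ℝ u y‖ ≤ ε)
    (hG : ‖prV m n ∘L (G : E (m + n) →L[ℝ] E (m + n)) ∘L inH m n‖ ≤ ε) (x : E m) :
    Function.invFun (fun y => r⁻¹ • rgPsi u G y) x = Function.invFun (rgPsi u G) (r • x) := by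
  have hb := rg_scaled_bijective G hr hε hu hs hG
  have h1 : rgPsi u G (Function.invFun (rgPsi u G) (r • x)) = r • x :=
    Function.rightInverse_invFun (rgPsi_surjective G hε hu hs hG) (r • x)
  have h2 : (fun y => r⁻¹ • rgPsi u G y) (Function.invFun (rgPsi u G) (r • x)) = x := by
    simp only [h1, smul_smul, inv_mul_cancel₀ hr.ne', one_smul]
  conv_lhs => rw [← h2]
  exact Function.leftInverse_invFun hb.1 _

/-- all statements of `regraph_bound` -/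
theorem rg_bound_core (m n J : ℕ) (K : ℝ) : ∃ C : ℝ, 0 < C ∧
    ∀ (u : E m → E n) (G : E (m + n) ≃ₗᵢ[ℝ] E (m + n)) (r : ℝ), 1 ≤ J → RefGraph J K (1 / 16) u →
    ‖prV m n ∘L (G : E (m + n) →L[ℝ] E (m + n)) ∘L inH m n‖ ≤ 1 / 16 → 0 < r → r ≤ 1 →
    ContDiff ℝ J
      (fun x => r⁻¹ • prV m n (G (Fg u (Function.invFun (fun y => r⁻¹ • rgPsi u G y) x)))) ∧
    (∀ x, ‖fderiv ℝ
      (fun x => r⁻¹ • prV m n (G (Fg u (Function.invFun (fun y => r⁻¹ • rgPsi u G y) x)))) x‖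
        ≤ 1 / 4) ∧
    ∀ j : ℕ, 1 ≤ j → j ≤ J → ∀ x, ‖iteratedFDeriv ℝ j
      (fun x => r⁻¹ • prV m n (G (Fg u (Function.invFun (fun y => r⁻¹ • rgPsi u G y) x)))) x‖
        ≤ C := by
  obtain ⟨C, hC0, hC⟩ := rg_bound_unscaled m n J K
  refine ⟨C, hC0, fun u G r hJ hu hG hr hr1 => ?_⟩
  obtain ⟨b1, b2, b3⟩ := hC u G hJ hu hG
  have hd : Differentiable ℝ u :=
    hu.smooth.differentiable (by exact_mod_cast (by omega : J ≠ 0))
  have hJ' : (J : ℕ∞ω) ≠ 0 := by exact_mod_cast (by omega : J ≠ 0)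
  have e : (fun x => r⁻¹ • prV m n (G (Fg u (Function.invFun (fun y => r⁻¹ • rgPsi u G y) x))))
      = fun x => r⁻¹ • (fun x => rgV u G (Function.invFun (rgPsi u G) x)) (r • x) := by
    funext x
    rw [rg_invFun_scaled G hr (by norm_num : (1 / 16 : ℝ) ≤ 1 / 4) hd hu.slope hG x]
    rfl
  rw [e]
  have hsm : ContDiff ℝ J (fun x : E m => r • x) := contDiff_const_smul r
  have hc1 : ContDiff ℝ J
      (fun x => (fun x => rgV u G (Function.invFun (rgPsi u G) x)) (r • x)) := b1.comp hsm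
  refine ⟨hc1.const_smul r⁻¹, fun x => ?_, fun j h1 hj x => ?_⟩
  · rw [Tool.ib_scale_fderiv (b1.differentiable hJ') r hr x]
    exact b2 _
  · exact (Tool.ib_scale (b1.of_le (by exact_mod_cast hj)) r hr hr1 h1 x).trans (b3 j h1 hj _)

end Claimed.Agent.R322.Tube
end

/- ===== packed: Claimed.Agent.R322.Tube.Regraph ===== -/
section
/-!
# Similarity images of reference graphs (CO Section 5: "Dilate the center into target units", "regraph over `Π`")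

The reference disks of the whole development are graphs over the horizontal plane.  The image of `graph u` under the similarity
`X ↦ r⁻¹ G X` (`G` a linear isometry with small angle to the horizontal plane) is again such a graph:

* `psiT u G r y = r⁻¹ prH (G (F y))` is the change of the graph coordinate;
* `uRot u G r` is the new graph function, `F̃ (ψ y) = r⁻¹ G (F y)`;
* `uT u G r = cutB • uRot u G r` is cut off outside `ball 0 18` (unchanged on `closedBall 0 16`).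

`regraph` : existence and bounds;  `transport` : all geometric quantities are invariant (for ANY two graphs related by a
similarity on an open piece);  `npr_isMin` : a nearest point exists;  `base_restrict` : shrinking the base of a cylinder.
-/

set_option autoImplicit false

open scoped ENNReal ContDiff
open MeasureTheory

namespace Claimed.Agent.R322.Tube

variable {m n : ℕ}

/-- change of the graph coordinate under `X ↦ r⁻¹ G X` -/
noncomputable def psiT (u : E m → E n) (G : E (m + n) ≃ₗᵢ[ℝ] E (m + n)) (r : ℝ) (y : E m) : E m :=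
  r⁻¹ • prH m n (G (Fg u y))

/-- the graph function of `r⁻¹ G (graph u)` -/
noncomputable def uRot (u : E m → E n) (G : E (m + n) ≃ₗᵢ[ℝ] E (m + n)) (r : ℝ) (x : E m) : E n :=
  r⁻¹ • prV m n (G (Fg u (Function.invFun (psiT u G r) x)))

/-- the same, cut off outside `ball 0 18` -/
noncomputable def uT (u : E m → E n) (G : E (m + n) ≃ₗᵢ[ℝ] E (m + n)) (r : ℝ) (x : E m) : E n :=
  Tool.cutB m x • uRot u G r x

/-- the conclusions of `regraph` -/
structure Regr (J : ℕ) (C : ℝ) (u : E m → E n) (G : E (m + n) ≃ₗᵢ[ℝ] E (m + n)) (r : ℝ) : Prop where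
  bij : Function.Bijective (psiT u G r)
  lip_lo : ∀ y y', ‖y - y'‖ ≤ 2 * r * ‖psiT u G r y - psiT u G r y'‖
  lip_hi : ∀ y y', r * ‖psiT u G r y - psiT u G r y'‖ ≤ 2 * ‖y - y'‖
  graph : ∀ y, Fg (uRot u G r) (psiT u G r y) = r⁻¹ • G (Fg u y)
  smooth : ContDiff ℝ J (uRot u G r)
  slope : ∀ x, ‖fderiv ℝ (uRot u G r) x‖ ≤ 1 / 4
  bound : ∀ j : ℕ, 1 ≤ j → j ≤ J → ∀ x, ‖iteratedFDeriv ℝ j (uRot u G r) x‖ ≤ C

/-- **Regraphing: bijectivity, graph identity** (leaf `L-Tube-regraph-A`).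
PLAN.  `ψ = r⁻¹ (A₀ + B ∘ u)`, `A₀ = prH G inH`, `B = prH G inV`, `‖B‖ ≤ 1`.  `|A₀ a|² = |a|² - |prV G inH a|² ≥ (1 - ε₀²) |a|²`, so
`A₀` is a linear equivalence with `‖A₀⁻¹‖ ≤ (1 - ε₀²)^{-1/2}`; `B ∘ u` is `ε₀`-Lipschitz: `ApproximatesLinearOn.toHomeomorph` on `univ`
(or directly: injective + proper/closed range + open map).  `Function.invFun` is then the inverse; `graph` is the definition. -/
theorem regraph_bij (m n : ℕ) : ∃ ε₀ : ℝ, 0 < ε₀ ∧ ∀ (u : E m → E n) (G : E (m + n) ≃ₗᵢ[ℝ] E (m + n)) (r : ℝ),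
    Differentiable ℝ u → (∀ y, ‖fderiv ℝ u y‖ ≤ ε₀) →
    ‖prV m n ∘L (G : E (m + n) →L[ℝ] E (m + n)) ∘L inH m n‖ ≤ ε₀ → 0 < r →
    Function.Bijective (psiT u G r) ∧
    (∀ y y', ‖y - y'‖ ≤ 2 * r * ‖psiT u G r y - psiT u G r y'‖) ∧
    (∀ y y', r * ‖psiT u G r y - psiT u G r y'‖ ≤ 2 * ‖y - y'‖) ∧
    (∀ y, Fg (uRot u G r) (psiT u G r y) = r⁻¹ • G (Fg u y)) :=
  ⟨1 / 4, by norm_num, fun _ G _ hu hs hG hr => rg_bij_core G hr le_rfl hu hs hG⟩

/-- **Regraphing: derivative bounds** (leaf `L-Tube-regraph-B`).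
PLAN.  `χ = ψ⁻¹` is `C^J` (`ContDiffAt.to_localInverse` / `Homeomorph.contDiff_symm`), `Dχ x = r Ψ(v x)`, `v = Du ∘ χ`,
`Ψ(A) = (prH G dF(A))⁻¹`;  `D ũ x = Φ(v x)`, `Φ(A) = (prV G dF(A)) ∘ Ψ(A)`.  `Φ, Ψ` are smooth on the compact set
`{(G, A) : ...}`; their derivatives are bounded there by compactness (`G` ranges over a compact set of operators,
`‖A‖ ≤ ε₀`; `ContinuousLinearMap.inverse` is smooth at invertible operators).  Induction on `j`: for all `i ≥ 1`, `i + j ≤ J`: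
`‖D^j (D^i u ∘ χ)‖ ≤ C_j`, from `D (D^i u ∘ χ) = r (D^{i+1} u ∘ χ) · Ψ(v)`, `ContinuousLinearMap.norm_iteratedFDeriv_le_of_bilinear`,
`norm_iteratedFDeriv_comp_le`, `r ≤ 1`.  Slope: `‖prV G dF(A)‖ ≤ ε₀ + ε₀`, `‖Ψ‖ ≤ 2`. -/
theorem regraph_bound (m n : ℕ) : ∃ ε₀ : ℝ, 0 < ε₀ ∧ ∀ (J : ℕ) (K : ℝ), ∃ C : ℝ, 0 < C ∧
    ∀ (u : E m → E n) (G : E (m + n) ≃ₗᵢ[ℝ] E (m + n)) (r : ℝ), 1 ≤ J → RefGraph J K ε₀ u →
    ‖prV m n ∘L (G : E (m + n) →L[ℝ] E (m + n)) ∘L inH m n‖ ≤ ε₀ → 0 < r → r ≤ 1 →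
    ContDiff ℝ J (uRot u G r) ∧ (∀ x, ‖fderiv ℝ (uRot u G r) x‖ ≤ 1 / 4) ∧
    ∀ j : ℕ, 1 ≤ j → j ≤ J → ∀ x, ‖iteratedFDeriv ℝ j (uRot u G r) x‖ ≤ C :=
  ⟨1 / 16, by norm_num, fun J K => rg_bound_core m n J K⟩

theorem RefGraph.mono {J J' : ℕ} {K K' ε ε' : ℝ} {u : E m → E n} (h : RefGraph J K ε u) (hJ : J' ≤ J)
    (hK : K ≤ K') (hε : ε ≤ ε') : RefGraph J' K' ε' u :=
  ⟨h.smooth.of_le (by exact_mod_cast hJ), fun y => (h.slope y).trans hε,
    fun j h2 hj y => (h.bound j h2 (hj.trans hJ) y).trans hK⟩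

/-- **Regraphing.** -/
theorem regraph (m n : ℕ) : ∃ ε₀ : ℝ, 0 < ε₀ ∧ ∀ (J : ℕ) (K : ℝ), ∃ C : ℝ, 0 < C ∧
    ∀ (u : E m → E n) (G : E (m + n) ≃ₗᵢ[ℝ] E (m + n)) (r : ℝ), 1 ≤ J → RefGraph J K ε₀ u →
    ‖prV m n ∘L (G : E (m + n) →L[ℝ] E (m + n)) ∘L inH m n‖ ≤ ε₀ → 0 < r → r ≤ 1 → Regr J C u G r := by
  obtain ⟨ε₁, hε₁, h₁⟩ := regraph_bij m n
  obtain ⟨ε₂, hε₂, h₂⟩ := regraph_bound m n
  refine ⟨min ε₁ ε₂, lt_min hε₁ hε₂, fun J K => ?_⟩
  obtain ⟨C, hC, h₂⟩ := h₂ J K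
  refine ⟨C, hC, fun u G r hJ hu hG hr hr1 => ?_⟩
  have hd : Differentiable ℝ u := hu.smooth.differentiable (by exact_mod_cast (Nat.one_le_iff_ne_zero.1 hJ))
  obtain ⟨a1, a2, a3, a4⟩ := h₁ u G r hd (fun y => (hu.slope y).trans (min_le_left _ _))
    (hG.trans (min_le_left _ _)) hr
  obtain ⟨b1, b2, b3⟩ := h₂ u G r hJ (hu.mono le_rfl le_rfl (min_le_right _ _))
    (hG.trans (min_le_right _ _)) hr hr1
  exact ⟨a1, a2, a3, a4, b1, b2, b3⟩

/-- **Invariance of the geometric quantities under similarities** (leaves `L-Tube-transport-*`).  `u'` is ANY graph function with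
`F' (ψ y) = r⁻¹ G (F y)` for `y` in the open set `A` (dilation, rotation, cutoff: all are special cases).

PLAN.  (0) `ψ` is `C⁴`; differentiating the hypothesis: `dF'(ψ y) ∘ Dψ y = r⁻¹ G ∘ dF(y)`; the right side is injective, so `Dψ y` is
invertible.  (1) ranges: `range dF'(ψ y) = G (range dF(y))`, hence `Ph`.  (2) `Shp u' (ψ y) (G w) = r G ∘ Shp u y w ∘ G⁻¹`:
differentiate (1) along `A`; `dFp' (G a) = r Dψ (dFp a)`.  Then `trc (Shp ..) = ⟨HS, w⟩` (`shape_facts`) and `Ph (HS) = 0` give `HS`.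
(3) differentiate (2'): `HS u' ∘ ψ = r G HS u` on `A`: `DHS u' (ψ y) (Dψ α) = r G DHS u y α`; metric `r⁻² g = Dψᵀ g' Dψ`;
`DHSsq = tr (g⁻¹ Bᵀ B)`, `B = DHS`.  (4) `tube_unique`, fourth item, for `u'`. -/
theorem transport (m n : ℕ) : ∃ h₀ : ℝ, 0 < h₀ ∧ ∀ (κ κ' : ℝ) (u u' : E m → E n)
    (G : E (m + n) ≃ₗᵢ[ℝ] E (m + n)) (r : ℝ) (A : Set (E m)), Geo κ u → Geo κ' u' → 0 < r → IsOpen A →
    (∀ y ∈ A, Fg u' (psiT u G r y) = r⁻¹ • G (Fg u y)) → ∀ y ∈ A,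
      Ph u' (psiT u G r y) = (G : E (m + n) →L[ℝ] E (m + n)) ∘L Ph u y ∘L (G.symm : E (m + n) →L[ℝ] E (m + n)) ∧
      HS u' (psiT u G r y) = r • G (HS u y) ∧
      DHSsq u' (psiT u G r y) = r ^ 4 * DHSsq u y ∧
      ∀ w : E (m + n), Ph u y w = 0 → ‖w‖ < r * h₀ →
        npr u' (r⁻¹ • G (Fg u y + w)) = psiT u G r y ∧ zz u' (r⁻¹ • G (Fg u y + w)) = r⁻¹ • G w :=
  ⟨1 / 4, by norm_num, fun _ _ _ _ _ _ _ hu hu' hr hA hg _ hy =>
    transport_aux hu hu' hr hA (fun _ => rfl) hg hy⟩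

/-- the chosen point `npr u X` is a nearest point, for every continuous `u` and every `X` (leaf `L-Tube-npr-min`:
`y ↦ ‖X - F y‖ ≥ ‖prH X - y‖` is continuous and coercive; `Classical.epsilon_spec`). -/
theorem npr_isMin (u : E m → E n) (hu : Continuous u) (X : E (m + n)) (y' : E m) :
    ‖X - Fg u (npr u X)‖ ≤ ‖X - Fg u y'‖ :=
  npr_spec hu X y'

/-- the weight measure of a varifold is `σ`-finite -/
theorem brs_sigmaFinite (W : SIV m n) : SigmaFinite W.μ := by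
  obtain ⟨F, hFc, hFU, hFu, -⟩ := W.isOpen_U.exists_iUnion_isClosed
  refine Measure.sigmaFinite_of_countable
    (S := Set.range fun q : ℕ × ℕ => (F q.1 ∩ Metric.closedBall 0 q.2) ∪ W.Uᶜ)
    (Set.countable_range _) ?_ ?_
  · rintro _ ⟨q, rfl⟩
    refine lt_of_le_of_lt (measure_union_le _ _) ?_
    rw [W.μ_compl_U, add_zero]
    exact W.locfin _ ((isCompact_closedBall _ _).inter_left (hFc q.1))
      (Set.inter_subset_left.trans (hFU q.1))
  · rw [Set.sUnion_range, Set.eq_univ_iff_forall]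
    intro x
    by_cases hx : x ∈ W.U
    · rw [← hFu] at hx
      obtain ⟨j, hj⟩ := Set.mem_iUnion.1 hx
      obtain ⟨l, hl⟩ := exists_nat_ge ‖x‖
      exact Set.mem_iUnion.2 ⟨(j, l), Or.inl ⟨hj, by rwa [Metric.mem_closedBall, dist_zero_right]⟩⟩
    · exact Set.mem_iUnion.2 ⟨(0, 0), Or.inr hx⟩

/-- abstract form: push-forwards of weighted restrictions -/
theorem brs_map_restrict {X Y : Type*} [MeasurableSpace X] [MeasurableSpace Y] (μ₀ : Measure X)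
    (π : X → Y) {C C' : Set X} {Ω : Set Y} (hC : MeasurableSet C) (hC' : MeasurableSet C')
    (hΩ : MeasurableSet Ω) (hCC : π ⁻¹' Ω ∩ C' = C) (hπ : AEMeasurable π (μ₀.restrict C'))
    (f : X → ℝ≥0∞) :
    ((μ₀.restrict C).withDensity f).map π = (((μ₀.restrict C').withDensity f).map π).restrict Ω := by
  have hπ' : AEMeasurable π ((μ₀.restrict C').withDensity f) :=
    hπ.mono_ac (withDensity_absolutelyContinuous _ _)
  rw [Measure.restrict_map_of_aemeasurable hπ' hΩ, ← restrict_withDensity hC',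
    Measure.restrict_restrict' hC', hCC, restrict_withDensity hC]

theorem brs_isOpen_Cyl {κ₂ : ℝ} {u : E m → E n} (hu : Geo κ₂ u) {h : ℝ} (hh : h ≤ 2 / 9)
    {Ω : Set (E m)} (hΩ : IsOpen Ω) : IsOpen (Cyl u Ω h) := by
  obtain ⟨hT, hnpr, hzz, -⟩ := tube_deriv_of_le hu hh
  have e : Cyl u Ω h = (Tub u h ∩ npr u ⁻¹' Ω) ∩ (Tub u h ∩ (fun X => ‖zz u X‖) ⁻¹' Set.Iio h) := by
    ext X
    constructor
    · intro hX
      have hXT : X ∈ Tub u h := ⟨npr u X, hX.2⟩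
      exact ⟨⟨hXT, hX.1⟩, hXT, hX.2⟩
    · rintro ⟨⟨-, h1⟩, -, h2⟩
      exact ⟨h1, h2⟩
  rw [e]
  exact (hnpr.continuousOn.isOpen_inter_preimage hT hΩ).inter
    (hzz.continuousOn.norm.isOpen_inter_preimage hT isOpen_Iio)

theorem brs_aemeasurable_npr {κ₂ : ℝ} {u : E m → E n} (hu : Geo κ₂ u) {h : ℝ} (hh : h ≤ 2 / 9)
    (Ω : Set (E m)) (μ₀ : Measure (E (m + n))) : AEMeasurable (npr u) (μ₀.restrict (Cyl u Ω h)) := by
  obtain ⟨hT, hnpr, -, -⟩ := tube_deriv_of_le hu hh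
  have hsub : Cyl u Ω h ⊆ Tub u h := fun X hX => ⟨npr u X, hX.2⟩
  exact (hnpr.continuousOn.aemeasurable hT.measurableSet).mono_set hsub

/-- **Shrinking the base of a cylinder** (leaf `L-Tube-base-restrict`).
PLAN.  `Cyl u Ω h = Cyl u Ω' h ∩ npr u ⁻¹' Ω`; `npr u` is continuous on the open set `Cyl u Ω' h` (`tube_deriv`, `cyl_carrier`), hence
a.e.-measurable for the restricted measures; `Measure.restrict_map_of_aemeasurable`, `Measure.restrict_restrict`,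
`Measure.singularPart_restrict`, `Measure.rnDeriv_restrict`, `restrict_withDensity`. -/
theorem base_restrict (m n : ℕ) : ∃ h₀ : ℝ, 0 < h₀ ∧ ∀ (κ₂ : ℝ) (N N' : NCyl m n), Geo κ₂ N.u → N.h ≤ h₀ →
    N'.W = N.W → N'.u = N.u → N'.h = N.h → N'.Q = N.Q → N.Ω ⊆ N'.Ω →
    N.nu = N'.nu.restrict N.Ω ∧ N.Dm = N'.Dm.restrict N.Ω ∧ N.Lm = N'.Lm.restrict N.Ω ∧
    N.Mabs = N'.Mabs.restrict N.Ω := by
  refine ⟨2 / 9, by norm_num, fun κ₂ N N' hu hh hW hu' hh' hQ hΩ => ?_⟩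
  have hC : MeasurableSet (Cyl N.u N.Ω N.h) := (brs_isOpen_Cyl hu hh N.isOpen_Ω).measurableSet
  have hC' : MeasurableSet (Cyl N.u N'.Ω N.h) := (brs_isOpen_Cyl hu hh N'.isOpen_Ω).measurableSet
  have hΩm : MeasurableSet N.Ω := N.isOpen_Ω.measurableSet
  have hCC : npr N.u ⁻¹' N.Ω ∩ Cyl N.u N'.Ω N.h = Cyl N.u N.Ω N.h := by
    ext X
    constructor
    · rintro ⟨h1, h2⟩
      exact ⟨h1, h2.2⟩
    · intro hX
      exact ⟨hX.1, hΩ hX.1, hX.2⟩
  have hπ := brs_aemeasurable_npr hu hh N'.Ω N.W.μ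
  have key := brs_map_restrict N.W.μ (npr N.u) hC hC' hΩm hCC hπ
  have hnu : N.nu = N'.nu.restrict N.Ω := by
    have := key 1
    simp only [withDensity_one] at this
    unfold NCyl.nu NCyl.μ
    rw [hW, hu', hh']
    exact this
  refine ⟨hnu, ?_, ?_, ?_⟩
  · unfold NCyl.Dm NCyl.μ
    rw [hW, hu', hh']
    exact key _
  · unfold NCyl.Lm NCyl.μ
    rw [hW, hu', hh']
    exact key _
  · have hsf := brs_sigmaFinite N'.W
    have hsf2 : SFinite N'.nu := by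
      unfold NCyl.nu NCyl.μ
      infer_instance
    unfold NCyl.Mabs
    rw [Measure.restrict_restrict hΩm, Set.inter_eq_left.2 hΩ, hnu,
      Measure.singularPart_restrict _ _ hΩm, Measure.restrict_add, Measure.restrict_add,
      Measure.restrict_restrict hΩm, Set.inter_self, restrict_withDensity hΩm,
      restrict_withDensity hΩm, hQ, hu']
    congr 1
    refine withDensity_congr_ae ?_
    have h1 := Measure.rnDeriv_restrict N'.nu (μH[(m : ℝ)] : Measure (E m)) hΩm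
    rw [Filter.EventuallyEq, ae_restrict_iff' hΩm]
    filter_upwards [h1] with y hy hyΩ
    rw [hy, Set.indicator_of_mem hyΩ]

end Claimed.Agent.R322.Tube
end
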