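/- Packed by merge_tool.py (helper293): 8 modules of Claimed.Agent.R322 in one file, same declarations.
   Old modules, in this order: Fn.Defs, Red.Defs, Fn.Calc, Fn.Pd, Fn.Moll, Fn.Param, Red.Kernel, Fn.Compact -/
import Claimed.Agent.R322.Basic
import Claimed.Agent.R322.Pack042

/- ===== packed: Claimed.Agent.R322.Fn.Defs ===== -/
section
/-!
# Radon functionals

All signed, vector valued and matrix valued "Radon measures" of CO Sections 2, 6, 7 are
represented by raw maps `Λ : (E k → ℝ) → ℝ` which are linear and locally bounded on the test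
functions (continuous, compact support inside `Ω`).  The values of `Λ` on other functions are
irrelevant.
-/

set_option autoImplicit false

open scoped ENNReal ContDiff
open MeasureTheory

namespace Claimed.Agent.R322.Fn

/-- `g` is continuous with compact support contained in `Ω`. -/
structure IsTest {k : ℕ} (Ω : Set (E k)) (g : E k → ℝ) : Prop where
  cont : Continuous g
  cpt : HasCompactSupport g
  sub : tsupport g ⊆ Ω

/-- smooth test function -/
structure IsSTest {k : ℕ} (Ω : Set (E k)) (g : E k → ℝ) : Prop extends IsTest Ω g where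
  smooth : ContDiff ℝ ∞ g

/-- `Λ` is a (signed) Radon functional on `Ω`. -/
structure IsRadon {k : ℕ} (Ω : Set (E k)) (Λ : (E k → ℝ) → ℝ) : Prop where
  add : ∀ g h, IsTest Ω g → IsTest Ω h → Λ (g + h) = Λ g + Λ h
  smul : ∀ (c : ℝ) g, IsTest Ω g → Λ (c • g) = c * Λ g
  bdd : ∀ K : Set (E k), IsCompact K → K ⊆ Ω → ∃ C : ℝ, ∀ g, IsTest Ω g → tsupport g ⊆ K →
    ∀ B : ℝ, (∀ x, |g x| ≤ B) → |Λ g| ≤ C * B

/-- nonnegative functional -/
def IsPos {k : ℕ} (Ω : Set (E k)) (Λ : (E k → ℝ) → ℝ) : Prop :=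
  ∀ g, IsTest Ω g → (∀ x, 0 ≤ g x) → 0 ≤ Λ g

/-- partial derivative -/
noncomputable def pd {k : ℕ} (i : Fin k) (g : E k → ℝ) (y : E k) : ℝ :=
  fderiv ℝ g y (EuclideanSpace.single i (1 : ℝ))

/-- weak-* convergence on `Ω` -/
def WConv {k : ℕ} (Ω : Set (E k)) (Λs : ℕ → (E k → ℝ) → ℝ) (Λ : (E k → ℝ) → ℝ) : Prop :=
  ∀ g, IsTest Ω g → Filter.Tendsto (fun j => Λs j g) Filter.atTop (nhds (Λ g))

end Claimed.Agent.R322.Fn
end

/- ===== packed: Claimed.Agent.R322.Red.Defs ===== -/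
section
/-!
# CO Section 7: the measure tuple `(ν, f, β, 𝔪)` and the kernels
-/

set_option autoImplicit false

open scoped ENNReal ContDiff
open MeasureTheory

namespace Claimed.Agent.R322.Red

open Claimed.Agent.R322.Fn

/-- kernel `φ_{x,l}(y) = l^{-m} (1 - |y-x|²/l²)_+^p` -/
noncomputable def phiK (m p : ℕ) (x : E m) (l : ℝ) (y : E m) : ℝ :=
  (l ^ m)⁻¹ * (max (1 - ‖y - x‖ ^ 2 / l ^ 2) 0) ^ p

/-- kernel `ψ_{x,l}(y) = 2 p l^{-m} (1 - |y-x|²/l²)_+^{p-1}` -/
noncomputable def psiK (m p : ℕ) (x : E m) (l : ℝ) (y : E m) : ℝ :=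
  2 * p * (l ^ m)⁻¹ * (max (1 - ‖y - x‖ ^ 2 / l ^ 2) 0) ^ (p - 1)

/-- The hypotheses (7.2)-(7.4) of CO Proposition 7.1, for Radon functionals on `Ω`. -/
structure LinTuple (m : ℕ) (Ω : Set (E m)) where
  nu : (E m → ℝ) → ℝ
  f : Fin m → (E m → ℝ) → ℝ
  beta : Fin m → Fin m → (E m → ℝ) → ℝ
  mm : (E m → ℝ) → ℝ
  radon_nu : IsRadon Ω nu
  radon_f : ∀ i, IsRadon Ω (f i)
  radon_beta : ∀ i j, IsRadon Ω (beta i j)
  radon_mm : IsRadon Ω mm
  beta_symm : ∀ i j g, IsTest Ω g → beta i j g = beta j i g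
  /-- the block matrix is positive semidefinite (tested with continuous vector fields) -/
  psd : ∀ (a : E m → ℝ) (b : Fin m → E m → ℝ), IsTest Ω a → (∀ i, IsTest Ω (b i)) →
    0 ≤ nu (a * a) + 2 * ∑ i, f i (a * b i) + ∑ i, ∑ j, beta i j (b i * b j)
  /-- `ν ≠ 0` -/
  nu_ne : ∃ g, IsTest Ω g ∧ nu g ≠ 0
  /-- `∇ν = 2 f` -/
  grad_nu : ∀ g, IsSTest Ω g → ∀ i, nu (pd i g) = - (2 * f i g)
  /-- `div f = d₀ = tr β` -/
  div_f : ∀ g, IsSTest Ω g → ∑ i, f i (pd i g) = - ∑ i, beta i i g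
  /-- `∫ div X d𝔪 = ∫ DX : dβ` -/
  stress : ∀ X : Fin m → E m → ℝ, (∀ i, IsSTest Ω (X i)) →
    mm (fun y => ∑ i, pd i (X i) y) = ∑ i, ∑ j, beta i j (pd j (X i))
  /-- `2 𝔪 ≤ d₀` -/
  sign_le : ∀ g, IsTest Ω g → (∀ y, 0 ≤ g y) → 2 * mm g ≤ ∑ i, beta i i g
  /-- `|𝔪| ≤ C d₀` locally -/
  abs_le : ∀ K : Set (E m), IsCompact K → K ⊆ Ω → ∃ C : ℝ, ∀ g, IsTest Ω g → tsupport g ⊆ K →
    (∀ y, 0 ≤ g y) → |mm g| ≤ C * ∑ i, beta i i g

end Claimed.Agent.R322.Red
end

/- ===== packed: Claimed.Agent.R322.Fn.Calc ===== -/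
section
/-!
# Radon functionals: elementary calculus (helper96; sorry-free)

Closure properties of test functions, linearity, continuity and differentiability of `Λ (g_t)` in a parameter, positive functionals,
weak-* convergence against uniformly convergent test functions, functionals given by measures.
-/

set_option autoImplicit false

open scoped ENNReal ContDiff
open MeasureTheory Filter Topology

namespace Claimed.Agent.R322.Fn

variable {k : ℕ} {Ω : Set (E k)}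

/-- supports: `tsupport (g + h) ⊆ K` etc. are obtained from this criterion -/
theorem tsupport_subset_of_forall {g : E k → ℝ} {K : Set (E k)} (hK : IsClosed K)
    (h : ∀ x, x ∉ K → g x = 0) : tsupport g ⊆ K := by
  refine closure_minimal (fun x hx => ?_) hK
  by_contra hcon
  exact hx (h x hcon)

/-- a continuous function vanishing outside a compact subset of `Ω` is a test function -/
theorem isTest_of_forall {g : E k → ℝ} {K : Set (E k)} (hg : Continuous g) (hK : IsCompact K)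
    (hKΩ : K ⊆ Ω) (h : ∀ x, x ∉ K → g x = 0) : IsTest Ω g :=
  ⟨hg, HasCompactSupport.intro hK h, (tsupport_subset_of_forall hK.isClosed h).trans hKΩ⟩

theorem IsTest.eq_zero {g : E k → ℝ} {x : E k} (hx : x ∉ tsupport g) : g x = 0 :=
  image_eq_zero_of_notMem_tsupport hx

theorem IsTest.zero : IsTest Ω (0 : E k → ℝ) :=
  isTest_of_forall continuous_zero isCompact_empty (Set.empty_subset _) fun _ _ => rfl

theorem IsTest.add {g h : E k → ℝ} (hg : IsTest Ω g) (hh : IsTest Ω h) : IsTest Ω (g + h) := by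
  refine isTest_of_forall (hg.cont.add hh.cont) (hg.cpt.isCompact.union hh.cpt.isCompact)
    (Set.union_subset hg.sub hh.sub) fun x hx => ?_
  rw [Set.mem_union, not_or] at hx
  simp [image_eq_zero_of_notMem_tsupport hx.1, image_eq_zero_of_notMem_tsupport hx.2]

theorem IsTest.smul {g : E k → ℝ} (c : ℝ) (hg : IsTest Ω g) : IsTest Ω (c • g) := by
  refine isTest_of_forall (hg.cont.const_smul c) hg.cpt.isCompact hg.sub fun x hx => ?_
  simp [image_eq_zero_of_notMem_tsupport hx]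

theorem IsTest.neg {g : E k → ℝ} (hg : IsTest Ω g) : IsTest Ω (-g) := by
  refine isTest_of_forall hg.cont.neg hg.cpt.isCompact hg.sub fun x hx => ?_
  simp [image_eq_zero_of_notMem_tsupport hx]

theorem IsTest.sub_test {g h : E k → ℝ} (hg : IsTest Ω g) (hh : IsTest Ω h) : IsTest Ω (g - h) := by
  rw [sub_eq_add_neg]
  exact hg.add hh.neg

theorem IsTest.sum {ι : Type*} (s : Finset ι) {g : ι → E k → ℝ} (hg : ∀ i ∈ s, IsTest Ω (g i)) :
    IsTest Ω (∑ i ∈ s, g i) := by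
  classical
  induction s using Finset.induction_on with
  | empty => simpa using IsTest.zero
  | insert a s ha ih =>
    rw [Finset.sum_insert ha]
    exact (hg a (Finset.mem_insert_self a s)).add
      (ih fun i hi => hg i (Finset.mem_insert_of_mem hi))

/-- test function times continuous function -/
theorem IsTest.mul_cont {g h : E k → ℝ} (hg : IsTest Ω g) (hh : Continuous h) :
    IsTest Ω (g * h) := by
  refine isTest_of_forall (hg.cont.mul hh) hg.cpt.isCompact hg.sub fun x hx => ?_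
  simp [image_eq_zero_of_notMem_tsupport hx]

theorem IsTest.cont_mul {g h : E k → ℝ} (hh : Continuous h) (hg : IsTest Ω g) :
    IsTest Ω (h * g) := by
  rw [mul_comm]
  exact hg.mul_cont hh

/-- post-composition with a continuous function vanishing at `0` (absolute value, positive part, square root ...) -/
theorem IsTest.comp_left {g : E k → ℝ} (hg : IsTest Ω g) {F : ℝ → ℝ} (hF : Continuous F)
    (h0 : F 0 = 0) : IsTest Ω (fun x => F (g x)) := by
  refine isTest_of_forall (hF.comp hg.cont) hg.cpt.isCompact hg.sub fun x hx => ?_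
  simp [image_eq_zero_of_notMem_tsupport hx, h0]

theorem IsTest.mono {Ω' : Set (E k)} {g : E k → ℝ} (hg : IsTest Ω g) (h : Ω ⊆ Ω') :
    IsTest Ω' g := ⟨hg.cont, hg.cpt, hg.sub.trans h⟩

theorem IsTest.exists_bound {g : E k → ℝ} (hg : IsTest Ω g) : ∃ B : ℝ, 0 ≤ B ∧ ∀ x, |g x| ≤ B := by
  obtain ⟨C, hC⟩ := hg.cpt.exists_bound_of_continuous hg.cont
  exact ⟨max C 0, le_max_right _ _, fun x => (hC x).trans (le_max_left _ _)⟩

/-- pre-composition with a similarity `y ↦ λ⁻¹ (y - x)` -/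
theorem IsTest.comp_sim {Ω' : Set (E k)} {g : E k → ℝ} (hg : IsTest Ω' g) (x : E k) {lam : ℝ}
    (hlam : 0 < lam) (hmap : ∀ X ∈ Ω', x + lam • X ∈ Ω) :
    IsTest Ω (fun y => g (lam⁻¹ • (y - x))) := by
  have hc : Continuous fun X : E k => x + lam • X := by fun_prop
  refine isTest_of_forall (K := (fun X : E k => x + lam • X) '' tsupport g)
    (hg.cont.comp (by fun_prop)) (hg.cpt.isCompact.image hc) ?_ fun y hy => ?_
  · rintro _ ⟨X, hX, rfl⟩
    exact hmap X (hg.sub hX)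
  · refine image_eq_zero_of_notMem_tsupport fun h => hy ⟨_, h, ?_⟩
    simp only
    rw [smul_smul, mul_inv_cancel₀ hlam.ne', one_smul]
    abel


/-! ## linearity -/

theorem IsRadon.map_zero {Λ : (E k → ℝ) → ℝ} (h : IsRadon Ω Λ) : Λ 0 = 0 := by
  have := h.smul 0 0 IsTest.zero
  simpa using this

theorem IsRadon.map_neg {Λ : (E k → ℝ) → ℝ} (h : IsRadon Ω Λ) {g : E k → ℝ} (hg : IsTest Ω g) :
    Λ (-g) = -Λ g := by
  have := h.smul (-1) g hg
  simpa using this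

theorem IsRadon.map_sub {Λ : (E k → ℝ) → ℝ} (h : IsRadon Ω Λ) {g g' : E k → ℝ} (hg : IsTest Ω g)
    (hg' : IsTest Ω g') : Λ (g - g') = Λ g - Λ g' := by
  rw [sub_eq_add_neg, h.add _ _ hg hg'.neg, h.map_neg hg', sub_eq_add_neg]

theorem IsRadon.map_sum {Λ : (E k → ℝ) → ℝ} (h : IsRadon Ω Λ) {ι : Type*} (s : Finset ι)
    {g : ι → E k → ℝ} (hg : ∀ i ∈ s, IsTest Ω (g i)) : Λ (∑ i ∈ s, g i) = ∑ i ∈ s, Λ (g i) := by
  classical
  induction s using Finset.induction_on with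
  | empty => simpa using h.map_zero
  | insert a s ha ih =>
    rw [Finset.sum_insert ha, Finset.sum_insert ha,
      h.add _ _ (hg a (Finset.mem_insert_self a s))
        (IsTest.sum s fun i hi => hg i (Finset.mem_insert_of_mem hi)),
      ih fun i hi => hg i (Finset.mem_insert_of_mem hi)]

/-- linear combinations of Radon functionals -/
theorem IsRadon.add' {Λ Λ' : (E k → ℝ) → ℝ} (h : IsRadon Ω Λ) (h' : IsRadon Ω Λ') :
    IsRadon Ω (fun g => Λ g + Λ' g) where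
  add g g' hg hg' := by
    simp only [h.add g g' hg hg', h'.add g g' hg hg']; ring
  smul c g hg := by
    simp only [h.smul c g hg, h'.smul c g hg]; ring
  bdd K hK hKΩ := by
    obtain ⟨C, hC⟩ := h.bdd K hK hKΩ
    obtain ⟨C', hC'⟩ := h'.bdd K hK hKΩ
    refine ⟨C + C', fun g hg hgK B hB => ?_⟩
    calc |Λ g + Λ' g| ≤ |Λ g| + |Λ' g| := abs_add_le _ _
      _ ≤ C * B + C' * B := add_le_add (hC g hg hgK B hB) (hC' g hg hgK B hB)
      _ = (C + C') * B := by ring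

theorem IsRadon.const_mul {Λ : (E k → ℝ) → ℝ} (h : IsRadon Ω Λ) (c : ℝ) :
    IsRadon Ω (fun g => c * Λ g) where
  add g g' hg hg' := by
    simp only [h.add g g' hg hg']; ring
  smul a g hg := by
    simp only [h.smul a g hg]; ring
  bdd K hK hKΩ := by
    obtain ⟨C, hC⟩ := h.bdd K hK hKΩ
    refine ⟨|c| * C, fun g hg hgK B hB => ?_⟩
    rw [abs_mul, mul_assoc]
    exact mul_le_mul_of_nonneg_left (hC g hg hgK B hB) (abs_nonneg c)

theorem isRadon_zero : IsRadon Ω (fun _ : E k → ℝ => (0 : ℝ)) where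
  add _ _ _ _ := by simp
  smul _ _ _ := by simp
  bdd _ _ _ := ⟨0, fun _ _ _ _ _ => by simp⟩

theorem IsRadon.sum' {ι : Type*} (s : Finset ι) {Λ : ι → (E k → ℝ) → ℝ}
    (h : ∀ i ∈ s, IsRadon Ω (Λ i)) : IsRadon Ω (fun g => ∑ i ∈ s, Λ i g) := by
  classical
  induction s using Finset.induction_on with
  | empty => simpa using isRadon_zero
  | insert a s ha ih =>
    simp only [Finset.sum_insert ha]
    exact (h a (Finset.mem_insert_self a s)).add' (ih fun i hi => h i (Finset.mem_insert_of_mem hi))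

/-- restriction of the domain -/
theorem IsRadon.mono {Ω' : Set (E k)} {Λ : (E k → ℝ) → ℝ} (h : IsRadon Ω Λ) (hsub : Ω' ⊆ Ω) :
    IsRadon Ω' Λ where
  add g g' hg hg' := h.add g g' (hg.mono hsub) (hg'.mono hsub)
  smul c g hg := h.smul c g (hg.mono hsub)
  bdd K hK hKΩ := by
    obtain ⟨C, hC⟩ := h.bdd K hK (hKΩ.trans hsub)
    exact ⟨C, fun g hg hgK B hB => hC g (hg.mono hsub) hgK B hB⟩

/-- push-forward under a similarity -/
theorem IsRadon.comp_sim {Ω' : Set (E k)} {Λ : (E k → ℝ) → ℝ} (h : IsRadon Ω Λ) (x : E k) {lam : ℝ}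
    (hlam : 0 < lam) (hmap : ∀ X ∈ Ω', x + lam • X ∈ Ω) :
    IsRadon Ω' (fun g => Λ (fun y => g (lam⁻¹ • (y - x)))) where
  add g g' hg hg' := h.add _ _ (hg.comp_sim x hlam hmap) (hg'.comp_sim x hlam hmap)
  smul c g hg := h.smul c _ (hg.comp_sim x hlam hmap)
  bdd K hK hKΩ := by
    have hc : Continuous fun X : E k => x + lam • X := by fun_prop
    obtain ⟨C, hC⟩ := h.bdd ((fun X : E k => x + lam • X) '' K) (hK.image hc) (by
      rintro _ ⟨X, hX, rfl⟩
      exact hmap X (hKΩ hX))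
    refine ⟨C, fun g hg hgK B hB => hC _ (hg.comp_sim x hlam hmap) ?_ B fun y => hB _⟩
    refine tsupport_subset_of_forall (hK.image hc).isClosed fun y hy => ?_
    refine image_eq_zero_of_notMem_tsupport fun hh => hy ⟨_, hgK hh, ?_⟩
    simp only
    rw [smul_smul, mul_inv_cancel₀ hlam.ne', one_smul]
    abel

/-! ## dependence on parameters -/

/-- the basic estimate -/
theorem IsRadon.abs_sub_le {Λ : (E k → ℝ) → ℝ} (h : IsRadon Ω Λ) {K : Set (E k)} (hK : IsClosed K)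
    {C : ℝ} (hC : ∀ g, IsTest Ω g → tsupport g ⊆ K → ∀ B : ℝ, (∀ x, |g x| ≤ B) → |Λ g| ≤ C * B)
    {g g' : E k → ℝ} (hg : IsTest Ω g) (hgK : tsupport g ⊆ K) (hg' : IsTest Ω g')
    (hg'K : tsupport g' ⊆ K) {B : ℝ} (hB : ∀ y, |g y - g' y| ≤ B) : |Λ g - Λ g'| ≤ C * B := by
  rw [← h.map_sub hg hg']
  refine hC _ (hg.sub_test hg') (tsupport_subset_of_forall hK fun x hx => ?_) B hB
  simp [image_eq_zero_of_notMem_tsupport fun hh => hx (hgK hh),
    image_eq_zero_of_notMem_tsupport fun hh => hx (hg'K hh)]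

/-- continuity: uniform convergence with supports in a fixed compact set.
[`|Λ (g i) - Λ g₀| = |Λ (g i - g₀)| ≤ C sup |g i - g₀|`] -/
theorem IsRadon.tendsto {Λ : (E k → ℝ) → ℝ} (h : IsRadon Ω Λ) {K : Set (E k)} (hK : IsCompact K)
    (hKΩ : K ⊆ Ω) {ι : Type*} {l : Filter ι} {g : ι → E k → ℝ} {g₀ : E k → ℝ}
    (hg : ∀ᶠ i in l, IsTest Ω (g i) ∧ tsupport (g i) ⊆ K) (hg₀ : IsTest Ω g₀)
    (hg₀K : tsupport g₀ ⊆ K) (hunif : ∀ ε : ℝ, 0 < ε → ∀ᶠ i in l, ∀ y, |g i y - g₀ y| ≤ ε) :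
    Tendsto (fun i => Λ (g i)) l (𝓝 (Λ g₀)) := by
  obtain ⟨C, hC⟩ := h.bdd K hK hKΩ
  rw [Metric.tendsto_nhds]
  intro ε hε
  have hpos : 0 < ε / (|C| + 1) / 2 := by positivity
  filter_upwards [hg, hunif _ hpos] with i hi hu
  rw [Real.dist_eq]
  have h1 := h.abs_sub_le hK.isClosed hC hi.1 hi.2 hg₀ hg₀K hu
  have h2 : C * (ε / (|C| + 1) / 2) ≤ (|C| + 1) * (ε / (|C| + 1) / 2) :=
    mul_le_mul_of_nonneg_right (by linarith [le_abs_self C]) hpos.le
  have h3 : (|C| + 1) * (ε / (|C| + 1) / 2) = ε / 2 := by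
    field_simp
  linarith

/-- differentiation under the functional.
[`|Λ (g t) - Λ (g t₀) - (t - t₀) Λ g'| = |Λ (g t - g t₀ - (t - t₀) • g')| ≤ C ε |t - t₀|`; `hasDerivAt_iff_isLittleO`] -/
theorem IsRadon.hasDerivAt {Λ : (E k → ℝ) → ℝ} (h : IsRadon Ω Λ) {K : Set (E k)}
    (hK : IsCompact K) (hKΩ : K ⊆ Ω) {g : ℝ → E k → ℝ} {g' : E k → ℝ} {t₀ : ℝ}
    (hg : ∀ᶠ t in 𝓝 t₀, IsTest Ω (g t) ∧ tsupport (g t) ⊆ K) (hg' : IsTest Ω g')
    (hg'K : tsupport g' ⊆ K)
    (hd : ∀ ε : ℝ, 0 < ε → ∀ᶠ t in 𝓝 t₀, ∀ y, |g t y - g t₀ y - (t - t₀) * g' y| ≤ ε * |t - t₀|) :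
    HasDerivAt (fun t => Λ (g t)) (Λ g') t₀ := by
  obtain ⟨C, hC⟩ := h.bdd K hK hKΩ
  have hg0 := hg.self_of_nhds
  rw [hasDerivAt_iff_isLittleO, Asymptotics.isLittleO_iff]
  intro c hc
  have hpos : 0 < c / (|C| + 1) := by positivity
  filter_upwards [hg, hd _ hpos] with t ht hu
  have hT : IsTest Ω (g t₀ + (t - t₀) • g') := hg0.1.add (hg'.smul _)
  have hTK : tsupport (g t₀ + (t - t₀) • g') ⊆ K := by
    refine tsupport_subset_of_forall hK.isClosed fun x hx => ?_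
    simp [image_eq_zero_of_notMem_tsupport fun hh => hx (hg0.2 hh),
      image_eq_zero_of_notMem_tsupport fun hh => hx (hg'K hh)]
  have h1 := h.abs_sub_le hK.isClosed hC ht.1 ht.2 hT hTK (B := c / (|C| + 1) * |t - t₀|)
    (fun y => by
      have := hu y
      simp only [Pi.add_apply, Pi.smul_apply, smul_eq_mul]
      rwa [← sub_sub])
  rw [h.add _ _ hg0.1 (hg'.smul _), h.smul _ _ hg'] at h1
  rw [Real.norm_eq_abs, Real.norm_eq_abs, smul_eq_mul, sub_sub]
  refine h1.trans ?_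
  have h2 : C * (c / (|C| + 1) * |t - t₀|) ≤ (|C| + 1) * (c / (|C| + 1) * |t - t₀|) :=
    mul_le_mul_of_nonneg_right (by linarith [le_abs_self C]) (by positivity)
  have h3 : (|C| + 1) * (c / (|C| + 1) * |t - t₀|) = c * |t - t₀| := by
    field_simp
  linarith


/-! ## positive functionals -/

theorem IsPos.mono {Λ : (E k → ℝ) → ℝ} (hP : IsPos Ω Λ) (hR : IsRadon Ω Λ) {g h : E k → ℝ}
    (hg : IsTest Ω g) (hh : IsTest Ω h) (hle : ∀ x, g x ≤ h x) : Λ g ≤ Λ h := by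
  have h1 := hP (h - g) (hh.sub_test hg) fun x => by simpa using hle x
  rw [hR.map_sub hh hg] at h1
  linarith

/-- domination: if `|g| ≤ B w` with a test function `w ≥ 0` then `|Λ g| ≤ B Λ w` -/
theorem IsPos.abs_le_of_dom {Λ : (E k → ℝ) → ℝ} (hP : IsPos Ω Λ) (hR : IsRadon Ω Λ)
    {g w : E k → ℝ} (hg : IsTest Ω g) (hw : IsTest Ω w) {B : ℝ} (hle : ∀ x, |g x| ≤ B * w x) :
    |Λ g| ≤ B * Λ w := by
  rw [← hR.smul B w hw, abs_le]
  constructor
  · rw [← hR.map_neg (hw.smul B)]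
    exact hP.mono hR (hw.smul B).neg hg fun x => by
      have := (abs_le.1 (hle x)).1
      simpa using this
  · exact hP.mono hR hg (hw.smul B) fun x => by
      have := (abs_le.1 (hle x)).2
      simpa using this

theorem IsPos.abs_le {Λ : (E k → ℝ) → ℝ} (hP : IsPos Ω Λ) (hR : IsRadon Ω Λ) {g : E k → ℝ}
    (hg : IsTest Ω g) : |Λ g| ≤ Λ (fun x => |g x|) := by
  have := hP.abs_le_of_dom hR hg (hg.comp_left continuous_abs abs_zero) (B := 1)
    fun x => by simp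
  simpa using this

/-! ## weak-* convergence -/

/-- weak-* convergence + uniform local bound + uniform convergence of the test functions
[`Λs j (g j) - Λ g₀ = Λs j (g j - g₀) + (Λs j g₀ - Λ g₀)`, `|Λs j (g j - g₀)| ≤ C ε`] -/
theorem WConv.tendsto_unif {Λs : ℕ → (E k → ℝ) → ℝ} {Λ : (E k → ℝ) → ℝ} (hconv : WConv Ω Λs Λ)
    (hR : ∀ j, IsRadon Ω (Λs j)) {K : Set (E k)} (hKc : IsClosed K) {C : ℝ}
    (hB : ∀ j g, IsTest Ω g → tsupport g ⊆ K → ∀ B : ℝ, (∀ x, |g x| ≤ B) → |Λs j g| ≤ C * B)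
    {g : ℕ → E k → ℝ} {g₀ : E k → ℝ} (hg : ∀ᶠ j in atTop, IsTest Ω (g j) ∧ tsupport (g j) ⊆ K)
    (hg₀ : IsTest Ω g₀) (hg₀K : tsupport g₀ ⊆ K)
    (hunif : ∀ ε : ℝ, 0 < ε → ∀ᶠ j in atTop, ∀ y, |g j y - g₀ y| ≤ ε) :
    Tendsto (fun j => Λs j (g j)) atTop (𝓝 (Λ g₀)) := by
  rw [Metric.tendsto_nhds]
  intro ε hε
  have hpos : 0 < ε / (|C| + 1) / 2 := by positivity
  have h0 := (Metric.tendsto_nhds.1 (hconv g₀ hg₀)) (ε / 2) (by positivity)
  filter_upwards [hg, hunif _ hpos, h0] with j hj hu h0j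
  rw [Real.dist_eq] at h0j ⊢
  have h1 := (hR j).abs_sub_le hKc (hB j) hj.1 hj.2 hg₀ hg₀K hu
  have h2 : C * (ε / (|C| + 1) / 2) ≤ (|C| + 1) * (ε / (|C| + 1) / 2) :=
    mul_le_mul_of_nonneg_right (by linarith [le_abs_self C]) hpos.le
  have h3 : (|C| + 1) * (ε / (|C| + 1) / 2) = ε / 2 := by
    field_simp
  have h4 : |Λs j (g j) - Λ g₀| ≤ |Λs j (g j) - Λs j g₀| + |Λs j g₀ - Λ g₀| := abs_sub_le _ _ _
  linarith

theorem WConv.comp_strictMono {Λs : ℕ → (E k → ℝ) → ℝ} {Λ : (E k → ℝ) → ℝ} (h : WConv Ω Λs Λ)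
    {φ : ℕ → ℕ} (hφ : StrictMono φ) : WConv Ω (fun j => Λs (φ j)) Λ :=
  fun g hg => (h g hg).comp hφ.tendsto_atTop

/-! ## functionals given by measures -/

/-- density version: `g ↦ ∫ g w dμ` with `w` locally bounded and measurable -/
theorem isRadon_integral_mul (μ : Measure (E k))
    (hμ : ∀ K : Set (E k), IsCompact K → K ⊆ Ω → μ K < ⊤) (w : E k → ℝ)
    (hw : AEStronglyMeasurable w μ)
    (hwb : ∀ K : Set (E k), IsCompact K → K ⊆ Ω → ∃ B : ℝ, ∀ᵐ x ∂μ, x ∈ K → |w x| ≤ B) :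
    IsRadon Ω (fun g => ∫ x, g x * w x ∂μ) := by
  -- pointwise bound and integrability
  have key : ∀ K : Set (E k), IsCompact K → K ⊆ Ω → ∃ Bw : ℝ, 0 ≤ Bw ∧ ∀ g, IsTest Ω g →
      tsupport g ⊆ K → ∀ B : ℝ, (∀ x, |g x| ≤ B) →
      (∀ᵐ x ∂μ, ‖g x * w x‖ ≤ K.indicator (fun _ => B * Bw) x) := by
    intro K hK hKΩ
    obtain ⟨Bw, hBw⟩ := hwb K hK hKΩ
    refine ⟨max Bw 0, le_max_right _ _, fun g hg hgK B hB => ?_⟩
    filter_upwards [hBw] with x hx
    by_cases hxK : x ∈ K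
    · rw [Set.indicator_of_mem hxK, norm_mul, Real.norm_eq_abs, Real.norm_eq_abs]
      exact mul_le_mul (hB x) ((hx hxK).trans (le_max_left _ _)) (abs_nonneg _)
        ((abs_nonneg _).trans (hB x))
    · rw [Set.indicator_of_notMem hxK, image_eq_zero_of_notMem_tsupport fun hh => hxK (hgK hh)]
      simp
  have hint : ∀ g, IsTest Ω g → Integrable (fun x => g x * w x) μ := by
    intro g hg
    obtain ⟨Bw, _, hk⟩ := key (tsupport g) hg.cpt.isCompact hg.sub
    obtain ⟨B, _, hB⟩ := hg.exists_bound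
    refine Integrable.mono' (g := (tsupport g).indicator fun _ => B * Bw) ?_
      (hg.cont.aestronglyMeasurable.mul hw) (hk g hg le_rfl B hB)
    exact (integrable_indicator_iff hg.cpt.isCompact.measurableSet).2
      (integrableOn_const (hμ _ hg.cpt.isCompact hg.sub).ne)
  refine ⟨fun g h hg hh => ?_, fun c g hg => ?_, fun K hK hKΩ => ?_⟩
  · simp only [Pi.add_apply, add_mul]
    exact integral_add (hint g hg) (hint h hh)
  · simp only [Pi.smul_apply, smul_eq_mul, mul_assoc]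
    exact integral_const_mul c _
  · obtain ⟨Bw, hBw0, hk⟩ := key K hK hKΩ
    refine ⟨Bw * (μ K).toReal, fun g hg hgK B hB => ?_⟩
    have hfin := (hμ K hK hKΩ).ne
    have h1 : ‖∫ x, g x * w x ∂μ‖ ≤ ∫ x, K.indicator (fun _ => B * Bw) x ∂μ :=
      norm_integral_le_of_norm_le ((integrable_indicator_iff hK.measurableSet).2
        (integrableOn_const hfin)) (hk g hg hgK B hB)
    rw [integral_indicator hK.measurableSet, setIntegral_const, Real.norm_eq_abs] at h1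
    refine h1.trans (le_of_eq ?_)
    simp only [Measure.real, smul_eq_mul]
    ring

/-- [`integral_add`, `integral_smul`; continuous functions with compact support are integrable for locally finite measures on `Ω`;
`|∫ g| ≤ B μ(K)`] -/
theorem isRadon_integral (μ : Measure (E k)) (hμ : ∀ K : Set (E k), IsCompact K → K ⊆ Ω → μ K < ⊤) :
    IsRadon Ω (fun g => ∫ x, g x ∂μ) := by
  have := isRadon_integral_mul μ hμ (fun _ => 1) aestronglyMeasurable_const
    fun K _ _ => ⟨1, Eventually.of_forall fun x _ => by simp⟩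
  simpa using this

theorem isPos_integral (μ : Measure (E k)) : IsPos Ω (fun g => ∫ x, g x ∂μ) :=
  fun _ _ h => integral_nonneg h

end Claimed.Agent.R322.Fn
end

/- ===== packed: Claimed.Agent.R322.Fn.Pd ===== -/
section
/-!
# Partial derivatives of test functions (helper96; sorry-free)
-/

set_option autoImplicit false

open scoped ENNReal ContDiff
open MeasureTheory Filter Topology

namespace Claimed.Agent.R322.Fn

variable {k : ℕ} {Ω : Set (E k)}

theorem pd_add {g h : E k → ℝ} {y : E k} (i : Fin k) (hg : DifferentiableAt ℝ g y)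
    (hh : DifferentiableAt ℝ h y) : pd i (g + h) y = pd i g y + pd i h y := by
  unfold pd
  rw [fderiv_add hg hh]
  rfl

theorem pd_const_mul {g : E k → ℝ} {y : E k} (i : Fin k) (c : ℝ) (hg : DifferentiableAt ℝ g y) :
    pd i (fun z => c * g z) y = c * pd i g y := by
  unfold pd
  rw [fderiv_const_mul hg]
  rfl

theorem pd_mul {g h : E k → ℝ} {y : E k} (i : Fin k) (hg : DifferentiableAt ℝ g y)
    (hh : DifferentiableAt ℝ h y) :
    pd i (fun z => g z * h z) y = pd i g y * h y + g y * pd i h y := by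
  unfold pd
  rw [fderiv_fun_mul hg hh]
  simp only [add_apply, smul_apply, smul_eq_mul]
  ring

/-- the coordinate functions `y ↦ y i - x i` -/
theorem contDiff_coord (i : Fin k) (x : E k) : ContDiff ℝ ∞ (fun y : E k => y i - x i) := by
  have h1 : ContDiff ℝ ∞ (fun y : E k => y i) :=
    (EuclideanSpace.proj (𝕜 := ℝ) i).contDiff
  exact h1.sub contDiff_const

theorem pd_coord (i j : Fin k) (x y : E k) :
    pd j (fun y : E k => y i - x i) y = if i = j then 1 else 0 := by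
  unfold pd
  have h1 : HasFDerivAt (fun y : E k => y i - x i) (EuclideanSpace.proj (𝕜 := ℝ) i) y :=
    ((EuclideanSpace.proj (𝕜 := ℝ) i).hasFDerivAt).sub_const (x i)
  rw [h1.fderiv]
  simp

/-- `‖y - x‖² = ∑ (y i - x i)²` -/
theorem norm_sub_sq_eq_sum (x y : E k) : ‖y - x‖ ^ 2 = ∑ i, (y i - x i) ^ 2 := by
  rw [EuclideanSpace.norm_sq_eq]
  simp

theorem pd_norm_sub_sq (i : Fin k) (x y : E k) :
    pd i (fun y : E k => ‖y - x‖ ^ 2) y = 2 * (y i - x i) := by
  unfold pd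
  have h1 : HasFDerivAt (fun y : E k => y - x) (ContinuousLinearMap.id ℝ (E k)) y :=
    (hasFDerivAt_id y).sub_const x
  have h2 := h1.norm_sq
  rw [h2.fderiv]
  simp [EuclideanSpace.inner_single_right]

/-- chain rule for an outer function of one real variable -/
theorem pd_comp_real {g : E k → ℝ} {F : ℝ → ℝ} {F' : ℝ} {y : E k} (i : Fin k)
    (hF : HasDerivAt F F' (g y)) (hg : DifferentiableAt ℝ g y) :
    pd i (fun z => F (g z)) y = F' * pd i g y := by
  unfold pd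
  have := hF.comp_hasFDerivAt y hg.hasFDerivAt
  have e : (fun z => F (g z)) = F ∘ g := rfl
  rw [e, this.fderiv]
  rfl

/-- chain rule for the similarity `y ↦ λ⁻¹ (y - x)` -/
theorem pd_comp_sim {g : E k → ℝ} (i : Fin k) (x y : E k) (lam : ℝ)
    (hg : DifferentiableAt ℝ g (lam⁻¹ • (y - x))) :
    pd i (fun z => g (lam⁻¹ • (z - x))) y = lam⁻¹ * pd i g (lam⁻¹ • (y - x)) := by
  unfold pd
  have h1 : HasFDerivAt (fun z : E k => lam⁻¹ • (z - x)) (lam⁻¹ • ContinuousLinearMap.id ℝ (E k)) y :=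
    ((hasFDerivAt_id y).sub_const x).const_smul lam⁻¹
  have := hg.hasFDerivAt.comp y h1
  have e : (fun z => g (lam⁻¹ • (z - x))) = g ∘ fun z : E k => lam⁻¹ • (z - x) := rfl
  rw [e, this.fderiv]
  simp

theorem continuous_pd {g : E k → ℝ} (hg : ContDiff ℝ 1 g) (i : Fin k) : Continuous (pd i g) := by
  unfold pd
  exact (hg.continuous_fderiv (by simp)).clm_apply continuous_const

theorem contDiff_pd {g : E k → ℝ} (hg : ContDiff ℝ ∞ g) (i : Fin k) : ContDiff ℝ ∞ (pd i g) := by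
  unfold pd
  exact (hg.fderiv_right (m := ∞) (by simp)).clm_apply contDiff_const

/-- [`tsupport_fderiv_subset`] -/
theorem tsupport_pd_subset (g : E k → ℝ) (i : Fin k) : tsupport (pd i g) ⊆ tsupport g := by
  refine tsupport_subset_of_forall (isClosed_tsupport g) fun x hx => ?_
  unfold pd
  have : fderiv ℝ g x = 0 :=
    image_eq_zero_of_notMem_tsupport fun h => hx (tsupport_fderiv_subset ℝ h)
  rw [this]
  rfl

theorem IsTest.pd {g : E k → ℝ} (hg : IsTest Ω g) (h1 : ContDiff ℝ 1 g) (i : Fin k) :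
    IsTest Ω (pd i g) :=
  isTest_of_forall (continuous_pd h1 i) hg.cpt.isCompact hg.sub fun _ hx =>
    image_eq_zero_of_notMem_tsupport fun h => hx (tsupport_pd_subset g i h)

theorem IsSTest.comp_sim {Ω' : Set (E k)} {g : E k → ℝ} (hg : IsSTest Ω' g) (x : E k) {lam : ℝ}
    (hlam : 0 < lam) (hmap : ∀ X ∈ Ω', x + lam • X ∈ Ω) :
    IsSTest Ω (fun y => g (lam⁻¹ • (y - x))) :=
  { hg.toIsTest.comp_sim x hlam hmap with
    smooth := hg.smooth.comp ((contDiff_id.sub contDiff_const).const_smul lam⁻¹) }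

end Claimed.Agent.R322.Fn
end

/- ===== packed: Claimed.Agent.R322.Fn.Moll ===== -/
section
/-!
# Scalar mollification and the extension of distributional identities to `C¹` test functions (helper96; sorry-free)
-/

set_option autoImplicit false

open scoped ENNReal ContDiff
open MeasureTheory Filter Topology

namespace Claimed.Agent.R322.Fn

variable {k : ℕ} {Ω : Set (E k)}

/-- **scalar mollification.**
[Apply `Base.exists_smooth_approx` (with target `E 1`) to `X y := WithLp.toLp 2 fun _ => g y`, i.e. `X = L ∘ g` with the linear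
isometry `L : ℝ → E 1`; put `G j y := Y j y 0 = ev ∘ Y j`.  `|G j y - g y| = |(Y j y - X y) 0| ≤ ‖Y j y - X y‖`;
`pd i (G j) y - pd i g y = ((fderiv (Y j) y - fderiv X y) e_i) 0`, `‖e_i‖ = 1`.
Alternatively prove it directly with `ContDiffBump.normed` convolutions.] -/
theorem exists_stest_approx (hΩ : IsOpen Ω) {g : E k → ℝ} (hg : IsTest Ω g) (h1 : ContDiff ℝ 1 g) :
    ∃ (K : Set (E k)) (G : ℕ → E k → ℝ), IsCompact K ∧ K ⊆ Ω ∧ tsupport g ⊆ K ∧
      (∀ j, IsSTest Ω (G j)) ∧ (∀ j, tsupport (G j) ⊆ K) ∧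
      (∀ j y, |G j y - g y| ≤ 1 / ((j : ℝ) + 1)) ∧
      (∀ j i y, |pd i (G j) y - pd i g y| ≤ 1 / ((j : ℝ) + 1)) := by
  set e₀ : E 1 := EuclideanSpace.single 0 1 with he₀
  set P : E 1 →L[ℝ] ℝ := EuclideanSpace.proj (𝕜 := ℝ) (0 : Fin 1) with hP
  have hPe : P e₀ = 1 := by simp [hP, he₀]
  have hPn : ∀ v : E 1, |P v| ≤ ‖v‖ := fun v => by
    have := PiLp.norm_apply_le (p := 2) v (0 : Fin 1)
    simpa [hP] using this
  set X : E k → E 1 := fun y => g y • e₀ with hX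
  have hPX : ∀ y, P (X y) = g y := fun y => by simp [hX, hPe]
  have hX1 : ContDiff ℝ 1 X := h1.smul contDiff_const
  have hXz : ∀ y, y ∉ tsupport g → X y = 0 := fun y hy => by
    simp [hX, image_eq_zero_of_notMem_tsupport hy]
  have hXc : HasCompactSupport X := HasCompactSupport.intro hg.cpt.isCompact hXz
  have hXs : tsupport X ⊆ tsupport g := by
    refine closure_minimal (fun y hy => ?_) (isClosed_tsupport g)
    by_contra hcon
    exact hy (hXz y hcon)
  obtain ⟨K, Y, hK, hKΩ, hXK, hYs, hYK, hY0, hY1⟩ :=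
    Base.exists_smooth_approx hΩ X hX1 hXc (hXs.trans hg.sub)
  have hgK : tsupport g ⊆ K := by
    refine closure_minimal (fun y hy => hXK (subset_tsupport X ?_)) hK.isClosed
    intro h0
    apply hy
    rw [← hPX y, h0, map_zero]
  have hGz : ∀ j y, y ∉ K → P (Y j y) = 0 := fun j y hy => by
    rw [image_eq_zero_of_notMem_tsupport fun h => hy (hYK j h), map_zero]
  have hGs : ∀ j, ContDiff ℝ ∞ (fun y => P (Y j y)) := fun j => P.contDiff.comp (hYs j)
  have hpdY : ∀ j i y, pd i (fun y => P (Y j y)) y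
      = P (fderiv ℝ (Y j) y (EuclideanSpace.single i 1)) := by
    intro j i y
    have hd : HasFDerivAt (Y j) (fderiv ℝ (Y j) y) y :=
      ((hYs j).differentiable (by simp) y).hasFDerivAt
    have := P.hasFDerivAt.comp y hd
    unfold pd
    have e : (fun y => P (Y j y)) = P ∘ Y j := rfl
    rw [e, this.fderiv]
    rfl
  have hpdg : ∀ i y, pd i g y = P (fderiv ℝ X y (EuclideanSpace.single i 1)) := by
    intro i y
    have hd : HasFDerivAt X (fderiv ℝ X y) y := (hX1.differentiable (by simp) y).hasFDerivAt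
    have := P.hasFDerivAt.comp y hd
    unfold pd
    have e : g = P ∘ X := by funext y; exact (hPX y).symm
    rw [e, this.fderiv]
    rfl
  refine ⟨K, fun j y => P (Y j y), hK, hKΩ, hgK, fun j => ?_, fun j => ?_, fun j y => ?_,
    fun j i y => ?_⟩
  · exact { isTest_of_forall (hGs j).continuous hK hKΩ (hGz j) with smooth := hGs j }
  · exact tsupport_subset_of_forall hK.isClosed (hGz j)
  · rw [← hPX y, ← map_sub]
    exact (hPn _).trans (hY0 j y)
  · rw [hpdY, hpdg, ← map_sub, ← sub_apply]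
    refine (hPn _).trans (((fderiv ℝ (Y j) y - fderiv ℝ X y).le_opNorm _).trans ?_)
    rw [EuclideanSpace.norm_single, norm_one, mul_one]
    exact hY1 j y

/-- consequence for Radon functionals: `Λ (G j) → Λ g`, `Λ (pd i (G j)) → Λ (pd i g)`, and the same after multiplication... -/
theorem exists_stest_tendsto (hΩ : IsOpen Ω) {g : E k → ℝ} (hg : IsTest Ω g)
    (h1 : ContDiff ℝ 1 g) :
    ∃ G : ℕ → E k → ℝ, (∀ j, IsSTest Ω (G j)) ∧
      (∀ Λ : (E k → ℝ) → ℝ, IsRadon Ω Λ → Tendsto (fun j => Λ (G j)) atTop (𝓝 (Λ g))) ∧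
      (∀ (Λ : (E k → ℝ) → ℝ) (i : Fin k), IsRadon Ω Λ →
        Tendsto (fun j => Λ (pd i (G j))) atTop (𝓝 (Λ (pd i g)))) := by
  obtain ⟨K, G, hK, hKΩ, hgK, hG, hGK, h0, hd⟩ := exists_stest_approx hΩ hg h1
  have hlim : ∀ ε : ℝ, 0 < ε → ∀ᶠ j : ℕ in atTop, 1 / ((j : ℝ) + 1) ≤ ε := fun ε hε =>
    (tendsto_one_div_add_atTop_nhds_zero_nat.eventually (gt_mem_nhds hε)).mono fun j hj => hj.le
  refine ⟨G, hG, fun Λ hΛ => ?_, fun Λ i hΛ => ?_⟩
  · exact hΛ.tendsto hK hKΩ (Eventually.of_forall fun j => ⟨(hG j).toIsTest, hGK j⟩) hg hgK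
      fun ε hε => (hlim ε hε).mono fun j hj y => (h0 j y).trans hj
  · exact hΛ.tendsto hK hKΩ
      (Eventually.of_forall fun j => ⟨(hG j).toIsTest.pd ((hG j).smooth.of_le (by simp)) i,
        (tsupport_pd_subset _ i).trans (hGK j)⟩) (hg.pd h1 i)
      ((tsupport_pd_subset _ i).trans hgK)
      fun ε hε => (hlim ε hε).mono fun j hj y => (hd j i y).trans hj

end Claimed.Agent.R322.Fn
end

/- ===== packed: Claimed.Agent.R322.Fn.Param ===== -/
section
/-!
# Radon functionals: jointly continuous families of test functions (helper96; sorry-free)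

The three statements `IsRadon.continuousAt_param`, `IsRadon.hasDerivAt_param`, `WConv.tendsto_param` are the only way in which
"continuity / differentiability under the integral sign" enters CO Section 7.
-/

set_option autoImplicit false

open scoped ENNReal ContDiff
open MeasureTheory Filter Topology

namespace Claimed.Agent.R322.Fn

variable {k : ℕ} {Ω : Set (E k)}

/-- **tube lemma.**  [For `y ∈ K` the map `(θ, y') ↦ |g θ y' - g θ₀ y'|` is continuous at `(θ₀, y)` with value `0`, so it is `< ε` on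
a product neighbourhood; `IsCompact.eventually_forall_of_forall_eventually` (or `generalized_tube_lemma`).  For `y ∉ K` both
terms vanish.] -/
theorem eventually_unif_of_continuousOn {Θ : Type*} [TopologicalSpace Θ] {g : Θ → E k → ℝ} {θ₀ : Θ}
    {U : Set Θ} (hU : U ∈ 𝓝 θ₀) {K : Set (E k)} (hK : IsCompact K)
    (hcont : ContinuousOn (fun z : Θ × E k => g z.1 z.2) (U ×ˢ Set.univ))
    (hsupp : ∀ θ ∈ U, ∀ y, y ∉ K → g θ y = 0) (ε : ℝ) (hε : 0 < ε) :
    ∀ᶠ θ in 𝓝 θ₀, ∀ y, |g θ y - g θ₀ y| ≤ ε := by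
  have hθ₀ : θ₀ ∈ U := mem_of_mem_nhds hU
  have h1 : ∀ᶠ θ in 𝓝 θ₀, ∀ y ∈ K, |g θ y - g θ₀ y| < ε := by
    refine hK.eventually_forall_of_forall_eventually fun y _ => ?_
    have hnh : U ×ˢ (Set.univ : Set (E k)) ∈ 𝓝 (θ₀, y) := prod_mem_nhds hU univ_mem
    have hc1 : ContinuousAt (fun z : Θ × E k => g z.1 z.2) (θ₀, y) :=
      hcont.continuousAt hnh
    have hc2 : ContinuousAt (fun z : Θ × E k => g θ₀ z.2) (θ₀, y) := by
      have : ContinuousAt (fun y' : E k => g θ₀ y') y := by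
        have h3 : ContinuousAt (fun y' : E k => ((θ₀, y') : Θ × E k)) y := by fun_prop
        exact ContinuousAt.comp (f := fun y' : E k => ((θ₀, y') : Θ × E k))
          (g := fun z : Θ × E k => g z.1 z.2) hc1 h3
      exact ContinuousAt.comp (f := fun z : Θ × E k => z.2) (g := fun y' => g θ₀ y') this
        continuousAt_snd
    have hc3 : ContinuousAt (fun z : Θ × E k => |g z.1 z.2 - g θ₀ z.2|) (θ₀, y) :=
      (hc1.sub hc2).abs
    have h4 : Tendsto (fun z : Θ × E k => |g z.1 z.2 - g θ₀ z.2|) (𝓝 (θ₀, y)) (𝓝 0) := by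
      have := hc3.tendsto
      simpa using this
    exact h4.eventually (gt_mem_nhds hε)
  filter_upwards [h1, hU] with θ hθ hθU y
  by_cases hy : y ∈ K
  · exact (hθ y hy).le
  · rw [hsupp θ hθU y hy, hsupp θ₀ hθ₀ y hy]
    simpa using hε.le

/-- each member of a jointly continuous family supported in `K` is a test function -/
theorem isTest_of_param {Θ : Type*} [TopologicalSpace Θ] {g : Θ → E k → ℝ}
    {U : Set Θ} {K : Set (E k)} (hK : IsCompact K) (hKΩ : K ⊆ Ω)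
    (hcont : ContinuousOn (fun z : Θ × E k => g z.1 z.2) (U ×ˢ Set.univ))
    (hsupp : ∀ θ ∈ U, ∀ y, y ∉ K → g θ y = 0) {θ : Θ} (hθ : θ ∈ U) :
    IsTest Ω (g θ) ∧ tsupport (g θ) ⊆ K := by
  have hc : Continuous (g θ) := by
    have h1 : Continuous (fun y : E k => ((θ, y) : Θ × E k)) := by fun_prop
    have := hcont.comp_continuous h1 fun y => ⟨hθ, Set.mem_univ _⟩
    exact this
  exact ⟨isTest_of_forall hc hK hKΩ (hsupp θ hθ), tsupport_subset_of_forall hK.isClosed (hsupp θ hθ)⟩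

/-- continuity of `θ ↦ Λ (g θ)` -/
theorem IsRadon.continuousAt_param {Λ : (E k → ℝ) → ℝ} (h : IsRadon Ω Λ) {Θ : Type*}
    [TopologicalSpace Θ] {g : Θ → E k → ℝ} {θ₀ : Θ} {U : Set Θ} (hU : U ∈ 𝓝 θ₀) {K : Set (E k)}
    (hK : IsCompact K) (hKΩ : K ⊆ Ω)
    (hcont : ContinuousOn (fun z : Θ × E k => g z.1 z.2) (U ×ˢ Set.univ))
    (hsupp : ∀ θ ∈ U, ∀ y, y ∉ K → g θ y = 0) :
    ContinuousAt (fun θ => Λ (g θ)) θ₀ := by
  have h0 := isTest_of_param (Ω := Ω) hK hKΩ hcont hsupp (mem_of_mem_nhds hU)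
  exact h.tendsto hK hKΩ
    (Filter.mem_of_superset hU fun θ hθ => isTest_of_param (Ω := Ω) hK hKΩ hcont hsupp hθ) h0.1 h0.2
    (eventually_unif_of_continuousOn hU hK hcont hsupp)

/-- uniform difference quotients.
[Take `δ` with `ball t₀ δ ⊆ U` and `|g' s y - g' t₀ y| ≤ ε` for `s ∈ ball t₀ δ`, all `y` (`eventually_unif_of_continuousOn`).
For `t ∈ ball t₀ δ` apply the mean value inequality (`Convex.norm_image_sub_le_of_norm_hasDerivWithin_le` on the
segment) to `s ↦ g s y - s * g' t₀ y`.] -/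
theorem unif_diffquot_of_continuousOn {g g' : ℝ → E k → ℝ} {t₀ : ℝ} {U : Set ℝ} (hU : U ∈ 𝓝 t₀)
    {K : Set (E k)} (hK : IsCompact K)
    (hder : ∀ t ∈ U, ∀ y, HasDerivAt (fun s => g s y) (g' t y) t)
    (hcont : ContinuousOn (fun z : ℝ × E k => g' z.1 z.2) (U ×ˢ Set.univ))
    (hsupp' : ∀ t ∈ U, ∀ y, y ∉ K → g' t y = 0) (ε : ℝ) (hε : 0 < ε) :
    ∀ᶠ t in 𝓝 t₀, ∀ y, |g t y - g t₀ y - (t - t₀) * g' t₀ y| ≤ ε * |t - t₀| := by
  have h1 := (eventually_unif_of_continuousOn hU hK hcont hsupp' ε hε).and hU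
  obtain ⟨δ, hδ, hball⟩ := Metric.eventually_nhds_iff_ball.1 h1
  refine Metric.eventually_nhds_iff_ball.2 ⟨δ, hδ, fun t ht y => ?_⟩
  have hconv : Convex ℝ (Metric.ball t₀ δ) := convex_ball t₀ δ
  have hd : ∀ s ∈ Metric.ball t₀ δ,
      HasDerivWithinAt (fun s => g s y - s * g' t₀ y) (g' s y - g' t₀ y) (Metric.ball t₀ δ) s := by
    intro s hs
    have h2 : HasDerivAt (fun s : ℝ => s * g' t₀ y) (1 * g' t₀ y) s :=
      (hasDerivAt_id s).mul_const (g' t₀ y)
    rw [one_mul] at h2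
    exact ((hder s (hball s hs).2 y).fun_sub h2).hasDerivWithinAt
  have hb : ∀ s ∈ Metric.ball t₀ δ, ‖g' s y - g' t₀ y‖ ≤ ε := fun s hs => (hball s hs).1 y
  have := hconv.norm_image_sub_le_of_norm_hasDerivWithin_le hd hb (Metric.mem_ball_self hδ) ht
  rw [Real.norm_eq_abs, Real.norm_eq_abs] at this
  have e : g t y - t * g' t₀ y - (g t₀ y - t₀ * g' t₀ y) = g t y - g t₀ y - (t - t₀) * g' t₀ y := by
    ring
  rwa [e] at this

/-- differentiability of `t ↦ Λ (g t)` -/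
theorem IsRadon.hasDerivAt_param {Λ : (E k → ℝ) → ℝ} (h : IsRadon Ω Λ) {g g' : ℝ → E k → ℝ}
    {t₀ : ℝ} {U : Set ℝ} (hU : U ∈ 𝓝 t₀) {K : Set (E k)} (hK : IsCompact K) (hKΩ : K ⊆ Ω)
    (hgc : ∀ t ∈ U, Continuous (g t))
    (hder : ∀ t ∈ U, ∀ y, HasDerivAt (fun s => g s y) (g' t y) t)
    (hcont : ContinuousOn (fun z : ℝ × E k => g' z.1 z.2) (U ×ˢ Set.univ))
    (hsupp : ∀ t ∈ U, ∀ y, y ∉ K → g t y = 0) (hsupp' : ∀ t ∈ U, ∀ y, y ∉ K → g' t y = 0) :
    HasDerivAt (fun t => Λ (g t)) (Λ (g' t₀)) t₀ := by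
  have h0 := isTest_of_param (Ω := Ω) hK hKΩ hcont hsupp' (mem_of_mem_nhds hU)
  exact h.hasDerivAt hK hKΩ
    (Filter.mem_of_superset hU fun t ht =>
      ⟨isTest_of_forall (hgc t ht) hK hKΩ (hsupp t ht),
        tsupport_subset_of_forall hK.isClosed (hsupp t ht)⟩) h0.1 h0.2
    (unif_diffquot_of_continuousOn hU hK hder hcont hsupp')

/-- weak-* convergence tested with a convergent sequence of parameters -/
theorem WConv.tendsto_param {Λs : ℕ → (E k → ℝ) → ℝ} {Λ : (E k → ℝ) → ℝ} (hconv : WConv Ω Λs Λ)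
    (hR : ∀ j, IsRadon Ω (Λs j)) {K : Set (E k)} (hK : IsCompact K) (hKΩ : K ⊆ Ω) {C : ℝ}
    (hB : ∀ j g, IsTest Ω g → tsupport g ⊆ K → ∀ B : ℝ, (∀ x, |g x| ≤ B) → |Λs j g| ≤ C * B)
    {Θ : Type*} [TopologicalSpace Θ] {g : Θ → E k → ℝ} {θ₀ : Θ} {U : Set Θ} (hU : U ∈ 𝓝 θ₀)
    (hcont : ContinuousOn (fun z : Θ × E k => g z.1 z.2) (U ×ˢ Set.univ))
    (hsupp : ∀ θ ∈ U, ∀ y, y ∉ K → g θ y = 0) {θ : ℕ → Θ} (hθ : Tendsto θ atTop (𝓝 θ₀)) :
    Tendsto (fun j => Λs j (g (θ j))) atTop (𝓝 (Λ (g θ₀))) := by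
  have h0 := isTest_of_param (Ω := Ω) hK hKΩ hcont hsupp (mem_of_mem_nhds hU)
  exact hconv.tendsto_unif hR hK.isClosed hB
    ((hθ.eventually hU).mono fun j hj => isTest_of_param (Ω := Ω) hK hKΩ hcont hsupp hj) h0.1 h0.2
    (fun ε hε => hθ.eventually (eventually_unif_of_continuousOn hU hK hcont hsupp ε hε))

end Claimed.Agent.R322.Fn
end

/- ===== packed: Claimed.Agent.R322.Red.Kernel ===== -/
section
/-!
# CO Section 7: the kernels (helper96; sorry-free)

`kerK m q c x l y = c l^{-m} (1 - |y-x|²/l²)_+^q`;  `phiK m p = kerK m p 1`, `psiK m p = kerK m (p-1) (2p)`.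
-/

set_option autoImplicit false

open scoped ENNReal ContDiff
open MeasureTheory Filter Topology

namespace Claimed.Agent.R322.Red

open Claimed.Agent.R322.Fn

/-- the general kernel -/
noncomputable def kerK (m q : ℕ) (c : ℝ) (x : E m) (l : ℝ) (y : E m) : ℝ :=
  c * (l ^ m)⁻¹ * (max (1 - ‖y - x‖ ^ 2 / l ^ 2) 0) ^ q

theorem phiK_eq (m p : ℕ) (x : E m) (l : ℝ) : phiK m p x l = kerK m p 1 x l := by
  funext y
  simp [phiK, kerK]

theorem psiK_eq (m p : ℕ) (x : E m) (l : ℝ) : psiK m p x l = kerK m (p - 1) (2 * p) x l := by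
  funext y
  simp [psiK, kerK]

/-- admissible centre and radius -/
def Adm {m : ℕ} (Ω : Set (E m)) (x : E m) (l : ℝ) : Prop := 0 < l ∧ Metric.closedBall x l ⊆ Ω

variable {m : ℕ} {Ω : Set (E m)} {q : ℕ} {c : ℝ} {x y : E m} {l : ℝ}

theorem Adm.mono {l' : ℝ} (h : Adm Ω x l) (hl' : 0 < l') (hle : l' ≤ l) : Adm Ω x l' :=
  ⟨hl', (Metric.closedBall_subset_closedBall hle).trans h.2⟩

/-- [`IsCompact.exists_cthickening_subset_open` for `closedBall x l`, `cthickening_closedBall`; or by contradiction with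
sequences.] -/
theorem Adm.exists_larger (hΩ : IsOpen Ω) (h : Adm Ω x l) :
    ∃ δ : ℝ, 0 < δ ∧ Metric.closedBall x (l + δ) ⊆ Ω := by
  obtain ⟨δ, hδ, hsub⟩ := (isCompact_closedBall x l).exists_cthickening_subset_open hΩ h.2
  refine ⟨δ, hδ, ?_⟩
  rw [cthickening_closedBall hδ.le h.1.le, add_comm] at hsub
  exact hsub

/-! ## pointwise facts (package L-Red-Ker1) -/

theorem kerK_nonneg (hc : 0 ≤ c) (hl : 0 < l) : 0 ≤ kerK m q c x l y := by
  unfold kerK
  positivity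

theorem kerK_eq_zero (hq : 1 ≤ q) (hl : 0 < l) (hy : l ≤ ‖y - x‖) : kerK m q c x l y = 0 := by
  unfold kerK
  have h1 : 1 ≤ ‖y - x‖ ^ 2 / l ^ 2 := by
    rw [le_div_iff₀ (by positivity), one_mul]
    exact pow_le_pow_left₀ hl.le hy 2
  rw [max_eq_right (by linarith), zero_pow (by omega), mul_zero]

theorem kerK_pos (hc : 0 < c) (hl : 0 < l) (hy : ‖y - x‖ < l) : 0 < kerK m q c x l y := by
  unfold kerK
  have h1 : ‖y - x‖ ^ 2 / l ^ 2 < 1 := by
    rw [div_lt_one (by positivity)]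
    exact pow_lt_pow_left₀ hy (norm_nonneg _) (by norm_num)
  have h2 : 0 < max (1 - ‖y - x‖ ^ 2 / l ^ 2) 0 := lt_max_of_lt_left (by linarith)
  positivity

theorem kerK_lower (hc : 0 ≤ c) (hl : 0 < l) (hy : ‖y - x‖ ≤ l / 2) :
    c * (l ^ m)⁻¹ * (3 / 4) ^ q ≤ kerK m q c x l y := by
  unfold kerK
  have h1 : ‖y - x‖ ^ 2 / l ^ 2 ≤ 1 / 4 := by
    rw [div_le_iff₀ (by positivity)]
    have := pow_le_pow_left₀ (norm_nonneg _) hy 2
    nlinarith
  have h2 : (3 / 4 : ℝ) ≤ max (1 - ‖y - x‖ ^ 2 / l ^ 2) 0 := le_max_of_le_left (by linarith)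
  gcongr

theorem kerK_le (hc : 0 ≤ c) (hl : 0 < l) : kerK m q c x l y ≤ c * (l ^ m)⁻¹ := by
  unfold kerK
  have h1 : max (1 - ‖y - x‖ ^ 2 / l ^ 2) 0 ≤ 1 := max_le (by
    have : 0 ≤ ‖y - x‖ ^ 2 / l ^ 2 := by positivity
    linarith) zero_le_one
  have h2 : (max (1 - ‖y - x‖ ^ 2 / l ^ 2) 0) ^ q ≤ 1 := pow_le_one₀ (le_max_right _ _) h1
  have h3 : 0 ≤ c * (l ^ m)⁻¹ := by positivity
  nlinarith

/-- `l^m ker_{x,l}` is nondecreasing in `l` -/
theorem kerK_mono {l' : ℝ} (hc : 0 ≤ c) (hl : 0 < l) (hll : l ≤ l') :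
    l ^ m * kerK m q c x l y ≤ l' ^ m * kerK m q c x l' y := by
  unfold kerK
  have hl' : 0 < l' := lt_of_lt_of_le hl hll
  have e1 : l ^ m * (c * (l ^ m)⁻¹ * (max (1 - ‖y - x‖ ^ 2 / l ^ 2) 0) ^ q)
      = c * (max (1 - ‖y - x‖ ^ 2 / l ^ 2) 0) ^ q := by
    have := (pow_pos hl m).ne'
    field_simp
  have e2 : l' ^ m * (c * (l' ^ m)⁻¹ * (max (1 - ‖y - x‖ ^ 2 / l' ^ 2) 0) ^ q)
      = c * (max (1 - ‖y - x‖ ^ 2 / l' ^ 2) 0) ^ q := by
    have := (pow_pos hl' m).ne'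
    field_simp
  rw [e1, e2]
  have h1 : ‖y - x‖ ^ 2 / l' ^ 2 ≤ ‖y - x‖ ^ 2 / l ^ 2 := by gcongr
  have h2 : max (1 - ‖y - x‖ ^ 2 / l ^ 2) 0 ≤ max (1 - ‖y - x‖ ^ 2 / l' ^ 2) 0 :=
    max_le_max (by linarith) le_rfl
  gcongr

/-- scaling -/
theorem kerK_scale {lam r : ℝ} {z : E m} (hlam : 0 < lam) (hr : 0 < r) :
    kerK m q c z r (lam⁻¹ • (y - x)) = lam ^ m * kerK m q c (x + lam • z) (lam * r) y := by
  unfold kerK
  have h1 : ‖lam⁻¹ • (y - x) - z‖ ^ 2 / r ^ 2 = ‖y - (x + lam • z)‖ ^ 2 / (lam * r) ^ 2 := by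
    have e : y - (x + lam • z) = lam • (lam⁻¹ • (y - x) - z) := by
      rw [smul_sub, smul_smul, mul_inv_cancel₀ hlam.ne', one_smul]
      abel
    rw [e, norm_smul, Real.norm_eq_abs, abs_of_pos hlam]
    field_simp
  rw [h1]
  have h2 := (pow_pos hlam m).ne'
  have h3 := (pow_pos hr m).ne'
  have e2 : c * (r ^ m)⁻¹ = lam ^ m * (c * ((lam * r) ^ m)⁻¹) := by
    rw [mul_pow]
    field_simp
  rw [e2]
  ring

/-- joint continuity in centre, radius and point -/
theorem continuousOn_kerK (m q : ℕ) (c : ℝ) :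
    ContinuousOn (fun w : (E m × ℝ) × E m => kerK m q c w.1.1 w.1.2 w.2)
      ({θ : E m × ℝ | 0 < θ.2} ×ˢ Set.univ) := by
  unfold kerK
  have hne : ∀ w ∈ ({θ : E m × ℝ | 0 < θ.2} ×ˢ (Set.univ : Set (E m))), w.1.2 ≠ 0 :=
    fun w hw => (hw.1 : 0 < w.1.2).ne'
  refine ContinuousOn.mul (ContinuousOn.mul continuousOn_const (ContinuousOn.inv₀ (by fun_prop)
    fun w hw => pow_ne_zero _ (hne w hw))) (ContinuousOn.pow ?_ q)
  refine ContinuousOn.sup (continuousOn_const.sub (ContinuousOn.div (by fun_prop) (by fun_prop)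
    fun w hw => pow_ne_zero _ (hne w hw))) continuousOn_const

theorem continuous_kerK (hl : 0 < l) : Continuous (kerK m q c x l) := by
  have h1 : Continuous (fun y : E m => (((x, l), y) : (E m × ℝ) × E m)) := by fun_prop
  exact (continuousOn_kerK m q c).comp_continuous h1 fun y => ⟨hl, Set.mem_univ _⟩

theorem tsupport_kerK_subset (hq : 1 ≤ q) (hl : 0 < l) :
    tsupport (kerK m q c x l) ⊆ Metric.closedBall x l := by
  refine tsupport_subset_of_forall Metric.isClosed_closedBall fun y hy => ?_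
  rw [Metric.mem_closedBall, dist_eq_norm, not_le] at hy
  exact kerK_eq_zero hq hl hy.le

theorem isTest_kerK (h : Adm Ω x l) (hq : 1 ≤ q) : IsTest Ω (kerK m q c x l) := by
  refine isTest_of_forall (continuous_kerK h.1) (isCompact_closedBall x l) h.2 fun y hy => ?_
  rw [Metric.mem_closedBall, dist_eq_norm, not_le] at hy
  exact kerK_eq_zero hq h.1 hy.le

/-! ## derivatives (package L-Red-Ker2) -/

theorem hasDerivAt_maxpow (hq : 2 ≤ q) (u : ℝ) :
    HasDerivAt (fun u : ℝ => (max u 0) ^ q) ((q : ℝ) * (max u 0) ^ (q - 1)) u := by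
  rcases lt_trichotomy u 0 with hu | hu | hu
  · have h1 : (fun u : ℝ => (max u 0) ^ q) =ᶠ[𝓝 u] fun _ => 0 := by
      filter_upwards [gt_mem_nhds hu] with v hv
      rw [max_eq_right hv.le, zero_pow (by omega)]
    rw [max_eq_right hu.le, zero_pow (by omega), mul_zero]
    exact (hasDerivAt_const u (0 : ℝ)).congr_of_eventuallyEq h1
  · subst hu
    rw [max_self, zero_pow (by omega), mul_zero, hasDerivAt_iff_isLittleO]
    have h2 := Asymptotics.isLittleO_pow_sub_sub (0 : ℝ) (m := q) (by omega)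
    refine Asymptotics.IsBigO.trans_isLittleO (Asymptotics.IsBigO.of_bound 1 ?_) h2
    refine Eventually.of_forall fun v => ?_
    simp only [max_self, sub_zero, smul_eq_mul, mul_zero, one_mul, norm_pow, norm_norm]
    rw [zero_pow (by omega), sub_zero]
    have h3 : ‖max v 0‖ ≤ ‖v‖ := by
      rw [Real.norm_eq_abs, Real.norm_eq_abs, abs_of_nonneg (le_max_right _ _)]
      exact max_le (le_abs_self v) (abs_nonneg v)
    rw [norm_pow]
    exact pow_le_pow_left₀ (norm_nonneg _) h3 q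
  · have h1 : (fun u : ℝ => (max u 0) ^ q) =ᶠ[𝓝 u] fun u => u ^ q := by
      filter_upwards [lt_mem_nhds hu] with v hv
      rw [max_eq_left hv.le]
    rw [max_eq_left hu.le]
    exact (hasDerivAt_pow q u).congr_of_eventuallyEq h1

/-- [for `s < 1`: locally `(1 - s)^q`; for `s > 1`: locally `0`; at `s = 1`: `|(max (1 - s) 0)^q| ≤ |s - 1|^2` near `1`
(`hasDerivAt_iff_isLittleO`), and `(max 0 0)^(q-1) = 0`.] -/
theorem hasDerivAt_pospow (hq : 2 ≤ q) (s : ℝ) :
    HasDerivAt (fun s : ℝ => (max (1 - s) 0) ^ q) (-((q : ℝ) * (max (1 - s) 0) ^ (q - 1))) s := by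
  have h1 : HasDerivAt (fun s : ℝ => 1 - s) (-1) s := by
    simpa using (hasDerivAt_id s).const_sub 1
  have := (hasDerivAt_maxpow hq (1 - s)).comp s h1
  rw [mul_neg_one] at this
  exact this

/-- [`contDiff_one_iff_deriv`, `hasDerivAt_pospow`] -/
theorem contDiff_pospow (hq : 2 ≤ q) : ContDiff ℝ 1 (fun s : ℝ => (max (1 - s) 0) ^ q) := by
  rw [contDiff_one_iff_deriv]
  refine ⟨fun s => (hasDerivAt_pospow hq s).differentiableAt, ?_⟩
  have : deriv (fun s : ℝ => (max (1 - s) 0) ^ q)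
      = fun s => -((q : ℝ) * (max (1 - s) 0) ^ (q - 1)) :=
    funext fun s => (hasDerivAt_pospow hq s).deriv
  rw [this]
  fun_prop

theorem kerK_eq_comp (m q : ℕ) (c : ℝ) (x : E m) (l : ℝ) :
    kerK m q c x l = fun y => c * (l ^ m)⁻¹ *
      (fun s : ℝ => (max (1 - s) 0) ^ q) (‖y - x‖ ^ 2 / l ^ 2) := rfl

theorem contDiff_normsq_div (x : E m) (l : ℝ) :
    ContDiff ℝ ∞ (fun y : E m => ‖y - x‖ ^ 2 / l ^ 2) :=
  ((contDiff_id.sub contDiff_const).norm_sq ℝ).div_const _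

theorem contDiff_kerK (hq : 2 ≤ q) (hl : 0 < l) : ContDiff ℝ 1 (kerK m q c x l) := by
  rw [kerK_eq_comp]
  exact contDiff_const.mul ((contDiff_pospow hq).comp ((contDiff_normsq_div x l).of_le (by simp)))

/-- `∇ ker_q = - l⁻² (y - x) ker_{q-1}` (with the constant `2 q c`) -/
theorem pd_kerK (hq : 2 ≤ q) (hl : 0 < l) (i : Fin m) (y : E m) :
    pd i (kerK m q c x l) y = -((l ^ 2)⁻¹ * (y i - x i) * kerK m (q - 1) (2 * q * c) x l y) := by
  have hd : DifferentiableAt ℝ (fun y : E m => ‖y - x‖ ^ 2 / l ^ 2) y :=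
    ((contDiff_normsq_div x l).differentiable (by simp)) y
  have hd0 : DifferentiableAt ℝ (fun y : E m => ‖y - x‖ ^ 2) y :=
    (((contDiff_id.sub contDiff_const).norm_sq ℝ).differentiable (n := ∞) (by simp)) y
  have h1 : pd i (fun y : E m => ‖y - x‖ ^ 2 / l ^ 2) y = (l ^ 2)⁻¹ * (2 * (y i - x i)) := by
    have e : (fun y : E m => ‖y - x‖ ^ 2 / l ^ 2) = fun y => (l ^ 2)⁻¹ * ‖y - x‖ ^ 2 := by
      funext y; rw [div_eq_inv_mul]
    rw [e, pd_const_mul i _ hd0, pd_norm_sub_sq]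
  have h2 := pd_comp_real (g := fun y : E m => ‖y - x‖ ^ 2 / l ^ 2) i
    (hasDerivAt_pospow hq (‖y - x‖ ^ 2 / l ^ 2)) hd
  have hd2 : DifferentiableAt ℝ (fun z : E m => (max (1 - ‖z - x‖ ^ 2 / l ^ 2) 0) ^ q) y :=
    DifferentiableAt.comp (g := fun s : ℝ => (max (1 - s) 0) ^ q)
      (f := fun z : E m => ‖z - x‖ ^ 2 / l ^ 2) y
      (hasDerivAt_pospow hq (‖y - x‖ ^ 2 / l ^ 2)).differentiableAt hd
  have e0 : kerK m q c x l = fun z => c * (l ^ m)⁻¹ * (max (1 - ‖z - x‖ ^ 2 / l ^ 2) 0) ^ q := rfl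
  rw [e0, pd_const_mul i _ hd2, h2, h1]
  unfold kerK
  ring

/-- the derivative of the kernel with respect to the radius -/
noncomputable def dkerK (m q : ℕ) (c : ℝ) (x : E m) (l : ℝ) (y : E m) : ℝ :=
  l⁻¹ * (-(m : ℝ) * kerK m q c x l y + ‖y - x‖ ^ 2 / l ^ 2 * kerK m (q - 1) (2 * q * c) x l y)

theorem hasDerivAt_inv_pow (m : ℕ) (hl : 0 < l) :
    HasDerivAt (fun l : ℝ => (l ^ m)⁻¹) (-(m : ℝ) * l⁻¹ * (l ^ m)⁻¹) l := by
  have h1 : HasDerivAt (fun l : ℝ => (l ^ m)⁻¹) (-((m : ℝ) * l ^ (m - 1)) / (l ^ m) ^ 2) l :=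
    (hasDerivAt_pow m l).fun_inv (pow_pos hl m).ne'
  refine h1.congr_deriv ?_
  rcases m with _ | k
  · simp
  · simp only [Nat.add_sub_cancel]
    field_simp
    ring

theorem hasDerivAt_kerK (hq : 2 ≤ q) (hl : 0 < l) (y : E m) :
    HasDerivAt (fun l => kerK m q c x l y) (dkerK m q c x l y) l := by
  have h1 := hasDerivAt_inv_pow m hl
  have h2 : HasDerivAt (fun l : ℝ => ‖y - x‖ ^ 2 / l ^ 2) (-(2 * ‖y - x‖ ^ 2 * l⁻¹ * (l ^ 2)⁻¹)) l := by
    have h3 := (hasDerivAt_inv_pow 2 hl).const_mul (‖y - x‖ ^ 2)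
    simp only [div_eq_mul_inv]
    refine h3.congr_deriv ?_
    push_cast; ring
  have h4 : HasDerivAt (fun l : ℝ => (max (1 - ‖y - x‖ ^ 2 / l ^ 2) 0) ^ q)
      (-((q : ℝ) * (max (1 - ‖y - x‖ ^ 2 / l ^ 2) 0) ^ (q - 1)) *
        -(2 * ‖y - x‖ ^ 2 * l⁻¹ * (l ^ 2)⁻¹)) l :=
    HasDerivAt.comp (h₂ := fun s : ℝ => (max (1 - s) 0) ^ q)
      (h := fun l : ℝ => ‖y - x‖ ^ 2 / l ^ 2) l (hasDerivAt_pospow hq (‖y - x‖ ^ 2 / l ^ 2)) h2
  have h5 := (h1.const_mul c).fun_mul h4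
  unfold kerK
  refine h5.congr_deriv ?_
  unfold dkerK kerK
  ring

/-- `∂_j ((y - x)_i ker_q) = δ_ij ker_q - l⁻² (y - x)_i (y - x)_j ker_{q-1}` -/
theorem pd_kerK_mul_coord (hq : 2 ≤ q) (hl : 0 < l) (i j : Fin m) (y : E m) :
    pd j (fun y => kerK m q c x l y * (y i - x i)) y =
      (if i = j then kerK m q c x l y else 0) -
        (l ^ 2)⁻¹ * (kerK m (q - 1) (2 * q * c) x l y * (y i - x i) * (y j - x j)) := by
  rw [pd_mul j ((contDiff_kerK hq hl).differentiable (by simp) y)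
    ((contDiff_coord i x).differentiable (by simp) y), pd_kerK hq hl, pd_coord]
  split_ifs <;> ring

/-- `l ∂_l ker = - div ((y - x) ker)` -/
theorem sum_pd_coord_mul_kerK (hq : 2 ≤ q) (hl : 0 < l) (y : E m) :
    ∑ i, pd i (fun y => kerK m q c x l y * (y i - x i)) y = -(l * dkerK m q c x l y) := by
  simp only [pd_kerK_mul_coord hq hl, if_true, Finset.sum_sub_distrib, Finset.sum_const,
    Finset.card_univ, Fintype.card_fin, nsmul_eq_mul]
  have e : ∑ i, (l ^ 2)⁻¹ * (kerK m (q - 1) (2 * q * c) x l y * (y i - x i) * (y i - x i))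
      = (l ^ 2)⁻¹ * kerK m (q - 1) (2 * q * c) x l y * ‖y - x‖ ^ 2 := by
    rw [norm_sub_sq_eq_sum, Finset.mul_sum]
    exact Finset.sum_congr rfl fun i _ => by ring
  rw [e]
  unfold dkerK
  field_simp
  ring

theorem continuousOn_dkerK (m q : ℕ) (c : ℝ) (x : E m) :
    ContinuousOn (fun w : ℝ × E m => dkerK m q c x w.1 w.2) ({l : ℝ | 0 < l} ×ˢ Set.univ) := by
  unfold dkerK
  have hne : ∀ w ∈ ({l : ℝ | 0 < l} ×ˢ (Set.univ : Set (E m))), w.1 ≠ 0 :=
    fun w hw => (hw.1 : 0 < w.1).ne'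
  have hk : ∀ (q : ℕ) (c : ℝ), ContinuousOn (fun w : ℝ × E m => kerK m q c x w.1 w.2)
      ({l : ℝ | 0 < l} ×ˢ Set.univ) := by
    intro q c
    have h1 : ContinuousOn (fun w : ℝ × E m => (((x, w.1), w.2) : (E m × ℝ) × E m))
        ({l : ℝ | 0 < l} ×ˢ Set.univ) := by fun_prop
    exact (continuousOn_kerK m q c).comp h1 fun w hw => ⟨hw.1, Set.mem_univ _⟩
  refine ContinuousOn.mul (ContinuousOn.inv₀ (by fun_prop) hne) (ContinuousOn.add
    (continuousOn_const.mul (hk _ _)) (ContinuousOn.mul (ContinuousOn.div (by fun_prop)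
      (by fun_prop) fun w hw => pow_ne_zero _ (hne w hw)) (hk _ _)))

theorem dkerK_eq_zero (hq : 2 ≤ q) (hl : 0 < l) (hy : l ≤ ‖y - x‖) : dkerK m q c x l y = 0 := by
  unfold dkerK
  rw [kerK_eq_zero (by omega) hl hy, kerK_eq_zero (by omega) hl hy]
  simp

/-- the products `ker * (y - x)_i` -/
theorem isTest_kerK_mul_coord (h : Adm Ω x l) (hq : 1 ≤ q) (i : Fin m) :
    IsTest Ω (fun y => kerK m q c x l y * (y i - x i)) :=
  (isTest_kerK h hq).mul_cont ((contDiff_coord i x).continuous)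

theorem contDiff_kerK_mul_coord (hq : 2 ≤ q) (hl : 0 < l) (i : Fin m) :
    ContDiff ℝ 1 (fun y => kerK m q c x l y * (y i - x i)) :=
  (contDiff_kerK hq hl).mul ((contDiff_coord i x).of_le (by simp))

/-! ## Radon functionals applied to kernels (glue) -/

/-- continuity in centre and radius -/
theorem continuousAt_radon_kerK (hΩ : IsOpen Ω) {Λ : (E m → ℝ) → ℝ} (hΛ : IsRadon Ω Λ)
    (h : Adm Ω x l) (hq : 1 ≤ q) :
    ContinuousAt (fun θ : E m × ℝ => Λ (kerK m q c θ.1 θ.2)) (x, l) := by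
  obtain ⟨δ, hδ, hsub⟩ := h.exists_larger hΩ
  have hU : {θ : E m × ℝ | 0 < θ.2 ∧ dist θ.1 x + θ.2 < l + δ} ∈ 𝓝 (x, l) := by
    have ho : IsOpen {θ : E m × ℝ | 0 < θ.2 ∧ dist θ.1 x + θ.2 < l + δ} :=
      (isOpen_lt continuous_const continuous_snd).inter
        (isOpen_lt ((continuous_fst.dist continuous_const).add continuous_snd) continuous_const)
    refine ho.mem_nhds ⟨h.1, ?_⟩
    simp only [dist_self, zero_add]
    linarith
  refine hΛ.continuousAt_param (g := fun θ : E m × ℝ => kerK m q c θ.1 θ.2) hU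
    (isCompact_closedBall x (l + δ)) hsub
    ((continuousOn_kerK m q c).mono (Set.prod_mono (fun θ hθ => hθ.1) le_rfl)) ?_
  intro θ hθ y hy
  rw [Metric.mem_closedBall, not_le] at hy
  refine kerK_eq_zero hq hθ.1 ?_
  have h1 : dist y x ≤ dist y θ.1 + dist θ.1 x := dist_triangle _ _ _
  rw [← dist_eq_norm]
  linarith [hθ.2]

/-- differentiation in the radius -/
theorem hasDerivAt_radon_kerK (hΩ : IsOpen Ω) {Λ : (E m → ℝ) → ℝ} (hΛ : IsRadon Ω Λ)
    (h : Adm Ω x l) (hq : 2 ≤ q) :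
    HasDerivAt (fun l => Λ (kerK m q c x l)) (Λ (dkerK m q c x l)) l := by
  obtain ⟨δ, hδ, hsub⟩ := h.exists_larger hΩ
  have hU : Set.Ioo 0 (l + δ) ∈ 𝓝 l := Ioo_mem_nhds h.1 (by linarith)
  refine hΛ.hasDerivAt_param (g := fun l => kerK m q c x l) (g' := fun l => dkerK m q c x l) hU
    (isCompact_closedBall x (l + δ)) hsub (fun t ht => continuous_kerK ht.1)
    (fun t ht y => hasDerivAt_kerK hq ht.1 y)
    ((continuousOn_dkerK m q c x).mono (Set.prod_mono (fun t ht => ht.1) le_rfl)) ?_ ?_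
  · intro t ht y hy
    rw [Metric.mem_closedBall, not_le, dist_eq_norm] at hy
    exact kerK_eq_zero (by omega) ht.1 (by linarith [ht.2])
  · intro t ht y hy
    rw [Metric.mem_closedBall, not_le, dist_eq_norm] at hy
    exact dkerK_eq_zero hq ht.1 (by linarith [ht.2])

end Claimed.Agent.R322.Red
end

/- ===== packed: Claimed.Agent.R322.Fn.Compact ===== -/
section
/-!
# Weak-* sequential compactness of Radon functionals (helper96; sorry-free)

`exists_subseq_wconv_family` : a COUNTABLE family of sequences of Radon functionals with uniform local bounds has a COMMON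
subsequence along which every member converges weak-* to a Radon functional.
`exists_subseq_wconv'` is the statement of `Fn/Defs.lean` (one sequence).
-/

set_option autoImplicit false

open scoped ENNReal ContDiff
open MeasureTheory Filter Topology

namespace Claimed.Agent.R322.Fn

variable {k : ℕ} {Ω : Set (E k)}

/-- **C1 (separability).**
[`C(E k, ℝ)` with the compact-open topology is second countable (`ContinuousMap.instSecondCountableTopology`), hence so is the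
subtype `S := {f : C(E k, ℝ) // tsupport f ⊆ K}`, which is nonempty (`0`); take `TopologicalSpace.denseSeq S`.
Given `g`, the set `{f | ∀ y ∈ K, |f y - g y| < ε}` is a neighbourhood of `g` in the compact-open topology
(`ContinuousMap.tendsto_iff_forall_isCompact_tendstoUniformlyOn` / `ContinuousMap.compactOpen` basis, or the continuity of the
restriction `C(E k, ℝ) → C(K, ℝ)` and the sup metric there), so it contains some `d n`; outside `K` both functions vanish.] -/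
theorem exists_dense_tests (K : Set (E k)) (hK : IsCompact K) :
    ∃ d : ℕ → E k → ℝ, (∀ n, Continuous (d n)) ∧ (∀ n, tsupport (d n) ⊆ K) ∧
      ∀ g : E k → ℝ, Continuous g → tsupport g ⊆ K → ∀ ε : ℝ, 0 < ε → ∃ n, ∀ y, |g y - d n y| ≤ ε := by
  have : CompactSpace K := isCompact_iff_compactSpace.1 hK
  set S : Set C(E k, ℝ) := {f | tsupport (f : E k → ℝ) ⊆ K} with hS
  have : Nonempty S := ⟨⟨0, by
    have : tsupport ((0 : C(E k, ℝ)) : E k → ℝ) = ∅ := by
      simp [tsupport]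
    rw [hS, Set.mem_ofPred_eq, this]; exact Set.empty_subset _⟩⟩
  set d : ℕ → S := TopologicalSpace.denseSeq S with hd0
  have hd : DenseRange d := TopologicalSpace.denseRange_denseSeq S
  set Φ : S → C(K, ℝ) := fun f => f.1.restrict K with hΦ0
  have hΦ : Continuous Φ := (ContinuousMap.continuous_restrict K).comp continuous_subtype_val
  refine ⟨fun n => (d n).1, fun n => (d n).1.continuous, fun n => (d n).2, fun g hg hgK ε hε => ?_⟩
  set G : S := ⟨⟨g, hg⟩, hgK⟩ with hG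
  obtain ⟨n, hn⟩ := hd.exists_mem_open (s := Φ ⁻¹' Metric.ball (Φ G) ε)
    (Metric.isOpen_ball.preimage hΦ) ⟨G, Metric.mem_ball_self hε⟩
  refine ⟨n, fun y => ?_⟩
  by_cases hy : y ∈ K
  · have h1 : dist (Φ (d n) ⟨y, hy⟩) (Φ G ⟨y, hy⟩) ≤ dist (Φ (d n)) (Φ G) :=
      ContinuousMap.dist_apply_le_dist _
    have h2 : dist (Φ (d n)) (Φ G) < ε := hn
    have h3 : dist (Φ (d n) ⟨y, hy⟩) (Φ G ⟨y, hy⟩) = |(d n).1 y - g y| := by
      rw [Real.dist_eq]; rfl
    rw [abs_sub_comm]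
    linarith
  · have e1 : g y = 0 := image_eq_zero_of_notMem_tsupport fun h => hy (hgK h)
    have e2 : (d n).1 y = 0 := image_eq_zero_of_notMem_tsupport fun h => hy ((d n).2 h)
    simp only [e1, e2]
    simpa using hε.le

/-- the standard exhaustion of `Ω` by compact sets -/
def exhK (Ω : Set (E k)) (n : ℕ) : Set (E k) :=
  {x | ‖x‖ ≤ n ∧ ∀ y, y ∉ Ω → 1 / ((n : ℝ) + 1) ≤ dist x y}

/-- [closed (intersection of closed conditions) and bounded] -/
theorem isCompact_exhK (Ω : Set (E k)) (n : ℕ) : IsCompact (exhK Ω n) := by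
  have hc : IsClosed (exhK Ω n) := by
    have e : exhK Ω n = {x | ‖x‖ ≤ (n : ℝ)} ∩ ⋂ (y : E k) (_ : y ∉ Ω),
        {x | 1 / ((n : ℝ) + 1) ≤ dist x y} := by
      ext x
      simp only [exhK, Set.mem_ofPred_eq, Set.mem_inter_iff, Set.mem_iInter]
    rw [e]
    exact (isClosed_le continuous_norm continuous_const).inter
      (isClosed_iInter fun y => isClosed_iInter fun _ =>
        isClosed_le continuous_const (continuous_id.dist continuous_const))
  refine (isCompact_closedBall (0 : E k) (n : ℝ)).of_isClosed_subset hc fun x hx => ?_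
  rw [Metric.mem_closedBall, dist_zero_right]
  exact hx.1

theorem exhK_subset (Ω : Set (E k)) (n : ℕ) : exhK Ω n ⊆ Ω := by
  intro x hx
  by_contra hcon
  have := hx.2 x hcon
  rw [dist_self] at this
  have h2 : (0 : ℝ) < 1 / ((n : ℝ) + 1) := by positivity
  linarith

/-- **C2.** [`K` bounded; `IsCompact.exists_thickening_subset_open` (or `exists_cthickening_subset_open`) gives `δ > 0` with
`thickening δ K ⊆ Ω`, so `δ ≤ dist x y` for `x ∈ K`, `y ∉ Ω`; take `n` large.] -/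
theorem exists_exhK_superset (hΩ : IsOpen Ω) {K : Set (E k)} (hK : IsCompact K) (hKΩ : K ⊆ Ω) :
    ∃ n, K ⊆ exhK Ω n := by
  obtain ⟨δ, hδ, hsub⟩ := hK.exists_thickening_subset_open hΩ hKΩ
  obtain ⟨R, hR⟩ := hK.isBounded.exists_norm_le
  obtain ⟨n, hn⟩ := exists_nat_gt (max R (1 / δ))
  have hn1 : R < n := lt_of_le_of_lt (le_max_left _ _) hn
  have hn2 : 1 / δ < n := lt_of_le_of_lt (le_max_right _ _) hn
  refine ⟨n, fun x hx => ⟨(hR x hx).trans hn1.le, fun y hy => ?_⟩⟩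
  have h1 : δ ≤ dist x y := by
    by_contra hcon
    rw [not_le, dist_comm] at hcon
    exact hy (hsub (Metric.mem_thickening_iff.2 ⟨x, hx, hcon⟩))
  have h2 : 1 / ((n : ℝ) + 1) ≤ δ := by
    rw [div_le_iff₀ (by positivity)]
    rw [div_lt_iff₀ hδ] at hn2
    nlinarith
  linarith

/-- **C3 (diagonal argument).**
[`x j := fun i => u i j` lies in the compact set `Set.pi univ fun i => Icc (-M i) (M i)` (`isCompact_univ_pi`) of the first
countable space `ι → ℝ`; `IsCompact.tendsto_subseq`; `tendsto_pi_nhds`.] -/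
theorem exists_subseq_tendsto_countable {ι : Type*} [Countable ι] (u : ι → ℕ → ℝ) (M : ι → ℝ)
    (hM : ∀ i j, |u i j| ≤ M i) :
    ∃ φ : ℕ → ℕ, StrictMono φ ∧ ∀ i, ∃ a : ℝ, Tendsto (fun j => u i (φ j)) atTop (𝓝 a) := by
  have hc : IsCompact (Set.pi Set.univ fun i => Set.Icc (-M i) (M i)) :=
    isCompact_univ_pi fun i => isCompact_Icc
  obtain ⟨a, _, φ, hφ, hlim⟩ := hc.tendsto_subseq (x := fun j i => u i j)
    (fun j i _ => abs_le.1 (hM i j))
  exact ⟨φ, hφ, fun i => ⟨a i, (tendsto_pi_nhds.1 hlim) i⟩⟩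

/-- **C4 (from a dense set to all test functions).**
[`cauchySeq_tendsto_of_complete`; Cauchy: given `ε`, take `n` with `|g - d n| ≤ ε`; `tsupport (g - d n) ⊆ K`;
`|Λs j g - Λs i g| ≤ |Λs j (g - d n)| + |Λs j (d n) - Λs i (d n)| + |Λs i (d n - g)| ≤ 2 C ε + ε` for `i, j` large.] -/
theorem exists_tendsto_of_dense {Λs : ℕ → (E k → ℝ) → ℝ} (hR : ∀ j, IsRadon Ω (Λs j))
    {K : Set (E k)} (hK : IsCompact K) (hKΩ : K ⊆ Ω) {C : ℝ}
    (hB : ∀ j g, IsTest Ω g → tsupport g ⊆ K → ∀ B : ℝ, (∀ x, |g x| ≤ B) → |Λs j g| ≤ C * B)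
    {d : ℕ → E k → ℝ} (hdc : ∀ n, Continuous (d n)) (hdK : ∀ n, tsupport (d n) ⊆ K)
    (hlim : ∀ n, ∃ a : ℝ, Tendsto (fun j => Λs j (d n)) atTop (𝓝 a))
    {g : E k → ℝ} (hg : IsTest Ω g) (hgK : tsupport g ⊆ K)
    (hdense : ∀ ε : ℝ, 0 < ε → ∃ n, ∀ y, |g y - d n y| ≤ ε) :
    ∃ a : ℝ, Tendsto (fun j => Λs j g) atTop (𝓝 a) := by
  refine cauchySeq_tendsto_of_complete ?_
  rw [Metric.cauchySeq_iff']
  intro ε hε
  have hpos : 0 < ε / (|C| + 1) / 4 := by positivity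
  obtain ⟨n, hn⟩ := hdense _ hpos
  have hdT : IsTest Ω (d n) := isTest_of_forall (hdc n) hK hKΩ fun x hx =>
    image_eq_zero_of_notMem_tsupport fun h => hx (hdK n h)
  obtain ⟨a, ha⟩ := hlim n
  obtain ⟨N, hN⟩ := Metric.cauchySeq_iff'.1 ha.cauchySeq (ε / 4) (by positivity)
  refine ⟨N, fun j hj => ?_⟩
  have h1 : ∀ i, |Λs i g - Λs i (d n)| ≤ ε / 4 := by
    intro i
    have h2 := (hR i).abs_sub_le hK.isClosed (hB i) hg hgK hdT (hdK n) hn
    have h3 : C * (ε / (|C| + 1) / 4) ≤ (|C| + 1) * (ε / (|C| + 1) / 4) :=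
      mul_le_mul_of_nonneg_right (by linarith [le_abs_self C]) hpos.le
    have h4 : (|C| + 1) * (ε / (|C| + 1) / 4) = ε / 4 := by field_simp
    linarith
  have h5 := hN j hj
  rw [Real.dist_eq] at h5 ⊢
  have h6 := h1 j
  have h7 := h1 N
  rw [abs_sub_comm] at h7
  calc |Λs j g - Λs N g|
      = |(Λs j g - Λs j (d n)) + (Λs j (d n) - Λs N (d n)) + (Λs N (d n) - Λs N g)| := by
        congr 1; ring
    _ ≤ |Λs j g - Λs j (d n)| + |Λs j (d n) - Λs N (d n)| + |Λs N (d n) - Λs N g| :=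
        abs_add_three _ _ _
    _ < ε := by linarith

/-- **C5 (the limit is Radon).**  [`tendsto_nhds_unique` for `add`, `smul`; `le_of_tendsto` for `bdd`.] -/
theorem isRadon_of_wconv {Λs : ℕ → (E k → ℝ) → ℝ} {Λ : (E k → ℝ) → ℝ} (hR : ∀ j, IsRadon Ω (Λs j))
    (hB : ∀ K : Set (E k), IsCompact K → K ⊆ Ω → ∃ C : ℝ, ∀ j g, IsTest Ω g → tsupport g ⊆ K →
      ∀ B : ℝ, (∀ x, |g x| ≤ B) → |Λs j g| ≤ C * B)
    (hconv : WConv Ω Λs Λ) : IsRadon Ω Λ where
  add g h hg hh := by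
    refine tendsto_nhds_unique (hconv _ (hg.add hh)) ?_
    simp only [(hR _).add g h hg hh]
    exact (hconv g hg).add (hconv h hh)
  smul c g hg := by
    refine tendsto_nhds_unique (hconv _ (hg.smul c)) ?_
    simp only [(hR _).smul c g hg]
    exact (hconv g hg).const_mul c
  bdd K hK hKΩ := by
    obtain ⟨C, hC⟩ := hB K hK hKΩ
    exact ⟨C, fun g hg hgK B hB' => le_of_tendsto' (hconv g hg).abs fun j => hC j g hg hgK B hB'⟩

/-- **Weak-* sequential compactness, countable families.** -/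
theorem exists_subseq_wconv_family {ι : Type*} [Countable ι] (hΩ : IsOpen Ω)
    (Λs : ι → ℕ → (E k → ℝ) → ℝ) (hR : ∀ a j, IsRadon Ω (Λs a j))
    (hB : ∀ a, ∀ K : Set (E k), IsCompact K → K ⊆ Ω → ∃ C : ℝ, ∀ j g, IsTest Ω g →
      tsupport g ⊆ K → ∀ B : ℝ, (∀ x, |g x| ≤ B) → |Λs a j g| ≤ C * B) :
    ∃ (φ : ℕ → ℕ) (Λ : ι → (E k → ℝ) → ℝ), StrictMono φ ∧ (∀ a, IsRadon Ω (Λ a)) ∧
      ∀ a, WConv Ω (fun j => Λs a (φ j)) (Λ a) := by
  choose d hdc hdK hdense using fun n : ℕ => exists_dense_tests (exhK Ω n) (isCompact_exhK Ω n)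
  have hdT : ∀ n i, IsTest Ω (d n i) := fun n i =>
    isTest_of_forall (hdc n i) (isCompact_exhK Ω n) (exhK_subset Ω n) fun x hx =>
      image_eq_zero_of_notMem_tsupport fun h => hx (hdK n i h)
  choose Bd _ hBd using fun n i => (hdT n i).exists_bound
  choose C hC using fun (a : ι) (n : ℕ) => hB a (exhK Ω n) (isCompact_exhK Ω n) (exhK_subset Ω n)
  obtain ⟨φ, hφ, hlim⟩ := exists_subseq_tendsto_countable
    (fun (q : ι × ℕ × ℕ) j => Λs q.1 j (d q.2.1 q.2.2)) (fun q => C q.1 q.2.1 * Bd q.2.1 q.2.2)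
    (fun q j => hC q.1 q.2.1 j _ (hdT _ _) (hdK _ _) _ (hBd _ _))
  have hex : ∀ a g, IsTest Ω g → ∃ L : ℝ, Tendsto (fun j => Λs a (φ j) g) atTop (𝓝 L) := by
    intro a g hg
    obtain ⟨n, hn⟩ := exists_exhK_superset hΩ hg.cpt hg.sub
    exact exists_tendsto_of_dense (fun j => hR a (φ j)) (isCompact_exhK Ω n) (exhK_subset Ω n)
      (fun j => hC a n (φ j)) (hdc n) (hdK n) (fun i => hlim (a, n, i)) hg hn
      (hdense n g hg.cont hn)
  have hconv : ∀ a, WConv Ω (fun j => Λs a (φ j))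
      (fun g => limUnder atTop fun j => Λs a (φ j) g) :=
    fun a g hg => tendsto_nhds_limUnder (hex a g hg)
  refine ⟨φ, fun a g => limUnder atTop fun j => Λs a (φ j) g, hφ, fun a => ?_, hconv⟩
  refine isRadon_of_wconv (fun j => hR a (φ j)) (fun K hK hKΩ => ?_) (hconv a)
  obtain ⟨C', hC'⟩ := hB a K hK hKΩ
  exact ⟨C', fun j => hC' (φ j)⟩

/-- **Weak-* sequential compactness** (the statement of `Fn/Defs.lean`). -/
theorem exists_subseq_wconv' (Ω : Set (E k)) (hΩ : IsOpen Ω)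
    (Λs : ℕ → (E k → ℝ) → ℝ) (hR : ∀ j, IsRadon Ω (Λs j))
    (hB : ∀ K : Set (E k), IsCompact K → K ⊆ Ω → ∃ C : ℝ, ∀ j g, IsTest Ω g → tsupport g ⊆ K →
      ∀ B : ℝ, (∀ x, |g x| ≤ B) → |Λs j g| ≤ C * B) :
    ∃ (φ : ℕ → ℕ) (Λ : (E k → ℝ) → ℝ), StrictMono φ ∧ IsRadon Ω Λ ∧
      WConv Ω (fun j => Λs (φ j)) Λ := by
  obtain ⟨φ, Λ, hφ, h1, h2⟩ := exists_subseq_wconv_family (ι := Unit) hΩ (fun _ => Λs)
    (fun _ => hR) (fun _ => hB)
  exact ⟨φ, Λ (), hφ, h1 (), h2 ()⟩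

end Claimed.Agent.R322.Fn
end
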