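/- Packed by merge_tool.py (helper293): 6 modules of Claimed.Agent.R322 in one file, same declarations.
   Old modules, in this order: Lin.Defs, Lin.CylKit, Lin.DivS, Lin.PsdTrace, Lin.VarKit, Lin.QDiv -/
import Claimed.Agent.R322.Pack007
import Claimed.Agent.R322.Pack002
import Claimed.Agent.R322.Pack017
import Claimed.Agent.R322.Pack039
import Claimed.Agent.R322.Pack012
import Claimed.Agent.R322.Pack013

/- ===== packed: Claimed.Agent.R322.Lin.Defs ===== -/
section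
/-!
# CO Section 6 (limiting measure equations): definitions

`LinHyp` = hypotheses of CO Proposition 6.1 on a base ball of arbitrary radius `R`
(also the situation of AE Lemma 7.2, where the reference graphs are minimal).
Tensor components are taken in the COORDINATE frame `∂_a = dF(Du(y)) e_a` of the graph chart; it
converges uniformly to the standard frame, which is all that is needed.
-/

set_option autoImplicit false

open scoped ENNReal ContDiff
open MeasureTheory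

namespace Claimed.Agent.R322.Lin

open Claimed.Agent.R322.Tube Claimed.Agent.R322.Fn

variable {m n : ℕ}

/-- coordinate tangent vector `∂_a F (y)` -/
noncomputable def dcoord (u : E m → E n) (y : E m) (a : Fin m) : E (m + n) :=
  dF (fderiv ℝ u y) (EuclideanSpace.single a (1 : ℝ))

/-- `∫ g(π X) |z|² dμ` -/
noncomputable def hsq (N : NCyl m n) (g : E m → ℝ) : ℝ :=
  ∫ X, g (npr N.u X) * ‖zz N.u X‖ ^ 2 ∂N.μ

/-- `∫ g(π X) z·P_T ∂_a dμ` -/
noncomputable def flux (N : NCyl m n) (a : Fin m) (g : E m → ℝ) : ℝ :=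
  ∫ X, g (npr N.u X) * inner ℝ (zz N.u X) (N.W.P X (dcoord N.u (npr N.u X) a)) ∂N.μ

/-- `∫ g(π X) B[∂_a, ∂_b] dμ` -/
noncomputable def bet (N : NCyl m n) (a b : Fin m) (g : E m → ℝ) : ℝ :=
  ∫ X, g (npr N.u X) * inner ℝ (Bop N.u (N.W.P X) X (dcoord N.u (npr N.u X) a))
    (dcoord N.u (npr N.u X) b) ∂N.μ

/-- `∫ g(π X) e dμ` -/
noncomputable def til (N : NCyl m n) (g : E m → ℝ) : ℝ :=
  ∫ X, g (npr N.u X) * tilt N.u (N.W.P X) X ∂N.μ

/-- one normal cylinder over `B_R` with height scale `a`, constant `C`, geometric smallness `ε`. -/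
structure Small (N : NCyl m n) (R a C ε : ℝ) : Prop where
  Ω_eq : N.Ω = Metric.ball 0 R
  smooth : ContDiff ℝ 4 N.u
  geo : ∀ j : ℕ, 1 ≤ j → j ≤ 4 → ∀ y, ‖iteratedFDeriv ℝ j N.u y‖ ≤ ε
  mass : (N.Dm + N.Mabs) (Metric.ball 0 R) ≤ ENNReal.ofReal (C * a ^ 2)
  height : ∀ X ∈ N.W.support, X ∈ Cyl N.u N.Ω N.h → ‖zz N.u X‖ ≤ C * a
  curv : ∀ y ∈ Metric.ball (0 : E m) R, ‖HS N.u y‖ + Real.sqrt (DHSsq N.u y) ≤ ε * a

/-- hypotheses of CO Proposition 6.1 (without the lower bound for the second moment). -/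
structure LinHyp (m n Q J : ℕ) (hc R : ℝ) where
  N : ℕ → NCyl m n
  N_Q : ∀ i, (N i).Q = Q
  N_Ω : ∀ i, (N i).Ω = Metric.ball 0 R
  N_h : ∀ i, (N i).h = hc
  u_smooth : ∀ i, ContDiff ℝ J (N i).u
  u_conv : ∀ ε : ℝ, 0 < ε → ∀ᶠ i in Filter.atTop, ∀ j : ℕ, j ≤ J → ∀ y,
    ‖iteratedFDeriv ℝ j (N i).u y‖ ≤ ε
  a : ℕ → ℝ
  a_pos : ∀ i, 0 < a i
  a_lim : Filter.Tendsto a Filter.atTop (nhds 0)
  C : ℝ
  mass_bd : ∀ i, ((N i).Dm + (N i).Mabs) (Metric.ball 0 R) ≤ ENNReal.ofReal (C * a i ^ 2)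
  height_bd : ∀ i, ∀ X ∈ (N i).W.support, X ∈ Cyl (N i).u (Metric.ball 0 R) hc →
    ‖zz (N i).u X‖ ≤ C * a i
  curv : ∀ ε : ℝ, 0 < ε → ∀ᶠ i in Filter.atTop, ∀ y ∈ Metric.ball (0 : E m) R,
    ‖HS (N i).u y‖ + Real.sqrt (DHSsq (N i).u y) ≤ ε * a i

namespace LinHyp

variable {Q J : ℕ} {hc R : ℝ}

noncomputable def nuSeq (H : LinHyp m n Q J hc R) (i : ℕ) (g : E m → ℝ) : ℝ :=
  (H.a i ^ 2)⁻¹ * hsq (H.N i) g

noncomputable def fSeq (H : LinHyp m n Q J hc R) (a : Fin m) (i : ℕ) (g : E m → ℝ) : ℝ :=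
  (H.a i ^ 2)⁻¹ * flux (H.N i) a g

noncomputable def betaSeq (H : LinHyp m n Q J hc R) (a b : Fin m) (i : ℕ) (g : E m → ℝ) : ℝ :=
  (H.a i ^ 2)⁻¹ * bet (H.N i) a b g

noncomputable def mmSeq (H : LinHyp m n Q J hc R) (i : ℕ) (g : E m → ℝ) : ℝ :=
  (H.a i ^ 2)⁻¹ * (H.N i).intM g

end LinHyp

/-- the data of CO Proposition 5.1 satisfy the hypotheses of CO Proposition 6.1 -/
def ofCentered {s : ℝ} {Q J : ℕ} {hc : ℝ} (D : Blow.CenteredData m n s Q J hc) :
    LinHyp m n Q J hc 8 where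
  N := D.N
  N_Q := D.N_Q
  N_Ω := D.N_Ω
  N_h := D.N_h
  u_smooth := D.u_smooth
  u_conv := D.u_conv
  a := D.a
  a_pos := D.a_pos
  a_lim := D.a_lim
  C := D.C
  mass_bd := D.mass_bd
  height_bd := D.height_bd
  curv := D.curv

end Claimed.Agent.R322.Lin
end

/- ===== packed: Claimed.Agent.R322.Lin.CylKit ===== -/
section
/-!
# Integration kit for one normal cylinder (helper253)

`CylOK N` collects the qualitative facts on a normal cylinder which are needed to integrate: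
the cylinder is open, `npr`, `zz` are continuous on it, `z` is normal, the restricted weight is
carried by the support and is finite over compact base sets.  `exists_cylOK` derives it from
`Tube.cyl_carrier`, `Tube.tube_deriv`, `Tube.tube_unique`.

Then: measurability of all integrands of CO Section 6, the general weight functional
`g ↦ ∫ g(π X) w(X) dμ`, the mass bound.
-/

set_option autoImplicit false

open scoped ENNReal ContDiff Topology
open MeasureTheory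

namespace Claimed.Agent.R322.Lin

open Claimed.Agent.R322.Tube Claimed.Agent.R322.Fn

variable {m n : ℕ}

/-- qualitative facts on a normal cylinder -/
structure CylOK (N : NCyl m n) : Prop where
  smooth : ContDiff ℝ 4 N.u
  isOpen : IsOpen (Cyl N.u N.Ω N.h)
  carrier : N.μ {X | ¬ (X ∈ N.W.support ∧ X ∈ Cyl N.u N.Ω N.h ∧ ‖zz N.u X‖ < N.h')} = 0
  fin : ∀ K : Set (E m), IsCompact K → K ⊆ N.Ω → N.μ {X | npr N.u X ∈ K} < ⊤
  cont_npr : ContinuousOn (npr N.u) (Cyl N.u N.Ω N.h)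
  cont_zz : ContinuousOn (zz N.u) (Cyl N.u N.Ω N.h)
  normal : ∀ X ∈ Cyl N.u N.Ω N.h, Ph N.u (npr N.u X) (zz N.u X) = 0

theorem exists_cylOK (m n : ℕ) : ∃ h₀ : ℝ, 0 < h₀ ∧ ∀ (κ₂ : ℝ) (N : NCyl m n), Geo κ₂ N.u →
    N.h ≤ h₀ → CylOK N := by
  obtain ⟨h₁, hh₁, H₁⟩ := cyl_carrier m n
  obtain ⟨h₂, hh₂, H₂⟩ := tube_deriv m n
  obtain ⟨h₃, hh₃, H₃⟩ := tube_unique m n
  refine ⟨min h₁ (min h₂ h₃), lt_min hh₁ (lt_min hh₂ hh₃), fun κ₂ N hG hh => ?_⟩
  obtain ⟨hopen, hcar, hfin⟩ := H₁ κ₂ N hG (hh.trans (min_le_left _ _))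
  obtain ⟨-, hnpr, hzz, -⟩ := H₂ κ₂ N.u hG
  have hsub : Cyl N.u N.Ω N.h ⊆ Tub N.u h₂ := fun X hX =>
    ⟨npr N.u X, hX.2.trans_le (hh.trans ((min_le_right _ _).trans (min_le_left _ _)))⟩
  have hsub3 : Cyl N.u N.Ω N.h ⊆ Tub N.u h₃ := fun X hX =>
    ⟨npr N.u X, hX.2.trans_le (hh.trans ((min_le_right _ _).trans (min_le_right _ _)))⟩
  exact ⟨hG.smooth, hopen, hcar, hfin, hnpr.continuousOn.mono hsub, hzz.continuousOn.mono hsub,
    fun X hX => (H₃ κ₂ N.u hG X (hsub3 hX)).2.2.1⟩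

/-- `Small` gives bounded geometry. -/
theorem Small.geo1 {N : NCyl m n} {R a C ε : ℝ} (h : Small N R a C ε) (hε : ε ≤ 1 / 2) :
    Geo 1 N.u :=
  ⟨h.smooth, fun y => by
    rw [← norm_iteratedFDeriv_one]; exact (h.geo 1 le_rfl (by norm_num) y).trans hε,
    fun y => (h.geo 2 (by norm_num) (by norm_num) y).trans (hε.trans (by norm_num)),
    fun y => (h.geo 3 (by norm_num) (by norm_num) y).trans (hε.trans (by norm_num)), le_rfl⟩

theorem Small.slope {N : NCyl m n} {R a C ε : ℝ} (h : Small N R a C ε) (y : E m) :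
    ‖fderiv ℝ N.u y‖ ≤ ε := by
  rw [← norm_iteratedFDeriv_one]; exact h.geo 1 le_rfl (by norm_num) y

namespace CylOK

variable {N : NCyl m n}

theorem measurableSet (h : CylOK N) : MeasurableSet (Cyl N.u N.Ω N.h) := h.isOpen.measurableSet

theorem ae_mem (h : CylOK N) :
    ∀ᵐ X ∂N.μ, X ∈ N.W.support ∧ X ∈ Cyl N.u N.Ω N.h ∧ ‖zz N.u X‖ < N.h' := by
  rw [ae_iff]; exact h.carrier

theorem ae_cyl (h : CylOK N) : ∀ᵐ X ∂N.μ, X ∈ Cyl N.u N.Ω N.h :=
  h.ae_mem.mono fun _ hX => hX.2.1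

/-- functions which are continuous on the cylinder are measurable for `N.μ` -/
theorem aesm {F : Type*} [TopologicalSpace F] [TopologicalSpace.PseudoMetrizableSpace F]
    [SecondCountableTopology F]
    (h : CylOK N) {f : E (m + n) → F} (hf : ContinuousOn f (Cyl N.u N.Ω N.h)) :
    AEStronglyMeasurable f N.μ :=
  hf.aestronglyMeasurable h.measurableSet

theorem aemeasurable_npr (h : CylOK N) : AEMeasurable (npr N.u) N.μ :=
  (h.aesm h.cont_npr).aemeasurable

theorem aesm_comp_npr {F : Type*} [TopologicalSpace F] [TopologicalSpace.PseudoMetrizableSpace F]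
    [SecondCountableTopology F] (h : CylOK N) {g : E m → F} (hg : Continuous g) :
    AEStronglyMeasurable (fun X => g (npr N.u X)) N.μ :=
  h.aesm (hg.comp_continuousOn h.cont_npr)

theorem aesm_P (N : NCyl m n) : AEStronglyMeasurable N.W.P N.μ :=
  N.W.P_meas.aestronglyMeasurable

/-- continuous expressions in `(P_T(X), π X, z(X))` are measurable for `N.μ` -/
theorem aesm3 {F : Type*} [TopologicalSpace F] [TopologicalSpace.PseudoMetrizableSpace F]
    (h : CylOK N) {Φ : (E (m + n) →L[ℝ] E (m + n)) × E m × E (m + n) → F} (hΦ : Continuous Φ) :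
    AEStronglyMeasurable (fun X => Φ (N.W.P X, npr N.u X, zz N.u X)) N.μ :=
  hΦ.comp_aestronglyMeasurable
    ((aesm_P N).prodMk ((h.aesm h.cont_npr).prodMk (h.aesm h.cont_zz)))

theorem continuous_Ph (h : CylOK N) : Continuous (Ph N.u) :=
  (contDiff_Ph_of (k := 3) h.smooth).continuous

theorem continuous_Pv (h : CylOK N) : Continuous (Pv N.u) :=
  (contDiff_Pv_of (k := 3) h.smooth).continuous

theorem continuous_dcoord (h : CylOK N) (a : Fin m) : Continuous fun y => dcoord N.u y a :=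
  (contDiff_dF_Du (k := 3) h.smooth).continuous.clm_apply continuous_const

theorem aesm_tilt (h : CylOK N) :
    AEStronglyMeasurable (fun X => tilt N.u (N.W.P X) X) N.μ :=
  h.aesm3 (Φ := fun q => tdiv q.1 (Pv N.u q.2.1))
    (continuous_tdiv.comp (continuous_fst.prodMk (h.continuous_Pv.comp (continuous_fst.comp
      continuous_snd))))

theorem aesm_fluxw (h : CylOK N) (a : Fin m) :
    AEStronglyMeasurable
      (fun X => (inner ℝ (zz N.u X) (N.W.P X (dcoord N.u (npr N.u X) a)) : ℝ)) N.μ :=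
  h.aesm3 (Φ := fun q => (inner ℝ q.2.2 (q.1 (dcoord N.u q.2.1 a)) : ℝ))
    ((continuous_snd.comp continuous_snd).inner (continuous_fst.clm_apply
      ((h.continuous_dcoord a).comp (continuous_fst.comp continuous_snd))))

theorem aesm_betw (h : CylOK N) (a b : Fin m) :
    AEStronglyMeasurable
      (fun X => (inner ℝ (Bop N.u (N.W.P X) X (dcoord N.u (npr N.u X) a))
        (dcoord N.u (npr N.u X) b) : ℝ)) N.μ := by
  have hy : Continuous fun q : (E (m + n) →L[ℝ] E (m + n)) × E m × E (m + n) => q.2.1 :=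
    continuous_fst.comp continuous_snd
  exact h.aesm3 (Φ := fun q => (inner ℝ ((Ph N.u q.2.1 ∘L
      (ContinuousLinearMap.id ℝ _ - q.1) ∘L Ph N.u q.2.1) (dcoord N.u q.2.1 a))
      (dcoord N.u q.2.1 b) : ℝ))
    ((((h.continuous_Ph.comp hy).clm_comp ((continuous_const.sub continuous_fst).clm_comp
      (h.continuous_Ph.comp hy))).clm_apply ((h.continuous_dcoord a).comp hy)).inner
      ((h.continuous_dcoord b).comp hy))

end CylOK

/-! ### pointwise bounds -/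

section Pointwise

variable (u : E m → E n) {P : E (m + n) →L[ℝ] E (m + n)} (X : E (m + n))

theorem ck_tilt_nonneg (hP : IsProj m P) : 0 ≤ tilt u P X :=
  (block_facts_aux (isProj_Ph u (npr u X)) hP).1

theorem ck_tilt_le (hP : IsProj m P) : tilt u P X ≤ m :=
  (block_facts_aux (isProj_Ph u (npr u X)) hP).2.1

theorem inner_Bop_eq (hP : IsProj m P) (a b : E (m + n)) :
    inner ℝ (Bop u P X a) b
      = inner ℝ (((ContinuousLinearMap.id ℝ _ - P) ∘L Ph u (npr u X)) a)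
          (((ContinuousLinearMap.id ℝ _ - P) ∘L Ph u (npr u X)) b) := by
  unfold Bop
  rw [block_B_eq (isProj_Ph u (npr u X)) hP, ContinuousLinearMap.comp_apply,
    ContinuousLinearMap.adjoint_inner_left]

theorem inner_Bop_symm (hP : IsProj m P) (a b : E (m + n)) :
    inner ℝ (Bop u P X a) b = inner ℝ (Bop u P X b) a := by
  rw [inner_Bop_eq u X hP, inner_Bop_eq u X hP, real_inner_comm]

theorem norm_compl_Ph_le (hP : IsProj m P) (a : E (m + n)) :
    ‖((ContinuousLinearMap.id ℝ _ - P) ∘L Ph u (npr u X)) a‖ ≤ Real.sqrt (tilt u P X) * ‖a‖ := by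
  have h1 := norm_sq_apply_le_trc ((ContinuousLinearMap.id ℝ _ - P) ∘L Ph u (npr u X)) a
  rw [← block_B_eq (isProj_Ph u (npr u X)) hP,
    ← (block_facts_aux (isProj_Ph u (npr u X)) hP).2.2.1] at h1
  have h0 := ck_tilt_nonneg u X hP
  have h2 : tilt u P X * ‖a‖ ^ 2 = (Real.sqrt (tilt u P X) * ‖a‖) ^ 2 := by
    rw [mul_pow, Real.sq_sqrt h0]
  have h3 : ‖((ContinuousLinearMap.id ℝ _ - P) ∘L Ph u (npr u X)) a‖ ^ 2
      ≤ (Real.sqrt (tilt u P X) * ‖a‖) ^ 2 := by rw [← h2]; exact h1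
  exact (abs_le_of_sq_le_sq' h3 (by positivity)).2

theorem abs_inner_Bop_le (hP : IsProj m P) (a b : E (m + n)) :
    |inner ℝ (Bop u P X a) b| ≤ tilt u P X * (‖a‖ * ‖b‖) := by
  rw [inner_Bop_eq u X hP]
  refine (abs_real_inner_le_norm _ _).trans ?_
  have h0 := ck_tilt_nonneg u X hP
  calc _ ≤ (Real.sqrt (tilt u P X) * ‖a‖) * (Real.sqrt (tilt u P X) * ‖b‖) :=
        mul_le_mul (norm_compl_Ph_le u X hP a) (norm_compl_Ph_le u X hP b) (norm_nonneg _)
          (by positivity)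
    _ = tilt u P X * (‖a‖ * ‖b‖) := by
        have := Real.mul_self_sqrt h0
        calc _ = (Real.sqrt (tilt u P X) * Real.sqrt (tilt u P X)) * (‖a‖ * ‖b‖) := by ring
          _ = _ := by rw [this]

theorem norm_Pvh_le (hP : IsProj m P) : ‖Pvh u P X‖ ≤ Real.sqrt (tilt u P X) :=
  Real.le_sqrt_of_sq_le (block_facts_aux (isProj_Ph u (npr u X)) hP).2.2.2.2.2

theorem Ph_dcoord (y : E m) (a : Fin m) : Ph u y (dcoord u y a) = dcoord u y a :=
  PhA_dF _ _

theorem norm_dcoord_le (y : E m) (a : Fin m) : ‖dcoord u y a‖ ≤ 1 + ‖fderiv ℝ u y‖ := by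
  have := norm_dF_apply_le (fderiv ℝ u y) (EuclideanSpace.single a (1 : ℝ))
  rwa [EuclideanSpace.norm_single, norm_one, mul_one] at this

/-- for a normal vector `z` and a tangent vector `v` of `S`: `z · P_T v = z · P_vh v`. -/
theorem inner_zz_P_eq (hz : Ph u (npr u X) (zz u X) = 0) (v : E (m + n))
    (hv : Ph u (npr u X) v = v) :
    inner ℝ (zz u X) (P v) = inner ℝ (zz u X) (Pvh u P X v) := by
  have h1 : Pvh u P X v = P v - Ph u (npr u X) (P v) := by
    unfold Pvh Pv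
    simp [hv]
  rw [h1, inner_sub_right, ← (isProj_Ph u (npr u X)).symm, hz, inner_zero_left, sub_zero]

theorem abs_inner_zz_P_le (hP : IsProj m P) (hz : Ph u (npr u X) (zz u X) = 0) (v : E (m + n))
    (hv : Ph u (npr u X) v = v) :
    |inner ℝ (zz u X) (P v)| ≤ ‖zz u X‖ * (Real.sqrt (tilt u P X) * ‖v‖) := by
  rw [inner_zz_P_eq u X hz v hv]
  refine (abs_real_inner_le_norm _ _).trans (mul_le_mul_of_nonneg_left ?_ (norm_nonneg _))
  exact ((Pvh u P X).le_opNorm v).trans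
    (mul_le_mul_of_nonneg_right (norm_Pvh_le u X hP) (norm_nonneg _))

end Pointwise

namespace CylOK

variable {N : NCyl m n}

/-! ### weight functionals `g ↦ ∫ g(π X) w(X) dμ` -/

theorem integrable_weight (h : CylOK N) {w : E (m + n) → ℝ} (hw : Integrable w N.μ)
    {g : E m → ℝ} (hg : Continuous g) {B : ℝ} (hB : ∀ y, |g y| ≤ B) :
    Integrable (fun X => g (npr N.u X) * w X) N.μ :=
  hw.bdd_mul (c := B) (h.aesm_comp_npr hg) (Filter.Eventually.of_forall fun _ => hB _)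

theorem abs_weight_le (_h : CylOK N) {w : E (m + n) → ℝ} (hw : Integrable w N.μ)
    {g : E m → ℝ} {B : ℝ} (hB : ∀ y, |g y| ≤ B) :
    |∫ X, g (npr N.u X) * w X ∂N.μ| ≤ B * ∫ X, |w X| ∂N.μ := by
  rw [← integral_const_mul, ← Real.norm_eq_abs]
  refine norm_integral_le_of_norm_le (hw.abs.const_mul B) (Filter.Eventually.of_forall fun X => ?_)
  rw [Real.norm_eq_abs, abs_mul]
  exact mul_le_mul_of_nonneg_right (hB _) (abs_nonneg _)

theorem radon_weight (h : CylOK N) {w : E (m + n) → ℝ} (hw : Integrable w N.μ) (Ω : Set (E m)) :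
    IsRadon Ω (fun g => ∫ X, g (npr N.u X) * w X ∂N.μ) := by
  refine ⟨fun g g' hg hg' => ?_, fun c g hg => ?_, fun K _ _ => ⟨∫ X, |w X| ∂N.μ,
    fun g hg _ B hB => ?_⟩⟩
  · obtain ⟨B, _, hB⟩ := hg.exists_bound
    obtain ⟨B', _, hB'⟩ := hg'.exists_bound
    simp only [Pi.add_apply, add_mul]
    exact integral_add (h.integrable_weight hw hg.cont hB) (h.integrable_weight hw hg'.cont hB')
  · simp only [Pi.smul_apply, smul_eq_mul, mul_assoc]
    exact integral_const_mul c _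
  · rw [mul_comm]
    exact h.abs_weight_le hw hB

/-- a weight which is a.e. bounded by an integrable function -/
theorem abs_weight_le_of_le (_h : CylOK N) {w v : E (m + n) → ℝ} (hw : AEStronglyMeasurable w N.μ)
    (hv : Integrable v N.μ) (hwv : ∀ᵐ X ∂N.μ, |w X| ≤ v X) :
    Integrable w N.μ ∧ ∫ X, |w X| ∂N.μ ≤ ∫ X, v X ∂N.μ := by
  have hi : Integrable w N.μ := hv.mono' hw hwv
  exact ⟨hi, integral_mono_ae hi.abs hv hwv⟩

end CylOK

/-! ### the mass bound -/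

theorem continuous_vdens : Continuous (vdens : (E m →L[ℝ] E n) → ℝ) := by
  unfold vdens
  exact Real.continuous_sqrt.comp
    (ContinuousLinearMap.continuous_det.comp (contDiff_gmatA (k := 0)).continuous)

theorem exists_vdens_bound (m n : ℕ) :
    ∃ Cv : ℝ, 0 < Cv ∧ ∀ A : E m →L[ℝ] E n, ‖A‖ ≤ 1 → vdens A ≤ Cv := by
  obtain ⟨C, hC⟩ := (isCompact_closedBall (0 : E m →L[ℝ] E n) 1).exists_bound_of_continuousOn
    continuous_vdens.continuousOn
  refine ⟨max C 1, lt_max_of_lt_right one_pos, fun A hA => ?_⟩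
  exact (le_abs_self _).trans ((hC A (by simpa using hA)).trans (le_max_left _ _))

theorem volS_le (N : NCyl m n) {Cv : ℝ} (hv : ∀ y, vdens (fderiv ℝ N.u y) ≤ Cv) (A : Set (E m)) :
    N.volS A ≤ ENNReal.ofReal Cv * μH[(m : ℝ)] N.Ω := by
  refine (measure_mono (Set.subset_univ A)).trans ?_
  unfold NCyl.volS
  rw [withDensity_apply _ MeasurableSet.univ, Measure.restrict_univ]
  calc ∫⁻ y, ENNReal.ofReal (vdens (fderiv ℝ N.u y)) ∂(μH[(m : ℝ)]).restrict N.Ω
      ≤ ∫⁻ _y, ENNReal.ofReal Cv ∂(μH[(m : ℝ)]).restrict N.Ω :=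
        lintegral_mono fun y => ENNReal.ofReal_le_ofReal (hv y)
    _ = ENNReal.ofReal Cv * μH[(m : ℝ)] N.Ω := by
        rw [lintegral_const, Measure.restrict_apply_univ]

theorem ball_eq_iUnion_closedBall {R : ℝ} (hR : 0 < R) :
    Metric.ball (0 : E m) R = ⋃ k : ℕ, Metric.closedBall (0 : E m) (R - R / ((k : ℝ) + 1)) := by
  ext y
  simp only [Metric.mem_ball, dist_zero_right, Set.mem_iUnion, Metric.mem_closedBall]
  constructor
  · intro hy
    obtain ⟨k, hk⟩ := exists_nat_one_div_lt (show 0 < (R - ‖y‖) / R from div_pos (by linarith) hR)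
    refine ⟨k, ?_⟩
    have : R / ((k : ℝ) + 1) < R - ‖y‖ := by
      have := mul_lt_mul_of_pos_left hk hR
      rw [mul_div_cancel₀ _ hR.ne'] at this
      rwa [mul_one_div] at this
    linarith
  · rintro ⟨k, hk⟩
    have : 0 < R / ((k : ℝ) + 1) := by positivity
    linarith

namespace CylOK

variable {N : NCyl m n}

theorem nu_apply (h : CylOK N) {A : Set (E m)} (hA : MeasurableSet A) :
    N.nu A = N.μ {X | npr N.u X ∈ A} :=
  Measure.map_apply_of_aemeasurable h.aemeasurable_npr hA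

theorem nu_compl (h : CylOK N) : N.nu N.Ωᶜ = 0 := by
  rw [h.nu_apply N.isOpen_Ω.measurableSet.compl]
  refine measure_mono_null (fun X hX => ?_) h.carrier
  exact fun hc => hX hc.2.1.1

theorem mass_le (h : CylOK N) {R : ℝ} (hR : 0 < R) (hΩ : N.Ω = Metric.ball 0 R) {Cv : ℝ}
    (hv : ∀ y, vdens (fderiv ℝ N.u y) ≤ Cv) :
    N.μ Set.univ ≤ (N.Q : ℝ≥0∞) * (ENNReal.ofReal Cv * ENNReal.ofReal (kap m * R ^ m))
      + N.Mabs (Metric.ball 0 R) := by
  have hvol : ∀ A, N.volS A ≤ ENNReal.ofReal Cv * ENNReal.ofReal (kap m * R ^ m) := fun A => by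
    have := volS_le N hv A
    rwa [hΩ, hausdorff_ball m 0 hR] at this
  have h1 : N.μ Set.univ = N.nu Set.univ := by
    rw [h.nu_apply MeasurableSet.univ]; rfl
  have h2 : N.nu Set.univ ≤ N.nu (Metric.ball 0 R) + N.nu (Metric.ball 0 R)ᶜ := by
    rw [← Set.union_compl_self (Metric.ball (0 : E m) R)]
    exact measure_union_le _ _
  have h3 : N.nu (Metric.ball 0 R)ᶜ = 0 := by rw [← hΩ]; exact h.nu_compl
  rw [h1]
  refine h2.trans ?_
  rw [h3, add_zero, ball_eq_iUnion_closedBall hR]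
  have hmono : Monotone fun k : ℕ => Metric.closedBall (0 : E m) (R - R / ((k : ℝ) + 1)) := by
    intro k l hkl
    refine Metric.closedBall_subset_closedBall ?_
    have : R / ((l : ℝ) + 1) ≤ R / ((k : ℝ) + 1) :=
      div_le_div_of_nonneg_left hR.le (by positivity) (by exact_mod_cast Nat.succ_le_succ hkl)
    linarith
  rw [hmono.measure_iUnion]
  refine iSup_le fun k => ?_
  have hsub : Metric.closedBall (0 : E m) (R - R / ((k : ℝ) + 1)) ⊆ Metric.ball 0 R :=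
    Metric.closedBall_subset_ball (by have : 0 < R / ((k : ℝ) + 1) := by positivity
                                      linarith)
  have hfin : N.nu (Metric.closedBall (0 : E m) (R - R / ((k : ℝ) + 1))) < ⊤ := by
    rw [h.nu_apply Metric.isClosed_closedBall.measurableSet]
    exact h.fin _ (isCompact_closedBall _ _) (hΩ ▸ hsub)
  have h4 := (intM_le N 0 _ 0 measurable_zero Metric.isClosed_closedBall.measurableSet
    (hΩ ▸ hsub) (fun _ _ => rfl) (by simp) hfin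
    ((hvol _).trans_lt (ENNReal.mul_lt_top ENNReal.ofReal_lt_top ENNReal.ofReal_lt_top))).2
  refine h4.trans (add_le_add (mul_le_mul_right (hvol _) _) ?_)
  rw [← ball_eq_iUnion_closedBall hR]
  exact measure_mono hsub

end CylOK

namespace CylOK

variable {N : NCyl m n}

/-! ### pushed-forward densities -/

theorem aemeasurable_npr_wd (h : CylOK N) (f : E (m + n) → ℝ≥0∞) :
    AEMeasurable (npr N.u) (N.μ.withDensity f) :=
  h.aemeasurable_npr.mono_ac (withDensity_absolutelyContinuous _ _)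

theorem push_compl (h : CylOK N) (f : E (m + n) → ℝ≥0∞) :
    ((N.μ.withDensity f).map (npr N.u)) N.Ωᶜ = 0 := by
  rw [Measure.map_apply_of_aemeasurable (h.aemeasurable_npr_wd f)
    N.isOpen_Ω.measurableSet.compl]
  refine withDensity_absolutelyContinuous _ _ ?_
  refine measure_mono_null (fun X hX => ?_) h.carrier
  exact fun hc => hX hc.2.1.1

theorem push_univ (h : CylOK N) (f : E (m + n) → ℝ≥0∞) :
    ((N.μ.withDensity f).map (npr N.u)) Set.univ = ∫⁻ X, f X ∂N.μ := by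
  rw [Measure.map_apply_of_aemeasurable (h.aemeasurable_npr_wd f) MeasurableSet.univ,
    Set.preimage_univ, withDensity_apply _ MeasurableSet.univ, Measure.restrict_univ]

theorem push_Ω (h : CylOK N) (f : E (m + n) → ℝ≥0∞) :
    ((N.μ.withDensity f).map (npr N.u)) N.Ω = ∫⁻ X, f X ∂N.μ := by
  rw [← h.push_univ f]
  refine le_antisymm (measure_mono (Set.subset_univ _)) ?_
  calc ((N.μ.withDensity f).map (npr N.u)) Set.univ
      ≤ ((N.μ.withDensity f).map (npr N.u)) N.Ω + ((N.μ.withDensity f).map (npr N.u)) N.Ωᶜ := by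
        rw [← Set.union_compl_self N.Ω]; exact measure_union_le _ _
    _ = _ := by rw [h.push_compl f, add_zero]

/-- integration against a pushed-forward density -/
theorem integral_push (h : CylOK N) {w : E (m + n) → ℝ} (hw : AEStronglyMeasurable w N.μ)
    (h0 : ∀ᵐ X ∂N.μ, 0 ≤ w X) {g : E m → ℝ} (hg : Continuous g) :
    ∫ y, g y ∂((N.μ.withDensity fun X => ENNReal.ofReal (w X)).map (npr N.u))
      = ∫ X, g (npr N.u X) * w X ∂N.μ := by
  rw [integral_map (h.aemeasurable_npr_wd _) hg.aestronglyMeasurable,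
    integral_withDensity_eq_integral_toReal_smul₀ hw.aemeasurable.ennreal_ofReal
      (Filter.Eventually.of_forall fun _ => ENNReal.ofReal_lt_top)]
  refine integral_congr_ae ?_
  filter_upwards [h0] with X hX
  rw [ENNReal.toReal_ofReal hX, smul_eq_mul, mul_comm]

/-- bound of an integral against a pushed-forward density (no measurability of the density) -/
theorem abs_integral_push_le (h : CylOK N) (f : E (m + n) → ℝ≥0∞) (hf : ∫⁻ X, f X ∂N.μ < ⊤)
    {g : E m → ℝ} {B : ℝ} (hB : ∀ y, |g y| ≤ B) :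
    |∫ y, g y ∂((N.μ.withDensity f).map (npr N.u))|
      ≤ B * (((N.μ.withDensity f).map (npr N.u)) N.Ω).toReal := by
  have : IsFiniteMeasure ((N.μ.withDensity f).map (npr N.u)) :=
    ⟨by rw [h.push_univ f]; exact hf⟩
  have := norm_integral_le_of_norm_le_const (μ := (N.μ.withDensity f).map (npr N.u)) (f := g)
    (C := B) (Filter.Eventually.of_forall hB)
  rw [Real.norm_eq_abs] at this
  refine this.trans (le_of_eq ?_)
  rw [Measure.real, h.push_univ f, h.push_Ω f]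

end CylOK

/-! ### the quantitative kit under `Small` -/

/-- all basic consequences of `Small N R a C ε` (with `ε ≤ 1/2`, `N.h` small). -/
structure SK (N : NCyl m n) (R a C ε Cm : ℝ) : Prop where
  ok : CylOK N
  geo : Geo 1 N.u
  small : Small N R a C ε
  a_pos : 0 < a
  a_le : a ≤ 1
  ε_nonneg : 0 ≤ ε
  ε_le : ε ≤ 1 / 2
  Cm_pos : 0 < Cm
  fin : IsFiniteMeasure N.μ
  mass : N.μ.real Set.univ ≤ Cm
  ae : ∀ᵐ X ∂N.μ, X ∈ Cyl N.u N.Ω N.h ∧ npr N.u X ∈ Metric.ball (0 : E m) R ∧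
    ‖zz N.u X‖ ≤ |C| * a
  int_tilt : Integrable (fun X => tilt N.u (N.W.P X) X) N.μ
  tilt_le : ∫ X, tilt N.u (N.W.P X) X ∂N.μ ≤ Cm * a ^ 2
  int_sqrt : Integrable (fun X => Real.sqrt (tilt N.u (N.W.P X) X)) N.μ
  sqrt_le : ∫ X, Real.sqrt (tilt N.u (N.W.P X) X) ∂N.μ ≤ Cm * a
  Mabs_le : (N.Mabs (Metric.ball 0 R)).toReal ≤ Cm * a ^ 2
  volS_le : N.volS Set.univ ≤ ENNReal.ofReal Cm

theorem sqrt_le_young {e a : ℝ} (he : 0 ≤ e) (ha : 0 < a) :
    Real.sqrt e ≤ (a + e / a) / 2 := by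
  have h1 : e = Real.sqrt e ^ 2 := (Real.sq_sqrt he).symm
  have h2 : e / a = Real.sqrt e ^ 2 / a := by rw [← h1]
  rw [h2, le_div_iff₀ two_pos, ← sub_nonneg]
  have : a + Real.sqrt e ^ 2 / a - Real.sqrt e * 2 = (a - Real.sqrt e) ^ 2 / a := by
    field_simp
    ring
  rw [this]
  positivity

theorem exists_kit (m n Q : ℕ) (R : ℝ) (hR : 0 < R) :
    ∃ h₀ : ℝ, 0 < h₀ ∧ ∀ C : ℝ, ∃ Cm : ℝ, 0 < Cm ∧ ∀ (N : NCyl m n) (a ε : ℝ), N.Q = Q →
      N.h ≤ h₀ → 0 < a → a ≤ 1 → 0 ≤ ε → ε ≤ 1 / 2 → Small N R a C ε → SK N R a C ε Cm := by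
  obtain ⟨h₀, hh₀, H⟩ := exists_cylOK m n
  obtain ⟨Cv, hCv, HCv⟩ := exists_vdens_bound m n
  refine ⟨h₀, hh₀, fun C => ?_⟩
  set Cm : ℝ := Q * (Cv * (kap m * R ^ m)) + max C 0 + 1 with hCm
  have hk : 0 ≤ (Q : ℝ) * (Cv * (kap m * R ^ m)) := by
    have := kap_pos m
    positivity
  have hCm0 : 0 < Cm := by
    have := le_max_right C 0
    linarith
  refine ⟨Cm, hCm0, fun N a ε hQ hh ha ha1 hε hε1 hS => ?_⟩
  have hG : Geo 1 N.u := hS.geo1 hε1
  have ok : CylOK N := H 1 N hG hh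
  have ha2 : a ^ 2 ≤ 1 := pow_le_one₀ ha.le ha1
  have hCa : C * a ^ 2 ≤ max C 0 * a ^ 2 :=
    mul_le_mul_of_nonneg_right (le_max_left _ _) (by positivity)
  have hCa1 : max C 0 * a ^ 2 ≤ max C 0 :=
    mul_le_of_le_one_right (le_max_right _ _) ha2
  have hD : N.Dm (Metric.ball 0 R) ≤ ENNReal.ofReal (max C 0 * a ^ 2) :=
    (le_self_add.trans (le_of_eq (Measure.add_apply _ _ _).symm)).trans
      (hS.mass.trans (ENNReal.ofReal_le_ofReal hCa))
  have hM : N.Mabs (Metric.ball 0 R) ≤ ENNReal.ofReal (max C 0 * a ^ 2) :=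
    (le_add_self.trans (le_of_eq (Measure.add_apply _ _ _).symm)).trans
      (hS.mass.trans (ENNReal.ofReal_le_ofReal hCa))
  have hmass : N.μ Set.univ ≤ ENNReal.ofReal Cm := by
    have h1 := ok.mass_le hR hS.Ω_eq (Cv := Cv)
      (fun y => HCv _ ((hS.slope y).trans (hε1.trans (by norm_num))))
    refine h1.trans ?_
    have e1 : (N.Q : ℝ≥0∞) * (ENNReal.ofReal Cv * ENNReal.ofReal (kap m * R ^ m))
        = ENNReal.ofReal (Q * (Cv * (kap m * R ^ m))) := by
      rw [hQ, ENNReal.ofReal_mul (Nat.cast_nonneg _), ENNReal.ofReal_natCast,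
        ENNReal.ofReal_mul hCv.le]
    rw [e1]
    refine (add_le_add le_rfl (hM.trans (ENNReal.ofReal_le_ofReal hCa1))).trans ?_
    rw [← ENNReal.ofReal_add hk (le_max_right _ _)]
    exact ENNReal.ofReal_le_ofReal (by linarith)
  have fin : IsFiniteMeasure N.μ := ⟨hmass.trans_lt ENNReal.ofReal_lt_top⟩
  have hmassR : N.μ.real Set.univ ≤ Cm := ENNReal.toReal_le_of_le_ofReal hCm0.le hmass
  have hae : ∀ᵐ X ∂N.μ, X ∈ Cyl N.u N.Ω N.h ∧ npr N.u X ∈ Metric.ball (0 : E m) R ∧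
      ‖zz N.u X‖ ≤ |C| * a := by
    filter_upwards [ok.ae_mem] with X hX
    refine ⟨hX.2.1, hS.Ω_eq ▸ hX.2.1.1, (hS.height X hX.1 hX.2.1).trans ?_⟩
    exact mul_le_mul_of_nonneg_right (le_abs_self C) ha.le
  have h0 : ∀ X, 0 ≤ tilt N.u (N.W.P X) X := fun X => ck_tilt_nonneg N.u X (N.W.P_proj X)
  have hlt : ∫⁻ X, ENNReal.ofReal (tilt N.u (N.W.P X) X) ∂N.μ
      ≤ ENNReal.ofReal (max C 0 * a ^ 2) := by
    rw [← ok.push_Ω, hS.Ω_eq]
    exact hD
  have int_tilt : Integrable (fun X => tilt N.u (N.W.P X) X) N.μ := by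
    refine ⟨ok.aesm_tilt, ?_⟩
    rw [hasFiniteIntegral_iff_ofReal (Filter.Eventually.of_forall h0)]
    exact hlt.trans_lt ENNReal.ofReal_lt_top
  have htl : ∫ X, tilt N.u (N.W.P X) X ∂N.μ ≤ max C 0 * a ^ 2 := by
    rw [integral_eq_lintegral_of_nonneg_ae (Filter.Eventually.of_forall h0) ok.aesm_tilt]
    exact ENNReal.toReal_le_of_le_ofReal (by positivity) hlt
  have hmC : max C 0 ≤ Cm := by linarith
  have int_sqrt : Integrable (fun X => Real.sqrt (tilt N.u (N.W.P X) X)) N.μ := by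
    refine Integrable.mono' (g := fun X => (a + tilt N.u (N.W.P X) X / a) / 2)
      (((integrable_const a).add (int_tilt.div_const a)).div_const 2)
      (Real.continuous_sqrt.comp_aestronglyMeasurable ok.aesm_tilt)
      (Filter.Eventually.of_forall fun X => ?_)
    rw [Real.norm_of_nonneg (Real.sqrt_nonneg _)]
    exact sqrt_le_young (h0 X) ha
  refine ⟨ok, hG, hS, ha, ha1, hε, hε1, hCm0, fin, hmassR, hae, int_tilt,
    htl.trans (mul_le_mul_of_nonneg_right hmC (by positivity)), int_sqrt, ?_, ?_, ?_⟩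
  · calc ∫ X, Real.sqrt (tilt N.u (N.W.P X) X) ∂N.μ
        ≤ ∫ X, (a + tilt N.u (N.W.P X) X / a) / 2 ∂N.μ :=
          integral_mono int_sqrt (((integrable_const a).add (int_tilt.div_const a)).div_const 2)
            fun X => sqrt_le_young (h0 X) ha
      _ = (N.μ.real Set.univ * a + (∫ X, tilt N.u (N.W.P X) X ∂N.μ) / a) / 2 := by
          rw [integral_div, integral_add (integrable_const a) (int_tilt.div_const a),
            integral_const, integral_div, smul_eq_mul]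
      _ ≤ (Cm * a + (Cm * a ^ 2) / a) / 2 := by
          have := htl.trans (mul_le_mul_of_nonneg_right hmC (sq_nonneg a))
          gcongr
      _ = Cm * a := by field_simp; ring
  · exact ENNReal.toReal_le_of_le_ofReal (by positivity)
      (hM.trans (ENNReal.ofReal_le_ofReal (mul_le_mul_of_nonneg_right hmC (sq_nonneg a))))
  · have h1 := volS_le N (Cv := Cv)
      (fun y => HCv _ ((hS.slope y).trans (hε1.trans (by norm_num)))) Set.univ
    rw [hS.Ω_eq, hausdorff_ball m 0 hR, ← ENNReal.ofReal_mul hCv.le] at h1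
    refine h1.trans (ENNReal.ofReal_le_ofReal ?_)
    have hQ1 : (1 : ℝ) ≤ Q := by exact_mod_cast hQ ▸ N.Q_pos
    have hp : 0 ≤ Cv * (kap m * R ^ m) := by
      have := kap_pos m
      positivity
    have := le_max_right C 0
    nlinarith

namespace SK

variable {N : NCyl m n} {R a C ε Cm : ℝ}

theorem norm_dcoord_le (h : SK N R a C ε Cm) (y : E m) (i : Fin m) :
    ‖dcoord N.u y i‖ ≤ 3 / 2 :=
  (Lin.norm_dcoord_le N.u y i).trans (by linarith [h.small.slope y, h.ε_le])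

theorem mass_ennreal (h : SK N R a C ε Cm) : N.μ Set.univ ≤ ENNReal.ofReal Cm := by
  have := h.fin
  rw [← ENNReal.ofReal_toReal (measure_ne_top N.μ Set.univ)]
  exact ENNReal.ofReal_le_ofReal h.mass

/-- the weight `|z|²` -/
theorem hsqw (h : SK N R a C ε Cm) : Integrable (fun X => ‖zz N.u X‖ ^ 2) N.μ ∧
    ∫ X, |‖zz N.u X‖ ^ 2| ∂N.μ ≤ C ^ 2 * Cm * a ^ 2 := by
  have := h.fin
  obtain ⟨h1, h2⟩ := h.ok.abs_weight_le_of_le (w := fun X => ‖zz N.u X‖ ^ 2)
    (v := fun _ => (|C| * a) ^ 2) (h.ok.aesm (h.ok.cont_zz.norm.pow 2)) (integrable_const _)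
    (h.ae.mono fun X hX => by
      rw [abs_of_nonneg (by positivity)]
      exact pow_le_pow_left₀ (norm_nonneg _) hX.2.2 2)
  refine ⟨h1, h2.trans ?_⟩
  rw [integral_const, smul_eq_mul, mul_pow, sq_abs]
  calc N.μ.real Set.univ * (C ^ 2 * a ^ 2) ≤ Cm * (C ^ 2 * a ^ 2) :=
        mul_le_mul_of_nonneg_right h.mass (by positivity)
    _ = C ^ 2 * Cm * a ^ 2 := by ring

/-- the weight `z · P_T ∂_i` -/
theorem fluxw (h : SK N R a C ε Cm) (i : Fin m) :
    Integrable (fun X => (inner ℝ (zz N.u X) (N.W.P X (dcoord N.u (npr N.u X) i)) : ℝ)) N.μ ∧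
    ∫ X, |(inner ℝ (zz N.u X) (N.W.P X (dcoord N.u (npr N.u X) i)) : ℝ)| ∂N.μ
      ≤ 3 / 2 * |C| * Cm * a ^ 2 := by
  obtain ⟨h1, h2⟩ := h.ok.abs_weight_le_of_le
    (v := fun X => (|C| * a * (3 / 2)) * Real.sqrt (tilt N.u (N.W.P X) X)) (h.ok.aesm_fluxw i)
    (h.int_sqrt.const_mul _)
    (h.ae.mono fun X hX => by
      refine (abs_inner_zz_P_le N.u X (N.W.P_proj X) (h.ok.normal X hX.1) _
        (Ph_dcoord N.u _ i)).trans ?_
      calc ‖zz N.u X‖ * (Real.sqrt (tilt N.u (N.W.P X) X) * ‖dcoord N.u (npr N.u X) i‖)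
          ≤ (|C| * a) * (Real.sqrt (tilt N.u (N.W.P X) X) * (3 / 2)) := by
            have := h.norm_dcoord_le (npr N.u X) i
            have := hX.2.2
            have := h.a_pos
            gcongr
        _ = _ := by ring)
  refine ⟨h1, h2.trans ?_⟩
  rw [integral_const_mul]
  calc |C| * a * (3 / 2) * ∫ X, Real.sqrt (tilt N.u (N.W.P X) X) ∂N.μ
      ≤ |C| * a * (3 / 2) * (Cm * a) :=
        mul_le_mul_of_nonneg_left h.sqrt_le (by have := h.a_pos; positivity)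
    _ = _ := by ring

/-- the weight `B[∂_i, ∂_j]` -/
theorem betw (h : SK N R a C ε Cm) (i j : Fin m) :
    Integrable (fun X => (inner ℝ (Bop N.u (N.W.P X) X (dcoord N.u (npr N.u X) i))
        (dcoord N.u (npr N.u X) j) : ℝ)) N.μ ∧
    ∫ X, |(inner ℝ (Bop N.u (N.W.P X) X (dcoord N.u (npr N.u X) i))
        (dcoord N.u (npr N.u X) j) : ℝ)| ∂N.μ ≤ 9 / 4 * Cm * a ^ 2 := by
  obtain ⟨h1, h2⟩ := h.ok.abs_weight_le_of_le
    (v := fun X => (9 / 4) * tilt N.u (N.W.P X) X) (h.ok.aesm_betw i j)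
    (h.int_tilt.const_mul _)
    (Filter.Eventually.of_forall fun X => by
      refine (abs_inner_Bop_le N.u X (N.W.P_proj X) _ _).trans ?_
      have h0 := ck_tilt_nonneg N.u X (N.W.P_proj X)
      calc tilt N.u (N.W.P X) X * (‖dcoord N.u (npr N.u X) i‖ * ‖dcoord N.u (npr N.u X) j‖)
          ≤ tilt N.u (N.W.P X) X * (3 / 2 * (3 / 2)) := by
            have := h.norm_dcoord_le (npr N.u X) i
            have := h.norm_dcoord_le (npr N.u X) j
            gcongr
        _ = _ := by ring)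
  refine ⟨h1, h2.trans ?_⟩
  rw [integral_const_mul, mul_assoc]
  exact mul_le_mul_of_nonneg_left h.tilt_le (by norm_num)

/-- the weight `e` -/
theorem tilw (h : SK N R a C ε Cm) :
    ∫ X, |tilt N.u (N.W.P X) X| ∂N.μ ≤ Cm * a ^ 2 := by
  refine le_trans (le_of_eq ?_) h.tilt_le
  exact integral_congr_ae (Filter.Eventually.of_forall fun X =>
    abs_of_nonneg (ck_tilt_nonneg N.u X (N.W.P_proj X)))

theorem isRadon_intM (h : SK N R a C ε Cm) (Ω : Set (E m)) : IsRadon Ω N.intM := by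
  have := h.fin
  have h1 : IsRadon Ω (fun g => ∫ y, g y ∂N.nu) :=
    isRadon_integral _ fun K _ _ => by
      unfold NCyl.nu
      exact measure_lt_top _ _
  have h2 : IsRadon Ω (fun g => ∫ y, g y ∂N.volS) :=
    isRadon_integral _ fun K _ _ =>
      ((measure_mono (Set.subset_univ K)).trans h.volS_le).trans_lt ENNReal.ofReal_lt_top
  have h3 := h1.add' (h2.const_mul (-(N.Q : ℝ)))
  have e : N.intM = fun g => ∫ y, g y ∂N.nu + -(N.Q : ℝ) * ∫ y, g y ∂N.volS := by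
    funext g
    unfold NCyl.intM
    ring
  rw [e]
  exact h3

theorem abs_intM_le (h : SK N R a C ε Cm) {g : E m → ℝ} {B : ℝ}
    (hg : IsTest (Metric.ball 0 R) g) (hB : ∀ y, |g y| ≤ B) : |N.intM g| ≤ B * (Cm * a ^ 2) := by
  have := h.fin
  have h1 := (intM_le N g (Metric.ball 0 R) B hg.cont.measurable Metric.isOpen_ball.measurableSet
    h.small.Ω_eq.ge (fun y hy => image_eq_zero_of_notMem_tsupport fun hh => hy (hg.sub hh)) hB
    (by unfold NCyl.nu; exact measure_lt_top _ _)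
    (((measure_mono (Set.subset_univ _)).trans h.volS_le).trans_lt ENNReal.ofReal_lt_top)).1
  exact h1.trans (mul_le_mul_of_nonneg_left h.Mabs_le ((abs_nonneg _).trans (hB 0)))

end SK

namespace SK

variable {N : NCyl m n} {R a C ε Cm : ℝ}

theorem lamU_le (h : SK N R a C ε Cm) {t : ℝ} (ht : 0 < t) :
    ∀ᵐ X ∂N.μ, lamU t N.u X ≤ (t ^ 2 * C ^ 2 + (t ^ 2)⁻¹ * ε ^ 2 + (t ^ 4)⁻¹ * ε ^ 2) * a ^ 2 := by
  filter_upwards [h.ae] with X hX
  have h1 := h.small.curv _ hX.2.1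
  have hs := Real.sqrt_nonneg (DHSsq N.u (npr N.u X))
  have hn := norm_nonneg (HS N.u (npr N.u X))
  have hεa : 0 ≤ ε * a := mul_nonneg h.ε_nonneg h.a_pos.le
  have h2 : ‖HS N.u (npr N.u X)‖ ^ 2 ≤ (ε * a) ^ 2 := pow_le_pow_left₀ hn (by linarith) 2
  have h3 : DHSsq N.u (npr N.u X) ≤ (ε * a) ^ 2 := by
    rcases le_total 0 (DHSsq N.u (npr N.u X)) with h0 | h0
    · rw [← Real.sq_sqrt h0]
      exact pow_le_pow_left₀ hs (by linarith) 2
    · exact h0.trans (sq_nonneg _)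
  have h4 : ‖zz N.u X‖ ^ 2 ≤ (|C| * a) ^ 2 := pow_le_pow_left₀ (norm_nonneg _) hX.2.2 2
  rw [mul_pow, sq_abs] at h4
  unfold lamU
  calc t ^ 2 * ‖zz N.u X‖ ^ 2 + (t ^ 2)⁻¹ * ‖HS N.u (npr N.u X)‖ ^ 2
        + (t ^ 4)⁻¹ * DHSsq N.u (npr N.u X)
      ≤ t ^ 2 * (C ^ 2 * a ^ 2) + (t ^ 2)⁻¹ * (ε * a) ^ 2 + (t ^ 4)⁻¹ * (ε * a) ^ 2 := by
        gcongr
    _ = _ := by ring

theorem LmU_le (h : SK N R a C ε Cm) {t : ℝ} (ht : 0 < t) :
    ∫⁻ X, ENNReal.ofReal (lamU t N.u X) ∂N.μ ≤ ENNReal.ofReal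
      ((t ^ 2 * C ^ 2 + (t ^ 2)⁻¹ * ε ^ 2 + (t ^ 4)⁻¹ * ε ^ 2) * a ^ 2 * Cm) := by
  calc ∫⁻ X, ENNReal.ofReal (lamU t N.u X) ∂N.μ
      ≤ ∫⁻ _X, ENNReal.ofReal
          ((t ^ 2 * C ^ 2 + (t ^ 2)⁻¹ * ε ^ 2 + (t ^ 4)⁻¹ * ε ^ 2) * a ^ 2) ∂N.μ :=
        lintegral_mono_ae ((h.lamU_le ht).mono fun X hX => ENNReal.ofReal_le_ofReal hX)
    _ = ENNReal.ofReal ((t ^ 2 * C ^ 2 + (t ^ 2)⁻¹ * ε ^ 2 + (t ^ 4)⁻¹ * ε ^ 2) * a ^ 2)
          * N.μ Set.univ := lintegral_const _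
    _ ≤ ENNReal.ofReal ((t ^ 2 * C ^ 2 + (t ^ 2)⁻¹ * ε ^ 2 + (t ^ 4)⁻¹ * ε ^ 2) * a ^ 2)
          * ENNReal.ofReal Cm := by gcongr; exact h.mass_ennreal
    _ = _ := (ENNReal.ofReal_mul (by positivity)).symm

end SK

end Claimed.Agent.R322.Lin
end

/- ===== packed: Claimed.Agent.R322.Lin.DivS ===== -/
section
/-!
# The volume density of a graph and the divergence theorem in the chart (helper253)

* `ck_vdens_pos`, `contDiff_vdensA`, `contDiff_log_vdensA`;
* `abs_dlog_vdens_le`: `|D (log √g)(y) v| ≤ C_L |D²u(y)| |v|` (soft: `A ↦ log vdens A` is smooth);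
* `integral_fderiv_eq_zero'`: `∫ D f v = 0` for `f ∈ C¹_c`;
* `divS_integral'`: the reference volume integral of a divergence vanishes.
-/

set_option autoImplicit false

open scoped ENNReal ContDiff Topology
open MeasureTheory

namespace Claimed.Agent.R322.Lin

open Claimed.Agent.R322.Tube Claimed.Agent.R322.Fn

variable {m n : ℕ}

theorem det_gmat_ne_zero (A : E m →L[ℝ] E n) :
    LinearMap.det ((gmat A : E m →L[ℝ] E m) : E m →ₗ[ℝ] E m) ≠ 0 := by
  intro h0
  have h1 : LinearMap.det ((((gmat A).inverse : E m →L[ℝ] E m) : E m →ₗ[ℝ] E m) ∘ₗ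
      ((gmat A : E m →L[ℝ] E m) : E m →ₗ[ℝ] E m)) = 1 := by
    have : (((gmat A).inverse : E m →L[ℝ] E m) : E m →ₗ[ℝ] E m) ∘ₗ
        ((gmat A : E m →L[ℝ] E m) : E m →ₗ[ℝ] E m) = LinearMap.id :=
      LinearMap.ext fun v => gmat_inverse_apply_gmat A v
    rw [this, LinearMap.det_id]
  rw [LinearMap.det_comp, h0, mul_zero] at h1
  exact zero_ne_one h1

theorem continuous_det_gmat :
    Continuous fun A : E m →L[ℝ] E n =>
      LinearMap.det ((gmat A : E m →L[ℝ] E m) : E m →ₗ[ℝ] E m) :=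
  (Base.contDiff_det m).continuous.comp (contDiff_gmatA (k := 0)).continuous

theorem det_gmat_pos (A : E m →L[ℝ] E n) :
    0 < LinearMap.det ((gmat A : E m →L[ℝ] E m) : E m →ₗ[ℝ] E m) := by
  by_contra hcon
  have hc : Continuous fun t : ℝ =>
      LinearMap.det ((gmat (t • A) : E m →L[ℝ] E m) : E m →ₗ[ℝ] E m) :=
    continuous_det_gmat.comp (continuous_id.smul continuous_const)
  have h0 : LinearMap.det ((gmat ((0 : ℝ) • A) : E m →L[ℝ] E m) : E m →ₗ[ℝ] E m) = 1 := by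
    have : gmat ((0 : ℝ) • A) = ContinuousLinearMap.id ℝ (E m) := by
      unfold gmat; simp
    rw [this]
    exact LinearMap.det_id
  obtain ⟨t, ht⟩ := mem_range_of_exists_le_of_exists_ge hc
    ⟨1, by simpa using not_lt.1 hcon⟩ ⟨0, by rw [h0]; exact zero_le_one⟩
  exact det_gmat_ne_zero _ ht

theorem ck_vdens_pos (A : E m →L[ℝ] E n) : 0 < vdens A := Real.sqrt_pos.2 (det_gmat_pos A)

theorem contDiff_vdensA : ContDiff ℝ ∞ (vdens : (E m →L[ℝ] E n) → ℝ) := by
  unfold vdens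
  exact ((Base.contDiff_det m).comp contDiff_gmatA).sqrt fun A => (det_gmat_pos A).ne'

theorem contDiff_log_vdensA : ContDiff ℝ ∞ (fun A : E m →L[ℝ] E n => Real.log (vdens A)) :=
  contDiff_vdensA.log fun A => (ck_vdens_pos A).ne'

set_option maxSynthPendingDepth 4 in
theorem exists_dlog_vdens_bound (m n : ℕ) : ∃ CL : ℝ, 0 < CL ∧ ∀ A : E m →L[ℝ] E n, ‖A‖ ≤ 1 →
    ‖fderiv ℝ (fun A : E m →L[ℝ] E n => Real.log (vdens A)) A‖ ≤ CL := by
  have hc : Continuous (fderiv ℝ (fun A : E m →L[ℝ] E n => Real.log (vdens A))) :=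
    contDiff_log_vdensA.continuous_fderiv (by simp)
  have hn : Continuous fun A : E m →L[ℝ] E n =>
      ‖fderiv ℝ (fun A : E m →L[ℝ] E n => Real.log (vdens A)) A‖ := hc.norm
  obtain ⟨C, hC⟩ := (isCompact_closedBall (0 : E m →L[ℝ] E n) 1).exists_bound_of_continuousOn
    hn.continuousOn
  exact ⟨max C 1, lt_max_of_lt_right one_pos, fun A hA =>
    (le_abs_self _).trans ((hC A (by simpa using hA)).trans (le_max_left _ _))⟩

variable {u : E m → E n}

theorem contDiff_vdens_Du (hu : ContDiff ℝ 2 u) : ContDiff ℝ 1 (fun y => vdens (fderiv ℝ u y)) :=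
  (contDiff_vdensA.of_le (by simp)).comp (contDiff_Du (k := 1) (by exact_mod_cast hu))

theorem contDiff_log_vdens_Du (hu : ContDiff ℝ 2 u) :
    ContDiff ℝ 1 (fun y => Real.log (vdens (fderiv ℝ u y))) :=
  (contDiff_log_vdensA.of_le (by simp)).comp (contDiff_Du (k := 1) (by exact_mod_cast hu))

theorem abs_dlog_vdens_le {CL : ℝ} (hCL : ∀ A : E m →L[ℝ] E n, ‖A‖ ≤ 1 →
    ‖fderiv ℝ (fun A : E m →L[ℝ] E n => Real.log (vdens A)) A‖ ≤ CL)
    (hu : ContDiff ℝ 2 u) (y v : E m) (hy : ‖fderiv ℝ u y‖ ≤ 1) :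
    |fderiv ℝ (fun y' => Real.log (vdens (fderiv ℝ u y'))) y v| ≤ CL * ‖D2 u y‖ * ‖v‖ := by
  have h1 : HasFDerivAt (fun y' => Real.log (vdens (fderiv ℝ u y')))
      ((fderiv ℝ (fun A : E m →L[ℝ] E n => Real.log (vdens A)) (fderiv ℝ u y)) ∘L D2 u y) y :=
    ((contDiff_log_vdensA.differentiable (by simp) _).hasFDerivAt).comp y (hasFDerivAt_Du hu)
  rw [h1.fderiv, ← Real.norm_eq_abs]
  refine (ContinuousLinearMap.le_opNorm _ _).trans (mul_le_mul_of_nonneg_right ?_ (norm_nonneg _))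
  exact (ContinuousLinearMap.opNorm_comp_le _ _).trans
    (mul_le_mul_of_nonneg_right (hCL _ hy) (norm_nonneg _))

theorem integral_fderiv_eq_zero' {k : ℕ} (μ : Measure (E k)) [μ.IsAddHaarMeasure] {f : E k → ℝ}
    (hf : ContDiff ℝ 1 f) (hc : HasCompactSupport f) (v : E k) :
    ∫ y, fderiv ℝ f y v ∂μ = 0 := by
  have hd : Continuous fun y => fderiv ℝ f y v :=
    (hf.continuous_fderiv (by simp)).clm_apply continuous_const
  have hdc : HasCompactSupport fun y => fderiv ℝ f y v := by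
    refine HasCompactSupport.intro hc.isCompact fun y hy => ?_
    rw [fderiv_of_notMem_tsupport ℝ hy]
    rfl
  have h := integral_mul_fderiv_eq_neg_fderiv_mul_of_integrable (μ := μ) (f := fun _ : E k => (1 : ℝ))
    (g := f) (v := v) (by simp) (by simpa using hd.integrable_of_hasCompactSupport hdc)
    (by simpa using hf.continuous.integrable_of_hasCompactSupport hc)
    (fun x _ => differentiableAt_const _) (fun x _ => hf.differentiable (by simp) x)
  simpa using h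

/-- `√g div_S X = ∑ ∂_i (√g X^i)` -/
theorem vdens_mul_divS (hu : ContDiff ℝ 2 u) {Xc : E m → E m} (hX : ContDiff ℝ 1 Xc) (y : E m) :
    vdens (fderiv ℝ u y) * divS u Xc y
      = ∑ i : Fin m, fderiv ℝ (fun y' => vdens (fderiv ℝ u y') * Xc y' i) y
          (EuclideanSpace.single i 1) := by
  have hρ : DifferentiableAt ℝ (fun y' => vdens (fderiv ℝ u y')) y :=
    (contDiff_vdens_Du hu).differentiable (by simp) y
  have hXd : DifferentiableAt ℝ Xc y := hX.differentiable (by simp) y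
  have hXi : ∀ i : Fin m, HasFDerivAt (fun y' => Xc y' i)
      ((EuclideanSpace.proj (𝕜 := ℝ) i) ∘L fderiv ℝ Xc y) y := fun i =>
    (EuclideanSpace.proj (𝕜 := ℝ) i).hasFDerivAt.comp y hXd.hasFDerivAt
  have h1 : ∀ i : Fin m, fderiv ℝ (fun y' => vdens (fderiv ℝ u y') * Xc y' i) y
      (EuclideanSpace.single i 1)
      = vdens (fderiv ℝ u y) * (fderiv ℝ Xc y (EuclideanSpace.single i 1)) i
        + Xc y i * fderiv ℝ (fun y' => vdens (fderiv ℝ u y')) y (EuclideanSpace.single i 1) := by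
    intro i
    rw [(hρ.hasFDerivAt.fun_mul (hXi i)).fderiv]
    simp
  have h2 : fderiv ℝ (fun y' => Real.log (vdens (fderiv ℝ u y'))) y
      = (vdens (fderiv ℝ u y))⁻¹ • fderiv ℝ (fun y' => vdens (fderiv ℝ u y')) y :=
    (hρ.hasFDerivAt.log (ck_vdens_pos _).ne').fderiv
  have h3 : fderiv ℝ (fun y' => vdens (fderiv ℝ u y')) y (Xc y)
      = ∑ i : Fin m, Xc y i * fderiv ℝ (fun y' => vdens (fderiv ℝ u y')) y
          (EuclideanSpace.single i 1) := by
    conv_lhs => rw [← tdv_sum_single (Xc y), map_sum]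
    refine Finset.sum_congr rfl fun i _ => ?_
    rw [map_smul, smul_eq_mul]
    congr 1
    simp [EuclideanSpace.inner_single_left]
  unfold divS
  rw [h2, trc_eq_sum, mul_add, Finset.mul_sum]
  simp only [h1, Finset.sum_add_distrib]
  congr 1
  · refine Finset.sum_congr rfl fun i _ => ?_
    congr 1
    simp [EuclideanSpace.inner_single_right]
  · rw [← h3]
    simp only [_root_.smul_apply, smul_eq_mul]
    rw [← mul_assoc, mul_inv_cancel₀ (ck_vdens_pos _).ne', one_mul]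

theorem divS_eq_zero_of_notMem (u : E m → E n) {Xc : E m → E m} {y : E m}
    (hy : y ∉ tsupport Xc) : divS u Xc y = 0 := by
  unfold divS
  rw [fderiv_of_notMem_tsupport ℝ hy, image_eq_zero_of_notMem_tsupport hy, map_zero, trc_zero,
    add_zero]

/-- the reference volume integral of a divergence vanishes (chart form of `divS`). -/
theorem divS_integral' (N : NCyl m n) (hu : ContDiff ℝ 2 N.u) (Xc : E m → E m)
    (hX : ContDiff ℝ 1 Xc) (hc : HasCompactSupport Xc) (hs : tsupport Xc ⊆ N.Ω) :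
    ∫ y, divS N.u Xc y ∂N.volS = 0 := by
  have hρc : Continuous fun y => vdens (fderiv ℝ N.u y) := (contDiff_vdens_Du hu).continuous
  unfold NCyl.volS
  rw [integral_withDensity_eq_integral_toReal_smul hρc.measurable.ennreal_ofReal
    (Filter.Eventually.of_forall fun _ => ENNReal.ofReal_lt_top)]
  rw [setIntegral_eq_integral_of_forall_compl_eq_zero fun y hy => by
    rw [divS_eq_zero_of_notMem N.u fun h => hy (hs h), smul_zero]]
  have e : ∀ y, (ENNReal.ofReal (vdens (fderiv ℝ N.u y))).toReal • divS N.u Xc y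
      = ∑ i : Fin m, fderiv ℝ (fun y' => vdens (fderiv ℝ N.u y') * Xc y' i) y
          (EuclideanSpace.single i 1) := fun y => by
    rw [ENNReal.toReal_ofReal (ck_vdens_pos _).le, smul_eq_mul, vdens_mul_divS hu hX]
  simp only [e]
  have hf : ∀ i : Fin m, ContDiff ℝ 1 fun y' => vdens (fderiv ℝ N.u y') * Xc y' i := fun i =>
    (contDiff_vdens_Du hu).mul ((EuclideanSpace.proj (𝕜 := ℝ) i).contDiff.comp hX)
  have hfc : ∀ i : Fin m, HasCompactSupport fun y' => vdens (fderiv ℝ N.u y') * Xc y' i :=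
    fun i => HasCompactSupport.intro hc.isCompact fun y hy => by
      simp [image_eq_zero_of_notMem_tsupport hy]
  rw [integral_finsetSum]
  · exact Finset.sum_eq_zero fun i _ => integral_fderiv_eq_zero' _ (hf i) (hfc i) _
  · intro i _
    refine Continuous.integrable_of_hasCompactSupport
      (((hf i).continuous_fderiv (by simp)).clm_apply continuous_const) ?_
    refine HasCompactSupport.intro (hfc i).isCompact fun y hy => ?_
    rw [fderiv_of_notMem_tsupport ℝ hy]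
    rfl

end Claimed.Agent.R322.Lin
end

/- ===== packed: Claimed.Agent.R322.Lin.PsdTrace ===== -/
section
/-!
# CO Proposition 6.1: pointwise linear algebra for `q_psd` and `q_trace` (helper253)
-/

set_option autoImplicit false

open scoped ENNReal ContDiff Topology
open MeasureTheory

namespace Claimed.Agent.R322.Lin

open Claimed.Agent.R322.Tube Claimed.Agent.R322.Fn

local notation "adj" => ContinuousLinearMap.adjoint
local notation "𝟙" => ContinuousLinearMap.id ℝ _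

variable {m n : ℕ}

section Pointwise

variable (u : E m → E n) {P : E (m + n) →L[ℝ] E (m + n)} (X : E (m + n))

/-- the square behind `q_psd`: for `z` normal and `Y` tangent to `S`,
`α²|z|² + 2 α z·P_T Y + B[Y,Y] = |α z - P_T^⊥ Y|²`. -/
theorem psd_pointwise (hP : IsProj m P) (hz : Ph u (npr u X) (zz u X) = 0) (Y : E (m + n))
    (hY : Ph u (npr u X) Y = Y) (α : ℝ) :
    α * α * ‖zz u X‖ ^ 2 + 2 * (α * inner ℝ (zz u X) (P Y)) + inner ℝ (Bop u P X Y) Y
      = ‖α • zz u X - (Y - P Y)‖ ^ 2 := by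
  have h1 : inner ℝ (Bop u P X Y) Y = ‖Y - P Y‖ ^ 2 := by
    rw [inner_Bop_eq u X hP, real_inner_self_eq_norm_sq]
    simp [hY]
  have h2 : inner ℝ (zz u X) Y = 0 := by
    rw [← hY, ← (isProj_Ph u (npr u X)).symm, hz, inner_zero_left]
  rw [h1, norm_sub_sq_real (α • zz u X), norm_smul, mul_pow, Real.norm_eq_abs, sq_abs,
    inner_smul_left, inner_sub_right, h2]
  simp only [conj_trivial]
  ring

/-- the coordinate Gram operator of `B` -/
noncomputable def gramB (u : E m → E n) (P : E (m + n) →L[ℝ] E (m + n)) (X : E (m + n)) :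
    E m →L[ℝ] E (m + n) :=
  ((𝟙 - P) ∘L Ph u (npr u X)) ∘L dF (fderiv ℝ u (npr u X))

theorem adjoint_gramB_comp (hP : IsProj m P) :
    adj (gramB u P X) ∘L gramB u P X
      = adj (dF (fderiv ℝ u (npr u X))) ∘L Bop u P X ∘L dF (fderiv ℝ u (npr u X)) := by
  unfold gramB Bop
  rw [block_B_eq (isProj_Ph u (npr u X)) hP, ContinuousLinearMap.adjoint_comp]
  simp only [ContinuousLinearMap.comp_assoc]

theorem trc_gramB (hP : IsProj m P) :
    trc (adj (gramB u P X) ∘L gramB u P X)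
      = ∑ i, inner ℝ (Bop u P X (dcoord u (npr u X) i)) (dcoord u (npr u X) i) := by
  rw [adjoint_gramB_comp u X hP, trc_eq_sum]
  refine Finset.sum_congr rfl fun i _ => ?_
  rw [ContinuousLinearMap.comp_apply, ContinuousLinearMap.adjoint_inner_left]
  rfl

theorem tilt_eq_trc_gramB (hP : IsProj m P) :
    tilt u P X = trc ((adj (gramB u P X) ∘L gramB u P X)
      ∘L (gmat (fderiv ℝ u (npr u X))).inverse) := by
  have h1 : tilt u P X = trc (Bop u P X) := (block_facts_aux (isProj_Ph u (npr u X)) hP).2.2.1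
  have h2 : Bop u P X = Bop u P X ∘L Ph u (npr u X) := by
    unfold Bop
    simp only [ContinuousLinearMap.comp_assoc, Ph_comp_Ph]
  rw [h1, h2, Ph_eq, adjoint_gramB_comp u X hP]
  unfold dFp
  rw [← ContinuousLinearMap.comp_assoc, ← ContinuousLinearMap.comp_assoc, trc_comp_comm]
  simp only [ContinuousLinearMap.comp_assoc]

theorem norm_gmat_inverse_sub_le (A : E m →L[ℝ] E n) :
    ‖(gmat A).inverse - ContinuousLinearMap.id ℝ (E m)‖ ≤ ‖A‖ ^ 2 := by
  have h1 : (gmat A).inverse - ContinuousLinearMap.id ℝ (E m)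
      = -((gmat A).inverse ∘L (adj A ∘L A)) := by
    have h2 : (gmat A).inverse ∘L (ContinuousLinearMap.id ℝ (E m) + adj A ∘L A)
        = ContinuousLinearMap.id ℝ (E m) := gmat_inverse_comp A
    rw [ContinuousLinearMap.comp_add, ContinuousLinearMap.comp_id] at h2
    rw [← h2]
    abel
  rw [h1, norm_neg]
  calc ‖(gmat A).inverse ∘L (adj A ∘L A)‖ ≤ ‖(gmat A).inverse‖ * (‖adj A‖ * ‖A‖) :=
        (ContinuousLinearMap.opNorm_comp_le _ _).trans
          (mul_le_mul_of_nonneg_left (ContinuousLinearMap.opNorm_comp_le _ _) (norm_nonneg _))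
    _ ≤ 1 * (‖A‖ * ‖A‖) := by
        rw [LinearIsometryEquiv.norm_map]
        exact mul_le_mul_of_nonneg_right (norm_gmat_inverse_le A) (by positivity)
    _ = ‖A‖ ^ 2 := by ring

/-- `e = g^{ij} B_{ij}`, `|g^{ij} - δ^{ij}| ≤ |Du|²`. -/
theorem abs_tilt_sub_sum_le (hP : IsProj m P) :
    |tilt u P X - ∑ i, inner ℝ (Bop u P X (dcoord u (npr u X) i)) (dcoord u (npr u X) i)|
      ≤ (∑ i, inner ℝ (Bop u P X (dcoord u (npr u X) i)) (dcoord u (npr u X) i))
        * ‖fderiv ℝ u (npr u X)‖ ^ 2 := by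
  rw [← trc_gramB u X hP, tilt_eq_trc_gramB u X hP, ← trc_sub]
  have h1 : (adj (gramB u P X) ∘L gramB u P X) ∘L (gmat (fderiv ℝ u (npr u X))).inverse
      - adj (gramB u P X) ∘L gramB u P X
      = (adj (gramB u P X) ∘L gramB u P X) ∘L ((gmat (fderiv ℝ u (npr u X))).inverse
        - ContinuousLinearMap.id ℝ (E m)) := by
    rw [ContinuousLinearMap.comp_sub, ContinuousLinearMap.comp_id]
  rw [h1]
  exact (abs_trc_gram_comp_le _ _).trans (mul_le_mul_of_nonneg_left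
    (norm_gmat_inverse_sub_le _) (trc_adjoint_comp_self_nonneg _))

end Pointwise

namespace SK

variable {N : NCyl m n} {R a C ε Cm : ℝ}

theorem integrable_test (h : SK N R a C ε Cm) {w : E (m + n) → ℝ} (hw : Integrable w N.μ)
    {Ω : Set (E m)} {g : E m → ℝ} (hg : IsTest Ω g) :
    Integrable (fun X => g (npr N.u X) * w X) N.μ := by
  obtain ⟨B, _, hB⟩ := hg.exists_bound
  exact h.ok.integrable_weight hw hg.cont hB

theorem psd (h : SK N R a C ε Cm) {Ω : Set (E m)} (α : E m → ℝ) (b : Fin m → E m → ℝ)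
    (hα : IsTest Ω α) (hb : ∀ i, IsTest Ω (b i)) :
    0 ≤ hsq N (α * α) + 2 * ∑ i, flux N i (α * b i) + ∑ i, ∑ j, bet N i j (b i * b j) := by
  have hI0 := h.integrable_test h.hsqw.1 (hα.mul_cont hα.cont)
  have hI1 := fun i => h.integrable_test (h.fluxw i).1 (hα.mul_cont (hb i).cont)
  have hI2 := fun i j => h.integrable_test (h.betw i j).1 ((hb i).mul_cont (hb j).cont)
  have hS1 := integrable_finsetSum Finset.univ fun i _ => hI1 i
  have hS2 := integrable_finsetSum Finset.univ fun i _ =>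
    integrable_finsetSum Finset.univ fun j _ => hI2 i j
  have hA : Integrable (fun X => (α * α) (npr N.u X) * ‖zz N.u X‖ ^ 2
        + 2 * ∑ i, (α * b i) (npr N.u X)
            * inner ℝ (zz N.u X) (N.W.P X (dcoord N.u (npr N.u X) i))) N.μ :=
    hI0.add (hS1.const_mul 2)
  have e : hsq N (α * α) + 2 * ∑ i, flux N i (α * b i) + ∑ i, ∑ j, bet N i j (b i * b j)
      = ∫ X, ((α * α) (npr N.u X) * ‖zz N.u X‖ ^ 2
        + 2 * ∑ i, (α * b i) (npr N.u X)
            * inner ℝ (zz N.u X) (N.W.P X (dcoord N.u (npr N.u X) i))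
        + ∑ i, ∑ j, (b i * b j) (npr N.u X)
            * inner ℝ (Bop N.u (N.W.P X) X (dcoord N.u (npr N.u X) i))
                (dcoord N.u (npr N.u X) j)) ∂N.μ := by
    rw [integral_add hA hS2, integral_add hI0 (hS1.const_mul 2),
      integral_const_mul, integral_finsetSum _ fun i _ => hI1 i,
      integral_finsetSum _ fun i _ => integrable_finsetSum Finset.univ fun j _ => hI2 i j]
    congr 1
    refine Finset.sum_congr rfl fun i _ => ?_
    rw [integral_finsetSum _ fun j _ => hI2 i j]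
    rfl
  rw [e]
  refine integral_nonneg_of_ae (h.ae.mono fun X hX => ?_)
  set y := npr N.u X with hy
  set Y : E (m + n) := ∑ i, b i y • dcoord N.u y i with hY
  have hPY : Ph N.u y Y = Y := by
    rw [hY, map_sum]
    exact Finset.sum_congr rfl fun i _ => by rw [map_smul, Ph_dcoord]
  have h1 : ∑ i, (α * b i) y * inner ℝ (zz N.u X) (N.W.P X (dcoord N.u y i))
      = α y * inner ℝ (zz N.u X) (N.W.P X Y) := by
    rw [hY, map_sum, inner_sum, Finset.mul_sum]
    refine Finset.sum_congr rfl fun i _ => ?_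
    rw [map_smul, inner_smul_right, Pi.mul_apply]
    ring
  have h2 : ∑ i, ∑ j, (b i * b j) y * inner ℝ (Bop N.u (N.W.P X) X (dcoord N.u y i))
      (dcoord N.u y j) = inner ℝ (Bop N.u (N.W.P X) X Y) Y := by
    conv_rhs => rw [hY, map_sum, sum_inner]
    refine Finset.sum_congr rfl fun i _ => ?_
    rw [inner_sum]
    refine Finset.sum_congr rfl fun j _ => ?_
    rw [map_smul, inner_smul_left, inner_smul_right, Pi.mul_apply]
    simp only [conj_trivial]
    ring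
  have h3 := psd_pointwise N.u X (N.W.P_proj X) (h.ok.normal X hX.1) Y hPY (α y)
  show 0 ≤ (α * α) y * ‖zz N.u X‖ ^ 2
        + 2 * ∑ i, (α * b i) y * inner ℝ (zz N.u X) (N.W.P X (dcoord N.u y i))
        + ∑ i, ∑ j, (b i * b j) y * inner ℝ (Bop N.u (N.W.P X) X (dcoord N.u y i))
                (dcoord N.u y j)
  rw [h1, h2, Pi.mul_apply, h3]
  positivity

theorem trace (h : SK N R a C ε Cm) {g : E m → ℝ} {B : ℝ} (hg : Continuous g)
    (hB : ∀ y, |g y| ≤ B) :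
    |til N g - ∑ i, bet N i i g| ≤ B * (9 / 4 * m * ε ^ 2 * (Cm * a ^ 2)) := by
  have hI2 := fun i => h.ok.integrable_weight (h.betw i i).1 hg hB
  have hw : Integrable (fun X => tilt N.u (N.W.P X) X
      - ∑ i, inner ℝ (Bop N.u (N.W.P X) X (dcoord N.u (npr N.u X) i))
        (dcoord N.u (npr N.u X) i)) N.μ :=
    h.int_tilt.sub (integrable_finsetSum Finset.univ fun i _ => (h.betw i i).1)
  have e : til N g - ∑ i, bet N i i g = ∫ X, g (npr N.u X) * (tilt N.u (N.W.P X) X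
      - ∑ i, inner ℝ (Bop N.u (N.W.P X) X (dcoord N.u (npr N.u X) i))
        (dcoord N.u (npr N.u X) i)) ∂N.μ := by
    simp only [mul_sub, Finset.mul_sum]
    rw [integral_sub (h.ok.integrable_weight h.int_tilt hg hB)
      (integrable_finsetSum Finset.univ fun i _ => hI2 i), integral_finsetSum _ fun i _ => hI2 i]
    rfl
  rw [e]
  refine (h.ok.abs_weight_le hw hB).trans
    (mul_le_mul_of_nonneg_left ?_ ((abs_nonneg _).trans (hB 0)))
  calc ∫ X, |tilt N.u (N.W.P X) X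
      - ∑ i, inner ℝ (Bop N.u (N.W.P X) X (dcoord N.u (npr N.u X) i))
        (dcoord N.u (npr N.u X) i)| ∂N.μ
      ≤ ∫ X, (9 / 4 * m * ε ^ 2) * tilt N.u (N.W.P X) X ∂N.μ := by
        refine integral_mono hw.abs (h.int_tilt.const_mul _) fun X => ?_
        refine (abs_tilt_sub_sum_le N.u X (N.W.P_proj X)).trans ?_
        have h0 := ck_tilt_nonneg N.u X (N.W.P_proj X)
        have h1 : ∑ i, inner ℝ (Bop N.u (N.W.P X) X (dcoord N.u (npr N.u X) i))
            (dcoord N.u (npr N.u X) i) ≤ ∑ _i : Fin m, 9 / 4 * tilt N.u (N.W.P X) X := by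
          refine Finset.sum_le_sum fun i _ => ?_
          refine (le_abs_self _).trans ((abs_inner_Bop_le N.u X (N.W.P_proj X) _ _).trans ?_)
          have := h.norm_dcoord_le (npr N.u X) i
          calc tilt N.u (N.W.P X) X * (‖dcoord N.u (npr N.u X) i‖ * ‖dcoord N.u (npr N.u X) i‖)
              ≤ tilt N.u (N.W.P X) X * (3 / 2 * (3 / 2)) := by gcongr
            _ = _ := by ring
        rw [Finset.sum_const, Finset.card_univ, Fintype.card_fin, nsmul_eq_mul] at h1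
        have h2 : ‖fderiv ℝ N.u (npr N.u X)‖ ^ 2 ≤ ε ^ 2 :=
          pow_le_pow_left₀ (norm_nonneg _) (h.small.slope _) 2
        calc _ ≤ (m * (9 / 4 * tilt N.u (N.W.P X) X)) * ε ^ 2 :=
              mul_le_mul h1 h2 (by positivity) (by positivity)
          _ = _ := by ring
    _ ≤ 9 / 4 * m * ε ^ 2 * (Cm * a ^ 2) := by
        rw [integral_const_mul]
        exact mul_le_mul_of_nonneg_left h.tilt_le (by positivity)

end SK

end Claimed.Agent.R322.Lin
end

/- ===== packed: Claimed.Agent.R322.Lin.VarKit ===== -/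
section
/-!
# First variation kit for one normal cylinder (helper253)

`VK N κ Cg` collects the differential facts on a normal cylinder with `Geo κ N.u`:
regularity and derivatives of `npr`, `zz`, the first variation `Tube.stat_cyl`, the trace formulas
`Tube.normal_trace`, `Tube.lift_trace` on the cylinder.
-/

set_option autoImplicit false

open scoped ENNReal ContDiff Topology
open MeasureTheory

namespace Claimed.Agent.R322.Lin

open Claimed.Agent.R322.Tube Claimed.Agent.R322.Fn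

local notation "adj" => ContinuousLinearMap.adjoint
local notation "𝟙" => ContinuousLinearMap.id ℝ _

variable {m n : ℕ}

/-- differential facts on a normal cylinder -/
structure VK (N : NCyl m n) (κ Cg : ℝ) : Prop where
  geo : Geo κ N.u
  h_le : N.h ≤ 2 / 9
  isOpen : IsOpen (Cyl N.u N.Ω N.h)
  c3_npr : ContDiffOn ℝ 3 (npr N.u) (Cyl N.u N.Ω N.h)
  c3_zz : ContDiffOn ℝ 3 (zz N.u) (Cyl N.u N.Ω N.h)
  d_npr : ∀ X ∈ Cyl N.u N.Ω N.h, fderiv ℝ (npr N.u) X
    = dFp (fderiv ℝ N.u (npr N.u X)) ∘L Kz N.u X ∘L Ph N.u (npr N.u X)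
  d_zz : ∀ X ∈ Cyl N.u N.Ω N.h, fderiv ℝ (zz N.u) X = 𝟙 - Kz N.u X ∘L Ph N.u (npr N.u X)
  stat : ∀ (Y : E (m + n) → E (m + n)) (K : Set (E m)), ContDiffOn ℝ 1 Y (Cyl N.u N.Ω N.h) →
      IsCompact K → K ⊆ N.Ω → (∀ X ∈ Cyl N.u N.Ω N.h, npr N.u X ∉ K → Y X = 0) →
      Integrable (fun X => tdiv (N.W.P X) (fderiv ℝ Y X)) N.μ ∧
      ∫ X, tdiv (N.W.P X) (fderiv ℝ Y X) ∂N.μ = 0
  ntrace : ∀ X ∈ Cyl N.u N.Ω N.h, ∀ P : E (m + n) →L[ℝ] E (m + n), IsProj m P →
      |tdiv P (fderiv ℝ (zz N.u) X) - (tilt N.u P X - inner ℝ (HS N.u (npr N.u X)) (zz N.u X))|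
        ≤ Cg * (κ ^ 2 * ‖zz N.u X‖ ^ 2 + κ * tilt N.u P X * ‖zz N.u X‖)
  ltrace : ∀ Xc : E m → E m, ContDiff ℝ 1 Xc → ∀ X ∈ Cyl N.u N.Ω N.h,
      ∀ P : E (m + n) →L[ℝ] E (m + n), IsProj m P →
      |tdiv P (fderiv ℝ (lift N.u Xc) X)
          - (divS N.u Xc (npr N.u X) - trc (Bop N.u P X ∘L nabS N.u Xc (npr N.u X)))|
        ≤ Cg * (κ * ‖zz N.u X‖ * tilt N.u P X * ‖nabS N.u Xc (npr N.u X)‖
            + (Real.sqrt (DHSsq N.u (npr N.u X)) * ‖zz N.u X‖ + κ ^ 2 * ‖zz N.u X‖ ^ 2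
                + κ * tilt N.u P X * ‖zz N.u X‖
                + κ ^ 2 * Real.sqrt (tilt N.u P X) * ‖zz N.u X‖) * ‖Xc (npr N.u X)‖)

theorem exists_vk (m n : ℕ) : ∃ h₀ Cg : ℝ, 0 < h₀ ∧ 0 < Cg ∧ ∀ (κ : ℝ) (N : NCyl m n),
    Geo κ N.u → N.h ≤ h₀ → VK N κ Cg := by
  obtain ⟨h₁, hh₁, H₁⟩ := cyl_carrier m n
  obtain ⟨h₂, hh₂, H₂⟩ := tube_deriv m n
  obtain ⟨h₃, hh₃, H₃⟩ := stat_cyl m n
  obtain ⟨h₄, C₄, hh₄, hC₄, H₄⟩ := normal_trace m n
  obtain ⟨h₅, C₅, hh₅, hC₅, H₅⟩ := lift_trace m n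
  refine ⟨min (2 / 9) (min h₁ (min h₂ (min h₃ (min h₄ h₅)))), max C₄ C₅, by positivity,
    lt_max_of_lt_left hC₄, fun κ N hG hh => ?_⟩
  have l0 : N.h ≤ 2 / 9 := hh.trans (min_le_left _ _)
  have hh' := hh.trans (min_le_right _ _)
  have l1 : N.h ≤ h₁ := hh'.trans (min_le_left _ _)
  have hh'' := hh'.trans (min_le_right _ _)
  have l2 : N.h ≤ h₂ := hh''.trans (min_le_left _ _)
  have hh3 := hh''.trans (min_le_right _ _)
  have l3 : N.h ≤ h₃ := hh3.trans (min_le_left _ _)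
  have hh4 := hh3.trans (min_le_right _ _)
  have l4 : N.h ≤ h₄ := hh4.trans (min_le_left _ _)
  have l5 : N.h ≤ h₅ := hh4.trans (min_le_right _ _)
  have hsub : ∀ h' : ℝ, N.h ≤ h' → Cyl N.u N.Ω N.h ⊆ Tub N.u h' := fun h' hl X hX =>
    ⟨npr N.u X, hX.2.trans_le hl⟩
  obtain ⟨-, hnpr, hzz, hd⟩ := H₂ κ N.u hG
  have hκ := hG.nonneg
  refine ⟨hG, l0, (H₁ κ N hG l1).1, hnpr.mono (hsub _ l2), hzz.mono (hsub _ l2),
    fun X hX => (hd X (hsub _ l2 hX)).2.2.1, fun X hX => (hd X (hsub _ l2 hX)).2.2.2,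
    H₃ κ N hG l3, fun X hX P hP => ?_, fun Xc hXc X hX P hP => ?_⟩
  · refine ((H₄ κ N.u hG X (hsub _ l4 hX) P hP).2).trans
      (mul_le_mul_of_nonneg_right (le_max_left _ _) ?_)
    have := ck_tilt_nonneg N.u X hP
    positivity
  · refine ((H₅ κ N.u hG Xc hXc X (hsub _ l5 hX) P hP).2).trans
      (mul_le_mul_of_nonneg_right (le_max_right _ _) ?_)
    have := ck_tilt_nonneg N.u X hP
    positivity

theorem Small.geoε {N : NCyl m n} {R a C ε : ℝ} (h : Small N R a C ε) (hε : ε ≤ 1 / 2) :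
    Geo ε N.u :=
  ⟨h.smooth, fun y => by
    rw [← norm_iteratedFDeriv_one]; exact (h.geo 1 le_rfl (by norm_num) y).trans hε,
    fun y => h.geo 2 (by norm_num) (by norm_num) y,
    fun y => h.geo 3 (by norm_num) (by norm_num) y, hε.trans (by norm_num)⟩

namespace SK

variable {N : NCyl m n} {R a C ε Cm : ℝ}

/-- the standard error density `e + a √e + a²` has integral `≤ 3 Cm a²`. -/
theorem abs_integral_le_err (h : SK N R a C ε Cm) {F : E (m + n) → ℝ} {T : ℝ}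
    (hF : ∀ᵐ X ∂N.μ, |F X| ≤ T * (tilt N.u (N.W.P X) X
      + a * Real.sqrt (tilt N.u (N.W.P X) X) + a ^ 2)) (hT : 0 ≤ T) :
    |∫ X, F X ∂N.μ| ≤ 3 * T * Cm * a ^ 2 := by
  have := h.fin
  have hi : Integrable (fun X => T * (tilt N.u (N.W.P X) X
      + a * Real.sqrt (tilt N.u (N.W.P X) X) + a ^ 2)) N.μ :=
    ((h.int_tilt.add (h.int_sqrt.const_mul a)).add (integrable_const _)).const_mul T
  refine (norm_integral_le_of_norm_le (f := F) hi hF).trans ?_
  have hA : Integrable (fun X => tilt N.u (N.W.P X) X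
      + a * Real.sqrt (tilt N.u (N.W.P X) X)) N.μ := h.int_tilt.add (h.int_sqrt.const_mul a)
  rw [integral_const_mul, integral_add hA (integrable_const _),
    integral_add h.int_tilt (h.int_sqrt.const_mul a), integral_const_mul, integral_const,
    smul_eq_mul]
  have h1 := h.tilt_le
  have h2 : a * ∫ X, Real.sqrt (tilt N.u (N.W.P X) X) ∂N.μ ≤ a * (Cm * a) :=
    mul_le_mul_of_nonneg_left h.sqrt_le h.a_pos.le
  have h3 : N.μ.real Set.univ * a ^ 2 ≤ Cm * a ^ 2 :=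
    mul_le_mul_of_nonneg_right h.mass (sq_nonneg a)
  calc T * (∫ X, tilt N.u (N.W.P X) X ∂N.μ + a * ∫ X, Real.sqrt (tilt N.u (N.W.P X) X) ∂N.μ
        + N.μ.real Set.univ * a ^ 2)
      ≤ T * (Cm * a ^ 2 + a * (Cm * a) + Cm * a ^ 2) :=
        mul_le_mul_of_nonneg_left (by linarith) hT
    _ = _ := by ring

end SK

end Claimed.Agent.R322.Lin
end

/- ===== packed: Claimed.Agent.R322.Lin.QDiv ===== -/
section
/-!
# CO Proposition 6.1, [Q3]: the normal first variation with `φ z` (helper253)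
-/

set_option autoImplicit false

open scoped ENNReal ContDiff Topology
open MeasureTheory

namespace Claimed.Agent.R322.Lin

open Claimed.Agent.R322.Tube Claimed.Agent.R322.Fn

local notation "adj" => ContinuousLinearMap.adjoint
local notation "𝟙" => ContinuousLinearMap.id ℝ _

variable {m n : ℕ}

section Pointwise

variable {u : E m → E n} {κ : ℝ}

/-- `dFᵀ - g⁻¹ dFᵀ K_w` is small. -/
theorem norm_adjoint_dF_sub_le (hu : Geo κ u) (y : E m) {w : E (m + n)} (hw : ‖w‖ ≤ 2 / 9) :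
    ‖adj (dF (fderiv ℝ u y)) - dFp (fderiv ℝ u y) ∘L Kw u y w‖
      ≤ 3 / 2 * ‖fderiv ℝ u y‖ ^ 2 + 27 / 4 * κ * ‖w‖ := by
  have hS := hu.norm_Shp_le_half y hw
  have hSn := hu.norm_Shp_le y w
  have hK := norm_Kw_le hS
  have hA := hu.slope y
  have e : adj (dF (fderiv ℝ u y)) - dFp (fderiv ℝ u y) ∘L Kw u y w
      = -(((gmat (fderiv ℝ u y)).inverse - ContinuousLinearMap.id ℝ (E m))
          ∘L adj (dF (fderiv ℝ u y)))
        - dFp (fderiv ℝ u y) ∘L (Shp u y w ∘L Kw u y w) := by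
    conv_lhs => rw [Kw_eq_add hS]
    rw [ContinuousLinearMap.comp_add, ContinuousLinearMap.comp_id, ContinuousLinearMap.sub_comp,
      ContinuousLinearMap.id_comp]
    unfold dFp
    abel
  rw [e]
  refine (norm_sub_le _ _).trans (add_le_add ?_ ?_)
  · rw [norm_neg]
    have h1 : ‖adj (dF (fderiv ℝ u y))‖ ≤ 3 / 2 := by
      rw [LinearIsometryEquiv.norm_map]
      exact (norm_dF_le _).trans (by linarith)
    have := norm_comp_le _ _ (norm_gmat_inverse_sub_le (fderiv ℝ u y)) h1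
    linarith
  · have h1 : ‖dFp (fderiv ℝ u y)‖ ≤ 3 / 2 := (norm_dFp_le _).trans (by linarith)
    have := norm_comp_le _ _ h1 (norm_comp_le _ _ hSn hK)
    linarith

variable (u) {P : E (m + n) →L[ℝ] E (m + n)} (X : E (m + n))

/-- `|P_h P_T z| ≤ √e |z|` for a normal vector `z`. -/
theorem norm_Ph_P_zz_le (hP : IsProj m P) (hz : Ph u (npr u X) (zz u X) = 0) :
    ‖Ph u (npr u X) (P (zz u X))‖ ≤ ‖zz u X‖ * Real.sqrt (tilt u P X) := by
  set v := Ph u (npr u X) (P (zz u X)) with hv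
  have hPv : Ph u (npr u X) v = v := (isProj_Ph u (npr u X)).apply_apply _
  have h1 : ‖v‖ ^ 2 = inner ℝ (zz u X) (P v) := by
    rw [← real_inner_self_eq_norm_sq]
    conv_lhs => rw [hv, (isProj_Ph u (npr u X)).symm, hPv, hP.symm]
  have h2 := abs_inner_zz_P_le u X hP hz v hPv
  rw [← h1, abs_of_nonneg (sq_nonneg _)] at h2
  by_cases h0 : ‖v‖ = 0
  · rw [h0]; positivity
  · have hpos : 0 < ‖v‖ := lt_of_le_of_ne (norm_nonneg _) (Ne.symm h0)
    have h3 : ‖v‖ * ‖v‖ ≤ (‖zz u X‖ * Real.sqrt (tilt u P X)) * ‖v‖ := by nlinarith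
    exact le_of_mul_le_mul_right h3 hpos

/-- `∑ ∂_i φ z·P_T ∂_i = Dφ (dFᵀ P_T z)` -/
theorem sum_pd_mul_inner (hP : IsProj m P) (φ : E m → ℝ) (y : E m) (z : E (m + n)) :
    ∑ i, pd i φ y * inner ℝ z (P (dcoord u y i))
      = fderiv ℝ φ y (adj (dF (fderiv ℝ u y)) (P z)) := by
  conv_rhs => rw [← tdv_sum_single (adj (dF (fderiv ℝ u y)) (P z)), map_sum]
  refine Finset.sum_congr rfl fun i _ => ?_
  rw [map_smul, smul_eq_mul, mul_comm, ContinuousLinearMap.adjoint_inner_right, ← hP.symm,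
    real_inner_comm]
  rfl

end Pointwise

namespace VK

variable {N : NCyl m n} {κ Cg : ℝ}

theorem diffAt_npr (v : VK N κ Cg) {X : E (m + n)} (hX : X ∈ Cyl N.u N.Ω N.h) :
    DifferentiableAt ℝ (npr N.u) X :=
  (v.c3_npr.contDiffAt (v.isOpen.mem_nhds hX)).differentiableAt (by norm_num)

theorem diffAt_zz (v : VK N κ Cg) {X : E (m + n)} (hX : X ∈ Cyl N.u N.Ω N.h) :
    DifferentiableAt ℝ (zz N.u) X :=
  (v.c3_zz.contDiffAt (v.isOpen.mem_nhds hX)).differentiableAt (by norm_num)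

theorem norm_zz_le (v : VK N κ Cg) {X : E (m + n)} (hX : X ∈ Cyl N.u N.Ω N.h) :
    ‖zz N.u X‖ ≤ 2 / 9 := hX.2.le.trans v.h_le

/-- the divergence of `φ(π X) z` -/
theorem tdiv_phi_zz (v : VK N κ Cg) {φ : E m → ℝ} (hφ : ContDiff ℝ 1 φ) {X : E (m + n)}
    (hX : X ∈ Cyl N.u N.Ω N.h) (P : E (m + n) →L[ℝ] E (m + n)) :
    tdiv P (fderiv ℝ (fun X => φ (npr N.u X) • zz N.u X) X)
      = φ (npr N.u X) * tdiv P (fderiv ℝ (zz N.u) X)
        + fderiv ℝ φ (npr N.u X) (dFp (fderiv ℝ N.u (npr N.u X))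
            (Kz N.u X (Ph N.u (npr N.u X) (P (zz N.u X))))) := by
  have hd : HasFDerivAt (fun X => φ (npr N.u X))
      (fderiv ℝ φ (npr N.u X) ∘L fderiv ℝ (npr N.u) X) X :=
    ((hφ.differentiable (by simp) _).hasFDerivAt).comp X (v.diffAt_npr hX).hasFDerivAt
  rw [tdiv_fderiv_smul P hd.differentiableAt (v.diffAt_zz hX), hd.fderiv, v.d_npr X hX]
  rfl

/-- the pointwise error of [Q3] -/
theorem div_err (v : VK N κ Cg) {φ : E m → ℝ} (hφ : ContDiff ℝ 1 φ) {X : E (m + n)}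
    (hX : X ∈ Cyl N.u N.Ω N.h) (hz : Ph N.u (npr N.u X) (zz N.u X) = 0)
    {P : E (m + n) →L[ℝ] E (m + n)} (hP : IsProj m P) {A : ℝ}
    (hA : |φ (npr N.u X)| ≤ A) (hA' : ‖fderiv ℝ φ (npr N.u X)‖ ≤ A) :
    |(φ (npr N.u X) * tilt N.u P X
        + ∑ i, pd i φ (npr N.u X) * inner ℝ (zz N.u X) (P (dcoord N.u (npr N.u X) i)))
      - tdiv P (fderiv ℝ (fun X => φ (npr N.u X) • zz N.u X) X)|
      ≤ A * (‖HS N.u (npr N.u X)‖ * ‖zz N.u X‖
          + Cg * (κ ^ 2 * ‖zz N.u X‖ ^ 2 + κ * tilt N.u P X * ‖zz N.u X‖))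
        + A * ((3 / 2 * ‖fderiv ℝ N.u (npr N.u X)‖ ^ 2 + 27 / 4 * κ * ‖zz N.u X‖)
          * (‖zz N.u X‖ * Real.sqrt (tilt N.u P X))) := by
  set y := npr N.u X with hy
  set z := zz N.u X with hzz
  have hA0 : 0 ≤ A := (abs_nonneg _).trans hA
  rw [v.tdiv_phi_zz hφ hX P, sum_pd_mul_inner N.u hP φ y z]
  have e1 : adj (dF (fderiv ℝ N.u y)) (P z) = adj (dF (fderiv ℝ N.u y)) (Ph N.u y (P z)) :=
    (congrArg (fun T : E (m + n) →L[ℝ] E m => T (P z)) (adjoint_dF_comp_PhA (fderiv ℝ N.u y))).symm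
  have e2 : (φ y * tilt N.u P X + fderiv ℝ φ y (adj (dF (fderiv ℝ N.u y)) (P z)))
      - (φ y * tdiv P (fderiv ℝ (zz N.u) X) + fderiv ℝ φ y (dFp (fderiv ℝ N.u y)
            (Kz N.u X (Ph N.u y (P z)))))
      = φ y * (inner ℝ (HS N.u y) z
          - (tdiv P (fderiv ℝ (zz N.u) X) - (tilt N.u P X - inner ℝ (HS N.u y) z)))
        + fderiv ℝ φ y ((adj (dF (fderiv ℝ N.u y)) - dFp (fderiv ℝ N.u y) ∘L Kw N.u y z)
            (Ph N.u y (P z))) := by
    rw [e1, _root_.sub_apply, map_sub]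
    simp only [ContinuousLinearMap.comp_apply]
    rw [Kz_eq]
    ring
  rw [e2]
  refine (abs_add_le _ _).trans (add_le_add ?_ ?_)
  · rw [abs_mul]
    refine mul_le_mul hA ?_ (abs_nonneg _) hA0
    exact (abs_sub _ _).trans (add_le_add (abs_real_inner_le_norm _ _) (v.ntrace X hX P hP))
  · rw [← Real.norm_eq_abs]
    refine (ContinuousLinearMap.le_opNorm _ _).trans (mul_le_mul hA' ?_ (norm_nonneg _) hA0)
    refine (ContinuousLinearMap.le_opNorm _ _).trans ?_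
    have h1 := norm_adjoint_dF_sub_le v.geo y (v.norm_zz_le hX)
    have h2 := norm_Ph_P_zz_le N.u X hP hz
    exact mul_le_mul h1 h2 (norm_nonneg _) ((norm_nonneg _).trans h1)

end VK

theorem div_arith {A H ζ Cg ε e s D c a : ℝ} (hA : 0 ≤ A) (hH : H ≤ ε * a)
    (hζ0 : 0 ≤ ζ) (hζ : ζ ≤ c * a) (hζ' : ζ ≤ 2 / 9) (hCg : 0 ≤ Cg) (hε0 : 0 ≤ ε) (hε : ε ≤ 1 / 2)
    (he : 0 ≤ e) (hs : 0 ≤ s) (hD0 : 0 ≤ D) (hD : D ≤ ε) (hc : 0 ≤ c) (ha0 : 0 < a) (ha : a ≤ 1) :
    A * (H * ζ + Cg * (ε ^ 2 * ζ ^ 2 + ε * e * ζ))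
        + A * ((3 / 2 * D ^ 2 + 27 / 4 * ε * ζ) * (ζ * s))
      ≤ (A * ε * (c + Cg * c ^ 2 + Cg * c + 9 / 4 * c)) * (e + a * s + a ^ 2) := by
  have hca : 0 ≤ c * a := by positivity
  have h1 : H * ζ ≤ (ε * a) * (c * a) := by
    calc H * ζ ≤ (ε * a) * ζ := mul_le_mul_of_nonneg_right hH hζ0
      _ ≤ _ := mul_le_mul_of_nonneg_left hζ (by positivity)
  have h2 : ε ^ 2 * ζ ^ 2 ≤ ε * (c * a) ^ 2 :=
    mul_le_mul (by nlinarith) (pow_le_pow_left₀ hζ0 hζ 2) (by positivity) hε0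
  have h3 : ε * e * ζ ≤ ε * e * c :=
    mul_le_mul_of_nonneg_left (hζ.trans (mul_le_of_le_one_right hc ha)) (by positivity)
  have h4 : 3 / 2 * D ^ 2 + 27 / 4 * ε * ζ ≤ 9 / 4 * ε := by
    have : D ^ 2 ≤ ε ^ 2 := pow_le_pow_left₀ hD0 hD 2
    nlinarith
  have h5 : ζ * s ≤ c * a * s := mul_le_mul_of_nonneg_right hζ hs
  have h6 : (3 / 2 * D ^ 2 + 27 / 4 * ε * ζ) * (ζ * s) ≤ (9 / 4 * ε) * (c * a * s) :=
    mul_le_mul h4 h5 (by positivity) (by positivity)
  have hE : 0 ≤ e + a * s + a ^ 2 := by positivity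
  have has : 0 ≤ a * s := by positivity
  have ha2 : 0 ≤ a ^ 2 := by positivity
  have t1 : c * a ^ 2 ≤ c * (e + a * s + a ^ 2) := mul_le_mul_of_nonneg_left (by linarith) hc
  have t2 : Cg * c ^ 2 * a ^ 2 ≤ Cg * c ^ 2 * (e + a * s + a ^ 2) :=
    mul_le_mul_of_nonneg_left (by linarith) (by positivity)
  have t3 : Cg * c * e ≤ Cg * c * (e + a * s + a ^ 2) :=
    mul_le_mul_of_nonneg_left (by linarith) (by positivity)
  have t4 : 9 / 4 * c * (a * s) ≤ 9 / 4 * c * (e + a * s + a ^ 2) :=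
    mul_le_mul_of_nonneg_left (by linarith) (by positivity)
  calc A * (H * ζ + Cg * (ε ^ 2 * ζ ^ 2 + ε * e * ζ))
        + A * ((3 / 2 * D ^ 2 + 27 / 4 * ε * ζ) * (ζ * s))
      ≤ A * ((ε * a) * (c * a) + Cg * (ε * (c * a) ^ 2 + ε * e * c))
        + A * ((9 / 4 * ε) * (c * a * s)) := by gcongr
    _ = A * ε * (c * a ^ 2 + Cg * c ^ 2 * a ^ 2 + Cg * c * e + 9 / 4 * c * (a * s)) := by ring
    _ ≤ A * ε * (c * (e + a * s + a ^ 2) + Cg * c ^ 2 * (e + a * s + a ^ 2)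
          + Cg * c * (e + a * s + a ^ 2) + 9 / 4 * c * (e + a * s + a ^ 2)) :=
        mul_le_mul_of_nonneg_left (by linarith) (by positivity)
    _ = _ := by ring

theorem abs_pd_le {k : ℕ} (g : E k → ℝ) (i : Fin k) (y : E k) : |pd i g y| ≤ ‖fderiv ℝ g y‖ := by
  unfold pd
  have := (fderiv ℝ g y).le_opNorm (EuclideanSpace.single i (1 : ℝ))
  rwa [PiLp.norm_single, norm_one, mul_one, Real.norm_eq_abs] at this

theorem q_div_core {N : NCyl m n} {R R₁ a C ε Cm Cg : ℝ} (K : SK N R a C ε Cm) (v : VK N ε Cg)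
    (hCg : 0 < Cg) (hR : R₁ < R) {φ : E m → ℝ} {A : ℝ} (hφ : ContDiff ℝ ∞ φ)
    (hs : tsupport φ ⊆ Metric.closedBall 0 R₁) (hA : ∀ y, |φ y| ≤ A ∧ ‖fderiv ℝ φ y‖ ≤ A) :
    |til N φ + ∑ i, flux N i (pd i φ)|
      ≤ 3 * (A * ε * (|C| + Cg * |C| ^ 2 + Cg * |C| + 9 / 4 * |C|)) * Cm * a ^ 2 := by
  have hφ1 : ContDiff ℝ 1 φ := hφ.of_le (by simp)
  have hA0 : 0 ≤ A := (abs_nonneg _).trans (hA 0).1
  have hY : ContDiffOn ℝ 1 (fun X => φ (npr N.u X) • zz N.u X) (Cyl N.u N.Ω N.h) :=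
    (hφ1.comp_contDiffOn (v.c3_npr.of_le (by norm_num))).smul (v.c3_zz.of_le (by norm_num))
  obtain ⟨hDi, hD0⟩ := v.stat _ (Metric.closedBall 0 R₁) hY (isCompact_closedBall _ _)
    (K.small.Ω_eq ▸ Metric.closedBall_subset_ball hR) (fun X _ hXK => by
      rw [image_eq_zero_of_notMem_tsupport fun h => hXK (hs h), zero_smul])
  have hI0 := K.ok.integrable_weight K.int_tilt hφ1.continuous fun y => (hA y).1
  have hI1 := fun i => K.ok.integrable_weight (K.fluxw i).1 (continuous_pd hφ1 i)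
    fun y => (abs_pd_le φ i y).trans (hA y).2
  have hS1 := integrable_finsetSum Finset.univ fun i _ => hI1 i
  have hT : Integrable (fun X => φ (npr N.u X) * tilt N.u (N.W.P X) X
        + ∑ i, pd i φ (npr N.u X) * inner ℝ (zz N.u X) (N.W.P X (dcoord N.u (npr N.u X) i)))
      N.μ := hI0.add hS1
  have e : til N φ + ∑ i, flux N i (pd i φ)
      = ∫ X, ((φ (npr N.u X) * tilt N.u (N.W.P X) X
        + ∑ i, pd i φ (npr N.u X) * inner ℝ (zz N.u X) (N.W.P X (dcoord N.u (npr N.u X) i)))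
        - tdiv (N.W.P X) (fderiv ℝ (fun X => φ (npr N.u X) • zz N.u X) X)) ∂N.μ := by
    rw [integral_sub hT hDi, hD0, sub_zero, integral_add hI0 hS1,
      integral_finsetSum _ fun i _ => hI1 i]
    rfl
  rw [e]
  refine K.abs_integral_le_err (K.ae.mono fun X hX => ?_) (by
    have := K.ε_nonneg
    positivity)
  refine (v.div_err hφ1 hX.1 (K.ok.normal X hX.1) (N.W.P_proj X) (hA _).1 (hA _).2).trans ?_
  have h1 := K.small.curv _ hX.2.1
  have hsq := Real.sqrt_nonneg (DHSsq N.u (npr N.u X))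
  exact div_arith hA0 (by linarith) (norm_nonneg _) hX.2.2 (v.norm_zz_le hX.1) hCg.le K.ε_nonneg
    K.ε_le (ck_tilt_nonneg N.u X (N.W.P_proj X)) (Real.sqrt_nonneg _) (norm_nonneg _)
    (K.small.slope _) (abs_nonneg C) K.a_pos K.a_le

/-- common preamble of [Q1]-[Q3]: both kits at once -/
theorem exists_kits (m n Q : ℕ) (R : ℝ) (hR : 0 < R) :
    ∃ h₀ Cg : ℝ, 0 < h₀ ∧ 0 < Cg ∧ ∀ C : ℝ, ∃ Cm : ℝ, 0 < Cm ∧ ∀ (N : NCyl m n) (a ε : ℝ),
      N.Q = Q → N.h ≤ h₀ → 0 < a → a ≤ 1 → 0 ≤ ε → ε ≤ 1 / 2 → Small N R a C ε →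
      SK N R a C ε Cm ∧ VK N ε Cg := by
  obtain ⟨h₁, hh₁, H₁⟩ := exists_kit m n Q R hR
  obtain ⟨h₂, Cg, hh₂, hCg, H₂⟩ := exists_vk m n
  refine ⟨min h₁ h₂, Cg, lt_min hh₁ hh₂, hCg, fun C => ?_⟩
  obtain ⟨Cm, hCm, H₁⟩ := H₁ C
  exact ⟨Cm, hCm, fun N a ε hQ hh ha ha1 hε hε1 hS =>
    ⟨H₁ N a ε hQ (hh.trans (min_le_left _ _)) ha ha1 hε hε1 hS,
      H₂ ε N (hS.geoε hε1) (hh.trans (min_le_right _ _))⟩⟩

end Claimed.Agent.R322.Lin
end
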