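/- Packed by merge_tool.py (helper293): 6 modules of Claimed.Agent.R322 in one file, same declarations.
   Old modules, in this order: Haus.Defs, Haus.Nested, Haus.Span, Fit.Boot.Main, Haus.Cells, Haus.Mdp -/
import Claimed.Agent.R322.Basic
import Claimed.Agent.R322.Pack047

/- ===== packed: Claimed.Agent.R322.Haus.Defs ===== -/
section
/-!
# Row 322, package Haus (B7): vocabulary

* `IsFrost μ C t` : the Frostman (upper regularity) condition `μ (B(x,u)) ≤ C u^t`;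
* `QInd δ z`      : quantitative linear independence of a finite family of vectors
  (a closed condition; it implies linear independence when `0 < δ`).

Owner: helper96.  Everything in this folder is self-contained (Mathlib + `R322/Basic.lean`).
-/

set_option autoImplicit false

open scoped ENNReal
open MeasureTheory

namespace Claimed.Agent.R322.Haus

/-- Frostman condition with exponent `t` and constant `C` (same shape as `FlatData.σ_ball`). -/
def IsFrost {N : ℕ} (μ : Measure (E N)) (C t : ℝ) : Prop :=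
  ∀ (x : E N) (u : ℝ), 0 < u → μ (Metric.ball x u) ≤ ENNReal.ofReal (C * u ^ t)

theorem IsFrost.mono_measure {N : ℕ} {μ ν : Measure (E N)} {C t : ℝ} (h : IsFrost μ C t)
    (hν : ν ≤ μ) : IsFrost ν C t :=
  fun x u hu => (hν _).trans (h x u hu)

theorem IsFrost.restrict {N : ℕ} {μ : Measure (E N)} {C t : ℝ} (h : IsFrost μ C t)
    (A : Set (E N)) : IsFrost (μ.restrict A) C t :=
  h.mono_measure Measure.restrict_le_self

theorem IsFrost.mono_const {N : ℕ} {μ : Measure (E N)} {C C' t : ℝ} (h : IsFrost μ C t)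
    (hC : C ≤ C') : IsFrost μ C' t := fun x u hu =>
  (h x u hu).trans (ENNReal.ofReal_le_ofReal
    (mul_le_mul_of_nonneg_right hC (Real.rpow_nonneg hu.le t)))

/-- quantitative linear independence: every coefficient is controlled by the combination -/
def QInd {N k : ℕ} (δ : ℝ) (z : Fin k → E N) : Prop :=
  ∀ (a : Fin k → ℝ) (i : Fin k), δ * |a i| ≤ ‖∑ j, a j • z j‖

theorem QInd.linearIndependent {N k : ℕ} {δ : ℝ} (hδ : 0 < δ) {z : Fin k → E N}
    (h : QInd δ z) : LinearIndependent ℝ z := by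
  rw [Fintype.linearIndependent_iff]
  intro a ha i
  have := h a i
  rw [ha, norm_zero] at this
  have h2 : |a i| ≤ 0 := by
    by_contra hcon
    push Not at hcon
    have := mul_pos hδ hcon
    linarith
  exact abs_eq_zero.1 (le_antisymm h2 (abs_nonneg _))

/-- `QInd` is a closed condition -/
theorem QInd.of_tendsto {N k : ℕ} {δ : ℝ} {ι : Type*} {l : Filter ι} [l.NeBot]
    {z : ι → Fin k → E N} {z₀ : Fin k → E N} (h : ∀ᶠ n in l, QInd δ (z n))
    (hz : ∀ i, Filter.Tendsto (fun n => z n i) l (nhds (z₀ i))) : QInd δ z₀ := by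
  intro a i
  have h1 : Filter.Tendsto (fun n => ‖∑ j, a j • z n j‖) l (nhds ‖∑ j, a j • z₀ j‖) :=
    (tendsto_finsetSum _ fun j _ => (hz j).const_smul (a j)).norm
  exact ge_of_tendsto h1 (h.mono fun n hn => hn a i)

/-- `N` quantitatively independent vectors span `E N` -/
theorem QInd.span_eq_top {N : ℕ} {δ : ℝ} (hδ : 0 < δ) {z : Fin N → E N} (h : QInd δ z) :
    Submodule.span ℝ (Set.range z) = ⊤ :=
  (h.linearIndependent hδ).span_eq_top_of_card_eq_finrank' (by simp)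

end Claimed.Agent.R322.Haus
end

/- ===== packed: Claimed.Agent.R322.Haus.Nested ===== -/
section
/-!
# Haus (b): the nested sup trick

From a finite Frostman measure `μ` and a compact set `K` of positive measure we get a FIXED point `x ∈ K`, scales
`l j → 0` and PROBABILITY measures `σ j` (normalised restrictions of `μ`, in the coordinates `X = (y - x) / l j`) which are
carried by the unit ball and by (the image of) compact sets `Kj j ⊆ K` containing `x`, satisfy the Frostman condition with the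
SAME exponent and the universal constant `2^(t+1)`, and such that a given measurable function `h` oscillates by at most
`1/(j+1)` on `Kj j` (this replaces Lusin's theorem in CO 2 and CO 7).
-/

set_option autoImplicit false

open scoped ENNReal NNReal
open MeasureTheory Filter Topology

namespace Claimed.Agent.R322.Haus

/-- **N1 (good ball).**
[`S := ⨆ (y) (u ∈ (0, u₀]), μ (ball y u) / ofReal (u^t)`.  `S ≤ ofReal C < ∞` by `hfr`; `0 < S` because `E N` is a countable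
union of balls of radius `u₀` and `μ ≠ 0`.  Since `S / 2 < S` there is `(x, l)` with `S / 2 < μ (ball x l) / ofReal (l^t)`
(`lt_iSup_iff`).  For `u ≤ l ≤ u₀`: `μ (ball y u) ≤ S * ofReal (u^t) ≤ 2 μ (ball x l) / ofReal (l^t) * ofReal (u^t)`.] -/
theorem exists_good_ball {N : ℕ} (μ : Measure (E N)) [IsFiniteMeasure μ] (hμ : μ ≠ 0) (C t : ℝ)
    (hfr : IsFrost μ C t) (u₀ : ℝ) (hu₀ : 0 < u₀) :
    ∃ (x : E N) (l : ℝ), 0 < l ∧ l ≤ u₀ ∧ 0 < μ (Metric.ball x l) ∧
      ∀ (y : E N) (u : ℝ), 0 < u → u ≤ l →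
        μ (Metric.ball y u) ≤ ENNReal.ofReal (2 * (u / l) ^ t) * μ (Metric.ball x l) := by
  set R : E N × Set.Ioc (0 : ℝ) u₀ → ℝ≥0∞ := fun p =>
    μ (Metric.ball p.1 p.2.1) / ENNReal.ofReal (p.2.1 ^ t) with hR
  set S : ℝ≥0∞ := ⨆ p, R p with hS
  have hpow : ∀ u : ℝ, 0 < u → 0 < ENNReal.ofReal (u ^ t) := fun u hu =>
    ENNReal.ofReal_pos.2 (Real.rpow_pos_of_pos hu t)
  have hSle : S ≤ ENNReal.ofReal C := by
    refine iSup_le fun p => ?_
    refine ENNReal.div_le_of_le_mul ?_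
    rw [← ENNReal.ofReal_mul' (Real.rpow_nonneg p.2.2.1.le t)]
    exact hfr p.1 p.2.1 p.2.2.1
  have hStop : S ≠ ⊤ := ne_top_of_le_ne_top ENNReal.ofReal_ne_top hSle
  have hSpos : S ≠ 0 := by
    have hex : ∃ y : E N, μ (Metric.ball y u₀) ≠ 0 := by
      by_contra hcon
      push Not at hcon
      apply hμ
      rw [← Measure.measure_univ_eq_zero]
      refine measure_null_of_locally_null _ fun y _ => ?_
      exact ⟨Metric.ball y u₀, mem_nhdsWithin_of_mem_nhds (Metric.ball_mem_nhds y hu₀), hcon y⟩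
    obtain ⟨y, hy⟩ := hex
    have h1 : 0 < R (y, ⟨u₀, hu₀, le_rfl⟩) := ENNReal.div_pos hy ENNReal.ofReal_ne_top
    exact (lt_of_lt_of_le h1 (le_iSup R _)).ne'
  obtain ⟨p, hp⟩ := lt_iSup_iff.1 (ENNReal.half_lt_self hSpos hStop)
  obtain ⟨x, ⟨l, hl0, hlu⟩⟩ := p
  simp only [hR] at hp
  have hSle2 : S ≤ 2 * (μ (Metric.ball x l) / ENNReal.ofReal (l ^ t)) := by
    have := ENNReal.div_le_iff_le_mul (a := S) (b := 2) (c := μ (Metric.ball x l) / ENNReal.ofReal (l ^ t))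
      (Or.inl (by norm_num)) (Or.inl (by norm_num))
    rw [mul_comm]
    exact this.1 hp.le
  refine ⟨x, l, hl0, hlu, ?_, fun y u hu hul => ?_⟩
  · rw [pos_iff_ne_zero]
    intro h0
    rw [h0, ENNReal.zero_div] at hp
    exact absurd hp (by simp)
  · have h1 : R (y, ⟨u, hu, hul.trans hlu⟩) ≤ S := le_iSup R _
    simp only [hR] at h1
    have h2 : μ (Metric.ball y u) ≤ S * ENNReal.ofReal (u ^ t) :=
      (ENNReal.div_le_iff_le_mul (Or.inl (hpow u hu).ne') (Or.inl ENNReal.ofReal_ne_top)).1 h1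
    have h3 : ENNReal.ofReal (2 * (u / l) ^ t)
        = 2 * (ENNReal.ofReal (u ^ t) / ENNReal.ofReal (l ^ t)) := by
      rw [ENNReal.ofReal_mul (by norm_num), Real.div_rpow hu.le hl0.le,
        ENNReal.ofReal_div_of_pos (Real.rpow_pos_of_pos hl0 t)]
      norm_num
    calc μ (Metric.ball y u) ≤ S * ENNReal.ofReal (u ^ t) := h2
      _ ≤ 2 * (μ (Metric.ball x l) / ENNReal.ofReal (l ^ t)) * ENNReal.ofReal (u ^ t) := by
          gcongr
      _ = ENNReal.ofReal (2 * (u / l) ^ t) * μ (Metric.ball x l) := by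
          rw [h3]
          simp only [div_eq_mul_inv]
          ring

/-- **N2 (band).**
[`K = ⋃ i : ℤ, K ∩ h ⁻¹' Ico (i ε) ((i+1) ε)`; one piece has positive measure (`measure_iUnion_null`); it is measurable;
inner regularity (`MeasurableSet.exists_lt_isCompact_of_ne_top`) gives a compact subset of positive measure.] -/
theorem exists_band {N : ℕ} (μ : Measure (E N)) [IsFiniteMeasure μ] (K : Set (E N))
    (hK : IsCompact K) (hpos : 0 < μ K) (h : E N → ℝ) (hmeas : Measurable h) (ε : ℝ) (hε : 0 < ε) :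
    ∃ K' : Set (E N), K' ⊆ K ∧ IsCompact K' ∧ 0 < μ K' ∧ ∀ p ∈ K', ∀ q ∈ K', |h p - h q| ≤ ε := by
  set B : ℤ → Set (E N) := fun i => K ∩ h ⁻¹' Set.Ico ((i : ℝ) * ε) (((i : ℝ) + 1) * ε) with hB
  have hcov : K ⊆ ⋃ i, B i := by
    intro p hp
    refine Set.mem_iUnion.2 ⟨⌊h p / ε⌋, hp, ?_, ?_⟩
    · have := Int.floor_le (h p / ε)
      rwa [le_div_iff₀ hε] at this
    · have := Int.lt_floor_add_one (h p / ε)
      rwa [div_lt_iff₀ hε] at this
  have hex : ∃ i, μ (B i) ≠ 0 := by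
    by_contra hcon
    push Not at hcon
    have : μ K ≤ 0 := (measure_mono hcov).trans (measure_iUnion_null hcon).le
    exact absurd hpos (not_lt.2 this)
  obtain ⟨i, hi⟩ := hex
  have hBm : MeasurableSet (B i) := hK.isClosed.measurableSet.inter (hmeas measurableSet_Ico)
  obtain ⟨K', hK'sub, hK'c, hK'pos⟩ :=
    hBm.exists_lt_isCompact_of_ne_top (measure_ne_top μ _) (pos_iff_ne_zero.2 hi)
  refine ⟨K', hK'sub.trans Set.inter_subset_left, hK'c, hK'pos, fun p hp q hq => ?_⟩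
  have h1 := (hK'sub hp).2
  have h2 := (hK'sub hq).2
  simp only [Set.mem_preimage, Set.mem_Ico] at h1 h2
  rw [abs_le]
  constructor <;> nlinarith [h1.1, h1.2, h2.1, h2.2]

/-- **N3 (one step).** -/
theorem exists_step {N : ℕ} (μ : Measure (E N)) [IsFiniteMeasure μ] (C t : ℝ) (hfr : IsFrost μ C t)
    (h : E N → ℝ) (hmeas : Measurable h) (K₀ : Set (E N)) (hK₀ : IsCompact K₀) (hpos : 0 < μ K₀)
    (ε u₀ : ℝ) (hε : 0 < ε) (hu₀ : 0 < u₀) :
    ∃ (K₁ : Set (E N)) (x₁ : E N) (l₁ : ℝ), K₁ ⊆ K₀ ∧ IsCompact K₁ ∧ 0 < μ K₁ ∧ 0 < l₁ ∧ l₁ ≤ u₀ ∧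
      K₁ ⊆ Metric.closedBall x₁ l₁ ∧ (∀ p ∈ K₁, ∀ q ∈ K₁, |h p - h q| ≤ ε) ∧
      ∀ (y : E N) (u : ℝ), 0 < u → u ≤ l₁ →
        μ (K₁ ∩ Metric.ball y u) ≤ ENNReal.ofReal (2 * (u / l₁) ^ t) * μ K₁ := by
  obtain ⟨K', hK'sub, hK'c, hK'pos, hosc⟩ := exists_band μ K₀ hK₀ hpos h hmeas ε hε
  have hne : μ.restrict K' ≠ 0 := by
    intro h0
    have : μ.restrict K' Set.univ = 0 := by rw [h0]; rfl
    rw [Measure.restrict_apply MeasurableSet.univ, Set.univ_inter] at this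
    exact hK'pos.ne' this
  obtain ⟨x₁, l₁, hl₁, hl₁u, hbpos, hgood⟩ :=
    exists_good_ball (μ.restrict K') hne C t (hfr.restrict K') u₀ hu₀
  have hle : μ.restrict K' (Metric.ball x₁ l₁) ≤ μ (K' ∩ Metric.closedBall x₁ l₁) := by
    rw [Measure.restrict_apply Metric.isOpen_ball.measurableSet, Set.inter_comm]
    exact measure_mono (Set.inter_subset_inter_right _ Metric.ball_subset_closedBall)
  refine ⟨K' ∩ Metric.closedBall x₁ l₁, x₁, l₁, Set.inter_subset_left.trans hK'sub,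
    hK'c.inter_right Metric.isClosed_closedBall, lt_of_lt_of_le hbpos hle, hl₁, hl₁u,
    Set.inter_subset_right, fun p hp q hq => hosc p hp.1 q hq.1, fun y u hu hul => ?_⟩
  calc μ (K' ∩ Metric.closedBall x₁ l₁ ∩ Metric.ball y u)
      ≤ μ.restrict K' (Metric.ball y u) := by
        rw [Measure.restrict_apply Metric.isOpen_ball.measurableSet, Set.inter_comm _ K']
        exact measure_mono (Set.inter_subset_inter_left _ Set.inter_subset_left)
    _ ≤ ENNReal.ofReal (2 * (u / l₁) ^ t) * μ.restrict K' (Metric.ball x₁ l₁) := hgood y u hu hul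
    _ ≤ ENNReal.ofReal (2 * (u / l₁) ^ t) * μ (K' ∩ Metric.closedBall x₁ l₁) := by gcongr

/-- **N5 (rescaling).**
[`σ := (μ K₁)⁻¹ • (μ.restrict K₁).map (fun y => (2 l₁)⁻¹ • (y - x))`.  Mass one.  Carrier: for `y ∈ K₁`,
`‖y - x‖ ≤ 2 l₁` (both in `closedBall x₁ l₁`) and `x + (2 l₁) • X = y`.  The preimage of `ball Y u` is
`ball (x + (2 l₁) • Y) (2 l₁ u)`; if `u ≤ 1/2` use `hgood` with radius `2 l₁ u ≤ l₁`: bound `2 (2u)^t = 2^(t+1) u^t`;
if `u > 1/2`: `σ ≤ 1 ≤ (2u)^t ≤ 2^(t+1) u^t` (`0 ≤ t`).] -/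
theorem exists_rescaled {N : ℕ} (μ : Measure (E N)) [IsFiniteMeasure μ] (t : ℝ) (ht : 0 ≤ t)
    (K₁ : Set (E N)) (hK₁ : IsCompact K₁) (hpos : 0 < μ K₁) (x₁ x : E N) (l₁ : ℝ) (hl₁ : 0 < l₁)
    (hsub : K₁ ⊆ Metric.closedBall x₁ l₁) (hx : x ∈ K₁)
    (hgood : ∀ (y : E N) (u : ℝ), 0 < u → u ≤ l₁ →
      μ (K₁ ∩ Metric.ball y u) ≤ ENNReal.ofReal (2 * (u / l₁) ^ t) * μ K₁) :
    ∃ σ : Measure (E N), IsProbabilityMeasure σ ∧
      σ {X | ¬ (‖X‖ ≤ 1 ∧ x + (2 * l₁) • X ∈ K₁)} = 0 ∧ IsFrost σ (2 ^ (t + 1)) t := by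
  have h2l : 0 < 2 * l₁ := by positivity
  set T : E N → E N := fun y => (2 * l₁)⁻¹ • (y - x) with hT
  have hTc : Continuous T := by
    simp only [hT]
    fun_prop
  have hTm : Measurable T := hTc.measurable
  have hinv : ∀ y, x + (2 * l₁) • T y = y := by
    intro y
    simp only [hT, smul_smul]
    rw [mul_inv_cancel₀ h2l.ne', one_smul]
    abel
  have hKtop : μ K₁ ≠ ⊤ := measure_ne_top μ _
  set σ : Measure (E N) := (μ K₁)⁻¹ • (μ.restrict K₁).map T with hσ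
  have happ : ∀ A : Set (E N), MeasurableSet A → σ A = (μ K₁)⁻¹ * μ (K₁ ∩ T ⁻¹' A) := by
    intro A hA
    rw [hσ, Measure.smul_apply, smul_eq_mul, Measure.map_apply hTm hA,
      Measure.restrict_apply (hTm hA), Set.inter_comm]
  have hprob : IsProbabilityMeasure σ := ⟨by
    rw [happ _ MeasurableSet.univ, Set.preimage_univ, Set.inter_univ]
    exact ENNReal.inv_mul_cancel hpos.ne' hKtop⟩
  refine ⟨σ, hprob, ?_, ?_⟩
  · have hcl : IsClosed {X : E N | ‖X‖ ≤ 1 ∧ x + (2 * l₁) • X ∈ K₁} := by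
      have h1 : IsClosed {X : E N | ‖X‖ ≤ 1} := isClosed_le continuous_norm continuous_const
      have h2 : IsClosed ((fun X : E N => x + (2 * l₁) • X) ⁻¹' K₁) :=
        hK₁.isClosed.preimage (by fun_prop)
      exact h1.inter h2
    have hm : MeasurableSet {X : E N | ¬ (‖X‖ ≤ 1 ∧ x + (2 * l₁) • X ∈ K₁)} :=
      hcl.measurableSet.compl
    rw [happ _ hm]
    have hempty : K₁ ∩ T ⁻¹' {X : E N | ¬ (‖X‖ ≤ 1 ∧ x + (2 * l₁) • X ∈ K₁)} = ∅ := by
      rw [Set.eq_empty_iff_forall_notMem]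
      rintro y ⟨hy, hyT⟩
      apply hyT
      refine ⟨?_, by rw [hinv y]; exact hy⟩
      have h1 : dist y x₁ ≤ l₁ := hsub hy
      have h2 : dist x x₁ ≤ l₁ := hsub hx
      have h3 : ‖y - x‖ ≤ 2 * l₁ := by
        rw [← dist_eq_norm]
        calc dist y x ≤ dist y x₁ + dist x₁ x := dist_triangle _ _ _
          _ ≤ l₁ + l₁ := add_le_add h1 (by rwa [dist_comm])
          _ = 2 * l₁ := by ring
      simp only [hT]
      rw [norm_smul, Real.norm_eq_abs, abs_of_pos (inv_pos.2 h2l), inv_mul_le_iff₀ h2l, mul_one]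
      exact h3
    rw [hempty]
    simp
  · intro Y u hu
    have hpre : T ⁻¹' Metric.ball Y u = Metric.ball (x + (2 * l₁) • Y) (2 * l₁ * u) := by
      ext y
      simp only [Set.mem_preimage, Metric.mem_ball, dist_eq_norm]
      have h1 : y - (x + (2 * l₁) • Y) = (2 * l₁) • (T y - Y) := by
        rw [smul_sub]
        have := hinv y
        calc y - (x + (2 * l₁) • Y) = (x + (2 * l₁) • T y) - (x + (2 * l₁) • Y) := by rw [this]
          _ = (2 * l₁) • T y - (2 * l₁) • Y := by abel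
      rw [h1, norm_smul, Real.norm_eq_abs, abs_of_pos h2l]
      exact (mul_lt_mul_iff_right₀ h2l).symm
    rw [happ _ Metric.isOpen_ball.measurableSet, hpre]
    have h2u : (2 : ℝ) ^ (t + 1) * u ^ t = 2 * (2 * u) ^ t := by
      rw [Real.rpow_add (by norm_num), Real.rpow_one, Real.mul_rpow (by norm_num) hu.le]
      ring
    rcases le_or_gt u (1 / 2) with hsmall | hlarge
    · have h1 := hgood (x + (2 * l₁) • Y) (2 * l₁ * u) (by positivity) (by nlinarith)
      have h3 : 2 * l₁ * u / l₁ = 2 * u := by field_simp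
      rw [h3] at h1
      calc (μ K₁)⁻¹ * μ (K₁ ∩ Metric.ball (x + (2 * l₁) • Y) (2 * l₁ * u))
          ≤ (μ K₁)⁻¹ * (ENNReal.ofReal (2 * (2 * u) ^ t) * μ K₁) := by gcongr
        _ = ENNReal.ofReal (2 * (2 * u) ^ t) * ((μ K₁)⁻¹ * μ K₁) := by ring
        _ = ENNReal.ofReal ((2 : ℝ) ^ (t + 1) * u ^ t) := by
            rw [ENNReal.inv_mul_cancel hpos.ne' hKtop, mul_one, h2u]
    · have h1 : (μ K₁)⁻¹ * μ (K₁ ∩ Metric.ball (x + (2 * l₁) • Y) (2 * l₁ * u)) ≤ 1 := by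
        calc (μ K₁)⁻¹ * μ (K₁ ∩ Metric.ball (x + (2 * l₁) • Y) (2 * l₁ * u))
            ≤ (μ K₁)⁻¹ * μ K₁ := by gcongr; exact Set.inter_subset_left
          _ = 1 := ENNReal.inv_mul_cancel hpos.ne' hKtop
      refine h1.trans ?_
      rw [← ENNReal.ofReal_one]
      refine ENNReal.ofReal_le_ofReal ?_
      rw [h2u]
      have h4 : 1 ≤ (2 * u) ^ t := Real.one_le_rpow (by linarith) ht
      linarith

/-- dependent choice in the form used below -/
theorem exists_seq_rel {α : Type*} (P : ℕ → α → Prop) (R : α → α → Prop) (h0 : ∃ a, P 0 a)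
    (hstep : ∀ j a, P j a → ∃ b, P (j + 1) b ∧ R a b) :
    ∃ f : ℕ → α, (∀ j, P j (f j)) ∧ ∀ j, R (f j) (f (j + 1)) := by
  classical
  obtain ⟨a0, ha0⟩ := h0
  choose! g hg using hstep
  let f : ℕ → α := fun j => Nat.rec a0 (fun j a => g j a) j
  have hf : ∀ j, P j (f j) := by
    intro j
    induction j with
    | zero => exact ha0
    | succ j ih => exact (hg j _ ih).1
  exact ⟨f, hf, fun j => (hg j _ (hf j)).2⟩

/-- **The nested sup trick.** -/
theorem exists_nested {N : ℕ} (μ : Measure (E N)) [IsFiniteMeasure μ] (K : Set (E N))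
    (hK : IsCompact K) (hpos : 0 < μ K) (C t : ℝ) (ht : 0 ≤ t) (hfr : IsFrost μ C t)
    (h : E N → ℝ) (hmeas : Measurable h) :
    ∃ (x : E N) (Kj : ℕ → Set (E N)) (l : ℕ → ℝ) (σ : ℕ → Measure (E N)),
      (∀ j, IsCompact (Kj j)) ∧ (∀ j, Kj j ⊆ K) ∧ (∀ j, Kj (j + 1) ⊆ Kj j) ∧ (∀ j, x ∈ Kj j) ∧
      (∀ j, ∀ p ∈ Kj j, |h p - h x| ≤ 1 / ((j : ℝ) + 1)) ∧
      (∀ j, 0 < l j) ∧ Tendsto l atTop (𝓝 0) ∧
      (∀ j, IsProbabilityMeasure (σ j)) ∧
      (∀ j, σ j {X | ¬ (‖X‖ ≤ 1 ∧ x + l j • X ∈ Kj j)} = 0) ∧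
      (∀ j, IsFrost (σ j) (2 ^ (t + 1)) t) := by
  let P : ℕ → Set (E N) × E N × ℝ → Prop := fun j a =>
    a.1 ⊆ K ∧ IsCompact a.1 ∧ 0 < μ a.1 ∧ 0 < a.2.2 ∧ a.2.2 ≤ (1 / 2 : ℝ) ^ j ∧
      a.1 ⊆ Metric.closedBall a.2.1 a.2.2 ∧
      (∀ p ∈ a.1, ∀ q ∈ a.1, |h p - h q| ≤ 1 / ((j : ℝ) + 1)) ∧
      ∀ (y : E N) (u : ℝ), 0 < u → u ≤ a.2.2 →
        μ (a.1 ∩ Metric.ball y u) ≤ ENNReal.ofReal (2 * (u / a.2.2) ^ t) * μ a.1
  obtain ⟨f, hf, hR⟩ := exists_seq_rel P (fun a b => b.1 ⊆ a.1)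
    (by
      obtain ⟨K₁, x₁, l₁, h1, h2, h3, h4, h5, h6, h7, h8⟩ := exists_step μ C t hfr h hmeas K hK hpos
        (1 / (((0 : ℕ) : ℝ) + 1)) ((1 / 2 : ℝ) ^ 0) (by positivity) (by positivity)
      exact ⟨(K₁, x₁, l₁), h1, h2, h3, h4, h5, h6, h7, h8⟩)
    (by
      intro j a ha
      obtain ⟨K₁, x₁, l₁, h1, h2, h3, h4, h5, h6, h7, h8⟩ := exists_step μ C t hfr h hmeas a.1
        ha.2.1 ha.2.2.1 (1 / (((j + 1 : ℕ) : ℝ) + 1)) ((1 / 2 : ℝ) ^ (j + 1)) (by positivity)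
        (by positivity)
      exact ⟨(K₁, x₁, l₁), ⟨h1.trans ha.1, h2, h3, h4, h5, h6, h7, h8⟩, h1⟩)
  obtain ⟨x, hx⟩ := IsCompact.nonempty_iInter_of_sequence_nonempty_isCompact_isClosed
    (fun j => (f j).1) hR (fun j => nonempty_of_measure_ne_zero (hf j).2.2.1.ne') (hf 0).2.1
    (fun j => (hf j).2.1.isClosed)
  rw [Set.mem_iInter] at hx
  choose σ hσ1 hσ2 hσ3 using fun j => exists_rescaled μ t ht (f j).1 (hf j).2.1 (hf j).2.2.1
    (f j).2.1 x (f j).2.2 (hf j).2.2.2.1 (hf j).2.2.2.2.2.1 (hx j) (hf j).2.2.2.2.2.2.2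
  refine ⟨x, fun j => (f j).1, fun j => 2 * (f j).2.2, σ, fun j => (hf j).2.1, fun j => (hf j).1, hR,
    hx, fun j p hp => (hf j).2.2.2.2.2.2.1 p hp x (hx j), fun j => by
      have := (hf j).2.2.2.1
      positivity, ?_, hσ1, hσ2, hσ3⟩
  have h0 : Tendsto (fun j : ℕ => 2 * (1 / 2 : ℝ) ^ j) atTop (𝓝 (2 * 0)) :=
    (tendsto_pow_atTop_nhds_zero_of_lt_one (by norm_num) (by norm_num)).const_mul _
  rw [mul_zero] at h0
  refine squeeze_zero (fun j => ?_) (fun j => ?_) h0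
  · have := (hf j).2.2.2.1
    positivity
  · have := (hf j).2.2.2.2.1
    linarith

end Claimed.Agent.R322.Haus
end

/- ===== packed: Claimed.Agent.R322.Haus.Span ===== -/
section
/-!
# Haus (d): the spanning lemma

A measure of mass `≥ c` carried by a subset `A` of the unit ball, with `σ (B_u) ≤ C u^t`, `t > k - 1`, has `k` quantitatively
independent points in `A`; the constant depends only on `N k t c C`.
-/

set_option autoImplicit false

open scoped ENNReal NNReal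
open MeasureTheory Filter Topology

namespace Claimed.Agent.R322.Haus

/-- the covering constant -/
noncomputable def Acov (d : ℕ) : ℝ := (4 * (d : ℝ) + 7) ^ d

/-- the Euclidean norm is at most the sum of the absolute values of the coordinates -/
theorem spn_norm_le_sum {d : ℕ} (x : E d) : ‖x‖ ≤ ∑ i, |x i| := by
  have h1 : x = ∑ i, (x i) • EuclideanSpace.single i (1 : ℝ) := by
    ext j
    simp [Finset.sum_apply, Pi.single_apply]
  calc ‖x‖ = ‖∑ i, (x i) • EuclideanSpace.single i (1 : ℝ)‖ := by rw [← h1]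
    _ ≤ ∑ i, ‖(x i) • EuclideanSpace.single i (1 : ℝ)‖ := norm_sum_le _ _
    _ = ∑ i, |x i| := by
        refine Finset.sum_congr rfl fun i _ => ?_
        rw [norm_smul, PiLp.norm_single, norm_one, mul_one, Real.norm_eq_abs]

theorem spn_abs_coord_le {d : ℕ} (x : E d) (i : Fin d) : |x i| ≤ ‖x‖ := by
  simpa using PiLp.norm_apply_le x i

/-- **S1 (grid covering).**
[`h := δ / (d + 1)`, `M := ⌈2 / h⌉₊`; `F :=` image of `Fintype.piFinset fun _ => Finset.Icc (-M : ℤ) M` under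
`j ↦ WithLp.toLp 2 fun i => h * j i`.  For `‖a‖ ≤ 2`: `|a i| ≤ 2`, `j i := ⌊a i / h⌋`, `|a i - h j i| < h`,
`‖a - g‖ ≤ ∑ |a i - g i| ≤ d h < δ`.  `card ≤ (2 M + 1)^d`, `2 M + 1 ≤ (4 d + 7) / δ`.] -/
theorem exists_grid_cover (d : ℕ) (δ : ℝ) (hδ : 0 < δ) (hδ1 : δ ≤ 1) :
    ∃ F : Finset (E d), (F.card : ℝ) ≤ Acov d * δ ^ (-(d : ℝ)) ∧
      ∀ a : E d, ‖a‖ ≤ 2 → ∃ g ∈ F, ‖a - g‖ < δ := by
  classical
  set h : ℝ := δ / ((d : ℝ) + 1) with hh
  have hd1 : (0 : ℝ) < (d : ℝ) + 1 := by positivity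
  have hh0 : 0 < h := by positivity
  set M : ℕ := ⌈2 / h⌉₊ with hM
  have hM1 : 2 / h ≤ (M : ℝ) := Nat.le_ceil _
  have hM2 : (M : ℝ) < 2 / h + 1 := Nat.ceil_lt_add_one (by positivity)
  set G : (Fin d → ℤ) → E d := fun j => WithLp.toLp 2 fun i => h * (j i : ℝ) with hG
  refine ⟨(Fintype.piFinset fun _ : Fin d => Finset.Icc (-(M : ℤ)) (M : ℤ)).image G, ?_, ?_⟩
  · have hc1 : (((Fintype.piFinset fun _ : Fin d => Finset.Icc (-(M : ℤ)) (M : ℤ)).image G).card : ℝ)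
        ≤ ((2 * (M : ℝ) + 1)) ^ d := by
      have h1 : ((Fintype.piFinset fun _ : Fin d => Finset.Icc (-(M : ℤ)) (M : ℤ)).image G).card
          ≤ (2 * M + 1) ^ d := by
        refine Finset.card_image_le.trans ?_
        rw [Fintype.card_piFinset]
        have : (Finset.Icc (-(M : ℤ)) (M : ℤ)).card = 2 * M + 1 := by
          rw [Int.card_Icc]
          omega
        rw [Finset.prod_const, this, Finset.card_univ, Fintype.card_fin]
      exact_mod_cast h1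
    have hc2 : 2 * (M : ℝ) + 1 ≤ (4 * (d : ℝ) + 7) / δ := by
      have h2 : 2 / h = 2 * ((d : ℝ) + 1) / δ := by
        rw [hh]; field_simp
      rw [h2] at hM2
      rw [le_div_iff₀ hδ]
      have h3 : (M : ℝ) * δ < 2 * ((d : ℝ) + 1) + δ := by
        have := mul_lt_mul_of_pos_right hM2 hδ
        rw [add_mul, div_mul_cancel₀ _ hδ.ne', one_mul] at this
        exact this
      nlinarith
    calc _ ≤ ((2 * (M : ℝ) + 1)) ^ d := hc1
      _ ≤ ((4 * (d : ℝ) + 7) / δ) ^ d := pow_le_pow_left₀ (by positivity) hc2 d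
      _ = Acov d * δ ^ (-(d : ℝ)) := by
          rw [div_pow, Acov, Real.rpow_neg hδ.le, Real.rpow_natCast, div_eq_mul_inv]
  · intro a ha
    set j : Fin d → ℤ := fun i => ⌊a i / h⌋ with hj
    refine ⟨G j, Finset.mem_image_of_mem _ ?_, ?_⟩
    · rw [Fintype.mem_piFinset]
      intro i
      have h1 : |a i| ≤ 2 := (spn_abs_coord_le a i).trans ha
      rw [abs_le] at h1
      rw [Finset.mem_Icc]
      constructor
      · rw [hj, Int.le_floor]
        push_cast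
        rw [le_div_iff₀ hh0]
        have : 2 ≤ (M : ℝ) * h := by rwa [div_le_iff₀ hh0] at hM1
        linarith [h1.1]
      · have h2 : ((⌊a i / h⌋ : ℤ) : ℝ) ≤ (M : ℝ) := by
          refine (Int.floor_le _).trans (le_trans ?_ hM1)
          exact div_le_div_of_nonneg_right h1.2 hh0.le
        exact_mod_cast h2
    · have hcoord : ∀ i, |(a - G j) i| ≤ h := by
        intro i
        have h1 : (a - G j) i = a i - h * (⌊a i / h⌋ : ℝ) := by
          simp [hG, hj]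
        rw [h1]
        have h2 := Int.floor_le (a i / h)
        have h3 := Int.lt_floor_add_one (a i / h)
        rw [le_div_iff₀ hh0] at h2
        rw [div_lt_iff₀ hh0] at h3
        rw [abs_le]
        constructor <;> nlinarith
      calc ‖a - G j‖ ≤ ∑ i, |(a - G j) i| := spn_norm_le_sum _
        _ ≤ ∑ _i : Fin d, h := Finset.sum_le_sum fun i _ => hcoord i
        _ = d * h := by simp
        _ < δ := by
            rw [hh, ← mul_div_assoc, div_lt_iff₀ hd1]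
            nlinarith

/-- **S2 (neighbourhood of a subspace).**
[`d := finrank W`, `e := (stdOrthonormalBasis ℝ W).repr : W ≃ₗᵢ[ℝ] E d`.  If `‖X‖ ≤ 1`, `w ∈ W`, `‖X - w‖ < δ ≤ 1` then `‖w‖ ≤ 2`;
`g ∈ F` with `‖e w - g‖ < δ`; `‖X - e.symm g‖ < 2 δ`.  So the set is covered by the balls `ball (e.symm g) (2 δ)`, `g ∈ F`
(`measure_biUnion_finset_le`), each of measure `≤ ofReal (C (2δ)^t)`.] -/
theorem measure_near_subspace_le {N : ℕ} (W : Submodule ℝ (E N)) (σ : Measure (E N)) (C t : ℝ)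
    (hC : 0 ≤ C) (hfr : IsFrost σ C t) (δ : ℝ) (hδ : 0 < δ) (hδ1 : δ ≤ 1) :
    σ {X | ‖X‖ ≤ 1 ∧ ∃ w ∈ W, ‖X - w‖ < δ} ≤
      ENNReal.ofReal (Acov (Module.finrank ℝ W) * C * 2 ^ t * δ ^ (t - Module.finrank ℝ W)) := by
  classical
  set d : ℕ := Module.finrank ℝ W with hd
  obtain ⟨F, hF1, hF2⟩ := exists_grid_cover d δ hδ hδ1
  let e : W ≃ₗᵢ[ℝ] E d := (stdOrthonormalBasis ℝ W).repr
  have hcov : {X : E N | ‖X‖ ≤ 1 ∧ ∃ w ∈ W, ‖X - w‖ < δ}
      ⊆ ⋃ g ∈ F, Metric.ball ((e.symm g : W) : E N) (2 * δ) := by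
    rintro X ⟨hX1, w, hw, hXw⟩
    have hw2 : ‖w‖ ≤ 2 := by
      calc ‖w‖ = ‖X - (X - w)‖ := by congr 1; abel
        _ ≤ ‖X‖ + ‖X - w‖ := norm_sub_le _ _
        _ ≤ 2 := by linarith
    have hew : ‖e ⟨w, hw⟩‖ ≤ 2 := by
      rw [e.norm_map]
      exact hw2
    obtain ⟨g, hg, hgd⟩ := hF2 (e ⟨w, hw⟩) hew
    refine Set.mem_iUnion₂.2 ⟨g, hg, ?_⟩
    rw [Metric.mem_ball, dist_eq_norm]
    have h1 : ‖w - ((e.symm g : W) : E N)‖ < δ := by
      have h2 : ‖(⟨w, hw⟩ : W) - e.symm g‖ = ‖e ⟨w, hw⟩ - g‖ := by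
        rw [← e.norm_map, map_sub, e.apply_symm_apply]
      have h3 : ‖(⟨w, hw⟩ : W) - e.symm g‖ = ‖w - ((e.symm g : W) : E N)‖ := rfl
      rw [← h3, h2]
      exact hgd
    calc ‖X - ((e.symm g : W) : E N)‖ = ‖(X - w) + (w - ((e.symm g : W) : E N))‖ := by
          congr 1; abel
      _ ≤ ‖X - w‖ + ‖w - ((e.symm g : W) : E N)‖ := norm_add_le _ _
      _ < 2 * δ := by linarith
  have h2δ : 0 < 2 * δ := by positivity
  calc σ {X | ‖X‖ ≤ 1 ∧ ∃ w ∈ W, ‖X - w‖ < δ}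
      ≤ σ (⋃ g ∈ F, Metric.ball ((e.symm g : W) : E N) (2 * δ)) := measure_mono hcov
    _ ≤ ∑ g ∈ F, σ (Metric.ball ((e.symm g : W) : E N) (2 * δ)) := measure_biUnion_finset_le _ _
    _ ≤ ∑ _g ∈ F, ENNReal.ofReal (C * (2 * δ) ^ t) := Finset.sum_le_sum fun g _ => hfr _ _ h2δ
    _ = ENNReal.ofReal ((F.card : ℝ) * (C * (2 * δ) ^ t)) := by
        rw [Finset.sum_const, nsmul_eq_mul, ENNReal.ofReal_mul (Nat.cast_nonneg _),
          ENNReal.ofReal_natCast]
    _ ≤ ENNReal.ofReal (Acov d * C * 2 ^ t * δ ^ (t - d)) := by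
        refine ENNReal.ofReal_le_ofReal ?_
        have h3 : 0 ≤ C * (2 * δ) ^ t := mul_nonneg hC (Real.rpow_nonneg h2δ.le t)
        calc (F.card : ℝ) * (C * (2 * δ) ^ t) ≤ (Acov d * δ ^ (-(d : ℝ))) * (C * (2 * δ) ^ t) :=
              mul_le_mul_of_nonneg_right hF1 h3
          _ = Acov d * C * 2 ^ t * δ ^ (t - d) := by
              rw [Real.mul_rpow (by norm_num) hδ.le, sub_eq_add_neg, Real.rpow_add hδ]
              ring

theorem spn_Acov_mono {d k : ℕ} (h : d ≤ k) : Acov d ≤ Acov k := by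
  unfold Acov
  have h1 : (d : ℝ) ≤ k := by exact_mod_cast h
  calc (4 * (d : ℝ) + 7) ^ d ≤ (4 * (k : ℝ) + 7) ^ d :=
        pow_le_pow_left₀ (by positivity) (by linarith) d
    _ ≤ (4 * (k : ℝ) + 7) ^ k := pow_le_pow_right₀ (by
        have : (0 : ℝ) ≤ k := Nat.cast_nonneg k
        linarith) h

theorem spn_Acov_nonneg (d : ℕ) : 0 ≤ Acov d := by
  unfold Acov
  positivity

/-- **S3 (a point far from a small subspace).**
[`Acov d ≤ Acov k` for `d ≤ k`; for `δ₀ ≤ 1`, `d ≤ k - 1`: `δ₀^(t - d) ≤ δ₀^(t - (k - 1))`; choose `δ₀ ∈ (0, 1]` with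
`Acov k * C * 2^t * δ₀^(t - (k - 1)) < c` (the exponent is positive: `Real.tendsto_rpow...`/ explicit
`δ₀ = min 1 ((c / (2 (Acov k C 2^t + 1)))^(1/(t-k+1)))`).  If every `X ∈ A` were `δ₀`-close to `W`, then
`univ ⊆ Aᶜ ∪ {near}` and `ofReal c ≤ σ univ ≤ 0 + σ {near} < ofReal c`.] -/
theorem exists_far_point (N k : ℕ) (t c C : ℝ) (ht : (k : ℝ) - 1 < t) (hc : 0 < c) (hC : 0 ≤ C) :
    ∃ δ₀ : ℝ, 0 < δ₀ ∧ δ₀ ≤ 1 ∧ ∀ (σ : Measure (E N)) (A : Set (E N)), IsFrost σ C t →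
      ENNReal.ofReal c ≤ σ Set.univ → σ Aᶜ = 0 → (∀ X ∈ A, ‖X‖ ≤ 1) →
      ∀ W : Submodule ℝ (E N), Module.finrank ℝ W + 1 ≤ k → ∃ X ∈ A, ∀ w ∈ W, δ₀ ≤ ‖X - w‖ := by
  set A₀ : ℝ := Acov k * C * 2 ^ t with hA₀
  have hA₀0 : 0 ≤ A₀ := mul_nonneg (mul_nonneg (spn_Acov_nonneg k) hC) (Real.rpow_nonneg (by norm_num) t)
  set e : ℝ := t - ((k : ℝ) - 1) with he
  have he0 : 0 < e := by rw [he]; linarith
  set b : ℝ := c / (A₀ + 1) with hb
  have hb0 : 0 < b := by positivity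
  set δ₀ : ℝ := min 1 (b ^ (1 / e)) with hδ₀
  have hδ₀pos : 0 < δ₀ := lt_min one_pos (Real.rpow_pos_of_pos hb0 _)
  have hδ₀1 : δ₀ ≤ 1 := min_le_left _ _
  have hpow : δ₀ ^ e ≤ b := by
    calc δ₀ ^ e ≤ (b ^ (1 / e)) ^ e := Real.rpow_le_rpow hδ₀pos.le (min_le_right _ _) he0.le
      _ = b := by
          rw [← Real.rpow_mul hb0.le, one_div, inv_mul_cancel₀ he0.ne', Real.rpow_one]
  have hlt : A₀ * δ₀ ^ e < c := by
    calc A₀ * δ₀ ^ e ≤ A₀ * b := mul_le_mul_of_nonneg_left hpow hA₀0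
      _ < (A₀ + 1) * b := by nlinarith
      _ = c := by rw [hb]; field_simp
  refine ⟨δ₀, hδ₀pos, hδ₀1, fun σ A hfr hmass hA hA1 W hW => ?_⟩
  by_contra hcon
  push Not at hcon
  have hsub : A ⊆ {X : E N | ‖X‖ ≤ 1 ∧ ∃ w ∈ W, ‖X - w‖ < δ₀} := fun X hX =>
    ⟨hA1 X hX, hcon X hX⟩
  have h1 : σ Set.univ ≤ σ A := by
    calc σ Set.univ = σ (A ∪ Aᶜ) := by rw [Set.union_compl_self]
      _ ≤ σ A + σ Aᶜ := measure_union_le _ _
      _ = σ A := by rw [hA, add_zero]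
  have h2 := measure_near_subspace_le W σ C t hC hfr δ₀ hδ₀pos hδ₀1
  have hdk : Module.finrank ℝ W ≤ k := by omega
  have hdk' : ((Module.finrank ℝ W : ℕ) : ℝ) ≤ (k : ℝ) - 1 := by
    have : ((Module.finrank ℝ W + 1 : ℕ) : ℝ) ≤ (k : ℝ) := by exact_mod_cast hW
    push_cast at this
    linarith
  have h3 : Acov (Module.finrank ℝ W) * C * 2 ^ t * δ₀ ^ (t - Module.finrank ℝ W) ≤ A₀ * δ₀ ^ e := by
    have h4 : δ₀ ^ (t - Module.finrank ℝ W) ≤ δ₀ ^ e :=
      Real.rpow_le_rpow_of_exponent_ge hδ₀pos hδ₀1 (by rw [he]; linarith)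
    have h5 : Acov (Module.finrank ℝ W) * C * 2 ^ t ≤ A₀ := by
      rw [hA₀]
      have := spn_Acov_mono hdk
      have h6 : (0 : ℝ) ≤ 2 ^ t := Real.rpow_nonneg (by norm_num) t
      gcongr
    exact mul_le_mul h5 h4 (Real.rpow_nonneg hδ₀pos.le _) hA₀0
  have h7 : ENNReal.ofReal c ≤ ENNReal.ofReal (A₀ * δ₀ ^ e) :=
    hmass.trans (h1.trans ((measure_mono hsub).trans (h2.trans (ENNReal.ofReal_le_ofReal h3))))
  rcases ENNReal.ofReal_le_ofReal_iff'.1 h7 with h | h <;> linarith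

/-- **S4 (adding a vector).**
[`S := ‖∑ a_j z_j + α X‖` (`Fin.sum_univ_castSucc`, `Fin.snoc_castSucc`, `Fin.snoc_last`).  `δ₀ |α| ≤ S` (if `α ≠ 0`,
`S = |α| ‖X - w‖` with `w = -α⁻¹ ∑ a_j z_j ∈ span`).  `‖∑ a_j z_j‖ ≤ S + |α| ≤ 2 S / δ₀`, so `δ |a_j| ≤ 2 S / δ₀`.] -/
theorem QInd.snoc {N i : ℕ} {δ δ₀ : ℝ} (hδ : 0 ≤ δ) (hδ1 : δ ≤ 1) (hδ₀ : 0 < δ₀) (hδ₀1 : δ₀ ≤ 1)
    {z : Fin i → E N} (hz : QInd δ z) {X : E N} (hX1 : ‖X‖ ≤ 1)
    (hX : ∀ w ∈ Submodule.span ℝ (Set.range z), δ₀ ≤ ‖X - w‖) :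
    QInd (δ * δ₀ / 2) (Fin.snoc (α := fun _ => E N) z X) := by
  intro a j
  set v : E N := ∑ j : Fin i, a (Fin.castSucc j) • z j with hv
  set α : ℝ := a (Fin.last i) with hα
  have hsum : ∑ j, a j • (Fin.snoc (α := fun _ => E N) z X : Fin (i + 1) → E N) j = v + α • X := by
    rw [Fin.sum_univ_castSucc]
    simp [hv, hα]
  rw [hsum]
  set S : ℝ := ‖v + α • X‖ with hS
  have hS0 : 0 ≤ S := norm_nonneg _
  have hvmem : v ∈ Submodule.span ℝ (Set.range z) :=
    Submodule.sum_mem _ fun j _ => Submodule.smul_mem _ _ (Submodule.subset_span ⟨j, rfl⟩)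
  have h1 : δ₀ * |α| ≤ S := by
    by_cases hα0 : α = 0
    · rw [hα0]; simpa using hS0
    · have h2 : v + α • X = α • (X - (-(α⁻¹)) • v) := by
        rw [smul_sub, smul_smul, mul_neg, mul_inv_cancel₀ hα0]
        simp [add_comm]
      have h3 := hX _ (Submodule.smul_mem _ (-(α⁻¹)) hvmem)
      rw [hS, h2, norm_smul, Real.norm_eq_abs, mul_comm]
      exact mul_le_mul_of_nonneg_left h3 (abs_nonneg _)
  have h4 : ‖v‖ ≤ S + |α| := by
    calc ‖v‖ = ‖(v + α • X) - α • X‖ := by congr 1; abel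
      _ ≤ ‖v + α • X‖ + ‖α • X‖ := norm_sub_le _ _
      _ ≤ S + |α| := by
          rw [norm_smul, Real.norm_eq_abs]
          have : |α| * ‖X‖ ≤ |α| * 1 := mul_le_mul_of_nonneg_left hX1 (abs_nonneg _)
          linarith
  have h5 : δ₀ * ‖v‖ ≤ 2 * S := by nlinarith [abs_nonneg α]
  refine Fin.lastCases ?_ (fun j' => ?_) j
  · have h6 : 0 ≤ δ₀ * |α| := by positivity
    calc δ * δ₀ / 2 * |a (Fin.last i)| = (δ / 2) * (δ₀ * |α|) := by rw [hα]; ring
      _ ≤ 1 * (δ₀ * |α|) := mul_le_mul_of_nonneg_right (by linarith) h6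
      _ ≤ S := by linarith
  · have h6 := hz (fun j => a (Fin.castSucc j)) j'
    have h7 : δ * |a (Fin.castSucc j')| ≤ ‖v‖ := h6
    calc δ * δ₀ / 2 * |a (Fin.castSucc j')| = δ₀ * (δ * |a (Fin.castSucc j')|) / 2 := by ring
      _ ≤ δ₀ * ‖v‖ / 2 := by gcongr
      _ ≤ S := by linarith

/-- **The spanning lemma.** -/
theorem exists_qind (N k : ℕ) (t c C : ℝ) (ht : (k : ℝ) - 1 < t) (hc : 0 < c) (hC : 0 ≤ C) :
    ∃ δ : ℝ, 0 < δ ∧ ∀ (σ : Measure (E N)) (A : Set (E N)), IsFrost σ C t →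
      ENNReal.ofReal c ≤ σ Set.univ → σ Aᶜ = 0 → (∀ X ∈ A, ‖X‖ ≤ 1) →
      ∃ z : Fin k → E N, (∀ i, z i ∈ A) ∧ QInd δ z := by
  obtain ⟨δ₀, hδ₀, hδ₀1, hfar⟩ := exists_far_point N k t c C ht hc hC
  refine ⟨(δ₀ / 2) ^ k, by positivity, fun σ A hfr hmass hA hA1 => ?_⟩
  have key : ∀ i : ℕ, i ≤ k → ∃ z : Fin i → E N, (∀ j, z j ∈ A) ∧ QInd ((δ₀ / 2) ^ i) z := by
    intro i
    induction i with
    | zero => exact fun _ => ⟨fun j => j.elim0, fun j => j.elim0, fun a j => j.elim0⟩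
    | succ i ih =>
      intro hi
      obtain ⟨z, hzA, hz⟩ := ih (by omega)
      have hrank : Module.finrank ℝ (Submodule.span ℝ (Set.range z)) + 1 ≤ k := by
        have := finrank_range_le_card (R := ℝ) z
        simp only [Set.finrank, Fintype.card_fin] at this
        omega
      obtain ⟨X, hXA, hX⟩ := hfar σ A hfr hmass hA hA1 _ hrank
      refine ⟨Fin.snoc (α := fun _ => E N) z X, ?_, ?_⟩
      · intro j
        refine Fin.lastCases ?_ (fun j => ?_) j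
        · simpa using hXA
        · simpa using hzA j
      · have h1 : (δ₀ / 2) ^ i ≤ 1 := pow_le_one₀ (by positivity) (by linarith)
        have := QInd.snoc (by positivity) h1 hδ₀ hδ₀1 hz (hA1 X hXA) hX
        rwa [show (δ₀ / 2) ^ i * δ₀ / 2 = (δ₀ / 2) ^ (i + 1) by ring] at this
  exact key k le_rfl

end Claimed.Agent.R322.Haus
end

/- ===== packed: Claimed.Agent.R322.Fit.Boot.Main ===== -/
section
/-!
# Row 322, Fit/Boot: interior smoothness (glue)  (architect helper137)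

`smooth_of_sol`: fix `x0`, the target order `K`, a chain of cutoffs at unit scale; choose `r` so small that the
coefficient perturbations `χ_i (Ad U x0 - Ad U (x0 + r ·))`, `i ≤ 2K+1`, are small in `A^0`; then
`χ_{2i} · resc U x0 r α ∈ A^{i+2}` by induction on `i ≤ K` (`step`).
-/

set_option autoImplicit false

open MeasureTheory Module Filter
open scoped ENNReal ContDiff Topology

namespace Claimed.Agent.R322.Fit.Boot

theorem smooth_of_sol (m n : ℕ) : ∃ ε₀ : ℝ, 0 < ε₀ ∧ ∀ (U : Fin n → E m → ℂ) (O : Set (E m)),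
    IsOpen O → (∀ α, ContDiff ℝ ((m + 3 : ℕ) : ℕ∞) (U α)) → Sol U O →
    (∀ y ∈ O, ∀ α a, ‖pdv a (U α) y‖ ≤ ε₀) →
    ∀ x0 ∈ O, ∀ (K : ℕ) (α : Fin n), ContDiffAt ℝ K (U α) x0 := by
  obtain ⟨ε₀, hε, hell⟩ := exists_ell m n
  obtain ⟨χ, hχc, hχs, hχb, hχn, hχ1⟩ := exists_chain m
  refine ⟨ε₀, hε, ?_⟩
  intro U O hO hU hsol hslope x0 hx0 K α
  obtain ⟨ρ, hρ, hball⟩ := Metric.isOpen_iff.mp hO x0 hx0
  have h23 : (2 : WithTop ℕ∞) ≤ (((m + 3 : ℕ) : ℕ∞) : WithTop ℕ∞) := by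
    have : (((2 : ℕ) : ℕ∞) : WithTop ℕ∞) ≤ (((m + 3 : ℕ) : ℕ∞) : WithTop ℕ∞) := by
      exact_mod_cast (by omega : 2 ≤ m + 3)
    exact this
  have hU2 : ∀ α, ContDiff ℝ 2 (U α) := fun α => (hU α).of_le h23
  have hU1 : ∀ α, ContDiff ℝ 1 (U α) := fun α => (hU2 α).of_le (by norm_num)
  set a0 : Matrix (Fin m) (Fin m) ℂ := Ad U x0 with ha0
  -- smallness
  have hsm : ∀ i a c, Tendsto
      (fun r : ℝ => nA 0 (fun y => χ i y * (Ad U (x0 + r • y) a c - a0 a c))) (𝓝[>] 0) (𝓝 0) := by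
    intro i a c
    refine small_scale (χ i) (fun x => Ad U x a c - a0 a c) (hχc i) (hχs i) ?_ x0 (by simp [ha0])
    refine (contDiff_Ad (k := m + 1) (fun α => ?_) a c).sub contDiff_const
    exact (hU α).of_le (by exact_mod_cast (by omega : m + 1 + 1 ≤ m + 3))
  have hsm' : ∀ i, Tendsto
      (fun r : ℝ => ENNReal.ofReal (2 ^ (K + 1) / (1 / 2)) *
        ∑ a, ∑ c, nA 0 (fun y => χ i y * (Ad U (x0 + r • y) a c - a0 a c)))
      (𝓝[>] 0) (𝓝 0) := by
    intro i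
    have h0 := tendsto_finsetSum (Finset.univ : Finset (Fin m)) fun a _ =>
      tendsto_finsetSum (Finset.univ : Finset (Fin m)) fun c _ => hsm i a c
    have := ENNReal.Tendsto.const_mul (a := ENNReal.ofReal (2 ^ (K + 1) / (1 / 2))) h0
      (Or.inr ENNReal.ofReal_ne_top)
    simpa using this
  have hev : ∀ᶠ r : ℝ in 𝓝[>] 0, ∀ i ∈ Finset.range (2 * K + 2),
      ENNReal.ofReal (2 ^ (K + 1) / (1 / 2)) *
        ∑ a, ∑ c, nA 0 (fun y => χ i y * (Ad U (x0 + r • y) a c - a0 a c)) ≤ 1 / 2 := by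
    rw [Filter.eventually_all_finset]
    intro i _
    exact (hsm' i).eventually_le_const (by norm_num)
  have hev2 : ∀ᶠ r : ℝ in 𝓝[>] 0, r < ρ / 2 :=
    (tendsto_nhdsWithin_of_tendsto_nhds tendsto_id).eventually_lt_const (by positivity)
  obtain ⟨r, ⟨hr1, hr2⟩, hr0⟩ := ((hev.and hev2).and self_mem_nhdsWithin).exists
  have hr0' : (0 : ℝ) < r := hr0
  have hrne : r ≠ 0 := hr0'.ne'
  set Ur := resc U x0 r with hUr
  have hsub : ∀ y ∈ Metric.ball (0 : E m) 2, x0 + r • y ∈ O := by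
    intro y hy
    apply hball
    rw [Metric.mem_ball, dist_eq_norm, add_sub_cancel_left, norm_smul, Real.norm_eq_abs,
      abs_of_pos hr0']
    rw [Metric.mem_ball, dist_zero_right] at hy
    nlinarith
  have hsolr : Sol Ur (Metric.ball 0 2) := hsol.resc hU2 x0 hrne hsub
  have hella : ∀ ξ : E m, 1 / 2 * ‖ξ‖ ^ 2 ≤
      ‖∑ a, ∑ c, a0 a c * ((ξ a : ℝ) : ℂ) * ((ξ c : ℝ) : ℂ)‖ :=
    hell (fun α a => pdv a (U α) x0) (fun α a => hslope x0 hx0 α a)
  -- induction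
  have ind : ∀ i, i ≤ K → ∀ α, InA (i + 2) (fun y => χ (2 * i) y * Ur α y) := by
    intro i
    induction i with
    | zero =>
      intro _ α
      refine InA.of_contDiff ?_ (hχs 0).mul_right
      have e : 0 + 2 + m + 1 = m + 3 := by omega
      rw [e]
      refine ((hχc 0).of_le (by generalize m + 3 = k; exact_mod_cast le_top)).mul ?_
      exact (contDiff_resc hU x0 r α).of_le (by norm_cast)
    | succ i ih =>
      intro hi α
      have := step i Ur (Metric.ball 0 2) hsolr (χ (2 * i)) (χ (2 * i + 1)) (χ (2 * i + 2))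
        (hχc _) (hχc _) (hχs _) (hχs _) (hχn _) (fun y hy => (hχn _ y hy).eq_of_nhds) (hχb _) a0
        (by norm_num : (0 : ℝ) < 1 / 2) hella ?_ (ih (by omega)) α
      · exact this
      · have h3 := hr1 (2 * i + 1) (Finset.mem_range.mpr (by omega))
        simp only [hUr, Ad_resc hU1 x0 hrne]
        refine le_trans (mul_le_mul_left (ENNReal.ofReal_le_ofReal ?_) _) h3
        have : (2 : ℝ) ^ (i + 1) ≤ 2 ^ (K + 1) :=
          pow_le_pow_right₀ (by norm_num) (by omega)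
        linarith
  -- conclusion
  apply contDiffAt_of_resc x0 hrne α
  have h1 : ContDiff ℝ K (fun y => χ (2 * K) y * Ur α y) :=
    ((ind K le_rfl α).contDiff).of_le (by exact_mod_cast Nat.le_add_right K 2)
  refine h1.contDiffAt.congr_of_eventuallyEq ?_
  filter_upwards [Metric.ball_mem_nhds (0 : E m) one_pos] with y hy
  rw [hχ1 _ y hy, one_mul]

/-- **Elliptic bootstrap** (the statement of `Fit/Boot.lean`). -/
theorem smooth_of_mss_pf (m n : ℕ) : ∃ (J₀ : ℕ) (ε₀ : ℝ), 2 ≤ J₀ ∧ 0 < ε₀ ∧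
    ∀ (u : E m → E n) (y₀ : E m) (σ : ℝ), 0 < σ → ContDiff ℝ J₀ u →
      (∀ y ∈ Metric.ball y₀ σ, ‖fderiv ℝ u y‖ ≤ ε₀) →
      (∀ y ∈ Metric.ball y₀ σ, mssOp u y = 0) →
      ContDiffOn ℝ ∞ u (Metric.ball y₀ σ) := by
  obtain ⟨ε₀, hε, h⟩ := smooth_of_sol m n
  refine ⟨m + 3, ε₀, by omega, hε, ?_⟩
  intro u y₀ σ _ hu hslope hmss
  have h23 : (2 : WithTop ℕ∞) ≤ ((m + 3 : ℕ) : WithTop ℕ∞) := by
    have : ((2 : ℕ) : WithTop ℕ∞) ≤ ((m + 3 : ℕ) : WithTop ℕ∞) := by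
      exact_mod_cast (by omega : 2 ≤ m + 3)
    exact this
  have hu2 : ContDiff ℝ 2 u := hu.of_le h23
  have hu1 : ContDiff ℝ 1 u := hu2.of_le (by norm_num)
  intro x hx
  rw [contDiffWithinAt_infty]
  intro K
  refine ContDiffAt.contDiffWithinAt (contDiffAt_of_cxv fun α => ?_)
  exact h (cxv u) (Metric.ball y₀ σ) Metric.isOpen_ball (fun α => contDiff_cxv hu α)
    (sol_of_mss hu2 hmss) (fun y hy α a => (norm_pdv_cxv_le hu1 a α y).trans (hslope y hy)) x hx K α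

end Claimed.Agent.R322.Fit.Boot
end

/- ===== packed: Claimed.Agent.R322.Haus.Cells ===== -/
section
/-!
# Haus (a), leaf F2: dyadic cells of `E N`
-/

set_option autoImplicit false

open scoped ENNReal NNReal
open MeasureTheory Filter Topology

namespace Claimed.Agent.R322.Haus

/-- the index of the half-open dyadic cube of side `2^{-k}` containing `x` -/
noncomputable def cell {N : ℕ} (k : ℕ) (x : E N) : Fin N → ℤ := fun i => ⌊(2 : ℝ) ^ k * x i⌋

/-- one step of the refinement: the floor at level `k` is determined by the floor at level `k+j` -/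
theorem cell_floor_aux (k j : ℕ) (t : ℝ) :
    ⌊(2 : ℝ) ^ k * t⌋ = ⌊(2 : ℝ) ^ (k + j) * t⌋ / (2 ^ j : ℤ) := by
  have h2 : (0 : ℝ) < (2 : ℝ) ^ j := by positivity
  have h := Int.floor_div_natCast ((2 : ℝ) ^ (k + j) * t) (2 ^ j)
  have h3 : (2 : ℝ) ^ (k + j) * t / ((2 ^ j : ℕ) : ℝ) = (2 : ℝ) ^ k * t := by
    push_cast
    rw [pow_add]
    field_simp
  rw [h3] at h
  rw [h]
  push_cast
  rfl

/-- [`⌊2^k x⌋ = ⌊⌊2^(k+1) x⌋ / 2⌋` (`Int.floor_div_natCast`-type lemma, or directly from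
`Int.floor_eq_iff`); induction on `k' - k`] -/
theorem cell_eq_of_le {N : ℕ} {k k' : ℕ} (hk : k ≤ k') {x y : E N} (h : cell k' x = cell k' y) :
    cell k x = cell k y := by
  obtain ⟨j, rfl⟩ := Nat.exists_eq_add_of_le hk
  funext i
  have hi := congrFun h i
  simp only [cell] at hi ⊢
  rw [cell_floor_aux k j (x i), cell_floor_aux k j (y i), hi]

/-- coordinatewise bound in a cell -/
theorem cell_abs_sub_le {N : ℕ} {k : ℕ} {x y : E N} (h : cell k x = cell k y) (i : Fin N) :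
    |x i - y i| ≤ (1 / 2 : ℝ) ^ k := by
  have hi := congrFun h i
  simp only [cell] at hi
  have h2 : (0 : ℝ) < (2 : ℝ) ^ k := by positivity
  have hx1 := Int.floor_le ((2 : ℝ) ^ k * x i)
  have hx2 := Int.lt_floor_add_one ((2 : ℝ) ^ k * x i)
  have hy1 := Int.floor_le ((2 : ℝ) ^ k * y i)
  have hy2 := Int.lt_floor_add_one ((2 : ℝ) ^ k * y i)
  rw [hi] at hx1 hx2
  have h3 : |(2 : ℝ) ^ k * (x i - y i)| ≤ 1 := by
    rw [abs_le]
    constructor <;> nlinarith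
  rw [abs_mul, abs_of_pos h2] at h3
  rw [one_div, inv_pow, ← one_div, le_div_iff₀ h2]
  linarith

/-- [`|x i - y i| ≤ 2^{-k}` for all `i`; `‖x - y‖ ≤ ∑ i, |x i - y i|` (or `EuclideanSpace.norm_eq` +
`Real.sqrt_le`)] -/
theorem dist_le_of_cell_eq {N : ℕ} {k : ℕ} {x y : E N} (h : cell k x = cell k y) :
    dist x y ≤ N * (1 / 2 : ℝ) ^ k := by
  have h1 : x - y = ∑ i, (x i - y i) • EuclideanSpace.single i (1 : ℝ) := by
    ext j
    simp [Finset.sum_apply, Pi.single_apply]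
  rw [dist_eq_norm, h1]
  calc ‖∑ i, (x i - y i) • EuclideanSpace.single i (1 : ℝ)‖
      ≤ ∑ i, ‖(x i - y i) • EuclideanSpace.single i (1 : ℝ)‖ := norm_sum_le _ _
    _ ≤ ∑ _i : Fin N, (1 / 2 : ℝ) ^ k := by
        refine Finset.sum_le_sum fun i _ => ?_
        rw [norm_smul, PiLp.norm_single, norm_one, mul_one, Real.norm_eq_abs]
        exact cell_abs_sub_le h i
    _ = N * (1 / 2 : ℝ) ^ k := by simp

theorem ediam_cell_le {N : ℕ} (k : ℕ) (a : Fin N → ℤ) :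
    Metric.ediam {y : E N | cell k y = a} ≤ ENNReal.ofReal (N * (1 / 2 : ℝ) ^ k) := by
  refine Metric.ediam_le fun x hx y hy => ?_
  rw [edist_dist]
  exact ENNReal.ofReal_le_ofReal (dist_le_of_cell_eq (hx.trans hy.symm))

/-- [`measurable_pi_iff`, `Int.measurable_floor`, coordinates are continuous] -/
theorem measurable_cell {N : ℕ} (k : ℕ) : Measurable (cell (N := N) k) := by
  refine measurable_pi_iff.2 fun i => ?_
  have h1 : Continuous fun x : E N => (2 : ℝ) ^ k * x i :=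
    continuous_const.mul (EuclideanSpace.proj i).continuous
  exact Int.measurable_floor.comp h1.measurable

theorem measurableSet_cell {N : ℕ} (k : ℕ) (a : Fin N → ℤ) :
    MeasurableSet {y : E N | cell k y = a} :=
  measurable_cell k (measurableSet_singleton a)

/-- coordinates are bounded by the norm -/
theorem cell_abs_coord_le {N : ℕ} (x : E N) (i : Fin N) : |x i| ≤ ‖x‖ := by
  simpa using PiLp.norm_apply_le x i

/-- [bounded: `|x i| ≤ R`, so `cell k x i ∈ [-(2^k R) - 1, 2^k R]`; `Set.Finite.pi` / `Fintype.piFinset`] -/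
theorem finite_cell_image {N : ℕ} (k : ℕ) {K : Set (E N)} (hK : Bornology.IsBounded K) :
    (cell k '' K).Finite := by
  obtain ⟨R, hR⟩ := hK.exists_norm_le
  refine (Fintype.piFinset fun _ : Fin N =>
    Finset.Icc ⌊-((2 : ℝ) ^ k * R)⌋ ⌊(2 : ℝ) ^ k * R⌋).finite_toSet.subset ?_
  rintro _ ⟨x, hx, rfl⟩
  simp only [Finset.mem_coe, Fintype.mem_piFinset, Finset.mem_Icc, cell]
  intro i
  have h2 : (0 : ℝ) < (2 : ℝ) ^ k := by positivity
  have h3 : |x i| ≤ R := (cell_abs_coord_le x i).trans (hR x hx)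
  rw [abs_le] at h3
  constructor
  · exact Int.floor_le_floor (by nlinarith [h3.1])
  · exact Int.floor_le_floor (by nlinarith [h3.2])

/-- a ball of radius `≤ 2^{-k}` meets at most `3^N` cells of level `k`
[`F = Fintype.piFinset fun i => Finset.Icc (cell k x i - 1) (cell k x i + 1)`] -/
theorem exists_cells_ball {N : ℕ} (k : ℕ) (x : E N) {u : ℝ} (hu : u ≤ (1 / 2 : ℝ) ^ k) :
    ∃ F : Finset (Fin N → ℤ), F.card ≤ 3 ^ N ∧ ∀ y ∈ Metric.ball x u, cell k y ∈ F := by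
  refine ⟨Fintype.piFinset fun i => Finset.Icc (cell k x i - 1) (cell k x i + 1), ?_, ?_⟩
  · rw [Fintype.card_piFinset]
    have : ∀ i : Fin N, (Finset.Icc (cell k x i - 1) (cell k x i + 1)).card = 3 := by
      intro i
      rw [Int.card_Icc]
      have : cell k x i + 1 + 1 - (cell k x i - 1) = 3 := by ring
      rw [this]
      rfl
    simp [this]
  · intro y hy
    simp only [Fintype.mem_piFinset, Finset.mem_Icc, cell]
    intro i
    have h2 : (0 : ℝ) < (2 : ℝ) ^ k := by positivity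
    have h3 : |y i - x i| < (1 / 2 : ℝ) ^ k := by
      have h4 : |(y - x) i| ≤ ‖y - x‖ := cell_abs_coord_le (y - x) i
      have h5 : ‖y - x‖ < u := by rwa [Metric.mem_ball, dist_eq_norm] at hy
      have h6 : (y - x) i = y i - x i := by simp
      rw [h6] at h4
      linarith
    have h7 : (2 : ℝ) ^ k * (1 / 2 : ℝ) ^ k = 1 := by
      rw [← mul_pow]; norm_num
    rw [abs_lt] at h3
    have h8 : (2 : ℝ) ^ k * (y i - x i) < 1 := by nlinarith [h3.2]
    have h9 : -1 < (2 : ℝ) ^ k * (y i - x i) := by nlinarith [h3.1]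
    have hx1 := Int.floor_le ((2 : ℝ) ^ k * x i)
    have hx2 := Int.lt_floor_add_one ((2 : ℝ) ^ k * x i)
    constructor
    · rw [Int.le_floor]
      push_cast
      nlinarith
    · have : ⌊(2 : ℝ) ^ k * y i⌋ < ⌊(2 : ℝ) ^ k * x i⌋ + 2 := by
        rw [Int.floor_lt]
        push_cast
        nlinarith
      omega

end Claimed.Agent.R322.Haus
end

/- ===== packed: Claimed.Agent.R322.Haus.Mdp ===== -/
section
/-!
# Haus (c): the mass distribution principle
-/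

set_option autoImplicit false

open scoped ENNReal NNReal
open MeasureTheory

namespace Claimed.Agent.R322.Haus

/-- a set of finite diameter has Frostman mass `≤ C (ediam)^t` -/
theorem mdp_measure_le {N : ℕ} {μ : Measure (E N)} {C t : ℝ} (ht : 0 < t)
    (h : IsFrost μ C t) (T : Set (E N)) (hT : Metric.ediam T ≠ ⊤) :
    μ T ≤ (⨆ _ : T.Nonempty, Metric.ediam T ^ t) * ENNReal.ofReal C := by
  rcases T.eq_empty_or_nonempty with rfl | hne
  · simp
  obtain ⟨x, hx⟩ := hne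
  have hne : T.Nonempty := ⟨x, hx⟩
  rw [iSup_pos hne]
  set d : ℝ := (Metric.ediam T).toReal with hd
  have hd0 : 0 ≤ d := ENNReal.toReal_nonneg
  have h1 : ∀ u : ℝ, d < u → μ T ≤ ENNReal.ofReal (C * u ^ t) := by
    intro u hu
    have hu0 : 0 < u := lt_of_le_of_lt hd0 hu
    refine (measure_mono ?_).trans (h x u hu0)
    intro y hy
    rw [Metric.mem_ball]
    have h2 : edist y x ≤ Metric.ediam T := Metric.edist_le_ediam_of_mem hy hx
    have h3 : dist y x ≤ d := by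
      rw [dist_edist, hd]
      exact ENNReal.toReal_mono hT h2
    linarith
  have h2 : Filter.Tendsto (fun u : ℝ => ENNReal.ofReal (C * u ^ t)) (nhdsWithin d (Set.Ioi d))
      (nhds (ENNReal.ofReal (C * d ^ t))) := by
    have hc : Continuous fun u : ℝ => ENNReal.ofReal (C * u ^ t) :=
      ENNReal.continuous_ofReal.comp (continuous_const.mul (Real.continuous_rpow_const ht.le))
    exact (hc.tendsto d).mono_left nhdsWithin_le_nhds
  have h3 : μ T ≤ ENNReal.ofReal (C * d ^ t) :=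
    ge_of_tendsto h2 (Filter.eventually_of_mem self_mem_nhdsWithin fun u hu => h1 u hu)
  refine h3.trans (le_of_eq ?_)
  rw [mul_comm C, ENNReal.ofReal_mul (Real.rpow_nonneg hd0 t),
    ← ENNReal.ofReal_rpow_of_nonneg hd0 ht.le, hd, ENNReal.ofReal_toReal hT]

/-- **Mass distribution principle.**
[`Measure.hausdorffMeasure_apply`; it suffices to bound one `r`-content (say `r = 1`) from below.  For a cover
`T n` of `A`: a nonempty `T n` with `d = ediam (T n) < ∞` lies in `ball x u` for every `x ∈ T n`, `u > d`, so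
`μ (T n) ≤ ofReal (C u^t)` for all `u > d`, hence `μ (T n) ≤ ofReal C * (ediam (T n))^t` (continuity of
`u ↦ u^t`; `t > 0` is used when `d = 0`).  Sum: `μ A ≤ ofReal C * ∑' ...`.  So the content is
`≥ μ A / ofReal C > 0` (note `0 < C` is forced by `0 < μ A`).] -/
theorem hausdorffMeasure_pos_of_isFrost {N : ℕ} {μ : Measure (E N)} {C t : ℝ} (ht : 0 < t)
    (h : IsFrost μ C t) {A : Set (E N)} (hA : 0 < μ A) : 0 < μH[t] A := by
  have hpos : 0 < μ A / ENNReal.ofReal C := ENNReal.div_pos hA.ne' ENNReal.ofReal_ne_top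
  refine lt_of_lt_of_le hpos ?_
  rw [Measure.hausdorffMeasure_apply]
  refine le_iSup₂_of_le 1 one_pos ?_
  refine le_iInf fun T => le_iInf fun hcov => le_iInf fun hdiam => ?_
  refine ENNReal.div_le_of_le_mul ?_
  calc μ A ≤ μ (⋃ n, T n) := measure_mono hcov
    _ ≤ ∑' n, μ (T n) := measure_iUnion_le _
    _ ≤ ∑' n, (⨆ _ : (T n).Nonempty, Metric.ediam (T n) ^ t) * ENNReal.ofReal C :=
        ENNReal.tsum_le_tsum fun n =>
          mdp_measure_le ht h (T n) (ne_top_of_le_ne_top ENNReal.one_ne_top (hdiam n))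
    _ = (∑' n, ⨆ _ : (T n).Nonempty, Metric.ediam (T n) ^ t) * ENNReal.ofReal C :=
        ENNReal.tsum_mul_right

theorem le_dimH_of_isFrost {N : ℕ} {μ : Measure (E N)} {C t : ℝ} (ht : 0 < t)
    (h : IsFrost μ C t) {A : Set (E N)} (hA : 0 < μ A) : ENNReal.ofReal t ≤ dimH A := by
  have h1 := hausdorffMeasure_pos_of_isFrost ht h hA
  have h2 : μH[((t.toNNReal : ℝ≥0) : ℝ)] A ≠ 0 := by
    rw [Real.coe_toNNReal t ht.le]
    exact h1.ne'
  exact le_dimH_of_hausdorffMeasure_ne_zero h2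

end Claimed.Agent.R322.Haus
end
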