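/- Packed by merge_tool.py (helper293): 4 modules of Claimed.Agent.R322 in one file, same declarations.
   Old modules, in this order: Base.Exit.Lin, Base.Exit.Calc, Flat.Lin, Flat.Horiz -/
import Claimed.Agent.R322.Pack006
import Claimed.Agent.R322.Pack016
import Claimed.Agent.R322.Pack034
import Claimed.Agent.R322.Pack043
import Claimed.Agent.R322.Pack047

/- ===== packed: Claimed.Agent.R322.Base.Exit.Lin ===== -/
section
/-!
# Row 322, Base/Exit: linear algebra of graphs

`A : E m →L E n` is the slope of a graph; vocabulary of `Tube/Defs.lean`, `Tube/Geom.lean`: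
`dF A = (1, A)`, `gmat A = 1 + AᵀA`, `vdens A = sqrt det g`, `PhA A` = orthogonal projection onto
`range (dF A)`, `dFp A = g⁻¹ dFᵀ`, `trc` = trace.

PLANS.
* `prH_inH` ... : `inH = adjoint prH`; work with `inner` and coordinates
  (`ContinuousLinearMap.adjoint_inner_left`, `EuclideanSpace.inner_eq_star_dotProduct`,
  `Fin.sum_univ_add`), or first prove `inH y = mkHV y 0`, `inV z = mkHV 0 z`.
* `gmat_inverse_comp`: `gmat A` is injective (`⟨g v, v⟩ = |v|² + |A v|²`), hence bijective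
  (finite dimension: `LinearMap.injective_iff_surjective`), build a `ContinuousLinearEquiv`
  (`ContinuousLinearEquiv.ofBijective` / `LinearEquiv.toContinuousLinearEquiv`) and use
  `ContinuousLinearMap.inverse_equiv`.
* `PhA_eq`: `Q = dF g⁻¹ dFᵀ` satisfies `Q x ∈ range dF` and `x - Q x ⟂ range dF`;
  `Submodule.eq_starProjection_of_mem_of_inner_eq_zero`-type characterisation.
* `eq_PhA_of_comp_eq_zero`: `range P ≤ range (dF A)`, both of dimension `m`
  (`LinearMap.IsProj.trace` resp. injectivity of `dF A`), so they are equal; a symmetric idempotent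
  is the orthogonal projection onto its range.
* `tanJac_PhA_prH`: `P prHᵀ prH P + 1 - P = 1 + dF (g⁻² - g⁻¹) dFᵀ`, Weinstein–Aronszajn
  (`Matrix.det_one_add_mul_comm` / `LinearMap.det` version) gives `det = det g⁻¹`.
  (Alternative: `Base.Area.nd_comp_eq_tanJac` of helper186.)
-/

set_option autoImplicit false

open scoped ENNReal ContDiff Topology
open MeasureTheory

namespace Claimed.Agent.R322.Base.Exit

open Claimed.Agent.R322.Tube

variable {m n : ℕ}

/-! ### the splitting -/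

theorem prH_mkHV (y : E m) (z : E n) : prH m n (mkHV y z) = y :=
  Tube.prH_mkHV y z

theorem prV_mkHV (y : E m) (z : E n) : prV m n (mkHV y z) = z :=
  Tube.prV_mkHV y z

theorem mkHV_prH_prV (X : E (m + n)) : mkHV (prH m n X) (prV m n X) = X :=
  Tube.mkHV_prH_prV X

theorem norm_sq_mkHV (y : E m) (z : E n) : ‖mkHV y z‖ ^ 2 = ‖y‖ ^ 2 + ‖z‖ ^ 2 :=
  Tube.norm_sq_mkHV y z

theorem inH_apply (y : E m) : inH m n y = mkHV y 0 :=
  Tube.inH_apply y

theorem inV_apply (z : E n) : inV m n z = mkHV 0 z :=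
  Tube.inV_apply z

theorem mkHV_eq (y : E m) (z : E n) : mkHV y z = inH m n y + inV m n z :=
  Tube.mkHV_eq y z

theorem dF_apply (A : E m →L[ℝ] E n) (v : E m) : dF A v = mkHV v (A v) :=
  Tube.dF_apply A v

theorem prH_comp_dF (A : E m →L[ℝ] E n) : prH m n ∘L dF A = ContinuousLinearMap.id ℝ (E m) :=
  Tube.prH_comp_dF A

theorem prV_comp_dF (A : E m →L[ℝ] E n) : prV m n ∘L dF A = A :=
  Tube.prV_comp_dF A

/-! ### the metric -/

theorem adjoint_dF_comp_dF (A : E m →L[ℝ] E n) :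
    ContinuousLinearMap.adjoint (dF A) ∘L dF A = gmat A :=
  Tube.adjoint_dF_comp_dF A

theorem gmat_inverse_comp (A : E m →L[ℝ] E n) :
    (gmat A).inverse ∘L gmat A = ContinuousLinearMap.id ℝ (E m) :=
  Tube.gmat_inverse_comp A

theorem gmat_comp_inverse (A : E m →L[ℝ] E n) :
    gmat A ∘L (gmat A).inverse = ContinuousLinearMap.id ℝ (E m) :=
  Tube.gmat_comp_inverse A

theorem gmat_inverse_symm (A : E m →L[ℝ] E n) (v w : E m) :
    inner ℝ ((gmat A).inverse v) w = inner ℝ v ((gmat A).inverse w) :=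
  Tube.gmat_inverse_symm A v w

theorem one_le_det_gmat (A : E m →L[ℝ] E n) :
    1 ≤ LinearMap.det ((gmat A : E m →L[ℝ] E m) : E m →ₗ[ℝ] E m) := by
  have hb := dtm_bounds_of_symm (gmat A).inverse (Tube.gmat_inverse_symm A)
    (inner_gmat_inverse_nonneg A) (fun v => by
      calc inner ℝ ((gmat A).inverse v) v ≤ ‖(gmat A).inverse v‖ * ‖v‖ := real_inner_le_norm _ _
        _ ≤ ‖v‖ * ‖v‖ := by gcongr; exact norm_gmat_inverse_apply_le A v
        _ = ‖v‖ ^ 2 := by ring)
  have h1 : dtm (gmat A).inverse * dtm (gmat A) = 1 := by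
    rw [← dtm_comp, Tube.gmat_inverse_comp, dtm_id]
  have h2 : 0 ≤ dtm (gmat A) := dtm_gmat_nonneg A
  show 1 ≤ dtm (gmat A)
  nlinarith [hb.1, hb.2.1]

theorem one_le_vdens (A : E m →L[ℝ] E n) : 1 ≤ vdens A := by
  unfold vdens
  rw [Real.one_le_sqrt]
  exact one_le_det_gmat A

theorem dFp_comp_dF (A : E m →L[ℝ] E n) : dFp A ∘L dF A = ContinuousLinearMap.id ℝ (E m) :=
  Tube.dFp_comp_dF A

/-! ### the tangent projection -/

theorem PhA_eq (A : E m →L[ℝ] E n) : PhA A = dF A ∘L dFp A :=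
  Tube.PhA_eq A

theorem isProj_PhA (A : E m →L[ℝ] E n) : IsProj m (PhA A) :=
  Tube.isProj_PhA A

theorem PhA_comp_dF (A : E m →L[ℝ] E n) : PhA A ∘L dF A = dF A :=
  Tube.PhA_comp_dF A

/-- `dFᵀ (1 - P_h) = 0`. -/
theorem adjoint_dF_comp_sub (A : E m →L[ℝ] E n) :
    ContinuousLinearMap.adjoint (dF A) ∘L (ContinuousLinearMap.id ℝ (E (m + n)) - PhA A) = 0 :=
  Tube.adjoint_dF_comp_sub A

/-- a rank-`m` orthogonal projection whose range is tangent to the graph is `PhA A`. -/
theorem eq_PhA_of_comp_eq_zero {P : E (m + n) →L[ℝ] E (m + n)} (hP : IsProj m P)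
    (A : E m →L[ℝ] E n) (h : (prV m n - A ∘L prH m n) ∘L P = 0) : P = PhA A := by
  have hx : ∀ x, P x = dF A (prH m n (P x)) := by
    intro x
    have h1 : prV m n (P x) = A (prH m n (P x)) := by
      have h2 := congrArg (fun L => L x) h
      simp only [ContinuousLinearMap.comp_apply, sub_apply, zero_apply] at h2
      exact sub_eq_zero.1 h2
    rw [Tube.dF_apply, ← h1, Tube.mkHV_prH_prV]
  have hA := Tube.isProj_PhA A
  have h1 : PhA A ∘L P = P := by
    ext1 x
    rw [ContinuousLinearMap.comp_apply, hx x, PhA_dF]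
  have h2 : P ∘L PhA A = P := by
    have h3 := congrArg ContinuousLinearMap.adjoint h1
    rwa [ContinuousLinearMap.adjoint_comp, Base.isProj_adjoint_eq hP, adjoint_PhA] at h3
  have hQ : ContinuousLinearMap.adjoint (PhA A - P) ∘L (PhA A - P) = PhA A - P := by
    rw [map_sub, Base.isProj_adjoint_eq hP, adjoint_PhA, ContinuousLinearMap.sub_comp,
      ContinuousLinearMap.comp_sub, ContinuousLinearMap.comp_sub, hA.idem, hP.idem, h1, h2]
    abel
  have htr : trc (PhA A - P) = 0 := by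
    rw [trc_sub]
    have e1 : trc (PhA A) = m := hA.tr
    have e2 : trc P = m := hP.tr
    rw [e1, e2, sub_self]
  ext1 v
  have h3 := norm_sq_apply_le_trc (PhA A - P) v
  rw [hQ, htr, zero_mul] at h3
  have h4 : ‖(PhA A - P) v‖ = 0 := by
    have := sq_nonneg ‖(PhA A - P) v‖
    exact pow_eq_zero_iff (two_ne_zero) |>.1 (le_antisymm h3 this)
  rw [norm_eq_zero, sub_apply, sub_eq_zero] at h4
  exact h4.symm

/-- Jacobian of the vertical projection of the tangent plane onto the base. -/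
theorem tanJac_PhA_prH (A : E m →L[ℝ] E n) : tanJac (PhA A) (prH m n) * vdens A = 1 := by
  have h := Base.Area.nd_comp_eq_tanJac (dF A) (dF_injective A) (prH m n)
  rw [Tube.prH_comp_dF, ← PhA_eq_projR] at h
  have h1 : Base.Area.nd (ContinuousLinearMap.id ℝ (E m)) = 1 := by
    have h2 := Base.Area.nd_sq (ContinuousLinearMap.id ℝ (E m))
    have h3 : (ContinuousLinearMap.adjoint (ContinuousLinearMap.id ℝ (E m)) ∘L
        ContinuousLinearMap.id ℝ (E m)).det = 1 := by
      rw [ContinuousLinearMap.comp_id, ContinuousLinearMap.adjoint_id]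
      exact LinearMap.det_id
    rw [h3] at h2
    have h4 := Base.Area.nd_nonneg (ContinuousLinearMap.id ℝ (E m))
    nlinarith
  have h5 : Base.Area.nd (dF A) = vdens A := by
    have h2 := Base.Area.nd_sq (dF A)
    rw [Tube.adjoint_dF_comp_dF] at h2
    unfold vdens
    rw [← Real.sqrt_sq (Base.Area.nd_nonneg (dF A)), h2]
  rw [h1, h5] at h
  exact h.symm

/-- tangential divergence on the graph in base coordinates. -/
theorem tdiv_PhA (A : E m →L[ℝ] E n) (L : E (m + n) →L[ℝ] E (m + n)) :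
    tdiv (PhA A) L = trc (dFp A ∘L L ∘L dF A) := by
  rw [tdiv_eq_trc, Tube.PhA_eq, ContinuousLinearMap.comp_assoc, trc_comp_comm,
    ContinuousLinearMap.comp_assoc]

/-- the normal projection is injective on vertical vectors. -/
theorem eq_zero_of_sub_PhA_inV (A : E m →L[ℝ] E n) (ζ : E n)
    (h : (ContinuousLinearMap.id ℝ (E (m + n)) - PhA A) (inV m n ζ) = 0) : ζ = 0 := by
  rw [sub_apply, ContinuousLinearMap.id_apply, sub_eq_zero, Tube.PhA_eq,
    ContinuousLinearMap.comp_apply] at h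
  have h1 := congrArg (prH m n) h
  rw [prH_inV, prH_dF] at h1
  rw [← h1, map_zero] at h
  have h2 := congrArg (prV m n) h
  rwa [prV_inV, map_zero] at h2

end Claimed.Agent.R322.Base.Exit
end

/- ===== packed: Claimed.Agent.R322.Base.Exit.Calc ===== -/
section
/-!
# Row 322, Base/Exit: calculus of the graph operators; the two families of test fields

`u : E m → E n` is of class `C²`.  All operator fields `dF (Du)`, `g⁻¹`, `√g`, `dFp`, `P_h` are `C¹`.

* `tanTest u ξ e y = dF(Du y) ((ξ y / √g) e)` : tangential field, `√g tr (dFp ∘ D(tanTest)) = ∂_e ξ`;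
* `norTest u ξ w y = ξ y • P_v(y) w` : normal field, `tr (dFp ∘ D(norTest)) = - ξ ⟨H_S, w⟩`;
* `mss u y = g^{ab} D_{ab} u` : the operator of the minimal surface system, `H_S = P_v (0, mss u)`.

PLANS.
* smoothness: `A ↦ dF A`, `A ↦ gmat A` are polynomial (`ContDiff.clm_comp`, the adjoint is a
  continuous (conjugate-)linear isometry); `ContinuousLinearMap.inverse` is smooth at invertible
  operators (`contDiffAt_map_inverse`); `Base.contDiff_det`; `Real.sqrt` is smooth on `(0,∞)`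
  (`Real.contDiffAt_sqrt`), `det g ≥ 1`.
* `fderiv_vdens` (Jacobi's formula): `det (G + H) = det G · det (1 + G⁻¹ H)` and
  `Base.fderiv_det_one` give `D det (G) H = det G · tr (G⁻¹ H)`; `D_v g = (D_v A)ᵀ A + Aᵀ D_v A`,
  `tr (g⁻¹ (D_v A)ᵀ A) = tr (g⁻¹ Aᵀ D_v A)` (transpose, `g⁻¹` symmetric, cyclicity).
* `trc_tanTest`: with `η = (ξ/√g) e`: `D(dF η) v = dF (Dη v) + inV (D²u (v, η))`,
  `dFp ∘ dF = 1`, `dFp ∘ inV = g⁻¹ Aᵀ`, so the trace is `div η + tr (g⁻¹ Aᵀ D²u(·, η))`
  `= div η + ∂_η √g / √g` (symmetry of `D²u`), and `√g div η + ∂_η √g = div (√g η) = ∂_e ξ`.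
* `trc_norTest`: `dFp (P_v w) = 0`; differentiate `dFᵀ P_v = 0`:
  `dFᵀ (D_v P_v) w = - (D_v dF)ᵀ P_v w`; the trace is
  `- Σ_i ⟨inV D²u(e_i, g⁻¹ e_i), P_v w⟩ = - ⟨H_S, w⟩`.
-/

set_option autoImplicit false

open scoped ENNReal ContDiff Topology
open MeasureTheory

namespace Claimed.Agent.R322.Base.Exit

open Claimed.Agent.R322.Tube

variable {m n : ℕ} {u : E m → E n}

/-! ### regularity of the operator fields -/

theorem D2_symm (hu : ContDiff ℝ 2 u) (y a b : E m) : D2 u y a b = D2 u y b a :=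
  Tube.D2_symm hu y a b

theorem contDiff_dF (hu : ContDiff ℝ 2 u) : ContDiff ℝ 1 (fun y => dF (fderiv ℝ u y)) :=
  contDiff_dF_Du (k := 1) (by exact_mod_cast hu)

theorem fderiv_dF (hu : ContDiff ℝ 2 u) (y v : E m) :
    fderiv ℝ (fun y => dF (fderiv ℝ u y)) y v = inV m n ∘L D2 u y v := by
  rw [(hasFDerivAt_dF_Du (y := y) hu).fderiv]
  rfl

theorem contDiff_gmat_inverse (hu : ContDiff ℝ 2 u) :
    ContDiff ℝ 1 (fun y => (gmat (fderiv ℝ u y)).inverse) :=
  contDiff_gmat_inverse_Du (k := 1) (by exact_mod_cast hu)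

theorem det_gmat_ne_zero (A : E m →L[ℝ] E n) :
    LinearMap.det ((gmat A : E m →L[ℝ] E m) : E m →ₗ[ℝ] E m) ≠ 0 :=
  (lt_of_lt_of_le one_pos (one_le_det_gmat A)).ne'

theorem contDiff_vdens (hu : ContDiff ℝ 2 u) : ContDiff ℝ 1 (fun y => vdens (fderiv ℝ u y)) := by
  unfold vdens
  refine ContDiff.sqrt ?_ fun y => det_gmat_ne_zero _
  have h1 : ContDiff ℝ 1 (fun y => gmat (fderiv ℝ u y)) :=
    contDiff_gmatA.comp (contDiff_Du (k := 1) (by exact_mod_cast hu))
  exact ((Base.contDiff_det m).of_le (by exact_mod_cast le_top)).comp h1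

theorem contDiff_dFp (hu : ContDiff ℝ 2 u) : ContDiff ℝ 1 (fun y => dFp (fderiv ℝ u y)) :=
  contDiff_dFp_Du (k := 1) (by exact_mod_cast hu)

theorem contDiff_Ph (hu : ContDiff ℝ 2 u) : ContDiff ℝ 1 (Ph u) :=
  contDiff_Ph_of (k := 1) (by exact_mod_cast hu)

theorem contDiff_Fg {k : ℕ∞} (hu : ContDiff ℝ k u) : ContDiff ℝ k (Fg u) :=
  contDiff_Fg_of hu

theorem fderiv_Fg (hu : ContDiff ℝ 2 u) (y : E m) : fderiv ℝ (Fg u) y = dF (fderiv ℝ u y) :=
  (hasFDerivAt_Fg (hu.differentiable two_ne_zero y)).fderiv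

/-- derivative of the determinant at an invertible operator. -/
theorem fderiv_det_of_inv {N : ℕ} (G K H : E N →L[ℝ] E N)
    (hKG : K ∘L G = ContinuousLinearMap.id ℝ (E N)) :
    fderiv ℝ (fun B : E N →L[ℝ] E N => LinearMap.det (B : E N →ₗ[ℝ] E N)) G H
      = LinearMap.det (G : E N →ₗ[ℝ] E N) * trc (K ∘L H) := by
  set dt : (E N →L[ℝ] E N) → ℝ := fun B => LinearMap.det (B : E N →ₗ[ℝ] E N) with hdt
  set Φ : (E N →L[ℝ] E N) →L[ℝ] (E N →L[ℝ] E N) :=
    ContinuousLinearMap.compL ℝ (E N) (E N) (E N) K with hΦ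
  have hd : Differentiable ℝ dt := (Base.contDiff_det N).differentiable (by simp)
  have hmul : ∀ X Y : E N →L[ℝ] E N, dt (X ∘L Y) = dt X * dt Y := fun X Y => LinearMap.det_comp _ _
  have hone : dt K * dt G = 1 := by
    rw [← hmul, hKG]
    exact LinearMap.det_id
  have h1 : HasFDerivAt (fun X => dt (Φ X)) ((fderiv ℝ dt (Φ G)).comp Φ) G :=
    (hd (Φ G)).hasFDerivAt.comp G Φ.hasFDerivAt
  have h2 := h1.const_mul (dt G)
  have h3 : (fun X => dt G * dt (Φ X)) = dt := by
    funext X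
    have : dt (Φ X) = dt K * dt X := hmul K X
    rw [this, ← mul_assoc, mul_comm (dt G), hone, one_mul]
  rw [h3] at h2
  rw [h2.fderiv]
  have h4 : Φ G = ContinuousLinearMap.id ℝ (E N) := hKG
  rw [h4]
  simp only [smul_apply, ContinuousLinearMap.comp_apply, smul_eq_mul]
  rw [Base.fderiv_det_one]
  rfl

theorem hasFDerivAt_gmat (hu : ContDiff ℝ 2 u) (y : E m) :
    HasFDerivAt (fun y => gmat (fderiv ℝ u y))
      ((ContinuousLinearMap.compL ℝ (E m) (E n) (E m)
          (ContinuousLinearMap.adjoint (fderiv ℝ u y))).comp (D2 u y) +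
        ((ContinuousLinearMap.compL ℝ (E m) (E n) (E m)).flip (fderiv ℝ u y)).comp
          ((adjL m n).comp (D2 u y))) y := by
  have hA : HasFDerivAt (fderiv ℝ u) (D2 u y) y := hasFDerivAt_Du hu
  have hB : HasFDerivAt (fun y => ContinuousLinearMap.adjoint (fderiv ℝ u y))
      ((adjL m n).comp (D2 u y)) y := (adjL m n).hasFDerivAt.comp y hA
  exact (hB.clm_comp hA).const_add (ContinuousLinearMap.id ℝ (E m))

/-- **Jacobi's formula** for the volume density. -/
theorem fderiv_vdens (hu : ContDiff ℝ 2 u) (y v : E m) :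
    fderiv ℝ (fun y => vdens (fderiv ℝ u y)) y v
      = vdens (fderiv ℝ u y) * trc ((gmat (fderiv ℝ u y)).inverse ∘L
          ContinuousLinearMap.adjoint (fderiv ℝ u y) ∘L D2 u y v) := by
  set A := fderiv ℝ u y with hA
  set B := D2 u y v with hB
  have hd : Differentiable ℝ (fun B : E m →L[ℝ] E m => LinearMap.det (B : E m →ₗ[ℝ] E m)) :=
    (Base.contDiff_det m).differentiable (by simp)
  have h1 := (hd (gmat A)).hasFDerivAt.comp y (hasFDerivAt_gmat hu y)
  have h2 := h1.sqrt (det_gmat_ne_zero A)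
  have h3 : fderiv ℝ (fun y => vdens (fderiv ℝ u y)) y = _ := h2.fderiv
  rw [h3]
  simp only [smul_apply, ContinuousLinearMap.comp_apply, add_apply, smul_eq_mul]
  rw [fderiv_det_of_inv (gmat A) (gmat A).inverse _ (gmat_inverse_comp A)]
  have e1 : (ContinuousLinearMap.compL ℝ (E m) (E n) (E m) (ContinuousLinearMap.adjoint A)) B
      = ContinuousLinearMap.adjoint A ∘L B := rfl
  have e2 : ((ContinuousLinearMap.compL ℝ (E m) (E n) (E m)).flip A) ((adjL m n) B)
      = ContinuousLinearMap.adjoint B ∘L A := rfl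
  rw [e1, e2, ContinuousLinearMap.comp_add, trc_add]
  have e3 : trc ((gmat A).inverse ∘L ContinuousLinearMap.adjoint B ∘L A)
      = trc ((gmat A).inverse ∘L ContinuousLinearMap.adjoint A ∘L B) := by
    rw [← trc_adjoint, ContinuousLinearMap.adjoint_comp, ContinuousLinearMap.adjoint_comp,
      ContinuousLinearMap.adjoint_adjoint, adjoint_gmat_inverse, trc_comp_comm]
  rw [e3]
  have e4 : LinearMap.det ((gmat A : E m →L[ℝ] E m) : E m →ₗ[ℝ] E m) = vdens A ^ 2 :=
    (vdens_sq A).symm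
  have e5 : √(((fun B : E m →L[ℝ] E m => LinearMap.det (B : E m →ₗ[ℝ] E m)) ∘
      fun y => gmat (fderiv ℝ u y)) y) = vdens A := rfl
  rw [e5, e4]
  have e6 : vdens A ≠ 0 := (lt_of_lt_of_le one_pos (one_le_vdens A)).ne'
  field_simp
  ring

/-! ### tangential test fields -/

/-- the tangential field with chart components `(ξ / √g) e`. -/
noncomputable def tanTest (u : E m → E n) (ξ : E m → ℝ) (e : E m) (y : E m) : E (m + n) :=
  dF (fderiv ℝ u y) ((ξ y / vdens (fderiv ℝ u y)) • e)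

theorem vdens_ne_zero (A : E m →L[ℝ] E n) : vdens A ≠ 0 :=
  (lt_of_lt_of_le one_pos (one_le_vdens A)).ne'

theorem contDiff_tanTest (hu : ContDiff ℝ 2 u) {ξ : E m → ℝ} (hξ : ContDiff ℝ 1 ξ) (e : E m) :
    ContDiff ℝ 1 (tanTest u ξ e) :=
  (contDiff_dF hu).clm_apply
    ((hξ.div (contDiff_vdens hu) fun _ => vdens_ne_zero _).smul contDiff_const)

theorem tsupport_tanTest_subset (u : E m → E n) (ξ : E m → ℝ) (e : E m) :
    tsupport (tanTest u ξ e) ⊆ tsupport ξ := by
  refine closure_mono fun y hy => ?_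
  rw [Function.mem_support] at hy ⊢
  intro h0
  apply hy
  simp [tanTest, h0]

theorem trc_add' {N : ℕ} (A B : E N →L[ℝ] E N) : trc (A + B) = trc A + trc B := by
  unfold trc
  rw [ContinuousLinearMap.toLinearMap_add, map_add]

theorem trc_smulRight {N : ℕ} (φ : E N →L[ℝ] ℝ) (e : E N) : trc (φ.smulRight e) = φ e :=
  LinearMap.trace_smulRight (φ : E N →ₗ[ℝ] ℝ) e

theorem adjoint_dF_inV (A : E m →L[ℝ] E n) (ζ : E n) :
    ContinuousLinearMap.adjoint (dF A) (inV m n ζ) = ContinuousLinearMap.adjoint A ζ := by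
  refine ext_inner_right ℝ fun a => ?_
  rw [ContinuousLinearMap.adjoint_inner_left, ContinuousLinearMap.adjoint_inner_left, inV,
    ContinuousLinearMap.adjoint_inner_left]
  have h := prV_comp_dF A
  have h2 : prV m n (dF A a) = A a := by
    rw [← ContinuousLinearMap.comp_apply, h]
  rw [h2]

theorem dFp_comp_inV (A : E m →L[ℝ] E n) :
    dFp A ∘L inV m n = (gmat A).inverse ∘L ContinuousLinearMap.adjoint A := by
  ext1 ζ
  simp only [dFp, ContinuousLinearMap.comp_apply, adjoint_dF_inV]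

theorem trc_tanTest (hu : ContDiff ℝ 2 u) {ξ : E m → ℝ} (hξ : ContDiff ℝ 1 ξ) (e y : E m) :
    vdens (fderiv ℝ u y) * trc (dFp (fderiv ℝ u y) ∘L fderiv ℝ (tanTest u ξ e) y)
      = fderiv ℝ ξ y e := by
  set s : E m → ℝ := fun y => vdens (fderiv ℝ u y) with hs
  set q : E m → ℝ := fun y => ξ y / s y with hq
  have hsd : HasFDerivAt s (fderiv ℝ s y) y :=
    ((contDiff_vdens hu).differentiable one_ne_zero y).hasFDerivAt
  have hqd : HasFDerivAt q (fderiv ℝ q y) y :=
    ((hξ.div (contDiff_vdens hu) fun y => vdens_ne_zero _).differentiable one_ne_zero y).hasFDerivAt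
  have hξd : HasFDerivAt ξ (fderiv ℝ ξ y) y := (hξ.differentiable one_ne_zero y).hasFDerivAt
  have hcd : HasFDerivAt (fun y => dF (fderiv ℝ u y)) (fderiv ℝ (fun y => dF (fderiv ℝ u y)) y) y :=
    ((contDiff_dF hu).differentiable one_ne_zero y).hasFDerivAt
  -- product rule for `q * s = ξ`
  have hprod : q y • fderiv ℝ s y + s y • fderiv ℝ q y = fderiv ℝ ξ y := by
    have h1 := hqd.mul hsd
    have h2 : q * s = ξ := by
      funext z
      exact div_mul_cancel₀ _ (vdens_ne_zero _)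
    rw [h2] at h1
    exact h1.unique hξd
  have hT : HasFDerivAt (tanTest u ξ e)
      ((dF (fderiv ℝ u y)).comp ((fderiv ℝ q y).smulRight e) +
        (fderiv ℝ (fun y => dF (fderiv ℝ u y)) y).flip (q y • e)) y :=
    hcd.clm_apply (hqd.smul_const e)
  have hflip : (fderiv ℝ (fun y => dF (fderiv ℝ u y)) y).flip (q y • e) =
      inV m n ∘L D2 u y (q y • e) := by
    ext1 v
    rw [ContinuousLinearMap.flip_apply, fderiv_dF hu, ContinuousLinearMap.comp_apply,
      ContinuousLinearMap.comp_apply, D2_symm hu]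
  rw [hT.fderiv, hflip, ContinuousLinearMap.comp_add, ← ContinuousLinearMap.comp_assoc,
    dFp_comp_dF, ContinuousLinearMap.id_comp, ← ContinuousLinearMap.comp_assoc, dFp_comp_inV,
    ContinuousLinearMap.comp_assoc, trc_add', trc_smulRight, mul_add, ← fderiv_vdens hu y (q y • e),
    ← hprod]
  simp only [map_smul, add_apply, smul_apply, smul_eq_mul]
  ring

/-! ### normal test fields -/

/-- the normal field `ξ P_v w`. -/
noncomputable def norTest (u : E m → E n) (ξ : E m → ℝ) (w : E (m + n)) (y : E m) : E (m + n) :=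
  ξ y • Pv u y w

theorem contDiff_Pv (hu : ContDiff ℝ 2 u) : ContDiff ℝ 1 (Pv u) :=
  contDiff_const.sub (contDiff_Ph hu)

theorem contDiff_norTest (hu : ContDiff ℝ 2 u) {ξ : E m → ℝ} (hξ : ContDiff ℝ 1 ξ)
    (w : E (m + n)) : ContDiff ℝ 1 (norTest u ξ w) :=
  hξ.smul ((contDiff_Pv hu).clm_apply contDiff_const)

theorem tsupport_norTest_subset (u : E m → E n) (ξ : E m → ℝ) (w : E (m + n)) :
    tsupport (norTest u ξ w) ⊆ tsupport ξ := by
  refine closure_mono fun y hy => ?_
  rw [Function.mem_support] at hy ⊢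
  intro h0
  apply hy
  simp [norTest, h0]

theorem trc_eq_sum_inner {N : ℕ} (L : E N →L[ℝ] E N) :
    trc L = ∑ i : Fin N, inner ℝ (EuclideanSpace.single i (1 : ℝ)) (L (EuclideanSpace.single i 1)) := by
  unfold trc
  rw [LinearMap.trace_eq_sum_inner _ (EuclideanSpace.basisFun (Fin N) ℝ)]
  simp

theorem adjoint_dF_Pv (u : E m → E n) (y : E m) (w : E (m + n)) :
    ContinuousLinearMap.adjoint (dF (fderiv ℝ u y)) (Pv u y w) = 0 := by
  have h := adjoint_dF_comp_sub (fderiv ℝ u y)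
  have h2 := congrArg (fun L => L w) h
  exact h2

theorem inner_dF_Pv (u : E m → E n) (y a : E m) (w : E (m + n)) :
    inner ℝ (dF (fderiv ℝ u y) a) (Pv u y w) = 0 := by
  rw [← ContinuousLinearMap.adjoint_inner_right, adjoint_dF_Pv, inner_zero_right]

theorem Pv_symm (u : E m → E n) (y : E m) (X w : E (m + n)) :
    inner ℝ (Pv u y X) w = inner ℝ X (Pv u y w) := by
  have h := (isProj_PhA (fderiv ℝ u y)).symm X w
  simp only [Pv, Ph, sub_apply, ContinuousLinearMap.id_apply, inner_sub_left,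
    inner_sub_right, h]

/-- differentiating `⟨dF a, P_v w⟩ = 0`. -/
theorem inner_dF_fderiv_Pv (hu : ContDiff ℝ 2 u) (y a v : E m) (w : E (m + n)) :
    inner ℝ (dF (fderiv ℝ u y) a) (fderiv ℝ (Pv u) y v w)
      = -inner ℝ (inV m n (D2 u y v a)) (Pv u y w) := by
  have hcd : HasFDerivAt (fun y => dF (fderiv ℝ u y)) (fderiv ℝ (fun y => dF (fderiv ℝ u y)) y) y :=
    ((contDiff_dF hu).differentiable one_ne_zero y).hasFDerivAt
  have hPd : HasFDerivAt (Pv u) (fderiv ℝ (Pv u) y) y :=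
    ((contDiff_Pv hu).differentiable one_ne_zero y).hasFDerivAt
  have h1 := (hcd.clm_apply (hasFDerivAt_const a y)).inner ℝ (hPd.clm_apply (hasFDerivAt_const w y))
  have h2 : (fun t => inner ℝ (dF (fderiv ℝ u t) a) (Pv u t w)) = fun _ => (0 : ℝ) :=
    funext fun t => inner_dF_Pv u t a w
  rw [h2] at h1
  have h3 := congrArg (fun L => L v) (h1.unique (hasFDerivAt_const (0 : ℝ) y))
  simp only [ContinuousLinearMap.comp_apply, ContinuousLinearMap.prod_apply, fderivInnerCLM_apply,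
    ContinuousLinearMap.comp_zero, zero_add, ContinuousLinearMap.flip_apply,
    zero_apply, fderiv_dF hu] at h3
  linarith

theorem trc_norTest (hu : ContDiff ℝ 2 u) {ξ : E m → ℝ} (hξ : ContDiff ℝ 1 ξ) (w : E (m + n))
    (y : E m) :
    trc (dFp (fderiv ℝ u y) ∘L fderiv ℝ (norTest u ξ w) y) = -(ξ y * inner ℝ (HS u y) w) := by
  have hξd : HasFDerivAt ξ (fderiv ℝ ξ y) y := (hξ.differentiable one_ne_zero y).hasFDerivAt
  have hPd : HasFDerivAt (Pv u) (fderiv ℝ (Pv u) y) y :=
    ((contDiff_Pv hu).differentiable one_ne_zero y).hasFDerivAt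
  have hN : HasFDerivAt (norTest u ξ w) _ y := hξd.smul (hPd.clm_apply (hasFDerivAt_const w y))
  rw [hN.fderiv, trc_eq_sum_inner]
  have hterm : ∀ i : Fin m, inner ℝ (EuclideanSpace.single i (1 : ℝ))
      ((dFp (fderiv ℝ u y) ∘L (ξ y • ((Pv u y).comp (0 : E m →L[ℝ] E (m + n)) +
        (fderiv ℝ (Pv u) y).flip w) + (fderiv ℝ ξ y).smulRight (Pv u y w)))
          (EuclideanSpace.single i 1))
      = -(ξ y * inner ℝ (II u y ((gmat (fderiv ℝ u y)).inverse (EuclideanSpace.single i 1))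
          (EuclideanSpace.single i 1)) w) := by
    intro i
    have hz : dFp (fderiv ℝ u y) (Pv u y w) = 0 := by
      simp only [dFp, ContinuousLinearMap.comp_apply, adjoint_dF_Pv, map_zero]
    simp only [ContinuousLinearMap.comp_apply, add_apply, smul_apply,
      ContinuousLinearMap.comp_zero, zero_add, ContinuousLinearMap.flip_apply,
      ContinuousLinearMap.smulRight_apply, map_add, map_smul, hz, smul_zero, add_zero,
      inner_smul_right]
    have h1 : inner ℝ (EuclideanSpace.single i (1 : ℝ))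
        (dFp (fderiv ℝ u y) (fderiv ℝ (Pv u) y (EuclideanSpace.single i 1) w))
        = inner ℝ (dF (fderiv ℝ u y) ((gmat (fderiv ℝ u y)).inverse (EuclideanSpace.single i 1)))
          (fderiv ℝ (Pv u) y (EuclideanSpace.single i 1) w) := by
      rw [dFp, ContinuousLinearMap.comp_apply, ← gmat_inverse_symm,
        ContinuousLinearMap.adjoint_inner_right]
    rw [h1, inner_dF_fderiv_Pv hu, II, Pv_symm, D2_symm hu]
    ring
  rw [Finset.sum_congr rfl fun i _ => hterm i, HS, sum_inner, Finset.sum_neg_distrib, Finset.mul_sum]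

/-! ### the minimal surface system -/

/-- the operator `g^{ab}(Du) D_{ab} u` of the (non-parametric) minimal surface system. -/
noncomputable def mss (u : E m → E n) (y : E m) : E n :=
  ∑ a : Fin m, D2 u y ((gmat (fderiv ℝ u y)).inverse (EuclideanSpace.single a 1))
    (EuclideanSpace.single a 1)

theorem HS_eq (u : E m → E n) (y : E m) : HS u y = Pv u y (inV m n (mss u y)) := by
  simp only [HS, II, mss, map_sum]

theorem mss_eq_zero_of_HS {y : E m} (h : HS u y = 0) : mss u y = 0 := by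
  rw [HS_eq] at h
  exact eq_zero_of_sub_PhA_inV (fderiv ℝ u y) _ h

theorem continuous_HS (hu : ContDiff ℝ 2 u) : Continuous (HS u) := by
  unfold HS II
  refine continuous_finsetSum _ fun a _ => ?_
  have h1 : Continuous (Pv u) := (contDiff_Pv_of (k := 1) (by exact_mod_cast hu)).continuous
  have h2 : Continuous (D2 u) :=
    ((contDiff_Du (k := 1) (by exact_mod_cast hu)).continuous_fderiv one_ne_zero)
  have h3 : Continuous (fun y => (gmat (fderiv ℝ u y)).inverse) := (contDiff_gmat_inverse hu).continuous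
  exact h1.clm_apply ((inV m n).continuous.comp
    ((h2.clm_apply (h3.clm_apply continuous_const)).clm_apply continuous_const))

end Claimed.Agent.R322.Base.Exit
end

/- ===== packed: Claimed.Agent.R322.Flat.Lin ===== -/
section
/-!
# R322 / Flat / Lin : splitting of `E (m+n)`, tilt of a plane, the predicate `IsFlat`
(leaves L-Flat-Tl = section `tilt`; L-Flat-Rot = `exists_rotation`, `qind_prH`; section `split` is proved)

ROUTE OF THE PACKAGE (CO Proposition 2.1, QUANTITATIVE: no tangent cones, no varifold compactness, no limit functionals).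
`Haus.exists_nested` gives a point `x`, scales `l j → 0` and Frostman probability measures carried by points `x + l j X`,
`‖X‖ ≤ 1`, whose density differs from `q = Θ x` by `≤ 1/(j+1)`.  `Haus.exists_qind` gives `m` such points `z^j_i`,
quantitatively independent.  The mass ratio about `x` and about these centres is pinched at all scales comparable to `l j`
(`SIV.pinch`), so by `W.defect` `∫ |(1-P)(X - centre)|²` is small; subtracting, `∫ |(1-P) z_i|²` is small: small tilt with
respect to `span z` (`tilt_of_pinch`), small `L²` height, small height (`W.mean_value`; `height_of_pinch`).  Small tilt and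
height give approximate translation invariance of the projected weight (`stat_horizontal`), hence weak closeness to `q` times
the plane (`planar_proj`, `planar_core`); `q ∈ ℕ` by `Tube.scalar_input` over the zero graph (`near_integer`).

`tl P = tr (P PV)` is the tilt of the plane with projection `P` (`PV` = vertical projection).
PLANS.  Work with the standard basis `e_k = mkHV (single k 1) 0`, `f_l = mkHV 0 (single l 1)` of `E (m+n)` (`Fin.sum_univ_add`),
`tdiv_eq_sum` of `Base/Mono/Tdiv.lean` and `IsProj` (`idem`, `symm`, `tr`; see `IsProj.*` there):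
`tl P = Σ_l ⟪P f_l, f_l⟫ = Σ_l ‖P f_l‖² = m - Σ_k ⟪P e_k, e_k⟫ = Σ_k ‖e_k - P e_k‖²`.
`norm_sq_sub_le_tl`: `‖(1-P)(a,0)‖ ≤ Σ_k |a_k| ‖(1-P) e_k‖`, Cauchy-Schwarz.  `norm_sq_prV_le`: `‖prV (P X)‖² = Σ_l ⟪P X, f_l⟫² =
Σ_l ⟪X, P f_l⟫² ≤ ‖X‖² Σ_l ‖P f_l‖²`.  `norm_sq_P_PV_le`: `P (PV X) = Σ_l (prV X)_l P f_l`.
`norm_prH_sub_le`: `⟪b, prH ((1-P)(a,0))⟫ = ⟪(1-P)(b,0), (1-P)(a,0)⟫`.
`tl_le_sum`: `y` spans `E m` (`Haus.QInd.span_eq_top`); write `single k 1 = Σ_i c_i y_i`, `δ |c_i| ≤ 1`.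
-/

set_option autoImplicit false

open scoped ENNReal ContDiff
open MeasureTheory

namespace Claimed.Agent.R322.Flat

variable {m n : ℕ}

section split

theorem prH_mk (y : E m) (z : E n) : prH m n (mkHV y z) = y := by
  ext i
  simp [prH, mkHV]

theorem prV_mk (y : E m) (z : E n) : prV m n (mkHV y z) = z := by
  ext i
  simp [prV, mkHV]

theorem mk_prH_prV (X : E (m + n)) : mkHV (prH m n X) (prV m n X) = X := by
  ext i
  refine Fin.addCases (fun j => ?_) (fun j => ?_) i <;> simp [prH, prV, mkHV]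

theorem mk_add (y y' : E m) (z z' : E n) : mkHV (y + y') (z + z') = mkHV y z + mkHV y' z' := by
  ext i
  refine Fin.addCases (fun j => ?_) (fun j => ?_) i <;> simp [mkHV]

theorem mk_sub (y y' : E m) (z z' : E n) : mkHV (y - y') (z - z') = mkHV y z - mkHV y' z' := by
  ext i
  refine Fin.addCases (fun j => ?_) (fun j => ?_) i <;> simp [mkHV]

theorem mk_smul (c : ℝ) (y : E m) (z : E n) : mkHV (c • y) (c • z) = c • mkHV y z := by
  ext i
  refine Fin.addCases (fun j => ?_) (fun j => ?_) i <;> simp [mkHV]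

theorem norm_sq_mk (y : E m) (z : E n) : ‖mkHV y z‖ ^ 2 = ‖y‖ ^ 2 + ‖z‖ ^ 2 := by
  simp only [EuclideanSpace.norm_sq_eq, Fin.sum_univ_add]
  simp [mkHV]

theorem norm_sq_split (X : E (m + n)) : ‖X‖ ^ 2 = ‖prH m n X‖ ^ 2 + ‖prV m n X‖ ^ 2 := by
  conv_lhs => rw [← mk_prH_prV X]
  exact norm_sq_mk _ _

theorem norm_prH_le (X : E (m + n)) : ‖prH m n X‖ ≤ ‖X‖ := by
  have := norm_sq_split X
  exact abs_le_of_sq_le_sq' (by nlinarith [sq_nonneg ‖prV m n X‖]) (norm_nonneg _) |>.2

theorem norm_prV_le (X : E (m + n)) : ‖prV m n X‖ ≤ ‖X‖ := by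
  have := norm_sq_split X
  exact abs_le_of_sq_le_sq' (by nlinarith [sq_nonneg ‖prH m n X‖]) (norm_nonneg _) |>.2

theorem norm_mk_zero (y : E m) : ‖mkHV y (0 : E n)‖ = ‖y‖ := by
  have := norm_sq_mk y (0 : E n)
  rw [norm_zero] at this
  have h2 : ‖mkHV y (0 : E n)‖ ^ 2 = ‖y‖ ^ 2 := by linarith
  exact (pow_left_inj₀ (norm_nonneg _) (norm_nonneg _) (by norm_num)).1 h2

theorem isometry_mk_zero : Isometry (fun y : E m => mkHV y (0 : E n)) := by
  refine Isometry.of_dist_eq fun y y' => ?_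
  rw [dist_eq_norm, dist_eq_norm]
  have := mk_sub y y' (0 : E n) 0
  rw [sub_zero] at this
  rw [← this, norm_mk_zero]

end split

section tilt

/-- vertical projection, as an operator of `E (m+n)`. -/
noncomputable def PV (m n : ℕ) : E (m + n) →L[ℝ] E (m + n) :=
  ContinuousLinearMap.adjoint (prV m n) ∘L prV m n

/-- tilt `tr (P PV)` of the plane with projection `P` with respect to the horizontal plane. -/
noncomputable def tl (P : E (m + n) →L[ℝ] E (m + n)) : ℝ := tdiv P (PV m n)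

theorem lin_inner_mk_left (y : E m) (z : E n) (X : E (m + n)) :
    inner ℝ (mkHV y z) X = inner ℝ y (prH m n X) + inner ℝ z (prV m n X) := by
  simp [PiLp.inner_apply, Fin.sum_univ_add, mkHV, prH, prV]

theorem lin_adjoint_prV (z : E n) : ContinuousLinearMap.adjoint (prV m n) z = mkHV 0 z := by
  refine ext_inner_right ℝ fun X => ?_
  rw [ContinuousLinearMap.adjoint_inner_left, lin_inner_mk_left]
  simp

theorem PV_apply (X : E (m + n)) : PV m n X = mkHV 0 (prV m n X) := by
  simp [PV, lin_adjoint_prV]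

theorem lin_single_castAdd (k : Fin m) :
    (EuclideanSpace.single (Fin.castAdd n k) (1 : ℝ) : E (m + n)) = mkHV (EuclideanSpace.single k 1) 0 := by
  ext i
  refine Fin.addCases (fun j => ?_) (fun j => ?_) i
  · simp [mkHV, Pi.single_apply, Fin.ext_iff]
  · have := k.2
    simp [mkHV, Fin.ext_iff]
    omega

theorem lin_single_natAdd (l : Fin n) :
    (EuclideanSpace.single (Fin.natAdd m l) (1 : ℝ) : E (m + n)) = mkHV 0 (EuclideanSpace.single l 1) := by
  ext i
  refine Fin.addCases (fun j => ?_) (fun j => ?_) i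
  · have := j.2
    simp [mkHV, Fin.ext_iff]
    omega
  · simp [mkHV, Pi.single_apply, Fin.ext_iff]

theorem lin_PV_castAdd (k : Fin m) :
    PV m n (EuclideanSpace.single (Fin.castAdd n k) (1 : ℝ)) = 0 := by
  rw [PV_apply, lin_single_castAdd, prV_mk]
  ext i
  refine Fin.addCases (fun j => ?_) (fun j => ?_) i <;> simp [mkHV]

theorem lin_PV_natAdd (l : Fin n) :
    PV m n (EuclideanSpace.single (Fin.natAdd m l) (1 : ℝ))
      = EuclideanSpace.single (Fin.natAdd m l) (1 : ℝ) := by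
  rw [PV_apply, lin_single_natAdd, prV_mk]

variable {P : E (m + n) →L[ℝ] E (m + n)}

/-- `tl P = Σ_l ⟪f_l, P f_l⟫` (any operator `P`). -/
theorem lin_tl_eq_sum_inner (P : E (m + n) →L[ℝ] E (m + n)) :
    tl P = ∑ l : Fin n, inner ℝ (EuclideanSpace.single (Fin.natAdd m l) (1 : ℝ) : E (m + n))
      (P (EuclideanSpace.single (Fin.natAdd m l) (1 : ℝ))) := by
  unfold tl
  rw [tdiv_eq_sum, Fin.sum_univ_add]
  simp only [lin_PV_castAdd, lin_PV_natAdd, map_zero, inner_zero_right, Finset.sum_const_zero,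
    zero_add]

theorem lin_tl_eq_sumV (hP : IsProj m P) :
    tl P = ∑ l : Fin n, ‖P (EuclideanSpace.single (Fin.natAdd m l) (1 : ℝ))‖ ^ 2 := by
  rw [lin_tl_eq_sum_inner]
  refine Finset.sum_congr rfl fun l _ => ?_
  rw [real_inner_comm, hP.inner_apply_self]

theorem lin_tl_eq_sumH (hP : IsProj m P) :
    tl P = ∑ k : Fin m, ‖(EuclideanSpace.single (Fin.castAdd n k) (1 : ℝ) : E (m + n))
      - P (EuclideanSpace.single (Fin.castAdd n k) (1 : ℝ))‖ ^ 2 := by
  have h1 := tdiv_eq_sum P (ContinuousLinearMap.id ℝ (E (m + n)))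
  rw [tdiv_id hP, Fin.sum_univ_add] at h1
  simp only [ContinuousLinearMap.id_apply] at h1
  rw [← lin_tl_eq_sum_inner] at h1
  have h2 : ∀ k : Fin m, ‖(EuclideanSpace.single (Fin.castAdd n k) (1 : ℝ) : E (m + n))
      - P (EuclideanSpace.single (Fin.castAdd n k) (1 : ℝ))‖ ^ 2
      = 1 - inner ℝ (EuclideanSpace.single (Fin.castAdd n k) (1 : ℝ) : E (m + n))
        (P (EuclideanSpace.single (Fin.castAdd n k) (1 : ℝ))) := by
    intro k
    have := hP.norm_sq_add (EuclideanSpace.single (Fin.castAdd n k) (1 : ℝ))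
    rw [real_inner_comm, hP.inner_apply_self]
    have h3 : ‖(EuclideanSpace.single (Fin.castAdd n k) (1 : ℝ) : E (m + n))‖ = 1 := by simp
    rw [h3] at this
    linarith
  simp only [h2, Finset.sum_sub_distrib, Finset.sum_const, Finset.card_univ, Fintype.card_fin,
    nsmul_eq_mul, mul_one]
  linarith

theorem tl_nonneg (hP : IsProj m P) : 0 ≤ tl P := by
  rw [lin_tl_eq_sumV hP]
  exact Finset.sum_nonneg fun _ _ => by positivity

theorem tl_le (hP : IsProj m P) : tl P ≤ m := by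
  have h1 := tdiv_eq_sum P (ContinuousLinearMap.id ℝ (E (m + n)))
  rw [tdiv_id hP, Fin.sum_univ_add] at h1
  simp only [ContinuousLinearMap.id_apply] at h1
  rw [← lin_tl_eq_sum_inner] at h1
  have h2 : 0 ≤ ∑ k : Fin m, inner ℝ (EuclideanSpace.single (Fin.castAdd n k) (1 : ℝ) : E (m + n))
        (P (EuclideanSpace.single (Fin.castAdd n k) (1 : ℝ))) := by
    refine Finset.sum_nonneg fun k _ => ?_
    rw [real_inner_comm, hP.inner_apply_self]
    positivity
  linarith

theorem lin_norm_sq_prV (Y : E (m + n)) :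
    ‖prV m n Y‖ ^ 2 = ∑ l : Fin n, (inner ℝ Y (EuclideanSpace.single (Fin.natAdd m l) (1 : ℝ))) ^ 2 := by
  rw [EuclideanSpace.norm_sq_eq]
  refine Finset.sum_congr rfl fun l _ => ?_
  simp [prV, EuclideanSpace.inner_single_right]

theorem lin_norm_sq_prH (Y : E (m + n)) :
    ‖prH m n Y‖ ^ 2 = ∑ k : Fin m, (inner ℝ Y (EuclideanSpace.single (Fin.castAdd n k) (1 : ℝ))) ^ 2 := by
  rw [EuclideanSpace.norm_sq_eq]
  refine Finset.sum_congr rfl fun l _ => ?_
  simp [prH, EuclideanSpace.inner_single_right]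

/-- `|prV (P X)|² ≤ tl P |X|²`. -/
theorem norm_sq_prV_le (hP : IsProj m P) (X : E (m + n)) :
    ‖prV m n (P X)‖ ^ 2 ≤ tl P * ‖X‖ ^ 2 := by
  rw [lin_norm_sq_prV, lin_tl_eq_sumV hP, Finset.sum_mul]
  refine Finset.sum_le_sum fun l _ => ?_
  rw [hP.symm]
  have := abs_real_inner_le_norm X (P (EuclideanSpace.single (Fin.natAdd m l) (1 : ℝ)))
  rw [← sq_abs, mul_comm, ← mul_pow]
  exact pow_le_pow_left₀ (abs_nonneg _) this 2

theorem lin_symm_sub (hP : IsProj m P) (x y : E (m + n)) :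
    inner ℝ (x - P x) y = inner ℝ x (y - P y) := by
  rw [inner_sub_left, inner_sub_right, hP.symm]

theorem lin_idem_sub (hP : IsProj m P) (x : E (m + n)) :
    (x - P x) - P (x - P x) = x - P x := by
  rw [map_sub, hP.apply_apply]; simp

theorem lin_norm_sq_prH_le (hP : IsProj m P) (X : E (m + n)) :
    ‖prH m n (X - P X)‖ ^ 2 ≤ tl P * ‖X‖ ^ 2 := by
  rw [lin_norm_sq_prH, lin_tl_eq_sumH hP, Finset.sum_mul]
  refine Finset.sum_le_sum fun l _ => ?_
  rw [lin_symm_sub hP]
  have := abs_real_inner_le_norm X ((EuclideanSpace.single (Fin.castAdd n l) (1 : ℝ) : E (m + n))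
    - P (EuclideanSpace.single (Fin.castAdd n l) (1 : ℝ)))
  rw [← sq_abs, mul_comm, ← mul_pow]
  exact pow_le_pow_left₀ (abs_nonneg _) this 2

/-- `y² ≤ p z`, `p² ≤ t y²` imply `y² ≤ t z²`. -/
theorem lin_dual {y p z t : ℝ} (ht : 0 ≤ t) (hp : 0 ≤ p) (hz : 0 ≤ z) (h1 : y ^ 2 ≤ p * z)
    (h2 : p ^ 2 ≤ t * y ^ 2) : y ^ 2 ≤ t * z ^ 2 := by
  by_cases hy : y ^ 2 = 0
  · rw [hy]; positivity
  have hy' : 0 < y ^ 2 := lt_of_le_of_ne (sq_nonneg y) (Ne.symm hy)
  have h3 : (y ^ 2) ^ 2 ≤ (p * z) ^ 2 := pow_le_pow_left₀ hy'.le h1 2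
  have h4 : (p * z) ^ 2 ≤ t * y ^ 2 * z ^ 2 := by
    rw [mul_pow]; exact mul_le_mul_of_nonneg_right h2 (sq_nonneg z)
  have h5 : y ^ 2 * y ^ 2 ≤ (t * z ^ 2) * y ^ 2 := by nlinarith
  exact le_of_mul_le_mul_right h5 hy'

/-- `|(1-P)(a,0)|² ≤ |a|² tl P`. -/
theorem norm_sq_sub_le_tl (hP : IsProj m P) (a : E m) :
    ‖mkHV a (0 : E n) - P (mkHV a 0)‖ ^ 2 ≤ ‖a‖ ^ 2 * tl P := by
  set Y := mkHV a (0 : E n) - P (mkHV a 0) with hY
  rw [mul_comm]
  refine lin_dual (p := ‖prH m n (Y - P Y)‖) (tl_nonneg hP) (norm_nonneg _) (norm_nonneg _) ?_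
    (lin_norm_sq_prH_le hP Y)
  have h1 : ‖Y‖ ^ 2 = inner ℝ a (prH m n (Y - P Y)) := by
    rw [← real_inner_self_eq_norm_sq]
    have e : inner ℝ Y Y = inner ℝ (mkHV a (0 : E n) - P (mkHV a 0)) Y := rfl
    rw [e, lin_symm_sub hP, lin_inner_mk_left]
    simp
  rw [h1, mul_comm]
  exact real_inner_le_norm _ _

/-- the horizontal block of `1 - P` is bounded by the tilt (linearly). -/
theorem norm_prH_sub_le (hP : IsProj m P) (a : E m) :
    ‖prH m n (mkHV a (0 : E n) - P (mkHV a 0))‖ ≤ tl P * ‖a‖ := by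
  set Y := mkHV a (0 : E n) - P (mkHV a 0) with hY
  set v := prH m n Y with hv
  have ht := tl_nonneg hP
  have h1 : ‖v‖ ^ 2 = inner ℝ (mkHV v (0 : E n) - P (mkHV v 0)) Y := by
    rw [lin_symm_sub hP, hY, lin_idem_sub hP, ← hY, lin_inner_mk_left, ← hv,
      real_inner_self_eq_norm_sq]
    simp
  have h2 : ‖v‖ ^ 2 ≤ ‖mkHV v (0 : E n) - P (mkHV v 0)‖ * ‖Y‖ := by
    rw [h1]; exact real_inner_le_norm _ _
  have h3 := norm_sq_sub_le_tl (n := n) hP v
  have h4 := norm_sq_sub_le_tl (n := n) hP a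
  rw [← hY] at h4
  have h5 : ‖v‖ ^ 2 ≤ (tl P * ‖a‖) ^ 2 := by
    have := lin_dual (y := ‖v‖) (p := ‖mkHV v (0 : E n) - P (mkHV v 0)‖) (z := ‖Y‖) (t := tl P) ht
      (norm_nonneg _) (norm_nonneg _) h2 (by rw [mul_comm]; exact h3)
    calc ‖v‖ ^ 2 ≤ tl P * ‖Y‖ ^ 2 := this
      _ ≤ tl P * (‖a‖ ^ 2 * tl P) := mul_le_mul_of_nonneg_left h4 ht
      _ = (tl P * ‖a‖) ^ 2 := by ring
  exact (pow_le_pow_iff_left₀ (norm_nonneg _) (by positivity) (by norm_num)).1 h5

/-- `|P (PV X)|² ≤ tl P |prV X|²`. -/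
theorem norm_sq_P_PV_le (hP : IsProj m P) (X : E (m + n)) :
    ‖P (PV m n X)‖ ^ 2 ≤ tl P * ‖prV m n X‖ ^ 2 := by
  set Y := P (PV m n X) with hY
  refine lin_dual (p := ‖prV m n (P Y)‖) (tl_nonneg hP) (norm_nonneg _) (norm_nonneg _) ?_
    (norm_sq_prV_le hP Y)
  have h1 : ‖Y‖ ^ 2 = inner ℝ (prV m n X) (prV m n (P Y)) := by
    rw [← real_inner_self_eq_norm_sq]
    have e : inner ℝ Y Y = inner ℝ (P (PV m n X)) Y := rfl
    rw [e, hP.symm, PV_apply, lin_inner_mk_left]
    simp
  rw [h1, mul_comm]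
  exact real_inner_le_norm _ _


/-- `a ↦ (a,0)` as a linear map. -/
noncomputable def linMk0 (m n : ℕ) : E m →ₗ[ℝ] E (m + n) where
  toFun a := mkHV a 0
  map_add' a b := by simpa using mk_add a b (0 : E n) 0
  map_smul' c a := by simpa using mk_smul c a (0 : E n)

theorem linMk0_apply (a : E m) : linMk0 m n a = mkHV a 0 := rfl

/-- the tilt is controlled by `(1-P)` on `m` quantitatively independent horizontal vectors. -/
theorem tl_le_sum (hP : IsProj m P) (y : Fin m → E m) {δ : ℝ} (hδ : 0 < δ) (hy : Haus.QInd δ y) :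
    tl P ≤ (m : ℝ) ^ 2 / δ ^ 2 * ∑ i, ‖mkHV (y i) (0 : E n) - P (mkHV (y i) 0)‖ ^ 2 := by
  set S := ∑ i, ‖mkHV (y i) (0 : E n) - P (mkHV (y i) 0)‖ ^ 2 with hS
  have key : ∀ k : Fin m, ‖(EuclideanSpace.single (Fin.castAdd n k) (1 : ℝ) : E (m + n))
      - P (EuclideanSpace.single (Fin.castAdd n k) (1 : ℝ))‖ ^ 2 ≤ (m : ℝ) / δ ^ 2 * S := by
    intro k
    have hmem : (EuclideanSpace.single k (1 : ℝ) : E m) ∈ Submodule.span ℝ (Set.range y) := by
      rw [hy.span_eq_top hδ]; exact Submodule.mem_top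
    obtain ⟨c, hc⟩ := (Submodule.mem_span_range_iff_exists_fun ℝ).1 hmem
    have hci : ∀ i, |c i| ≤ 1 / δ := by
      intro i
      have := hy c i
      rw [hc] at this
      have h1 : ‖(EuclideanSpace.single k (1 : ℝ) : E m)‖ = 1 := by simp
      rw [h1] at this
      rw [le_div_iff₀ hδ, mul_comm]; exact this
    have e1 : (EuclideanSpace.single (Fin.castAdd n k) (1 : ℝ) : E (m + n))
        - P (EuclideanSpace.single (Fin.castAdd n k) (1 : ℝ))
        = ∑ i, c i • (mkHV (y i) (0 : E n) - P (mkHV (y i) 0)) := by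
      rw [lin_single_castAdd, ← hc, ← linMk0_apply, map_sum, map_sum]
      simp only [map_smul, linMk0_apply, smul_sub, Finset.sum_sub_distrib]
    have e2 : ‖(EuclideanSpace.single (Fin.castAdd n k) (1 : ℝ) : E (m + n))
        - P (EuclideanSpace.single (Fin.castAdd n k) (1 : ℝ))‖
        ≤ 1 / δ * ∑ i, ‖mkHV (y i) (0 : E n) - P (mkHV (y i) 0)‖ := by
      rw [e1, Finset.mul_sum]
      refine (norm_sum_le _ _).trans (Finset.sum_le_sum fun i _ => ?_)
      rw [norm_smul, Real.norm_eq_abs]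
      exact mul_le_mul_of_nonneg_right (hci i) (norm_nonneg _)
    have e3 : (∑ i, ‖mkHV (y i) (0 : E n) - P (mkHV (y i) 0)‖) ^ 2 ≤ (m : ℝ) * S := by
      have := sq_sum_le_card_mul_sum_sq (s := (Finset.univ : Finset (Fin m)))
        (f := fun i => ‖mkHV (y i) (0 : E n) - P (mkHV (y i) 0)‖)
      simpa using this
    calc _ ≤ (1 / δ * ∑ i, ‖mkHV (y i) (0 : E n) - P (mkHV (y i) 0)‖) ^ 2 :=
          pow_le_pow_left₀ (norm_nonneg _) e2 2
      _ = 1 / δ ^ 2 * (∑ i, ‖mkHV (y i) (0 : E n) - P (mkHV (y i) 0)‖) ^ 2 := by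
          rw [mul_pow]; congr 1; rw [div_pow, one_pow]
      _ ≤ 1 / δ ^ 2 * ((m : ℝ) * S) := mul_le_mul_of_nonneg_left e3 (by positivity)
      _ = (m : ℝ) / δ ^ 2 * S := by ring
  rw [lin_tl_eq_sumH hP]
  calc _ ≤ ∑ _k : Fin m, (m : ℝ) / δ ^ 2 * S := Finset.sum_le_sum fun k _ => key k
    _ = (m : ℝ) ^ 2 / δ ^ 2 * S := by
      simp only [Finset.sum_const, Finset.card_univ, Fintype.card_fin, nsmul_eq_mul]
      ring

/-- the squared height is subharmonic on every plane. -/
theorem tlap_height (P : E (m + n) →L[ℝ] E (m + n)) (X : E (m + n)) :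
    tlap P (fun X => ‖prV m n X‖ ^ 2) X = 2 * tl P := by
  set B : E (m + n) →L[ℝ] E (m + n) →L[ℝ] ℝ :=
    (innerSL ℝ : E n →L[ℝ] E n →L[ℝ] ℝ).bilinearComp (prV m n) (prV m n) with hB
  have hBa : ∀ v w, B v w = inner ℝ (PV m n v) w := by
    intro v w
    simp only [hB, ContinuousLinearMap.bilinearComp_apply, innerSL_apply_apply, PV,
      ContinuousLinearMap.comp_apply, ContinuousLinearMap.adjoint_inner_left]
  have h1 : fderiv ℝ (fun y : E (m + n) => ‖prV m n y‖ ^ 2) = fun y => (2 : ℝ) • B y := by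
    funext y
    have := (hasStrictFDerivAt_norm_sq (prV m n y)).hasFDerivAt.comp y (prV m n).hasFDerivAt
    have e : (fun y : E (m + n) => ‖prV m n y‖ ^ 2) = (fun x : E n => ‖x‖ ^ 2) ∘ ⇑(prV m n) := rfl
    rw [e, this.fderiv]
    ext w
    simp [hB, two_smul]
  have h2 : fderiv ℝ (fun y : E (m + n) => (2 : ℝ) • B y) X = (2 : ℝ) • B :=
    (B.hasFDerivAt.const_smul (2 : ℝ)).fderiv
  unfold tlap
  rw [h1, h2, lin_tl_eq_sum_inner, Fin.sum_univ_add]
  simp only [smul_apply, smul_eq_mul, hBa, lin_PV_castAdd, lin_PV_natAdd,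
    inner_zero_left, mul_zero, Finset.sum_const_zero, zero_add, Finset.mul_sum]

theorem measurable_tl (W : SIV m n) : Measurable fun X => tl (W.P X) :=
  W.measurable_tdiv measurable_const

end tilt

section rotation

/-- `m` vectors can be rotated into the horizontal plane.
[`S = span (range z)` has dimension `≤ m`.  Take an orthonormal basis of `S`, extend it to an orthonormal basis `b` of
`E (m+n)` indexed by `Fin (m+n)` whose first `finrank S` vectors span `S`
(`Orthonormal.exists_orthonormalBasis_extension_of_card_eq`, or `stdOrthonormalBasis` of `S` and of `Sᗮ` glued with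
`Fin.append`/`OrthonormalBasis.prod`-type constructions), and let `O = b.repr` (`b i ↦ single i 1`).] -/
theorem exists_rotation (z : Fin m → E (m + n)) :
    ∃ O : E (m + n) ≃ₗᵢ[ℝ] E (m + n), ∀ i, prV m n (O (z i)) = 0 := by
  classical
  set S := Submodule.span ℝ (Set.range z) with hS
  set d := Module.finrank ℝ S with hd
  have hdm : d ≤ m := by
    have := finrank_range_le_card (R := ℝ) z
    simpa [Set.finrank] using this
  let u : OrthonormalBasis (Fin d) ℝ S := stdOrthonormalBasis ℝ S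
  let v : Fin (m + n) → E (m + n) := fun i => if h : i.1 < d then (u ⟨i.1, h⟩ : E (m + n)) else 0
  let s : Set (Fin (m + n)) := {i | i.1 < d}
  have hv : Orthonormal ℝ (s.domRestrict v) := by
    have h1 : Orthonormal ℝ (fun i : Fin d => (u i : E (m + n))) :=
      u.orthonormal.comp_linearIsometry S.subtypeₗᵢ
    have h2 : s.domRestrict v = (fun i : Fin d => (u i : E (m + n))) ∘ fun i : s => ⟨i.1.1, i.2⟩ := by
      funext i
      have : i.1.1 < d := i.2
      simp [v, this, Set.domRestrict]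
    rw [h2]
    refine h1.comp _ fun a b hab => ?_
    have := congrArg Fin.val hab
    exact Subtype.ext (Fin.ext this)
  obtain ⟨b, hb⟩ := hv.exists_orthonormalBasis_extension_of_card_eq (by simp)
  refine ⟨b.repr, fun i => ?_⟩
  have hz : z i ∈ S := Submodule.subset_span ⟨i, rfl⟩
  have hx : ∀ x : S, ∀ j : Fin (m + n), d ≤ j.1 → inner ℝ (b j) (x : E (m + n)) = 0 := by
    intro x j hj
    have e : (x : E (m + n)) = ∑ k : Fin d, (u.repr x k) • (u k : E (m + n)) := by
      conv_lhs => rw [← u.sum_repr x]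
      simp
    rw [e, inner_sum]
    refine Finset.sum_eq_zero fun k _ => ?_
    have hk : k.1 < m + n := lt_of_lt_of_le k.2 (hdm.trans (Nat.le_add_right _ _))
    have e2 : (u k : E (m + n)) = b ⟨k.1, hk⟩ := by
      rw [hb ⟨k.1, hk⟩ k.2]
      simp [v]
    rw [e2, inner_smul_right, b.orthonormal.2 (by
      intro h
      have := congrArg Fin.val h
      simp at this
      omega), mul_zero]
  ext l
  have : (prV m n (b.repr (z i))) l = inner ℝ (b (Fin.natAdd m l)) (z i) := by
    rw [← b.repr_apply_apply]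
    simp [prV]
  rw [this, hx ⟨z i, hz⟩ (Fin.natAdd m l) (by simp; omega)]
  simp

/-- quantitative independence passes to the horizontal coordinates. -/
theorem qind_prH {δ : ℝ} {z : Fin m → E (m + n)} (hz : Haus.QInd δ z)
    (O : E (m + n) ≃ₗᵢ[ℝ] E (m + n)) (hO : ∀ i, prV m n (O (z i)) = 0) :
    Haus.QInd δ (fun i => prH m n (O (z i))) := by
  intro a i
  refine (hz a i).trans (le_of_eq ?_)
  have e1 : ∑ j, a j • prH m n (O (z j)) = prH m n (O (∑ j, a j • z j)) := by
    simp [map_sum]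
  have e2 : prV m n (O (∑ j, a j • z j)) = 0 := by
    simp [map_sum, hO]
  have e3 := norm_sq_split (O (∑ j, a j • z j))
  rw [e2, norm_zero, O.norm_map] at e3
  rw [e1]
  exact (pow_left_inj₀ (norm_nonneg _) (norm_nonneg _) (two_ne_zero)).1 (by rw [e3]; ring)

end rotation

/-- `W` is `η`-flat in `B_R`, with density `q` at the origin. -/
structure IsFlat (W : SIV m n) (q R η : ℝ) : Prop where
  dom : Metric.closedBall 0 R ⊆ W.U
  dens : W.Θ 0 = q
  ratio : W.ratio 0 R ≤ q + η
  height : ∀ X ∈ W.support, ‖X‖ ≤ R → ‖prV m n X‖ ≤ η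
  tilt : ∫ X in Metric.ball 0 R, tl (W.P X) ∂W.μ ≤ η

end Claimed.Agent.R322.Flat
end

/- ===== packed: Claimed.Agent.R322.Flat.Horiz ===== -/
section
/-!
# R322 / Flat / Horiz : horizontal first variation and approximate translation invariance; Caccioppoli
(leaves L-Flat-Horiz = `stat_horizontal`; L-Flat-Transl = `transl_le`; L-Flat-Cacc = `caccioppoli`)

Standing hypotheses: `closedBall 0 (2ρ) ⊆ U`, and support points in that ball have height `≤ σ ≤ ρ/4`.
The projected weight is `f ↦ ∫_{ball 0 (2ρ)} f (prH X) dμ`, for `f` supported in `closedBall 0 (3ρ/2)`.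
PLANS.
* `stat_horizontal`.  Let `ξ : ℝ → ℝ` be smooth, `= 1` on `(-∞, (3ρ/8)²]`, `= 0` on `[(ρ/2)², ∞)` (`Real.smoothTransition`), and
  `a X = ζ (prH X) ξ (‖prV X‖²)`: `C¹`, `tsupport a ⊆ {‖prH X‖ ≤ 3ρ/2, ‖prV X‖ ≤ ρ/2} ⊆ ball 0 (2ρ)` (`norm_sq_split`).
  `W.stat_smul` with the constant field `Y = mkHV a 0 =: e`: `∫ fderiv a X (P e) dμ = 0`.  `μ`-a.e. `X` lies in the support
  (`W.μ_compl_support`).  For such `X` in `ball 0 (2ρ)`: `‖prV X‖ ≤ ρ/4`, `a = ζ ∘ prH` near `X`, so
  `fderiv a X (P e) = fderiv ζ (prH X) (prH (P e)) = fderiv ζ (prH X) a - fderiv ζ (prH X) (prH (e - P e))`, and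
  `‖prH (e - P e)‖ ≤ tl P ‖a‖` (`norm_prH_sub_le`).  Outside `ball 0 (2ρ)`, `fderiv a X = 0`.
* `transl_le`.  `F t = ∫_{ball} k (prH X - t x) dμ` has derivative `- ∫_{ball} fderiv k (prH X - t x) x dμ`
  (`hasDerivAt_integral_of_dominated_loc_of_deriv_le`; finite measure, bounded derivative), bounded by `B ‖x‖ T` by
  `stat_horizontal` for `ζ = k (· - t x)` (`tsupport ⊆ closedBall (t x) (ρ/4) ⊆ closedBall 0 (3ρ/2)` for `t ∈ [0,1]`); mean value
  inequality on `[0,1]` (`Convex.norm_image_sub_le_of_norm_hasDerivWithin_le` / `norm_image_sub_le_of_norm_deriv_le_segment_01'`).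
* `caccioppoli`.  `ξ X = χ(‖X‖²)` smooth, `= 1` on `ball 0 r`, `tsupport ⊆ ball 0 (3r/2)`, `‖fderiv ξ‖ ≤ 8/r` (choose `χ` from
  `Real.smoothTransition`; only SOME bound `c₀/r` with universal `c₀` is needed: get it by scaling from `r = 1`).
  `W.stat_smul` with `a = ξ²`, `Y = PV`: `∫ ξ² tl = - 2 ∫ ξ fderiv ξ X (P (PV X))`, `‖P (PV X)‖ ≤ sqrt (tl) ‖prV X‖`
  (`norm_sq_P_PV_le`), Young: `∫ ξ² tl ≤ 4 ∫ ‖fderiv ξ‖² ‖prV X‖²`.
-/

set_option autoImplicit false

open scoped ENNReal ContDiff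
open MeasureTheory

namespace Claimed.Agent.R322.Flat

variable {m n : ℕ}

/-- smooth step: `1` on `(-∞, α]`, `0` on `[β, ∞)`. -/
noncomputable def stepF (α β t : ℝ) : ℝ := Real.smoothTransition ((β - t) / (β - α))

theorem stepF_contDiff (α β : ℝ) : ContDiff ℝ 1 (stepF α β) :=
  Real.smoothTransition.contDiff.comp ((contDiff_const.sub contDiff_id).div_const _)

theorem stepF_eq_one {α β t : ℝ} (h : α < β) (ht : t ≤ α) : stepF α β t = 1 := by
  apply Real.smoothTransition.one_of_one_le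
  rw [le_div_iff₀ (by linarith)]
  linarith

theorem stepF_eq_zero {α β t : ℝ} (h : α < β) (ht : β ≤ t) : stepF α β t = 0 := by
  apply Real.smoothTransition.zero_of_nonpos
  exact div_nonpos_of_nonpos_of_nonneg (by linarith) (by linarith)

theorem stepF_nonneg (α β t : ℝ) : 0 ≤ stepF α β t := Real.smoothTransition.nonneg _

theorem stepF_le_one (α β t : ℝ) : stepF α β t ≤ 1 := Real.smoothTransition.le_one _

theorem hz_ae_mem_support (W : SIV m n) : ∀ᵐ X ∂W.μ, X ∈ W.support := by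
  have := W.μ_compl_support
  rwa [← mem_ae_iff] at this

theorem stat_horizontal (W : SIV m n) {ρ σ : ℝ} (hρ : 0 < ρ) (hσ : σ ≤ ρ / 4)
    (hU : Metric.closedBall 0 (2 * ρ) ⊆ W.U)
    (hh : ∀ X ∈ W.support, ‖X‖ ≤ 2 * ρ → ‖prV m n X‖ ≤ σ)
    (ζ : E m → ℝ) (hζ : ContDiff ℝ 1 ζ) (hs : tsupport ζ ⊆ Metric.closedBall 0 (3 * ρ / 2))
    (B : ℝ) (hB : ∀ y, ‖fderiv ℝ ζ y‖ ≤ B) (a : E m) :
    |∫ X in Metric.ball 0 (2 * ρ), fderiv ℝ ζ (prH m n X) a ∂W.μ|
      ≤ B * ‖a‖ * ∫ X in Metric.ball 0 (2 * ρ), tl (W.P X) ∂W.μ := by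
  have hB0 : 0 ≤ B := (norm_nonneg _).trans (hB 0)
  set e : E (m + n) := mkHV a 0 with he
  set α : ℝ := (3 * ρ / 8) ^ 2 with hα
  set β : ℝ := (ρ / 2) ^ 2 with hβ
  have hαβ : α < β := by
    rw [hα, hβ]
    nlinarith
  set A : E (m + n) → ℝ := fun X => ζ (prH m n X) * stepF α β (‖prV m n X‖ ^ 2) with hA
  have hAc : ContDiff ℝ 1 A :=
    (hζ.comp (prH m n).contDiff).mul ((stepF_contDiff α β).comp ((prV m n).contDiff.norm_sq ℝ))
  set K : Set (E (m + n)) := {X | ‖prH m n X‖ ≤ 3 * ρ / 2 ∧ ‖prV m n X‖ ≤ ρ / 2} with hK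
  have hKcl : IsClosed K :=
    (isClosed_le (prH m n).continuous.norm continuous_const).inter
      (isClosed_le (prV m n).continuous.norm continuous_const)
  have hKball : K ⊆ Metric.ball 0 (2 * ρ) := by
    rintro X ⟨h1, h2⟩
    rw [mem_ball_zero_iff]
    have h3 := norm_sq_split X
    have h4 : ‖prH m n X‖ ^ 2 ≤ (3 * ρ / 2) ^ 2 := pow_le_pow_left₀ (norm_nonneg _) h1 2
    have h5 : ‖prV m n X‖ ^ 2 ≤ (ρ / 2) ^ 2 := pow_le_pow_left₀ (norm_nonneg _) h2 2
    apply lt_of_pow_lt_pow_left₀ 2 (by positivity)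
    nlinarith
  have hsupp : tsupport A ⊆ K := by
    refine closure_minimal (fun X hX => ?_) hKcl
    have hX' : ζ (prH m n X) * stepF α β (‖prV m n X‖ ^ 2) ≠ 0 := hX
    constructor
    · have h1 : prH m n X ∈ tsupport ζ := subset_tsupport _ (left_ne_zero_of_mul hX')
      exact mem_closedBall_zero_iff.1 (hs h1)
    · by_contra hcon
      rw [not_le] at hcon
      apply right_ne_zero_of_mul hX'
      apply stepF_eq_zero hαβ
      rw [hβ]
      exact pow_le_pow_left₀ (by positivity) hcon.le 2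
  have hAcs : HasCompactSupport A :=
    IsCompact.of_isClosed_subset (isCompact_closedBall 0 (2 * ρ)) (isClosed_tsupport _)
      (hsupp.trans (hKball.trans Metric.ball_subset_closedBall))
  have hstat := W.stat_smul hAc (contDiff_const (c := e)) hAcs
    (hsupp.trans (hKball.trans (Metric.ball_subset_closedBall.trans hU)))
  have hstat' : ∫ X, fderiv ℝ A X (W.P X e) ∂W.μ = 0 := by
    rw [← hstat]
    refine integral_congr_ae (ae_of_all _ fun X => ?_)
    simp [tdiv]
  set Bl : Set (E (m + n)) := Metric.ball 0 (2 * ρ) with hBl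
  set g1 : E (m + n) → ℝ := fun X => fderiv ℝ ζ (prH m n X) a with hg1
  set g2 : E (m + n) → ℝ := fun X => fderiv ℝ ζ (prH m n X) (prH m n (e - W.P X e)) with hg2
  have hae : (fun X => fderiv ℝ A X (W.P X e)) =ᵐ[W.μ] Bl.indicator (fun X => g1 X - g2 X) := by
    filter_upwards [hz_ae_mem_support W] with X hX
    by_cases hXB : X ∈ Bl
    · rw [Set.indicator_of_mem hXB]
      have hV : ‖prV m n X‖ ≤ σ := hh X hX (mem_ball_zero_iff.1 hXB).le
      have hev : A =ᶠ[nhds X] fun X' => ζ (prH m n X') := by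
        have hopen : IsOpen {X' : E (m + n) | ‖prV m n X'‖ ^ 2 < α} :=
          isOpen_lt ((prV m n).continuous.norm.pow 2) continuous_const
        have hmem : X ∈ {X' : E (m + n) | ‖prV m n X'‖ ^ 2 < α} := by
          show ‖prV m n X‖ ^ 2 < α
          rw [hα]
          exact pow_lt_pow_left₀ (by linarith) (norm_nonneg _) (by norm_num)
        filter_upwards [hopen.mem_nhds hmem] with X' hX'
        show ζ _ * stepF α β _ = ζ _
        rw [stepF_eq_one hαβ (le_of_lt hX'), mul_one]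
      have hfd : fderiv ℝ A X = (fderiv ℝ ζ (prH m n X)).comp (prH m n) := by
        rw [hev.fderiv_eq]
        exact ((hζ.differentiable one_ne_zero _).hasFDerivAt.comp X (prH m n).hasFDerivAt).fderiv
      rw [hfd]
      show fderiv ℝ ζ (prH m n X) (prH m n (W.P X e)) = g1 X - g2 X
      simp only [hg1, hg2, map_sub]
      rw [he, prH_mk]
      ring
    · rw [Set.indicator_of_notMem hXB]
      have hnot : X ∉ tsupport A := fun h => hXB (hKball (hsupp h))
      rw [fderiv_of_notMem_tsupport ℝ hnot]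
      rfl
  have hfin : W.μ Bl ≠ ⊤ :=
    ((measure_mono Metric.ball_subset_closedBall).trans_lt
      (W.μ_compact_lt_top (isCompact_closedBall _ _) hU)).ne
  have hcf : Continuous fun X : E (m + n) => fderiv ℝ ζ (prH m n X) :=
    (hζ.continuous_fderiv one_ne_zero).comp (prH m n).continuous
  have hg1i : IntegrableOn g1 Bl W.μ :=
    Measure.integrableOn_of_bounded (M := B * ‖a‖) hfin
      (hcf.clm_apply continuous_const).aestronglyMeasurable
      (ae_of_all _ fun X => (ContinuousLinearMap.le_opNorm _ _).trans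
        (mul_le_mul_of_nonneg_right (hB _) (norm_nonneg _)))
  have htli : IntegrableOn (fun X => tl (W.P X)) Bl W.μ :=
    Measure.integrableOn_of_bounded (M := m) hfin (measurable_tl W).aestronglyMeasurable
      (ae_of_all _ fun X => by
        rw [Real.norm_eq_abs, abs_of_nonneg (tl_nonneg (W.P_proj X))]
        exact tl_le (W.P_proj X))
  have hg2b : ∀ X, ‖g2 X‖ ≤ B * ‖a‖ * tl (W.P X) := by
    intro X
    refine (ContinuousLinearMap.le_opNorm _ _).trans ?_
    calc ‖fderiv ℝ ζ (prH m n X)‖ * ‖prH m n (e - W.P X e)‖ ≤ B * (tl (W.P X) * ‖a‖) :=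
          mul_le_mul (hB _) (norm_prH_sub_le (W.P_proj X) a) (norm_nonneg _) hB0
      _ = B * ‖a‖ * tl (W.P X) := by ring
  have hg2m : Measurable g2 :=
    ContinuousLinearMap.measurable_apply₂.comp (hcf.measurable.prodMk
      ((prH m n).measurable.comp (measurable_const.sub (W.measurable_P_apply measurable_const))))
  have hg2i : IntegrableOn g2 Bl W.μ :=
    (htli.const_mul (B * ‖a‖)).mono' hg2m.aestronglyMeasurable (ae_of_all _ hg2b)
  have h0 : ∫ X in Bl, (g1 X - g2 X) ∂W.μ = 0 := by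
    rw [← integral_indicator Metric.isOpen_ball.measurableSet, ← integral_congr_ae hae, hstat']
  rw [integral_sub hg1i hg2i, sub_eq_zero] at h0
  rw [h0, ← integral_const_mul, ← Real.norm_eq_abs]
  exact norm_integral_le_of_norm_le (htli.const_mul _) (ae_of_all _ hg2b)

theorem transl_le (W : SIV m n) {ρ σ : ℝ} (hρ : 0 < ρ) (hσ : σ ≤ ρ / 4)
    (hU : Metric.closedBall 0 (2 * ρ) ⊆ W.U)
    (hh : ∀ X ∈ W.support, ‖X‖ ≤ 2 * ρ → ‖prV m n X‖ ≤ σ)
    (k : E m → ℝ) (hk : ContDiff ℝ 1 k) (hs : tsupport k ⊆ Metric.closedBall 0 (ρ / 4))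
    (B : ℝ) (hB : ∀ y, ‖fderiv ℝ k y‖ ≤ B) (x : E m) (hx : ‖x‖ ≤ 5 * ρ / 4) :
    |(∫ X in Metric.ball 0 (2 * ρ), k (prH m n X - x) ∂W.μ)
        - ∫ X in Metric.ball 0 (2 * ρ), k (prH m n X) ∂W.μ|
      ≤ B * ‖x‖ * ∫ X in Metric.ball 0 (2 * ρ), tl (W.P X) ∂W.μ := by
  set Bl : Set (E (m + n)) := Metric.ball 0 (2 * ρ) with hBl
  have hfin : W.μ Bl < ⊤ :=
    (measure_mono Metric.ball_subset_closedBall).trans_lt
      (W.μ_compact_lt_top (isCompact_closedBall _ _) hU)
  set μ' : Measure (E (m + n)) := W.μ.restrict Bl with hμ'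
  have hfm : IsFiniteMeasure μ' := ⟨by rw [hμ', Measure.restrict_apply_univ]; exact hfin⟩
  set T : ℝ := ∫ X, tl (W.P X) ∂μ' with hT
  set F : ℝ → E (m + n) → ℝ := fun t X => k (prH m n X - t • x) with hF
  set F' : ℝ → E (m + n) → ℝ := fun t X => - fderiv ℝ k (prH m n X - t • x) x with hF'
  have hkc : Continuous k := hk.continuous
  have hkcs : HasCompactSupport k :=
    IsCompact.of_isClosed_subset (isCompact_closedBall 0 (ρ / 4)) (isClosed_tsupport _) hs
  obtain ⟨C, hC⟩ := hkcs.exists_bound_of_continuous hkc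
  have harg : ∀ t : ℝ, Continuous fun X : E (m + n) => prH m n X - t • x := fun t =>
    (prH m n).continuous.sub continuous_const
  have hder : ∀ t, HasDerivAt (fun t => ∫ X, F t X ∂μ') (∫ X, F' t X ∂μ') t := by
    intro t
    refine (hasDerivAt_integral_of_dominated_loc_of_deriv_le (bound := fun _ => B * ‖x‖)
      (s := Set.univ) Filter.univ_mem ?_ ?_ ?_ ?_ ?_ ?_).2
    · exact Filter.Eventually.of_forall fun t => (hkc.comp (harg t)).aestronglyMeasurable
    · exact Integrable.of_bound (hkc.comp (harg t)).aestronglyMeasurable C (ae_of_all _ fun X => hC _)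
    · exact ((((hk.continuous_fderiv one_ne_zero).comp (harg t)).clm_apply
        continuous_const).neg).aestronglyMeasurable
    · refine ae_of_all _ fun X t _ => ?_
      rw [hF', norm_neg]
      exact (ContinuousLinearMap.le_opNorm _ _).trans
        (mul_le_mul_of_nonneg_right (hB _) (norm_nonneg _))
    · exact integrable_const _
    · refine ae_of_all _ fun X t _ => ?_
      have h1 : HasDerivAt (fun t : ℝ => prH m n X - t • x) (-x) t := by
        have := ((hasDerivAt_id t).smul_const x).const_sub (prH m n X)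
        simpa using this
      have h2 := ((hk.differentiable one_ne_zero (prH m n X - t • x)).hasFDerivAt).comp_hasDerivAt t h1
      rw [map_neg] at h2
      exact h2
  have hbound : ∀ t ∈ Set.Icc (0 : ℝ) 1, ‖∫ X, F' t X ∂μ'‖ ≤ B * ‖x‖ * T := by
    intro t ht
    have hsup : tsupport (fun y => k (y - t • x)) ⊆ Metric.closedBall 0 (3 * ρ / 2) := by
      refine closure_minimal (fun y hy => ?_) Metric.isClosed_closedBall
      have h1 : y - t • x ∈ tsupport k := subset_tsupport _ hy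
      have h2 := mem_closedBall_zero_iff.1 (hs h1)
      rw [mem_closedBall_zero_iff]
      have h3 : ‖t • x‖ ≤ 5 * ρ / 4 := by
        rw [norm_smul, Real.norm_eq_abs, abs_of_nonneg ht.1]
        calc t * ‖x‖ ≤ 1 * ‖x‖ := mul_le_mul_of_nonneg_right ht.2 (norm_nonneg _)
          _ ≤ 5 * ρ / 4 := by rw [one_mul]; exact hx
      calc ‖y‖ = ‖(y - t • x) + t • x‖ := by rw [sub_add_cancel]
        _ ≤ ‖y - t • x‖ + ‖t • x‖ := norm_add_le _ _
        _ ≤ 3 * ρ / 2 := by linarith
    have h4 := stat_horizontal W hρ hσ hU hh (fun y => k (y - t • x))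
      (hk.comp (contDiff_id.sub contDiff_const)) hsup B
      (fun y => by rw [fderiv_comp_sub]; exact hB _) x
    simp only [fderiv_comp_sub] at h4
    rw [hF', integral_neg, norm_neg, Real.norm_eq_abs]
    exact h4
  have hmv := Convex.norm_image_sub_le_of_norm_hasDerivWithin_le
    (fun t _ => (hder t).hasDerivWithinAt) hbound (convex_Icc 0 1)
    (Set.left_mem_Icc.2 zero_le_one) (Set.right_mem_Icc.2 zero_le_one)
  simpa [hF] using hmv

/-- the derivative of `Real.smoothTransition` is bounded. -/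
theorem exists_deriv_smoothTransition_le :
    ∃ Λ : ℝ, 0 < Λ ∧ ∀ x : ℝ, |deriv Real.smoothTransition x| ≤ Λ := by
  have hc : Continuous (deriv Real.smoothTransition) :=
    (Real.smoothTransition.contDiff (n := 1)).continuous_deriv le_rfl
  obtain ⟨C, hC⟩ := (isCompact_Icc (a := (0 : ℝ)) (b := 1)).exists_bound_of_continuousOn hc.continuousOn
  refine ⟨max C 1, by positivity, fun x => ?_⟩
  by_cases hx : x ∈ Set.Icc (0 : ℝ) 1
  · exact (hC x hx).trans (le_max_left _ _)
  · have h0 : deriv Real.smoothTransition x = 0 := by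
      rw [Set.mem_Icc, not_and_or, not_le, not_le] at hx
      rcases hx with hx | hx
      · have : Real.smoothTransition =ᶠ[nhds x] fun _ => (0 : ℝ) := by
          filter_upwards [Iio_mem_nhds hx] with z hz
          exact Real.smoothTransition.zero_of_nonpos (le_of_lt hz)
        rw [this.deriv_eq, deriv_const]
      · have : Real.smoothTransition =ᶠ[nhds x] fun _ => (1 : ℝ) := by
          filter_upwards [Ioi_mem_nhds hx] with z hz
          exact Real.smoothTransition.one_of_one_le (le_of_lt hz)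
        rw [this.deriv_eq, deriv_const]
    rw [h0, abs_zero]
    positivity

/-- radial cutoffs: `1` on `ball 0 r`, supported in `{‖X‖² ≤ 2 r²}`, gradient `≤ c₀ / r`. -/
theorem exists_radial_cutoff (N : ℕ) : ∃ c₀ : ℝ, 0 < c₀ ∧ ∀ r : ℝ, 0 < r → ∃ ξ : E N → ℝ,
    ContDiff ℝ 1 ξ ∧ (∀ X, 0 ≤ ξ X) ∧ (∀ X, ξ X ≤ 1) ∧ (∀ X, ‖X‖ ≤ r → ξ X = 1) ∧
    tsupport ξ ⊆ {X | ‖X‖ ^ 2 ≤ 2 * r ^ 2} ∧ ∀ X, ‖fderiv ℝ ξ X‖ ≤ c₀ / r := by
  obtain ⟨Λ, hΛ, hb⟩ := exists_deriv_smoothTransition_le
  refine ⟨3 * Λ, by positivity, fun r hr => ?_⟩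
  set q : E N → ℝ := fun X => 2 - ‖X‖ ^ 2 / r ^ 2 with hq
  have hqc : ContDiff ℝ 1 q := contDiff_const.sub ((contDiff_id.norm_sq ℝ).div_const _)
  have hqd : ∀ X, HasFDerivAt q (-((r ^ 2)⁻¹ • ((2 : ℝ) • innerSL ℝ X))) X := by
    intro X
    have h1 : HasFDerivAt (fun X : E N => ‖X‖ ^ 2) ((2 : ℝ) • innerSL ℝ X) X := by
      have h0 := (hasStrictFDerivAt_norm_sq X).hasFDerivAt
      rw [← Nat.cast_smul_eq_nsmul ℝ] at h0
      exact_mod_cast h0
    have h2 := (h1.const_smul ((r ^ 2)⁻¹)).const_sub 2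
    refine h2.congr_of_eventuallyEq (Filter.Eventually.of_forall fun Y => ?_)
    simp [hq, div_eq_inv_mul]
  set ξ : E N → ℝ := fun X => Real.smoothTransition (q X) with hξ
  have hξc : ContDiff ℝ 1 ξ := Real.smoothTransition.contDiff.comp hqc
  have hcl : IsClosed {X : E N | ‖X‖ ^ 2 ≤ 2 * r ^ 2} :=
    isClosed_le (continuous_norm.pow 2) continuous_const
  have hsupp : tsupport ξ ⊆ {X | ‖X‖ ^ 2 ≤ 2 * r ^ 2} := by
    refine closure_minimal (fun X hX => ?_) hcl
    by_contra hcon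
    have hcon' : 2 * r ^ 2 < ‖X‖ ^ 2 := not_le.1 hcon
    apply hX
    apply Real.smoothTransition.zero_of_nonpos
    rw [hq]
    have : 2 ≤ ‖X‖ ^ 2 / r ^ 2 := by
      rw [le_div_iff₀ (by positivity)]
      exact hcon'.le
    linarith
  refine ⟨ξ, hξc, fun X => Real.smoothTransition.nonneg _, fun X => Real.smoothTransition.le_one _,
    ?_, hsupp, ?_⟩
  · intro X hX
    apply Real.smoothTransition.one_of_one_le
    rw [hq]
    have : ‖X‖ ^ 2 / r ^ 2 ≤ 1 := by
      rw [div_le_one (by positivity)]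
      exact pow_le_pow_left₀ (norm_nonneg _) hX 2
    linarith
  · intro X
    by_cases hX : X ∈ tsupport ξ
    · have hX2 : ‖X‖ ^ 2 ≤ 2 * r ^ 2 := hsupp hX
      have hXr : ‖X‖ ≤ 3 / 2 * r := by
        apply le_of_pow_le_pow_left₀ (n := 2) (by norm_num) (by positivity)
        nlinarith
      have hd : HasDerivAt Real.smoothTransition (deriv Real.smoothTransition (q X)) (q X) :=
        ((Real.smoothTransition.contDiff (n := 1)).differentiable one_ne_zero _).hasDerivAt
      have h4 : fderiv ℝ ξ X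
          = deriv Real.smoothTransition (q X) • (-((r ^ 2)⁻¹ • ((2 : ℝ) • innerSL ℝ X))) :=
        (hd.comp_hasFDerivAt X (hqd X)).fderiv
      rw [h4, norm_smul, norm_neg, norm_smul, norm_smul, innerSL_apply_norm, Real.norm_eq_abs,
        Real.norm_eq_abs, Real.norm_eq_abs, abs_of_pos (by positivity : 0 < (r ^ 2)⁻¹),
        abs_of_pos (by norm_num : (0 : ℝ) < 2)]
      calc |deriv Real.smoothTransition (q X)| * ((r ^ 2)⁻¹ * (2 * ‖X‖))
          ≤ Λ * ((r ^ 2)⁻¹ * (2 * (3 / 2 * r))) := by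
            gcongr
            exact hb _
        _ = 3 * Λ / r := by
            field_simp
    · rw [fderiv_of_notMem_tsupport ℝ hX, norm_zero]
      positivity

/-- **Caccioppoli inequality**: the tilt is controlled by the height. -/
theorem caccioppoli (m n : ℕ) : ∃ C : ℝ, 0 < C ∧ ∀ (W : SIV m n) (r σ : ℝ), 0 < r → 0 ≤ σ →
    Metric.closedBall 0 (3 * r / 2) ⊆ W.U →
    (∀ X ∈ W.support, ‖X‖ ≤ 3 * r / 2 → ‖prV m n X‖ ≤ σ) →
    ∫ X in Metric.ball 0 r, tl (W.P X) ∂W.μ
      ≤ C * (σ / r) ^ 2 * (W.μ (Metric.ball 0 (3 * r / 2))).toReal := by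
  obtain ⟨c₀, hc₀, hcut⟩ := exists_radial_cutoff (m + n)
  refine ⟨4 * c₀ ^ 2, by positivity, ?_⟩
  intro W r σ hr hσ hU hh
  obtain ⟨ξ, hξc, hξ0, hξ1, hξone, hξs, hξd⟩ := hcut r hr
  set B1 : Set (E (m + n)) := Metric.ball 0 r with hB1
  set B2 : Set (E (m + n)) := Metric.ball 0 (3 * r / 2) with hB2
  have hsB2 : tsupport ξ ⊆ B2 := by
    intro X hX
    have h1 : ‖X‖ ^ 2 ≤ 2 * r ^ 2 := hξs hX
    rw [hB2, mem_ball_zero_iff]
    apply lt_of_pow_lt_pow_left₀ 2 (by positivity)
    nlinarith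
  have hB2U : B2 ⊆ W.U := Metric.ball_subset_closedBall.trans hU
  have hfin2 : W.μ B2 < ⊤ :=
    (measure_mono Metric.ball_subset_closedBall).trans_lt
      (W.μ_compact_lt_top (isCompact_closedBall _ _) hU)
  have hfin1 : W.μ B1 < ⊤ :=
    (measure_mono (Metric.ball_subset_ball (by linarith))).trans_lt hfin2
  set a : E (m + n) → ℝ := fun X => ξ X * ξ X with ha
  have hac : ContDiff ℝ 1 a := hξc.mul hξc
  have hξdiff : ∀ X, HasFDerivAt ξ (fderiv ℝ ξ X) X := fun X =>
    (hξc.differentiable one_ne_zero X).hasFDerivAt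
  have had : ∀ X, fderiv ℝ a X = (2 * ξ X) • fderiv ℝ ξ X := by
    intro X
    have h1 : fderiv ℝ a X = ξ X • fderiv ℝ ξ X + ξ X • fderiv ℝ ξ X :=
      ((hξdiff X).mul (hξdiff X)).fderiv
    rw [h1, ← add_smul]
    congr 1
    ring
  have has : tsupport a ⊆ tsupport ξ := tsupport_mul_subset_left
  have hacs : HasCompactSupport a :=
    IsCompact.of_isClosed_subset (isCompact_closedBall 0 (3 * r / 2)) (isClosed_tsupport _)
      (has.trans (hsB2.trans Metric.ball_subset_closedBall))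
  have hstat := W.stat_smul hac (PV m n).contDiff hacs (has.trans (hsB2.trans hB2U))
  set h : E (m + n) → ℝ := fun X =>
    a X * tl (W.P X) + 2 * ξ X * fderiv ℝ ξ X (W.P X (PV m n X)) with hh'
  have hint0 : ∫ X, h X ∂W.μ = 0 := by
    rw [← hstat]
    refine integral_congr_ae (ae_of_all _ fun X => ?_)
    show a X * tl (W.P X) + 2 * ξ X * fderiv ℝ ξ X (W.P X (PV m n X))
      = a X * tdiv (W.P X) (fderiv ℝ (⇑(PV m n)) X) + (fderiv ℝ a X) ((W.P X) ((PV m n) X))
    rw [had, (PV m n).fderiv]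
    rfl
  have hzero : ∀ X, X ∉ tsupport ξ → ξ X = 0 ∧ fderiv ℝ ξ X = 0 := fun X hX =>
    ⟨image_eq_zero_of_notMem_tsupport hX, fderiv_of_notMem_tsupport ℝ hX⟩
  have hvle : ∀ X, ‖W.P X (PV m n X)‖ ≤ ‖X‖ := by
    intro X
    refine ((W.P_proj X).norm_apply_le _).trans ?_
    rw [PV_apply]
    have h1 := norm_sq_mk (0 : E m) (prV m n X)
    rw [norm_zero] at h1
    have h2 : ‖mkHV (0 : E m) (prV m n X)‖ = ‖prV m n X‖ :=
      (pow_left_inj₀ (norm_nonneg _) (norm_nonneg _) (by norm_num : 2 ≠ 0)).1 (by rw [h1]; ring)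
    rw [h2]
    exact norm_prV_le X
  have hmeas : Measurable h := by
    refine ((hac.continuous.measurable).mul (measurable_tl W)).add
      (((measurable_const.mul hξc.continuous.measurable)).mul ?_)
    exact ContinuousLinearMap.measurable_apply₂.comp
      ((hξc.continuous_fderiv one_ne_zero).measurable.prodMk
        (W.measurable_P_apply (PV m n).measurable))
  have hhi : Integrable h W.μ := by
    refine W.integrable_of_bdd (isCompact_closedBall 0 (3 * r / 2)) hU hmeas.aestronglyMeasurable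
      (C := m + 2 * (c₀ / r * (3 * r / 2))) ?_ ?_
    · intro X
      by_cases hX : X ∈ tsupport ξ
      · have hXn : ‖X‖ ≤ 3 * r / 2 := (mem_ball_zero_iff.1 (hsB2 hX)).le
        have h1 : |a X * tl (W.P X)| ≤ m := by
          rw [abs_mul, abs_of_nonneg (mul_nonneg (hξ0 X) (hξ0 X)),
            abs_of_nonneg (tl_nonneg (W.P_proj X))]
          calc ξ X * ξ X * tl (W.P X) ≤ 1 * 1 * m := by
                gcongr
                · exact tl_nonneg (W.P_proj X)
                · exact hξ0 X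
                · exact hξ1 X
                · exact hξ1 X
                · exact tl_le (W.P_proj X)
            _ = m := by ring
        have h2 : |2 * ξ X * fderiv ℝ ξ X (W.P X (PV m n X))| ≤ 2 * (c₀ / r * (3 * r / 2)) := by
          rw [abs_mul, abs_of_nonneg (mul_nonneg (by norm_num) (hξ0 X))]
          have h3 : |fderiv ℝ ξ X (W.P X (PV m n X))| ≤ c₀ / r * (3 * r / 2) :=
            (ContinuousLinearMap.le_opNorm _ _).trans
              (mul_le_mul (hξd X) ((hvle X).trans hXn) (norm_nonneg _) (by positivity))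
          calc 2 * ξ X * |fderiv ℝ ξ X (W.P X (PV m n X))| ≤ 2 * 1 * (c₀ / r * (3 * r / 2)) := by
                gcongr
                exact hξ1 X
            _ = 2 * (c₀ / r * (3 * r / 2)) := by ring
        exact (abs_add_le _ _).trans (add_le_add h1 h2)
      · have := hzero X hX
        simp only [hh', ha, this.1, this.2]
        simp
        positivity
    · intro X hX
      have hX' : X ∉ tsupport ξ := fun h' => hX (Metric.ball_subset_closedBall (hsB2 h'))
      have := hzero X hX'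
      simp only [hh', ha, this.1, this.2]
      simp
  set κ : ℝ := 2 * (c₀ / r) ^ 2 * σ ^ 2 with hκ
  set L : E (m + n) → ℝ := fun X =>
    B1.indicator (fun X => tl (W.P X) / 2) X - B2.indicator (fun _ => κ) X with hL
  have htli : IntegrableOn (fun X => tl (W.P X) / 2) B1 W.μ :=
    (Measure.integrableOn_of_bounded (M := m) hfin1.ne (measurable_tl W).aestronglyMeasurable
      (ae_of_all _ fun X => by
        rw [Real.norm_eq_abs, abs_of_nonneg (tl_nonneg (W.P_proj X))]
        exact tl_le (W.P_proj X))).div_const 2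
  have hκi : IntegrableOn (fun _ : E (m + n) => κ) B2 W.μ := integrableOn_const hfin2.ne
  have hL1 : Integrable (B1.indicator fun X => tl (W.P X) / 2) W.μ :=
    htli.integrable_indicator Metric.isOpen_ball.measurableSet
  have hL2 : Integrable (B2.indicator fun _ : E (m + n) => κ) W.μ :=
    hκi.integrable_indicator Metric.isOpen_ball.measurableSet
  have hLi : Integrable L W.μ := hL1.sub hL2
  have hLh : L ≤ᵐ[W.μ] h := by
    filter_upwards [hz_ae_mem_support W] with X hX
    set τ : ℝ := tl (W.P X) with hτ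
    have hτ0 : 0 ≤ τ := tl_nonneg (W.P_proj X)
    set p : ℝ := ‖prV m n X‖ with hp
    set D : ℝ := ‖fderiv ℝ ξ X‖ with hD
    set w : ℝ := ‖W.P X (PV m n X)‖ with hw
    have hw2 : w ^ 2 ≤ τ * p ^ 2 := norm_sq_P_PV_le (W.P_proj X) X
    have hwle : w ≤ Real.sqrt τ * p := by
      apply le_of_pow_le_pow_left₀ (n := 2) (by norm_num) (by positivity)
      rw [mul_pow, Real.sq_sqrt hτ0]
      exact hw2
    have hfd : |fderiv ℝ ξ X (W.P X (PV m n X))| ≤ D * w := by
      rw [← Real.norm_eq_abs]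
      exact ContinuousLinearMap.le_opNorm _ _
    have hD0 : 0 ≤ D := norm_nonneg _
    have hp0 : 0 ≤ p := norm_nonneg _
    have hx0 := hξ0 X
    -- Young
    have hY : 2 * ξ X * (D * w) ≤ ξ X * ξ X * τ / 2 + 2 * D ^ 2 * p ^ 2 := by
      have h1 : 2 * ξ X * (D * w) ≤ 2 * ξ X * (D * (Real.sqrt τ * p)) := by gcongr
      have h2 : Real.sqrt τ ^ 2 = τ := Real.sq_sqrt hτ0
      nlinarith [sq_nonneg (ξ X * Real.sqrt τ - 2 * (D * p))]
    have hlow : ξ X * ξ X * τ / 2 - 2 * D ^ 2 * p ^ 2 ≤ h X := by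
      have h3 : -(2 * ξ X * (D * w)) ≤ 2 * ξ X * fderiv ℝ ξ X (W.P X (PV m n X)) := by
        have := neg_le_of_abs_le hfd
        nlinarith
      show _ ≤ ξ X * ξ X * τ + 2 * ξ X * fderiv ℝ ξ X (W.P X (PV m n X))
      linarith
    refine le_trans ?_ hlow
    have hA : B1.indicator (fun X => tl (W.P X) / 2) X ≤ ξ X * ξ X * τ / 2 := by
      by_cases hX1 : X ∈ B1
      · rw [Set.indicator_of_mem hX1, hξone X (mem_ball_zero_iff.1 hX1).le]
        simp [hτ]
      · rw [Set.indicator_of_notMem hX1]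
        positivity
    have hBb : 2 * D ^ 2 * p ^ 2 ≤ B2.indicator (fun _ => κ) X := by
      by_cases hX2 : X ∈ B2
      · rw [Set.indicator_of_mem hX2, hκ]
        have hpσ : p ≤ σ := hh X hX (mem_ball_zero_iff.1 hX2).le
        have hDc : D ≤ c₀ / r := hξd X
        gcongr
      · rw [Set.indicator_of_notMem hX2]
        have hX' : X ∉ tsupport ξ := fun h' => hX2 (hsB2 h')
        have : D = 0 := by rw [hD, (hzero X hX').2, norm_zero]
        rw [this]
        simp
    show B1.indicator (fun X => tl (W.P X) / 2) X - B2.indicator (fun _ => κ) X ≤ _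
    linarith
  have hfinal := integral_mono_ae hLi hhi hLh
  rw [hint0, hL, integral_sub hL1 hL2, integral_indicator Metric.isOpen_ball.measurableSet,
    integral_indicator Metric.isOpen_ball.measurableSet, integral_div, setIntegral_const,
    smul_eq_mul] at hfinal
  have e : 4 * c₀ ^ 2 * (σ / r) ^ 2 * (W.μ B2).toReal = 2 * ((W.μ B2).toReal * κ) := by
    rw [hκ]
    field_simp
    ring
  rw [e]
  have : (W.μ.real B2) = (W.μ B2).toReal := rfl
  rw [this] at hfinal
  linarith

end Claimed.Agent.R322.Flat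
end
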