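/- Packed by merge_tool.py (helper293): 4 modules of Claimed.Agent.R322 in one file, same declarations.
   Old modules, in this order: Dens.Defs, Dens.GeomA, Dens.GeomB, Dens.GeomKit -/
import Claimed.Agent.R322.Pack002
import Claimed.Agent.R322.Pack048
import Claimed.Agent.R322.Pack053
import Claimed.Agent.R322.Pack016
import Claimed.Agent.R322.Pack013

/- ===== packed: Claimed.Agent.R322.Dens.Defs ===== -/
section
/-!
# CO Section 6b (comparison at the density centres): definitions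

DEVIATIONS FROM THE PAPER (all checked by helper35, see the plans in `Dens/*.lean`):
* no geodesic normal coordinates.  For a centre `F y₀` on the reference graph we use the graph chart,
  `ρ²(y) = |dF(y₀)(y - y₀)|²`, `U = dF(y)(y - y₀)` (coordinate radial field),
  `W(y) = √g(y₀) / √g(y)`.  Then `W (div_S U - m) + U·∇W = 0` EXACTLY, `U(ρ²/2) = ρ²` EXACTLY, hence
  `Y·G = d²` for `Y = J_z U + z`, `G = ∇(d²/2)`, and `∫ W Φ(ρ²/l²) dvol_S = l^m c_Φ` EXACTLY.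
  The price: `|∇^S U - 1| ≤ C ε ρ`, `|∇W| ≤ C ε` (one power of `ρ` less) and `Y - G` has a bare
  horizontal part `O(ε ρ²)`; both are harmless (see `radial_pointwise`).
* the reference graph is not translated; the point is: `y' = π(X - w)`, `z' = z(X - w)`,
  `w = z(X₀)`.
* no integration of `I(X₀,l)` against the centre measures and no weak limit of them: Chebyshev
  gives good centres `G_i`, `σ_i(G_i) ≥ c/2`, with `I_i(X₀,l) - Q c_Φ ≥ - C ε_i K a_i²` for ALL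
  `l ≤ l₀`; `Z` is the set of cluster points of the `G_i`; `dimH Z ≥ s` by a direct covering
  argument (`limit_set_dim`).
-/

set_option autoImplicit false

open scoped ENNReal ContDiff
open MeasureTheory

namespace Claimed.Agent.R322.Dens

open Claimed.Agent.R322.Tube Claimed.Agent.R322.Fn

variable {m n : ℕ}

/-- `ρ²(y) = |dF(y₀)(y - y₀)|²` -/
noncomputable def rho2 (u : E m → E n) (y₀ y : E m) : ℝ := ‖dF (fderiv ℝ u y₀) (y - y₀)‖ ^ 2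

/-- reciprocal volume density of the graph chart, normalised at the centre -/
noncomputable def Wd (u : E m → E n) (y₀ y : E m) : ℝ :=
  vdens (fderiv ℝ u y₀) / vdens (fderiv ℝ u y)

/-- `d² = ρ²(π X) + |z|²` on the tube -/
noncomputable def dsq (u : E m → E n) (y₀ : E m) (X : E (m + n)) : ℝ :=
  rho2 u y₀ (npr u X) + ‖zz u X‖ ^ 2

/-- `Y = J_z U + z` -/
noncomputable def Yf (u : E m → E n) (y₀ : E m) (X : E (m + n)) : E (m + n) :=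
  lift u (fun y => y - y₀) X + zz u X

/-- `G = ∇(d²/2)` -/
noncomputable def Gf (u : E m → E n) (y₀ : E m) (X : E (m + n)) : E (m + n) :=
  gradient (fun X' => dsq u y₀ X' / 2) X

/-- `W Y` -/
noncomputable def WY (u : E m → E n) (y₀ : E m) (X : E (m + n)) : E (m + n) :=
  Wd u y₀ (npr u X) • Yf u y₀ X

/-- `Φ(s) = (1-s)_+^4` -/
noncomputable def Phi (s : ℝ) : ℝ := (max (1 - s) 0) ^ 4

/-- `Ψ(s) = 8 (1-s)_+^3 = - 2 Φ'(s)` -/
noncomputable def Psi (s : ℝ) : ℝ := 8 * (max (1 - s) 0) ^ 3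

/-- `c_Φ` -/
noncomputable def cPhi (m : ℕ) : ℝ := kerC m Phi

/-- `I(X₀,t) = t^{-m} ∫ W(y') Φ(d²(X - w)/t²) dμ` -/
noncomputable def Irad (N : NCyl m n) (X₀ : E (m + n)) (t : ℝ) : ℝ :=
  (t ^ m)⁻¹ * ∫ X, Wd N.u (npr N.u X₀) (npr N.u (X - zz N.u X₀)) *
    Phi (dsq N.u (npr N.u X₀) (X - zz N.u X₀) / t ^ 2) ∂N.μ

/-- the integrand of `t dI/dt` -/
noncomputable def dIint (N : NCyl m n) (X₀ : E (m + n)) (t : ℝ) (X : E (m + n)) : ℝ :=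
  Psi (dsq N.u (npr N.u X₀) (X - zz N.u X₀) / t ^ 2) / t ^ 2 *
      Wd N.u (npr N.u X₀) (npr N.u (X - zz N.u X₀)) *
      inner ℝ (Yf N.u (npr N.u X₀) (X - zz N.u X₀))
        (Gf N.u (npr N.u X₀) (X - zz N.u X₀) - N.W.P X (Gf N.u (npr N.u X₀) (X - zz N.u X₀)))
    + Phi (dsq N.u (npr N.u X₀) (X - zz N.u X₀) / t ^ 2) *
      (tdiv (N.W.P X) (fderiv ℝ (WY N.u (npr N.u X₀)) (X - zz N.u X₀))
        - m * Wd N.u (npr N.u X₀) (npr N.u (X - zz N.u X₀)))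

/-- the measure `(e + a²) μ` -/
noncomputable def kapM (N : NCyl m n) (a : ℝ) : Measure (E (m + n)) :=
  N.μ.withDensity (fun X => ENNReal.ofReal (tilt N.u (N.W.P X) X + a ^ 2))

/-- the accumulated error `∫_0^{l₀} t^{-m} ∫_{B_{2t}(X₀)} (e + a²) dμ dt` -/
noncomputable def bad (N : NCyl m n) (a l₀ : ℝ) (X₀ : E (m + n)) : ℝ≥0∞ :=
  ∫⁻ t in Set.Ioo (0 : ℝ) l₀, ENNReal.ofReal ((t ^ m)⁻¹) * kapM N a (Metric.ball X₀ (2 * t))

end Claimed.Agent.R322.Dens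
end

/- ===== packed: Claimed.Agent.R322.Dens.GeomA ===== -/
section
/-!
# CO Section 6b, helpers for `Dens/Geom.lean` (P1, P2): pointwise algebra on the tube

Prefix `dg_`.  `y = npr u X`, `z = zz u X`, `v = y - y₀`, `U = dF(y) v`, `U' = dF(y) g(y)⁻¹ g(y₀) v`,
`G = K_z U' + z`, `Y = J_z U + z`.
-/

set_option autoImplicit false

open scoped ENNReal ContDiff Topology
open MeasureTheory

namespace Claimed.Agent.R322.Dens

open Claimed.Agent.R322.Tube Claimed.Agent.R322.Fn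

local notation "adj" => ContinuousLinearMap.adjoint
local notation "𝟙" => ContinuousLinearMap.id ℝ _

/-! ### 1. blocks of two projections -/

section Block

variable {m N : ℕ} {H P : E N →L[ℝ] E N}

theorem dg_tilt_symm (hH : IsProj m H) (hP : IsProj m P) : tdiv H (𝟙 - P) = tdiv P (𝟙 - H) := by
  rw [block_tilt_eq hH hP, block_tilt_eq hP hH, trc_comp_comm]

theorem dg_QH_sq (hH : IsProj m H) (hP : IsProj m P) (a : E N) :
    ‖H a - P (H a)‖ ^ 2 ≤ tdiv P (𝟙 - H) * ‖a‖ ^ 2 := by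
  have h := norm_sq_apply_le_trc ((𝟙 - P) ∘L H) a
  rw [← block_B_eq hH hP, ← (block_facts_aux hH hP).2.2.1] at h
  exact h

theorem dg_VP_sq (hH : IsProj m H) (hP : IsProj m P) (a : E N) :
    ‖P a - H (P a)‖ ^ 2 ≤ tdiv P (𝟙 - H) * ‖a‖ ^ 2 := by
  rw [← dg_tilt_symm hH hP]
  exact dg_QH_sq hP hH a

theorem dg_le_sqrt_mul {x e a : ℝ} (hx : 0 ≤ x) (ha : 0 ≤ a) (h : x ^ 2 ≤ e * a ^ 2) :
    x ≤ Real.sqrt e * a := by
  have h1 : x ≤ Real.sqrt (e * a ^ 2) := Real.le_sqrt_of_sq_le h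
  by_cases he : 0 ≤ e
  · rwa [Real.sqrt_mul he, Real.sqrt_sq ha] at h1
  · have h2 : e * a ^ 2 ≤ 0 := mul_nonpos_of_nonpos_of_nonneg (le_of_not_ge he) (sq_nonneg a)
    rw [Real.sqrt_eq_zero_of_nonpos h2] at h1
    have : x = 0 := le_antisymm h1 hx
    rw [this]
    positivity

theorem dg_QH (hH : IsProj m H) (hP : IsProj m P) (a : E N) :
    ‖H a - P (H a)‖ ≤ Real.sqrt (tdiv P (𝟙 - H)) * ‖a‖ :=
  dg_le_sqrt_mul (norm_nonneg _) (norm_nonneg _) (dg_QH_sq hH hP a)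

theorem dg_VP (hH : IsProj m H) (hP : IsProj m P) (a : E N) :
    ‖P a - H (P a)‖ ≤ Real.sqrt (tdiv P (𝟙 - H)) * ‖a‖ :=
  dg_le_sqrt_mul (norm_nonneg _) (norm_nonneg _) (dg_VP_sq hH hP a)

/-- `⟨(1-P) a, b⟩ = ⟨(1-P) a, (1-P) b⟩` -/
theorem dg_inner_compl (hP : IsProj m P) (a b : E N) :
    inner ℝ (a - P a) b = inner ℝ (a - P a) (b - P b) := by
  have h1 : inner ℝ (a - P a) (P b) = (0 : ℝ) := by
    rw [inner_sub_left, hP.symm a (P b), hP.apply_apply, sub_self]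
  rw [inner_sub_right, h1, sub_zero]

/-- `‖H (1-P) H a‖ ≤ e ‖a‖` -/
theorem dg_HQH (hH : IsProj m H) (hP : IsProj m P) (a : E N) :
    ‖H (H a - P (H a))‖ ≤ tdiv P (𝟙 - H) * ‖a‖ := by
  set e := tdiv P (𝟙 - H) with he
  have he0 : 0 ≤ e := (block_facts_aux hH hP).1
  set b := H (H a - P (H a)) with hb
  have h1 : ‖b‖ ^ 2 = inner ℝ (H a - P (H a)) (H b - P (H b)) := by
    rw [← real_inner_self_eq_norm_sq]
    conv_lhs => rw [hb]
    rw [hH.symm, dg_inner_compl hP]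
  have h2 : ‖b‖ ^ 2 ≤ (Real.sqrt e * ‖a‖) * (Real.sqrt e * ‖b‖) := by
    rw [h1]
    refine (real_inner_le_norm _ _).trans ?_
    exact mul_le_mul (dg_QH hH hP a) (dg_QH hH hP b) (norm_nonneg _) (by positivity)
  have h3 : (Real.sqrt e * ‖a‖) * (Real.sqrt e * ‖b‖) = (e * ‖a‖) * ‖b‖ := by
    have := Real.mul_self_sqrt he0
    calc (Real.sqrt e * ‖a‖) * (Real.sqrt e * ‖b‖)
        = (Real.sqrt e * Real.sqrt e) * ‖a‖ * ‖b‖ := by ring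
      _ = (e * ‖a‖) * ‖b‖ := by rw [this]
  rw [h3, sq] at h2
  by_cases hb0 : ‖b‖ = 0
  · rw [hb0]; positivity
  · exact le_of_mul_le_mul_right h2 (lt_of_le_of_ne (norm_nonneg _) (Ne.symm hb0))

/-- `‖H P (1-H) a‖ ≤ √e ‖a‖` -/
theorem dg_HPV (hH : IsProj m H) (hP : IsProj m P) (a : E N) :
    ‖H (P (a - H a))‖ ≤ Real.sqrt (tdiv P (𝟙 - H)) * ‖a‖ := by
  set b := H (P (a - H a)) with hb
  have h1 : ‖b‖ ^ 2 = inner ℝ (a - H a) (P (H b) - H (P (H b))) := by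
    rw [← real_inner_self_eq_norm_sq]
    conv_lhs => rw [hb]
    rw [hH.symm, hP.symm, dg_inner_compl hH]
  have h2 : ‖b‖ ^ 2 ≤ ‖a‖ * (Real.sqrt (tdiv P (𝟙 - H)) * ‖b‖) := by
    rw [h1]
    refine (real_inner_le_norm _ _).trans ?_
    refine mul_le_mul (hH.norm_sub_apply_le a) ?_ (norm_nonneg _) (norm_nonneg _)
    refine (dg_VP hH hP (H b)).trans ?_
    gcongr
    exact hH.norm_apply_le b
  by_cases hb0 : ‖b‖ = 0
  · rw [hb0]; positivity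
  · have h3 : ‖b‖ * ‖b‖ ≤ (Real.sqrt (tdiv P (𝟙 - H)) * ‖a‖) * ‖b‖ := by
      calc ‖b‖ * ‖b‖ = ‖b‖ ^ 2 := (sq _).symm
        _ ≤ ‖a‖ * (Real.sqrt (tdiv P (𝟙 - H)) * ‖b‖) := h2
        _ = _ := by ring
    exact le_of_mul_le_mul_right h3 (lt_of_le_of_ne (norm_nonneg _) (Ne.symm hb0))

end Block

/-! ### 2. the operators at a point of the tube -/

section Tube

variable {m n : ℕ} {u : E m → E n} {κ h : ℝ} {X : E (m + n)}

/-- `U' = dF(y) g(y)⁻¹ g(y₀)(y - y₀)` -/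
noncomputable def dgUp (u : E m → E n) (y₀ y : E m) : E (m + n) :=
  dF (fderiv ℝ u y) ((gmat (fderiv ℝ u y)).inverse (gmat (fderiv ℝ u y₀) (y - y₀)))

/-- `U = dF(y)(y - y₀)` -/
noncomputable def dgU (u : E m → E n) (y₀ y : E m) : E (m + n) :=
  dF (fderiv ℝ u y) (y - y₀)

theorem dg_Ph_zz (hu : Geo κ u) (hh : h ≤ 2 / 9) (hX : X ∈ Tub u h) :
    Ph u (npr u X) (zz u X) = 0 :=
  (tube_unique_of_le hu (by linarith) hX).2.2.1

theorem dg_norm_zz_lt (hu : Geo κ u) (hh : h ≤ 2 / 9) (hX : X ∈ Tub u h) : ‖zz u X‖ < h :=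
  (tube_unique_of_le hu (by linarith) hX).2.2.2.1

theorem dg_Shp_le_half (hu : Geo κ u) (hh : h ≤ 2 / 9) (hX : X ∈ Tub u h) :
    ‖Shp u (npr u X) (zz u X)‖ ≤ 1 / 2 := hu.norm_Shp_zz_le_half hh hX

theorem dg_Shp_of_Ph_eq_zero (u : E m → E n) (y : E m) (w : E (m + n)) {a : E (m + n)}
    (ha : Ph u y a = 0) : Shp u y w a = 0 := by
  have h := congrArg (fun T : E (m + n) →L[ℝ] E (m + n) => T a) (Shp_comp_Ph u y w)
  simp only [ContinuousLinearMap.comp_apply, ha, map_zero] at h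
  exact h.symm

theorem dg_Jz_apply (u : E m → E n) (X a : E (m + n)) :
    Jz u X a = a - Shp u (npr u X) (zz u X) a := rfl

theorem dg_Jz_of_Ph_eq_zero (u : E m → E n) (X : E (m + n)) {a : E (m + n)}
    (ha : Ph u (npr u X) a = 0) : Jz u X a = a := by
  rw [dg_Jz_apply, dg_Shp_of_Ph_eq_zero u _ _ ha, sub_zero]

theorem dg_Kz_Jz (hu : Geo κ u) (hh : h ≤ 2 / 9) (hX : X ∈ Tub u h) (a : E (m + n)) :
    Kz u X (Jz u X a) = a :=
  congrArg (fun T : E (m + n) →L[ℝ] E (m + n) => T a) (Kw_comp_Jw (dg_Shp_le_half hu hh hX))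

theorem dg_Jz_Kz (hu : Geo κ u) (hh : h ≤ 2 / 9) (hX : X ∈ Tub u h) (a : E (m + n)) :
    Jz u X (Kz u X a) = a :=
  congrArg (fun T : E (m + n) →L[ℝ] E (m + n) => T a) (Jw_comp_Kw (dg_Shp_le_half hu hh hX))

theorem dg_Kz_of_Ph_eq_zero (hu : Geo κ u) (hh : h ≤ 2 / 9) (hX : X ∈ Tub u h) {a : E (m + n)}
    (ha : Ph u (npr u X) a = 0) : Kz u X a = a := by
  conv_lhs => rw [← dg_Jz_of_Ph_eq_zero u X ha]
  exact dg_Kz_Jz hu hh hX a

theorem dg_Kz_symm (hu : Geo κ u) (hh : h ≤ 2 / 9) (hX : X ∈ Tub u h) (a b : E (m + n)) :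
    inner ℝ (Kz u X a) b = inner ℝ a (Kz u X b) := by
  have h1 : adj (Kz u X) = Kz u X := adjoint_Kw hu.c2 (dg_Shp_le_half hu hh hX)
  conv_lhs => rw [← h1]
  exact ContinuousLinearMap.adjoint_inner_left _ _ _

theorem dg_Jz_symm (hu : Geo κ u) (X a b : E (m + n)) :
    inner ℝ (Jz u X a) b = inner ℝ a (Jz u X b) := by
  have h1 : adj (Jz u X) = Jz u X := adjoint_Jw hu.c2
  conv_lhs => rw [← h1]
  exact ContinuousLinearMap.adjoint_inner_left _ _ _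

theorem dg_Ph_Kz (hu : Geo κ u) (hh : h ≤ 2 / 9) (hX : X ∈ Tub u h) (a : E (m + n)) :
    Ph u (npr u X) (Kz u X a) = Kz u X (Ph u (npr u X) a) :=
  congrArg (fun T : E (m + n) →L[ℝ] E (m + n) => T a)
    (Ph_comp_Kw hu.c2 (dg_Shp_le_half hu hh hX))

theorem dg_Ph_Jz (hu : Geo κ u) (X a : E (m + n)) :
    Ph u (npr u X) (Jz u X a) = Jz u X (Ph u (npr u X) a) :=
  congrArg (fun T : E (m + n) →L[ℝ] E (m + n) => T a) (Ph_comp_Jw hu.c2)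

theorem dg_norm_Kz_le (hu : Geo κ u) (hh : h ≤ 2 / 9) (hX : X ∈ Tub u h) : ‖Kz u X‖ ≤ 2 :=
  norm_Kw_le (dg_Shp_le_half hu hh hX)

theorem dg_norm_Kz_apply_le (hu : Geo κ u) (hh : h ≤ 2 / 9) (hX : X ∈ Tub u h) (a : E (m + n)) :
    ‖Kz u X a‖ ≤ 2 * ‖a‖ :=
  ((Kz u X).le_opNorm a).trans (by gcongr; exact dg_norm_Kz_le hu hh hX)

theorem dg_Ph_symm (u : E m → E n) (y : E m) (a b : E (m + n)) :
    inner ℝ (Ph u y a) b = inner ℝ a (Ph u y b) := (isProj_Ph u y).symm a b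

theorem dg_Ph_dF (u : E m → E n) (y α : E m) :
    Ph u y (dF (fderiv ℝ u y) α) = dF (fderiv ℝ u y) α := PhA_dF _ _

theorem dg_Ph_U (u : E m → E n) (y₀ y : E m) : Ph u y (dgU u y₀ y) = dgU u y₀ y := dg_Ph_dF _ _ _

theorem dg_Ph_Up (u : E m → E n) (y₀ y : E m) : Ph u y (dgUp u y₀ y) = dgUp u y₀ y :=
  dg_Ph_dF _ _ _

theorem dg_inner_dF_dF (A : E m →L[ℝ] E n) (a b : E m) :
    inner ℝ (dF A a) (dF A b) = inner ℝ (gmat A a) b := by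
  rw [← adjoint_dF_comp_dF, ContinuousLinearMap.comp_apply,
    ContinuousLinearMap.adjoint_inner_left]

theorem dg_rho2_eq (u : E m → E n) (y₀ y : E m) :
    rho2 u y₀ y = inner ℝ (gmat (fderiv ℝ u y₀) (y - y₀)) (y - y₀) := by
  rw [rho2, ← real_inner_self_eq_norm_sq, dg_inner_dF_dF]

/-- `⟨U, U'⟩ = ρ²` -/
theorem dg_inner_U_Up (u : E m → E n) (y₀ y : E m) :
    inner ℝ (dgU u y₀ y) (dgUp u y₀ y) = rho2 u y₀ y := by
  rw [dgU, dgUp, dg_inner_dF_dF, gmat_symm, gmat_apply_inverse, dg_rho2_eq, real_inner_comm]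

end Tube

section Tube2

variable {m n : ℕ} {u : E m → E n} {κ h : ℝ} {X : E (m + n)}

theorem dg_hasFDerivAt_npr (hu : Geo κ u) (hh : h ≤ 2 / 9) (hX : X ∈ Tub u h) :
    HasFDerivAt (npr u) (dFp (fderiv ℝ u (npr u X)) ∘L Kz u X ∘L Ph u (npr u X)) X :=
  (npr_local hu hh hX).2

theorem dg_hasFDerivAt_zz (hu : Geo κ u) (hh : h ≤ 2 / 9) (hX : X ∈ Tub u h) :
    HasFDerivAt (zz u) (𝟙 - Kz u X ∘L Ph u (npr u X)) X :=
  (zz_local hu hh hX).2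

theorem dg_inner_dFp (A : E m →L[ℝ] E n) (a : E m) (b : E (m + n)) :
    inner ℝ a (dFp A b) = inner ℝ (dF A ((gmat A).inverse a)) b := by
  rw [← ContinuousLinearMap.adjoint_inner_left, adjoint_dFp, ContinuousLinearMap.comp_apply]

theorem dg_hasGradientAt_dsq (hu : Geo κ u) (hh : h ≤ 2 / 9) (hX : X ∈ Tub u h) (y₀ : E m) :
    HasGradientAt (fun X' => dsq u y₀ X' / 2) (Kz u X (dgUp u y₀ (npr u X)) + zz u X) X := by
  rw [hasGradientAt_iff_hasFDerivAt]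
  have h1 : HasFDerivAt (fun X' => dF (fderiv ℝ u y₀) (npr u X' - y₀))
      (dF (fderiv ℝ u y₀) ∘L (dFp (fderiv ℝ u (npr u X)) ∘L Kz u X ∘L Ph u (npr u X))) X :=
    (dF (fderiv ℝ u y₀)).hasFDerivAt.comp X ((dg_hasFDerivAt_npr hu hh hX).sub_const y₀)
  have h4 : HasFDerivAt (fun X' => dsq u y₀ X' / 2) _ X :=
    (h1.norm_sq.add (dg_hasFDerivAt_zz hu hh hX).norm_sq).mul_const (2 : ℝ)⁻¹
  refine h4.congr_fderiv ?_
  ext a
  have e1 : inner ℝ (zz u X) (Kz u X (Ph u (npr u X) a)) = (0 : ℝ) := by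
    rw [← dg_Kz_symm hu hh hX, dg_Kz_of_Ph_eq_zero hu hh hX (dg_Ph_zz hu hh hX),
      ← dg_Ph_symm, dg_Ph_zz hu hh hX, inner_zero_left]
  have e2 : inner ℝ (dF (fderiv ℝ u y₀) (npr u X - y₀))
      (dF (fderiv ℝ u y₀) (dFp (fderiv ℝ u (npr u X)) (Kz u X (Ph u (npr u X) a))))
      = inner ℝ (Kz u X (dgUp u y₀ (npr u X))) a := by
    rw [dg_inner_dF_dF, dg_inner_dFp, ← dg_Kz_symm hu hh hX, ← dg_Ph_symm, dg_Ph_Kz hu hh hX]
    rw [show dF (fderiv ℝ u (npr u X)) ((gmat (fderiv ℝ u (npr u X))).inverse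
      (gmat (fderiv ℝ u y₀) (npr u X - y₀))) = dgUp u y₀ (npr u X) from rfl, dg_Ph_Up]
  simp only [smul_apply, add_apply,
    ContinuousLinearMap.comp_apply, innerSL_apply_apply, sub_apply,
    ContinuousLinearMap.id_apply, InnerProductSpace.toDual_apply_apply, inner_sub_right,
    inner_add_left, e1, e2, smul_eq_mul]
  simp only [nsmul_eq_mul]
  push_cast
  ring

theorem dg_Gf_eq (hu : Geo κ u) (hh : h ≤ 2 / 9) (hX : X ∈ Tub u h) (y₀ : E m) :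
    Gf u y₀ X = Kz u X (dgUp u y₀ (npr u X)) + zz u X :=
  (dg_hasGradientAt_dsq hu hh hX y₀).gradient

theorem dg_Yf_eq (u : E m → E n) (y₀ : E m) (X : E (m + n)) :
    Yf u y₀ X = Jz u X (dgU u y₀ (npr u X)) + zz u X := rfl

theorem dg_inner_of_Ph (u : E m → E n) (y : E m) {a b : E (m + n)} (ha : Ph u y a = a)
    (hb : Ph u y b = 0) : inner ℝ a b = (0 : ℝ) := by
  rw [← ha, dg_Ph_symm, hb, inner_zero_right]

theorem dg_Ph_JzU (hu : Geo κ u) (y₀ : E m) (X : E (m + n)) :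
    Ph u (npr u X) (Jz u X (dgU u y₀ (npr u X))) = Jz u X (dgU u y₀ (npr u X)) := by
  rw [dg_Ph_Jz hu, dg_Ph_U]

theorem dg_Ph_KzUp (hu : Geo κ u) (hh : h ≤ 2 / 9) (hX : X ∈ Tub u h) (y₀ : E m) :
    Ph u (npr u X) (Kz u X (dgUp u y₀ (npr u X))) = Kz u X (dgUp u y₀ (npr u X)) := by
  rw [dg_Ph_Kz hu hh hX, dg_Ph_Up]

/-- (1) `Y·G = d²` -/
theorem dg_inner_Y_G (hu : Geo κ u) (hh : h ≤ 2 / 9) (hX : X ∈ Tub u h) (y₀ : E m) :
    inner ℝ (Yf u y₀ X) (Gf u y₀ X) = dsq u y₀ X := by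
  rw [dg_Gf_eq hu hh hX, dg_Yf_eq, inner_add_left, inner_add_right, inner_add_right,
    dg_inner_of_Ph u _ (dg_Ph_JzU hu y₀ X) (dg_Ph_zz hu hh hX),
    real_inner_comm (Kz u X (dgUp u y₀ (npr u X))) (zz u X),
    dg_inner_of_Ph u _ (dg_Ph_KzUp hu hh hX y₀) (dg_Ph_zz hu hh hX),
    dg_Jz_symm hu, dg_Jz_Kz hu hh hX, dg_inner_U_Up, real_inner_self_eq_norm_sq, dsq]
  ring

/-! ### 3. sizes -/

theorem dg_norm_dF_apply_le (hu : Geo κ u) (y α : E m) :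
    ‖dF (fderiv ℝ u y) α‖ ≤ 3 / 2 * ‖α‖ := by
  refine (norm_dF_apply_le _ _).trans ?_
  have := hu.slope y
  gcongr
  linarith

theorem dg_norm_adj_apply_le (hu : Geo κ u) (y : E m) (b : E n) :
    ‖adj (fderiv ℝ u y) b‖ ≤ 1 / 2 * ‖b‖ := by
  refine ((adj (fderiv ℝ u y)).le_opNorm b).trans ?_
  rw [ContinuousLinearMap.adjoint.norm_map]
  gcongr
  exact hu.slope y

theorem dg_norm_Du_apply_le (hu : Geo κ u) (y α : E m) :
    ‖fderiv ℝ u y α‖ ≤ 1 / 2 * ‖α‖ := by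
  refine ((fderiv ℝ u y).le_opNorm α).trans ?_
  gcongr
  exact hu.slope y

theorem dg_gmat_apply (A : E m →L[ℝ] E n) (α : E m) : gmat A α = α + adj A (A α) := rfl

theorem dg_norm_gmat_apply_le (hu : Geo κ u) (y α : E m) :
    ‖gmat (fderiv ℝ u y) α‖ ≤ 5 / 4 * ‖α‖ := by
  rw [dg_gmat_apply]
  have h1 := dg_norm_adj_apply_le hu y (fderiv ℝ u y α)
  have h2 := dg_norm_Du_apply_le hu y α
  have h3 := norm_add_le α (adj (fderiv ℝ u y) (fderiv ℝ u y α))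
  linarith

theorem dg_norm_U_le (hu : Geo κ u) (y₀ y : E m) : ‖dgU u y₀ y‖ ≤ 3 / 2 * ‖y - y₀‖ :=
  dg_norm_dF_apply_le hu _ _

theorem dg_norm_Up_le (hu : Geo κ u) (y₀ y : E m) : ‖dgUp u y₀ y‖ ≤ 15 / 8 * ‖y - y₀‖ := by
  have h1 := dg_norm_dF_apply_le hu y
    ((gmat (fderiv ℝ u y)).inverse (gmat (fderiv ℝ u y₀) (y - y₀)))
  have h2 := norm_gmat_inverse_apply_le (fderiv ℝ u y) (gmat (fderiv ℝ u y₀) (y - y₀))
  have h3 := dg_norm_gmat_apply_le hu y₀ (y - y₀)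
  rw [dgUp]
  linarith

theorem dg_norm_sq_le_rho2 (u : E m → E n) (y₀ y : E m) : ‖y - y₀‖ ^ 2 ≤ rho2 u y₀ y := by
  rw [rho2]
  exact pow_le_pow_left₀ (norm_nonneg _) (norm_le_norm_dF _ _) 2

/-- `‖(g(y) - g(y₀)) v‖ ≤ κ |y - y₀| |v|` -/
theorem dg_norm_gmat_sub_le (hu : Geo κ u) (y₀ y α : E m) :
    ‖gmat (fderiv ℝ u y) α - gmat (fderiv ℝ u y₀) α‖ ≤ κ * ‖y - y₀‖ * ‖α‖ := by
  have hd := hu.norm_Du_sub_le y₀ y
  have e : gmat (fderiv ℝ u y) α - gmat (fderiv ℝ u y₀) α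
      = adj (fderiv ℝ u y) ((fderiv ℝ u y - fderiv ℝ u y₀) α)
        + adj (fderiv ℝ u y - fderiv ℝ u y₀) (fderiv ℝ u y₀ α) := by
    simp only [dg_gmat_apply, map_sub, sub_apply]
    abel
  rw [e]
  have h1 : ‖adj (fderiv ℝ u y) ((fderiv ℝ u y - fderiv ℝ u y₀) α)‖
      ≤ 1 / 2 * (κ * ‖y - y₀‖ * ‖α‖) := by
    refine (dg_norm_adj_apply_le hu y _).trans ?_
    gcongr
    exact ((fderiv ℝ u y - fderiv ℝ u y₀).le_opNorm α).trans (by gcongr)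
  have h2 : ‖adj (fderiv ℝ u y - fderiv ℝ u y₀) (fderiv ℝ u y₀ α)‖
      ≤ (κ * ‖y - y₀‖) * (1 / 2 * ‖α‖) := by
    refine ((adj (fderiv ℝ u y - fderiv ℝ u y₀)).le_opNorm _).trans ?_
    rw [ContinuousLinearMap.adjoint.norm_map]
    exact mul_le_mul hd (dg_norm_Du_apply_le hu y₀ α) (norm_nonneg _)
      (mul_nonneg hu.nonneg (norm_nonneg _))
  have h3 := norm_add_le (adj (fderiv ℝ u y) ((fderiv ℝ u y - fderiv ℝ u y₀) α))
    (adj (fderiv ℝ u y - fderiv ℝ u y₀) (fderiv ℝ u y₀ α))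
  linarith

/-- `Δ₀ = U - U'` -/
theorem dg_norm_U_sub_Up_le (hu : Geo κ u) (y₀ y : E m) :
    ‖dgU u y₀ y - dgUp u y₀ y‖ ≤ 3 / 2 * κ * ‖y - y₀‖ ^ 2 := by
  have e : dgU u y₀ y - dgUp u y₀ y = dF (fderiv ℝ u y) ((gmat (fderiv ℝ u y)).inverse
      (gmat (fderiv ℝ u y) (y - y₀) - gmat (fderiv ℝ u y₀) (y - y₀))) := by
    rw [map_sub, gmat_inverse_apply_gmat, map_sub]
    rfl
  rw [e]
  have h1 := dg_norm_dF_apply_le hu y ((gmat (fderiv ℝ u y)).inverse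
      (gmat (fderiv ℝ u y) (y - y₀) - gmat (fderiv ℝ u y₀) (y - y₀)))
  have h2 := norm_gmat_inverse_apply_le (fderiv ℝ u y)
    (gmat (fderiv ℝ u y) (y - y₀) - gmat (fderiv ℝ u y₀) (y - y₀))
  have h3 := dg_norm_gmat_sub_le hu y₀ y (y - y₀)
  nlinarith

/-- the remainder `R = - A_z U - A_z K_z U'` -/
noncomputable def dgR (u : E m → E n) (y₀ : E m) (X : E (m + n)) : E (m + n) :=
  - Shp u (npr u X) (zz u X) (dgU u y₀ (npr u X))
    - Shp u (npr u X) (zz u X) (Kz u X (dgUp u y₀ (npr u X)))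

theorem dg_Y_sub_G (hu : Geo κ u) (hh : h ≤ 2 / 9) (hX : X ∈ Tub u h) (y₀ : E m) :
    Yf u y₀ X = Gf u y₀ X + (dgU u y₀ (npr u X) - dgUp u y₀ (npr u X)) + dgR u y₀ X := by
  have h1 : Kz u X (dgUp u y₀ (npr u X)) = dgUp u y₀ (npr u X)
      + Shp u (npr u X) (zz u X) (Kz u X (dgUp u y₀ (npr u X))) :=
    congrArg (fun T : E (m + n) →L[ℝ] E (m + n) => T (dgUp u y₀ (npr u X)))
      (Kw_eq_add (dg_Shp_le_half hu hh hX))
  rw [dg_Gf_eq hu hh hX, dg_Yf_eq, dg_Jz_apply, dgR]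
  generalize Kz u X (dgUp u y₀ (npr u X)) = k at h1 ⊢
  generalize Shp u (npr u X) (zz u X) k = sk at h1 ⊢
  rw [h1]
  abel

theorem dg_norm_R_le (hu : Geo κ u) (hh : h ≤ 2 / 9) (hX : X ∈ Tub u h) (y₀ : E m) :
    ‖dgR u y₀ X‖ ≤ 12 * κ * ‖zz u X‖ * ‖npr u X - y₀‖ := by
  have hS := hu.norm_Shp_le (npr u X) (zz u X)
  have hκ := hu.nonneg
  have h1 : ‖Shp u (npr u X) (zz u X) (dgU u y₀ (npr u X))‖
      ≤ (9 / 4 * κ * ‖zz u X‖) * (3 / 2 * ‖npr u X - y₀‖) :=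
    ((Shp u (npr u X) (zz u X)).le_opNorm _).trans
      (mul_le_mul hS (dg_norm_U_le hu _ _) (norm_nonneg _) (by positivity))
  have h2 : ‖Shp u (npr u X) (zz u X) (Kz u X (dgUp u y₀ (npr u X)))‖
      ≤ (9 / 4 * κ * ‖zz u X‖) * (2 * (15 / 8 * ‖npr u X - y₀‖)) := by
    refine ((Shp u (npr u X) (zz u X)).le_opNorm _).trans
      (mul_le_mul hS ?_ (norm_nonneg _) (by positivity))
    refine (dg_norm_Kz_apply_le hu hh hX _).trans ?_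
    gcongr
    exact dg_norm_Up_le hu _ _
  have h3 : ‖dgR u y₀ X‖ ≤ ‖Shp u (npr u X) (zz u X) (dgU u y₀ (npr u X))‖
      + ‖Shp u (npr u X) (zz u X) (Kz u X (dgUp u y₀ (npr u X)))‖ := by
    rw [dgR]
    refine (norm_sub_le _ _).trans ?_
    rw [norm_neg]
  have h4 : 0 ≤ κ * ‖zz u X‖ * ‖npr u X - y₀‖ := by positivity
  nlinarith

theorem dg_norm_G_le (hu : Geo κ u) (hh : h ≤ 2 / 9) (hX : X ∈ Tub u h) (y₀ : E m) :
    ‖Gf u y₀ X‖ ≤ 15 / 4 * ‖npr u X - y₀‖ + ‖zz u X‖ := by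
  rw [dg_Gf_eq hu hh hX]
  have h1 := dg_norm_Kz_apply_le hu hh hX (dgUp u y₀ (npr u X))
  have h2 := dg_norm_Up_le hu y₀ (npr u X)
  have h3 := norm_add_le (Kz u X (dgUp u y₀ (npr u X))) (zz u X)
  linarith

/-! ### 4. the plane `P` -/

variable {P : E (m + n) →L[ℝ] E (m + n)}

theorem dg_QH' (hP : IsProj m P) (u : E m → E n) (X : E (m + n)) {a : E (m + n)}
    (ha : Ph u (npr u X) a = a) : ‖a - P a‖ ≤ Real.sqrt (tilt u P X) * ‖a‖ := by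
  have h := dg_QH (isProj_Ph u (npr u X)) hP a
  rw [ha] at h
  exact h

/-- (2) `Y·(1-P)G ≥ ½ |(1-P)G|² - |R|² - e |Δ₀|²` -/
theorem dg_inner_Y_QG (hu : Geo κ u) (hh : h ≤ 2 / 9) (hX : X ∈ Tub u h) (y₀ : E m)
    (hP : IsProj m P) :
    1 / 2 * ‖Gf u y₀ X - P (Gf u y₀ X)‖ ^ 2 - (12 * κ * ‖zz u X‖ * ‖npr u X - y₀‖) ^ 2
        - tilt u P X * (3 / 2 * κ * ‖npr u X - y₀‖ ^ 2) ^ 2
      ≤ inner ℝ (Yf u y₀ X) (Gf u y₀ X - P (Gf u y₀ X)) := by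
  have he0 : 0 ≤ tilt u P X := tilt_nonneg u hP X
  rw [dg_Y_sub_G hu hh hX y₀, inner_add_left, inner_add_left]
  set G := Gf u y₀ X with hG
  set q := G - P G with hq
  set D0 := dgU u y₀ (npr u X) - dgUp u y₀ (npr u X) with hD0
  have h1 : inner ℝ G q = ‖q‖ ^ 2 := by
    rw [real_inner_comm, hq, dg_inner_compl hP, real_inner_self_eq_norm_sq]
  have hD0h : Ph u (npr u X) D0 = D0 := by rw [hD0, map_sub, dg_Ph_U, dg_Ph_Up]
  have h2 : -(‖q‖ * (Real.sqrt (tilt u P X) * ‖D0‖)) ≤ inner ℝ D0 q := by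
    rw [real_inner_comm, hq, dg_inner_compl hP, ← hq]
    have h3 := abs_real_inner_le_norm q (D0 - P D0)
    have h4 := dg_QH' hP u X hD0h
    have h5 : ‖q‖ * ‖D0 - P D0‖ ≤ ‖q‖ * (Real.sqrt (tilt u P X) * ‖D0‖) := by gcongr
    linarith [neg_abs_le (inner ℝ q (D0 - P D0))]
  have h3 : -(‖dgR u y₀ X‖ * ‖q‖) ≤ inner ℝ (dgR u y₀ X) q := by
    linarith [neg_abs_le (inner ℝ (dgR u y₀ X) q), abs_real_inner_le_norm (dgR u y₀ X) q]
  have h4 := dg_norm_R_le hu hh hX y₀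
  have h5 := dg_norm_U_sub_Up_le hu y₀ (npr u X)
  rw [← hD0] at h5
  have h6 : (Real.sqrt (tilt u P X) * ‖D0‖) ^ 2
      ≤ tilt u P X * (3 / 2 * κ * ‖npr u X - y₀‖ ^ 2) ^ 2 := by
    rw [mul_pow, Real.sq_sqrt he0]
    gcongr
  have h7 : ‖dgR u y₀ X‖ ^ 2 ≤ (12 * κ * ‖zz u X‖ * ‖npr u X - y₀‖) ^ 2 := by gcongr
  rw [h1]
  nlinarith [sq_nonneg (‖q‖ / 2 - Real.sqrt (tilt u P X) * ‖D0‖),
    sq_nonneg (‖q‖ / 2 - ‖dgR u y₀ X‖)]

/-- (3) `|z| ≤ |(1-P)G| + √e |G|` -/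
theorem dg_norm_zz_le (hu : Geo κ u) (hh : h ≤ 2 / 9) (hX : X ∈ Tub u h) (y₀ : E m)
    (hP : IsProj m P) :
    ‖zz u X‖ ≤ ‖Gf u y₀ X - P (Gf u y₀ X)‖ + Real.sqrt (tilt u P X) * ‖Gf u y₀ X‖ := by
  have h1 : zz u X = Gf u y₀ X - Ph u (npr u X) (Gf u y₀ X) := by
    rw [dg_Gf_eq hu hh hX, map_add, dg_Ph_KzUp hu hh hX, dg_Ph_zz hu hh hX]
    abel
  set G := Gf u y₀ X with hG
  have h2 : zz u X = ((G - P G) - Ph u (npr u X) (G - P G))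
      + (P G - Ph u (npr u X) (P G)) := by
    rw [h1, map_sub]
    abel
  have h3 := (isProj_Ph u (npr u X)).norm_sub_apply_le (G - P G)
  have h4 : ‖P G - Ph u (npr u X) (P G)‖ ≤ Real.sqrt (tilt u P X) * ‖G‖ :=
    dg_VP (isProj_Ph u (npr u X)) hP G
  calc ‖zz u X‖ = ‖((G - P G) - Ph u (npr u X) (G - P G)) + (P G - Ph u (npr u X) (P G))‖ := by
        rw [← h2]
    _ ≤ _ := (norm_add_le _ _).trans (add_le_add h3 h4)

end Tube2

end Claimed.Agent.R322.Dens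
end

/- ===== packed: Claimed.Agent.R322.Dens.GeomB ===== -/
section
/-!
# CO Section 6b, helpers for `Dens/Geom.lean` (P1, P2), second part: volume density, `∇^S U`,
the trace of `D(WY)`, the final inequality.  Prefix `dg_`.
-/

set_option autoImplicit false

open scoped ENNReal ContDiff Topology
open MeasureTheory

namespace Claimed.Agent.R322.Dens

open Claimed.Agent.R322.Tube Claimed.Agent.R322.Fn

local notation "adj" => ContinuousLinearMap.adjoint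
local notation "𝟙" => ContinuousLinearMap.id ℝ _

/-! ### 5. the volume density -/

section Dens

variable {m n : ℕ} {u : E m → E n} {κ : ℝ}

theorem dg_contDiff_vdensA : ContDiff ℝ ∞ (vdens : (E m →L[ℝ] E n) → ℝ) := by
  unfold vdens
  refine ContDiff.sqrt ((Base.contDiff_det m).comp contDiff_gmatA) fun A => ?_
  have := Base.Exit.one_le_det_gmat A
  exact ne_of_gt (by linarith)

theorem dg_contDiff_vdens (hu : ContDiff ℝ 4 u) : ContDiff ℝ 3 (fun y => vdens (fderiv ℝ u y)) :=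
  (dg_contDiff_vdensA.of_le (by norm_cast)).comp (contDiff_Du (k := 3) hu)

theorem dg_vdens_pos (A : E m →L[ℝ] E n) : 0 < vdens A :=
  lt_of_lt_of_le one_pos (Base.Exit.one_le_vdens A)

/-- `φ = log √g` -/
noncomputable def dgPhi (u : E m → E n) (y : E m) : ℝ := Real.log (vdens (fderiv ℝ u y))

theorem dg_contDiff_phi (hu : ContDiff ℝ 4 u) : ContDiff ℝ 3 (dgPhi u) :=
  (dg_contDiff_vdens hu).log fun _ => (dg_vdens_pos _).ne'

theorem dg_fderiv_phi (hu : ContDiff ℝ 4 u) (y α : E m) :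
    fderiv ℝ (dgPhi u) y α = trc ((gmat (fderiv ℝ u y)).inverse ∘L
          adj (fderiv ℝ u y) ∘L D2 u y α) := by
  have h1 : DifferentiableAt ℝ (fun y => vdens (fderiv ℝ u y)) y :=
    ((dg_contDiff_vdens hu).differentiable (by norm_num)) y
  have h2 := (h1.hasFDerivAt.log (dg_vdens_pos _).ne').fderiv
  have h3 : fderiv ℝ (dgPhi u) y = (vdens (fderiv ℝ u y))⁻¹ •
      fderiv ℝ (fun y => vdens (fderiv ℝ u y)) y := h2
  rw [h3, smul_apply, Base.Exit.fderiv_vdens (hu.of_le (by norm_num)), smul_eq_mul,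
    ← mul_assoc, inv_mul_cancel₀ (dg_vdens_pos _).ne', one_mul]

theorem dg_abs_fderiv_phi_le (hu : Geo κ u) (y α : E m) :
    |fderiv ℝ (dgPhi u) y α| ≤ m * κ * ‖α‖ := by
  rw [dg_fderiv_phi hu.smooth]
  refine (abs_trc_le _).trans ?_
  have h1 : ‖(gmat (fderiv ℝ u y)).inverse ∘L adj (fderiv ℝ u y) ∘L D2 u y α‖
      ≤ 1 * (1 * (κ * ‖α‖)) := by
    refine norm_comp_le _ _ (norm_gmat_inverse_le _) (norm_comp_le _ _ ?_ ?_)
    · rw [ContinuousLinearMap.adjoint.norm_map]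
      exact (hu.slope y).trans (by norm_num)
    · exact ((D2 u y).le_opNorm α).trans (by gcongr; exact hu.norm_D2_le y)
  calc (m : ℝ) * ‖(gmat (fderiv ℝ u y)).inverse ∘L adj (fderiv ℝ u y) ∘L D2 u y α‖
      ≤ m * (1 * (1 * (κ * ‖α‖))) := by gcongr
    _ = m * κ * ‖α‖ := by ring

theorem dg_norm_fderiv_phi_le (hu : Geo κ u) (y : E m) : ‖fderiv ℝ (dgPhi u) y‖ ≤ m * κ :=
  ContinuousLinearMap.opNorm_le_bound _ (mul_nonneg (Nat.cast_nonneg _) hu.nonneg) fun α => by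
    rw [Real.norm_eq_abs]; exact dg_abs_fderiv_phi_le hu y α

theorem dg_abs_phi_sub_le (hu : Geo κ u) (y₀ y : E m) :
    |dgPhi u y - dgPhi u y₀| ≤ m * κ * ‖y - y₀‖ := by
  have h := Convex.norm_image_sub_le_of_norm_fderiv_le (f := dgPhi u) (s := Set.univ)
    (fun x _ => ((dg_contDiff_phi hu.smooth).differentiable (by norm_num)) x)
    (fun x _ => dg_norm_fderiv_phi_le hu x) convex_univ (Set.mem_univ y₀) (Set.mem_univ y)
  rwa [Real.norm_eq_abs] at h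

theorem dg_Wd_eq_exp (u : E m → E n) (y₀ y : E m) :
    Wd u y₀ y = Real.exp (dgPhi u y₀ - dgPhi u y) := by
  rw [Real.exp_sub, dgPhi, dgPhi, Real.exp_log (dg_vdens_pos _), Real.exp_log (dg_vdens_pos _), Wd]

theorem dg_contDiff_Wd (hu : ContDiff ℝ 4 u) (y₀ : E m) : ContDiff ℝ 3 (Wd u y₀) := by
  have : Wd u y₀ = fun y => Real.exp (dgPhi u y₀ - dgPhi u y) := funext (dg_Wd_eq_exp u y₀)
  rw [this]
  exact (contDiff_const.sub (dg_contDiff_phi hu)).exp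

theorem dg_hasFDerivAt_Wd (hu : ContDiff ℝ 4 u) (y₀ y : E m) :
    HasFDerivAt (Wd u y₀) (-(Wd u y₀ y • fderiv ℝ (dgPhi u) y)) y := by
  have h1 : HasFDerivAt (dgPhi u) (fderiv ℝ (dgPhi u) y) y :=
    (((dg_contDiff_phi hu).differentiable (by norm_num)) y).hasFDerivAt
  have h2 := (h1.const_sub (dgPhi u y₀)).exp
  have : Wd u y₀ = fun y => Real.exp (dgPhi u y₀ - dgPhi u y) := funext (dg_Wd_eq_exp u y₀)
  rw [this]
  refine h2.congr_fderiv ?_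
  rw [smul_neg]

theorem dg_fderiv_Wd (hu : ContDiff ℝ 4 u) (y₀ y α : E m) :
    fderiv ℝ (Wd u y₀) y α = -(Wd u y₀ y * fderiv ℝ (dgPhi u) y α) := by
  rw [(dg_hasFDerivAt_Wd hu y₀ y).fderiv]
  rfl

/-- exact compensation -/
theorem dg_compensation (hu : ContDiff ℝ 4 u) (y₀ y : E m) :
    Wd u y₀ y * (divS u (fun y' => y' - y₀) y - m) + fderiv ℝ (Wd u y₀) y (y - y₀) = 0 := by
  have h1 : fderiv ℝ (fun y' : E m => y' - y₀) y = 𝟙 := by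
    rw [fderiv_sub_const]; exact fderiv_id
  have h2 : divS u (fun y' => y' - y₀) y = m + fderiv ℝ (dgPhi u) y (y - y₀) := by
    rw [divS, h1, trc_id]
    rfl
  rw [h2, dg_fderiv_Wd hu]
  ring

theorem dg_Wd_bounds (hu : Geo κ u) (y₀ y : E m) (hs : m * κ * ‖y - y₀‖ ≤ 1 / 2) :
    1 / 2 ≤ Wd u y₀ y ∧ Wd u y₀ y ≤ 2 := by
  have h := abs_le.1 (dg_abs_phi_sub_le hu y₀ y)
  rw [dg_Wd_eq_exp]
  constructor
  · have h1 := Real.add_one_le_exp (dgPhi u y₀ - dgPhi u y)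
    linarith [h.2]
  · have h1 := Real.add_one_le_exp (-(dgPhi u y₀ - dgPhi u y))
    rw [Real.exp_neg] at h1
    have h2 : 0 < Real.exp (dgPhi u y₀ - dgPhi u y) := Real.exp_pos _
    have h3 : (1 : ℝ) / 2 ≤ (Real.exp (dgPhi u y₀ - dgPhi u y))⁻¹ := by linarith [h.1]
    have h4 : (1 : ℝ) / 2 * Real.exp (dgPhi u y₀ - dgPhi u y) ≤ 1 := by
      calc (1 : ℝ) / 2 * Real.exp (dgPhi u y₀ - dgPhi u y)
          ≤ (Real.exp (dgPhi u y₀ - dgPhi u y))⁻¹ * Real.exp (dgPhi u y₀ - dgPhi u y) := by gcongr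
        _ = 1 := inv_mul_cancel₀ h2.ne'
    linarith

end Dens

/-! ### 6. the covariant derivative of the coordinate radial field -/

section Nab

variable {m n : ℕ} {u : E m → E n} {κ : ℝ}

/-- `α ↦ inV (D²u(y)(α, v))` -/
noncomputable def dgW2 (u : E m → E n) (y v : E m) : E m →L[ℝ] E (m + n) :=
  ((ContinuousLinearMap.compL ℝ (E m) (E n) (E (m + n)) (inV m n)) ∘L D2 u y).flip v

theorem dg_W2_apply (u : E m → E n) (y v α : E m) : dgW2 u y v α = inV m n (D2 u y α v) := rfl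

theorem dg_norm_W2_le (hu : Geo κ u) (y v : E m) : ‖dgW2 u y v‖ ≤ κ * ‖v‖ := by
  refine ContinuousLinearMap.opNorm_le_bound _ (mul_nonneg hu.nonneg (norm_nonneg _)) fun α => ?_
  rw [dg_W2_apply, norm_inV]
  have h1 := (D2 u y α).le_opNorm v
  have h2 := (D2 u y).le_opNorm α
  have h3 := hu.norm_D2_le y
  calc ‖D2 u y α v‖ ≤ ‖D2 u y α‖ * ‖v‖ := h1
    _ ≤ (κ * ‖α‖) * ‖v‖ := by
        gcongr
        exact h2.trans (by gcongr)
    _ = κ * ‖v‖ * ‖α‖ := by ring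

theorem dg_hasFDerivAt_tanF (hu : ContDiff ℝ 2 u) (y₀ y : E m) :
    HasFDerivAt (tanF u (fun y' => y' - y₀)) (dF (fderiv ℝ u y) + dgW2 u y (y - y₀)) y := by
  have h1 := hasFDerivAt_dF_Du (y := y) hu
  have h2 : HasFDerivAt (fun y' : E m => y' - y₀) 𝟙 y := (hasFDerivAt_id y).sub_const y₀
  exact (h1.clm_apply h2).congr_fderiv (by rw [ContinuousLinearMap.comp_id]; rfl)

/-- `N₁ = P_h ∘ inV D²u(·, v) ∘ dFp` -/
noncomputable def dgN1 (u : E m → E n) (y₀ y : E m) : E (m + n) →L[ℝ] E (m + n) :=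
  Ph u y ∘L dgW2 u y (y - y₀) ∘L dFp (fderiv ℝ u y)

theorem dg_nabS_eq (hu : ContDiff ℝ 2 u) (y₀ y : E m) :
    nabS u (fun y' => y' - y₀) y = Ph u y + dgN1 u y₀ y := by
  rw [nabS, (dg_hasFDerivAt_tanF hu y₀ y).fderiv, ContinuousLinearMap.add_comp,
    ContinuousLinearMap.comp_add, ← Ph_eq, Ph_comp_Ph, dgN1]

theorem dg_norm_dFp_le (hu : Geo κ u) (y : E m) : ‖dFp (fderiv ℝ u y)‖ ≤ 3 / 2 :=
  (norm_dFp_le _).trans (by linarith [hu.slope y])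

theorem dg_norm_N1_le (hu : Geo κ u) (y₀ y : E m) :
    ‖dgN1 u y₀ y‖ ≤ 3 / 2 * κ * ‖y - y₀‖ := by
  have h := norm_comp_le _ _ (norm_Ph_le u y)
    (norm_comp_le _ _ (dg_norm_W2_le hu y (y - y₀)) (dg_norm_dFp_le hu y))
  rw [dgN1]
  linarith

theorem dg_norm_nabS_le (hu : Geo κ u) (y₀ y : E m) :
    ‖nabS u (fun y' => y' - y₀) y‖ ≤ 1 + 3 / 2 * κ * ‖y - y₀‖ := by
  rw [dg_nabS_eq hu.c2]
  exact (norm_add_le _ _).trans (add_le_add (norm_Ph_le u y) (dg_norm_N1_le hu y₀ y))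

theorem dg_trc_Bop_nabS (hu : Geo κ u) {P : E (m + n) →L[ℝ] E (m + n)} (hP : IsProj m P)
    (y₀ : E m) (X : E (m + n)) :
    |trc (Bop u P X ∘L nabS u (fun y' => y' - y₀) (npr u X)) - tilt u P X|
      ≤ tilt u P X * (3 / 2 * κ * ‖npr u X - y₀‖) := by
  have h1 : Bop u P X ∘L Ph u (npr u X) = Bop u P X := by
    rw [Bop, ContinuousLinearMap.comp_assoc, ContinuousLinearMap.comp_assoc, Ph_comp_Ph]
  have h2 : tilt u P X = trc (Bop u P X) := (block_facts m n κ u hu X P hP).2.2.1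
  rw [dg_nabS_eq hu.c2, ContinuousLinearMap.comp_add, h1, trc_add, ← h2, add_sub_cancel_left]
  refine (abs_trc_Bop_comp_le u hP X _).trans ?_
  have := tilt_nonneg u hP X
  gcongr
  exact dg_norm_N1_le hu y₀ _

end Nab

/-! ### 7. the trace of `D(WY)` -/

section Trace

variable {m n : ℕ} {u : E m → E n} {κ h : ℝ} {X : E (m + n)} {P : E (m + n) →L[ℝ] E (m + n)}

theorem dg_dFp_Kz_Ph_Y (hu : Geo κ u) (hh : h ≤ 2 / 9) (hX : X ∈ Tub u h) (y₀ : E m) :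
    dFp (fderiv ℝ u (npr u X)) (Kz u X (Ph u (npr u X) (Yf u y₀ X))) = npr u X - y₀ := by
  rw [dg_Yf_eq, map_add, dg_Ph_JzU hu, dg_Ph_zz hu hh hX, add_zero, dg_Kz_Jz hu hh hX, dgU, dFp_dF]

theorem dg_norm_JzU_le (hu : Geo κ u) (hh : h ≤ 2 / 9) (hX : X ∈ Tub u h) (y₀ : E m) :
    ‖Jz u X (dgU u y₀ (npr u X))‖ ≤ 3 * ‖npr u X - y₀‖ := by
  have h1 : ‖Jz u X‖ ≤ 2 := norm_Jw_le (dg_Shp_le_half hu hh hX)
  have h2 := (Jz u X).le_opNorm (dgU u y₀ (npr u X))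
  have h3 := dg_norm_U_le hu y₀ (npr u X)
  have h4 : ‖Jz u X‖ * ‖dgU u y₀ (npr u X)‖ ≤ 2 * (3 / 2 * ‖npr u X - y₀‖) :=
    mul_le_mul h1 h3 (norm_nonneg _) (by norm_num)
  linarith

theorem dg_norm_Ph_QY_le (hu : Geo κ u) (hh : h ≤ 2 / 9) (hX : X ∈ Tub u h) (y₀ : E m)
    (hP : IsProj m P) :
    ‖Ph u (npr u X) (Yf u y₀ X - P (Yf u y₀ X))‖
      ≤ tilt u P X * (3 * ‖npr u X - y₀‖) + Real.sqrt (tilt u P X) * ‖zz u X‖ := by
  set Yh := Jz u X (dgU u y₀ (npr u X)) with hYh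
  have hYh' : Ph u (npr u X) Yh = Yh := dg_Ph_JzU hu y₀ X
  have hz := dg_Ph_zz hu hh hX
  have e1 : Ph u (npr u X) (Yf u y₀ X - P (Yf u y₀ X))
      = Ph u (npr u X) (Ph u (npr u X) Yh - P (Ph u (npr u X) Yh))
        - Ph u (npr u X) (P (zz u X - Ph u (npr u X) (zz u X))) := by
    rw [dg_Yf_eq, ← hYh, hYh', hz, sub_zero]
    simp only [map_add, map_sub, hz, hYh']
    abel
  rw [e1]
  have h1 : ‖Ph u (npr u X) (Ph u (npr u X) Yh - P (Ph u (npr u X) Yh))‖ ≤ tilt u P X * ‖Yh‖ :=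
    dg_HQH (isProj_Ph u (npr u X)) hP Yh
  have h2 : ‖Ph u (npr u X) (P (zz u X - Ph u (npr u X) (zz u X)))‖
      ≤ Real.sqrt (tilt u P X) * ‖zz u X‖ := dg_HPV (isProj_Ph u (npr u X)) hP (zz u X)
  have h3 : tilt u P X * ‖Yh‖ ≤ tilt u P X * (3 * ‖npr u X - y₀‖) :=
    mul_le_mul_of_nonneg_left (dg_norm_JzU_le hu hh hX y₀) (tilt_nonneg u hP X)
  exact (norm_sub_le _ _).trans (by linarith)

theorem dg_hasFDerivAt_Wnpr (hu : Geo κ u) (hh : h ≤ 2 / 9) (hX : X ∈ Tub u h) (y₀ : E m) :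
    HasFDerivAt (fun X' => Wd u y₀ (npr u X'))
      (fderiv ℝ (Wd u y₀) (npr u X) ∘L
        (dFp (fderiv ℝ u (npr u X)) ∘L Kz u X ∘L Ph u (npr u X))) X := by
  have h1 : HasFDerivAt (Wd u y₀) (fderiv ℝ (Wd u y₀) (npr u X)) (npr u X) :=
    (dg_hasFDerivAt_Wd hu.smooth y₀ (npr u X)).differentiableAt.hasFDerivAt
  exact h1.comp X (dg_hasFDerivAt_npr hu hh hX)

theorem dg_trace_formula (hu : Geo κ u) (hh : h ≤ 2 / 9) (hX : X ∈ Tub u h) (y₀ : E m)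
    (hl : DifferentiableAt ℝ (lift u (fun y' => y' - y₀)) X) :
    tdiv P (fderiv ℝ (WY u y₀) X) - m * Wd u y₀ (npr u X)
      = Wd u y₀ (npr u X) *
          ((tdiv P (fderiv ℝ (lift u (fun y' => y' - y₀)) X)
              - (divS u (fun y' => y' - y₀) (npr u X)
                  - trc (Bop u P X ∘L nabS u (fun y' => y' - y₀) (npr u X))))
            + (tdiv P (fderiv ℝ (zz u) X) - (tilt u P X - inner ℝ (HS u (npr u X)) (zz u X)))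
            - (trc (Bop u P X ∘L nabS u (fun y' => y' - y₀) (npr u X)) - tilt u P X)
            - inner ℝ (HS u (npr u X)) (zz u X))
        - fderiv ℝ (Wd u y₀) (npr u X) (dFp (fderiv ℝ u (npr u X))
            (Kz u X (Ph u (npr u X) (Yf u y₀ X - P (Yf u y₀ X))))) := by
  have hz := (dg_hasFDerivAt_zz hu hh hX).differentiableAt
  have ha := dg_hasFDerivAt_Wnpr hu hh hX y₀
  have hY : DifferentiableAt ℝ (Yf u y₀) X := hl.add hz
  have e1 : tdiv P (fderiv ℝ (WY u y₀) X)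
      = Wd u y₀ (npr u X) * tdiv P (fderiv ℝ (Yf u y₀) X)
        + fderiv ℝ (fun X' => Wd u y₀ (npr u X')) X (P (Yf u y₀ X)) :=
    tdiv_fderiv_smul P ha.differentiableAt hY
  have e2 : fderiv ℝ (Yf u y₀) X
      = fderiv ℝ (lift u (fun y' => y' - y₀)) X + fderiv ℝ (zz u) X := fderiv_add hl hz
  have e3 : fderiv ℝ (fun X' => Wd u y₀ (npr u X')) X (P (Yf u y₀ X))
      = fderiv ℝ (Wd u y₀) (npr u X) (npr u X - y₀)
        - fderiv ℝ (Wd u y₀) (npr u X) (dFp (fderiv ℝ u (npr u X))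
            (Kz u X (Ph u (npr u X) (Yf u y₀ X - P (Yf u y₀ X))))) := by
    rw [ha.fderiv, ← dg_dFp_Kz_Ph_Y hu hh hX y₀, ← map_sub, ← map_sub, ← map_sub, ← map_sub,
      sub_sub_cancel]
    rfl
  have e4 := dg_compensation hu.smooth y₀ (npr u X)
  rw [e1, e2, tdiv_add, e3]
  linear_combination e4

end Trace

/-! ### 8. two inequalities between real numbers -/

theorem dg_real_T {κ a t e se ζ r W CL CN M nab sD EL EN Etr Hz DWt : ℝ}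
    (hκ0 : 0 ≤ κ) (hκ1 : κ ≤ 1) (ha : 0 ≤ a) (ht : t ≤ 1) (he : 0 ≤ e)
    (hse : 0 ≤ se) (hζ0 : 0 ≤ ζ) (hζ : ζ ≤ t) (hr0 : 0 ≤ r) (hr : r ≤ t) (hW0 : 0 ≤ W) (hW : W ≤ 2)
    (hCL : 0 ≤ CL) (hCN : 0 ≤ CN) (hM : 0 ≤ M)
    (hnab : nab ≤ 1 + 3 / 2 * κ * r) (hsD : sD ≤ κ * a)
    (hEL : |EL| ≤ CL * (κ * ζ * e * nab
      + (sD * ζ + κ ^ 2 * ζ ^ 2 + κ * e * ζ + κ ^ 2 * se * ζ) * r))
    (hEN : |EN| ≤ CN * (κ ^ 2 * ζ ^ 2 + κ * e * ζ))
    (hEtr : |Etr| ≤ e * (3 / 2 * κ * r))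
    (hHz : |Hz| ≤ κ * a * ζ)
    (hDW : |DWt| ≤ W * (M * κ * (3 * (e * (3 * r) + se * ζ)))) :
    |W * (EL + EN - Etr - Hz) - DWt|
      ≤ (7 * CL + 2 * CN + 5 + 18 * M) * κ * (e * t + se * ζ + a * ζ + ζ ^ 2) := by
  have ht0 : 0 ≤ t := hζ0.trans hζ
  have hr1 : r ≤ 1 := hr.trans ht
  set S := e * t + se * ζ + a * ζ + ζ ^ 2 with hS
  have s1 : 0 ≤ e * t := by positivity
  have s2 : 0 ≤ se * ζ := by positivity
  have s3 : 0 ≤ a * ζ := by positivity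
  have s4 : 0 ≤ ζ ^ 2 := by positivity
  have hκ2 : κ ^ 2 ≤ κ := by nlinarith
  -- E_L
  have l1 : κ * ζ * e * nab ≤ κ * (5 / 2 * (e * t)) := by
    have h1 : nab ≤ 5 / 2 := by nlinarith
    have h2 : ζ * e * nab ≤ t * e * (5 / 2) := by
      have : 0 ≤ ζ * e := by positivity
      calc ζ * e * nab ≤ ζ * e * (5 / 2) := by gcongr
        _ ≤ t * e * (5 / 2) := by gcongr
    calc κ * ζ * e * nab = κ * (ζ * e * nab) := by ring
      _ ≤ κ * (t * e * (5 / 2)) := by gcongr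
      _ = κ * (5 / 2 * (e * t)) := by ring
  have l2 : (sD * ζ + κ ^ 2 * ζ ^ 2 + κ * e * ζ + κ ^ 2 * se * ζ) * r
      ≤ κ * (a * ζ + ζ ^ 2 + e * t + se * ζ) := by
    have h1 : sD * ζ ≤ κ * (a * ζ) := by
      calc sD * ζ ≤ κ * a * ζ := by gcongr
        _ = κ * (a * ζ) := by ring
    have h2 : κ ^ 2 * ζ ^ 2 ≤ κ * ζ ^ 2 := by gcongr
    have h3 : κ * e * ζ ≤ κ * (e * t) := by
      calc κ * e * ζ ≤ κ * e * t := by gcongr
        _ = κ * (e * t) := by ring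
    have h4 : κ ^ 2 * se * ζ ≤ κ * (se * ζ) := by
      calc κ ^ 2 * se * ζ ≤ κ * se * ζ := by gcongr
        _ = κ * (se * ζ) := by ring
    have h5 : sD * ζ + κ ^ 2 * ζ ^ 2 + κ * e * ζ + κ ^ 2 * se * ζ
        ≤ κ * (a * ζ + ζ ^ 2 + e * t + se * ζ) := by linarith
    have h6 : 0 ≤ κ * (a * ζ + ζ ^ 2 + e * t + se * ζ) := by positivity
    calc (sD * ζ + κ ^ 2 * ζ ^ 2 + κ * e * ζ + κ ^ 2 * se * ζ) * r
        ≤ (κ * (a * ζ + ζ ^ 2 + e * t + se * ζ)) * r := by gcongr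
      _ ≤ (κ * (a * ζ + ζ ^ 2 + e * t + se * ζ)) * 1 := by gcongr
      _ = _ := mul_one _
  have hEL' : |EL| ≤ 7 / 2 * CL * (κ * S) := by
    refine hEL.trans ?_
    have h1 : κ * ζ * e * nab + (sD * ζ + κ ^ 2 * ζ ^ 2 + κ * e * ζ + κ ^ 2 * se * ζ) * r
        ≤ 7 / 2 * (κ * S) := by
      have : κ * (5 / 2 * (e * t)) + κ * (a * ζ + ζ ^ 2 + e * t + se * ζ) ≤ 7 / 2 * (κ * S) := by
        have h2 : 5 / 2 * (e * t) + (a * ζ + ζ ^ 2 + e * t + se * ζ) ≤ 7 / 2 * S := by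
          rw [hS]; linarith
        calc κ * (5 / 2 * (e * t)) + κ * (a * ζ + ζ ^ 2 + e * t + se * ζ)
            = κ * (5 / 2 * (e * t) + (a * ζ + ζ ^ 2 + e * t + se * ζ)) := by ring
          _ ≤ κ * (7 / 2 * S) := by gcongr
          _ = 7 / 2 * (κ * S) := by ring
      linarith
    calc CL * (κ * ζ * e * nab + (sD * ζ + κ ^ 2 * ζ ^ 2 + κ * e * ζ + κ ^ 2 * se * ζ) * r)
        ≤ CL * (7 / 2 * (κ * S)) := by gcongr
      _ = 7 / 2 * CL * (κ * S) := by ring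
  have hEN' : |EN| ≤ CN * (κ * S) := by
    refine hEN.trans ?_
    have h2 : κ ^ 2 * ζ ^ 2 ≤ κ * ζ ^ 2 := by gcongr
    have h3 : κ * e * ζ ≤ κ * (e * t) := by
      calc κ * e * ζ ≤ κ * e * t := by gcongr
        _ = κ * (e * t) := by ring
    have h4 : κ * ζ ^ 2 + κ * (e * t) ≤ κ * S := by
      have : ζ ^ 2 + e * t ≤ S := by rw [hS]; linarith
      calc κ * ζ ^ 2 + κ * (e * t) = κ * (ζ ^ 2 + e * t) := by ring
        _ ≤ κ * S := by gcongr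
    gcongr
    linarith
  have hEtr' : |Etr| ≤ 3 / 2 * (κ * S) := by
    refine hEtr.trans ?_
    have h1 : e * r ≤ S := by
      have : e * r ≤ e * t := by gcongr
      rw [hS]; linarith
    calc e * (3 / 2 * κ * r) = 3 / 2 * (κ * (e * r)) := by ring
      _ ≤ 3 / 2 * (κ * S) := by gcongr
  have hHz' : |Hz| ≤ κ * S := by
    refine hHz.trans ?_
    have h1 : a * ζ ≤ S := by rw [hS]; linarith
    calc κ * a * ζ = κ * (a * ζ) := by ring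
      _ ≤ κ * S := by gcongr
  have hDW' : |DWt| ≤ 18 * M * (κ * S) := by
    refine hDW.trans ?_
    have h1 : 3 * (e * (3 * r) + se * ζ) ≤ 9 * S := by
      have : e * r ≤ e * t := by gcongr
      rw [hS]; nlinarith
    have h2 : 0 ≤ M * κ * (3 * (e * (3 * r) + se * ζ)) := by positivity
    calc W * (M * κ * (3 * (e * (3 * r) + se * ζ)))
        ≤ 2 * (M * κ * (3 * (e * (3 * r) + se * ζ))) := by gcongr
      _ ≤ 2 * (M * κ * (9 * S)) := by gcongr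
      _ = 18 * M * (κ * S) := by ring
  have hsum : |EL + EN - Etr - Hz| ≤ (7 / 2 * CL + CN + 5 / 2) * (κ * S) := by
    have h1 : |EL + EN - Etr - Hz| ≤ |EL| + |EN| + |Etr| + |Hz| := by
      refine (abs_sub _ _).trans ?_
      gcongr
      refine (abs_sub _ _).trans ?_
      gcongr
      exact abs_add_le _ _
    linarith
  have hκS : 0 ≤ κ * S := by positivity
  calc |W * (EL + EN - Etr - Hz) - DWt| ≤ |W * (EL + EN - Etr - Hz)| + |DWt| := abs_sub _ _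
    _ = W * |EL + EN - Etr - Hz| + |DWt| := by rw [abs_mul, abs_of_nonneg hW0]
    _ ≤ 2 * ((7 / 2 * CL + CN + 5 / 2) * (κ * S)) + 18 * M * (κ * S) := by
        gcongr
    _ = (7 * CL + 2 * CN + 5 + 18 * M) * κ * S := by ring

theorem dg_real_S {a t e se ζ b B : ℝ} (ht0 : 0 < t) (ht : t ≤ 1) (he : 0 ≤ e) (hse : se ^ 2 = e)
    (hζ0 : 0 ≤ ζ) (hB0 : 0 ≤ B) (hb2 : b ^ 2 = B * t ^ 2) (hζ : ζ ≤ b + se * (5 * t)) :
    ζ ^ 2 ≤ t * (2 * B + 50 * e) ∧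
      e * t + se * ζ + a * ζ + ζ ^ 2 ≤ t * (4 * B + 102 * (e + a ^ 2)) := by
  have z1 : ζ ^ 2 ≤ t ^ 2 * (2 * B + 50 * e) := by
    have h1 : ζ ^ 2 ≤ (b + se * (5 * t)) ^ 2 := by gcongr
    have h2 : (b + se * (5 * t)) ^ 2 ≤ 2 * b ^ 2 + 50 * t ^ 2 * se ^ 2 := by
      have := sq_nonneg (b - se * (5 * t))
      linarith
    rw [hse, hb2] at h2
    linarith
  have hBe : 0 ≤ 2 * B + 50 * e := by positivity
  have z1' : ζ ^ 2 ≤ t * (2 * B + 50 * e) := by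
    have h3 : t ^ 2 ≤ t := by
      calc t ^ 2 = t * t := sq t
        _ ≤ t * 1 := by gcongr
        _ = t := mul_one t
    have : t ^ 2 * (2 * B + 50 * e) ≤ t * (2 * B + 50 * e) := by gcongr
    linarith
  have z2 : se * ζ ≤ t * (B + 51 / 2 * e) := by
    have h1 : 2 * t * (se * ζ) ≤ t ^ 2 * e + ζ ^ 2 := by
      rw [← hse]
      have := sq_nonneg (t * se - ζ)
      linarith
    have h2 : t * (se * ζ) ≤ t * (t * (B + 51 / 2 * e)) := by linarith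
    exact le_of_mul_le_mul_left h2 ht0
  have z3 : a * ζ ≤ t * (1 / 2 * a ^ 2 + B + 25 * e) := by
    have h1 : 2 * t * (a * ζ) ≤ t ^ 2 * a ^ 2 + ζ ^ 2 := by
      have := sq_nonneg (t * a - ζ)
      linarith
    have h2 : t * (a * ζ) ≤ t * (t * (1 / 2 * a ^ 2 + B + 25 * e)) := by linarith
    exact le_of_mul_le_mul_left h2 ht0
  refine ⟨z1', ?_⟩
  have q1 : 0 ≤ t * a ^ 2 := by positivity
  have q2 : 0 ≤ t * e := by positivity
  linarith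

theorem dg_real_I {κ t e ζ r b B IQ I' : ℝ} (hκ0 : 0 ≤ κ) (hκ1 : κ ≤ 1)
    (ht0 : 0 < t) (ht : t ≤ 1) (he : 0 ≤ e) (hζ0 : 0 ≤ ζ) (hr0 : 0 ≤ r) (hr : r ≤ t)
    (hB0 : 0 ≤ B) (hb2 : b ^ 2 = B * t ^ 2) (hIQ' : IQ = I' * t ^ 2)
    (z1' : ζ ^ 2 ≤ t * (2 * B + 50 * e))
    (hIQ : 1 / 2 * b ^ 2 - (12 * κ * ζ * r) ^ 2 - e * (3 / 2 * κ * r ^ 2) ^ 2 ≤ IQ) :
    1 / 2 * B - κ * t * (288 * B + 7203 * e) ≤ I' := by
  have ht2 : 0 < t ^ 2 := by positivity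
  have hκ2 : κ ^ 2 ≤ κ := by
    calc κ ^ 2 = κ * κ := sq κ
      _ ≤ κ * 1 := by gcongr
      _ = κ := mul_one κ
  have h1 : (12 * κ * ζ * r) ^ 2 ≤ t ^ 2 * (κ * t * (288 * B + 7200 * e)) := by
    have a1 : r ^ 2 ≤ t ^ 2 := by gcongr
    calc (12 * κ * ζ * r) ^ 2 = 144 * κ ^ 2 * ζ ^ 2 * r ^ 2 := by ring
      _ ≤ 144 * κ * (t * (2 * B + 50 * e)) * t ^ 2 := by gcongr
      _ = t ^ 2 * (κ * t * (288 * B + 7200 * e)) := by ring
  have h2 : e * (3 / 2 * κ * r ^ 2) ^ 2 ≤ t ^ 2 * (κ * t * (3 * e)) := by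
    have a1 : r ^ 4 ≤ t ^ 4 := by gcongr
    have a2 : t ^ 4 ≤ t ^ 3 := by
      calc t ^ 4 = t ^ 3 * t := by ring
        _ ≤ t ^ 3 * 1 := by gcongr
        _ = t ^ 3 := mul_one _
    calc e * (3 / 2 * κ * r ^ 2) ^ 2 = 9 / 4 * e * κ ^ 2 * r ^ 4 := by ring
      _ ≤ 9 / 4 * e * κ * t ^ 3 := by gcongr; exact a1.trans a2
      _ ≤ 3 * e * κ * t ^ 3 := by gcongr; norm_num
      _ = t ^ 2 * (κ * t * (3 * e)) := by ring
  have h3 : t ^ 2 * (1 / 2 * B - κ * t * (288 * B + 7203 * e)) ≤ t ^ 2 * I' := by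
    have e0 : t ^ 2 * I' = IQ := by rw [hIQ']; ring
    rw [e0]
    have e1 : t ^ 2 * (1 / 2 * B - κ * t * (288 * B + 7203 * e))
        = 1 / 2 * b ^ 2 - t ^ 2 * (κ * t * (288 * B + 7200 * e)) - t ^ 2 * (κ * t * (3 * e)) := by
      rw [hb2]; ring
    rw [e1]
    linarith
  exact le_of_mul_le_mul_left h3 ht2

theorem dg_real_final {κ a t e se ζ r b W Ψ Φ IQ T C₁ : ℝ}
    (hκ0 : 0 ≤ κ) (hκ : κ * (4 * (4 * C₁ + 576)) ≤ 1) (hκ1 : κ ≤ 1)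
    (ht0 : 0 < t) (ht : t ≤ 1) (he : 0 ≤ e) (hse : se ^ 2 = e)
    (hζ0 : 0 ≤ ζ) (hr0 : 0 ≤ r) (hr : r ≤ t) (hW : 1 / 2 ≤ W)
    (hW2 : W ≤ 2) (hΦ0 : 0 ≤ Φ) (hΦ : Φ ≤ Ψ) (hΨ : Ψ ≤ 8) (hC₁ : 0 ≤ C₁)
    (hIQ : 1 / 2 * b ^ 2 - (12 * κ * ζ * r) ^ 2 - e * (3 / 2 * κ * r ^ 2) ^ 2 ≤ IQ)
    (hζ : ζ ≤ b + se * (5 * t))
    (hT : |T| ≤ C₁ * κ * (e * t + se * ζ + a * ζ + ζ ^ 2)) :
    -((8 * (102 * C₁ + 14406)) * κ * t * (e + a ^ 2)) ≤ Ψ / t ^ 2 * W * IQ + Φ * T := by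
  have hΨ0 : 0 ≤ Ψ := hΦ0.trans hΦ
  have ht2 : 0 < t ^ 2 := by positivity
  obtain ⟨B, hB⟩ : ∃ B : ℝ, B = b ^ 2 / t ^ 2 := ⟨_, rfl⟩
  have hB0 : 0 ≤ B := by rw [hB]; positivity
  have hb2 : b ^ 2 = B * t ^ 2 := by rw [hB]; field_simp
  obtain ⟨I', hI'⟩ : ∃ I' : ℝ, I' = IQ / t ^ 2 := ⟨_, rfl⟩
  have hIQ' : IQ = I' * t ^ 2 := by rw [hI']; field_simp
  obtain ⟨z1', hS⟩ := dg_real_S (a := a) ht0 ht he hse hζ0 hB0 hb2 hζ
  have hI := dg_real_I hκ0 hκ1 ht0 ht he hζ0 hr0 hr hB0 hb2 hIQ' z1' hIQ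
  have hT' : -(Ψ * (C₁ * κ * (t * (4 * B + 102 * (e + a ^ 2))))) ≤ Φ * T := by
    have h1 : |T| ≤ C₁ * κ * (t * (4 * B + 102 * (e + a ^ 2))) := by
      refine hT.trans ?_
      gcongr
    have h3 : Φ * |T| ≤ Ψ * (C₁ * κ * (t * (4 * B + 102 * (e + a ^ 2)))) :=
      mul_le_mul hΦ h1 (abs_nonneg _) hΨ0
    have h4 : Φ * (-|T|) ≤ Φ * T := mul_le_mul_of_nonneg_left (neg_abs_le T) hΦ0
    linarith
  have hmain : Ψ / t ^ 2 * W * IQ = Ψ * (W * I') := by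
    rw [hIQ']; field_simp
  have hWI : 1 / 4 * B - κ * t * (576 * B + 14406 * e) ≤ W * I' := by
    have h1 : 0 ≤ κ * t * (288 * B + 7203 * e) := by positivity
    have h2 : W * (1 / 2 * B - κ * t * (288 * B + 7203 * e)) ≤ W * I' := by
      have : 0 ≤ W := by linarith
      gcongr
    have h3 : 1 / 4 * B ≤ W * (1 / 2 * B) := by
      calc 1 / 4 * B = 1 / 2 * (1 / 2 * B) := by ring
        _ ≤ W * (1 / 2 * B) := by gcongr
    have h4 : W * (κ * t * (288 * B + 7203 * e)) ≤ 2 * (κ * t * (288 * B + 7203 * e)) := by gcongr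
    linarith
  rw [hmain]
  have h5 : Ψ * (1 / 4 * B - κ * t * (576 * B + 14406 * e)) ≤ Ψ * (W * I') := by gcongr
  have h6 : κ * t * (4 * C₁ + 576) ≤ 1 / 4 := by
    have h7 : κ * (4 * C₁ + 576) ≤ 1 / 4 := by linarith
    have h8 : 0 ≤ κ * (4 * C₁ + 576) := by positivity
    calc κ * t * (4 * C₁ + 576) = (κ * (4 * C₁ + 576)) * t := by ring
      _ ≤ (κ * (4 * C₁ + 576)) * 1 := by gcongr
      _ ≤ 1 / 4 := by linarith
  have h9 : 0 ≤ Ψ * B * (1 / 4 - κ * t * (4 * C₁ + 576)) := by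
    have : 0 ≤ 1 / 4 - κ * t * (4 * C₁ + 576) := by linarith
    positivity
  have h10 : Ψ * (κ * t * ((102 * C₁ + 14406) * (e + a ^ 2)))
      ≤ 8 * (κ * t * ((102 * C₁ + 14406) * (e + a ^ 2))) := by gcongr
  have h11 : 0 ≤ Ψ * (κ * t * (14406 * a ^ 2)) := by positivity
  linarith

end Claimed.Agent.R322.Dens
end

/- ===== packed: Claimed.Agent.R322.Dens.GeomKit ===== -/
section
/-!
# CO Section 6b: Taylor estimates for the graph map and the nearest point projection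

Kit for the leaves P3, P4, P5 of `Dens/Geom.lean`, stated for `Tube.Geo κ u`.
-/

set_option autoImplicit false

open scoped ENNReal ContDiff Topology
open MeasureTheory

namespace Claimed.Agent.R322.Dens

open Claimed.Agent.R322.Tube Claimed.Agent.R322.Fn

local notation "adj" => ContinuousLinearMap.adjoint
local notation "𝟙" => ContinuousLinearMap.id ℝ _

variable {m n : ℕ} {u : E m → E n} {κ : ℝ}

/-! ### the volume density -/

theorem gk_norm_trW_le (hu : Geo κ u) (y : E m) : ‖trW u y‖ ≤ m * (3 / 2 * κ) := by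
  refine ContinuousLinearMap.opNorm_le_bound _
    (mul_nonneg (Nat.cast_nonneg _) (mul_nonneg (by norm_num) hu.nonneg)) fun α => ?_
  rw [trW_apply, Real.norm_eq_abs]
  refine (abs_trc_le _).trans ?_
  have h1 := norm_comp_le' _ _ (hu.norm_dFp_le y) (hu.norm_Wop_le y α)
  calc (m : ℝ) * ‖dFp (fderiv ℝ u y) ∘L Wop u y α‖ ≤ m * (3 / 2 * (κ * ‖α‖)) := by gcongr
    _ = m * (3 / 2 * κ) * ‖α‖ := by ring

theorem gk_vdens_lip (m n : ℕ) : ∃ C : ℝ, 0 < C ∧ ∀ (κ : ℝ) (u : E m → E n), Geo κ u →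
    ∀ y y' : E m, |vdens (fderiv ℝ u y') - vdens (fderiv ℝ u y)| ≤ C * κ * ‖y' - y‖ := by
  obtain ⟨Cv, hCv, hv⟩ := Lin.exists_vdens_bound m n
  refine ⟨Cv * (m * (3 / 2)) + 1, by positivity, fun κ u hu y y' => ?_⟩
  have h1 := Convex.norm_image_sub_le_of_norm_hasFDerivWithin_le
    (f := fun y => vdens (fderiv ℝ u y)) (f' := fun y => vdens (fderiv ℝ u y) • trW u y)
    (C := Cv * (m * (3 / 2 * κ))) (s := Set.univ) (x := y) (y := y')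
    (fun t _ => (hasFDerivAt_vdens hu.c2 t).hasFDerivWithinAt)
    (fun t _ => by
      rw [norm_smul, Real.norm_eq_abs, abs_of_nonneg (vdens_nonneg _)]
      exact mul_le_mul (hv _ ((hu.slope t).trans (by norm_num))) (gk_norm_trW_le hu t)
        (norm_nonneg _) hCv.le)
    convex_univ (Set.mem_univ _) (Set.mem_univ _)
  rw [Real.norm_eq_abs] at h1
  refine h1.trans ?_
  have := mul_nonneg hu.nonneg (norm_nonneg (y' - y))
  nlinarith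

theorem gk_Wd_sub_one (m n : ℕ) : ∃ C : ℝ, 0 < C ∧ ∀ (κ : ℝ) (u : E m → E n), Geo κ u →
    ∀ y₀ y : E m, |Wd u y₀ y - 1| ≤ C * κ * ‖y - y₀‖ := by
  obtain ⟨C, hC, h⟩ := gk_vdens_lip m n
  refine ⟨C, hC, fun κ u hu y₀ y => ?_⟩
  have h1 := Base.Exit.one_le_vdens (fderiv ℝ u y)
  have h0 : 0 < vdens (fderiv ℝ u y) := by linarith
  unfold Wd
  rw [div_sub_one h0.ne', abs_div, abs_of_pos h0, div_le_iff₀ h0, abs_sub_comm]
  refine (h κ u hu y₀ y).trans ?_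
  have := mul_nonneg (mul_nonneg hC.le hu.nonneg) (norm_nonneg (y - y₀))
  nlinarith

/-! ### P3 -/

theorem gk_norm_sub_le (hu : Geo κ u) (y y' : E m) : ‖u y' - u y‖ ≤ 1 / 2 * ‖y' - y‖ :=
  Convex.norm_image_sub_le_of_norm_fderiv_le (s := Set.univ)
    (fun x _ => hu.differentiable x) (fun x _ => hu.slope x) convex_univ (Set.mem_univ _)
    (Set.mem_univ _)

theorem gk_norm_sq_le_rho2 (u : E m → E n) (y₀ y : E m) : ‖y - y₀‖ ^ 2 ≤ rho2 u y₀ y := by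
  unfold rho2
  have := norm_le_norm_dF (fderiv ℝ u y₀) (y - y₀)
  gcongr

theorem gk_dsq_aux (hu : Geo κ u) (y₀ y : E m) (z : E (m + n))
    (hadj : adj (dF (fderiv ℝ u y)) z = 0) (D : ℝ)
    (hD : D = ‖dF (fderiv ℝ u y₀) (y - y₀)‖ ^ 2 + ‖z‖ ^ 2) :
    |‖z + (Fg u y - Fg u y₀)‖ ^ 2 - D| ≤ 5 * κ * Real.sqrt D * D := by
  obtain ⟨v, hv⟩ : ∃ v, v = y - y₀ := ⟨_, rfl⟩
  obtain ⟨ρ, hρ⟩ : ∃ ρ, ρ = ‖dF (fderiv ℝ u y₀) v‖ := ⟨_, rfl⟩
  have hκ := hu.nonneg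
  obtain ⟨R₀, hR₀⟩ : ∃ R₀, R₀ = u y - u y₀ - fderiv ℝ u y₀ (y - y₀) := ⟨_, rfl⟩
  obtain ⟨R₁, hR₁⟩ : ∃ R₁, R₁ = u y₀ - u y - fderiv ℝ u y (y₀ - y) := ⟨_, rfl⟩
  have e2 : Fg u y - Fg u y₀ = dF (fderiv ℝ u y₀) v + inV m n R₀ := by
    rw [hv, hR₀]; exact Fg_sub u y₀ y
  have e3 : inner ℝ z (Fg u y - Fg u y₀) = - inner ℝ z (inV m n R₁) := by
    have : Fg u y - Fg u y₀ = - (Fg u y₀ - Fg u y) := by abel
    rw [this, Fg_sub u y y₀, inner_neg_right, inner_add_right,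
      ← ContinuousLinearMap.adjoint_inner_left, hadj, inner_zero_left, zero_add, hR₁]
  have hvρ : ‖v‖ ≤ ρ := by rw [hρ]; exact norm_le_norm_dF _ _
  have hρ0 : 0 ≤ ρ := by rw [hρ]; exact norm_nonneg _
  have t0 : ‖R₀‖ ≤ κ * ‖v‖ ^ 2 := by rw [hR₀, hv]; exact hu.taylor y₀ y
  have t1 : ‖R₁‖ ≤ κ * ‖v‖ ^ 2 := by
    have := hu.taylor y y₀
    rw [norm_sub_rev y₀ y] at this
    rw [hR₁, hv]; exact this
  have t2 : ‖R₀‖ ≤ ‖v‖ := by
    have h1 := gk_norm_sub_le hu y₀ y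
    have h2 := (fderiv ℝ u y₀).le_opNorm (y - y₀)
    have h3 := hu.slope y₀
    have h4 : ‖fderiv ℝ u y₀ (y - y₀)‖ ≤ 1 / 2 * ‖y - y₀‖ :=
      h2.trans (mul_le_mul_of_nonneg_right h3 (norm_nonneg _))
    calc ‖R₀‖ ≤ ‖u y - u y₀‖ + ‖fderiv ℝ u y₀ (y - y₀)‖ := by rw [hR₀]; exact norm_sub_le _ _
      _ ≤ ‖v‖ := by rw [hv]; linarith
  have i1 : |inner ℝ z (inV m n R₁)| ≤ ‖z‖ * (κ * ‖v‖ ^ 2) := by
    refine (abs_real_inner_le_norm _ _).trans ?_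
    rw [norm_inV]
    gcongr
  have i2 : |inner ℝ (dF (fderiv ℝ u y₀) v) (inV m n R₀)| ≤ ρ * (κ * ‖v‖ ^ 2) := by
    refine (abs_real_inner_le_norm _ _).trans ?_
    rw [norm_inV, ← hρ]
    gcongr
  have i3 : ‖R₀‖ ^ 2 ≤ κ * ‖v‖ ^ 2 * ‖v‖ := by
    rw [sq]
    exact mul_le_mul t0 t2 (norm_nonneg _) (by positivity)
  have hd : D = ρ ^ 2 + ‖z‖ ^ 2 := by rw [hD, hρ, hv]
  have e4 : ‖z + (Fg u y - Fg u y₀)‖ ^ 2 - D
      = - 2 * inner ℝ z (inV m n R₁) + 2 * inner ℝ (dF (fderiv ℝ u y₀) v) (inV m n R₀)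
        + ‖R₀‖ ^ 2 := by
    rw [norm_add_sq_real, e3, e2, norm_add_sq_real, norm_inV, hd, hρ]
    ring
  obtain ⟨d, hdd⟩ : ∃ d, d = Real.sqrt D := ⟨_, rfl⟩
  have hd0 : 0 ≤ D := by rw [hd]; positivity
  have hdsq : d ^ 2 = D := by rw [hdd]; exact Real.sq_sqrt hd0
  have hdn : 0 ≤ d := by rw [hdd]; exact Real.sqrt_nonneg _
  have hρd : ρ ≤ d := by
    rw [hdd]
    apply Real.le_sqrt_of_sq_le
    rw [hd]; nlinarith [sq_nonneg ‖z‖]
  have hzd : ‖z‖ ≤ d := by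
    rw [hdd]
    apply Real.le_sqrt_of_sq_le
    rw [hd]; nlinarith [sq_nonneg ρ]
  have hvd : ‖v‖ ≤ d := hvρ.trans hρd
  have hv2 : ‖v‖ ^ 2 ≤ d ^ 2 := by gcongr
  rw [e4, ← hdd, ← hdsq]
  have a1 := abs_le.1 i1
  have a2 := abs_le.1 i2
  have b1 : ‖z‖ * (κ * ‖v‖ ^ 2) ≤ κ * d ^ 3 := by
    calc ‖z‖ * (κ * ‖v‖ ^ 2) ≤ d * (κ * d ^ 2) := by gcongr
      _ = κ * d ^ 3 := by ring
  have b2 : ρ * (κ * ‖v‖ ^ 2) ≤ κ * d ^ 3 := by
    calc ρ * (κ * ‖v‖ ^ 2) ≤ d * (κ * d ^ 2) := by gcongr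
      _ = κ * d ^ 3 := by ring
  have b3 : κ * ‖v‖ ^ 2 * ‖v‖ ≤ κ * d ^ 3 := by
    calc κ * ‖v‖ ^ 2 * ‖v‖ ≤ κ * d ^ 2 * d := by gcongr
      _ = κ * d ^ 3 := by ring
  have b4 : 0 ≤ ‖R₀‖ ^ 2 := sq_nonneg _
  have b5 : 5 * κ * d * d ^ 2 = 5 * (κ * d ^ 3) := by ring
  rw [abs_le, b5]
  constructor <;> linarith [a1.1, a1.2, a2.1, a2.2]

theorem gk_dsq_compare (hu : Geo κ u) {X : E (m + n)} (hX : X ∈ Tub u (1 / 4)) (y₀ : E m) :
    |‖X - Fg u y₀‖ ^ 2 - dsq u y₀ X| ≤ 5 * κ * Real.sqrt (dsq u y₀ X) * dsq u y₀ X := by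
  obtain ⟨-, -, hPh, -, -⟩ := tube_unique_of_le hu le_rfl hX
  have hadj : adj (dF (fderiv ℝ u (npr u X))) (zz u X) = 0 := (PhA_eq_zero_iff _ _).1 hPh
  have e1 : X - Fg u y₀ = zz u X + (Fg u (npr u X) - Fg u y₀) := by unfold zz; abel
  rw [e1]
  exact gk_dsq_aux hu y₀ (npr u X) (zz u X) hadj _ rfl

/-! ### P4 -/

theorem gk_mem_Tub {h r : ℝ} {X X' : E (m + n)} (hX : X ∈ Tub u h) (hr : ‖X' - X‖ ≤ r) :
    X' ∈ Tub u (h + r) := by
  obtain ⟨y, hy⟩ := hX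
  refine ⟨y, ?_⟩
  calc ‖X' - Fg u y‖ = ‖(X' - X) + (X - Fg u y)‖ := by congr 1; abel
    _ ≤ ‖X' - X‖ + ‖X - Fg u y‖ := norm_add_le _ _
    _ < h + r := by linarith

theorem gk_norm_zz_lt (hu : Geo κ u) {X : E (m + n)} (hX : X ∈ Tub u (2 / 9)) :
    ‖zz u X‖ < 2 / 9 :=
  (tube_unique_of_le hu (by norm_num) hX).2.2.2.1

theorem gk_norm_Kz_sub_le (hu : Geo κ u) {X : E (m + n)} (hX : X ∈ Tub u (2 / 9)) :
    ‖Kz u X - 𝟙‖ ≤ 9 / 2 * κ * ‖zz u X‖ := by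
  have hS := hu.norm_Shp_zz_le_half le_rfl hX
  have h1 := Kw_eq_add hS
  have h2 : Kz u X - 𝟙 = Shp u (npr u X) (zz u X) ∘L Kw u (npr u X) (zz u X) := by
    rw [Kz_eq]
    nth_rewrite 1 [h1]
    abel
  rw [h2]
  have := norm_comp_le' _ _ (hu.norm_Shp_le (npr u X) (zz u X)) (norm_Kw_le hS)
  linarith

theorem gk_norm_Kz_le (hu : Geo κ u) {X : E (m + n)} (hX : X ∈ Tub u (2 / 9)) :
    ‖Kz u X‖ ≤ 1 + κ := by
  have h1 := gk_norm_Kz_sub_le hu hX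
  have h2 := gk_norm_zz_lt hu hX
  have h3 : ‖Kz u X‖ ≤ ‖Kz u X - 𝟙‖ + ‖(𝟙 : E (m + n) →L[ℝ] E (m + n))‖ := by
    have := norm_add_le (Kz u X - 𝟙) (𝟙 : E (m + n) →L[ℝ] E (m + n))
    rwa [sub_add_cancel] at this
  have h4 : ‖(𝟙 : E (m + n) →L[ℝ] E (m + n))‖ ≤ 1 := ContinuousLinearMap.norm_id_le
  have h5 := hu.nonneg
  nlinarith [norm_nonneg (zz u X)]

theorem gk_norm_Dnpr_le (hu : Geo κ u) (hκ : κ ≤ 1 / 3) {X : E (m + n)}
    (hX : X ∈ Tub u (2 / 9)) :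
    ‖dFp (fderiv ℝ u (npr u X)) ∘L Kz u X ∘L Ph u (npr u X)‖ ≤ 2 := by
  have := norm_comp_le' _ _ (hu.norm_dFp_le (npr u X))
    (norm_comp_le' _ _ (gk_norm_Kz_le hu hX) (norm_Ph_le u (npr u X)))
  linarith

theorem gk_npr_lip (hu : Geo κ u) (hκ : κ ≤ 1 / 3) {X X' : E (m + n)}
    (hX : X ∈ Tub u (1 / 9)) (hw : ‖X' - X‖ ≤ 1 / 9) :
    ‖npr u X' - npr u X‖ ≤ 2 * ‖X' - X‖ := by
  have hT : ∀ x ∈ Metric.closedBall X ‖X' - X‖, x ∈ Tub u (2 / 9) := fun x hx => by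
    have h1 : ‖x - X‖ ≤ 1 / 9 := by
      rw [Metric.mem_closedBall, dist_eq_norm] at hx
      exact hx.trans hw
    have := gk_mem_Tub hX h1
    norm_num at this
    exact this
  exact Convex.norm_image_sub_le_of_norm_hasFDerivWithin_le
    (f := npr u) (f' := fun x => dFp (fderiv ℝ u (npr u x)) ∘L Kz u x ∘L Ph u (npr u x))
    (s := Metric.closedBall X ‖X' - X‖)
    (fun x hx => (npr_local hu le_rfl (hT x hx)).2.hasFDerivWithinAt)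
    (fun x hx => gk_norm_Dnpr_le hu hκ (hT x hx)) (convex_closedBall _ _)
    (Metric.mem_closedBall_self (norm_nonneg _))
    (by rw [Metric.mem_closedBall, dist_eq_norm])

theorem gk_dFp_lip (hu : Geo κ u) (y y' : E m) :
    ‖dFp (fderiv ℝ u y') - dFp (fderiv ℝ u y)‖ ≤ 27 / 4 * κ * ‖y' - y‖ :=
  Convex.norm_image_sub_le_of_norm_hasFDerivWithin_le (s := Set.univ)
    (f := fun y => dFp (fderiv ℝ u y))
    (fun x _ => (hasFDerivAt_dFp_Du hu.c2 x).hasFDerivWithinAt)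
    (fun x _ => ContinuousLinearMap.opNorm_le_bound _
      (mul_nonneg (by norm_num) hu.nonneg) fun α => by
        rw [fderiv_dFp_Du hu.c2]; exact hu.norm_dTp_le x α)
    convex_univ (Set.mem_univ _) (Set.mem_univ _)

theorem gk_Ph_lip (hu : Geo κ u) (y y' : E m) :
    ‖Ph u y' - Ph u y‖ ≤ 3 * κ * ‖y' - y‖ :=
  Convex.norm_image_sub_le_of_norm_hasFDerivWithin_le (s := Set.univ) (f := Ph u)
    (fun x _ => (hasFDerivAt_Ph hu.c2 x).hasFDerivWithinAt)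
    (fun x _ => ContinuousLinearMap.opNorm_le_bound _
      (mul_nonneg (by norm_num) hu.nonneg) fun α => hu.norm_dPh_le x α)
    convex_univ (Set.mem_univ _) (Set.mem_univ _)

theorem gk_norm_zz_le (hu : Geo κ u) (X X' : E (m + n)) :
    ‖zz u X'‖ ≤ ‖X' - X‖ + ‖zz u X‖ := by
  have h1 := npr_spec hu.differentiable.continuous X' (npr u X)
  calc ‖zz u X'‖ ≤ ‖X' - Fg u (npr u X)‖ := h1
    _ = ‖(X' - X) + zz u X‖ := by congr 1; unfold zz; abel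
    _ ≤ _ := norm_add_le _ _

theorem gk_Dnpr_sub (hu : Geo κ u) (hκ : κ ≤ 1 / 3) {X X' : E (m + n)}
    (hX : X ∈ Tub u (1 / 9)) (hw : ‖X' - X‖ ≤ 1 / 9) :
    ‖dFp (fderiv ℝ u (npr u X')) ∘L Kz u X' ∘L Ph u (npr u X') - dFp (fderiv ℝ u (npr u X))‖
      ≤ 27 / 4 * κ * (‖X' - X‖ + ‖zz u X‖) + 27 / 2 * κ * ‖X' - X‖ := by
  have hX' : X' ∈ Tub u (2 / 9) := by
    have := gk_mem_Tub hX hw
    norm_num at this
    exact this
  have e1 : dFp (fderiv ℝ u (npr u X')) ∘L Kz u X' ∘L Ph u (npr u X')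
        - dFp (fderiv ℝ u (npr u X))
      = dFp (fderiv ℝ u (npr u X')) ∘L (Kz u X' - 𝟙) ∘L Ph u (npr u X')
        + (dFp (fderiv ℝ u (npr u X')) - dFp (fderiv ℝ u (npr u X))) := by
    rw [ContinuousLinearMap.sub_comp, ContinuousLinearMap.comp_sub, ContinuousLinearMap.id_comp,
      dFp_comp_Ph]
    abel
  rw [e1]
  refine (norm_add_le _ _).trans ?_
  have hκ0 := hu.nonneg
  have h1 := norm_comp_le' _ _ (hu.norm_dFp_le (npr u X'))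
    (norm_comp_le' _ _ (gk_norm_Kz_sub_le hu hX') (norm_Ph_le u (npr u X')))
  have h2 := gk_dFp_lip hu (npr u X) (npr u X')
  have h3 := gk_npr_lip hu hκ hX hw
  have h4 := gk_norm_zz_le hu X X'
  have h5 : 27 / 4 * κ * ‖npr u X' - npr u X‖ ≤ 27 / 4 * κ * (2 * ‖X' - X‖) := by gcongr
  have h6 : 3 / 2 * (9 / 2 * κ * ‖zz u X'‖ * 1) ≤ 27 / 4 * κ * (‖X' - X‖ + ‖zz u X‖) := by
    calc 3 / 2 * (9 / 2 * κ * ‖zz u X'‖ * 1) = 27 / 4 * κ * ‖zz u X'‖ := by ring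
      _ ≤ _ := by gcongr
  linarith

theorem gk_npr_taylor (hu : Geo κ u) (hκ : κ ≤ 1 / 3) {X : E (m + n)} (w : E (m + n))
    (hX : X ∈ Tub u (1 / 9)) (hw : ‖w‖ ≤ 1 / 9) :
    ‖npr u (X - w) - npr u X + dFp (fderiv ℝ u (npr u X)) w‖
      ≤ 21 * κ * (‖w‖ ^ 2 + ‖w‖ * ‖zz u X‖) := by
  have hκ0 := hu.nonneg
  have hb : ∀ x ∈ Metric.closedBall X ‖w‖, ‖x - X‖ ≤ ‖w‖ := fun x hx => by
    rwa [Metric.mem_closedBall, dist_eq_norm] at hx
  have hT : ∀ x ∈ Metric.closedBall X ‖w‖, x ∈ Tub u (2 / 9) := fun x hx => by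
    have := gk_mem_Tub hX ((hb x hx).trans hw)
    norm_num at this
    exact this
  have h1 := Convex.norm_image_sub_le_of_norm_hasFDerivWithin_le
    (f := fun x => npr u x - dFp (fderiv ℝ u (npr u X)) x)
    (f' := fun x => dFp (fderiv ℝ u (npr u x)) ∘L Kz u x ∘L Ph u (npr u x)
      - dFp (fderiv ℝ u (npr u X)))
    (C := 27 / 4 * κ * (‖w‖ + ‖zz u X‖) + 27 / 2 * κ * ‖w‖)
    (s := Metric.closedBall X ‖w‖) (x := X) (y := X - w)
    (fun x hx => ((npr_local hu le_rfl (hT x hx)).2.sub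
      (dFp (fderiv ℝ u (npr u X))).hasFDerivAt).hasFDerivWithinAt)
    (fun x hx => by
      refine (gk_Dnpr_sub hu hκ hX ((hb x hx).trans hw)).trans ?_
      have := hb x hx
      gcongr)
    (convex_closedBall _ _) (Metric.mem_closedBall_self (norm_nonneg _))
    (by rw [Metric.mem_closedBall, dist_eq_norm]; simp)
  have e1 : npr u (X - w) - dFp (fderiv ℝ u (npr u X)) (X - w)
      - (npr u X - dFp (fderiv ℝ u (npr u X)) X)
      = npr u (X - w) - npr u X + dFp (fderiv ℝ u (npr u X)) w := by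
    rw [map_sub]; abel
  have e2 : ‖X - w - X‖ = ‖w‖ := by simp
  simp only [e1, e2] at h1
  refine h1.trans ?_
  have a1 := mul_nonneg hκ0 (mul_nonneg (norm_nonneg w) (norm_nonneg w))
  have a2 := mul_nonneg hκ0 (mul_nonneg (norm_nonneg w) (norm_nonneg (zz u X)))
  nlinarith

/-- comparison of the tilts with respect to two planes. -/
theorem gk_tdiv_compl_eq {N : ℕ} {P H : E N →L[ℝ] E N} (hP : IsProj m P) (hH : IsProj m H) :
    tdiv P (𝟙 - H) = ∑ i : Fin N, ‖(P ∘L (𝟙 - H)) (EuclideanSpace.single i 1)‖ ^ 2 := by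
  rw [← trc_adjoint_comp_self, ContinuousLinearMap.adjoint_comp, IsProj.adjoint_eq hP,
    IsProj.adjoint_compl hH, ContinuousLinearMap.comp_assoc,
    ← ContinuousLinearMap.comp_assoc P P, hP.idem, trc_comp_comm, ContinuousLinearMap.comp_assoc,
    IsProj.compl_idem hH]
  rfl

theorem gk_tdiv_compare {N : ℕ} {P H H' : E N →L[ℝ] E N} (hP : IsProj m P) (hH : IsProj m H)
    (hH' : IsProj m H') :
    tdiv P (𝟙 - H') ≤ 2 * tdiv P (𝟙 - H) + 2 * N * ‖H' - H‖ ^ 2 := by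
  rw [gk_tdiv_compl_eq hP hH, gk_tdiv_compl_eq hP hH', Finset.mul_sum]
  have h1 : (2 * N * ‖H' - H‖ ^ 2 : ℝ) = ∑ _i : Fin N, 2 * ‖H' - H‖ ^ 2 := by
    rw [Finset.sum_const, Finset.card_univ, Fintype.card_fin, nsmul_eq_mul]; ring
  rw [h1, ← Finset.sum_add_distrib]
  refine Finset.sum_le_sum fun i _ => ?_
  set e : E N := EuclideanSpace.single i 1 with he
  have hen : ‖e‖ = 1 := by simp [he]
  have e1 : (P ∘L (𝟙 - H')) e = (P ∘L (𝟙 - H)) e - P ((H' - H) e) := by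
    simp only [ContinuousLinearMap.comp_apply, sub_apply, ContinuousLinearMap.id_apply, map_sub]
    abel
  have h2 : ‖P ((H' - H) e)‖ ≤ ‖H' - H‖ := by
    refine (hP.norm_apply_le _).trans ?_
    have := (H' - H).le_opNorm e
    rwa [hen, mul_one] at this
  have h3 : ‖(P ∘L (𝟙 - H')) e‖ ≤ ‖(P ∘L (𝟙 - H)) e‖ + ‖H' - H‖ := by
    rw [e1]
    exact (norm_sub_le _ _).trans (by linarith)
  have h4 : ‖(P ∘L (𝟙 - H')) e‖ ^ 2 ≤ (‖(P ∘L (𝟙 - H)) e‖ + ‖H' - H‖) ^ 2 := by gcongr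
  nlinarith [sq_nonneg (‖(P ∘L (𝟙 - H)) e‖ - ‖H' - H‖)]

theorem gk_tilt_shift (hu : Geo κ u) (hκ : κ ≤ 1 / 3) {X : E (m + n)} (w : E (m + n))
    (hX : X ∈ Tub u (1 / 9)) (hw : ‖w‖ ≤ 1 / 9) {P : E (m + n) →L[ℝ] E (m + n)}
    (hP : IsProj m P) :
    tilt u P (X - w) ≤ 2 * tilt u P X + 72 * ((m + n : ℕ) : ℝ) * κ ^ 2 * ‖w‖ ^ 2 := by
  have h1 := gk_tdiv_compare hP (isProj_Ph u (npr u X)) (isProj_Ph u (npr u (X - w)))
  have e2 : ‖X - w - X‖ = ‖w‖ := by simp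
  have h2 := gk_npr_lip (X' := X - w) hu hκ hX (by rw [e2]; exact hw)
  rw [e2] at h2
  have h3 := gk_Ph_lip hu (npr u X) (npr u (X - w))
  have hκ0 := hu.nonneg
  have h4 : ‖Ph u (npr u (X - w)) - Ph u (npr u X)‖ ≤ 6 * κ * ‖w‖ := by
    refine h3.trans ?_
    calc 3 * κ * ‖npr u (X - w) - npr u X‖ ≤ 3 * κ * (2 * ‖w‖) := by gcongr
      _ = 6 * κ * ‖w‖ := by ring
  have h5 : ‖Ph u (npr u (X - w)) - Ph u (npr u X)‖ ^ 2 ≤ (6 * κ * ‖w‖) ^ 2 := by gcongr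
  have h6 : (2 * ((m + n : ℕ) : ℝ)) * ‖Ph u (npr u (X - w)) - Ph u (npr u X)‖ ^ 2
      ≤ (2 * ((m + n : ℕ) : ℝ)) * (6 * κ * ‖w‖) ^ 2 := by gcongr
  unfold tilt Pv
  refine h1.trans ?_
  nlinarith

/-! ### P5 -/

theorem gk_contDiff_tan (hu : ContDiff ℝ 4 u) (w : E (m + n)) :
    ContDiff ℝ 3 (fun y => dFp (fderiv ℝ u y) w) :=
  (contDiff_dFp_Du (k := 3) (by exact_mod_cast hu)).clm_apply contDiff_const

theorem gk_hasFDerivAt_tan (hu : ContDiff ℝ 2 u) (w : E (m + n)) (y : E m) :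
    HasFDerivAt (fun y => dFp (fderiv ℝ u y) w)
      ((fderiv ℝ (fun y => dFp (fderiv ℝ u y)) y).flip w) y := by
  have h := (hasFDerivAt_dFp_Du hu y).clm_apply (hasFDerivAt_const w y)
  refine h.congr_fderiv ?_
  ext1 α
  simp

/-- `div_S (w^T) = H_S · w`. -/
theorem gk_divS_tan (hu : ContDiff ℝ 2 u) (w : E (m + n)) (y : E m) :
    divS u (fun y' => dFp (fderiv ℝ u y') w) y = inner ℝ (HS u y) w := by
  unfold divS
  rw [(hasFDerivAt_log_vdens hu y).fderiv, (gk_hasFDerivAt_tan hu w y).fderiv, trW_apply,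
    ← trc_Shp hu]
  have e0 : Shp u y w = ((fderiv ℝ (Ph u) y).flip (Pv u y w)) ∘L dFp (fderiv ℝ u y) := rfl
  rw [e0, trc_comp_comm ((fderiv ℝ (Ph u) y).flip (Pv u y w)) (dFp (fderiv ℝ u y)), trc_eq_sum,
    trc_eq_sum, trc_eq_sum, ← Finset.sum_add_distrib]
  refine Finset.sum_congr rfl fun a _ => ?_
  rw [← inner_add_left]
  congr 1
  set e : E m := EuclideanSpace.single a 1 with he
  have e1 : (fderiv ℝ (fun y => dFp (fderiv ℝ u y)) y).flip w e = dTp u y e w := by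
    rw [ContinuousLinearMap.flip_apply, fderiv_dFp_Du hu]
  have e2 : (dFp (fderiv ℝ u y) ∘L (fderiv ℝ (Ph u) y).flip (Pv u y w)) e
      = dFp (fderiv ℝ u y) (dPh u y e (Pv u y w)) := rfl
  have e3 : (dFp (fderiv ℝ u y) ∘L Wop u y (dFp (fderiv ℝ u y) w)) e
      = dFp (fderiv ℝ u y) (Wop u y e (dFp (fderiv ℝ u y) w)) := by
    change dFp (fderiv ℝ u y) (inV m n (D2 u y (dFp (fderiv ℝ u y) w) e))
      = dFp (fderiv ℝ u y) (inV m n (D2 u y e (dFp (fderiv ℝ u y) w)))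
    rw [D2_symm hu]
  have e4 : dTp u y e w = dFp (fderiv ℝ u y) (dPh u y e w)
      - dFp (fderiv ℝ u y) (Wop u y e (dFp (fderiv ℝ u y) w)) := rfl
  have e5 : dFp (fderiv ℝ u y) (dPh u y e w) = dFp (fderiv ℝ u y) (dPh u y e (Pv u y w)) := by
    have h1 : w = Pv u y w + Ph u y w := by
      unfold Pv
      simp
    have h2 : dPh u y e (Ph u y w) = Zop u y e w := by
      rw [← dPh_comp_Ph hu]; rfl
    have h3 : dFp (fderiv ℝ u y) (Zop u y e w) = 0 := by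
      have : dFp (fderiv ℝ u y) (Zop u y e w)
          = (dFp (fderiv ℝ u y) ∘L Pv u y) ((Wop u y e ∘L dFp (fderiv ℝ u y)) w) := rfl
      rw [this, dFp_comp_Pv]
      rfl
    conv_lhs => rw [h1, map_add, map_add, h2, h3, add_zero]
  rw [e1, e2, e3, e4, e5]
  abel

theorem gk_norm_tan_le (hu : Geo κ u) (w : E (m + n)) (y₀ y : E m) (hw : Ph u y₀ w = 0) :
    ‖dFp (fderiv ℝ u y) w‖ ≤ 27 / 4 * κ * ‖y - y₀‖ * ‖w‖ := by
  have h0 : dFp (fderiv ℝ u y₀) w = 0 := by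
    have : dFp (fderiv ℝ u y₀) w = (dFp (fderiv ℝ u y₀) ∘L Ph u y₀) w := by rw [dFp_comp_Ph]
    rw [this, ContinuousLinearMap.comp_apply, hw, map_zero]
  have h1 : dFp (fderiv ℝ u y) w = (dFp (fderiv ℝ u y) - dFp (fderiv ℝ u y₀)) w := by
    rw [sub_apply, h0, sub_zero]
  rw [h1]
  refine (ContinuousLinearMap.le_opNorm _ _).trans ?_
  have := gk_dFp_lip hu y₀ y
  gcongr

end Claimed.Agent.R322.Dens
end
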