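/- Packed by merge_tool.py (helper293): 4 modules of Claimed.Agent.R322 in one file, same declarations.
   Old modules, in this order: Dens.MonoKit, Dens.Mono, Dens.Avg, Dens.ShiftAux -/
import Claimed.Agent.R322.Dens.Geom
import Claimed.Agent.R322.Lin.Quant
import Claimed.Agent.R322.Pack048
import Claimed.Agent.R322.Pack013

/- ===== packed: Claimed.Agent.R322.Dens.MonoKit ===== -/
section
/-!
# CO Section 6b: kit for the radial average `I(X₀,t)` (helper203)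

Elementary facts on the translated point `X' = X - w`, `w = z(X₀)`, the kernels `Φ`, `Ψ`, and the
two-sided comparison of `W Φ(d²/t²)` with Euclidean kernels centred at `X₀`.
-/

set_option autoImplicit false

open scoped ENNReal ContDiff Topology
open MeasureTheory Filter

namespace Claimed.Agent.R322.Dens

open Claimed.Agent.R322.Tube Claimed.Agent.R322.Fn Claimed.Agent.R322.Lin

variable {m n : ℕ}

/-! ### the kernels -/

theorem mk_isKer_Phi : IsKer Phi := isKer_pow (q := 4) (by norm_num)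

theorem mk_Phi_nonneg (s : ℝ) : 0 ≤ Phi s := mk_isKer_Phi.nonneg s

theorem mk_Phi_zero {s : ℝ} (hs : 1 ≤ s) : Phi s = 0 := mk_isKer_Phi.zero s hs

theorem mk_Phi_anti {s s' : ℝ} (h : s ≤ s') : Phi s' ≤ Phi s := mk_isKer_Phi.anti h

/-! ### the translated point -/

theorem mk_vdens_pos (A : E m →L[ℝ] E n) : 0 < vdens A := by
  have h0 := dtm_gmat_nonneg A
  have h1 : dtm (gmat A) ≠ 0 := by
    obtain ⟨e, he⟩ := isInvertible_gmat A
    intro h
    have h2 : LinearMap.det ((e : E m →L[ℝ] E m) : E m →ₗ[ℝ] E m) = 0 := by rw [he]; exact h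
    exact (LinearEquiv.isUnit_det' e.toLinearEquiv).ne_zero h2
  exact Real.sqrt_pos.2 (lt_of_le_of_ne h0 (Ne.symm h1))

theorem mk_Wd_nonneg (u : E m → E n) (y₀ y : E m) : 0 ≤ Wd u y₀ y :=
  div_nonneg (vdens_nonneg _) (vdens_nonneg _)

theorem mk_continuous_Wd {u : E m → E n} (hu : ContDiff ℝ 1 u) (y₀ : E m) :
    Continuous (Wd u y₀) := by
  unfold Wd
  exact continuous_const.div (continuous_vdens.comp (hu.continuous_fderiv one_ne_zero))
    fun y => (mk_vdens_pos _).ne'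

theorem mk_continuous_rho2 (u : E m → E n) (y₀ : E m) : Continuous (rho2 u y₀) := by
  unfold rho2
  fun_prop

theorem mk_Fg_npr (u : E m → E n) (X₀ : E (m + n)) : Fg u (npr u X₀) = X₀ - zz u X₀ := by
  unfold zz; abel

theorem mk_dsq_nonneg (u : E m → E n) (y₀ : E m) (X : E (m + n)) : 0 ≤ dsq u y₀ X := by
  unfold dsq rho2; positivity

theorem mk_shift_mem_Tub {u : E m → E n} {Ω : Set (E m)} {h : ℝ} {X w : E (m + n)}
    (hX : X ∈ Cyl u Ω h) (hw : ‖w‖ < h) : X - w ∈ Tub u (2 * h) := by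
  refine ⟨npr u X, ?_⟩
  have e : X - w - Fg u (npr u X) = zz u X - w := by unfold zz; abel
  rw [e]
  have := norm_sub_le (zz u X) w
  have := hX.2
  linarith

/-- height of the translated point -/
theorem mk_norm_zz_shift_le {u : E m → E n} (hu : Continuous u) (X w : E (m + n)) :
    ‖zz u (X - w)‖ ≤ ‖zz u X‖ + ‖w‖ := by
  have h1 := npr_spec hu (X - w) (npr u X)
  have e : X - w - Fg u (npr u X) = zz u X - w := by unfold zz; abel
  rw [e] at h1
  exact h1.trans (norm_sub_le _ _)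

/-- base point of the translated point -/
theorem mk_norm_npr_shift_le {u : E m → E n} (hu : Continuous u) (X w : E (m + n)) :
    ‖npr u (X - w) - npr u X‖ ≤ 2 * ‖zz u X‖ + 2 * ‖w‖ := by
  have h1 := norm_sub_le_norm_Fg_sub u (npr u X) (npr u (X - w))
  have e : Fg u (npr u (X - w)) - Fg u (npr u X) = zz u X - w - zz u (X - w) := by
    unfold zz; abel
  rw [e] at h1
  have h2 := norm_sub_le (zz u X - w) (zz u (X - w))
  have h3 := norm_sub_le (zz u X) w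
  have h4 := mk_norm_zz_shift_le hu X w
  linarith

/-- `d² ≤ 10 |X - F y₀|²` -/
theorem mk_dsq_le {u : E m → E n} (hu : Continuous u) {y₀ : E m} (hs : ‖fderiv ℝ u y₀‖ ≤ 1 / 2)
    (X : E (m + n)) : dsq u y₀ X ≤ 10 * ‖X - Fg u y₀‖ ^ 2 := by
  have h1 : ‖zz u X‖ ≤ ‖X - Fg u y₀‖ := npr_spec hu X y₀
  have h2 : ‖npr u X - y₀‖ ≤ 2 * ‖X - Fg u y₀‖ := by
    have h3 := norm_sub_le_norm_Fg_sub u y₀ (npr u X)
    have e : Fg u (npr u X) - Fg u y₀ = (X - Fg u y₀) - zz u X := by unfold zz; abel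
    rw [e] at h3
    have := norm_sub_le (X - Fg u y₀) (zz u X)
    linarith
  have h3 : ‖dF (fderiv ℝ u y₀) (npr u X - y₀)‖ ≤ 3 * ‖X - Fg u y₀‖ := by
    refine (norm_dF_apply_le _ _).trans ?_
    have := norm_nonneg (npr u X - y₀)
    nlinarith
  unfold dsq rho2
  have h4 : ‖dF (fderiv ℝ u y₀) (npr u X - y₀)‖ ^ 2 ≤ (3 * ‖X - Fg u y₀‖) ^ 2 := by gcongr
  have h5 : ‖zz u X‖ ^ 2 ≤ ‖X - Fg u y₀‖ ^ 2 := by gcongr
  nlinarith

/-! ### pointwise comparison of the kernels -/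

theorem mk_upper {c t d2 D2 W : ℝ} (hc : 0 ≤ c) (ht : 0 < t) (hd : 0 ≤ d2)
    (h1 : |D2 - d2| ≤ c * Real.sqrt d2 * d2) (h2 : |W - 1| ≤ c * Real.sqrt d2) :
    W * Phi (d2 / t ^ 2) ≤ (1 + c * t) * Phi (D2 / (t ^ 2 * (1 + c * t))) := by
  have hct : 0 ≤ c * t := by positivity
  rcases le_or_gt (t ^ 2) d2 with hdt | hdt
  · rw [mk_Phi_zero ((one_le_div (by positivity)).2 hdt), mul_zero]
    exact mul_nonneg (by linarith) (mk_Phi_nonneg _)
  · have hs : Real.sqrt d2 ≤ t := by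
      rw [show t = Real.sqrt (t ^ 2) from (Real.sqrt_sq ht.le).symm]
      exact Real.sqrt_le_sqrt hdt.le
    have hW1 : W ≤ 1 + c * t := by
      have := (abs_le.1 h2).2
      have : c * Real.sqrt d2 ≤ c * t := mul_le_mul_of_nonneg_left hs hc
      linarith
    have hD : D2 ≤ d2 * (1 + c * t) := by
      have h3 := (abs_le.1 h1).2
      have : c * Real.sqrt d2 * d2 ≤ c * t * d2 :=
        mul_le_mul_of_nonneg_right (mul_le_mul_of_nonneg_left hs hc) hd
      linarith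
    have hq : D2 / (t ^ 2 * (1 + c * t)) ≤ d2 / t ^ 2 := by
      rw [div_le_div_iff₀ (by positivity) (by positivity)]
      nlinarith [sq_nonneg t]
    exact mul_le_mul hW1 (mk_Phi_anti hq) (mk_Phi_nonneg _) (by linarith)

theorem mk_lower {c t d2 D2 W : ℝ} (hc : 0 ≤ c) (ht : 0 < t) (hct : 4 * (c * t) ≤ 1 / 2)
    (hd : 0 ≤ d2) (h1 : |D2 - d2| ≤ c * Real.sqrt d2 * d2) (h2 : |W - 1| ≤ c * Real.sqrt d2)
    (hW : 0 ≤ W) (h3 : d2 ≤ 10 * D2) :
    (1 - 4 * (c * t)) * Phi (D2 / (t ^ 2 * (1 - 4 * (c * t)))) ≤ W * Phi (d2 / t ^ 2) := by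
  have hct0 : 0 ≤ c * t := by positivity
  have hq0 : 0 < 1 - 4 * (c * t) := by linarith
  rcases le_or_gt (t ^ 2 * (1 - 4 * (c * t))) D2 with hdt | hdt
  · rw [mk_Phi_zero ((one_le_div (by positivity)).2 hdt), mul_zero]
    exact mul_nonneg hW (mk_Phi_nonneg _)
  · have ht2 : 0 < t ^ 2 := by positivity
    have hD1 : D2 < t ^ 2 := by nlinarith
    have hs4 : Real.sqrt d2 ≤ 4 * t := by
      rw [show 4 * t = Real.sqrt ((4 * t) ^ 2) from (Real.sqrt_sq (by positivity)).symm]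
      exact Real.sqrt_le_sqrt (by nlinarith)
    have hD : d2 * (1 - 4 * (c * t)) ≤ D2 := by
      have h4 := (abs_le.1 h1).1
      have : c * Real.sqrt d2 * d2 ≤ c * (4 * t) * d2 :=
        mul_le_mul_of_nonneg_right (mul_le_mul_of_nonneg_left hs4 hc) hd
      nlinarith
    have hq : d2 / t ^ 2 ≤ D2 / (t ^ 2 * (1 - 4 * (c * t))) := by
      rw [div_le_div_iff₀ (by positivity) (by positivity)]
      nlinarith
    have hdt2 : d2 ≤ t ^ 2 := by
      by_contra hcon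
      have hcon' := not_le.1 hcon
      nlinarith
    have hs : Real.sqrt d2 ≤ t := by
      rw [show t = Real.sqrt (t ^ 2) from (Real.sqrt_sq ht.le).symm]
      exact Real.sqrt_le_sqrt hdt2
    have hW1 : 1 - 4 * (c * t) ≤ W := by
      have := (abs_le.1 h2).1
      have : c * Real.sqrt d2 ≤ c * t := mul_le_mul_of_nonneg_left hs hc
      linarith
    exact mul_le_mul hW1 (mk_Phi_anti hq) (mk_Phi_nonneg _) hW

/-! ### the limit at `t = 0` -/

/-- Euclidean kernels centred at an interior point of the cylinder -/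
theorem mk_integral_ker (N : NCyl m n) {X₀ : E (m + n)}
    {ρ : ℝ} (hρ : 0 < ρ) (hs : Metric.closedBall X₀ ρ ⊆ Cyl N.u N.Ω N.h) :
    ∫ X, Phi (‖X - X₀‖ ^ 2 / ρ ^ 2) ∂N.μ = ρ ^ m * N.W.kint (fun _ => 1) Phi X₀ ρ := by
  unfold SIV.kint NCyl.μ
  rw [← mul_assoc, mul_inv_cancel₀ (pow_ne_zero _ hρ.ne'), one_mul]
  simp only [one_mul]
  refine setIntegral_eq_integral_of_forall_compl_eq_zero fun X hX => ?_
  refine mk_Phi_zero ?_
  have h1 : ρ < ‖X - X₀‖ := by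
    by_contra hcon
    exact hX (hs (by rw [Metric.mem_closedBall, dist_eq_norm]; exact not_lt.1 hcon))
  rw [one_le_div (by positivity)]
  exact pow_le_pow_left₀ hρ.le h1.le 2

theorem mk_integrable_ker (N : NCyl m n) {X₀ : E (m + n)}
    {ρ : ℝ} (hρ : 0 < ρ) (hs : Metric.closedBall X₀ ρ ⊆ Cyl N.u N.Ω N.h) :
    Integrable (fun X => Phi (‖X - X₀‖ ^ 2 / ρ ^ 2)) N.μ := by
  have h := N.W.lay_integrable hρ (hs.trans N.cyl_sub) (continuous_const (y := (1 : ℝ)))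
    mk_isKer_Phi
  simp only [one_mul] at h
  exact h.restrict

/-- limit of rescaled kernel averages -/
theorem mk_tendsto_scaled (W : SIV m n) (hm : 1 ≤ m) {X₀ : E (m + n)} (hX₀ : X₀ ∈ W.U)
    {s : ℝ → ℝ} (hs : ContinuousAt s 0) (hs0 : s 0 = 1) :
    Tendsto (fun t => s t * Real.sqrt (s t) ^ m * W.kint (fun _ => 1) Phi X₀ (t * Real.sqrt (s t)))
      (𝓝[>] 0) (𝓝 (W.Θ X₀ * cPhi m)) := by
  have h1 : Tendsto s (𝓝[>] 0) (𝓝 1) := by
    have := hs.tendsto
    rw [hs0] at this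
    exact this.mono_left nhdsWithin_le_nhds
  have h2 : Tendsto (fun t => Real.sqrt (s t)) (𝓝[>] 0) (𝓝 1) := by
    have := (Real.continuous_sqrt.tendsto 1).comp h1
    rwa [Real.sqrt_one] at this
  have h3 : Tendsto (fun t => t * Real.sqrt (s t)) (𝓝[>] 0) (𝓝[>] 0) := by
    rw [tendsto_nhdsWithin_iff]
    constructor
    · have : Tendsto (fun t : ℝ => t) (𝓝[>] 0) (𝓝 0) := tendsto_id.mono_left nhdsWithin_le_nhds
      have := this.mul h2
      rwa [zero_mul] at this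
    · have h4 : ∀ᶠ t in 𝓝[>] (0 : ℝ), (1 / 2 : ℝ) < Real.sqrt (s t) :=
        h2.eventually (lt_mem_nhds (by norm_num))
      filter_upwards [h4, self_mem_nhdsWithin] with t ht ht0
      exact mul_pos (Set.mem_Ioi.1 ht0) (by linarith : (0 : ℝ) < Real.sqrt (s t))
  have h5 := (W.tendsto_kint hm hX₀ (continuous_const (y := (1 : ℝ))) mk_isKer_Phi).comp h3
  have h6 := (h1.mul (h2.pow m)).mul h5
  simp only [one_pow, one_mul] at h6
  exact h6

theorem mk_ker_scaled (N : NCyl m n) {X₀ : E (m + n)} {t σ : ℝ} (ht : 0 < t) (hσ : 0 < σ)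
    (hs : Metric.closedBall X₀ (t * Real.sqrt σ) ⊆ Cyl N.u N.Ω N.h) :
    Integrable (fun X => σ * Phi (‖X - X₀‖ ^ 2 / (t ^ 2 * σ))) N.μ ∧
    (t ^ m)⁻¹ * ∫ X, σ * Phi (‖X - X₀‖ ^ 2 / (t ^ 2 * σ)) ∂N.μ
      = σ * Real.sqrt σ ^ m * N.W.kint (fun _ => 1) Phi X₀ (t * Real.sqrt σ) := by
  have hρ : 0 < t * Real.sqrt σ := mul_pos ht (Real.sqrt_pos.2 hσ)
  have e : t ^ 2 * σ = (t * Real.sqrt σ) ^ 2 := by rw [mul_pow, Real.sq_sqrt hσ.le]
  rw [e]
  refine ⟨(mk_integrable_ker N hρ hs).const_mul σ, ?_⟩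
  rw [integral_const_mul, mk_integral_ker N hρ hs, mul_pow]
  have : t ^ m ≠ 0 := pow_ne_zero _ ht.ne'
  field_simp

theorem mk_Tub_mono (u : E m → E n) {h h' : ℝ} (hh : h ≤ h') : Tub u h ⊆ Tub u h' :=
  fun _ ⟨y, hy⟩ => ⟨y, hy.trans_le hh⟩

/-- continuity of the translated projection and height on the cylinder -/
theorem mk_cont_shift {N : NCyl m n} {κ₂ : ℝ} (hG : Geo κ₂ N.u) (hh : N.h ≤ 1 / 9)
    {w : E (m + n)} (hw : ‖w‖ < N.h) :
    ContinuousOn (fun X => npr N.u (X - w)) (Cyl N.u N.Ω N.h) ∧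
    ContinuousOn (fun X => zz N.u (X - w)) (Cyl N.u N.Ω N.h) := by
  have h1 := tube_deriv_of_le hG (h := 2 / 9) le_rfl
  have hmap : Set.MapsTo (fun X : E (m + n) => X - w) (Cyl N.u N.Ω N.h) (Tub N.u (2 / 9)) :=
    fun X hX => mk_Tub_mono N.u (by linarith) (mk_shift_mem_Tub hX hw)
  exact ⟨h1.2.1.continuousOn.comp (continuous_id.sub continuous_const).continuousOn hmap,
    h1.2.2.1.continuousOn.comp (continuous_id.sub continuous_const).continuousOn hmap⟩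

/-- continuity of the integrand of `I` on the cylinder -/
theorem mk_cont_integrand {N : NCyl m n} {κ₂ : ℝ} (hG : Geo κ₂ N.u) (hh : N.h ≤ 1 / 9)
    {w : E (m + n)} (hw : ‖w‖ < N.h) (y₀ : E m) {g : ℝ → ℝ} (hg : Continuous g) (t : ℝ) :
    ContinuousOn (fun X => Wd N.u y₀ (npr N.u (X - w))) (Cyl N.u N.Ω N.h) ∧
    ContinuousOn (fun X => dsq N.u y₀ (X - w)) (Cyl N.u N.Ω N.h) ∧
    ContinuousOn (fun X => Wd N.u y₀ (npr N.u (X - w)) * g (dsq N.u y₀ (X - w) / t ^ 2))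
      (Cyl N.u N.Ω N.h) := by
  obtain ⟨h1, h2⟩ := mk_cont_shift hG hh hw
  have h3 : ContinuousOn (fun X => Wd N.u y₀ (npr N.u (X - w))) (Cyl N.u N.Ω N.h) :=
    (mk_continuous_Wd (hG.smooth.of_le (by norm_num)) y₀).comp_continuousOn h1
  have h4 : ContinuousOn (fun X => dsq N.u y₀ (X - w)) (Cyl N.u N.Ω N.h) := by
    unfold dsq
    exact ((mk_continuous_rho2 N.u y₀).comp_continuousOn h1).add (h2.norm.pow 2)
  exact ⟨h3, h4, h3.mul (hg.comp_continuousOn (h4.div_const _))⟩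

/-- [M3] the limit at `t = 0`. -/
theorem Irad_lim_aux (m n : ℕ) (hm : 1 ≤ m) : ∃ h₀ ε₁ : ℝ, 0 < h₀ ∧ 0 < ε₁ ∧
    ∀ (N : NCyl m n) (a C ε : ℝ) (X₀ : E (m + n)), Small N 8 a C ε → 0 ≤ ε →
      X₀ ∈ Cyl N.u N.Ω N.h → N.h ≤ h₀ → ε ≤ ε₁ →
      Tendsto (Irad N X₀) (𝓝[>] 0) (𝓝 (N.W.Θ X₀ * cPhi m)) := by
  obtain ⟨h₁, ε₁', C₁, hh₁, hε₁', hC₁, H⟩ := dsq_compare m n
  obtain ⟨h₂, hh₂, Hok⟩ := exists_cylOK m n
  refine ⟨min (h₁ / 2) (min h₂ (1 / 9)), min ε₁' (1 / 2), by positivity, by positivity,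
    fun N a C ε X₀ hS hε hX₀ hh hε1 => ?_⟩
  have hhA : N.h ≤ h₁ / 2 := hh.trans (min_le_left _ _)
  have hhB : N.h ≤ h₂ := hh.trans ((min_le_right _ _).trans (min_le_left _ _))
  have hhC : N.h ≤ 1 / 9 := hh.trans ((min_le_right _ _).trans (min_le_right _ _))
  have hG : Geo 1 N.u := hS.geo1 (hε1.trans (min_le_right _ _))
  have ok : CylOK N := Hok 1 N hG hhB
  have hF : Flat4 ε N.u := ⟨hS.smooth, hS.geo⟩
  have hcu : Continuous N.u := hG.differentiable.continuous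
  have hw : ‖zz N.u X₀‖ < N.h := hX₀.2
  set c : ℝ := C₁ * ε with hc
  have hc0 : 0 ≤ c := by positivity
  -- pointwise facts
  have hpt : ∀ X ∈ Cyl N.u N.Ω N.h,
      |‖X - X₀‖ ^ 2 - dsq N.u (npr N.u X₀) (X - zz N.u X₀)|
        ≤ c * Real.sqrt (dsq N.u (npr N.u X₀) (X - zz N.u X₀))
          * dsq N.u (npr N.u X₀) (X - zz N.u X₀) ∧
      |Wd N.u (npr N.u X₀) (npr N.u (X - zz N.u X₀)) - 1|
        ≤ c * Real.sqrt (dsq N.u (npr N.u X₀) (X - zz N.u X₀)) ∧
      dsq N.u (npr N.u X₀) (X - zz N.u X₀) ≤ 10 * ‖X - X₀‖ ^ 2 := by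
    intro X hX
    have hT : X - zz N.u X₀ ∈ Tub N.u h₁ :=
      mk_Tub_mono N.u (by linarith) (mk_shift_mem_Tub hX hw)
    have h1 := H N.u ε hF (hε1.trans (min_le_left _ _)) (npr N.u X₀) _ hT
    have h2 := mk_dsq_le hcu (y₀ := npr N.u X₀) (hG.slope _) (X - zz N.u X₀)
    have e : X - zz N.u X₀ - Fg N.u (npr N.u X₀) = X - X₀ := by rw [mk_Fg_npr]; abel
    rw [e] at h1 h2
    exact ⟨h1.1, h1.2.1, h2⟩
  obtain ⟨r, hr, hrs⟩ := Metric.isOpen_iff.1 ok.isOpen X₀ hX₀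
  -- the two bounds
  have hev : ∀ᶠ t in 𝓝[>] (0 : ℝ), 0 < t ∧ 4 * (c * t) ≤ 1 / 2 ∧ 2 * t < r := by
    have h1 : ∀ᶠ t in 𝓝[>] (0 : ℝ), t < min (r / 2) (1 / (8 * c + 1)) :=
      nhdsWithin_le_nhds (gt_mem_nhds (by positivity))
    filter_upwards [h1, self_mem_nhdsWithin] with t ht ht0
    have ht0' : 0 < t := ht0
    refine ⟨ht0', ?_, by linarith [ht.trans_le (min_le_left _ _)]⟩
    have h2 : t < 1 / (8 * c + 1) := ht.trans_le (min_le_right _ _)
    rw [lt_div_iff₀ (by positivity)] at h2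
    nlinarith
  have hsub : ∀ t σ : ℝ, 0 < t → 2 * t < r → σ ≤ 2 →
      Metric.closedBall X₀ (t * Real.sqrt σ) ⊆ Cyl N.u N.Ω N.h := by
    intro t σ ht htr hσ
    refine (Metric.closedBall_subset_ball ?_).trans hrs
    have : Real.sqrt σ ≤ 2 := by
      rw [show (2 : ℝ) = Real.sqrt (2 ^ 2) from (Real.sqrt_sq (by norm_num)).symm]
      exact Real.sqrt_le_sqrt (by linarith)
    nlinarith
  have hint : ∀ t : ℝ, 0 < t → 4 * (c * t) ≤ 1 / 2 → 2 * t < r →
      Integrable (fun X => Wd N.u (npr N.u X₀) (npr N.u (X - zz N.u X₀)) *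
        Phi (dsq N.u (npr N.u X₀) (X - zz N.u X₀) / t ^ 2)) N.μ := by
    intro t ht hct htr
    have hct0 : 0 ≤ c * t := by positivity
    refine Integrable.mono' (mk_ker_scaled N ht (by linarith : 0 < 1 + c * t)
      (hsub t _ ht htr (by linarith))).1
      (ok.aesm (mk_cont_integrand hG hhC hw _ mk_isKer_Phi.smooth.continuous t).2.2) ?_
    filter_upwards [ok.ae_cyl] with X hX
    obtain ⟨p1, p2, -⟩ := hpt X hX
    rw [Real.norm_of_nonneg (mul_nonneg (mk_Wd_nonneg _ _ _) (mk_Phi_nonneg _))]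
    exact mk_upper hc0 ht (mk_dsq_nonneg _ _ _) p1 p2
  refine tendsto_of_tendsto_of_tendsto_of_le_of_le'
    (mk_tendsto_scaled N.W hm (N.cyl_sub hX₀) (s := fun t => 1 - 4 * (c * t))
      (by fun_prop) (by simp))
    (mk_tendsto_scaled N.W hm (N.cyl_sub hX₀) (s := fun t => 1 + c * t)
      (by fun_prop) (by simp)) ?_ ?_
  · filter_upwards [hev] with t ⟨ht, hct, htr⟩
    have hct0 : 0 ≤ c * t := by positivity
    obtain ⟨i1, e1⟩ := mk_ker_scaled (m := m) N ht (by linarith : 0 < 1 - 4 * (c * t))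
      (hsub t _ ht htr (by linarith))
    rw [← e1]
    unfold Irad
    refine mul_le_mul_of_nonneg_left ?_ (by positivity)
    refine integral_mono_ae i1 (hint t ht hct htr) ?_
    filter_upwards [ok.ae_cyl] with X hX
    obtain ⟨p1, p2, p3⟩ := hpt X hX
    exact mk_lower hc0 ht hct (mk_dsq_nonneg _ _ _) p1 p2 (mk_Wd_nonneg _ _ _) p3
  · filter_upwards [hev] with t ⟨ht, hct, htr⟩
    have hct0 : 0 ≤ c * t := by positivity
    obtain ⟨i1, e1⟩ := mk_ker_scaled (m := m) N ht (by linarith : 0 < 1 + c * t)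
      (hsub t _ ht htr (by linarith))
    rw [← e1]
    unfold Irad
    refine mul_le_mul_of_nonneg_left ?_ (by positivity)
    refine integral_mono_ae (hint t ht hct htr) i1 ?_
    filter_upwards [ok.ae_cyl] with X hX
    obtain ⟨p1, p2, -⟩ := hpt X hX
    exact mk_upper hc0 ht (mk_dsq_nonneg _ _ _) p1 p2


/-! ### derivative of `I` -/

theorem mk_hasDerivAt_Phi (s : ℝ) : HasDerivAt Phi (- (Psi s / 2)) s := by
  have h1 := ker_hasDerivAt_pos_pow (q := 4) (by norm_num) (1 - s)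
  have h2 : HasDerivAt (fun s : ℝ => 1 - s) (-1) s := by
    simpa using (hasDerivAt_id s).const_sub 1
  have h3 := h1.comp s h2
  have e : ((4 : ℕ) : ℝ) * max (1 - s) 0 ^ (4 - 1) * -1 = - (Psi s / 2) := by
    unfold Psi; norm_num; ring
  rw [e] at h3
  exact h3

theorem mk_Psi_nonneg (s : ℝ) : 0 ≤ Psi s := by unfold Psi; positivity

theorem mk_Psi_zero {s : ℝ} (hs : 1 ≤ s) : Psi s = 0 := by
  unfold Psi
  rw [max_eq_right (by linarith)]
  norm_num

theorem mk_Psi_le {s : ℝ} (hs : 0 ≤ s) : Psi s ≤ 8 := by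
  unfold Psi
  have h1 : max (1 - s) 0 ≤ 1 := max_le (by linarith) zero_le_one
  have h2 : max (1 - s) 0 ^ 3 ≤ 1 := pow_le_one₀ (le_max_right _ _) h1
  linarith

theorem mk_Phi_le {s : ℝ} (hs : 0 ≤ s) : Phi s ≤ 1 := by
  unfold Phi
  have h1 : max (1 - s) 0 ≤ 1 := max_le (by linarith) zero_le_one
  exact pow_le_one₀ (le_max_right _ _) h1

theorem mk_continuous_Psi : Continuous Psi := by unfold Psi; fun_prop

theorem mk_hasDerivAt_scale (d2 : ℝ) {t : ℝ} (ht : t ≠ 0) :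
    HasDerivAt (fun t : ℝ => Phi (d2 / t ^ 2)) (Psi (d2 / t ^ 2) * d2 / t ^ 3) t := by
  have h1 : HasDerivAt (fun t : ℝ => d2 / t ^ 2) (- (2 * d2) / t ^ 3) t := by
    have h2 : HasDerivAt (fun t : ℝ => t ^ 2) (2 * t) t := by
      simpa using hasDerivAt_pow 2 t
    have h3 := (hasDerivAt_const t d2).div h2 (pow_ne_zero 2 ht)
    have e : - (2 * d2) / t ^ 3 = (0 * t ^ 2 - d2 * (2 * t)) / (t ^ 2) ^ 2 := by
      field_simp
      ring
    rw [e]
    exact h3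
  have h4 := (mk_hasDerivAt_Phi (d2 / t ^ 2)).comp t h1
  have e : Psi (d2 / t ^ 2) * d2 / t ^ 3 = -(Psi (d2 / t ^ 2) / 2) * (-(2 * d2) / t ^ 3) := by
    ring
  rw [e]
  exact h4

theorem mk_deriv_alg (m : ℕ) (hm : 1 ≤ m) {t : ℝ} (ht : 0 < t) (J J' : ℝ) :
    - ((m : ℝ) * t ^ (m - 1)) / (t ^ m) ^ 2 * J + (t ^ m)⁻¹ * J'
      = t⁻¹ * ((t ^ m)⁻¹ * (t * J' - m * J)) := by
  obtain ⟨k, rfl⟩ : ∃ k, m = k + 1 := ⟨m - 1, by omega⟩
  simp only [Nat.add_sub_cancel]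
  field_simp
  ring

/-- the test field -/
noncomputable def Zf (u : E m → E n) (y₀ : E m) (w : E (m + n)) (t : ℝ) (X : E (m + n)) :
    E (m + n) :=
  Phi (dsq u y₀ (X - w) / t ^ 2) • WY u y₀ (X - w)

theorem mk_eqns_cite : True := by
  have := @Zf.eq_1
  trivial

/-- pointwise form of the first variation identity -/
theorem mk_pointwise {u : E m → E n} {y₀ : E m} {w : E (m + n)} {t : ℝ} {X : E (m + n)}
    {P : E (m + n) →L[ℝ] E (m + n)} (hP : IsProj m P)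
    (h1 : DifferentiableAt ℝ (WY u y₀) (X - w)) (h2 : DifferentiableAt ℝ (dsq u y₀) (X - w))
    (h3 : inner ℝ (Yf u y₀ (X - w)) (Gf u y₀ (X - w)) = dsq u y₀ (X - w)) :
    Psi (dsq u y₀ (X - w) / t ^ 2) / t ^ 2 * Wd u y₀ (npr u (X - w)) *
        inner ℝ (Yf u y₀ (X - w)) (Gf u y₀ (X - w) - P (Gf u y₀ (X - w)))
      + Phi (dsq u y₀ (X - w) / t ^ 2) *
        (tdiv P (fderiv ℝ (WY u y₀) (X - w)) - m * Wd u y₀ (npr u (X - w)))
    = tdiv P (fderiv ℝ (Zf u y₀ w t) X)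
      + (Wd u y₀ (npr u (X - w)) * (Psi (dsq u y₀ (X - w) / t ^ 2) * dsq u y₀ (X - w) / t ^ 2)
        - m * (Wd u y₀ (npr u (X - w)) * Phi (dsq u y₀ (X - w) / t ^ 2))) := by
  have hsh : HasFDerivAt (fun X : E (m + n) => X - w) (ContinuousLinearMap.id ℝ (E (m + n))) X :=
    (hasFDerivAt_id X).sub_const w
  have d1 : HasFDerivAt (fun X => WY u y₀ (X - w)) (fderiv ℝ (WY u y₀) (X - w)) X := by
    have := h1.hasFDerivAt.comp X hsh
    rwa [ContinuousLinearMap.comp_id] at this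
  have d2 : HasFDerivAt (fun X => dsq u y₀ (X - w)) (fderiv ℝ (dsq u y₀) (X - w)) X := by
    have := h2.hasFDerivAt.comp X hsh
    rwa [ContinuousLinearMap.comp_id] at this
  have d3 : HasFDerivAt (fun X => Phi (dsq u y₀ (X - w) / t ^ 2))
      ((- (Psi (dsq u y₀ (X - w) / t ^ 2) / 2)) • ((t ^ 2)⁻¹ • fderiv ℝ (dsq u y₀) (X - w))) X := by
    have d4 : HasFDerivAt (fun X => dsq u y₀ (X - w) / t ^ 2)
        ((t ^ 2)⁻¹ • fderiv ℝ (dsq u y₀) (X - w)) X := by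
      simpa [div_eq_inv_mul] using d2.const_mul ((t ^ 2)⁻¹)
    exact (mk_hasDerivAt_Phi _).comp_hasFDerivAt X d4
  have e1 : tdiv P (fderiv ℝ (Zf u y₀ w t) X)
      = Phi (dsq u y₀ (X - w) / t ^ 2) * tdiv P (fderiv ℝ (WY u y₀) (X - w))
        + ((- (Psi (dsq u y₀ (X - w) / t ^ 2) / 2)) •
            ((t ^ 2)⁻¹ • fderiv ℝ (dsq u y₀) (X - w))) (P (WY u y₀ (X - w))) := by
    have := tdiv_fderiv_smul P d3.differentiableAt d1.differentiableAt
    rw [d3.fderiv, d1.fderiv] at this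
    exact this
  have e2 : ∀ v, fderiv ℝ (dsq u y₀) (X - w) v = 2 * inner ℝ v (Gf u y₀ (X - w)) := by
    intro v
    unfold Gf
    rw [inner_gradient]
    have : HasFDerivAt (fun X' => dsq u y₀ X' / 2) ((2 : ℝ)⁻¹ • fderiv ℝ (dsq u y₀) (X - w))
        (X - w) := by
      simpa [div_eq_inv_mul] using h2.hasFDerivAt.const_mul ((2 : ℝ)⁻¹)
    rw [this.fderiv]
    simp
  rw [e1]
  simp only [smul_apply, smul_eq_mul, e2]
  unfold WY
  rw [map_smul, inner_smul_left, hP.symm, inner_sub_right, h3]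
  simp only [RCLike.conj_to_real]
  ring

/-- uniform bounds of the integrands -/
theorem mk_bound {c W d2 s : ℝ} (hc : 0 ≤ c) (hs : 0 < s) (hs2 : s ≤ 2) (hd : 0 ≤ d2)
    (hW : |W - 1| ≤ c * Real.sqrt d2) :
    |W * (Psi (d2 / s ^ 2) * d2 / s ^ 3)| ≤ (1 + 2 * c) * (8 / s) ∧
    |W * Phi (d2 / s ^ 2)| ≤ 1 + 2 * c ∧
    |W * (Psi (d2 / s ^ 2) * d2 / s ^ 2)| ≤ (1 + 2 * c) * 8 := by
  have hs2' : 0 < s ^ 2 := by positivity
  rcases le_or_gt (s ^ 2) d2 with hdt | hdt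
  · have h1 : 1 ≤ d2 / s ^ 2 := (one_le_div hs2').2 hdt
    rw [mk_Phi_zero h1, mk_Psi_zero h1]
    simp only [zero_mul, zero_div, mul_zero, abs_zero]
    exact ⟨by positivity, by positivity, by positivity⟩
  · have hsq : Real.sqrt d2 ≤ 2 := by
      rw [show (2 : ℝ) = Real.sqrt (2 ^ 2) from (Real.sqrt_sq (by norm_num)).symm]
      exact Real.sqrt_le_sqrt (by nlinarith)
    have hW1 : |W| ≤ 1 + 2 * c := by
      have h1 : |W| ≤ |W - 1| + 1 := by
        have := abs_add_le (W - 1) 1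
        simpa using this
      have h2 : c * Real.sqrt d2 ≤ c * 2 := mul_le_mul_of_nonneg_left hsq hc
      linarith
    have hq0 : 0 ≤ d2 / s ^ 2 := by positivity
    have hq1 : d2 / s ^ 2 ≤ 1 := ((div_lt_one hs2').2 hdt).le
    have hP := mk_Psi_le hq0
    have hP0 := mk_Psi_nonneg (d2 / s ^ 2)
    have hF := mk_Phi_le hq0
    have hF0 := mk_Phi_nonneg (d2 / s ^ 2)
    have hA : |Psi (d2 / s ^ 2) * d2 / s ^ 2| ≤ 8 := by
      rw [mul_div_assoc, abs_of_nonneg (by positivity)]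
      calc Psi (d2 / s ^ 2) * (d2 / s ^ 2) ≤ 8 * 1 := by gcongr
        _ = 8 := by norm_num
    refine ⟨?_, ?_, ?_⟩
    · rw [abs_mul]
      have e : Psi (d2 / s ^ 2) * d2 / s ^ 3 = (Psi (d2 / s ^ 2) * d2 / s ^ 2) / s := by
        field_simp
      rw [e, abs_div, abs_of_pos hs]
      gcongr
    · rw [abs_mul, abs_of_nonneg hF0]
      calc |W| * Phi (d2 / s ^ 2) ≤ (1 + 2 * c) * 1 := by gcongr
        _ = _ := by ring
    · rw [abs_mul]
      gcongr


/-- [M1] derivative of `I` in `t`. -/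
theorem Irad_deriv_aux (m n Q : ℕ) (hm : 1 ≤ m) : ∃ h₀ ε₁ : ℝ, 0 < h₀ ∧ 0 < ε₁ ∧
    ∀ (N : NCyl m n) (a C ε : ℝ) (X₀ : E (m + n)), Small N 8 a C ε → N.Q = Q → 0 < a → 0 ≤ ε →
      X₀ ∈ Cyl N.u N.Ω N.h → ‖npr N.u X₀‖ ≤ 2 → N.h ≤ h₀ → a ≤ 1 → ε ≤ ε₁ →
    ∀ t : ℝ, 0 < t → t ≤ 1 →
      Integrable (dIint N X₀ t) N.μ ∧
      HasDerivAt (Irad N X₀) (t⁻¹ * ((t ^ m)⁻¹ * ∫ X, dIint N X₀ t X ∂N.μ)) t := by
  obtain ⟨h₁, εa, hh₁, hεa, HP1⟩ := radial_exact m n
  obtain ⟨h₂, εb, C₂, hh₂, hεb, hC₂, HP3⟩ := dsq_compare m n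
  obtain ⟨h₃, hh₃, Hstat⟩ := stat_cyl m n
  obtain ⟨h₄, hh₄, Hkit⟩ := exists_kit m n Q 8 (by norm_num)
  refine ⟨min (min (h₁ / 2) (h₂ / 2)) (min (min h₃ h₄) (1 / 9)), min (min εa εb) (1 / 2),
    by positivity, by positivity, fun N a C ε X₀ hS hQ ha hε hX₀ hbase hh ha1 hε1 t ht ht1 => ?_⟩
  have hhA : N.h ≤ h₁ / 2 := hh.trans ((min_le_left _ _).trans (min_le_left _ _))
  have hhB : N.h ≤ h₂ / 2 := hh.trans ((min_le_left _ _).trans (min_le_right _ _))
  have hhC : N.h ≤ h₃ := hh.trans ((min_le_right _ _).trans ((min_le_left _ _).trans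
    (min_le_left _ _)))
  have hhD : N.h ≤ h₄ := hh.trans ((min_le_right _ _).trans ((min_le_left _ _).trans
    (min_le_right _ _)))
  have hhE : N.h ≤ 1 / 9 := hh.trans ((min_le_right _ _).trans (min_le_right _ _))
  have hεA : ε ≤ εa := hε1.trans ((min_le_left _ _).trans (min_le_left _ _))
  have hεB : ε ≤ εb := hε1.trans ((min_le_left _ _).trans (min_le_right _ _))
  have hεC : ε ≤ 1 / 2 := hε1.trans (min_le_right _ _)
  obtain ⟨Cm, hCm, Hkit⟩ := Hkit C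
  have K : SK N 8 a C ε Cm := Hkit N a ε hQ hhD ha ha1 hε hεC hS
  have hfin := K.fin
  have ok := K.ok
  have hG := K.geo
  have hF : Flat4 ε N.u := ⟨hS.smooth, hS.geo⟩
  have hcu : Continuous N.u := hG.differentiable.continuous
  have hw : ‖zz N.u X₀‖ < N.h := hX₀.2
  obtain ⟨q1, q2, -, q4, -⟩ := HP1 N.u ε hF hεA (npr N.u X₀)
  set c : ℝ := C₂ * ε with hc
  have hc0 : 0 ≤ c := by positivity
  have hT1 : ∀ X ∈ Cyl N.u N.Ω N.h, X - zz N.u X₀ ∈ Tub N.u h₁ := fun X hX =>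
    mk_Tub_mono N.u (by linarith) (mk_shift_mem_Tub hX hw)
  have hT2 : ∀ X ∈ Cyl N.u N.Ω N.h, X - zz N.u X₀ ∈ Tub N.u h₂ := fun X hX =>
    mk_Tub_mono N.u (by linarith) (mk_shift_mem_Tub hX hw)
  -- abbreviations
  obtain ⟨Wf, hWf⟩ : ∃ Wf : E (m + n) → ℝ,
      Wf = fun X => Wd N.u (npr N.u X₀) (npr N.u (X - zz N.u X₀)) := ⟨_, rfl⟩
  obtain ⟨df, hdf⟩ : ∃ df : E (m + n) → ℝ,
      df = fun X => dsq N.u (npr N.u X₀) (X - zz N.u X₀) := ⟨_, rfl⟩
  have hd0 : ∀ X, 0 ≤ df X := fun X => by rw [hdf]; exact mk_dsq_nonneg _ _ _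
  have hW1 : ∀ X ∈ Cyl N.u N.Ω N.h, |Wf X - 1| ≤ c * Real.sqrt (df X) := fun X hX => by
    rw [hWf, hdf]
    exact (HP3 N.u ε hF hεB (npr N.u X₀) _ (hT2 X hX)).2.1
  have hcW : ContinuousOn Wf (Cyl N.u N.Ω N.h) := by
    rw [hWf]
    exact (mk_cont_integrand hG hhE hw (npr N.u X₀) continuous_id 1).1
  have hcd : ContinuousOn df (Cyl N.u N.Ω N.h) := by
    rw [hdf]
    exact (mk_cont_integrand hG hhE hw (npr N.u X₀) continuous_id 1).2.1
  have hcPhi : ∀ s : ℝ, ContinuousOn (fun X => Wf X * Phi (df X / s ^ 2)) (Cyl N.u N.Ω N.h) :=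
    fun s => hcW.mul (mk_isKer_Phi.smooth.continuous.comp_continuousOn (hcd.div_const _))
  have hcPsi : ∀ (s : ℝ) (k : ℕ),
      ContinuousOn (fun X => Wf X * (Psi (df X / s ^ 2) * df X / s ^ k)) (Cyl N.u N.Ω N.h) :=
    fun s k => hcW.mul (((mk_continuous_Psi.comp_continuousOn (hcd.div_const _)).mul hcd).div_const _)
  -- integrability of the bounded pieces
  have hiPhi : Integrable (fun X => Wf X * Phi (df X / t ^ 2)) N.μ := by
    refine Integrable.mono' (integrable_const (1 + 2 * c)) (ok.aesm (hcPhi t)) ?_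
    filter_upwards [ok.ae_cyl] with X hX
    exact (mk_bound hc0 ht (by linarith) (hd0 X) (hW1 X hX)).2.1
  have hiPsi : Integrable (fun X => Wf X * (Psi (df X / t ^ 2) * df X / t ^ 2)) N.μ := by
    refine Integrable.mono' (integrable_const ((1 + 2 * c) * 8)) (ok.aesm (hcPsi t 2)) ?_
    filter_upwards [ok.ae_cyl] with X hX
    exact (mk_bound hc0 ht (by linarith) (hd0 X) (hW1 X hX)).2.2
  -- differentiation under the integral
  have hder := hasDerivAt_integral_of_dominated_loc_of_deriv_le (μ := N.μ)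
    (F := fun s X => Wf X * Phi (df X / s ^ 2))
    (F' := fun s X => Wf X * (Psi (df X / s ^ 2) * df X / s ^ 3))
    (x₀ := t) (s := Set.Ioo (t / 2) (2 * t)) (bound := fun _ => (1 + 2 * c) * (16 / t))
    (Ioo_mem_nhds (by linarith) (by linarith))
    (Eventually.of_forall fun s => ok.aesm (hcPhi s)) hiPhi (ok.aesm (hcPsi t 3))
    (by
      filter_upwards [ok.ae_cyl] with X hX s hs
      have hs0 : 0 < s := by linarith [hs.1]
      refine (mk_bound hc0 hs0 (by linarith [hs.2]) (hd0 X) (hW1 X hX)).1.trans ?_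
      refine mul_le_mul_of_nonneg_left ?_ (by positivity)
      rw [div_le_div_iff₀ hs0 ht]
      linarith [hs.1])
    (integrable_const _)
    (Eventually.of_forall fun X s hs =>
      (mk_hasDerivAt_scale (df X) (by linarith [hs.1] : s ≠ 0)).const_mul (Wf X))
  obtain ⟨-, hJ⟩ := hder
  -- stationarity
  have hmap : Set.MapsTo (fun X : E (m + n) => X - zz N.u X₀) (Cyl N.u N.Ω N.h) (Tub N.u h₁) := hT1
  have hshift : ContDiffOn ℝ 1 (fun X : E (m + n) => X - zz N.u X₀) (Cyl N.u N.Ω N.h) :=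
    (contDiff_id.sub contDiff_const).contDiffOn
  have hZ : ContDiffOn ℝ 1 (Zf N.u (npr N.u X₀) (zz N.u X₀) t) (Cyl N.u N.Ω N.h) := by
    have z1 : ContDiffOn ℝ 1 (fun X => Phi (dsq N.u (npr N.u X₀) (X - zz N.u X₀) / t ^ 2))
        (Cyl N.u N.Ω N.h) :=
      mk_isKer_Phi.smooth.comp_contDiffOn
        ((((q2.of_le (by norm_num)).comp hshift hmap)).div_const _)
    exact z1.smul (q1.comp hshift hmap)
  obtain ⟨hiZ, hZ0⟩ := Hstat 1 N hG hhC (Zf N.u (npr N.u X₀) (zz N.u X₀) t)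
    (Metric.closedBall 0 4) hZ (isCompact_closedBall _ _)
    (by rw [hS.Ω_eq]; exact Metric.closedBall_subset_ball (by norm_num))
    (by
      intro X hX hK
      unfold Zf
      rw [mk_Phi_zero, zero_smul]
      by_contra hcon
      apply hK
      have h1 : dsq N.u (npr N.u X₀) (X - zz N.u X₀) < t ^ 2 := by
        have := not_le.1 hcon
        rwa [div_lt_one (by positivity)] at this
      have h2 : ‖npr N.u (X - zz N.u X₀) - npr N.u X₀‖ ^ 2 < t ^ 2 := by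
        refine lt_of_le_of_lt ?_ h1
        unfold dsq rho2
        have := norm_le_norm_dF (fderiv ℝ N.u (npr N.u X₀))
          (npr N.u (X - zz N.u X₀) - npr N.u X₀)
        have h3 : ‖npr N.u (X - zz N.u X₀) - npr N.u X₀‖ ^ 2
            ≤ ‖dF (fderiv ℝ N.u (npr N.u X₀)) (npr N.u (X - zz N.u X₀) - npr N.u X₀)‖ ^ 2 := by
          gcongr
        have := sq_nonneg ‖zz N.u (X - zz N.u X₀)‖
        linarith
      have h3 : ‖npr N.u (X - zz N.u X₀) - npr N.u X₀‖ < t := lt_of_pow_lt_pow_left₀ 2 ht.le h2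
      have h4 := mk_norm_npr_shift_le hcu X (zz N.u X₀)
      have h5 := hX.2
      rw [Metric.mem_closedBall, dist_zero_right]
      have e : npr N.u X = npr N.u X₀ + (npr N.u (X - zz N.u X₀) - npr N.u X₀)
          - (npr N.u (X - zz N.u X₀) - npr N.u X) := by abel
      rw [e]
      have h6 := norm_sub_le (npr N.u X₀ + (npr N.u (X - zz N.u X₀) - npr N.u X₀))
        (npr N.u (X - zz N.u X₀) - npr N.u X)
      have h7 := norm_add_le (npr N.u X₀) (npr N.u (X - zz N.u X₀) - npr N.u X₀)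
      linarith)
  -- the pointwise identity
  have hpt : dIint N X₀ t =ᵐ[N.μ] fun X =>
      tdiv (N.W.P X) (fderiv ℝ (Zf N.u (npr N.u X₀) (zz N.u X₀) t) X)
        + (Wf X * (Psi (df X / t ^ 2) * df X / t ^ 2) - m * (Wf X * Phi (df X / t ^ 2))) := by
    filter_upwards [ok.ae_cyl] with X hX
    have hT := hT1 X hX
    have hnh := (isOpen_Tub N.u h₁).mem_nhds hT
    rw [hWf, hdf]
    exact mk_pointwise (N.W.P_proj X) ((q1.differentiableOn (by norm_num)).differentiableAt hnh)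
      ((q2.differentiableOn (by norm_num)).differentiableAt hnh) (q4 _ hT)
  have hi2 : Integrable (fun X => Wf X * (Psi (df X / t ^ 2) * df X / t ^ 2)
      - m * (Wf X * Phi (df X / t ^ 2))) N.μ := hiPsi.sub (hiPhi.const_mul _)
  refine ⟨(hiZ.add hi2).congr hpt.symm, ?_⟩
  have hval : ∫ X, dIint N X₀ t X ∂N.μ
      = t * (∫ X, Wf X * (Psi (df X / t ^ 2) * df X / t ^ 3) ∂N.μ)
        - m * ∫ X, Wf X * Phi (df X / t ^ 2) ∂N.μ := by
    rw [integral_congr_ae hpt, integral_add hiZ hi2, hZ0, zero_add,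
      integral_sub hiPsi (hiPhi.const_mul _), integral_const_mul, ← integral_const_mul t]
    congr 1
    refine integral_congr_ae (Eventually.of_forall fun X => ?_)
    simp only
    field_simp
  have hI : Irad N X₀ = fun s => (s ^ m)⁻¹ * ∫ X, Wf X * Phi (df X / s ^ 2) ∂N.μ := by
    funext s
    rw [hWf, hdf]
    rfl
  rw [hI, hval, ← mk_deriv_alg m hm ht]
  exact ((hasDerivAt_pow m t).fun_inv (pow_ne_zero _ ht.ne')).mul hJ

end Claimed.Agent.R322.Dens
end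

/- ===== packed: Claimed.Agent.R322.Dens.Mono ===== -/
section
/-!
# CO Section 6b: almost monotonicity of `I(X₀,t)` (leaves M1-M4)

* `Irad_deriv` : differentiate under the integral (`hasDerivAt_integral_of_dominated_loc_of_deriv_le`;
  `Φ ∈ C¹`, `μ` finite), then add `0 = ∫ P:D(Φ(d²/t²) W Y(· - w)) dμ` (`Tube.stat_cyl`, the field is
  `C¹` on the cylinder and vanishes unless `|π X - y₀| ≤ 3 t`), product rule `tdiv_fderiv_smul`,
  `∇Φ(d²/t²) = - Ψ G / t²`, `Y·G = d²`:  `t I' = t^{-m} ∫ {Ψ/t² W Y·(1-P)G + Φ 𝓔}`.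
* `Irad_lower` : `radial_pointwise`, `shift_pointwise` (tilt), `dsq_compare`
  (`{d(X - w) ≤ t} ⊆ B_{2t}(X₀)`, because `F y₀ = X₀ - w`).
* `Irad_lim` : sandwich `Φ(|X - X₀|²(1 + Cεt)/t²) ≤ Φ(d²/t²) ≤ Φ(|X - X₀|²(1 - Cεt)/t²)`,
  `|W - 1| ≤ C ε t`, and `SIV.tendsto_kint`; `N.μ = W.μ` near `X₀` (the cylinder is open).
* `almost_mono` : `intervalIntegral.sub_le_integral_of_hasDeriv_right_of_le` for `- I` on `[t, l]`,
  then `t ↓ 0`.
-/

set_option autoImplicit false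

open scoped ENNReal ContDiff Topology
open MeasureTheory

namespace Claimed.Agent.R322.Dens

open Claimed.Agent.R322.Tube Claimed.Agent.R322.Fn Claimed.Agent.R322.Lin

variable {m n : ℕ}

/-- a centre in a small normal cylinder over `B_8` -/
structure Ctr (N : NCyl m n) (Q : ℕ) (a C ε : ℝ) (X₀ : E (m + n)) : Prop where
  small : Small N 8 a C ε
  NQ : N.Q = Q
  a_pos : 0 < a
  eps_nonneg : 0 ≤ ε
  mem_supp : X₀ ∈ N.W.support
  mem_cyl : X₀ ∈ Cyl N.u N.Ω N.h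
  base : ‖npr N.u X₀‖ ≤ 2

/-- [M1] derivative of `I` in `t`. -/
theorem Irad_deriv (m n Q : ℕ) (hm : 1 ≤ m) : ∃ h₀ l₀ : ℝ, 0 < h₀ ∧ 0 < l₀ ∧
    ∀ C : ℝ, ∃ ε₁ : ℝ, 0 < ε₁ ∧
    ∀ (N : NCyl m n) (a ε : ℝ) (X₀ : E (m + n)), Ctr N Q a C ε X₀ → N.h ≤ h₀ → a ≤ ε₁ → ε ≤ ε₁ →
    ∀ t : ℝ, 0 < t → t ≤ l₀ →
      Integrable (dIint N X₀ t) N.μ ∧
      HasDerivAt (Irad N X₀) (t⁻¹ * ((t ^ m)⁻¹ * ∫ X, dIint N X₀ t X ∂N.μ)) t := by
  obtain ⟨h₀, ε₁, hh₀, hε₁, H⟩ := Irad_deriv_aux m n Q hm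
  refine ⟨h₀, 1, hh₀, one_pos, fun C => ⟨min ε₁ 1, lt_min hε₁ one_pos,
    fun N a ε X₀ hC hh ha hε t ht htl => ?_⟩⟩
  exact H N a C ε X₀ hC.small hC.NQ hC.a_pos hC.eps_nonneg hC.mem_cyl hC.base hh
    (ha.trans (min_le_right _ _)) (hε.trans (min_le_left _ _)) t ht htl

theorem dm_Phi_eq_zero {s : ℝ} (hs : 1 ≤ s) : Phi s = 0 := by
  unfold Phi
  rw [max_eq_right (by linarith)]
  norm_num

theorem dm_Psi_eq_zero {s : ℝ} (hs : 1 ≤ s) : Psi s = 0 := by
  unfold Psi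
  rw [max_eq_right (by linarith)]
  norm_num

theorem dm_dsq_nonneg (u : E m → E n) (y₀ : E m) (X : E (m + n)) : 0 ≤ dsq u y₀ X := by
  unfold dsq rho2
  positivity

/-- abstract lower bound of an integral by a (possibly non measurable) density on a set -/
theorem dm_integral_lower {α : Type*} [MeasurableSpace α] (μ : Measure α) (g τ : α → ℝ)
    (B : Set α) (c : ℝ) (hg : Integrable g μ) (hB : MeasurableSet B) (hc : 0 ≤ c)
    (hpt : ∀ᵐ x ∂μ, - (c * B.indicator τ x) ≤ g x)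
    (hfin : (μ.withDensity fun x => ENNReal.ofReal (τ x)) B ≠ ⊤) :
    - (c * ((μ.withDensity fun x => ENNReal.ofReal (τ x)) B).toReal) ≤ ∫ x, g x ∂μ := by
  rw [integral_eq_lintegral_pos_part_sub_lintegral_neg_part hg]
  have h1 : ∫⁻ x, ENNReal.ofReal (- g x) ∂μ
      ≤ ENNReal.ofReal c * (μ.withDensity fun x => ENNReal.ofReal (τ x)) B := by
    rw [withDensity_apply _ hB, ← lintegral_indicator hB,
      ← lintegral_const_mul' _ _ ENNReal.ofReal_ne_top]
    refine lintegral_mono_ae ?_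
    filter_upwards [hpt] with x hx
    by_cases hxB : x ∈ B
    · rw [Set.indicator_of_mem hxB] at hx ⊢
      rw [← ENNReal.ofReal_mul hc]
      exact ENNReal.ofReal_le_ofReal (by linarith)
    · rw [Set.indicator_of_notMem hxB] at hx ⊢
      rw [mul_zero, ENNReal.ofReal_of_nonpos (by linarith)]
  have h2 := ENNReal.toReal_mono (ENNReal.mul_ne_top ENNReal.ofReal_ne_top hfin) h1
  rw [ENNReal.toReal_mul, ENNReal.toReal_ofReal hc] at h2
  have h3 : 0 ≤ (∫⁻ x, ENNReal.ofReal (g x) ∂μ).toReal := ENNReal.toReal_nonneg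
  linarith

/-- `κ = (e + a²) μ` is finite as soon as `μ` is -/
theorem dm_kapM_ne_top (N : NCyl m n) (a : ℝ) (hμ : N.μ Set.univ ≠ ⊤) (B : Set (E (m + n))) :
    kapM N a B ≠ ⊤ := by
  refine ne_top_of_le_ne_top ?_ (measure_mono (Set.subset_univ B))
  unfold kapM
  rw [withDensity_apply _ MeasurableSet.univ, Measure.restrict_univ]
  refine ne_top_of_le_ne_top (b := ENNReal.ofReal (m + a ^ 2) * N.μ Set.univ)
    (ENNReal.mul_ne_top ENNReal.ofReal_ne_top hμ) ?_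
  rw [← lintegral_const]
  refine lintegral_mono fun X => ENNReal.ofReal_le_ofReal ?_
  have := ck_tilt_le N.u X (N.W.P_proj X)
  linarith

/-- [M2] lower bound of the derivative. -/
theorem Irad_lower (m n Q : ℕ) (hm : 1 ≤ m) : ∃ h₀ l₀ : ℝ, 0 < h₀ ∧ 0 < l₀ ∧
    ∀ C : ℝ, ∃ ε₁ C₁ : ℝ, 0 < ε₁ ∧ 0 < C₁ ∧
    ∀ (N : NCyl m n) (a ε : ℝ) (X₀ : E (m + n)), Ctr N Q a C ε X₀ → N.h ≤ h₀ → a ≤ ε₁ → ε ≤ ε₁ →
    ∀ t : ℝ, 0 < t → t ≤ l₀ →
      - (C₁ * ε * t * (kapM N a (Metric.ball X₀ (2 * t))).toReal) ≤ ∫ X, dIint N X₀ t X ∂N.μ := by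
  obtain ⟨h₁, l₁, hh₁, hl₁, H1⟩ := Irad_deriv m n Q hm
  obtain ⟨ha, εa, Ca, hha, hεa, hCa, Ha⟩ := radial_pointwise m n
  obtain ⟨hb, εb, Cb, hhb, hεb, hCb, Hb⟩ := shift_pointwise m n
  obtain ⟨hc, εc, Cc, hhc, hεc, hCc, Hc⟩ := dsq_compare m n
  obtain ⟨hd, hhd, Hd⟩ := exists_cylOK m n
  obtain ⟨hq, hhq, Hq⟩ := q_mass m n Q 8 (by norm_num)
  refine ⟨min (min h₁ (min hd hq)) (min (ha / 2) (min hb (hc / 2))), min l₁ 1,
    lt_min (lt_min hh₁ (lt_min hhd hhq)) (lt_min (half_pos hha) (lt_min hhb (half_pos hhc))),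
    lt_min hl₁ one_pos, fun C => ?_⟩
  obtain ⟨ε₁, hε₁, H1⟩ := H1 C
  obtain ⟨εq, Cq, hεq, hCq, Hq⟩ := Hq C
  refine ⟨min (min ε₁ εq) (min (min εa εb) (min εc (min (1 / 2) (1 / Cc)))),
    Ca * (2 + Cb * C ^ 2),
    lt_min (lt_min hε₁ hεq) (lt_min (lt_min hεa hεb) (lt_min hεc (lt_min (by norm_num)
      (by positivity)))), by positivity, ?_⟩
  intro N a ε X₀ hctr hh haε hε t ht htl
  have hh1 : N.h ≤ h₁ := hh.trans ((min_le_left _ _).trans (min_le_left _ _))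
  have hhd' : N.h ≤ hd := hh.trans ((min_le_left _ _).trans ((min_le_right _ _).trans
    (min_le_left _ _)))
  have hhq' : N.h ≤ hq := hh.trans ((min_le_left _ _).trans ((min_le_right _ _).trans
    (min_le_right _ _)))
  have hha' : N.h ≤ ha / 2 := hh.trans ((min_le_right _ _).trans (min_le_left _ _))
  have hhb' : N.h ≤ hb := hh.trans ((min_le_right _ _).trans ((min_le_right _ _).trans
    (min_le_left _ _)))
  have hhc' : N.h ≤ hc / 2 := hh.trans ((min_le_right _ _).trans ((min_le_right _ _).trans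
    (min_le_right _ _)))
  have e1 : ε ≤ ε₁ := hε.trans ((min_le_left _ _).trans (min_le_left _ _))
  have a1 : a ≤ ε₁ := haε.trans ((min_le_left _ _).trans (min_le_left _ _))
  have eq : ε ≤ εq := hε.trans ((min_le_left _ _).trans (min_le_right _ _))
  have ea : ε ≤ εa := hε.trans ((min_le_right _ _).trans ((min_le_left _ _).trans
    (min_le_left _ _)))
  have eb : ε ≤ εb := hε.trans ((min_le_right _ _).trans ((min_le_left _ _).trans
    (min_le_right _ _)))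
  have ec : ε ≤ εc := hε.trans ((min_le_right _ _).trans ((min_le_right _ _).trans
    (min_le_left _ _)))
  have e2 : ε ≤ 1 / 2 := hε.trans ((min_le_right _ _).trans ((min_le_right _ _).trans
    ((min_le_right _ _).trans (min_le_left _ _))))
  have eC : ε ≤ 1 / Cc := hε.trans ((min_le_right _ _).trans ((min_le_right _ _).trans
    ((min_le_right _ _).trans (min_le_right _ _))))
  have a2 : a ≤ 1 := (haε.trans ((min_le_right _ _).trans ((min_le_right _ _).trans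
    ((min_le_right _ _).trans (min_le_left _ _))))).trans (by norm_num)
  have ht1 : t ≤ 1 := htl.trans (min_le_right _ _)
  have hε0 := hctr.eps_nonneg
  have ha0 := hctr.a_pos
  have hS := hctr.small
  have hflat : Flat4 ε N.u := ⟨hS.smooth, hS.geo⟩
  have hok : CylOK N := Hd 1 N (hS.geo1 e2) hhd'
  have hint : Integrable (dIint N X₀ t) N.μ :=
    (H1 N a ε X₀ hctr hh1 a1 e1 t ht (htl.trans (min_le_left _ _))).1
  have hμ : N.μ Set.univ ≠ ⊤ :=
    ne_top_of_le_ne_top ENNReal.ofReal_ne_top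
      (Hq N a ε hctr.NQ hhq' ha0 a2 hε0 eq hS).1
  have hCcε : Cc * ε ≤ 1 := by
    rw [le_div_iff₀ hCc] at eC
    linarith
  set w : E (m + n) := zz N.u X₀ with hw
  set y₀ : E m := npr N.u X₀ with hy₀
  have hwh : ‖w‖ < N.h := hctr.mem_cyl.2
  have hwa : ‖w‖ ≤ C * a := hS.height X₀ hctr.mem_supp hctr.mem_cyl
  have hX₀ : X₀ = Fg N.u y₀ + w := by simp [hw, hy₀, zz]
  have hmain := dm_integral_lower N.μ (dIint N X₀ t)
    (fun X => tilt N.u (N.W.P X) X + a ^ 2) (Metric.ball X₀ (2 * t))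
    (Ca * (2 + Cb * C ^ 2) * ε * t) hint measurableSet_ball (by positivity) ?_
    (dm_kapM_ne_top N a hμ _)
  · exact hmain
  filter_upwards [hok.ae_mem] with X hX
  obtain ⟨hXs, hXc, -⟩ := hX
  have htil0 : 0 ≤ tilt N.u (N.W.P X) X := ck_tilt_nonneg N.u X (N.W.P_proj X)
  have hind0 : 0 ≤ (Metric.ball X₀ (2 * t)).indicator
      (fun X => tilt N.u (N.W.P X) X + a ^ 2) X :=
    Set.indicator_nonneg (fun X _ => add_nonneg (ck_tilt_nonneg N.u X (N.W.P_proj X)) (sq_nonneg a)) X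
  by_cases hd2 : dsq N.u y₀ (X - w) ≤ t ^ 2
  · -- inside the support of the kernels
    have hzX : ‖zz N.u X‖ < N.h := hXc.2
    have hXw : ‖X - w - Fg N.u (npr N.u X)‖ < 2 * N.h := by
      have : X - w - Fg N.u (npr N.u X) = zz N.u X - w := by simp only [zz]; abel
      rw [this]
      exact (norm_sub_le _ _).trans_lt (by linarith)
    have hTa : X - w ∈ Tub N.u ha := ⟨npr N.u X, hXw.trans_le (by linarith)⟩
    have hTc : X - w ∈ Tub N.u hc := ⟨npr N.u X, hXw.trans_le (by linarith)⟩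
    have hTb : X ∈ Tub N.u hb := ⟨npr N.u X, hzX.trans_le hhb'⟩
    obtain ⟨c1, -, c3⟩ := Hc N.u ε hflat ec y₀ (X - w) hTc
    have hd0 := dm_dsq_nonneg N.u y₀ (X - w)
    have hsq : Real.sqrt (dsq N.u y₀ (X - w)) ≤ 1 := by
      rw [Real.sqrt_le_one]
      exact hd2.trans (pow_le_one₀ ht.le ht1)
    -- the point lies in the ball
    have hball : X ∈ Metric.ball X₀ (2 * t) := by
      rw [Metric.mem_ball, dist_eq_norm]
      have e : X - X₀ = X - w - Fg N.u y₀ := by rw [hX₀]; abel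
      rw [e]
      have h1 : ‖X - w - Fg N.u y₀‖ ^ 2 ≤ 2 * dsq N.u y₀ (X - w) := by
        have h2 := (abs_le.1 c1).2
        have h3 : Cc * ε * Real.sqrt (dsq N.u y₀ (X - w)) * dsq N.u y₀ (X - w)
            ≤ 1 * 1 * dsq N.u y₀ (X - w) := by
          gcongr
        linarith
      refine lt_of_pow_lt_pow_left₀ 2 (by positivity) ?_
      have h4 : (2 * t) ^ 2 = 4 * t ^ 2 := by ring
      have h5 : 0 < t ^ 2 := by positivity
      rw [h4]
      linarith
    -- base point in `B_8`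
    have hbase : npr N.u (X - w) ∈ Metric.ball (0 : E m) 8 := by
      rw [Metric.mem_ball, dist_zero_right]
      have h1 : ‖npr N.u (X - w) - y₀‖ ≤ 1 := by
        rw [← sq_le_one_iff₀ (norm_nonneg _)]
        exact c3.trans (hd2.trans (pow_le_one₀ ht.le ht1))
      have h2 := hctr.base
      calc ‖npr N.u (X - w)‖ = ‖(npr N.u (X - w) - y₀) + y₀‖ := by rw [sub_add_cancel]
        _ ≤ ‖npr N.u (X - w) - y₀‖ + ‖y₀‖ := norm_add_le _ _
        _ < 8 := by linarith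
    have hrad := Ha N.u ε a hflat ea ha0.le y₀ (X - w) hTa (N.W.P X) (N.W.P_proj X) t ht ht1 hd2
      (hS.curv _ hbase)
    have hshift := (Hb N.u ε hflat eb X w hTb (hwh.le.trans hhb') (hzX.le.trans hhb')).1
      (N.W.P X) (N.W.P_proj X)
    rw [Set.indicator_of_mem hball]
    have hw2 : ‖w‖ ^ 2 ≤ C ^ 2 * a ^ 2 := by
      have := pow_le_pow_left₀ (norm_nonneg w) hwa 2
      rwa [mul_pow] at this
    have hε2 : ε ^ 2 ≤ 1 := pow_le_one₀ hε0 (e2.trans (by norm_num))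
    have h5 : tilt N.u (N.W.P X) (X - w) + a ^ 2
        ≤ (2 + Cb * C ^ 2) * (tilt N.u (N.W.P X) X + a ^ 2) := by
      have h6 : Cb * ε ^ 2 * ‖w‖ ^ 2 ≤ Cb * 1 * (C ^ 2 * a ^ 2) := by gcongr
      have h7 : 0 ≤ Cb * C ^ 2 * tilt N.u (N.W.P X) X := by positivity
      have h7' : (2 + Cb * C ^ 2) * (tilt N.u (N.W.P X) X + a ^ 2)
          = 2 * tilt N.u (N.W.P X) X + 2 * a ^ 2 + Cb * C ^ 2 * tilt N.u (N.W.P X) X
            + Cb * 1 * (C ^ 2 * a ^ 2) := by ring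
      rw [h7']
      linarith [sq_nonneg a]
    have h8 : Ca * ε * t * (tilt N.u (N.W.P X) (X - w) + a ^ 2)
        ≤ Ca * ε * t * ((2 + Cb * C ^ 2) * (tilt N.u (N.W.P X) X + a ^ 2)) := by
      gcongr
    have h9 : dIint N X₀ t X = _ := rfl
    rw [h9]
    refine le_trans ?_ hrad
    rw [neg_le_neg_iff]
    refine h8.trans (le_of_eq (by ring))
  · -- outside: the integrand vanishes
    have h1 : 1 ≤ dsq N.u y₀ (X - w) / t ^ 2 := by
      rw [le_div_iff₀ (by positivity)]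
      linarith [not_le.1 hd2]
    have h2 : dIint N X₀ t X = 0 := by
      unfold dIint
      rw [dm_Phi_eq_zero h1, dm_Psi_eq_zero h1]
      simp
    rw [h2, neg_nonpos]
    positivity

/-- [M3] the limit at `t = 0`. -/
theorem Irad_lim (m n Q : ℕ) (hm : 1 ≤ m) : ∃ h₀ : ℝ, 0 < h₀ ∧ ∀ C : ℝ, ∃ ε₁ : ℝ, 0 < ε₁ ∧
    ∀ (N : NCyl m n) (a ε : ℝ) (X₀ : E (m + n)), Ctr N Q a C ε X₀ → N.h ≤ h₀ → a ≤ ε₁ → ε ≤ ε₁ →
      Filter.Tendsto (Irad N X₀) (𝓝[>] 0) (𝓝 (N.W.Θ X₀ * cPhi m)) := by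
  obtain ⟨h₀, ε₁, hh₀, hε₁, H⟩ := Irad_lim_aux m n hm
  exact ⟨h₀, hh₀, fun C => ⟨ε₁, hε₁, fun N a ε X₀ hC hh _ hε =>
    H N a C ε X₀ hC.small hC.eps_nonneg hC.mem_cyl hh hε⟩⟩

theorem dm_Phi_nonneg (s : ℝ) : 0 ≤ Phi s := by unfold Phi; positivity

theorem dm_cPhi_nonneg (m : ℕ) : 0 ≤ cPhi m := integral_nonneg fun _ => dm_Phi_nonneg _

/-- the integrand of `bad`, real valued -/
noncomputable def dmF (N : NCyl m n) (a : ℝ) (X₀ : E (m + n)) (t : ℝ) : ℝ :=
  (t ^ m)⁻¹ * (kapM N a (Metric.ball X₀ (2 * t))).toReal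

theorem dm_eqns_cite : True := by
  have := @dmF.eq_1
  trivial

theorem dmF_nonneg (N : NCyl m n) (a : ℝ) (X₀ : E (m + n)) {t : ℝ} (ht : 0 ≤ t) :
    0 ≤ dmF N a X₀ t := by unfold dmF; positivity

theorem dmF_measurable (N : NCyl m n) (a : ℝ) (X₀ : E (m + n)) : Measurable (dmF N a X₀) := by
  unfold dmF
  refine (measurable_id.pow_const m).inv.mul ?_
  refine ENNReal.measurable_toReal.comp ?_
  have : Monotone (fun t : ℝ => kapM N a (Metric.ball X₀ (2 * t))) := fun s t hst =>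
    measure_mono (Metric.ball_subset_ball (by linarith))
  exact this.measurable

theorem dmF_lintegral_le (N : NCyl m n) (a l₀ : ℝ) (X₀ : E (m + n)) {t l : ℝ} (ht : 0 ≤ t)
    (hl : l ≤ l₀) :
    ∫⁻ τ in Set.Ioo t l, ENNReal.ofReal (dmF N a X₀ τ) ≤ bad N a l₀ X₀ := by
  unfold bad
  refine (lintegral_mono' (Measure.restrict_mono (Set.Ioo_subset_Ioo ht hl) le_rfl) ?_)
  intro τ
  simp only [dmF]
  by_cases hτ : 0 ≤ (τ ^ m)⁻¹
  · rw [ENNReal.ofReal_mul hτ]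
    gcongr
    exact ENNReal.ofReal_toReal_le
  · rw [ENNReal.ofReal_of_nonpos]
    · exact zero_le
    · exact mul_nonpos_of_nonpos_of_nonneg (not_le.1 hτ).le ENNReal.toReal_nonneg

theorem dmF_integrableOn (N : NCyl m n) (a l₀ : ℝ) (X₀ : E (m + n)) (hb : bad N a l₀ X₀ ≠ ⊤)
    {t l : ℝ} (ht : 0 ≤ t) (hl : l ≤ l₀) : IntegrableOn (dmF N a X₀) (Set.Ioo t l) := by
  refine ⟨(dmF_measurable N a X₀).aestronglyMeasurable, ?_⟩
  rw [hasFiniteIntegral_iff_enorm]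
  refine lt_of_le_of_lt ?_ (lt_of_le_of_lt (dmF_lintegral_le N a l₀ X₀ ht hl) hb.lt_top)
  refine setLIntegral_mono' measurableSet_Ioo fun τ hτ => ?_
  rw [Real.enorm_eq_ofReal (dmF_nonneg N a X₀ (ht.trans hτ.1.le))]

theorem dmF_integral_le (N : NCyl m n) (a l₀ : ℝ) (X₀ : E (m + n)) (hb : bad N a l₀ X₀ ≠ ⊤)
    {t l : ℝ} (ht : 0 ≤ t) (hl : l ≤ l₀) :
    ∫ τ in Set.Ioo t l, dmF N a X₀ τ ≤ (bad N a l₀ X₀).toReal := by
  rw [integral_eq_lintegral_of_nonneg_ae _ (dmF_measurable N a X₀).aestronglyMeasurable]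
  · exact ENNReal.toReal_mono hb (dmF_lintegral_le N a l₀ X₀ ht hl)
  · refine (ae_restrict_iff' measurableSet_Ioo).2 (Filter.Eventually.of_forall fun τ hτ => ?_)
    exact dmF_nonneg N a X₀ (ht.trans hτ.1.le)

/-- [M4] **CO (6b.9) integrated**: almost monotonicity between `0` and `l`. -/
theorem almost_mono (m n Q : ℕ) (hm : 1 ≤ m) : ∃ h₀ l₀ : ℝ, 0 < h₀ ∧ 0 < l₀ ∧ l₀ ≤ 1 ∧
    ∀ C : ℝ, ∃ ε₁ C₁ : ℝ, 0 < ε₁ ∧ 0 < C₁ ∧
    ∀ (N : NCyl m n) (a ε : ℝ) (X₀ : E (m + n)), Ctr N Q a C ε X₀ → N.h ≤ h₀ → a ≤ ε₁ → ε ≤ ε₁ →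
      (Q : ℝ) ≤ N.W.Θ X₀ → bad N a l₀ X₀ ≠ ⊤ →
      ∀ l : ℝ, 0 < l → l ≤ l₀ →
        (Q : ℝ) * cPhi m - Irad N X₀ l ≤ C₁ * ε * (bad N a l₀ X₀).toReal := by
  obtain ⟨h₁, l₁, hh₁, hl₁, H1⟩ := Irad_deriv m n Q hm
  obtain ⟨h₂, l₂, hh₂, hl₂, H2⟩ := Irad_lower m n Q hm
  obtain ⟨h₃, hh₃, H3⟩ := Irad_lim m n Q hm
  refine ⟨min h₁ (min h₂ h₃), min (min l₁ l₂) 1, lt_min hh₁ (lt_min hh₂ hh₃),
    lt_min (lt_min hl₁ hl₂) one_pos, min_le_right _ _, fun C => ?_⟩
  obtain ⟨ε₁, hε₁, H1⟩ := H1 C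
  obtain ⟨ε₂, C₁, hε₂, hC₁, H2⟩ := H2 C
  obtain ⟨ε₃, hε₃, H3⟩ := H3 C
  refine ⟨min ε₁ (min ε₂ ε₃), C₁, lt_min hε₁ (lt_min hε₂ hε₃), hC₁, ?_⟩
  intro N a ε X₀ hctr hh ha hε hΘ hb l hl hll
  set l₀ : ℝ := min (min l₁ l₂) 1 with hl₀
  have hl₀1 : l₀ ≤ l₁ := (min_le_left _ _).trans (min_le_left _ _)
  have hl₀2 : l₀ ≤ l₂ := (min_le_left _ _).trans (min_le_right _ _)
  have H1 := H1 N a ε X₀ hctr (hh.trans (min_le_left _ _)) (ha.trans (min_le_left _ _))
    (hε.trans (min_le_left _ _))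
  have H2 := H2 N a ε X₀ hctr (hh.trans ((min_le_right _ _).trans (min_le_left _ _)))
    (ha.trans ((min_le_right _ _).trans (min_le_left _ _)))
    (hε.trans ((min_le_right _ _).trans (min_le_left _ _)))
  have H3 := H3 N a ε X₀ hctr (hh.trans ((min_le_right _ _).trans (min_le_right _ _)))
    (ha.trans ((min_le_right _ _).trans (min_le_right _ _)))
    (hε.trans ((min_le_right _ _).trans (min_le_right _ _)))
  have hε0 := hctr.eps_nonneg
  -- the inequality between positive radii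
  have key : ∀ t : ℝ, 0 < t → t < l →
      Irad N X₀ t - Irad N X₀ l ≤ C₁ * ε * (bad N a l₀ X₀).toReal := by
    intro t ht htl
    have hd : ∀ x ∈ Set.Icc t l, HasDerivAt (Irad N X₀)
        (x⁻¹ * ((x ^ m)⁻¹ * ∫ X, dIint N X₀ x X ∂N.μ)) x := fun x hx =>
      (H1 x (ht.trans_le hx.1) ((hx.2.trans hll).trans hl₀1)).2
    have h := intervalIntegral.sub_le_integral_of_hasDeriv_right_of_le (a := t) (b := l)
      (g := fun x => - Irad N X₀ x)
      (g' := fun x => - (x⁻¹ * ((x ^ m)⁻¹ * ∫ X, dIint N X₀ x X ∂N.μ)))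
      (φ := fun x => C₁ * ε * dmF N a X₀ x) htl.le
      (fun x hx => (hd x hx).continuousAt.continuousWithinAt.neg)
      (fun x hx => ((hd x (Set.Ioo_subset_Icc_self hx)).neg).hasDerivWithinAt)
      (by
        rw [integrableOn_Icc_iff_integrableOn_Ioo]
        exact (dmF_integrableOn N a l₀ X₀ hb ht.le hll).const_mul _)
      (by
        intro x hx
        have hx0 : 0 < x := ht.trans hx.1
        have h2 := H2 x hx0 ((hx.2.le.trans hll).trans hl₀2)
        have hxm : 0 < (x ^ m)⁻¹ := by positivity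
        have : -(x⁻¹ * ((x ^ m)⁻¹ * ∫ X, dIint N X₀ x X ∂N.μ))
            ≤ x⁻¹ * ((x ^ m)⁻¹ * (C₁ * ε * x * (kapM N a (Metric.ball X₀ (2 * x))).toReal)) := by
          rw [← mul_neg, ← mul_neg]
          gcongr
          linarith
        refine this.trans (le_of_eq ?_)
        unfold dmF
        field_simp)
    rw [intervalIntegral.integral_of_le htl.le, integral_Ioc_eq_integral_Ioo,
      integral_const_mul] at h
    have h3 := dmF_integral_le N a l₀ X₀ hb ht.le hll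
    have h4 : C₁ * ε * ∫ τ in Set.Ioo t l, dmF N a X₀ τ ≤ C₁ * ε * (bad N a l₀ X₀).toReal := by
      gcongr
    linarith
  have hlim : N.W.Θ X₀ * cPhi m - Irad N X₀ l ≤ C₁ * ε * (bad N a l₀ X₀).toReal := by
    refine le_of_tendsto (H3.sub_const (Irad N X₀ l)) ?_
    filter_upwards [Ioo_mem_nhdsGT hl] with t ht
    exact key t ht.1 ht.2
  have := mul_le_mul_of_nonneg_right hΘ (dm_cPhi_nonneg m)
  linarith

end Claimed.Agent.R322.Dens
end

/- ===== packed: Claimed.Agent.R322.Dens.Avg ===== -/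
section
/-!
# CO Section 6b: averaging over the centres (leaves A1-A4); all self-contained measure theory

PROVED (helper54); `good_centres` uses the black box `Lin.q_mass` and the (proved) tube geometry for the measurability of the tilt.

* `fubini_balls` : Tonelli for the indicator of the open set `{dist x y < r}`.
* `bad_integral` : `∫ bad dσ = ∫_0^{l₀} t^{-m} ∫ σ(B_{2t}(X)) dκ(X) dt ≤ C 2^s κ(univ) ∫_0^{l₀} t^{s-m} dt`,
  finite because `s > m - 1`.
* `good_centres` : Chebyshev.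
* `limit_set_dim` : if `dimH Z < s` then `μH[s] Z = 0`; `Z` is compact; cover it by finitely many open
  balls with `∑ r_k^s < c/(2C)`; eventually `G j` is contained in their union `O` (otherwise points of
  `G j \ O` cluster at a point of `Z \ O`); then `c ≤ τ_j (G j) ≤ ∑ C (r_k + η)^s`, `η` small.
-/

set_option autoImplicit false

open scoped ENNReal ContDiff Topology NNReal
open MeasureTheory

namespace Claimed.Agent.R322.Dens

open Claimed.Agent.R322.Tube Claimed.Agent.R322.Fn Claimed.Agent.R322.Lin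

variable {m n : ℕ}

/-- [A1] -/
theorem fubini_balls {k : ℕ} (σ κ : Measure (E k)) [SFinite σ] [SFinite κ] (r : ℝ) :
    Measurable (fun x => κ (Metric.ball x r)) ∧
    ∫⁻ x, κ (Metric.ball x r) ∂σ = ∫⁻ y, σ (Metric.ball y r) ∂κ := by
  have hs : MeasurableSet {q : E k × E k | dist q.2 q.1 < r} :=
    (isOpen_lt (continuous_snd.dist continuous_fst) continuous_const).measurableSet
  have e1 : ∀ x : E k, Prod.mk x ⁻¹' {q : E k × E k | dist q.2 q.1 < r} = Metric.ball x r := by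
    intro x; ext y; simp [Metric.mem_ball]
  have e2 : ∀ y : E k, (fun x => (x, y)) ⁻¹' {q : E k × E k | dist q.2 q.1 < r}
      = Metric.ball y r := by
    intro y; ext x; simp [Metric.mem_ball, dist_comm]
  constructor
  · have h := measurable_measure_prodMk_left (ν := κ) hs
    simpa only [e1] using h
  · have h1 := Measure.prod_apply (μ := σ) (ν := κ) hs
    have h2 := Measure.prod_apply_symm (μ := σ) (ν := κ) hs
    simp only [e1] at h1
    simp only [e2] at h2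
    rw [← h1, h2]

/-- the elementary integral `∫_0^l t^{-m} C (2t)^s dt` -/
theorem avg_aux (m : ℕ) (s C l₀ : ℝ) (hs : (m : ℝ) - 1 < s) (hC : 0 ≤ C) (hl : 0 < l₀) :
    ∫⁻ t in Set.Ioo (0 : ℝ) l₀, ENNReal.ofReal ((t ^ m)⁻¹) * ENNReal.ofReal (C * (2 * t) ^ s)
      = ENNReal.ofReal (C * 2 ^ s * l₀ ^ (s - m + 1) / (s - m + 1)) := by
  have hr : -1 < s - m := by linarith
  have e1 : ∀ t ∈ Set.Ioo (0 : ℝ) l₀,
      ENNReal.ofReal ((t ^ m)⁻¹) * ENNReal.ofReal (C * (2 * t) ^ s)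
        = ENNReal.ofReal (C * 2 ^ s * t ^ (s - m)) := by
    intro t ht
    have ht0 : 0 < t := ht.1
    rw [← ENNReal.ofReal_mul (by positivity), Real.mul_rpow (by norm_num) ht0.le,
      Real.rpow_sub ht0, Real.rpow_natCast]
    congr 1
    field_simp
  rw [setLIntegral_congr_fun measurableSet_Ioo e1]
  have hi : IntegrableOn (fun t : ℝ => C * 2 ^ s * t ^ (s - m)) (Set.Ioo 0 l₀) := by
    have h := (intervalIntegral.intervalIntegrable_rpow' (a := 0) (b := l₀) hr).const_mul (C * 2 ^ s)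
    rw [intervalIntegrable_iff_integrableOn_Ioo_of_le hl.le] at h
    exact h
  rw [← ofReal_integral_eq_lintegral_ofReal hi]
  · congr 1
    rw [← integral_Ioc_eq_integral_Ioo, ← intervalIntegral.integral_of_le hl.le,
      intervalIntegral.integral_const_mul, integral_rpow (Or.inl hr),
      Real.zero_rpow (by linarith), sub_zero]
    ring
  · rw [Filter.EventuallyLE, ae_restrict_iff' measurableSet_Ioo]
    refine Filter.Eventually.of_forall fun t ht => ?_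
    have ht0 : 0 < t := ht.1
    simp only [Pi.zero_apply]
    positivity

/-- [A2] general form of the averaged error. -/
theorem avg_balls {k : ℕ} (m : ℕ) (σ κ : Measure (E k)) [SFinite σ] [SFinite κ] (s C l₀ : ℝ)
    (hs : (m : ℝ) - 1 < s) (hC : 0 ≤ C) (hl : 0 < l₀)
    (hσ : ∀ (X : E k) (r : ℝ), 0 < r → σ (Metric.ball X r) ≤ ENNReal.ofReal (C * r ^ s)) :
    Measurable (fun X₀ => ∫⁻ t in Set.Ioo (0 : ℝ) l₀,
      ENNReal.ofReal ((t ^ m)⁻¹) * κ (Metric.ball X₀ (2 * t))) ∧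
    ∫⁻ X₀, (∫⁻ t in Set.Ioo (0 : ℝ) l₀, ENNReal.ofReal ((t ^ m)⁻¹) * κ (Metric.ball X₀ (2 * t))) ∂σ
      ≤ ENNReal.ofReal (C * 2 ^ s * l₀ ^ (s - m + 1) / (s - m + 1)) * κ Set.univ := by
  have hS : MeasurableSet {q : (E k × ℝ) × E k | dist q.2 q.1.1 < 2 * q.1.2} :=
    (isOpen_lt (continuous_snd.dist (continuous_fst.comp continuous_fst))
      (continuous_const.mul (continuous_snd.comp continuous_fst))).measurableSet
  have e1 : ∀ z : E k × ℝ, Prod.mk z ⁻¹' {q : (E k × ℝ) × E k | dist q.2 q.1.1 < 2 * q.1.2}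
      = Metric.ball z.1 (2 * z.2) := by
    intro z; ext y; simp [Metric.mem_ball]
  have hm1 : Measurable (fun z : E k × ℝ => κ (Metric.ball z.1 (2 * z.2))) := by
    have h := measurable_measure_prodMk_left (ν := κ) hS
    simpa only [e1] using h
  have hm2 : Measurable (fun z : E k × ℝ =>
      ENNReal.ofReal ((z.2 ^ m)⁻¹) * κ (Metric.ball z.1 (2 * z.2))) :=
    (ENNReal.measurable_ofReal.comp ((measurable_snd.pow_const m).inv)).mul hm1
  refine ⟨hm2.lintegral_prod_right', ?_⟩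
  rw [lintegral_lintegral_swap hm2.aemeasurable]
  calc ∫⁻ t in Set.Ioo (0 : ℝ) l₀, ∫⁻ X₀, ENNReal.ofReal ((t ^ m)⁻¹) * κ (Metric.ball X₀ (2 * t)) ∂σ
      ≤ ∫⁻ t in Set.Ioo (0 : ℝ) l₀,
          (ENNReal.ofReal ((t ^ m)⁻¹) * ENNReal.ofReal (C * (2 * t) ^ s)) * κ Set.univ := by
        refine setLIntegral_mono' measurableSet_Ioo fun t ht => ?_
        have ht0 : 0 < t := ht.1
        rw [lintegral_const_mul _ (fubini_balls σ κ (2 * t)).1, (fubini_balls σ κ (2 * t)).2,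
          mul_assoc]
        gcongr
        calc ∫⁻ y, σ (Metric.ball y (2 * t)) ∂κ ≤ ∫⁻ _, ENNReal.ofReal (C * (2 * t) ^ s) ∂κ :=
              lintegral_mono fun y => hσ y (2 * t) (by positivity)
          _ = _ := by rw [lintegral_const]
    _ = _ := by
        have hmf : Measurable fun t : ℝ =>
            ENNReal.ofReal ((t ^ m)⁻¹) * ENNReal.ofReal (C * (2 * t) ^ s) :=
          (ENNReal.measurable_ofReal.comp ((measurable_id.pow_const m).inv)).mul
            (ENNReal.measurable_ofReal.comp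
              (measurable_const.mul ((measurable_const.mul measurable_id).pow_const s)))
        rw [lintegral_mul_const _ hmf, avg_aux m s C l₀ hs hC hl]

/-- `Small` graphs have bounded geometry -/
theorem avg_geo {N : NCyl m n} {R a C ε : ℝ} (h : Small N R a C ε) (hε : ε ≤ 1 / 2) :
    Geo ε N.u where
  smooth := h.smooth
  slope := fun y => by
    have := h.geo 1 le_rfl (by norm_num) y
    rw [norm_iteratedFDeriv_one] at this
    linarith
  d2 := fun y => h.geo 2 (by norm_num) (by norm_num) y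
  d3 := fun y => h.geo 3 (by norm_num) (by norm_num) y
  le_one := by linarith

/-- the tilt is a.e. measurable in a thin cylinder -/
theorem avg_tilt_aemeasurable {N : NCyl m n} {κ₂ : ℝ} (hu : Geo κ₂ N.u) (hh : N.h ≤ 2 / 9) :
    AEMeasurable (fun X => tilt N.u (N.W.P X) X) N.μ := by
  obtain ⟨hT, hnpr, -, -⟩ := tube_deriv_of_le hu (le_refl (2 / 9 : ℝ))
  have hsub : Cyl N.u N.Ω N.h ⊆ Tub N.u (2 / 9) := by
    intro X hX
    exact ⟨npr N.u X, lt_of_lt_of_le hX.2 hh⟩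
  have hPh : Continuous (Ph N.u) := by
    have h2 : ContDiff ℝ 2 N.u := hu.smooth.of_le (by norm_num)
    exact continuous_iff_continuousAt.2 fun y => (hasFDerivAt_Ph h2 y).continuousAt
  have hPv : Continuous (Pv N.u) := continuous_const.sub hPh
  have hg : ContinuousOn (fun X => Pv N.u (npr N.u X)) (Tub N.u (2 / 9)) :=
    hPv.comp_continuousOn hnpr.continuousOn
  have hg1 : AEMeasurable (fun X => Pv N.u (npr N.u X)) (N.W.μ.restrict (Tub N.u (2 / 9))) :=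
    hg.aemeasurable hT.measurableSet
  have hg2 : AEMeasurable (fun X => Pv N.u (npr N.u X)) N.μ := hg1.mono_set hsub
  exact (Claimed.Agent.R322.continuous_tdiv.measurable.comp_aemeasurable
    (N.W.P_meas.aemeasurable.prodMk hg2))

/-- total mass of `(e + a²) μ` -/
theorem avg_kapM_le {N : NCyl m n} {κ₂ a C' : ℝ} (hu : Geo κ₂ N.u) (hh : N.h ≤ 2 / 9)
    (hC' : 0 ≤ C') (h1 : N.μ Set.univ ≤ ENNReal.ofReal C')
    (h2 : ∫ X, tilt N.u (N.W.P X) X ∂N.μ ≤ C' * a ^ 2) :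
    kapM N a Set.univ ≤ ENNReal.ofReal (2 * C' * a ^ 2) := by
  have hfin : IsFiniteMeasure N.μ := ⟨lt_of_le_of_lt h1 ENNReal.ofReal_lt_top⟩
  have hm := avg_tilt_aemeasurable hu hh
  have h0 : ∀ X, 0 ≤ tilt N.u (N.W.P X) X := fun X => tilt_nonneg N.u (N.W.P_proj X) X
  have hint : Integrable (fun X => tilt N.u (N.W.P X) X) N.μ := by
    refine Integrable.of_bound hm.aestronglyMeasurable (m : ℝ) (Filter.Eventually.of_forall fun X => ?_)
    rw [Real.norm_eq_abs, abs_of_nonneg (h0 X)]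
    exact tilt_le N.u (N.W.P_proj X) X
  unfold kapM
  rw [withDensity_apply _ MeasurableSet.univ, Measure.restrict_univ]
  have e : ∀ X, ENNReal.ofReal (tilt N.u (N.W.P X) X + a ^ 2)
      = ENNReal.ofReal (tilt N.u (N.W.P X) X) + ENNReal.ofReal (a ^ 2) :=
    fun X => ENNReal.ofReal_add (h0 X) (sq_nonneg a)
  simp only [e]
  rw [lintegral_add_right _ measurable_const, lintegral_const,
    ← ofReal_integral_eq_lintegral_ofReal hint (Filter.Eventually.of_forall h0)]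
  calc ENNReal.ofReal (∫ X, tilt N.u (N.W.P X) X ∂N.μ) + ENNReal.ofReal (a ^ 2) * N.μ Set.univ
      ≤ ENNReal.ofReal (C' * a ^ 2) + ENNReal.ofReal (a ^ 2) * ENNReal.ofReal C' := by
        gcongr
    _ = ENNReal.ofReal (2 * C' * a ^ 2) := by
        rw [← ENNReal.ofReal_mul (sq_nonneg a), ← ENNReal.ofReal_add (by positivity) (by positivity)]
        congr 1
        ring

/-- [A3] **good centres.**  `K` depends only on the constants. -/
theorem good_centres (m n Q : ℕ) (hm : 1 ≤ m) : ∃ h₀ : ℝ, 0 < h₀ ∧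
    ∀ (C c s l₀ : ℝ), 0 < c → 0 < l₀ → (m : ℝ) - 1 < s →
    ∃ ε₁ K : ℝ, 0 < ε₁ ∧ 0 < K ∧ ∀ (N : NCyl m n) (a ε : ℝ), N.Q = Q → N.h ≤ h₀ →
      0 < a → a ≤ 1 → 0 ≤ ε → ε ≤ ε₁ → Small N 8 a C ε →
      ∀ σ : Measure (E (m + n)), ENNReal.ofReal c ≤ σ Set.univ → σ Set.univ ≤ ENNReal.ofReal C →
        (∀ (X : E (m + n)) (r : ℝ), 0 < r → σ (Metric.ball X r) ≤ ENNReal.ofReal (C * r ^ s)) →
        ∀ A : Set (E (m + n)), σ Aᶜ = 0 →
        ENNReal.ofReal (c / 2) ≤ σ {X₀ | X₀ ∈ A ∧ bad N a l₀ X₀ ≤ ENNReal.ofReal (K * a ^ 2)} := by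
  obtain ⟨h₁, hh₁, H⟩ := q_mass m n Q 8 (by norm_num)
  refine ⟨min h₁ (2 / 9), lt_min hh₁ (by norm_num), fun C c s l₀ hc hl hs => ?_⟩
  obtain ⟨ε₁', C', hε₁', hC', H'⟩ := H C
  have hsm : 0 < s - m + 1 := by linarith
  set D : ℝ := |C| * 2 ^ s * l₀ ^ (s - m + 1) / (s - m + 1) * (2 * C') with hD
  have hD0 : 0 ≤ D := by positivity
  refine ⟨min ε₁' (1 / 2), 2 * D / c + 1, lt_min hε₁' (by norm_num), by positivity,
    fun N a ε hQ hh ha ha1 hε0 hε hS σ hσ1 hσ2 hσb A hA => ?_⟩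
  set K : ℝ := 2 * D / c + 1 with hK
  have hK0 : 0 < K := by positivity
  have hCc : c ≤ C := by
    rcases (ENNReal.ofReal_le_ofReal_iff'.1 (hσ1.trans hσ2)) with h | h
    · exact h
    · linarith
  have hC0 : 0 < C := lt_of_lt_of_le hc hCc
  obtain ⟨q1, q2, -⟩ := H' N a ε hQ (hh.trans (min_le_left _ _)) ha ha1 hε0
    (hε.trans (min_le_left _ _)) hS
  have hgeo := avg_geo hS (hε.trans (min_le_right _ _))
  have hk := avg_kapM_le hgeo (hh.trans (min_le_right _ _)) hC'.le q1 q2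
  have hfσ : IsFiniteMeasure σ := ⟨lt_of_le_of_lt hσ2 ENNReal.ofReal_lt_top⟩
  have hfk : IsFiniteMeasure (kapM N a) := ⟨lt_of_le_of_lt hk ENNReal.ofReal_lt_top⟩
  obtain ⟨hmeas, hint⟩ := avg_balls m σ (kapM N a) s C l₀ hs hC0.le hl hσb
  have hmeas' : Measurable (bad N a l₀) := hmeas
  have hI : ∫⁻ X₀, bad N a l₀ X₀ ∂σ ≤ ENNReal.ofReal (D * a ^ 2) := by
    refine le_trans hint ?_
    calc ENNReal.ofReal (C * 2 ^ s * l₀ ^ (s - m + 1) / (s - m + 1)) * kapM N a Set.univ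
        ≤ ENNReal.ofReal (C * 2 ^ s * l₀ ^ (s - m + 1) / (s - m + 1))
          * ENNReal.ofReal (2 * C' * a ^ 2) := by gcongr
      _ = ENNReal.ofReal (D * a ^ 2) := by
          rw [← ENNReal.ofReal_mul (by positivity), hD, abs_of_pos hC0]
          congr 1
          ring
  have hKa : 0 < K * a ^ 2 := by positivity
  have hch := mul_meas_ge_le_lintegral (μ := σ) hmeas' (ENNReal.ofReal (K * a ^ 2))
  have hbadset : σ {X₀ | ENNReal.ofReal (K * a ^ 2) ≤ bad N a l₀ X₀} ≤ ENNReal.ofReal (c / 2) := by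
    have h3 : σ {X₀ | ENNReal.ofReal (K * a ^ 2) ≤ bad N a l₀ X₀}
        ≤ ENNReal.ofReal (D * a ^ 2) / ENNReal.ofReal (K * a ^ 2) := by
      rw [ENNReal.le_div_iff_mul_le (Or.inl (by simpa using hKa)) (Or.inl ENNReal.ofReal_ne_top),
        mul_comm]
      exact hch.trans hI
    refine h3.trans ?_
    rw [← ENNReal.ofReal_div_of_pos hKa]
    apply ENNReal.ofReal_le_ofReal
    rw [div_le_iff₀ hKa, hK]
    have : c / 2 * ((2 * D / c + 1) * a ^ 2) = D * a ^ 2 + c / 2 * a ^ 2 := by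
      field_simp
    rw [this]
    nlinarith [sq_nonneg a]
  have hcover : (Set.univ : Set (E (m + n)))
      ⊆ {X₀ | X₀ ∈ A ∧ bad N a l₀ X₀ ≤ ENNReal.ofReal (K * a ^ 2)}
        ∪ (Aᶜ ∪ {X₀ | ENNReal.ofReal (K * a ^ 2) ≤ bad N a l₀ X₀}) := by
    intro X _
    by_cases hXA : X ∈ A
    · rcases le_total (bad N a l₀ X) (ENNReal.ofReal (K * a ^ 2)) with h | h
      · exact Or.inl ⟨hXA, h⟩
      · exact Or.inr (Or.inr h)
    · exact Or.inr (Or.inl hXA)
  have h5 : ENNReal.ofReal c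
      ≤ σ {X₀ | X₀ ∈ A ∧ bad N a l₀ X₀ ≤ ENNReal.ofReal (K * a ^ 2)} + ENNReal.ofReal (c / 2) := by
    calc ENNReal.ofReal c ≤ σ Set.univ := hσ1
      _ ≤ σ {X₀ | X₀ ∈ A ∧ bad N a l₀ X₀ ≤ ENNReal.ofReal (K * a ^ 2)}
          + (σ Aᶜ + σ {X₀ | ENNReal.ofReal (K * a ^ 2) ≤ bad N a l₀ X₀}) :=
          (measure_mono hcover).trans ((measure_union_le _ _).trans
            (add_le_add le_rfl (measure_union_le _ _)))
      _ ≤ _ := by
          rw [hA, zero_add]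
          gcongr
  have h6 : ENNReal.ofReal c = ENNReal.ofReal (c / 2) + ENNReal.ofReal (c / 2) := by
    rw [← ENNReal.ofReal_add (by positivity) (by positivity)]
    congr 1
    ring
  rw [h6] at h5
  exact ENNReal.le_of_add_le_add_right ENNReal.ofReal_ne_top h5

theorem avg_add_rpow_le (A B : ℝ≥0∞) {s : ℝ} (hs : 0 < s) :
    (A + B) ^ s ≤ 2 ^ s * (A ^ s + B ^ s) := by
  have h1 : A + B ≤ 2 * max A B := by
    rw [two_mul]
    exact add_le_add (le_max_left _ _) (le_max_right _ _)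
  calc (A + B) ^ s ≤ (2 * max A B) ^ s := ENNReal.rpow_le_rpow h1 hs.le
    _ = 2 ^ s * (max A B) ^ s := ENNReal.mul_rpow_of_nonneg _ _ hs.le
    _ ≤ 2 ^ s * (A ^ s + B ^ s) := by
        gcongr
        rcases le_total A B with h | h
        · rw [max_eq_right h]; exact le_add_self
        · rw [max_eq_left h]; exact le_self_add

/-- a set of vanishing `s`-dimensional Hausdorff measure has covers by balls with small `∑ r^s` -/
theorem avg_cover {X : Type*} [MetricSpace X] [MeasurableSpace X] [BorelSpace X] [Inhabited X]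
    {s : ℝ} (hs : 0 < s) {Z : Set X} (hZ : μH[s] Z = 0) {a : ℝ≥0∞} (ha : a ≠ 0) :
    ∃ (x : ℕ → X) (R : ℕ → ℝ), (∀ n, 0 < R n) ∧ Z ⊆ ⋃ n, Metric.ball (x n) (R n) ∧
      ∑' n, ENNReal.ofReal (R n) ^ s ≤ 2 ^ s * (a + a) := by
  classical
  have h0 := Measure.hausdorffMeasure_apply s Z
  rw [hZ] at h0
  have h1 : ⨅ (t : ℕ → Set X) (_ : Z ⊆ ⋃ n, t n) (_ : ∀ n, Metric.ediam (t n) ≤ 1),
      ∑' n, ⨆ _ : (t n).Nonempty, Metric.ediam (t n) ^ s = 0 := by
    have := le_iSup₂ (f := fun (r : ℝ≥0∞) (_ : 0 < r) =>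
      ⨅ (t : ℕ → Set X) (_ : Z ⊆ ⋃ n, t n) (_ : ∀ n, Metric.ediam (t n) ≤ r),
        ∑' n, ⨆ _ : (t n).Nonempty, Metric.ediam (t n) ^ s) 1 one_pos
    rw [← h0] at this
    exact le_antisymm this bot_le
  have h2 : ⨅ (t : ℕ → Set X) (_ : Z ⊆ ⋃ n, t n) (_ : ∀ n, Metric.ediam (t n) ≤ 1),
      ∑' n, ⨆ _ : (t n).Nonempty, Metric.ediam (t n) ^ s < a := by
    rw [h1]; exact pos_iff_ne_zero.2 ha
  simp only [iInf_lt_iff] at h2
  obtain ⟨t, htZ, htd, hts⟩ := h2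
  obtain ⟨ε', hε'0, hε's⟩ := ENNReal.exists_pos_sum_of_countable ha ℕ
  have hfin : ∀ n, Metric.ediam (t n) ≠ ⊤ := fun n =>
    ne_top_of_le_ne_top ENNReal.one_ne_top (htd n)
  set e : ℕ → ℝ := fun n => ((ε' n : ℝ)) ^ (1 / s) with he
  have he0 : ∀ n, 0 < e n := fun n => Real.rpow_pos_of_pos (by exact_mod_cast hε'0 n) _
  have hes : ∀ n, ENNReal.ofReal (e n) ^ s = (ε' n : ℝ≥0∞) := by
    intro n
    rw [ENNReal.ofReal_rpow_of_nonneg (he0 n).le hs.le, he, ← Real.rpow_mul (NNReal.coe_nonneg _),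
      one_div, inv_mul_cancel₀ hs.ne', Real.rpow_one, ENNReal.ofReal_coe_nnreal]
  refine ⟨fun n => if h : (t n).Nonempty then h.some else default,
    fun n => (Metric.ediam (t n)).toReal + e n, fun n => ?_, ?_, ?_⟩
  · have := he0 n
    positivity
  · intro z hz
    obtain ⟨n, hn⟩ := Set.mem_iUnion.1 (htZ hz)
    refine Set.mem_iUnion.2 ⟨n, ?_⟩
    have hne : (t n).Nonempty := ⟨z, hn⟩
    simp only [dif_pos hne, Metric.mem_ball]
    have h3 : edist z hne.some ≤ Metric.ediam (t n) := Metric.edist_le_ediam_of_mem hn hne.some_mem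
    have h4 : dist z hne.some ≤ (Metric.ediam (t n)).toReal := by
      rw [dist_edist]
      exact ENNReal.toReal_mono (hfin n) h3
    linarith [he0 n]
  · have h5 : ∀ n, ENNReal.ofReal ((Metric.ediam (t n)).toReal + e n) ^ s
        ≤ 2 ^ s * ((⨆ _ : (t n).Nonempty, Metric.ediam (t n) ^ s) + (ε' n : ℝ≥0∞)) := by
      intro n
      rw [ENNReal.ofReal_add ENNReal.toReal_nonneg (he0 n).le, ENNReal.ofReal_toReal (hfin n)]
      refine (avg_add_rpow_le _ _ hs).trans ?_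
      rw [hes]
      gcongr
      by_cases hne : (t n).Nonempty
      · simp [hne]
      · rw [Set.not_nonempty_iff_eq_empty.1 hne]
        simp [hs]
    calc ∑' n, ENNReal.ofReal ((Metric.ediam (t n)).toReal + e n) ^ s
        ≤ ∑' n, 2 ^ s * ((⨆ _ : (t n).Nonempty, Metric.ediam (t n) ^ s) + (ε' n : ℝ≥0∞)) :=
          ENNReal.tsum_le_tsum h5
      _ = 2 ^ s * ((∑' n, ⨆ _ : (t n).Nonempty, Metric.ediam (t n) ^ s) + ∑' n, (ε' n : ℝ≥0∞)) := by
          rw [ENNReal.tsum_mul_left, ENNReal.tsum_add]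
      _ ≤ 2 ^ s * (a + a) := by
          gcongr

theorem avg_exists_le {ι : Type*} (F : Finset ι) (R : ι → ℝ) (hR : ∀ n, 0 < R n) :
    ∃ η : ℝ, 0 < η ∧ ∀ n ∈ F, η ≤ R n := by
  classical
  induction F using Finset.induction_on with
  | empty => exact ⟨1, one_pos, fun n hn => absurd hn (Finset.notMem_empty n)⟩
  | insert i F _ ih =>
    obtain ⟨η, hη, h⟩ := ih
    refine ⟨min η (R i), lt_min hη (hR i), fun n hn => ?_⟩
    rcases Finset.mem_insert.1 hn with rfl | hn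
    · exact min_le_right _ _
    · exact (min_le_left _ _).trans (h n hn)

/-- [A4] **dimension of the set of cluster points.** -/
theorem limit_set_dim {k : ℕ} (s c C : ℝ) (hs : 0 < s) (hc : 0 < c) (τ : ℕ → Measure (E k))
    (G : ℕ → Set (E k)) (hG : ∀ j, G j ⊆ Metric.closedBall 0 1)
    (hlow : ∀ᶠ j in Filter.atTop, ENNReal.ofReal c ≤ τ j (G j))
    (hball : ∀ η : ℝ, 0 < η → ∀ᶠ j in Filter.atTop, ∀ (x : E k) (r : ℝ), 0 < r →
      τ j (Metric.ball x r) ≤ ENNReal.ofReal (C * (r + η) ^ s)) :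
    ENNReal.ofReal s ≤ dimH {x : E k | ∀ δ : ℝ, 0 < δ → ∃ᶠ j in Filter.atTop,
      (G j ∩ Metric.ball x δ).Nonempty} := by
  set Z : Set (E k) := {x : E k | ∀ δ : ℝ, 0 < δ → ∃ᶠ j in Filter.atTop,
      (G j ∩ Metric.ball x δ).Nonempty} with hZdef
  have e0 : ENNReal.ofReal s = ((s.toNNReal : ℝ≥0) : ℝ≥0∞) := rfl
  rw [e0]
  apply le_dimH_of_hausdorffMeasure_ne_zero
  rw [Real.coe_toNNReal s hs.le]
  intro hZ0
  -- `Z` is compact
  have hZsub : Z ⊆ Metric.closedBall 0 1 := by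
    intro x hx
    refine Metric.isClosed_closedBall.closure_subset_iff.2 (le_refl _) ?_
    rw [Metric.mem_closure_iff]
    intro δ hδ
    obtain ⟨j, y, hy1, hy2⟩ := (hx δ hδ).exists
    exact ⟨y, hG j hy1, by rw [dist_comm]; exact hy2⟩
  have hZcl : IsClosed Z := by
    rw [← closure_subset_iff_isClosed]
    intro x hx δ hδ
    obtain ⟨y, hy, hxy⟩ := Metric.mem_closure_iff.1 hx (δ / 2) (by positivity)
    refine (hy (δ / 2) (by positivity)).mono fun j hj => ?_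
    obtain ⟨w, hw1, hw2⟩ := hj
    refine ⟨w, hw1, ?_⟩
    rw [Metric.mem_ball] at hw2 ⊢
    have := dist_triangle w y x
    rw [dist_comm y x] at this
    linarith
  have hZc : IsCompact Z := (isCompact_closedBall (0 : E k) 1).of_isClosed_subset hZcl hZsub
  -- constants
  set C₁ : ℝ := max C 1 with hC₁
  have hC₁0 : 0 < C₁ := lt_of_lt_of_le one_pos (le_max_right _ _)
  set a₀ : ℝ := c / (4 * C₁ * 4 ^ s) with ha₀
  have ha₀0 : 0 < a₀ := by positivity
  obtain ⟨x, R, hR, hcov, hsum⟩ := avg_cover hs hZ0 (a := ENNReal.ofReal a₀)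
    (by simpa using ha₀0)
  obtain ⟨F, hF⟩ := hZc.elim_finite_subcover (fun n => Metric.ball (x n) (R n))
    (fun n => Metric.isOpen_ball) hcov
  set O : Set (E k) := ⋃ n ∈ F, Metric.ball (x n) (R n) with hOdef
  have hO : IsOpen O := isOpen_biUnion fun n _ => Metric.isOpen_ball
  -- eventually `G j ⊆ O`
  have hS : IsCompact (Metric.closedBall (0 : E k) 1 \ O) := (isCompact_closedBall _ _).diff hO
  have hdisj : ∀ᶠ j in Filter.atTop, G j ∩ (Metric.closedBall (0 : E k) 1 \ O) = ∅ := by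
    refine hS.induction_on (p := fun A => ∀ᶠ j in Filter.atTop, G j ∩ A = ∅) ?_ ?_ ?_ ?_
    · exact Filter.Eventually.of_forall fun j => Set.inter_empty _
    · intro A B hAB hB
      refine hB.mono fun j hj => ?_
      exact Set.subset_eq_empty (Set.inter_subset_inter_right _ hAB) hj
    · intro A B hA hB
      filter_upwards [hA, hB] with j h1 h2
      rw [Set.inter_union_distrib_left, h1, h2, Set.union_empty]
    · intro y hy
      have hyZ : y ∉ Z := fun h => hy.2 (hF h)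
      rw [hZdef, Set.mem_ofPred_eq] at hyZ
      push Not at hyZ
      obtain ⟨δ, hδ, hev⟩ := hyZ
      refine ⟨Metric.ball y δ, mem_nhdsWithin_of_mem_nhds (Metric.ball_mem_nhds y hδ), ?_⟩
      exact hev
  have hev : ∀ᶠ j in Filter.atTop, G j ⊆ O := by
    refine hdisj.mono fun j hj w hw => ?_
    by_contra hwO
    have : w ∈ G j ∩ (Metric.closedBall (0 : E k) 1 \ O) := ⟨hw, hG j hw, hwO⟩
    rw [hj] at this
    exact this
  obtain ⟨η, hη, hηF⟩ := avg_exists_le F R hR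
  obtain ⟨j, h1, h2, h3⟩ := (hlow.and (hev.and (hball η hη))).exists
  have b1 : τ j (G j) ≤ ∑ n ∈ F, ENNReal.ofReal (C * (R n + η) ^ s) :=
    (measure_mono h2).trans ((measure_biUnion_finset_le F _).trans
      (Finset.sum_le_sum fun n _ => h3 _ _ (hR n)))
  have b2 : ∀ n ∈ F, ENNReal.ofReal (C * (R n + η) ^ s)
      ≤ ENNReal.ofReal (C₁ * 2 ^ s) * ENNReal.ofReal (R n) ^ s := by
    intro n hn
    have hRn := hR n
    rw [ENNReal.ofReal_rpow_of_pos hRn, ← ENNReal.ofReal_mul (by positivity)]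
    apply ENNReal.ofReal_le_ofReal
    have h4 : (R n + η) ^ s ≤ (2 * R n) ^ s :=
      Real.rpow_le_rpow (by positivity) (by linarith [hηF n hn]) hs.le
    rw [Real.mul_rpow (by norm_num) hRn.le] at h4
    calc C * (R n + η) ^ s ≤ C₁ * (R n + η) ^ s :=
          mul_le_mul_of_nonneg_right (le_max_left _ _) (by positivity)
      _ ≤ C₁ * (2 ^ s * R n ^ s) := by gcongr
      _ = _ := by ring
  have b3 : ∑ n ∈ F, ENNReal.ofReal (C₁ * 2 ^ s) * ENNReal.ofReal (R n) ^ s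
      ≤ ENNReal.ofReal (C₁ * 2 ^ s) * (2 ^ s * (ENNReal.ofReal a₀ + ENNReal.ofReal a₀)) := by
    rw [← Finset.mul_sum]
    gcongr
    exact (ENNReal.sum_le_tsum F).trans hsum
  have b4 : ENNReal.ofReal (C₁ * 2 ^ s) * (2 ^ s * (ENNReal.ofReal a₀ + ENNReal.ofReal a₀))
      = ENNReal.ofReal (c / 2) := by
    have e2 : (2 : ℝ≥0∞) ^ s = ENNReal.ofReal (2 ^ s) := by
      rw [← ENNReal.ofReal_rpow_of_pos (by norm_num)]
      norm_num
    rw [e2, ← ENNReal.ofReal_add ha₀0.le ha₀0.le, ← ENNReal.ofReal_mul (by positivity),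
      ← ENNReal.ofReal_mul (by positivity)]
    congr 1
    have e4 : (4 : ℝ) ^ s = 2 ^ s * 2 ^ s := by
      rw [← Real.mul_rpow (by norm_num) (by norm_num)]
      norm_num
    rw [ha₀, e4]
    have : (0 : ℝ) < 2 ^ s := by positivity
    field_simp
    ring
  have b5 : ENNReal.ofReal c ≤ ENNReal.ofReal (c / 2) :=
    h1.trans (b1.trans ((Finset.sum_le_sum b2).trans (b3.trans b4.le)))
  rw [ENNReal.ofReal_le_ofReal_iff (by positivity)] at b5
  linarith

end Claimed.Agent.R322.Dens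
end

/- ===== packed: Claimed.Agent.R322.Dens.ShiftAux ===== -/
section
/-!
# CO (6b.11): the translated base test (proof of `Dens.shift_test`)

`shf_core` is the estimate for one cylinder, with the constants of `shift_pointwise`,
`tangential_part` and of the integration kit as parameters and with the divergence theorem on the
reference graph as a hypothesis.
-/

set_option autoImplicit false

open scoped ENNReal ContDiff Topology
open MeasureTheory

namespace Claimed.Agent.R322.Dens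

open Claimed.Agent.R322.Tube Claimed.Agent.R322.Fn Claimed.Agent.R322.Lin

variable {m n : ℕ}

/-- the gradient of a `C²` function with bounded second derivative is Lipschitz -/
theorem shf_fderiv_sub_le {k : ℕ} {q : E k → ℝ} {A : ℝ} (hq : ContDiff ℝ 2 q)
    (h2 : ∀ y, ‖iteratedFDeriv ℝ 2 q y‖ ≤ A) (y y' : E k) :
    ‖fderiv ℝ q y' - fderiv ℝ q y‖ ≤ A * ‖y' - y‖ := by
  have hd : Differentiable ℝ (fderiv ℝ q) :=
    (hq.fderiv_right (m := 1) (by norm_num)).differentiable (by norm_num)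
  refine Convex.norm_image_sub_le_of_norm_fderiv_le (s := Set.univ)
    (fun x _ => hd x) (fun x _ => ?_) convex_univ (Set.mem_univ _) (Set.mem_univ _)
  rw [← norm_iteratedFDeriv_one, norm_iteratedFDeriv_fderiv]
  exact h2 x

/-- first order Taylor remainder -/
theorem shf_taylor {k : ℕ} {q : E k → ℝ} {A : ℝ} (hq : ContDiff ℝ 2 q)
    (h2 : ∀ y, ‖iteratedFDeriv ℝ 2 q y‖ ≤ A) (y y' : E k) :
    |q y' - q y - fderiv ℝ q y (y' - y)| ≤ A * ‖y' - y‖ ^ 2 := by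
  have hA : 0 ≤ A := (norm_nonneg _).trans (h2 0)
  have hdq : Differentiable ℝ q := hq.differentiable (by norm_num)
  obtain ⟨v, hv⟩ : ∃ v : E k → ℝ, v = fun t => q t - fderiv ℝ q y t := ⟨_, rfl⟩
  have hd : ∀ t, HasFDerivAt v (fderiv ℝ q t - fderiv ℝ q y) t := fun t => by
    rw [hv]
    exact (hdq t).hasFDerivAt.sub (fderiv ℝ q y).hasFDerivAt
  have h1 := Convex.norm_image_sub_le_of_norm_hasFDerivWithin_le
    (f := v) (f' := fun t => fderiv ℝ q t - fderiv ℝ q y) (C := A * ‖y' - y‖)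
    (s := Metric.closedBall y ‖y' - y‖) (x := y) (y := y')
    (fun t _ => (hd t).hasFDerivWithinAt)
    (fun t ht => by
      refine (shf_fderiv_sub_le hq h2 y t).trans ?_
      have : ‖t - y‖ ≤ ‖y' - y‖ := by rwa [← dist_eq_norm]
      exact mul_le_mul_of_nonneg_left this hA)
    (convex_closedBall _ _) (Metric.mem_closedBall_self (norm_nonneg _))
    (by rw [Metric.mem_closedBall, dist_eq_norm])
  have h3 : v y' - v y = q y' - q y - fderiv ℝ q y (y' - y) := by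
    simp only [hv, map_sub]; abel
  rw [h3, Real.norm_eq_abs] at h1
  calc _ ≤ A * ‖y' - y‖ * ‖y' - y‖ := h1
    _ = A * ‖y' - y‖ ^ 2 := by ring

theorem shf_trc_smulRight {N : ℕ} (l : E N →L[ℝ] ℝ) (b : E N) : trc (l.smulRight b) = l b := by
  have := tdiv_smulRight (ContinuousLinearMap.id ℝ (E N)) l b
  rwa [tdiv_eq_trc, ContinuousLinearMap.id_comp, ContinuousLinearMap.id_apply] at this

/-- product rule for the divergence on the reference graph -/
theorem shf_divS_smul (u : E m → E n) {q : E m → ℝ} {v : E m → E m} {y : E m}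
    (hq : DifferentiableAt ℝ q y) (hv : DifferentiableAt ℝ v y) :
    divS u (fun y' => q y' • v y') y = q y * divS u v y + fderiv ℝ q y (v y) := by
  unfold divS
  rw [fderiv_fun_smul hq hv, trc_add, trc_smul, shf_trc_smulRight, map_smul, smul_eq_mul]
  ring

/-- **CO (6b.11) for one cylinder**, all inputs as hypotheses. -/
theorem shf_core {N : NCyl m n} {a C ε Cm C₂ C₃ : ℝ} {X₀ : E (m + n)}
    (K : SK N 8 a C ε Cm) (hh : N.h ≤ 1 / 9)
    (hsupp : X₀ ∈ N.W.support) (hcyl : X₀ ∈ Cyl N.u N.Ω N.h) (hbase : ‖npr N.u X₀‖ ≤ 2)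
    (hC₂ : 0 < C₂) (hC₃ : 0 < C₃) (hw9 : |C| * a ≤ 1 / 9)
    (hshift : ∀ X ∈ Cyl N.u N.Ω N.h, ‖zz N.u X‖ ≤ |C| * a →
      ‖npr N.u (X - zz N.u X₀) - npr N.u X + dFp (fderiv ℝ N.u (npr N.u X)) (zz N.u X₀)‖
        ≤ C₂ * ε * (‖zz N.u X₀‖ ^ 2 + ‖zz N.u X₀‖ * ‖zz N.u X‖))
    (hv2 : ContDiff ℝ 2 (fun y => dFp (fderiv ℝ N.u y) (zz N.u X₀)))
    (hvdiv : ∀ y, divS N.u (fun y' => dFp (fderiv ℝ N.u y') (zz N.u X₀)) y
      = inner ℝ (HS N.u y) (zz N.u X₀))
    (hvle : ∀ y, ‖dFp (fderiv ℝ N.u y) (zz N.u X₀)‖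
      ≤ C₃ * ε * ‖y - npr N.u X₀‖ * ‖zz N.u X₀‖)
    (hdiv : ∀ Xc : E m → E m, ContDiff ℝ 1 Xc → HasCompactSupport Xc → tsupport Xc ⊆ N.Ω →
      ∫ y, divS N.u Xc y ∂N.volS = 0)
    (q : E m → ℝ) (A : ℝ) (hq : ContDiff ℝ 2 q) (hqs : tsupport q ⊆ Metric.closedBall 0 4)
    (hqA : ∀ y, |q y| ≤ A ∧ ‖fderiv ℝ q y‖ ≤ A ∧ ‖iteratedFDeriv ℝ 2 q y‖ ≤ A) :
    |∫ X, q (npr N.u (X - zz N.u X₀)) ∂N.μ - ∫ X, q (npr N.u X) ∂N.μ|
      ≤ (Cm * ((10 * C₃ * |C| + 2 * C₂ * C ^ 2) ^ 2 + 2 * C₂ * C ^ 2) + 10 * C₃ * |C| * Cm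
          + N.Q * |C| * Cm) * ε * a ^ 2 * A := by
  have hfin := K.fin
  have ha := K.a_pos
  have ha1 := K.a_le
  have hε := K.ε_nonneg
  have hε1 : ε ≤ 1 := K.ε_le.trans (by norm_num)
  have hCm := K.Cm_pos
  have hA : 0 ≤ A := (abs_nonneg _).trans (hqA 0).1
  have hC0 : 0 ≤ |C| := abs_nonneg C
  obtain ⟨w, hwdef⟩ : ∃ w : E (m + n), w = zz N.u X₀ := ⟨_, rfl⟩
  rw [← hwdef] at hshift hv2 hvdiv hvle ⊢
  obtain ⟨v, hvdef⟩ : ∃ v : E m → E m, v = fun y => dFp (fderiv ℝ N.u y) w := ⟨_, rfl⟩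
  have hvy : ∀ y, dFp (fderiv ℝ N.u y) w = v y := fun y => by rw [hvdef]
  rw [← hvdef] at hv2 hvdiv
  simp only [hvy] at hshift hvle
  obtain ⟨g, hgdef⟩ : ∃ g : E m → ℝ, g = fun y => fderiv ℝ q y (v y) := ⟨_, rfl⟩
  have hw : ‖w‖ ≤ |C| * a := by
    rw [hwdef]
    exact (K.small.height X₀ hsupp hcyl).trans (mul_le_mul_of_nonneg_right (le_abs_self C) ha.le)
  have hw0 := norm_nonneg w
  -- continuity and measurability
  have hT : ContinuousOn (npr N.u) (Tub N.u (2 / 9)) :=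
    (tube_deriv_of_le K.geo le_rfl).2.1.continuousOn
  have hmap : Set.MapsTo (fun X => X - w) (Cyl N.u N.Ω N.h) (Tub N.u (2 / 9)) := fun X hX => by
    refine ⟨npr N.u X, ?_⟩
    have e : X - w - Fg N.u (npr N.u X) = zz N.u X - w := by unfold zz; abel
    rw [e]
    have h1 := norm_sub_le (zz N.u X) w
    have h2 := hX.2
    linarith
  have hc1 : ContinuousOn (fun X => npr N.u (X - w)) (Cyl N.u N.Ω N.h) :=
    hT.comp (continuousOn_id.sub continuousOn_const) hmap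
  have hg : Continuous g := by
    rw [hgdef]
    exact (hq.continuous_fderiv (by norm_num)).clm_apply hv2.continuous
  have m1 : AEStronglyMeasurable (fun X => q (npr N.u (X - w))) N.μ :=
    K.ok.aesm (hq.continuous.comp_continuousOn hc1)
  have m2 : AEStronglyMeasurable (fun X => q (npr N.u X)) N.μ := K.ok.aesm_comp_npr hq.continuous
  have m3 : AEStronglyMeasurable (fun X => g (npr N.u X)) N.μ := K.ok.aesm_comp_npr hg
  have i1 : Integrable (fun X => q (npr N.u (X - w))) N.μ :=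
    Integrable.of_bound m1 A (Filter.Eventually.of_forall fun X => (hqA _).1)
  have i2 : Integrable (fun X => q (npr N.u X)) N.μ :=
    Integrable.of_bound m2 A (Filter.Eventually.of_forall fun X => (hqA _).1)
  -- the vector field `v`
  have hv8 : ∀ y ∈ Metric.ball (0 : E m) 8, ‖v y‖ ≤ 10 * C₃ * |C| * ε * a := fun y hy => by
    have h1 : ‖y - npr N.u X₀‖ ≤ 10 := by
      have := norm_sub_le y (npr N.u X₀)
      have hy' : ‖y‖ < 8 := by simpa using hy
      linarith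
    calc ‖v y‖ ≤ C₃ * ε * ‖y - npr N.u X₀‖ * ‖w‖ := hvle y
      _ ≤ C₃ * ε * 10 * (|C| * a) := by gcongr
      _ = 10 * C₃ * |C| * ε * a := by ring
  have hdq0 : ∀ y, y ∉ Metric.closedBall (0 : E m) 4 → fderiv ℝ q y = 0 := fun y hy =>
    Function.notMem_support.1 (fun h => hy (hqs (support_fderiv_subset ℝ h)))
  have hq0 : ∀ y, y ∉ Metric.closedBall (0 : E m) 4 → q y = 0 := fun y hy =>
    image_eq_zero_of_notMem_tsupport fun h => hy (hqs h)
  have h48 : Metric.closedBall (0 : E m) 4 ⊆ Metric.ball 0 8 :=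
    Metric.closedBall_subset_ball (by norm_num)
  have hgB : ∀ y, |g y| ≤ A * (10 * C₃ * |C| * ε * a) := fun y => by
    rw [hgdef]
    by_cases hy : y ∈ Metric.closedBall (0 : E m) 4
    · calc |fderiv ℝ q y (v y)| ≤ ‖fderiv ℝ q y‖ * ‖v y‖ := (fderiv ℝ q y).le_opNorm _
        _ ≤ A * (10 * C₃ * |C| * ε * a) :=
          mul_le_mul (hqA y).2.1 (hv8 y (h48 hy)) (norm_nonneg _) hA
    · simp only [hdq0 y hy, zero_apply, abs_zero]
      positivity
  have i3 : Integrable (fun X => g (npr N.u X)) N.μ :=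
    Integrable.of_bound m3 _ (Filter.Eventually.of_forall fun X => hgB _)
  have hgs : tsupport g ⊆ Metric.closedBall (0 : E m) 4 :=
    closure_minimal (fun y hy => by
      by_contra h
      exact hy (by rw [hgdef]; simp only [hdq0 y h, zero_apply]))
      Metric.isClosed_closedBall
  have hgT : IsTest (Metric.ball (0 : E m) 8) g :=
    ⟨hg, (isCompact_closedBall (0 : E m) 4).of_isClosed_subset (isClosed_tsupport _) hgs,
      hgs.trans h48⟩
  -- the pointwise Taylor estimate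
  have hTay : ∀ᵐ X ∂N.μ, ‖q (npr N.u (X - w)) - q (npr N.u X) + g (npr N.u X)‖
      ≤ ((10 * C₃ * |C| + 2 * C₂ * C ^ 2) ^ 2 + 2 * C₂ * C ^ 2) * ε * a ^ 2 * A := by
    filter_upwards [K.ae] with X hX
    obtain ⟨hXc, hX8, hXz⟩ := hX
    have hr : ‖npr N.u (X - w) - npr N.u X + v (npr N.u X)‖ ≤ 2 * C₂ * C ^ 2 * ε * a ^ 2 := by
      calc _ ≤ C₂ * ε * (‖w‖ ^ 2 + ‖w‖ * ‖zz N.u X‖) := hshift X hXc hXz
        _ ≤ C₂ * ε * ((|C| * a) ^ 2 + (|C| * a) * (|C| * a)) := by gcongr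
        _ = C₂ * ε * (2 * (|C| ^ 2 * a ^ 2)) := by ring
        _ = 2 * C₂ * C ^ 2 * ε * a ^ 2 := by rw [sq_abs]; ring
    have hd : ‖npr N.u (X - w) - npr N.u X‖ ≤ (10 * C₃ * |C| + 2 * C₂ * C ^ 2) * (ε * a) := by
      have e : npr N.u (X - w) - npr N.u X
          = (npr N.u (X - w) - npr N.u X + v (npr N.u X)) - v (npr N.u X) := by abel
      rw [e]
      refine (norm_sub_le _ _).trans ?_
      have h1 := hv8 _ hX8
      have h2 : 2 * C₂ * C ^ 2 * ε * a ^ 2 ≤ 2 * C₂ * C ^ 2 * ε * a := by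
        have : a ^ 2 ≤ a := by nlinarith
        gcongr
      nlinarith
    have hd2 : ‖npr N.u (X - w) - npr N.u X‖ ^ 2
        ≤ (10 * C₃ * |C| + 2 * C₂ * C ^ 2) ^ 2 * ε * a ^ 2 := by
      calc _ ≤ ((10 * C₃ * |C| + 2 * C₂ * C ^ 2) * (ε * a)) ^ 2 :=
            pow_le_pow_left₀ (norm_nonneg _) hd 2
        _ = (10 * C₃ * |C| + 2 * C₂ * C ^ 2) ^ 2 * (ε * ε) * a ^ 2 := by ring
        _ ≤ (10 * C₃ * |C| + 2 * C₂ * C ^ 2) ^ 2 * (ε * 1) * a ^ 2 := by gcongr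
        _ = _ := by ring
    have e : q (npr N.u (X - w)) - q (npr N.u X) + g (npr N.u X)
        = (q (npr N.u (X - w)) - q (npr N.u X)
            - fderiv ℝ q (npr N.u X) (npr N.u (X - w) - npr N.u X))
          + fderiv ℝ q (npr N.u X) (npr N.u (X - w) - npr N.u X + v (npr N.u X)) := by
      rw [hgdef, map_add]; ring
    rw [e, Real.norm_eq_abs]
    refine (abs_add_le _ _).trans ?_
    have t1 := shf_taylor hq (fun y => (hqA y).2.2) (npr N.u X) (npr N.u (X - w))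
    have t2 : |fderiv ℝ q (npr N.u X) (npr N.u (X - w) - npr N.u X + v (npr N.u X))|
        ≤ A * (2 * C₂ * C ^ 2 * ε * a ^ 2) :=
      ((fderiv ℝ q (npr N.u X)).le_opNorm _).trans
        (mul_le_mul (hqA _).2.1 hr (norm_nonneg _) hA)
    have t3 : A * ‖npr N.u (X - w) - npr N.u X‖ ^ 2
        ≤ A * ((10 * C₃ * |C| + 2 * C₂ * C ^ 2) ^ 2 * ε * a ^ 2) :=
      mul_le_mul_of_nonneg_left hd2 hA
    linarith
  have b1 : |∫ X, (q (npr N.u (X - w)) - q (npr N.u X) + g (npr N.u X)) ∂N.μ|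
      ≤ ((10 * C₃ * |C| + 2 * C₂ * C ^ 2) ^ 2 + 2 * C₂ * C ^ 2) * ε * a ^ 2 * A * Cm := by
    rw [← Real.norm_eq_abs]
    refine (norm_integral_le_of_norm_le_const hTay).trans ?_
    exact mul_le_mul_of_nonneg_left K.mass (by positivity)
  -- the first order term
  have e1 : ∫ X, g (npr N.u X) ∂N.μ = N.intM g + N.Q * ∫ y, g y ∂N.volS := by
    unfold NCyl.intM NCyl.nu
    rw [integral_map K.ok.aemeasurable_npr hg.aestronglyMeasurable]
    ring
  have b2 : |N.intM g| ≤ 10 * C₃ * |C| * Cm * ε * a ^ 2 * A := by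
    refine (K.abs_intM_le hgT hgB).trans ?_
    have h1 : a * a ^ 2 ≤ 1 * a ^ 2 := by gcongr
    calc A * (10 * C₃ * |C| * ε * a) * (Cm * a ^ 2)
        = (10 * C₃ * |C| * Cm * ε * A) * (a * a ^ 2) := by ring
      _ ≤ (10 * C₃ * |C| * Cm * ε * A) * (1 * a ^ 2) := by gcongr
      _ = _ := by ring
  have hvolfin : IsFiniteMeasure N.volS := ⟨K.volS_le.trans_lt ENNReal.ofReal_lt_top⟩
  have hHS : Continuous (HS N.u) := (contDiff_HS (k := 0) (K.ok.smooth.of_le (by norm_num))).continuous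
  have hqH : Continuous fun y => q y * (inner ℝ (HS N.u y) w : ℝ) :=
    hq.continuous.mul (hHS.inner continuous_const)
  have hqHB : ∀ y, |q y * (inner ℝ (HS N.u y) w : ℝ)| ≤ A * (ε * a * (|C| * a)) := fun y => by
    by_cases hy : y ∈ Metric.closedBall (0 : E m) 4
    · rw [abs_mul]
      refine mul_le_mul (hqA y).1 ?_ (abs_nonneg _) hA
      refine (abs_real_inner_le_norm _ _).trans ?_
      have h1 := K.small.curv y (h48 hy)
      have h2 := Real.sqrt_nonneg (DHSsq N.u y)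
      exact mul_le_mul (by linarith) hw hw0 (by positivity)
    · rw [hq0 y hy, zero_mul, abs_zero]
      positivity
  have e2 : ∫ y, g y ∂N.volS = - ∫ y, q y * (inner ℝ (HS N.u y) w : ℝ) ∂N.volS := by
    have hX1 : ContDiff ℝ 1 (fun y => q y • v y) :=
      (hq.of_le (by norm_num)).smul (hv2.of_le (by norm_num))
    have hXs : tsupport (fun y => q y • v y) ⊆ Metric.closedBall (0 : E m) 4 :=
      closure_minimal (fun y hy => by
        by_contra h
        exact hy (by simp only [hq0 y h, zero_smul])) Metric.isClosed_closedBall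
    have h0 := hdiv _ hX1
      ((isCompact_closedBall (0 : E m) 4).of_isClosed_subset (isClosed_tsupport _) hXs)
      (hXs.trans (h48.trans K.small.Ω_eq.ge))
    have e3 : ∀ y, divS N.u (fun y' => q y' • v y') y
        = q y * (inner ℝ (HS N.u y) w : ℝ) + g y := fun y => by
      rw [shf_divS_smul N.u ((hq.differentiable (by norm_num)) y)
        ((hv2.differentiable (by norm_num)) y), hvdiv, hgdef]
    simp only [e3] at h0
    rw [integral_add (Integrable.of_bound hqH.aestronglyMeasurable _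
      (Filter.Eventually.of_forall hqHB)) (Integrable.of_bound hg.aestronglyMeasurable _
      (Filter.Eventually.of_forall hgB))] at h0
    linarith
  have b3 : |∫ y, q y * (inner ℝ (HS N.u y) w : ℝ) ∂N.volS| ≤ |C| * Cm * ε * a ^ 2 * A := by
    rw [← Real.norm_eq_abs]
    refine (norm_integral_le_of_norm_le_const (Filter.Eventually.of_forall hqHB)).trans ?_
    have h1 : N.volS.real Set.univ ≤ Cm := ENNReal.toReal_le_of_le_ofReal hCm.le K.volS_le
    calc A * (ε * a * (|C| * a)) * N.volS.real Set.univ ≤ A * (ε * a * (|C| * a)) * Cm :=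
          mul_le_mul_of_nonneg_left h1 (by positivity)
      _ = _ := by ring
  have e4 : ∫ X, q (npr N.u (X - w)) ∂N.μ - ∫ X, q (npr N.u X) ∂N.μ
      = ∫ X, (q (npr N.u (X - w)) - q (npr N.u X) + g (npr N.u X)) ∂N.μ
        - ∫ X, g (npr N.u X) ∂N.μ := by
    have h1 : ∫ X, (q (npr N.u (X - w)) - q (npr N.u X) + g (npr N.u X)) ∂N.μ
        = ∫ X, (q (npr N.u (X - w)) - q (npr N.u X)) ∂N.μ + ∫ X, g (npr N.u X) ∂N.μ :=
      integral_add (i1.sub i2) i3
    rw [h1, integral_sub i1 i2]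
    ring
  rw [e4, e1, e2]
  have hQ0 : (0 : ℝ) ≤ N.Q := Nat.cast_nonneg _
  have b4 : |(N.Q : ℝ) * -∫ y, q y * (inner ℝ (HS N.u y) w : ℝ) ∂N.volS|
      ≤ N.Q * (|C| * Cm * ε * a ^ 2 * A) := by
    rw [abs_mul, abs_neg, abs_of_nonneg hQ0]
    exact mul_le_mul_of_nonneg_left b3 hQ0
  calc _ ≤ |∫ X, (q (npr N.u (X - w)) - q (npr N.u X) + g (npr N.u X)) ∂N.μ|
        + (|N.intM g| + |(N.Q : ℝ) * -∫ y, q y * (inner ℝ (HS N.u y) w : ℝ) ∂N.volS|) :=
        (abs_sub _ _).trans (add_le_add le_rfl (abs_add_le _ _))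
    _ ≤ ((10 * C₃ * |C| + 2 * C₂ * C ^ 2) ^ 2 + 2 * C₂ * C ^ 2) * ε * a ^ 2 * A * Cm
        + (10 * C₃ * |C| * Cm * ε * a ^ 2 * A + N.Q * (|C| * Cm * ε * a ^ 2 * A)) :=
        add_le_add b1 (add_le_add b2 b4)
    _ = _ := by ring

end Claimed.Agent.R322.Dens
end
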