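/- Packed by merge_tool.py (helper293): 5 modules of Claimed.Agent.R322 in one file, same declarations.
   Old modules, in this order: Base.Area.Fib, Base.Area.Mult, Freq.OdeBarrier, Freq.Ode, Freq.OdeMain -/
import Claimed.Agent.R322.Base.Area.Defs
import Claimed.Agent.R322.Base.Area.Jac
import Mathlib
import Claimed.Agent.R322.Pack010

/- ===== packed: Claimed.Agent.R322.Base.Area.Fib ===== -/
section
/-!
# Row 322, Base/Area/Fib: algebra of fibre sums

`fibSum S h w y = ∑' x : {x // x ∈ S ∧ h x = y}, w x`.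
-/

set_option autoImplicit false

open scoped ENNReal NNReal Function
open Set

namespace Claimed.Agent.R322.Base.Area

variable {X Y W : Type*}

theorem fibSum_eq_tsum_indicator (S : Set X) (h : X → Y) (w : X → ℝ≥0∞) (y : Y) :
    fibSum S h w y = ∑' x, (S ∩ h ⁻¹' {y}).indicator w x := by
  rw [← tsum_subtype (S ∩ h ⁻¹' {y}) w]
  rfl

/-- countable (in fact arbitrary) disjoint unions. -/
theorem fibSum_iUnion {ι : Type*} (S : ι → Set X) (hS : Pairwise (Disjoint on S)) (h : X → Y)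
    (w : X → ℝ≥0∞) (y : Y) :
    fibSum (⋃ i, S i) h w y = ∑' i, fibSum (S i) h w y := by
  simp only [fibSum_eq_tsum_indicator]
  rw [ENNReal.tsum_comm]
  refine tsum_congr fun x => ?_
  by_cases hx : ∃ i, x ∈ S i
  · obtain ⟨i, hi⟩ := hx
    rw [tsum_eq_single i]
    · by_cases hy : h x = y
      · rw [indicator_of_mem, indicator_of_mem]
        · exact ⟨hi, hy⟩
        · exact ⟨mem_iUnion.2 ⟨i, hi⟩, hy⟩
      · rw [indicator_of_notMem, indicator_of_notMem]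
        · exact fun hh => hy hh.2
        · exact fun hh => hy hh.2
    · intro j hj
      rw [indicator_of_notMem]
      intro hh
      exact (disjoint_left.1 (hS hj) hh.1 hi)
  · rw [indicator_of_notMem]
    · symm
      rw [ENNReal.tsum_eq_zero]
      intro i
      rw [indicator_of_notMem]
      exact fun hh => hx ⟨i, hh.1⟩
    · intro hh
      obtain ⟨i, hi⟩ := mem_iUnion.1 hh.1
      exact hx ⟨i, hi⟩

/-- a part of `S` whose image does not contain `y` can be removed. -/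
theorem fibSum_eq_of_notMem_image {S T : Set X} (hTS : T ⊆ S) (h : X → Y) (w : X → ℝ≥0∞) {y : Y}
    (hy : y ∉ h '' (S \ T)) : fibSum S h w y = fibSum T h w y := by
  simp only [fibSum_eq_tsum_indicator]
  have : S ∩ h ⁻¹' {y} = T ∩ h ⁻¹' {y} := ?_
  · rw [this]
  ext x
  constructor
  · rintro ⟨hx, hxy⟩
    refine ⟨?_, hxy⟩
    by_contra hxT
    exact hy ⟨x, ⟨hx, hxT⟩, hxy⟩
  · rintro ⟨hx, hxy⟩
    exact ⟨hTS hx, hxy⟩

theorem fibSum_of_notMem_image {S : Set X} {h : X → Y} (w : X → ℝ≥0∞) {y : Y}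
    (hy : y ∉ h '' S) : fibSum S h w y = 0 := by
  rw [fibSum_eq_tsum_indicator, ENNReal.tsum_eq_zero]
  intro x
  rw [indicator_of_notMem]
  exact fun hh => hy ⟨x, hh.1, hh.2⟩

/-- the fibre sum of an injective map has one term. -/
theorem fibSum_of_injOn {S : Set X} {h : X → Y} (hh : InjOn h S) (w : X → ℝ≥0∞) {x : X}
    (hx : x ∈ S) : fibSum S h w (h x) = w x := by
  rw [fibSum_eq_tsum_indicator, tsum_eq_single x]
  · rw [indicator_of_mem]
    exact ⟨hx, rfl⟩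
  · intro x' hx'
    rw [indicator_of_notMem]
    exact fun h' => hx' (hh h'.1 hx h'.2)

/-- reparametrisation of the index set by an injective map. -/
theorem fibSum_image (f : W → X) (A : Set W) (hf : InjOn f A) (g : X → Y) (w : X → ℝ≥0∞) (y : Y) :
    fibSum (f '' A) g w y = fibSum A (g ∘ f) (w ∘ f) y := by
  have h1 : {x | x ∈ f '' A ∧ g x = y} = f '' {a | a ∈ A ∧ (g ∘ f) a = y} := by
    ext x
    constructor
    · rintro ⟨⟨a, ha, rfl⟩, hy⟩
      exact ⟨a, ⟨ha, hy⟩, rfl⟩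
    · rintro ⟨a, ⟨ha, hy⟩, rfl⟩
      exact ⟨⟨a, ha, rfl⟩, hy⟩
  have h2 : InjOn f {a | a ∈ A ∧ (g ∘ f) a = y} := hf.mono fun a ha => ha.1
  have h3 := tsum_image (f := w) h2
  change ∑' x : ({x | x ∈ f '' A ∧ g x = y} : Set X), w x = _
  rw [h1, h3]
  rfl

theorem fibSum_congr {S : Set X} {h h' : X → Y} {w w' : X → ℝ≥0∞} (hh : EqOn h h' S)
    (hw : EqOn w w' S) (y : Y) : fibSum S h w y = fibSum S h' w' y := by
  simp only [fibSum_eq_tsum_indicator]
  refine tsum_congr fun x => ?_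
  by_cases hx : x ∈ S
  · by_cases hy : h x = y
    · rw [indicator_of_mem, indicator_of_mem, hw hx]
      · exact ⟨hx, by rw [mem_preimage, ← hh hx]; exact hy⟩
      · exact ⟨hx, hy⟩
    · rw [indicator_of_notMem, indicator_of_notMem]
      · exact fun h0 => hy (by rw [hh hx]; exact h0.2)
      · exact fun h0 => hy h0.2
  · rw [indicator_of_notMem, indicator_of_notMem]
    · exact fun h0 => hx h0.1
    · exact fun h0 => hx h0.1

end Claimed.Agent.R322.Base.Area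
end

/- ===== packed: Claimed.Agent.R322.Base.Area.Mult ===== -/
section
/-!
# Row 322, Base/Area/Mult: the area formula with multiplicity for maps `E m → F`

* `exists_injOn_pieces` : a differentiable map on a measurable set `s` is injective with injective
  derivative on countably many disjoint measurable pieces; the rest of `s` has a null image and
  the Jacobian vanishes a.e. on it.
* `aemeasurable_fibSum`, `lintegral_fibSum` : the area formula with multiplicity.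
-/

set_option autoImplicit false

open MeasureTheory MeasureTheory.Measure Metric Filter Set

open scoped NNReal ENNReal Topology Function

namespace Claimed.Agent.R322.Base.Area

variable {m : ℕ} {F : Type*} [NormedAddCommGroup F] [InnerProductSpace ℝ F]
  [FiniteDimensional ℝ F] [MeasurableSpace F] [BorelSpace F]
  {s : Set (E m)} {f : E m → F} {f' : E m → E m →L[ℝ] F}

local notation "μ" => (μH[(m : ℝ)] : Measure (E m))
local notation "ν" => (μH[(m : ℝ)] : Measure F)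

/-- **Decomposition into injective pieces.** -/
theorem exists_injOn_pieces (hs : MeasurableSet s)
    (hf' : ∀ x ∈ s, HasFDerivWithinAt f (f' x) s x) :
    ∃ t : ℕ → Set (E m), (∀ n, MeasurableSet (t n)) ∧ Pairwise (Disjoint on t) ∧
      (∀ n, t n ⊆ s) ∧ (∀ n, InjOn f (t n)) ∧ (∀ n, ∀ x ∈ t n, Function.Injective (f' x)) ∧
      ν (f '' (s \ ⋃ n, t n)) = 0 ∧ ∀ᵐ x ∂(μ).restrict (s \ ⋃ n, t n), nd (f' x) = 0 := by
  classical
  -- a measurable version of the Jacobian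
  have hJ : AEMeasurable (fun x => nd (f' x)) ((μ).restrict s) :=
    continuous_nd.measurable.comp_aemeasurable (aemeasurable_deriv hs hf')
  set J := hJ.mk _ with hJdef
  have hJm : Measurable J := hJ.measurable_mk
  have hae : ∀ᵐ x ∂μ, x ∈ s → nd (f' x) = J x := (ae_restrict_iff' hs).1 hJ.ae_eq_mk
  set N := toMeasurable μ {x | ¬ (x ∈ s → nd (f' x) = J x)} with hN
  have hNm : MeasurableSet N := measurableSet_toMeasurable _ _
  have hN0 : μ N = 0 := by rw [hN, measure_toMeasurable]; exact hae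
  have hNsub : ∀ x, x ∈ s → x ∉ N → nd (f' x) = J x := by
    intro x hx hxN
    by_contra hcon
    exact hxN (subset_toMeasurable μ _ (fun h => hcon (h hx)))
  set s₁ : Set (E m) := (s \ N) ∩ {x | J x ≠ 0} with hs₁
  have hs₁m : MeasurableSet s₁ :=
    (hs.diff hNm).inter (hJm (measurableSet_singleton (0 : ℝ)).compl)
  have hs₁s : s₁ ⊆ s := fun x hx => hx.1.1
  have hinj : ∀ x ∈ s₁, Function.Injective (f' x) := by
    intro x hx
    by_contra hcon
    have h0 := (nd_eq_zero_iff (f' x)).2 hcon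
    rw [hNsub x hx.1.1 hx.1.2] at h0
    exact hx.2 h0
  -- the precision
  have hδ : ∀ A : E m →L[ℝ] F, ∃ δ : ℝ≥0, 0 < δ ∧ (Function.Injective A →
      ∀ (u : Set (E m)) (g : E m → F), ApproximatesLinearOn g A u δ → InjOn g u) := by
    intro A
    by_cases hA : Function.Injective A
    · obtain ⟨δ, hδ, h⟩ := exists_injOn_of_approx A hA
      exact ⟨δ, hδ, fun _ => h⟩
    · exact ⟨1, one_pos, fun h => absurd h hA⟩
  choose δ hδpos hδinj using hδ
  obtain ⟨t, A, t_disj, t_meas, t_cover, ht, hA⟩ :=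
    exists_partition_approximatesLinearOn_of_hasFDerivWithinAt f s₁ f'
      (fun x hx => (hf' x (hs₁s hx)).mono hs₁s) δ fun A => (hδpos A).ne'
  have hU : ⋃ n, s₁ ∩ t n = s₁ := by
    rw [← inter_iUnion]
    exact inter_eq_self_of_subset_left t_cover
  have hrest : s \ s₁ ⊆ (s ∩ N) ∪ {x | x ∈ s ∧ nd (f' x) = 0} := by
    intro x hx
    by_cases hxN : x ∈ N
    · exact Or.inl ⟨hx.1, hxN⟩
    · refine Or.inr ⟨hx.1, ?_⟩
      rw [hNsub x hx.1 hxN]
      by_contra hcon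
      exact hx.2 ⟨⟨hx.1, hxN⟩, hcon⟩
  refine ⟨fun n => s₁ ∩ t n, fun n => hs₁m.inter (t_meas n), ?_, fun n x hx => hs₁s hx.1, ?_,
    fun n x hx => hinj x hx.1, ?_, ?_⟩
  · exact pairwise_disjoint_mono t_disj fun n => inter_subset_right
  · intro n
    rcases eq_empty_or_nonempty s₁ with h0 | h0
    · intro x hx
      exact absurd hx.1 (by rw [h0]; exact notMem_empty x)
    · obtain ⟨y, hy, hAy⟩ := hA h0 n
      exact hδinj (A n) (by rw [hAy]; exact hinj y hy) _ _ (ht n)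
  · rw [hU]
    refine measure_mono_null (image_mono hrest) ?_
    rw [image_union]
    refine measure_union_null ?_ ?_
    · refine image_null_of_differentiableOn (fun x hx => ?_)
        (measure_mono_null inter_subset_right hN0)
      exact ((hf' x hx.1).mono inter_subset_left).differentiableWithinAt
    · exact image_null_of_nd_eq_zero (f' := f')
        (fun x hx => (hf' x hx.1).mono fun y hy => hy.1) fun x hx => hx.2
  · rw [hU, ae_restrict_iff' (hs.diff hs₁m)]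
    have : ∀ᵐ x ∂μ, x ∉ N := by
      rw [ae_iff]; simpa using hN0
    filter_upwards [this] with x hxN hx
    rcases hrest hx with h | h
    · exact absurd h.2 hxN
    · exact h.2

/-- fibre sums of injective maps are Borel. -/
theorem measurable_fibSum_of_injOn (hs : MeasurableSet s)
    (hf' : ∀ x ∈ s, HasFDerivWithinAt f (f' x) s x) (hf : InjOn f s) (w : E m → ℝ≥0∞)
    (hw : Measurable w) : Measurable (fibSum s f w) := by
  have he := measurableEmbedding_of_deriv hs hf' hf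
  have h1 : fibSum s f w = Function.extend (s.domRestrict f) (fun x : s => w x) 0 := by
    ext y
    by_cases hy : y ∈ f '' s
    · obtain ⟨x, hx, rfl⟩ := hy
      rw [fibSum_of_injOn hf w hx]
      exact (he.injective.extend_apply (fun x : s => w x) 0 ⟨x, hx⟩).symm
    · rw [fibSum_of_notMem_image w hy, Function.extend_apply']
      · rfl
      · rintro ⟨x, rfl⟩
        exact hy ⟨x, x.2, rfl⟩
  rw [h1]
  exact he.measurable_extend (hw.comp measurable_subtype_coe) measurable_zero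

/-- area formula for injective maps, in terms of fibre sums. -/
theorem lintegral_fibSum_of_injOn (hs : MeasurableSet s)
    (hf' : ∀ x ∈ s, HasFDerivWithinAt f (f' x) s x) (hf : InjOn f s) (w : E m → ℝ≥0∞) :
    ∫⁻ y, fibSum s f w y ∂ν = ∫⁻ x in s, ENNReal.ofReal (nd (f' x)) * w x ∂μ := by
  have h1 : fibSum s f w = (f '' s).indicator (fibSum s f w) := by
    ext y
    by_cases hy : y ∈ f '' s
    · rw [indicator_of_mem hy]
    · rw [indicator_of_notMem hy, fibSum_of_notMem_image w hy]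
  rw [h1, lintegral_indicator (measurableSet_image_of_deriv hs hf' hf),
    lintegral_image_eq_lintegral_nd_mul hs hf' hf]
  refine setLIntegral_congr_fun hs fun x hx => ?_
  rw [fibSum_of_injOn hf w hx]

/-- the fibre sum is a.e. a countable sum of fibre sums of injective pieces. -/
theorem fibSum_ae_eq_tsum {t : ℕ → Set (E m)} (t_disj : Pairwise (Disjoint on t))
    (t_sub : ∀ n, t n ⊆ s) (h0 : ν (f '' (s \ ⋃ n, t n)) = 0) (w : E m → ℝ≥0∞) :
    fibSum s f w =ᵐ[ν] fun y => ∑' n, fibSum (t n) f w y := by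
  have : ∀ᵐ y ∂ν, y ∉ f '' (s \ ⋃ n, t n) := by
    rw [ae_iff]; simp only [not_not]; exact h0
  filter_upwards [this] with y hy
  rw [fibSum_eq_of_notMem_image (iUnion_subset t_sub) f w hy, fibSum_iUnion t t_disj]

/-- **a.e.-measurability of fibre sums.** -/
theorem aemeasurable_fibSum (hs : MeasurableSet s)
    (hf' : ∀ x ∈ s, HasFDerivWithinAt f (f' x) s x) (w : E m → ℝ≥0∞) (hw : Measurable w) :
    AEMeasurable (fibSum s f w) ν := by
  obtain ⟨t, t_meas, t_disj, t_sub, t_inj, -, h0, -⟩ := exists_injOn_pieces hs hf'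
  refine ⟨fun y => ∑' n, fibSum (t n) f w y, ?_, fibSum_ae_eq_tsum t_disj t_sub h0 w⟩
  exact Measurable.tsum fun n =>
    measurable_fibSum_of_injOn (t_meas n) (fun x hx => (hf' x (t_sub n hx)).mono (t_sub n))
      (t_inj n) w hw

/-- **The area formula with multiplicity.** -/
theorem lintegral_fibSum (hs : MeasurableSet s)
    (hf' : ∀ x ∈ s, HasFDerivWithinAt f (f' x) s x) (w : E m → ℝ≥0∞) (hw : Measurable w) :
    ∫⁻ y, fibSum s f w y ∂ν = ∫⁻ x in s, ENNReal.ofReal (nd (f' x)) * w x ∂μ := by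
  obtain ⟨t, t_meas, t_disj, t_sub, t_inj, -, h0, h1⟩ := exists_injOn_pieces hs hf'
  have hd : ∀ n, ∀ x ∈ t n, HasFDerivWithinAt f (f' x) (t n) x :=
    fun n x hx => (hf' x (t_sub n hx)).mono (t_sub n)
  rw [lintegral_congr_ae (fibSum_ae_eq_tsum t_disj t_sub h0 w), lintegral_tsum]
  · have hU : MeasurableSet (⋃ n, t n) := MeasurableSet.iUnion t_meas
    have hsplit : s = (⋃ n, t n) ∪ (s \ ⋃ n, t n) := by
      rw [union_sdiff_cancel (iUnion_subset t_sub)]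
    have hz : ∫⁻ x in s \ ⋃ n, t n, ENNReal.ofReal (nd (f' x)) * w x ∂μ = 0 := by
      rw [lintegral_eq_zero_iff']
      · filter_upwards [h1] with x hx
        simp [hx]
      · have h2 : AEMeasurable (fun x => ENNReal.ofReal (nd (f' x))) ((μ).restrict s) :=
          aemeasurable_ofReal_nd hs hf'
        exact (h2.mono_measure (Measure.restrict_mono sdiff_subset le_rfl)).mul hw.aemeasurable
    conv_rhs => rw [hsplit]
    rw [lintegral_union (hs.diff hU) disjoint_sdiff_right, hz, add_zero,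
      lintegral_iUnion t_meas t_disj]
    exact tsum_congr fun n => lintegral_fibSum_of_injOn (t_meas n) (hd n) (t_inj n) w
  · exact fun n => (measurable_fibSum_of_injOn (t_meas n) (hd n) (t_inj n) w hw).aemeasurable

end Claimed.Agent.R322.Base.Area
end

/- ===== packed: Claimed.Agent.R322.Freq.OdeBarrier ===== -/
section
/-!
# Row 322, CO Lemma 4.4 (inward control): generic one-dimensional barrier lemmas

Blueprint and proofs: helper109 (package BP-CO4-ode).  Only Mathlib.  No sorry in this file.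

All functions are differentiable on a compact interval in the sense
`∀ x ∈ Icc a b, HasDerivWithinAt f (f' x) (Icc a b) x`.
-/

set_option autoImplicit false

namespace Claimed.Agent.R322.Freq

open Set

/-- differentiability on a compact interval -/
def DerivOn (f f' : ℝ → ℝ) (a b : ℝ) : Prop := ∀ x ∈ Icc a b, HasDerivWithinAt f (f' x) (Icc a b) x

theorem DerivOn.continuousOn {f f' : ℝ → ℝ} {a b : ℝ} (h : DerivOn f f' a b) : ContinuousOn f (Icc a b) :=
  fun x hx => (h x hx).continuousWithinAt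

theorem DerivOn.mono {f f' : ℝ → ℝ} {a b a' b' : ℝ} (h : DerivOn f f' a b) (ha : a ≤ a') (hb : b' ≤ b) :
    DerivOn f f' a' b' := fun x hx =>
  (h x ⟨ha.trans hx.1, hx.2.trans hb⟩).mono (Icc_subset_Icc ha hb)

/-- nonnegative derivative in the interior: the endpoint values are ordered -/
theorem ode_le_of_deriv_nonneg {f f' : ℝ → ℝ} {a b : ℝ} (hab : a ≤ b) (h : DerivOn f f' a b)
    (h0 : ∀ x ∈ Ioo a b, 0 ≤ f' x) : f a ≤ f b := by
  have hm : MonotoneOn f (Icc a b) := by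
    refine monotoneOn_of_hasDerivWithinAt_nonneg (convex_Icc a b) h.continuousOn (f' := f') ?_ ?_
    · intro x hx
      exact (h x (interior_subset hx)).mono interior_subset
    · intro x hx
      rw [interior_Icc] at hx
      exact h0 x hx
  exact hm (left_mem_Icc.2 hab) (right_mem_Icc.2 hab) hab

/-- derivative `≥ c` in the interior: linear growth -/
theorem ode_growth {f f' : ℝ → ℝ} {a b c : ℝ} (hab : a ≤ b) (h : DerivOn f f' a b)
    (h0 : ∀ x ∈ Ioo a b, c ≤ f' x) : c * (b - a) ≤ f b - f a := by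
  have h1 : DerivOn (fun x => f x - c * x) (fun x => f' x - c) a b := by
    intro x hx
    have h2 : HasDerivWithinAt (fun x : ℝ => c * x) c (Icc a b) x := by
      simpa using (hasDerivWithinAt_id x (Icc a b)).const_mul c
    exact (h x hx).sub h2
  have := ode_le_of_deriv_nonneg hab h1 fun x hx => by linarith [h0 x hx]
  linarith

/-- derivative `≤ c` in the interior: linear growth bound -/
theorem ode_growth_le {f f' : ℝ → ℝ} {a b c : ℝ} (hab : a ≤ b) (h : DerivOn f f' a b)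
    (h0 : ∀ x ∈ Ioo a b, f' x ≤ c) : f b - f a ≤ c * (b - a) := by
  have h1 : DerivOn (fun x => - f x) (fun x => - f' x) a b := fun x hx => (h x hx).neg
  have := ode_growth (c := -c) hab h1 fun x hx => by linarith [h0 x hx]
  linarith

/-- the last point of `[a,b]` at which `f ≥ y` -/
theorem ode_last_ge {f : ℝ → ℝ} {a b y : ℝ} (hab : a ≤ b) (hf : ContinuousOn f (Icc a b)) (ha : y ≤ f a) :
    ∃ u ∈ Icc a b, y ≤ f u ∧ ∀ x ∈ Icc a b, u < x → f x < y := by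
  have hcl : IsClosed (Icc a b ∩ f ⁻¹' Ici y) := hf.preimage_isClosed_of_isClosed isClosed_Icc isClosed_Ici
  have hcp : IsCompact (Icc a b ∩ f ⁻¹' Ici y) := isCompact_Icc.of_isClosed_subset hcl inter_subset_left
  have hne : (Icc a b ∩ f ⁻¹' Ici y).Nonempty := ⟨a, left_mem_Icc.2 hab, ha⟩
  have hu := hcp.sSup_mem hne
  refine ⟨_, hu.1, hu.2, fun x hx hux => ?_⟩
  by_contra hno
  exact absurd (le_csSup hcp.bddAbove ⟨hx, not_lt.1 hno⟩) (not_le.2 hux)

/-- the first point of `[a,b]` at which `f ≤ y` -/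
theorem ode_first_le {f : ℝ → ℝ} {a b y : ℝ} (hab : a ≤ b) (hf : ContinuousOn f (Icc a b)) (hb : f b ≤ y) :
    ∃ v ∈ Icc a b, f v ≤ y ∧ ∀ x ∈ Icc a b, x < v → y < f x := by
  have hcl : IsClosed (Icc a b ∩ f ⁻¹' Iic y) := hf.preimage_isClosed_of_isClosed isClosed_Icc isClosed_Iic
  have hcp : IsCompact (Icc a b ∩ f ⁻¹' Iic y) := isCompact_Icc.of_isClosed_subset hcl inter_subset_left
  have hne : (Icc a b ∩ f ⁻¹' Iic y).Nonempty := ⟨b, right_mem_Icc.2 hab, hb⟩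
  have hv := hcp.sInf_mem hne
  refine ⟨_, hv.1, hv.2, fun x hx hxv => ?_⟩
  by_contra hno
  exact absurd (csInf_le hcp.bddBelow ⟨hx, not_lt.1 hno⟩) (not_le.2 hxv)

/-- **Lower barrier.**  If `f' ≥ 0` wherever `f < L` and `f b < L`, then `f` is not larger at `a` than at `b`:
below the level `L` the function decreases in backward time. -/
theorem ode_barrier_low {f f' : ℝ → ℝ} {a b L : ℝ} (hab : a ≤ b) (h : DerivOn f f' a b)
    (h0 : ∀ x ∈ Icc a b, f x < L → 0 ≤ f' x) (hb : f b < L) : f a ≤ f b := by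
  by_contra hcon
  rw [not_le] at hcon
  set y := (f b + min (f a) L) / 2 with hy
  have hmin : f b < min (f a) L := lt_min hcon hb
  have hy1 : f b < y := by rw [hy]; linarith
  have hy2 : y < min (f a) L := by rw [hy]; linarith
  have hya : y ≤ f a := (hy2.trans_le (min_le_left _ _)).le
  have hyL : y < L := hy2.trans_le (min_le_right _ _)
  obtain ⟨u, hu, hfu, hlast⟩ := ode_last_ge hab h.continuousOn hya
  have h1 : f u ≤ f b := by
    refine ode_le_of_deriv_nonneg hu.2 (h.mono hu.1 le_rfl) fun x hx => ?_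
    have hx' : x ∈ Icc a b := ⟨hu.1.trans hx.1.le, hx.2.le⟩
    exact h0 x hx' ((hlast x hx' hx.1).trans hyL)
  linarith

/-- **Upper barrier.**  If `f' ≥ 0` wherever `L < f < L'` and `f b ≤ L`, then `f a ≤ L`: the function cannot have been above
the level `L` at an earlier time. -/
theorem ode_barrier_up {f f' : ℝ → ℝ} {a b L L' : ℝ} (hab : a ≤ b) (h : DerivOn f f' a b) (hLL : L < L')
    (h0 : ∀ x ∈ Icc a b, L < f x → f x < L' → 0 ≤ f' x) (hb : f b ≤ L) : f a ≤ L := by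
  by_contra hcon
  rw [not_le] at hcon
  set y := (L + min (f a) L') / 2 with hy
  have hmin : L < min (f a) L' := lt_min hcon hLL
  have hy1 : L < y := by rw [hy]; linarith
  have hy2 : y < min (f a) L' := by rw [hy]; linarith
  have hya : y ≤ f a := (hy2.trans_le (min_le_left _ _)).le
  have hyL : y < L' := hy2.trans_le (min_le_right _ _)
  obtain ⟨u, hu, hfu, hlast⟩ := ode_last_ge hab h.continuousOn hya
  set y' := (L + y) / 2 with hy'
  have hy'1 : L < y' := by rw [hy']; linarith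
  have hy'2 : y' < y := by rw [hy']; linarith
  obtain ⟨v, hv, hfv, hfirst⟩ := ode_first_le hu.2 (h.mono hu.1 le_rfl).continuousOn
    (show f b ≤ y' by linarith)
  have h1 : f u ≤ f v := by
    refine ode_le_of_deriv_nonneg hv.1 (h.mono hu.1 hv.2) fun x hx => ?_
    have hx' : x ∈ Icc a b := ⟨hu.1.trans hx.1.le, hx.2.le.trans hv.2⟩
    have hx'' : x ∈ Icc u b := ⟨hx.1.le, hx.2.le.trans hv.2⟩
    exact h0 x hx' (hy'1.trans (hfirst x hx'' hx.2)) ((hlast x hx' hx.1).trans hyL)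
  linarith

end Claimed.Agent.R322.Freq
end

/- ===== packed: Claimed.Agent.R322.Freq.Ode ===== -/
section
/-!
# Row 322, CO Lemma 4.4 (inward control) as a pure ODE lemma

Blueprint and proofs: helper109 (package BP-CO4-ode).

Source: CO = "A codimension one bound ...", Sec. 4, Lemma `lem:inward-control` (04-fitting-frequency.tex 535-640); its only input
is CO Lemma 4.3 `lem:interval-frequency`, recorded here as the hypothesis structure `OdeData.Ok`.

CONVENTIONS.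
* The independent variable is `τ = log r`; a dot in the paper = `d/dτ`.  `I` is the set of `τ` with `r = e^τ` in the fitting range
  (an interval: `I.OrdConnected`; finite interval `Icc a b`, interval extending to zero: `Iic b ⊆ I`).
* `A, H, E = E_*, R = R_*` are the quantities (4.x) `interval-quantities` as functions of `τ`; `A', H'` their `τ`-derivatives.
  REGULARITY: the paper says "locally absolutely continuous"; since the kernels are `(1-ρ²/r²)_+^p`, `p ≥ 4`, the functions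
  `A, H` are `C^1` in `r` (differentiation under the integral sign), and the inequalities hold at EVERY radius.  We ask for
  `HasDerivWithinAt` at every point of `I`.
* `η` is the function `C δ^α` of the paper; only `0 ≤ η ≤ C e^{-cT}` is used.
* ONE constant `C ≥ 1` for all inequalities (take the maximum), `c > 0`, `mm = m` (only `-m ≤ \dot H/H` is used).
-/

set_option autoImplicit false

namespace Claimed.Agent.R322.Freq

open Set Filter Topology

/-- the functions of `τ = log r` on a fitting interval -/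
structure OdeData where
  /-- signed mass `A = r^{2-m} ∫ φ dM` -/
  A : ℝ → ℝ
  /-- weighted height `H` -/
  H : ℝ → ℝ
  /-- tilt `E_*` -/
  E : ℝ → ℝ
  /-- radial tilt `R_*` -/
  R : ℝ → ℝ
  /-- the small factor `η = C δ^α` -/
  η : ℝ → ℝ
  /-- `dA/dτ` -/
  A' : ℝ → ℝ
  /-- `dH/dτ` -/
  H' : ℝ → ℝ

namespace OdeData

variable (D : OdeData)

/-- frequency `P = A/H` -/
noncomputable def P (τ : ℝ) : ℝ := D.A τ / D.H τ
/-- `n_* = E_*/H` -/
noncomputable def n (τ : ℝ) : ℝ := D.E τ / D.H τ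
/-- `q_* = R_*/H` -/
noncomputable def q (τ : ℝ) : ℝ := D.R τ / D.H τ
/-- `T = log(r^2/H)` -/
noncomputable def T (τ : ℝ) : ℝ := 2 * τ - Real.log (D.H τ)
/-- `g = T^{-20}` -/
noncomputable def g (τ : ℝ) : ℝ := 1 / D.T τ ^ 20
/-- `v_0 = \dot A/H` -/
noncomputable def v (τ : ℝ) : ℝ := D.A' τ / D.H τ
/-- `\dot H/H` -/
noncomputable def h (τ : ℝ) : ℝ := D.H' τ / D.H τ
/-- `\dot P` -/
noncomputable def P' (τ : ℝ) : ℝ := D.v τ - D.P τ * D.h τ

/-- **Hypotheses = CO Lemma 4.3** (+ `T ≥ 2|log r| - C`, stated before it) on the set `I` of values of `τ = log r`. -/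
structure Ok (C c mm : ℝ) (I : Set ℝ) : Prop where
  H_pos : ∀ τ ∈ I, 0 < D.H τ
  E_nonneg : ∀ τ ∈ I, 0 ≤ D.E τ
  R_nonneg : ∀ τ ∈ I, 0 ≤ D.R τ
  η_nonneg : ∀ τ ∈ I, 0 ≤ D.η τ
  derivA : ∀ τ ∈ I, HasDerivWithinAt D.A (D.A' τ) I τ
  derivH : ∀ τ ∈ I, HasDerivWithinAt D.H (D.H' τ) I τ
  /-- `T ≥ 2 |log r| - C` -/
  T_ge : ∀ τ ∈ I, -2 * τ - C ≤ D.T τ
  /-- `η ≤ C' e^{-cT}` -/
  η_le : ∀ τ ∈ I, D.η τ ≤ C * Real.exp (-c * D.T τ)
  /-- (freq-absolute) -/
  f_abs : ∀ τ ∈ I, |D.P τ| ≤ C * (D.n τ + Real.exp τ ^ 2) + D.η τ * D.q τ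
  /-- (freq-signed) -/
  f_signed : ∀ τ ∈ I,
    2 * D.P τ ≤ D.n τ + C * D.g τ * (D.n τ + 1) + C * Real.exp τ ^ 2 + D.η τ * D.q τ
  /-- (freq-flux) -/
  f_flux : ∀ τ ∈ I, D.n τ ≤ Real.sqrt (D.q τ) + C * Real.exp τ ^ 2 + D.η τ * D.n τ
  /-- (freq-horizontal) -/
  f_hor : ∀ τ ∈ I, |D.v τ - (2 * D.P τ - D.n τ + D.q τ)| ≤
    C * (Real.exp τ * Real.sqrt (D.q τ) + Real.exp τ ^ 2 * (1 + D.n τ)) + D.η τ * (D.n τ + D.q τ)
  /-- (freq-height), lower bound -/
  f_ht_lo : ∀ τ ∈ I, -mm ≤ D.h τ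
  /-- (freq-height), upper bound -/
  f_ht_hi : ∀ τ ∈ I, D.h τ ≤ 2 * D.n τ + C * Real.exp τ + D.η τ * (D.n τ + D.q τ)

variable {D} {C c mm : ℝ} {I : Set ℝ}

theorem Ok.mono {J : Set ℝ} (hO : D.Ok C c mm I) (hJ : J ⊆ I) : D.Ok C c mm J where
  H_pos τ h := hO.H_pos τ (hJ h)
  E_nonneg τ h := hO.E_nonneg τ (hJ h)
  R_nonneg τ h := hO.R_nonneg τ (hJ h)
  η_nonneg τ h := hO.η_nonneg τ (hJ h)
  derivA τ h := (hO.derivA τ (hJ h)).mono hJ
  derivH τ h := (hO.derivH τ (hJ h)).mono hJ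
  T_ge τ h := hO.T_ge τ (hJ h)
  η_le τ h := hO.η_le τ (hJ h)
  f_abs τ h := hO.f_abs τ (hJ h)
  f_signed τ h := hO.f_signed τ (hJ h)
  f_flux τ h := hO.f_flux τ (hJ h)
  f_hor τ h := hO.f_hor τ (hJ h)
  f_ht_lo τ h := hO.f_ht_lo τ (hJ h)
  f_ht_hi τ h := hO.f_ht_hi τ (hJ h)

theorem Ok.q_nonneg (hO : D.Ok C c mm I) {τ : ℝ} (hτ : τ ∈ I) : 0 ≤ D.q τ :=
  div_nonneg (hO.R_nonneg τ hτ) (hO.H_pos τ hτ).le

theorem Ok.n_nonneg (hO : D.Ok C c mm I) {τ : ℝ} (hτ : τ ∈ I) : 0 ≤ D.n τ :=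
  div_nonneg (hO.E_nonneg τ hτ) (hO.H_pos τ hτ).le

/-- the inequalities at one radius -/
theorem Ok.pt (hO : D.Ok C c mm I) {τ : ℝ} (hτ : τ ∈ I) (h0 : τ ≤ 0) :
    OdePt C mm (D.P τ) (D.n τ) (Real.sqrt (D.q τ)) (D.η τ) (Real.exp τ) (D.g τ) (D.v τ) (D.h τ) := by
  have hq : Real.sqrt (D.q τ) ^ 2 = D.q τ := Real.sq_sqrt (hO.q_nonneg hτ)
  refine ⟨hO.n_nonneg hτ, Real.sqrt_nonneg _, hO.η_nonneg τ hτ, (Real.exp_pos τ).le,
    Real.exp_le_one_iff.2 h0, ?_, ?_, hO.f_flux τ hτ, ?_, hO.f_ht_lo τ hτ, ?_⟩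
  · rw [hq]; exact hO.f_abs τ hτ
  · rw [hq]; exact hO.f_signed τ hτ
  · rw [hq]; exact hO.f_hor τ hτ
  · rw [hq]; exact hO.f_ht_hi τ hτ

/-! ### differentiability on compact subintervals -/

section deriv

variable {a b : ℝ}

theorem Ok.derivOn_A (hO : D.Ok C c mm I) (hab : Icc a b ⊆ I) : DerivOn D.A D.A' a b :=
  fun x hx => (hO.derivA x (hab hx)).mono hab

theorem Ok.derivOn_H (hO : D.Ok C c mm I) (hab : Icc a b ⊆ I) : DerivOn D.H D.H' a b :=
  fun x hx => (hO.derivH x (hab hx)).mono hab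

theorem Ok.derivOn_P (hO : D.Ok C c mm I) (hab : Icc a b ⊆ I) : DerivOn D.P D.P' a b := by
  intro x hx
  have hH := (hO.H_pos x (hab hx)).ne'
  have h1 := (hO.derivOn_A hab x hx).div (hO.derivOn_H hab x hx) hH
  have h2 : (D.A' x * D.H x - D.A x * D.H' x) / D.H x ^ 2 = D.P' x := by
    unfold P' v P h
    field_simp
  rw [h2] at h1
  exact h1

theorem Ok.derivOn_logH (hO : D.Ok C c mm I) (hab : Icc a b ⊆ I) :
    DerivOn (fun τ => Real.log (D.H τ)) D.h a b :=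
  fun x hx => (hO.derivOn_H hab x hx).log (hO.H_pos x (hab hx)).ne'

/-- `Z = log(r^2/A)` where `A > 0` -/
theorem Ok.derivOn_Z (hO : D.Ok C c mm I) (hab : Icc a b ⊆ I) (hA : ∀ x ∈ Icc a b, 0 < D.P x) :
    DerivOn (fun τ => 2 * τ - Real.log (D.A τ)) (fun τ => 2 - D.v τ / D.P τ) a b := by
  intro x hx
  have hH := hO.H_pos x (hab hx)
  have hP := hA x hx
  have hAx : 0 < D.A x := by
    have : D.A x = D.P x * D.H x := by unfold P; field_simp
    rw [this]; positivity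
  have h1 : HasDerivWithinAt (fun τ : ℝ => 2 * τ) 2 (Icc a b) x := by
    simpa using (hasDerivWithinAt_id x (Icc a b)).const_mul (2 : ℝ)
  have h2 := (hO.derivOn_A hab x hx).log hAx.ne'
  have h3 : D.A' x / D.A x = D.v x / D.P x := by
    unfold v P
    field_simp
  rw [h3] at h2
  exact h1.sub h2

/-- `T = Z + log P` where `P > 0` -/
theorem Ok.T_eq (hO : D.Ok C c mm I) {x : ℝ} (hx : x ∈ I) (hP : 0 < D.P x) :
    D.T x = (2 * x - Real.log (D.A x)) + Real.log (D.P x) := by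
  have hH := hO.H_pos x hx
  have hAx : 0 < D.A x := by
    have : D.A x = D.P x * D.H x := by unfold P; field_simp
    rw [this]; positivity
  unfold T P
  rw [Real.log_div hAx.ne' hH.ne']
  ring

end deriv

/-! ### the regime of small radii -/

/-- numerical relations between the thresholds -/
structure RegC (K c₂ C₁ T₀ : ℝ) : Prop where
  K_ge : 1 ≤ K
  K_le : K ≤ T₀ ^ 2
  T₀_ge : 16 ≤ T₀
  c₂_pos : 0 < c₂
  c₂_T : 1 ≤ c₂ * T₀ ^ 2
  C₁_ge : 1 ≤ C₁

/-- **The pointwise consequences of CO Lemma 4.3 at small radii** (first two displays of CO Lemma 4.4 and the sign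
statements of its proof).  Everything that the ODE arguments use. -/
structure Reg (D : OdeData) (K c₂ C₁ T₀ : ℝ) (I : Set ℝ) : Prop where
  T_ge : ∀ τ ∈ I, T₀ ≤ D.T τ
  T_abs : ∀ τ ∈ I, -τ ≤ D.T τ
  τ_le : ∀ τ ∈ I, 2 * C₁ ≤ -τ
  /-- `P ≤ -K`: `P` and `A` decrease inward -/
  low : ∀ τ ∈ I, D.P τ ≤ -K → 0 ≤ D.P' τ ∧ 0 ≤ D.v τ
  /-- `P ≥ K`: `Z = log(r^2/A)` increases inward -/
  z : ∀ τ ∈ I, K ≤ D.P τ → 2 * D.P τ ≤ D.v τ
  /-- `P ≥ T^2`: `Z' ≥ c T^2` -/
  start : ∀ τ ∈ I, K ≤ D.P τ → D.T τ ^ 2 ≤ D.P τ → (2 + c₂ * D.T τ ^ 2) * D.P τ ≤ D.v τ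
  /-- (moderate-frequency) -/
  mod : ∀ τ ∈ I, K ≤ D.P τ → D.P τ ≤ D.T τ ^ 4 →
    -C₁ * (Real.exp τ * D.P τ + D.g τ * D.P τ ^ 2) ≤ D.P' τ

end OdeData

/-- `η ≤ C e^{-cT}` beats every power of `T` -/
theorem ode_eta_small (C c : ℝ) (hc : 0 < c) :
    ∃ T₁ : ℝ, 1 ≤ T₁ ∧ ∀ T, T₁ ≤ T → C * Real.exp (-c * T) * T ^ 24 ≤ 1 := by
  have h := (Real.tendsto_pow_mul_exp_neg_atTop_nhds_zero 24).comp (tendsto_id.const_mul_atTop hc)
  have hε : (0 : ℝ) < c ^ 24 / (|C| + 1) := by positivity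
  obtain ⟨T₁, hT₁⟩ := eventually_atTop.1 (h.eventually (Iio_mem_nhds hε))
  refine ⟨max T₁ 1, le_max_right _ _, fun T hT => ?_⟩
  have h1 : (c * T) ^ 24 * Real.exp (-(c * T)) < c ^ 24 / (|C| + 1) := hT₁ T (le_trans (le_max_left _ _) hT)
  have hT0 : 0 ≤ T := le_trans zero_le_one (le_trans (le_max_right _ _) hT)
  have h2 : 0 ≤ Real.exp (-c * T) * T ^ 24 := by positivity
  have h3 : C * Real.exp (-c * T) * T ^ 24 ≤ (|C| + 1) * (Real.exp (-c * T) * T ^ 24) := by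
    have : C ≤ |C| + 1 := by linarith [le_abs_self C]
    calc C * Real.exp (-c * T) * T ^ 24 = C * (Real.exp (-c * T) * T ^ 24) := by ring
      _ ≤ (|C| + 1) * (Real.exp (-c * T) * T ^ 24) := mul_le_mul_of_nonneg_right this h2
  refine h3.trans ?_
  have h4 : Real.exp (-c * T) * T ^ 24 = (c * T) ^ 24 * Real.exp (-(c * T)) / c ^ 24 := by
    rw [mul_pow, neg_mul]
    field_simp
  rw [h4]
  have h5 : (c * T) ^ 24 * Real.exp (-(c * T)) / c ^ 24 ≤ c ^ 24 / (|C| + 1) / c ^ 24 :=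
    div_le_div_of_nonneg_right h1.le (by positivity)
  calc (|C| + 1) * ((c * T) ^ 24 * Real.exp (-(c * T)) / c ^ 24)
      ≤ (|C| + 1) * (c ^ 24 / (|C| + 1) / c ^ 24) := mul_le_mul_of_nonneg_left h5 (by positivity)
    _ = 1 := by field_simp

/-- consequences of `η T^{24} ≤ 1` -/
theorem ode_small {η T : ℝ} (hη0 : 0 ≤ η) (hT : 1 ≤ T) (h24 : η * T ^ 24 ≤ 1) :
    η * T ≤ 1 ∧ η * T ^ 2 ≤ 1 ∧ η ≤ 1 / T ^ 20 ∧ (∀ P, P ≤ T ^ 4 → η * P ≤ 1 / T ^ 20) ∧
      T * (1 / T ^ 20) ≤ 1 ∧ 0 ≤ 1 / T ^ 20 := by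
  have hT0 : 0 < T := by linarith
  have h20 : 0 < T ^ 20 := by positivity
  have hp : ∀ k : ℕ, k ≤ 24 → η * T ^ k ≤ 1 := fun k hk =>
    le_trans (mul_le_mul_of_nonneg_left (pow_le_pow_right₀ hT hk) hη0) h24
  refine ⟨by simpa using hp 1 (by norm_num), hp 2 (by norm_num), ?_, fun P hP => ?_, ?_, by positivity⟩
  · rw [le_div_iff₀ h20]
    exact hp 20 (by norm_num)
  · rw [le_div_iff₀ h20]
    calc η * P * T ^ 20 ≤ η * T ^ 4 * T ^ 20 :=
          mul_le_mul_of_nonneg_right (mul_le_mul_of_nonneg_left hP hη0) h20.le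
      _ = η * T ^ 24 := by ring
      _ ≤ 1 := h24
  · rw [mul_one_div, div_le_one h20]
    calc T = T ^ 1 := (pow_one T).symm
      _ ≤ T ^ 20 := pow_le_pow_right₀ hT (by norm_num)

/-- **Thresholds.**  `K = 600 C^2 (1+m)`; below the radius `e^{τ₀}` all pointwise statements hold. -/
theorem ode_reg (C c mm : ℝ) (hC : 1 ≤ C) (hc : 0 < c) (hm : 0 ≤ mm) :
    ∃ T₀ τ₀ : ℝ, OdeData.RegC (600 * C ^ 2 * (1 + mm)) (1 / (144 * C ^ 2)) (3474 * C) T₀ ∧ τ₀ ≤ 0 ∧
      ∀ (D : OdeData) (I : Set ℝ), D.Ok C c mm I → (∀ τ ∈ I, τ ≤ τ₀) →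
        D.Reg (600 * C ^ 2 * (1 + mm)) (1 / (144 * C ^ 2)) (3474 * C) T₀ I := by
  obtain ⟨T₁, hT₁1, hT₁⟩ := ode_eta_small C c hc
  set K := 600 * C ^ 2 * (1 + mm) with hK
  set T₀ := T₁ + 1024 + 140 * C * (1 + mm) with hT₀
  have hCm : C ≤ C * (1 + mm) := by nlinarith
  have hm1 : 1 + mm ≤ C * (1 + mm) := by nlinarith
  have hC2 : 0 < C ^ 2 := by positivity
  have hT₀a : 1024 ≤ T₀ := by rw [hT₀]; nlinarith
  have hT₀b : 140 * (C * (1 + mm)) ≤ T₀ := by rw [hT₀]; nlinarith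
  have hT₀c : T₁ ≤ T₀ := by rw [hT₀]; nlinarith
  have hKT : K ≤ T₀ ^ 2 := by
    have h1 : (140 * (C * (1 + mm))) ^ 2 ≤ T₀ ^ 2 := pow_le_pow_left₀ (by positivity) hT₀b 2
    have h2 : K ≤ (140 * (C * (1 + mm))) ^ 2 := by
      rw [hK]
      have : (1 + mm) ≤ (1 + mm) ^ 2 := by nlinarith
      have h3 : C ^ 2 * (1 + mm) ≤ C ^ 2 * (1 + mm) ^ 2 := mul_le_mul_of_nonneg_left this hC2.le
      nlinarith
    exact h2.trans h1
  have hK600 : 600 * C ^ 2 ≤ K := by rw [hK]; nlinarith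
  have h288 : 288 * C ^ 2 ≤ T₀ ^ 2 := by nlinarith
  refine ⟨T₀, -(T₀ + C + 2 * (3474 * C)), ⟨by nlinarith, hKT, by linarith, by positivity, ?_, by linarith⟩,
    by linarith, ?_⟩
  · rw [one_div, inv_mul_eq_div, le_div_iff₀ (by positivity)]
    linarith
  intro D I hO hI
  -- facts at one point
  have hτ0 : ∀ τ ∈ I, τ ≤ 0 := fun τ hτ => by have := hI τ hτ; linarith
  have hTge : ∀ τ ∈ I, T₀ ≤ D.T τ := fun τ hτ => by
    have := hI τ hτ; have := hO.T_ge τ hτ; linarith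
  have h24 : ∀ τ ∈ I, D.η τ * D.T τ ^ 24 ≤ 1 := fun τ hτ => by
    have h1 := hT₁ (D.T τ) (hT₀c.trans (hTge τ hτ))
    have h2 : 0 ≤ D.T τ ^ 24 := by
      have : 0 ≤ D.T τ := by linarith [hTge τ hτ]
      positivity
    exact le_trans (mul_le_mul_of_nonneg_right (hO.η_le τ hτ) h2) h1
  have hsm : ∀ τ ∈ I, D.η τ ≤ 1 / 16 ∧ K * D.η τ ≤ 12 * C ^ 2 := fun τ hτ => by
    obtain ⟨h1, -⟩ := ode_small (hO.η_nonneg τ hτ) (by linarith [hTge τ hτ]) (h24 τ hτ)
    have hη0 := hO.η_nonneg τ hτ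
    have hT := hTge τ hτ
    have h2 : D.η τ * T₀ ≤ 1 := le_trans (mul_le_mul_of_nonneg_left hT hη0) h1
    constructor
    · nlinarith
    · have h3 : D.η τ * (50 * (1 + mm)) ≤ D.η τ * T₀ := mul_le_mul_of_nonneg_left (by linarith) hη0
      have h4 : 12 * C ^ 2 * (D.η τ * (50 * (1 + mm))) ≤ 12 * C ^ 2 * 1 :=
        mul_le_mul_of_nonneg_left (h3.trans h2) (by positivity)
      rw [hK]
      linarith
  refine ⟨hTge, fun τ hτ => ?_, fun τ hτ => ?_, fun τ hτ hP => ?_, fun τ hτ hP => ?_,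
    fun τ hτ hP hT => ?_, fun τ hτ hP hT => ?_⟩
  · have := hI τ hτ; have := hO.T_ge τ hτ; linarith
  · have := hI τ hτ; linarith
  · exact (hO.pt hτ (hτ0 τ hτ)).low hC hm (hsm τ hτ).1 le_rfl (hsm τ hτ).2 hP
  · exact (hO.pt hτ (hτ0 τ hτ)).z hC (hsm τ hτ).1 hK600 (hsm τ hτ).2 hP
  · obtain ⟨-, h2, -⟩ := ode_small (hO.η_nonneg τ hτ) (by linarith [hTge τ hτ]) (h24 τ hτ)
    have h3 : T₀ ^ 2 ≤ D.T τ ^ 2 := pow_le_pow_left₀ (by linarith) (hTge τ hτ) 2
    exact (hO.pt hτ (hτ0 τ hτ)).start hC (hsm τ hτ).1 hK600 (hsm τ hτ).2 hP hT h2 (h288.trans h3)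
  · obtain ⟨-, -, h3, h4, h5, h6⟩ := ode_small (hO.η_nonneg τ hτ) (by linarith [hTge τ hτ]) (h24 τ hτ)
    have hTτ := hTge τ hτ
    have hg : ∀ x : ℝ, 0 ≤ x → x ≤ T₀ → x * D.g τ ≤ 1 := fun x _ hx =>
      le_trans (mul_le_mul_of_nonneg_right (hx.trans hTτ) h6) h5
    have := (hO.pt hτ (hτ0 τ hτ)).mod hC hK600 hP h6 h3 (h4 _ hT)
      (hg (140 * C) (by positivity) (by linarith)) (hg 1024 (by norm_num) hT₀a)
    exact this

end Claimed.Agent.R322.Freq
end

/- ===== packed: Claimed.Agent.R322.Freq.OdeMain ===== -/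
section
/-!
# Row 322, CO Lemma 4.4 (inward control): the ODE arguments and the final statements

Blueprint and proofs: helper109 (package BP-CO4-ode).
-/

set_option autoImplicit false

namespace Claimed.Agent.R322.Freq

open Set Filter Topology

/-- the first point of `[a,b]` at which `f` reaches the level `y` from above -/
theorem ode_first_eq {f : ℝ → ℝ} {a b y : ℝ} (hab : a ≤ b) (hf : ContinuousOn f (Icc a b)) (ha : y ≤ f a)
    (hb : f b ≤ y) : ∃ v ∈ Icc a b, f v = y ∧ ∀ x ∈ Icc a b, x < v → y < f x := by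
  obtain ⟨v, hv, hfv, hfirst⟩ := ode_first_le hab hf hb
  refine ⟨v, hv, le_antisymm hfv ?_, hfirst⟩
  by_contra hcon
  rw [not_le] at hcon
  obtain ⟨w, hw, hfw⟩ := intermediate_value_Icc' hv.1 (hf.mono (Icc_subset_Icc le_rfl hv.2)) ⟨hcon.le, ha⟩
  have hwv : w < v := lt_of_le_of_ne hw.2 fun h => by rw [h] at hfw; linarith
  have := hfirst w ⟨hw.1, hw.2.trans hv.2⟩ hwv
  linarith

/-! ### numerics -/

theorem ode_log_le {T : ℝ} (hT : 16 ≤ T) : Real.log T ≤ T / 4 := by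
  have h1 : Real.log (T / 16) ≤ T / 16 - 1 := Real.log_le_sub_one_of_pos (by positivity)
  have h2 : Real.log (T / 16) = Real.log T - Real.log 16 := Real.log_div (by linarith) (by norm_num)
  have h3 : Real.log 16 = 4 * Real.log 2 := by
    rw [show (16 : ℝ) = 2 ^ 4 by norm_num, Real.log_pow]
    norm_num
  have h4 := Real.log_two_lt_d9
  linarith

/-- exclusion of the exit through `P = T^4` -/
theorem ode_num {Tβ Tt x y : ℝ} (hT : 16 ≤ Tβ) (hx1 : 1 ≤ x) (hy : 0 < y) (hxy : x ≤ Real.exp 1 ^ 2 * y)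
    (hyT : y ≤ Tβ ^ 2) (hTt : Tβ - Real.log y + Real.log x ≤ Tt) : x ≤ Tt ^ 4 := by
  have h1 : Real.log y ≤ Real.log (Tβ ^ 2) := Real.log_le_log hy hyT
  rw [Real.log_pow] at h1
  have h2 := ode_log_le hT
  have h3 : 0 ≤ Real.log x := Real.log_nonneg hx1
  push_cast at h1
  have h4 : Tβ / 2 ≤ Tt := by linarith
  have h5 : (Tβ / 2) ^ 4 ≤ Tt ^ 4 := pow_le_pow_left₀ (by linarith) h4 4
  have he : Real.exp 1 ^ 2 ≤ 9 := by
    have := Real.exp_one_lt_d9
    have h0 := Real.exp_pos 1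
    nlinarith
  have h6 : Real.exp 1 ^ 2 * y ≤ 9 * Tβ ^ 2 := mul_le_mul he hyT hy.le (by norm_num)
  have h7 : 9 * Tβ ^ 2 ≤ (Tβ / 2) ^ 4 := by
    have : 256 ≤ Tβ ^ 2 := by nlinarith
    nlinarith [sq_nonneg (Tβ ^ 2)]
  linarith

/-- the weight of the upper barrier: a primitive of `C₁ (r + τ^{-2})` -/
noncomputable def odeW (C₁ τ : ℝ) : ℝ := C₁ * (Real.exp τ - τ⁻¹)

theorem odeW_deriv (C₁ τ : ℝ) (hτ : τ ≠ 0) :
    HasDerivAt (odeW C₁) (C₁ * (Real.exp τ + (τ ^ 2)⁻¹)) τ := by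
  have h1 := (Real.hasDerivAt_exp τ).sub (hasDerivAt_inv hτ)
  have h2 := h1.const_mul C₁
  rw [sub_neg_eq_add] at h2
  exact h2

theorem odeW_bounds {C₁ τ : ℝ} (hC₁ : 1 ≤ C₁) (hτ : 2 * C₁ ≤ -τ) : 0 ≤ odeW C₁ τ ∧ odeW C₁ τ ≤ 1 := by
  have hx : 0 < -τ := by linarith
  have h1 : -τ ≤ Real.exp (-τ) := by linarith [Real.add_one_le_exp (-τ)]
  have h2 : Real.exp τ * Real.exp (-τ) = 1 := by rw [← Real.exp_add]; simp
  have he := Real.exp_pos τ
  have h3 : Real.exp τ * (-τ) ≤ 1 := by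
    rw [← h2]
    exact mul_le_mul_of_nonneg_left h1 he.le
  have h4 : -τ⁻¹ = (-τ)⁻¹ := by rw [inv_neg]
  have h5 : 0 < (-τ)⁻¹ := inv_pos.2 hx
  have h6 : Real.exp τ ≤ (-τ)⁻¹ := by
    rw [← one_div, le_div_iff₀ hx]
    exact h3
  have h7 : C₁ * (-τ)⁻¹ ≤ 1 / 2 := by
    rw [← div_eq_mul_inv, div_le_iff₀ hx]
    linarith
  unfold odeW
  have h8 : Real.exp τ - τ⁻¹ = Real.exp τ + (-τ)⁻¹ := by rw [← h4]; ring
  rw [h8]
  constructor
  · positivity
  · have : C₁ * Real.exp τ ≤ C₁ * (-τ)⁻¹ := mul_le_mul_of_nonneg_left h6 (by linarith)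
    linarith

namespace OdeData

variable {D : OdeData} {C c mm K c₂ C₁ T₀ : ℝ} {I : Set ℝ}

/-! ### lower bounds -/

/-- "A lower bound for `P` at the smaller-radius endpoint of a finite interval gives a lower bound throughout that
interval." -/
theorem lower_fin (hI : I.OrdConnected) (hO : D.Ok C c mm I) (hR : D.Reg K c₂ C₁ T₀ I) {a τ : ℝ}
    (ha : a ∈ I) (hτ : τ ∈ I) (haτ : a ≤ τ) : min (D.P a) (-K) ≤ D.P τ := by
  by_contra hcon
  rw [not_le, lt_min_iff] at hcon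
  have hsub : Icc a τ ⊆ I := hI.out ha hτ
  have := ode_barrier_low haτ (hO.derivOn_P hsub) (L := -K)
    (fun x hx hxL => (hR.low x (hsub hx) hxL.le).1) hcon.2
  linarith [hcon.1]

/-- "On an interval extending to zero, `P` is bounded below": in fact `P ≥ -K` on the whole interval, because `A → 0`. -/
theorem lower_inf (hc : RegC K c₂ C₁ T₀) (hO : D.Ok C c mm I) (hR : D.Reg K c₂ C₁ T₀ I) {b : ℝ}
    (hb : Iic b ⊆ I) (hA : Tendsto D.A atBot (𝓝 0)) {τ : ℝ} (hτ : τ ≤ b) : -K ≤ D.P τ := by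
  by_contra hcon
  rw [not_le] at hcon
  have hsub : ∀ t ≤ τ, Icc t τ ⊆ I := fun t _ x hx => hb (hx.2.trans hτ)
  have h1 : ∀ t ≤ τ, D.P t ≤ D.P τ := fun t ht =>
    ode_barrier_low ht (hO.derivOn_P (hsub t ht)) (L := -K)
      (fun x hx hxL => (hR.low x (hsub t ht hx) hxL.le).1) hcon
  have h2 : ∀ t ≤ τ, 0 ≤ D.A' t := fun t ht => by
    have htI : t ∈ I := hb (ht.trans hτ)
    have hv := (hR.low t htI (by linarith [h1 t ht])).2
    have hH := hO.H_pos t htI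
    have : D.A' t = D.v t * D.H t := by unfold v; field_simp
    rw [this]
    positivity
  have h3 : ∀ t ≤ τ, D.A t ≤ D.A τ := fun t ht =>
    ode_le_of_deriv_nonneg ht (hO.derivOn_A (hsub t ht)) fun x hx => h2 x hx.2.le
  have h4 : D.A τ < 0 := by
    have hH := hO.H_pos τ (hb hτ)
    have : D.A τ = D.P τ * D.H τ := by unfold P; field_simp
    rw [this]
    exact mul_neg_of_neg_of_pos (by linarith [hc.K_ge]) hH
  have h5 : (0 : ℝ) ≤ D.A τ := le_of_tendsto hA ((eventually_le_atBot τ).mono fun t ht => h3 t ht)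
  linarith

/-! ### the upper bound -/

/-- `g P ≤ τ^{-2}` for `0 ≤ P ≤ T^4` -/
theorem Reg.gP_le (hc : RegC K c₂ C₁ T₀) (hR : D.Reg K c₂ C₁ T₀ I) {x : ℝ} (hx : x ∈ I)
    (hP : D.P x ≤ D.T x ^ 4) : D.g x * D.P x ≤ (x ^ 2)⁻¹ := by
  have hT := hR.T_ge x hx
  have hT1 : 1 ≤ D.T x := by linarith [hc.T₀_ge]
  have hxneg : 0 < -x := by linarith [hR.τ_le x hx, hc.C₁_ge]
  have hx2 : 0 < x ^ 2 := by nlinarith
  have h1 : x ^ 2 ≤ D.T x ^ 2 := by
    have := pow_le_pow_left₀ hxneg.le (hR.T_abs x hx) 2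
    nlinarith
  have h2 : D.T x ^ 2 ≤ D.T x ^ 16 := pow_le_pow_right₀ hT1 (by norm_num)
  have h20 : 0 < D.T x ^ 20 := by positivity
  unfold g
  rw [one_div, inv_mul_eq_div, ← one_div, div_le_div_iff₀ h20 hx2, one_mul]
  calc D.P x * x ^ 2 ≤ D.T x ^ 4 * D.T x ^ 16 :=
        mul_le_mul hP (h1.trans h2) hx2.le (by positivity)
    _ = D.T x ^ 20 := by ring

/-- **One component of `{P ≥ K}`**: if `P ≥ K` on `[α, β]` and `P(β) ≤ T(β)^2`, then `P(α) ≤ e P(β)`. -/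
theorem component (hc : RegC K c₂ C₁ T₀) (hO : D.Ok C c mm I) (hR : D.Reg K c₂ C₁ T₀ I) {α β : ℝ}
    (hαβ : α ≤ β) (hsub : Icc α β ⊆ I) (hK : ∀ x ∈ Icc α β, K ≤ D.P x) (hβ : D.P β ≤ D.T β ^ 2) :
    D.P α ≤ Real.exp 1 * D.P β := by
  have hK1 := hc.K_ge
  have hPpos : ∀ x ∈ Icc α β, 0 < D.P x := fun x hx => lt_of_lt_of_le (by linarith) (hK x hx)
  have hβm : β ∈ Icc α β := ⟨hαβ, le_rfl⟩
  have hαm : α ∈ Icc α β := ⟨le_rfl, hαβ⟩
  -- `Z` increases inward
  have hZ : ∀ t ∈ Icc α β, 2 * β - Real.log (D.A β) ≤ 2 * t - Real.log (D.A t) := by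
    intro t ht
    have hd := (hO.derivOn_Z hsub hPpos).mono ht.1 le_rfl
    have hneg : DerivOn (fun τ => -(2 * τ - Real.log (D.A τ))) (fun τ => -(2 - D.v τ / D.P τ)) t β :=
      fun x hx => (hd x hx).neg
    have := ode_le_of_deriv_nonneg ht.2 hneg fun x hx => by
      have hxm : x ∈ Icc α β := ⟨ht.1.trans hx.1.le, hx.2.le⟩
      have h1 := hR.z x (hsub hxm) (hK x hxm)
      have h2 : 2 ≤ D.v x / D.P x := by
        rw [le_div_iff₀ (hPpos x hxm)]
        exact h1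
      linarith
    linarith
  -- no exit through `P = T^4`
  have hT4 : ∀ t ∈ Icc α β, D.P t ≤ Real.exp 1 ^ 2 * D.P β → D.P t ≤ D.T t ^ 4 := by
    intro t ht hle
    have h1 := hO.T_eq (hsub ht) (hPpos t ht)
    have h2 := hO.T_eq (hsub hβm) (hPpos β hβm)
    have h3 := hZ t ht
    exact ode_num (le_trans hc.T₀_ge (hR.T_ge β (hsub hβm))) (hK1.trans (hK t ht)) (hPpos β hβm) hle hβ
      (by linarith)
  -- the barrier function
  have hne : ∀ x ∈ Icc α β, x ≠ 0 := fun x hx => by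
    intro h0
    have h1 := hR.τ_le x (hsub hx)
    have h2 := hc.C₁_ge
    rw [h0] at h1
    linarith
  have hW : ∀ x ∈ Icc α β, 0 ≤ odeW C₁ x ∧ odeW C₁ x ≤ 1 := fun x hx =>
    odeW_bounds hc.C₁_ge (hR.τ_le x (hsub hx))
  have hf : DerivOn (fun τ => D.P τ * Real.exp (odeW C₁ τ))
      (fun τ => D.P' τ * Real.exp (odeW C₁ τ) +
        D.P τ * (Real.exp (odeW C₁ τ) * (C₁ * (Real.exp τ + (τ ^ 2)⁻¹)))) α β := by
    intro x hx
    exact (hO.derivOn_P hsub x hx).mul ((odeW_deriv C₁ x (hne x hx)).exp.hasDerivWithinAt)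
  have hLpos : 0 < D.P β * Real.exp (odeW C₁ β) := mul_pos (hPpos β hβm) (Real.exp_pos _)
  have he1 : 1 < Real.exp 1 := by
    have := Real.add_one_lt_exp (one_ne_zero : (1 : ℝ) ≠ 0)
    linarith
  have hbar := ode_barrier_up hαβ hf (L := D.P β * Real.exp (odeW C₁ β))
    (L' := Real.exp 1 * (D.P β * Real.exp (odeW C₁ β))) (by nlinarith) (fun x hx _ hxL' => by
      have hPx := hPpos x hx
      have hexp1 : 1 ≤ Real.exp (odeW C₁ x) := Real.one_le_exp (hW x hx).1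
      have hexpβ : Real.exp (odeW C₁ β) ≤ Real.exp 1 := Real.exp_le_exp.2 (hW β hβm).2
      have h1 : D.P x ≤ Real.exp 1 ^ 2 * D.P β := by
        have h2 : D.P x * 1 ≤ D.P x * Real.exp (odeW C₁ x) := mul_le_mul_of_nonneg_left hexp1 hPx.le
        have h3 : D.P β * Real.exp (odeW C₁ β) ≤ D.P β * Real.exp 1 :=
          mul_le_mul_of_nonneg_left hexpβ (hPpos β hβm).le
        have h4 : Real.exp 1 * (D.P β * Real.exp (odeW C₁ β)) ≤ Real.exp 1 * (D.P β * Real.exp 1) :=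
          mul_le_mul_of_nonneg_left h3 (Real.exp_pos 1).le
        nlinarith
      have hmod := hR.mod x (hsub hx) (hK x hx) (hT4 x hx h1)
      have hgP := hR.gP_le hc (hsub hx) (hT4 x hx h1)
      have hC₁ : 0 ≤ C₁ := by linarith [hc.C₁_ge]
      have h5 : 0 ≤ D.P' x + D.P x * (C₁ * (Real.exp x + (x ^ 2)⁻¹)) := by
        have h6 : C₁ * D.P x * (D.g x * D.P x) ≤ C₁ * D.P x * (x ^ 2)⁻¹ :=
          mul_le_mul_of_nonneg_left hgP (mul_nonneg hC₁ hPx.le)
        nlinarith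
      have h7 : D.P' x * Real.exp (odeW C₁ x) +
          D.P x * (Real.exp (odeW C₁ x) * (C₁ * (Real.exp x + (x ^ 2)⁻¹))) =
          Real.exp (odeW C₁ x) * (D.P' x + D.P x * (C₁ * (Real.exp x + (x ^ 2)⁻¹))) := by ring
      rw [h7]
      exact mul_nonneg (Real.exp_pos _).le h5) le_rfl
  -- conclusion
  have hexpα : 1 ≤ Real.exp (odeW C₁ α) := Real.one_le_exp (hW α hαm).1
  have hexpβ : Real.exp (odeW C₁ β) ≤ Real.exp 1 := Real.exp_le_exp.2 (hW β hβm).2
  have h2 : D.P α * 1 ≤ D.P α * Real.exp (odeW C₁ α) := mul_le_mul_of_nonneg_left hexpα (hPpos α hαm).le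
  have h3 : D.P β * Real.exp (odeW C₁ β) ≤ D.P β * Real.exp 1 :=
    mul_le_mul_of_nonneg_left hexpβ (hPpos β hβm).le
  linarith

/-- **(inward-upper)**: if `P(b) ≤ T(b)^2` at the starting radius, then `P ≤ e max(K, P(b))` inward throughout the interval. -/
theorem upper (hc : RegC K c₂ C₁ T₀) (hI : I.OrdConnected) (hO : D.Ok C c mm I) (hR : D.Reg K c₂ C₁ T₀ I)
    {b τ : ℝ} (hb : b ∈ I) (hτ : τ ∈ I) (hτb : τ ≤ b) (hstart : D.P b ≤ D.T b ^ 2) :
    D.P τ ≤ Real.exp 1 * max K (D.P b) := by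
  have hK1 := hc.K_ge
  have he1 : 1 ≤ Real.exp 1 := Real.one_le_exp zero_le_one
  have hsub : Icc τ b ⊆ I := hI.out hτ hb
  have hmaxK : K ≤ Real.exp 1 * max K (D.P b) := by
    have h1 : K ≤ max K (D.P b) := le_max_left _ _
    have h2 : 1 * max K (D.P b) ≤ Real.exp 1 * max K (D.P b) :=
      mul_le_mul_of_nonneg_right he1 (by linarith)
    linarith
  by_cases hτK : D.P τ ≤ K
  · exact hτK.trans hmaxK
  rw [not_le] at hτK
  by_cases hall : ∀ x ∈ Icc τ b, K ≤ D.P x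
  · refine (component hc hO hR hτb hsub hall hstart).trans ?_
    exact mul_le_mul_of_nonneg_left (le_max_right _ _) (Real.exp_pos 1).le
  · push Not at hall
    obtain ⟨x, hx, hxK⟩ := hall
    have hsub' : Icc τ x ⊆ I := fun y hy => hsub ⟨hy.1, hy.2.trans hx.2⟩
    obtain ⟨w, hw, hPw, hfirst⟩ := ode_first_eq hx.1 (hO.derivOn_P hsub').continuousOn hτK.le hxK.le
    have hsubw : Icc τ w ⊆ I := fun y hy => hsub' ⟨hy.1, hy.2.trans hw.2⟩
    have hKw : ∀ y ∈ Icc τ w, K ≤ D.P y := by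
      intro y hy
      rcases lt_or_eq_of_le hy.2 with h | h
      · exact (hfirst y ⟨hy.1, hy.2.trans hw.2⟩ h).le
      · rw [h, hPw]
    have hTw : D.P w ≤ D.T w ^ 2 := by
      rw [hPw]
      refine hc.K_le.trans (pow_le_pow_left₀ (by linarith [hc.T₀_ge]) (hR.T_ge w (hsub' hw)) 2)
    have := component hc hO hR hw.1 hsubw hKw hTw
    rw [hPw] at this
    refine this.trans ?_
    exact mul_le_mul_of_nonneg_left (le_max_left _ _) (Real.exp_pos 1).le

/-! ### existence of a starting radius -/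

/-- "Such a starting radius exists on every interval extending to zero." -/
theorem start_exists (hc : RegC K c₂ C₁ T₀) (hO : D.Ok C c mm I) (hR : D.Reg K c₂ C₁ T₀ I) {b : ℝ}
    (hb : Iic b ⊆ I) : ∃ τ ≤ b, D.P τ ≤ D.T τ ^ 2 := by
  by_contra hcon
  push Not at hcon
  have hK1 := hc.K_ge
  have hc₂ := hc.c₂_pos
  have hT0 : ∀ τ ≤ b, T₀ ^ 2 ≤ D.T τ ^ 2 := fun τ hτ =>
    pow_le_pow_left₀ (by linarith [hc.T₀_ge]) (hR.T_ge τ (hb hτ)) 2
  have hKP : ∀ τ ≤ b, K ≤ D.P τ := fun τ hτ => (hc.K_le.trans (hT0 τ hτ)).trans (hcon τ hτ).le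
  have hPpos : ∀ τ ≤ b, 0 < D.P τ := fun τ hτ => lt_of_lt_of_le (by linarith) (hKP τ hτ)
  -- the derivative of `-Z`
  have hZ' : ∀ τ ≤ b, c₂ * D.T τ ^ 2 ≤ -(2 - D.v τ / D.P τ) := fun τ hτ => by
    have h1 := hR.start τ (hb hτ) (hKP τ hτ) (hcon τ hτ).le
    have h2 : 2 + c₂ * D.T τ ^ 2 ≤ D.v τ / D.P τ := by
      rw [le_div_iff₀ (hPpos τ hτ)]
      exact h1
    linarith
  have hd : ∀ s t : ℝ, t ≤ b →
      DerivOn (fun τ => 2 * τ - Real.log (D.A τ)) (fun τ => 2 - D.v τ / D.P τ) s t := fun s t ht =>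
    hO.derivOn_Z (fun x hx => hb (hx.2.trans ht)) fun x hx => hPpos x (hx.2.trans ht)
  -- linear growth of `Z`
  have hlin : ∀ t ≤ b, (2 * b - Real.log (D.A b)) + (b - t) ≤ 2 * t - Real.log (D.A t) := fun t ht => by
    have hneg : DerivOn (fun τ => -(2 * τ - Real.log (D.A τ))) (fun τ => -(2 - D.v τ / D.P τ)) t b :=
      fun x hx => (hd t b le_rfl x hx).neg
    have := ode_growth (c := 1) ht hneg fun x hx => by
      have h1 := hZ' x hx.2.le
      have h2 : c₂ * T₀ ^ 2 ≤ c₂ * D.T x ^ 2 := mul_le_mul_of_nonneg_left (hT0 x hx.2.le) hc₂.le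
      linarith [hc.c₂_T]
    linarith
  set Zb := 2 * b - Real.log (D.A b) with hZb
  set τ₃ := b - (1 + |Zb|) with hτ₃
  have hτ₃b : τ₃ ≤ b := by rw [hτ₃]; linarith [abs_nonneg Zb]
  have hZ1 : ∀ t ≤ τ₃, 1 ≤ 2 * t - Real.log (D.A t) := fun t ht => by
    have h1 := hlin t (ht.trans hτ₃b)
    have h2 := neg_abs_le Zb
    rw [hτ₃] at ht
    linarith
  have hZT : ∀ t ≤ b, 2 * t - Real.log (D.A t) ≤ D.T t := fun t ht => by
    have h1 := hO.T_eq (hb ht) (hPpos t ht)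
    have h2 : 0 ≤ Real.log (D.P t) := Real.log_nonneg (hK1.trans (hKP t ht))
    linarith
  -- `1/Z` grows at least linearly
  set τ₄ := τ₃ - 2 / c₂ with hτ₄
  have hτ₄₃ : τ₄ ≤ τ₃ := by
    rw [hτ₄]
    have : 0 < 2 / c₂ := by positivity
    linarith
  have hy : DerivOn (fun τ => (2 * τ - Real.log (D.A τ))⁻¹)
      (fun τ => -(2 - D.v τ / D.P τ) / (2 * τ - Real.log (D.A τ)) ^ 2) τ₄ τ₃ := fun x hx =>
    (hd τ₄ τ₃ hτ₃b x hx).inv (by linarith [hZ1 x hx.2])
  have hgrow := ode_growth (c := c₂) hτ₄₃ hy fun x hx => by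
    have hx3 : x ≤ τ₃ := hx.2.le
    have hxb : x ≤ b := hx3.trans hτ₃b
    have h1 := hZ1 x hx3
    have h2 := hZT x hxb
    have h3 : (2 * x - Real.log (D.A x)) ^ 2 ≤ D.T x ^ 2 := pow_le_pow_left₀ (by linarith) h2 2
    have h4 : 0 < (2 * x - Real.log (D.A x)) ^ 2 := by positivity
    rw [le_div_iff₀ h4]
    have h5 : c₂ * (2 * x - Real.log (D.A x)) ^ 2 ≤ c₂ * D.T x ^ 2 := mul_le_mul_of_nonneg_left h3 hc₂.le
    linarith [hZ' x hxb]
  have h6 : c₂ * (τ₃ - τ₄) = 2 := by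
    rw [hτ₄]
    field_simp
    ring
  have h7 : (2 * τ₃ - Real.log (D.A τ₃))⁻¹ ≤ 1 := inv_le_one_of_one_le₀ (hZ1 τ₃ le_rfl)
  have h8 : 0 < (2 * τ₄ - Real.log (D.A τ₄))⁻¹ := inv_pos.2 (by linarith [hZ1 τ₄ hτ₄₃])
  rw [h6] at hgrow
  linarith

/-! ### bounded frequency: height doubling -/

/-- **(height-doubling)**, logarithmic form.  Only `τ ≤ 0`, `|P| ≤ C₀` and `η (1 + C₀) ≤ 1/4` on `[α, β]` are used. -/
theorem doubling_log (hC : 1 ≤ C) (hm : 0 ≤ mm) (hO : D.Ok C c mm I) {C₀ α β : ℝ} (hαβ : α ≤ β)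
    (hsub : Icc α β ⊆ I) (hβ0 : β ≤ 0) (hP : ∀ x ∈ Icc α β, |D.P x| ≤ C₀)
    (hη : ∀ x ∈ Icc α β, D.η x * (1 + C₀) ≤ 1 / 4) :
    -mm * (β - α) ≤ Real.log (D.H β) - Real.log (D.H α) ∧
      Real.log (D.H β) - Real.log (D.H α) ≤ 4 * C₀ + (2 * OdePt.dblC C mm C₀ + 7 + 6 * C) * (β - α) := by
  have hL := hO.derivOn_logH hsub
  constructor
  · exact ode_growth hαβ hL fun x hx => hO.f_ht_lo x (hsub ⟨hx.1.le, hx.2.le⟩)
  · have hf : DerivOn (fun τ => Real.log (D.H τ) - 2 * D.P τ) (fun τ => D.h τ - 2 * D.P' τ) α β :=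
      fun x hx => (hL x hx).sub ((hO.derivOn_P hsub x hx).const_mul 2)
    have := ode_growth_le (c := 2 * OdePt.dblC C mm C₀ + 7 + 6 * C) hαβ hf fun x hx => by
      have hxm : x ∈ Icc α β := ⟨hx.1.le, hx.2.le⟩
      obtain ⟨h1, h2⟩ := (hO.pt (hsub hxm) (hxm.2.trans hβ0)).dbl hC hm (hP x hxm) (hη x hxm)
      have h3 : D.P' x = D.v x - D.P x * D.h x := rfl
      linarith
    have h1 := abs_le.1 (hP β ⟨hαβ, le_rfl⟩)
    have h2 := abs_le.1 (hP α ⟨le_rfl, hαβ⟩)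
    linarith

/-- **(height-doubling)**: `e^{-m(β-α)} H(α) ≤ H(β) ≤ e^{4C₀ + C₂(β-α)} H(α)`. -/
theorem doubling (hC : 1 ≤ C) (hm : 0 ≤ mm) (hO : D.Ok C c mm I) {C₀ α β : ℝ} (hαβ : α ≤ β)
    (hsub : Icc α β ⊆ I) (hβ0 : β ≤ 0) (hP : ∀ x ∈ Icc α β, |D.P x| ≤ C₀)
    (hη : ∀ x ∈ Icc α β, D.η x * (1 + C₀) ≤ 1 / 4) :
    D.H α ≤ Real.exp (mm * (β - α)) * D.H β ∧
      D.H β ≤ Real.exp (4 * C₀ + (2 * OdePt.dblC C mm C₀ + 7 + 6 * C) * (β - α)) * D.H α := by
  obtain ⟨h1, h2⟩ := doubling_log hC hm hO hαβ hsub hβ0 hP hη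
  have hα := hO.H_pos α (hsub ⟨le_rfl, hαβ⟩)
  have hβ := hO.H_pos β (hsub ⟨hαβ, le_rfl⟩)
  constructor
  · calc D.H α = Real.exp (Real.log (D.H α)) := (Real.exp_log hα).symm
      _ ≤ Real.exp (mm * (β - α) + Real.log (D.H β)) := Real.exp_le_exp.2 (by linarith)
      _ = Real.exp (mm * (β - α)) * D.H β := by rw [Real.exp_add, Real.exp_log hβ]
  · calc D.H β = Real.exp (Real.log (D.H β)) := (Real.exp_log hβ).symm
      _ ≤ Real.exp (4 * C₀ + (2 * OdePt.dblC C mm C₀ + 7 + 6 * C) * (β - α) + Real.log (D.H α)) :=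
          Real.exp_le_exp.2 (by linarith)
      _ = Real.exp (4 * C₀ + (2 * OdePt.dblC C mm C₀ + 7 + 6 * C) * (β - α)) * D.H α := by
          rw [Real.exp_add, Real.exp_log hα]

/-- The form of `∫ q_* d log r ≤ C` which CO Sec. 5 uses: a radius in the subinterval at which `q_*` and `n_*` are bounded. -/
theorem exists_q_le (hC : 1 ≤ C) (hm : 0 ≤ mm) (hO : D.Ok C c mm I) {C₀ α β : ℝ} (hαβ : α < β)
    (hsub : Icc α β ⊆ I) (hβ0 : β ≤ 0) (hP : ∀ x ∈ Icc α β, |D.P x| ≤ C₀)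
    (hη : ∀ x ∈ Icc α β, D.η x * (1 + C₀) ≤ 1 / 4) :
    ∃ τ ∈ Ioo α β, D.q τ ≤ 2 * OdePt.dblC C mm C₀ + 4 * C₀ / (β - α) + 1 ∧
      D.n τ ≤ 2 * Real.sqrt (2 * OdePt.dblC C mm C₀ + 4 * C₀ / (β - α) + 1) + 2 * C := by
  have hlen : 0 < β - α := by linarith
  have hC₀ : 0 ≤ C₀ := le_trans (abs_nonneg _) (hP α ⟨le_rfl, hαβ.le⟩)
  have hex : ∃ τ ∈ Ioo α β, D.q τ ≤ 2 * OdePt.dblC C mm C₀ + 4 * C₀ / (β - α) + 1 := by
    by_contra hcon
    push Not at hcon
    have := ode_growth (c := 2 * C₀ / (β - α) + 1 / 2) hαβ.le (hO.derivOn_P hsub) fun x hx => by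
      have hxm : x ∈ Icc α β := ⟨hx.1.le, hx.2.le⟩
      obtain ⟨h1, -⟩ := (hO.pt (hsub hxm) (hxm.2.trans hβ0)).dbl hC hm (hP x hxm) (hη x hxm)
      have h3 : D.P' x = D.v x - D.P x * D.h x := rfl
      have h4 : Real.sqrt (D.q x) ^ 2 = D.q x := Real.sq_sqrt (hO.q_nonneg (hsub hxm))
      have h5 := hcon x hx
      have h6 : 4 * C₀ / (β - α) = 2 * (2 * C₀ / (β - α)) := by ring
      rw [h4] at h1
      linarith
    have h1 := abs_le.1 (hP β ⟨hαβ.le, le_rfl⟩)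
    have h2 := abs_le.1 (hP α ⟨le_rfl, hαβ.le⟩)
    have h3 : (2 * C₀ / (β - α) + 1 / 2) * (β - α) = 2 * C₀ + (β - α) / 2 := by
      field_simp
    rw [h3] at this
    linarith
  obtain ⟨τ, hτ, hq⟩ := hex
  refine ⟨τ, hτ, hq, ?_⟩
  have hτm : τ ∈ Icc α β := ⟨hτ.1.le, hτ.2.le⟩
  have hη2 : D.η τ ≤ 1 / 2 := by
    have h1 := hη τ hτm
    have h2 := hO.η_nonneg τ (hsub hτm)
    nlinarith
  have h1 := (hO.pt (hsub hτm) (hτm.2.trans hβ0)).n_le' hC hη2
  have h2 := Real.sqrt_le_sqrt hq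
  linarith

end OdeData

/-! ### the bundle -/

/-- **CO Lemma 4.4 (inward control)**, the statements used later.  `K = 600 C² (1+m)`; `e^{τ₀}` is the radius `r_*`.
For the doubling statements see `OdeData.doubling`, `OdeData.exists_q_le` (they need no smallness of the radius, only
`τ ≤ 0` and `η (1 + C₀) ≤ 1/4`). -/
theorem ode_inward_control (C c mm : ℝ) (hC : 1 ≤ C) (hc : 0 < c) (hm : 0 ≤ mm) :
    ∃ τ₀ : ℝ, τ₀ ≤ 0 ∧ ∀ (D : OdeData) (I : Set ℝ), I.OrdConnected → D.Ok C c mm I → (∀ τ ∈ I, τ ≤ τ₀) →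
      -- lower bound from the inner endpoint
      (∀ a ∈ I, ∀ τ ∈ I, a ≤ τ → min (D.P a) (-(600 * C ^ 2 * (1 + mm))) ≤ D.P τ) ∧
      -- lower bound on an interval extending to zero
      (∀ b, Set.Iic b ⊆ I → Filter.Tendsto D.A Filter.atBot (nhds 0) →
        ∀ τ ≤ b, -(600 * C ^ 2 * (1 + mm)) ≤ D.P τ) ∧
      -- (inward-upper)
      (∀ b ∈ I, ∀ τ ∈ I, τ ≤ b → D.P b ≤ D.T b ^ 2 →
        D.P τ ≤ Real.exp 1 * max (600 * C ^ 2 * (1 + mm)) (D.P b)) ∧
      -- a starting radius exists on an interval extending to zero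
      (∀ b, Set.Iic b ⊆ I → ∃ τ ≤ b, D.P τ ≤ D.T τ ^ 2) := by
  obtain ⟨T₀, τ₀, hRC, hτ₀, hreg⟩ := ode_reg C c mm hC hc hm
  refine ⟨τ₀, hτ₀, fun D I hI hO hle => ?_⟩
  have hR := hreg D I hO hle
  exact ⟨fun a ha τ hτ haτ => OdeData.lower_fin hI hO hR ha hτ haτ,
    fun b hb hA τ hτ => OdeData.lower_inf hRC hO hR hb hA hτ,
    fun b hb τ hτ hτb hst => OdeData.upper hRC hI hO hR hb hτ hτb hst,
    fun b hb => OdeData.start_exists hRC hO hR hb⟩

end Claimed.Agent.R322.Freq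
end
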