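/- Packed by merge_tool.py (helper293): 4 modules of Claimed.Agent.R322 in one file, same declarations.
   Old modules, in this order: Freq.Defs, Freq.Quant, Freq.PointDV, Freq.Point -/
import Claimed.Agent.R322.Pack011
import Claimed.Agent.R322.Pack043
import Claimed.Agent.R322.Pack037
import Claimed.Agent.R322.Pack016
import Claimed.Agent.R322.Pack039

/- ===== packed: Claimed.Agent.R322.Freq.Defs ===== -/
section
/-!
# CO Section 4: good starts and the output of the fitting/gluing construction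

`IsGood W Q ε` : the varifold `W` (already dilated to start units and rotated so that the chosen
plane is horizontal) is `ε`-close to the multiplicity-`Q` horizontal plane in `B_2000`.

`StartData` : everything that CO Lemmas 4.2-4.4, Propositions 4.5 and 5.1 use about the local
minimal fits (CO Lemma 4.1 = AE Lemmas 7.1, 7.2) and their gluing (AE Proposition 7.3, first half):
failure scales, tents, glued centre, curvature/height bounds (4.4), failed-fit separation and the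
cell-wise first-moment estimate.  The individual fits do not appear.
-/

set_option autoImplicit false

open scoped ENNReal ContDiff
open MeasureTheory

namespace Claimed.Agent.R322.Freq

open Claimed.Agent.R322.Tube

variable {m n : ℕ}

/-- orthogonal projection of `E (m+n)` onto the horizontal plane -/
noncomputable def PH (m n : ℕ) : E (m + n) →L[ℝ] E (m + n) := inH m n ∘L prH m n

/-- `W` is `ε`-close to `Q` copies of the horizontal plane in `B_2000`, the origin has density `Q`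
and the density ratios at the origin are `ε`-close to `Q` up to radius `1000`. -/
structure IsGood (W : SIV m n) (Q : ℕ) (ε : ℝ) : Prop where
  dom : Metric.closedBall (0 : E (m + n)) 2000 ⊆ W.U
  height : ∀ X ∈ W.support, ‖X‖ ≤ 1000 → ‖prV m n X‖ ≤ ε
  mass : ∀ χ : E (m + n) → ℝ, (∀ X, |χ X| ≤ 1) → LipschitzWith 1 χ →
    tsupport χ ⊆ Metric.closedBall 0 1000 →
    |∫ X, χ X ∂W.μ - Q * ∫ y : E m, χ (mkHV y 0) ∂μH[(m : ℝ)]| ≤ ε
  dens : W.Θ 0 = Q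
  ratio : W.ratio 0 1000 ≤ Q + ε

/-- `Γ` satisfies the `ε`-cone condition with respect to the horizontal plane
(subset of a Lipschitz graph of slope `≤ ε`). -/
def ConeSet (ε : ℝ) (Γ : Set (E (m + n))) : Prop :=
  ∀ p ∈ Γ, ∀ p' ∈ Γ, ‖prV m n (p - p')‖ ≤ ε * ‖prH m n (p - p')‖

/-- tent function `t(w) = sup_{x ∈ B_5} (ℓ_x - |w - x|)_+` -/
noncomputable def tent (ℓ : E m → ℝ) (w : E m) : ℝ :=
  sSup ({0} ∪ {s : ℝ | ∃ x : E m, ‖x‖ < 5 ∧ s = ℓ x - ‖w - x‖})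

/-- `b = max ({ℓ_x : |x| ≤ 16 ℓ_x} ∪ {0})` -/
noncomputable def bpar (ℓ : E m → ℝ) : ℝ :=
  sSup ({0} ∪ {s : ℝ | ∃ x : E m, ‖x‖ < 5 ∧ ‖x‖ ≤ 16 * ℓ x ∧ s = ℓ x})

/-- Numerical parameters of the fitting construction, fixed once for all good starts. -/
structure FitPar where
  /-- output derivative order of the glued centre -/
  J : ℕ
  /-- fitting exponent `k = k₀` -/
  k : ℕ
  /-- order of the test norm in the first-moment estimate -/
  q : ℕ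
  /-- height coefficient -/
  m₀ : ℝ
  /-- large constant -/
  C : ℝ
  /-- small constant -/
  c : ℝ
  /-- relative radius of the subballs in the separation statement -/
  c₀ : ℝ
  /-- relative radius of the cells in the first-moment statement -/
  c₁ : ℝ
  /-- tilt threshold in the separation statement -/
  ε₀ : ℝ
  /-- slope of the admissible comparison sets in the separation statement -/
  ε₁ : ℝ
  /-- upper bound for all failure scales -/
  ℓmax : ℝ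
  /-- height of the working cylinder -/
  hc : ℝ

/-- Output of fitting and gluing at one good start. -/
structure StartData (m n Q : ℕ) (p : FitPar) where
  /-- normal cylinder over the glued centre `S = graph N.u`, base `B_4`, in start units -/
  N : NCyl m n
  N_Q : N.Q = Q
  N_Ω : N.Ω = Metric.ball 0 4
  N_h : N.h = p.hc
  /-- all support over `B_3` and in the ambient ball `B_10` lies in the cylinder -/
  cover : ∀ X ∈ N.W.support, ‖X‖ ≤ 10 → ‖prH m n X‖ < 3 → X ∈ Cyl N.u (Metric.ball 0 4) p.hc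
  /-- AE Lemma 7.1: ALL derivatives of orders `1..J` are bounded by `C m₀` (global `u`: cut off outside `B_5`) -/
  ref : RefGraph p.J (p.C * p.m₀) (p.C * p.m₀) N.u
  /-- first failed scale at `x ∈ B_5` (`0` if there is no failure) -/
  ℓ : E m → ℝ
  ℓ_dyadic : ∀ x, ℓ x = 0 ∨ ∃ j : ℕ, ℓ x = (2 : ℝ)⁻¹ ^ j
  ℓ_small : ∀ x, ℓ x ≤ p.ℓmax
  /-- (4.4), curvature -/
  curv : ∀ y ∈ Metric.ball (0 : E m) 4,
    ‖HS N.u y‖ + Real.sqrt (DHSsq N.u y) ≤ p.C * p.m₀ ^ 2 * tent ℓ y ^ (2 * p.k - 4)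
  /-- (4.4), normal height, `t` at the horizontal argument -/
  height_h : ∀ X ∈ N.W.support, X ∈ Cyl N.u (Metric.ball 0 4) p.hc →
    ‖zz N.u X‖ ≤ p.C * p.m₀ * tent ℓ (prH m n X) ^ p.k
  /-- (4.4), normal height, `t` at the projected argument -/
  height_p : ∀ X ∈ N.W.support, X ∈ Cyl N.u (Metric.ball 0 4) p.hc →
    ‖zz N.u X‖ ≤ p.C * p.m₀ * tent ℓ (npr N.u X) ^ p.k
  /-- (4.4), vertical graph-height difference -/
  height_v : ∀ X ∈ N.W.support, X ∈ Cyl N.u (Metric.ball 0 4) p.hc →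
    ‖prV m n X - N.u (prH m n X)‖ ≤ p.C * p.m₀ * tent ℓ (prH m n X) ^ p.k
  /-- failed-fit separation, in a form independent of the fit: near every point of `B_{30 ℓ}(x)`
  a definite mass of low-tilt points stays away from any given small-slope set -/
  sep : ∀ x : E m, ‖x‖ < 5 → 0 < ℓ x → ∀ y₀ : E m, ‖y₀ - x‖ < 30 * ℓ x →
    ∀ Γ : Set (E (m + n)), ConeSet p.ε₁ Γ →
    ENNReal.ofReal (p.c * ℓ x ^ m) ≤ N.W.μ {X | ‖prH m n X - y₀‖ < p.c₀ * ℓ x ∧ ‖prV m n X‖ ≤ 1 ∧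
      ‖N.W.P X - PH m n‖ ≤ p.ε₀ ∧ ∀ P ∈ Γ, p.c * p.m₀ * ℓ x ^ p.k ≤ ‖X - P‖}
  /-- cell-wise first height moment over the glued centre -/
  moment : ∀ y₀ : E m, ‖y₀‖ < 3 → 0 < tent ℓ y₀ → ∀ (η : E m → E n) (A : ℝ), ContDiff ℝ ∞ η →
    tsupport η ⊆ Metric.ball y₀ (p.c₁ * tent ℓ y₀) →
    (∀ j : ℕ, j ≤ p.q → ∀ y, tent ℓ y₀ ^ j * ‖iteratedFDeriv ℝ j η y‖ ≤ A) →
    |∫ X, inner ℝ (prV m n X - N.u (prH m n X)) (η (prH m n X)) ∂N.μ|
      ≤ p.C * A * p.m₀ ^ 2 * tent ℓ y₀ ^ (m + 2 * p.k - 1)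

end Claimed.Agent.R322.Freq
end

/- ===== packed: Claimed.Agent.R322.Freq.Quant ===== -/
section
/-!
# CO Section 4: the frequency quantities of a fitting interval (definitions)

Owner: helper109 (CO4 sub-captain).

DESIGN: NO GEODESICS.  The radial centre is the point `F 0` of `S = graph u` over horizontal `0`.

* `rho u y = |F y - F 0|` is the CHORD distance (paper: geodesic distance);
* `Gv u y = P_h(y) (F y - F 0) = ∇_S (ρ²/2)`, `Nv u y = P_v(y) (F y - F 0)`, `∇^S G = 1 + A_N` exactly;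
* `ww u y = |G|²/ρ² = |∇_S ρ|² = 1 - |N|²/ρ² ∈ [1 - C ρ², 1]`;
* `Vv u X = K_z G(π X)` = ambient gradient of `(ρ²/2) ∘ π` (paper: `ρ v_z`);
* `bet = |(1 - P_T) V|² = B[V,V]`, `hh = |P_T V|² / |V|²` (paper: `h`; it is `0` on the central fibre);
* `hwt = |P_T V|² / ρ²` is the weight of the height `H` (paper: `h`), `rwt = ρ² B[V,V] / |V|²` is the density of the radial tilt
  `R_*` (paper: `ρ² b_z`); `hwt * rwt = bet * hh`, both vanish on the central fibre;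
* kernel exponent `p = 10`: `phiR = (1 - ρ²/r²)_+^10`, `psiR = 20 (1 - ρ²/r²)_+^9`, `chiR = r ∂_r psiR`.
  WHY `p = 10`: with `m + p - 1 ≤ 2 k` the lower bound (4.9) reads `H / r² ≥ c δ⁴`, while `φ ≤ 2^10 δ⁵` on the collar
  `1 - ρ²/r² ≤ 2 δ^{1/2}`; so the collar is paid by the TRIVIAL mass bound (`r² δ⁵ ≤ C r² H` because `δ ≤ C r²`) and the radial
  primitive of AE Lemma 8.1 / CO "thin part" is not needed at all.

These weights keep ALL sharp coefficients of CO Lemma 4.3 exact: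
* flux: `E_* ≈ r^{-m} ∫ ψ z·P_T V ≤ sqrt (H R_*)` (Cauchy-Schwarz, `|z·P_T V|² ≤ |z|² bet hh = |z|² hwt rwt`);
* horizontal identity: test field `φ J_z X₀`, `X₀ = G / w`, `X₀·G = ρ²`;
* height identity: test field `ψ |z|² V` (smooth across the central fibre: no cutoff), `∇(ψ∘π)·P_T V = - chiR hwt`.
-/

set_option autoImplicit false

open scoped ENNReal ContDiff
open MeasureTheory

namespace Claimed.Agent.R322.Freq

open Claimed.Agent.R322.Tube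

variable {m n : ℕ}

/-- chord distance from the radial centre `F 0` -/
noncomputable def rho (u : E m → E n) (y : E m) : ℝ := ‖Fg u y - Fg u 0‖

/-- `G = ∇_S (ρ²/2)`: tangential part of the position vector -/
noncomputable def Gv (u : E m → E n) (y : E m) : E (m + n) := Ph u y (Fg u y - Fg u 0)

/-- normal part of the position vector -/
noncomputable def Nv (u : E m → E n) (y : E m) : E (m + n) := Pv u y (Fg u y - Fg u 0)

/-- `w = |∇_S ρ|² = |G|²/ρ²` -/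
noncomputable def ww (u : E m → E n) (y : E m) : ℝ := ‖Gv u y‖ ^ 2 / rho u y ^ 2

/-- `V = K_z G`: ambient gradient of `(ρ²/2) ∘ π` -/
noncomputable def Vv (u : E m → E n) (X : E (m + n)) : E (m + n) := Kz u X (Gv u (npr u X))

/-- radial tilt `B[V,V] = |(1 - P_T) V|² = ρ² b_z` (`V` is horizontal) -/
noncomputable def bet (u : E m → E n) (P : E (m + n) →L[ℝ] E (m + n)) (X : E (m + n)) : ℝ :=
  ‖Vv u X - P (Vv u X)‖ ^ 2

/-- the factor `h = 1 - b_z / |v_z|² = |P_T V|² / |V|²` (zero on the central fibre) -/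
noncomputable def hh (u : E m → E n) (P : E (m + n) →L[ℝ] E (m + n)) (X : E (m + n)) : ℝ :=
  ‖P (Vv u X)‖ ^ 2 / ‖Vv u X‖ ^ 2

/-- the weight `|P_T V|² / ρ²` of the height (zero on the central fibre) -/
noncomputable def hwt (u : E m → E n) (P : E (m + n) →L[ℝ] E (m + n)) (X : E (m + n)) : ℝ :=
  ‖P (Vv u X)‖ ^ 2 / rho u (npr u X) ^ 2

/-- the density `ρ² B[V,V] / |V|²` of the radial tilt (zero on the central fibre) -/
noncomputable def rwt (u : E m → E n) (P : E (m + n) →L[ℝ] E (m + n)) (X : E (m + n)) : ℝ :=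
  bet u P X * rho u (npr u X) ^ 2 / ‖Vv u X‖ ^ 2

/-- `(1 - ρ²/r²)_+` -/
noncomputable def dep (u : E m → E n) (r : ℝ) (y : E m) : ℝ := max 0 (1 - rho u y ^ 2 / r ^ 2)

/-- `φ = (1 - ρ²/r²)_+^10` -/
noncomputable def phiR (u : E m → E n) (r : ℝ) (y : E m) : ℝ := dep u r y ^ 10

/-- `ψ = 20 (1 - ρ²/r²)_+^9` -/
noncomputable def psiR (u : E m → E n) (r : ℝ) (y : E m) : ℝ := 20 * dep u r y ^ 9

/-- `r ∂_r ψ = 360 (1 - ρ²/r²)_+^8 ρ²/r²` -/
noncomputable def chiR (u : E m → E n) (r : ℝ) (y : E m) : ℝ :=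
  360 * dep u r y ^ 8 * (rho u y ^ 2 / r ^ 2)

/-- the base disc `{ρ < r}` -/
def Bs (u : E m → E n) (r : ℝ) : Set (E m) := {y | rho u y < r}

/-- weighted height `H = r^{-m} ∫ ψ |z|² |P_T V|²/ρ² dμ` -/
noncomputable def qH (N : NCyl m n) (r : ℝ) : ℝ :=
  (r ^ m)⁻¹ * ∫ X, psiR N.u r (npr N.u X) * ‖zz N.u X‖ ^ 2 * hwt N.u (N.W.P X) X ∂N.μ

/-- signed mass `A = r^{2-m} ∫ φ dM` -/
noncomputable def qA (N : NCyl m n) (r : ℝ) : ℝ := r ^ 2 * (r ^ m)⁻¹ * N.intM (phiR N.u r)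

/-- tilt `E_* = r^{2-m} ∫ φ dD` -/
noncomputable def qE (N : NCyl m n) (r : ℝ) : ℝ := r ^ 2 * (r ^ m)⁻¹ * ∫ y, phiR N.u r y ∂N.Dm

/-- radial tilt `R_* = r^{-m} ∫ ψ ρ² B[V,V] / |V|² dμ` -/
noncomputable def qR (N : NCyl m n) (r : ℝ) : ℝ :=
  (r ^ m)⁻¹ * ∫ X, psiR N.u r (npr N.u X) * rwt N.u (N.W.P X) X ∂N.μ

/-- relative support height `δ = r^{-1} sup_{ρ < r} |z|` -/
noncomputable def qd (N : NCyl m n) (r : ℝ) : ℝ := r⁻¹ * N.supz (Bs N.u r)

/-- `dA / d log r` -/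
noncomputable def qA' (N : NCyl m n) (r : ℝ) : ℝ :=
  (2 - m) * qA N r + (r ^ m)⁻¹ * N.intM (fun y => psiR N.u r y * rho N.u y ^ 2)

/-- `dH / d log r` -/
noncomputable def qH' (N : NCyl m n) (r : ℝ) : ℝ :=
  -m * qH N r + (r ^ m)⁻¹ *
    ∫ X, chiR N.u r (npr N.u X) * ‖zz N.u X‖ ^ 2 * hwt N.u (N.W.P X) X ∂N.μ

/-- the normal flux `r^{-m} ∫ ψ z · P_T V dμ` (`z · P_T V = z · P_vh V`) -/
noncomputable def qFl (N : NCyl m n) (r : ℝ) : ℝ :=
  (r ^ m)⁻¹ * ∫ X, psiR N.u r (npr N.u X) * inner ℝ (zz N.u X) (N.W.P X (Vv N.u X)) ∂N.μ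

/-- `r^{-m} ∫ φ |z|² dμ` -/
noncomputable def qZφ (N : NCyl m n) (r : ℝ) : ℝ :=
  (r ^ m)⁻¹ * ∫ X, phiR N.u r (npr N.u X) * ‖zz N.u X‖ ^ 2 ∂N.μ

/-- `r^{-m} ∫ ψ |z|² dμ` -/
noncomputable def qZψ (N : NCyl m n) (r : ℝ) : ℝ :=
  (r ^ m)⁻¹ * ∫ X, psiR N.u r (npr N.u X) * ‖zz N.u X‖ ^ 2 ∂N.μ

/-- `r^{-m} ∫ φ dΛ` -/
noncomputable def qL (N : NCyl m n) (r : ℝ) : ℝ := (r ^ m)⁻¹ * ∫ y, phiR N.u r y ∂N.Lm

/-- **The data of the ODE lemma** (`Freq/Ode.lean`) in the variable `τ = log r`; `η = Cη δ^α`. -/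
noncomputable def ode (N : NCyl m n) (Cη α : ℝ) : OdeData where
  A τ := qA N (Real.exp τ)
  H τ := qH N (Real.exp τ)
  E τ := qE N (Real.exp τ)
  R τ := qR N (Real.exp τ)
  η τ := Cη * qd N (Real.exp τ) ^ α
  A' τ := qA' N (Real.exp τ)
  H' τ := qH' N (Real.exp τ)

/-- the fitting range `B_* b ≤ r ≤ r₁`, `r > 0`, in the variable `τ = log r` (`B_* = 100`) -/
def fitI (b r₁ : ℝ) : Set ℝ := {τ | 100 * b ≤ Real.exp τ ∧ Real.exp τ ≤ r₁}

theorem fitI_ordConnected (b r₁ : ℝ) : (fitI b r₁).OrdConnected := by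
  refine ⟨fun x hx y hy z hz => ⟨?_, ?_⟩⟩
  · exact hx.1.trans (Real.exp_le_exp.2 hz.1)
  · exact (Real.exp_le_exp.2 hz.2).trans hy.2

end Claimed.Agent.R322.Freq
end

/- ===== packed: Claimed.Agent.R322.Freq.PointDV ===== -/
section
/-!
# CO Lemma 4.3: the derivative of `V = K_z G` (leaf `L-Freq-pt-DV`) and of `G` on the base
-/

set_option autoImplicit false

open scoped ENNReal ContDiff Topology
open MeasureTheory Filter

namespace Claimed.Agent.R322.Freq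

open Claimed.Agent.R322.Tube

local notation "𝟙" => ContinuousLinearMap.id ℝ _

variable {m n : ℕ} {u : E m → E n} {κ : ℝ}

theorem contDiff_Gv (hu : Geo κ u) : ContDiff ℝ 3 (Gv u) :=
  (contDiff_Ph_of (k := 3) (by exact_mod_cast hu.smooth)).clm_apply
    ((contDiff_Fg_of (hu.smooth.of_le (by norm_num))).sub contDiff_const)

theorem hasFDerivAt_Gv (hu : Geo κ u) (y : E m) :
    HasFDerivAt (Gv u) (R0op u y (Fg u y - Fg u 0) + dF (fderiv ℝ u y)) y := by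
  have h1 := (hasFDerivAt_Ph hu.c2 y).clm_apply
    ((hasFDerivAt_Fg (y := y) (hu.differentiable y)).sub_const (Fg u 0))
  refine h1.congr_fderiv ?_
  rw [Ph_comp_dF]
  exact add_comm _ _

theorem norm_Gv_le (u : E m → E n) (y : E m) : ‖Gv u y‖ ≤ rho u y := norm_Ph_apply_le u y _

theorem _root_.Claimed.Agent.R322.Tube.Geo.norm_R0op_le (hu : Geo κ u) (y : E m) (w : E (m + n)) :
    ‖R0op u y w‖ ≤ 3 * κ * ‖w‖ := by
  refine ContinuousLinearMap.opNorm_le_bound _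
    (mul_nonneg (mul_nonneg (by norm_num) hu.nonneg) (norm_nonneg _)) fun α => ?_
  rw [R0op_apply]
  refine ((dPh u y α).le_opNorm w).trans ?_
  calc ‖dPh u y α‖ * ‖w‖ ≤ (3 * κ * ‖α‖) * ‖w‖ := by
        gcongr
        exact hu.norm_dPh_le y α
    _ = 3 * κ * ‖w‖ * ‖α‖ := by ring

theorem contDiffAt_Vv (hu : Geo κ u) {h : ℝ} (hh : h ≤ 2 / 9) {X : E (m + n)}
    (hX : X ∈ Tub u h) : ContDiffAt ℝ 2 (Vv u) X :=
  (contDiffAt_Kz hu hh hX).clm_apply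
    (((contDiff_Gv hu).of_le (by norm_num)).contDiffAt.comp X
      ((npr_local hu hh hX).1.of_le (by norm_num)))

/-- `DV = K (K H + R₀(F y - F 0) Dπ + (D A_z) V)`. -/
theorem fderiv_Vv (hu : Geo κ u) {h : ℝ} (hh : h ≤ 2 / 9) {X : E (m + n)}
    (hX : X ∈ Tub u h) :
    fderiv ℝ (Vv u) X = Kz u X ∘L (Kz u X ∘L Ph u (npr u X)
      + R0op u (npr u X) (Fg u (npr u X) - Fg u 0) ∘L fderiv ℝ (npr u) X
      + (fderiv ℝ (Az u) X).flip (Vv u X)) := by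
  have hA := hu.norm_Shp_zz_le_half hh hX
  have hV : HasFDerivAt (Vv u) (fderiv ℝ (Vv u) X) X :=
    ((contDiffAt_Vv hu hh hX).differentiableAt (by norm_num)).hasFDerivAt
  have hAz : HasFDerivAt (Az u) (fderiv ℝ (Az u) X) X :=
    ((contDiffAt_Az hu hh hX).differentiableAt (by norm_num)).hasFDerivAt
  have hπ := (npr_local hu hh hX).2
  have h1 := hV.sub (hAz.clm_apply hV)
  have h2 := (hasFDerivAt_Gv hu (npr u X)).comp X hπ
  have heq : (Vv u - fun X' => Az u X' (Vv u X')) =ᶠ[𝓝 X] (Gv u ∘ npr u) := by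
    filter_upwards [(isOpen_Tub u h).mem_nhds hX] with X' hX'
    have h3 := Jw_comp_Kw (hu.norm_Shp_zz_le_half hh hX')
    exact congrArg (fun T : E (m + n) →L[ℝ] E (m + n) => T (Gv u (npr u X'))) h3
  have h3 := (h1.congr_of_eventuallyEq heq.symm).unique h2
  -- `J DV = ...`
  have h4 : Jz u X ∘L fderiv ℝ (Vv u) X
      = (R0op u (npr u X) (Fg u (npr u X) - Fg u 0) + dF (fderiv ℝ u (npr u X)))
          ∘L (dFp (fderiv ℝ u (npr u X)) ∘L Kz u X ∘L Ph u (npr u X))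
        + (fderiv ℝ (Az u) X).flip (Vv u X) := by
    rw [← h3, Jz_eq_sub, ContinuousLinearMap.sub_comp, ContinuousLinearMap.id_comp]
    abel
  have h5 : dF (fderiv ℝ u (npr u X)) ∘L (dFp (fderiv ℝ u (npr u X)) ∘L Kz u X ∘L Ph u (npr u X))
      = Kz u X ∘L Ph u (npr u X) := by
    rw [← ContinuousLinearMap.comp_assoc, ← Ph_eq, ← ContinuousLinearMap.comp_assoc, Kz_eq,
      Ph_comp_Kw hu.c2 hA, ContinuousLinearMap.comp_assoc, Ph_comp_Ph]
  have h6 : fderiv ℝ (Vv u) X = Kz u X ∘L (Jz u X ∘L fderiv ℝ (Vv u) X) := by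
    rw [← ContinuousLinearMap.comp_assoc]
    have : Kz u X ∘L Jz u X = 𝟙 := Kw_comp_Jw hA
    rw [this, ContinuousLinearMap.id_comp]
  rw [h6, h4, ContinuousLinearMap.add_comp, h5, hπ.fderiv]
  congr 1
  abel

/-- **derivative of `V`** for every radius `h ≤ 2/9`. -/
theorem DV_bound_of_le (hu : Geo κ u) {h : ℝ} (hh : h ≤ 2 / 9) {X : E (m + n)}
    (hX : X ∈ Tub u h) :
    ‖fderiv ℝ (Vv u) X - Ph u (npr u X)‖ ≤ 786 * κ * (rho u (npr u X) + ‖zz u X‖) := by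
  have hA := hu.norm_Shp_zz_le_half hh hX
  have hAn := hu.norm_Shp_le (npr u X) (zz u X)
  have hK : ‖Kz u X‖ ≤ 2 := norm_Kw_le hA
  have hKe : Kz u X = 𝟙 + Shp u (npr u X) (zz u X) ∘L Kz u X := Kw_eq_add hA
  have hH := norm_Ph_le u (npr u X)
  have hκ := hu.nonneg
  rw [fderiv_Vv hu hh hX]
  set K := Kz u X with hKdef
  set H := Ph u (npr u X) with hHdef
  set A := Shp u (npr u X) (zz u X) with hAdef
  set R := R0op u (npr u X) (Fg u (npr u X) - Fg u 0) with hR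
  set D := (fderiv ℝ (Az u) X).flip (Vv u X) with hD
  have e1 : K ∘L (K ∘L H + R ∘L fderiv ℝ (npr u) X + D) - H
      = (A ∘L K + A ∘L K ∘L K) ∘L H + K ∘L R ∘L fderiv ℝ (npr u) X + K ∘L D := by
    have e2 : K ∘L K = 𝟙 + (A ∘L K + A ∘L K ∘L K) := by
      nth_rewrite 1 [hKe]
      rw [ContinuousLinearMap.add_comp, ContinuousLinearMap.id_comp,
        ContinuousLinearMap.comp_assoc]
      nth_rewrite 1 [hKe]
      abel
    have e3 : K ∘L (K ∘L H) = H + (A ∘L K + A ∘L K ∘L K) ∘L H := by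
      conv_lhs => rw [← ContinuousLinearMap.comp_assoc K K H, e2, ContinuousLinearMap.add_comp,
        ContinuousLinearMap.id_comp]
    rw [ContinuousLinearMap.comp_add, ContinuousLinearMap.comp_add, e3]
    abel
  rw [e1]
  have b1 : ‖(A ∘L K + A ∘L K ∘L K) ∘L H‖ ≤ (9 / 4 * κ * ‖zz u X‖ * 2
      + 9 / 4 * κ * ‖zz u X‖ * (2 * 2)) * 1 :=
    norm_comp_le' _ _ ((norm_add_le _ _).trans (add_le_add (norm_comp_le' _ _ hAn hK)
      (norm_comp_le' _ _ hAn (norm_comp_le' _ _ hK hK)))) hH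
  have hRn : ‖R‖ ≤ 3 * κ * rho u (npr u X) := hu.norm_R0op_le _ _
  have b2 : ‖K ∘L R ∘L fderiv ℝ (npr u) X‖ ≤ 2 * (3 * κ * rho u (npr u X) * 3) :=
    norm_comp_le' _ _ hK (norm_comp_le' _ _ hRn (hu.norm_fderiv_npr_le hh hX))
  have hVn : ‖Vv u X‖ ≤ 2 * rho u (npr u X) := by
    refine (K.le_opNorm _).trans ?_
    have := norm_Gv_le u (npr u X)
    have h0 := norm_nonneg (Gv u (npr u X))
    nlinarith [norm_nonneg K]
  have hρ : 0 ≤ rho u (npr u X) := norm_nonneg _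
  have hDn : ‖D‖ ≤ 192 * κ * (2 * rho u (npr u X)) := by
    refine ContinuousLinearMap.opNorm_le_bound _ (by positivity) fun a => ?_
    rw [hD, ContinuousLinearMap.flip_apply]
    refine ((fderiv ℝ (Az u) X a).le_opNorm _).trans ?_
    calc ‖fderiv ℝ (Az u) X a‖ * ‖Vv u X‖ ≤ (192 * κ * ‖a‖) * (2 * rho u (npr u X)) := by
          gcongr
          exact hu.norm_fderiv_Az_le hh hX a
      _ = _ := by ring
  have b3 : ‖K ∘L D‖ ≤ 2 * (192 * κ * (2 * rho u (npr u X))) := norm_comp_le' _ _ hK hDn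
  refine (norm_add_le _ _).trans ?_
  have b4 := norm_add_le ((A ∘L K + A ∘L K ∘L K) ∘L H) (K ∘L R ∘L fderiv ℝ (npr u) X)
  have p1 : 0 ≤ κ * ‖zz u X‖ := by positivity
  have p2 : 0 ≤ κ * rho u (npr u X) := by positivity
  nlinarith

/-- **derivative of `V`** (leaf `L-Freq-pt-DV`). -/
theorem DV_bound_aux (m n : ℕ) : ∃ h₀ C : ℝ, 0 < h₀ ∧ 0 < C ∧ ∀ (κ : ℝ) (u : E m → E n),
    Geo κ u → ContDiffOn ℝ 1 (Vv u) (Tub u h₀) ∧
    ∀ X ∈ Tub u h₀, ‖fderiv ℝ (Vv u) X - Ph u (npr u X)‖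
      ≤ C * κ * (rho u (npr u X) + ‖zz u X‖) :=
  ⟨2 / 9, 786, by norm_num, by norm_num, fun _ _ hu =>
    ⟨fun _ hX => ((contDiffAt_Vv hu le_rfl hX).of_le (by norm_num)).contDiffWithinAt,
      fun _ hX => DV_bound_of_le hu le_rfl hX⟩⟩

end Claimed.Agent.R322.Freq
end

/- ===== packed: Claimed.Agent.R322.Freq.Point ===== -/
section
/-!
# CO Lemma 4.3: pointwise facts (chord distance, radial fields, kernels, projection algebra)

Owner: helper109.  Leaves `L-Freq-pt-*`.  Everything here is pointwise: `u` satisfies `Geo κ u`, `X` lies in the tube, `P` is a projection.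
Notation: `y = npr u X`, `z = zz u X`, `F = Fg u`, `G = Gv u y`, `V = Vv u X = K_z G`, `ρ = rho u y`.

The versions `*_of_le` have the explicit tube radius `h₀ = 2/9` and explicit constants; use them freely.
-/

set_option autoImplicit false

open scoped ENNReal ContDiff Topology
open MeasureTheory

namespace Claimed.Agent.R322.Freq

open Claimed.Agent.R322.Tube

variable {m n : ℕ}

/-! ### one-dimensional kernels -/

/-- derivative of `x ↦ (x_+)^(p+2)` -/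
theorem hasDerivAt_posPow (p : ℕ) (x : ℝ) :
    HasDerivAt (fun x : ℝ => (max 0 x) ^ (p + 2)) ((p + 2 : ℕ) * (max 0 x) ^ (p + 1)) x := by
  rcases lt_trichotomy x 0 with hx | hx | hx
  · have h1 : (fun x : ℝ => (max 0 x) ^ (p + 2)) =ᶠ[𝓝 x] fun _ => 0 := by
      filter_upwards [Iio_mem_nhds hx] with t ht
      rw [max_eq_left (le_of_lt ht)]; simp
    rw [max_eq_left hx.le]
    simpa using (hasDerivAt_const x (0 : ℝ)).congr_of_eventuallyEq h1
  · subst hx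
    have h1 : (fun x : ℝ => (max 0 x) ^ (p + 2)) =O[𝓝 (0 : ℝ)] fun x => ‖x - 0‖ ^ 2 := by
      refine Asymptotics.IsBigO.of_bound 1 ?_
      filter_upwards [Metric.ball_mem_nhds (0 : ℝ) one_pos] with t ht
      rw [Metric.mem_ball, dist_zero_right, Real.norm_eq_abs] at ht
      have a0 : 0 ≤ max 0 t := le_max_left _ _
      have a1 : max 0 t ≤ |t| := max_le (abs_nonneg _) (le_abs_self _)
      rw [sub_zero, Real.norm_eq_abs, Real.norm_eq_abs, abs_of_nonneg (by positivity), one_mul,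
        abs_of_nonneg (by positivity)]
      calc (max 0 t) ^ (p + 2) = (max 0 t) ^ p * (max 0 t) ^ 2 := by ring
        _ ≤ 1 * |t| ^ 2 := by
          refine mul_le_mul (pow_le_one₀ a0 (a1.trans ht.le)) ?_ (by positivity) zero_le_one
          gcongr
        _ = |t| ^ 2 := one_mul _
    have h2 := (h1.hasFDerivAt (by norm_num)).hasDerivAt
    simpa using h2
  · have h1 : (fun x : ℝ => (max 0 x) ^ (p + 2)) =ᶠ[𝓝 x] fun x => x ^ (p + 2) := by
      filter_upwards [Ioi_mem_nhds hx] with t ht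
      rw [max_eq_right (le_of_lt ht)]
    rw [max_eq_right hx.le]
    exact (hasDerivAt_pow (p + 2) x).congr_of_eventuallyEq h1

theorem contDiff_posPow (p : ℕ) : ContDiff ℝ 1 (fun x : ℝ => (max 0 x) ^ (p + 2)) := by
  rw [contDiff_one_iff_deriv]
  refine ⟨fun x => (hasDerivAt_posPow p x).differentiableAt, ?_⟩
  have : deriv (fun x : ℝ => (max 0 x) ^ (p + 2)) = fun x => ((p + 2 : ℕ) : ℝ) * (max 0 x) ^ (p + 1) :=
    funext fun x => (hasDerivAt_posPow p x).deriv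
  rw [this]
  fun_prop

/-! ### the base -/

theorem geo_lip {κ : ℝ} {u : E m → E n} (hu : Geo κ u) (y y' : E m) :
    ‖u y - u y'‖ ≤ 1 / 2 * ‖y - y'‖ :=
  Convex.norm_image_sub_le_of_norm_fderiv_le (s := Set.univ)
    (fun x _ => hu.differentiable x) (fun x _ => hu.slope x) convex_univ (Set.mem_univ _) (Set.mem_univ _)

theorem norm_sq_Fg_sub (u : E m → E n) (y y' : E m) :
    ‖Fg u y - Fg u y'‖ ^ 2 = ‖y - y'‖ ^ 2 + ‖u y - u y'‖ ^ 2 := by
  rw [Fg, Fg, ← mkHV_sub, norm_sq_mkHV]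

theorem norm_Fg_sub_le {κ : ℝ} {u : E m → E n} (hu : Geo κ u) (y y' : E m) :
    ‖Fg u y - Fg u y'‖ ≤ 9 / 8 * ‖y - y'‖ := by
  have h1 := norm_sq_Fg_sub u y y'
  have h2 := geo_lip hu y y'
  have h3 := norm_nonneg (u y - u y')
  have h4 := norm_nonneg (y - y')
  refine abs_le_of_sq_le_sq' ?_ (by positivity) |>.2
  nlinarith

/-- the chord distance (leaf `L-Freq-pt-rho`).
PLAN.  `ρ² = |y|² + |u y - u 0|²` (`Fg`, `mkHV`: `‖mkHV a b‖² = ‖a‖² + ‖b‖²`), `u` is `1/2`-Lipschitz (mean value, `Geo.slope`), `5/4 ≤ (9/8)²`.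
Last item: `|u w - u 0|² - |u (t w) - u 0|² = ⟨u w - u (t w), (u w - u 0) + (u (t w) - u 0)⟩ ≥ - (1/4)(1 - t²)|w|²`. -/
theorem rho_facts {κ : ℝ} {u : E m → E n} (hu : Geo κ u) :
    (∀ y, rho u y ^ 2 = ‖y‖ ^ 2 + ‖u y - u 0‖ ^ 2) ∧
    (∀ y, ‖y‖ ≤ rho u y ∧ rho u y ≤ 9 / 8 * ‖y‖) ∧
    (∀ y y', |rho u y - rho u y'| ≤ 9 / 8 * ‖y - y'‖) ∧
    (∀ y y', ‖Fg u y - Fg u y'‖ ≤ 9 / 8 * ‖y - y'‖) ∧
    (∀ (w : E m) (t : ℝ), 0 ≤ t → t ≤ 1 → 3 / 4 * (1 - t ^ 2) * ‖w‖ ^ 2 ≤ rho u w ^ 2 - rho u (t • w) ^ 2) := by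
  have h1 : ∀ y, rho u y ^ 2 = ‖y‖ ^ 2 + ‖u y - u 0‖ ^ 2 := fun y => by
    rw [rho, norm_sq_Fg_sub, sub_zero]
  refine ⟨h1, fun y => ⟨?_, ?_⟩, fun y y' => ?_, norm_Fg_sub_le hu, fun w t ht0 ht1 => ?_⟩
  · have := norm_sub_le_norm_Fg_sub u 0 y
    rwa [sub_zero] at this
  · have := norm_Fg_sub_le hu y 0
    rwa [sub_zero] at this
  · refine (abs_norm_sub_norm_le _ _).trans ?_
    have : Fg u y - Fg u 0 - (Fg u y' - Fg u 0) = Fg u y - Fg u y' := by abel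
    rw [this]
    exact norm_Fg_sub_le hu y y'
  · rw [h1, h1, norm_smul, Real.norm_of_nonneg ht0]
    set a := u w - u 0
    set b := u (t • w) - u 0
    have e0 : ∀ a b : E n, ‖a‖ ^ 2 - ‖b‖ ^ 2 = inner ℝ (a - b) (a + b) := fun a b => by
      rw [inner_add_right, inner_sub_left, inner_sub_left, real_inner_self_eq_norm_sq,
        real_inner_self_eq_norm_sq, real_inner_comm a b]
      ring
    have e1 := e0 a b
    have e2 : ‖a - b‖ ≤ 1 / 2 * ((1 - t) * ‖w‖) := by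
      have : a - b = u w - u (t • w) := by simp only [a, b]; abel
      rw [this]
      refine (geo_lip hu _ _).trans ?_
      have : w - t • w = (1 - t) • w := by rw [sub_smul, one_smul]
      rw [this, norm_smul, Real.norm_of_nonneg (by linarith)]
    have e3 : ‖a + b‖ ≤ 1 / 2 * ((1 + t) * ‖w‖) := by
      refine (norm_add_le _ _).trans ?_
      have q1 := geo_lip hu w 0
      have q2 := geo_lip hu (t • w) 0
      rw [sub_zero] at q1 q2
      rw [norm_smul, Real.norm_of_nonneg ht0] at q2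
      simp only [a, b]
      linarith
    have e4 : -(‖a - b‖ * ‖a + b‖) ≤ inner ℝ (a - b) (a + b) := by
      have := abs_real_inner_le_norm (a - b) (a + b)
      exact (abs_le.1 this).1
    have e5 : ‖a - b‖ * ‖a + b‖ ≤ (1 / 2 * ((1 - t) * ‖w‖)) * (1 / 2 * ((1 + t) * ‖w‖)) :=
      mul_le_mul e2 e3 (norm_nonneg _) (by have := norm_nonneg w; have : 0 ≤ 1 - t := by linarith
                                           positivity)
    nlinarith

/-- sharp first order Taylor remainder -/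
theorem geo_taylor {κ : ℝ} {u : E m → E n} (hu : Geo κ u) (y y' : E m) :
    ‖u y' - u y - fderiv ℝ u y (y' - y)‖ ≤ κ * ‖y' - y‖ ^ 2 / 2 := by
  set v := y' - y with hv
  set f : ℝ → E n := fun t => u (y + t • v) - u y - t • fderiv ℝ u y v with hf
  have hd : ∀ t : ℝ, HasDerivAt f (fderiv ℝ u (y + t • v) v - fderiv ℝ u y v) t := fun t => by
    have h1 : HasDerivAt (fun t : ℝ => y + t • v) v t := by
      simpa using ((hasDerivAt_id t).smul_const v).const_add y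
    have h2 := ((hu.differentiable (y + t • v)).hasFDerivAt).comp_hasDerivAt t h1
    have h3 : HasDerivAt (fun t : ℝ => t • fderiv ℝ u y v) (fderiv ℝ u y v) t := by
      simpa using (hasDerivAt_id t).smul_const (fderiv ℝ u y v)
    exact (h2.sub_const (u y)).sub h3
  have hB : ∀ t : ℝ, HasDerivAt (fun t : ℝ => κ * ‖v‖ ^ 2 * t ^ 2 / 2) (κ * ‖v‖ ^ 2 * t) t := fun t => by
    have := ((hasDerivAt_pow 2 t).const_mul (κ * ‖v‖ ^ 2)).div_const 2
    have e : κ * ‖v‖ ^ 2 * t = κ * ‖v‖ ^ 2 * (((2 : ℕ) : ℝ) * t ^ (2 - 1)) / 2 := by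
      push_cast; ring
    rw [e]
    exact this
  have key := image_norm_le_of_norm_deriv_right_le_deriv_boundary (f := f) (a := 0) (b := 1)
    (f' := fun t => fderiv ℝ u (y + t • v) v - fderiv ℝ u y v)
    (B := fun t : ℝ => κ * ‖v‖ ^ 2 * t ^ 2 / 2) (B' := fun t => κ * ‖v‖ ^ 2 * t)
    (fun t _ => (hd t).continuousAt.continuousWithinAt) (fun t _ => (hd t).hasDerivWithinAt)
    (by simp [hf]) hB
    (fun t ht => by
      have h1 := hu.norm_Du_sub_le y (y + t • v)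
      have h2 : y + t • v - y = t • v := by abel
      rw [h2, norm_smul, Real.norm_of_nonneg ht.1] at h1
      have h3 := (fderiv ℝ u (y + t • v) - fderiv ℝ u y).le_opNorm v
      rw [sub_apply] at h3
      calc _ ≤ _ := h3
        _ ≤ κ * (t * ‖v‖) * ‖v‖ := mul_le_mul_of_nonneg_right h1 (norm_nonneg _)
        _ = _ := by ring)
    (x := 1) ⟨zero_le_one, le_rfl⟩
  have e : f 1 = u y' - u y - fderiv ℝ u y v := by
    simp only [hf, one_smul, hv]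
    congr 3
    abel
  rw [e] at key
  simpa using key

/-- tangential and normal part of the position vector (leaf `L-Freq-pt-G`).
PLAN.  `Ph` is the orthogonal projection onto the range of `dF (Du y)` (`PhA`, `starProjection`): Pythagoras.  Taylor:
`F y - F 0 = dF(Du y) y - (0, u 0 - u y + Du(y) y)`, remainder `≤ κ |y|²/2` (`Geo.d2`; e.g. `Convex.norm_image_sub_le_of_norm_fderiv_le`
applied to `t ↦ u (t y) ...` or `taylor_mean_remainder`-free: integrate `Du(y) - Du(t y)`), and `P_v dF = 0`.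
Lower bound: `⟨F y - F 0, dF(Du y) y⟩ = |y|² + ⟨u y - u 0, Du(y) y⟩ ≥ (3/4)|y|²`, `|dF(Du y) y| ≤ (9/8)|y|`. -/
theorem Gv_facts {κ : ℝ} {u : E m → E n} (hu : Geo κ u) (y : E m) :
    ‖Gv u y‖ ^ 2 + ‖Nv u y‖ ^ 2 = rho u y ^ 2 ∧
    Ph u y (Gv u y) = Gv u y ∧
    ‖Nv u y‖ ≤ κ * ‖y‖ ^ 2 / 2 ∧
    ‖dF (fderiv ℝ u y) y - Gv u y‖ ≤ κ * ‖y‖ ^ 2 / 2 ∧
    2 / 3 * ‖y‖ ≤ ‖Gv u y‖ ∧ ‖Gv u y‖ ≤ rho u y ∧
    (y ≠ 0 → 1 / 4 ≤ ww u y ∧ 1 - κ ^ 2 * rho u y ^ 2 / 4 ≤ ww u y ∧ ww u y ≤ 1) := by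
  have hP := isProj_Ph u y
  set w := Fg u y - Fg u 0 with hw
  set A := fderiv ℝ u y with hA
  set e := u 0 - u y - A (0 - y) with he
  have hE : ‖e‖ ≤ κ * ‖y‖ ^ 2 / 2 := by
    have := geo_taylor hu y 0
    rwa [zero_sub, norm_neg, ← zero_sub] at this
  have hw2 : w = dF A y - inV m n e := by
    have := Fg_sub u y 0
    rw [← hA, ← he, zero_sub, map_neg] at this
    rw [hw, ← neg_sub (Fg u 0), this]
    abel
  have hPd : Ph u y (dF A y) = dF A y := PhA_dF _ _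
  have hG : Gv u y = dF A y - Ph u y (inV m n e) := by
    rw [Gv, ← hw, hw2, map_sub, hPd]
  have hN : Nv u y = -(Pv u y (inV m n e)) := by
    rw [Nv, ← hw, hw2, map_sub]
    have : Pv u y (dF A y) = 0 := by
      rw [Pv, sub_apply, hPd]; simp
    rw [this, zero_sub]
  have h1 : ‖Gv u y‖ ^ 2 + ‖Nv u y‖ ^ 2 = rho u y ^ 2 := by
    have := hP.norm_sq_add w
    rw [Gv, Nv, rho, ← hw, Pv, sub_apply]
    exact this
  have h3 : ‖Nv u y‖ ≤ κ * ‖y‖ ^ 2 / 2 := by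
    rw [hN, norm_neg]
    exact ((norm_Pv_apply_le u y _).trans (norm_inV e).le).trans hE
  have h5 : 2 / 3 * ‖y‖ ≤ ‖Gv u y‖ := by
    have q1 : inner ℝ (Gv u y) (dF A y) = ‖y‖ ^ 2 + inner ℝ (u y - u 0) (A y) := by
      rw [Gv, hP.symm, hPd, ← hw, hw, Fg, Fg, ← mkHV_sub, dF_apply, inner_mkHV, sub_zero,
        real_inner_self_eq_norm_sq]
    have q2 : -(‖u y - u 0‖ * ‖A y‖) ≤ inner ℝ (u y - u 0) (A y) :=
      (abs_le.1 (abs_real_inner_le_norm _ _)).1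
    have q3 := geo_lip hu y 0
    rw [sub_zero] at q3
    have q4 : ‖A y‖ ≤ 1 / 2 * ‖y‖ := (A.le_opNorm y).trans
      (mul_le_mul_of_nonneg_right (hu.slope y) (norm_nonneg _))
    have q5 : ‖dF A y‖ ≤ 9 / 8 * ‖y‖ := by
      have : ‖dF A y‖ ^ 2 = ‖y‖ ^ 2 + ‖A y‖ ^ 2 := by rw [dF_apply, norm_sq_mkHV]
      refine abs_le_of_sq_le_sq' ?_ (by positivity) |>.2
      nlinarith [norm_nonneg (A y), norm_nonneg y]
    have q6 := real_inner_le_norm (Gv u y) (dF A y)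
    have q7 : ‖u y - u 0‖ * ‖A y‖ ≤ (1 / 2 * ‖y‖) * (1 / 2 * ‖y‖) :=
      mul_le_mul q3 q4 (norm_nonneg _) (by positivity)
    have q8 : ‖Gv u y‖ * ‖dF A y‖ ≤ ‖Gv u y‖ * (9 / 8 * ‖y‖) :=
      mul_le_mul_of_nonneg_left q5 (norm_nonneg _)
    rcases eq_or_lt_of_le (norm_nonneg y) with h0 | h0
    · rw [← h0]; simp
    · have : 3 / 4 * ‖y‖ * ‖y‖ ≤ (‖Gv u y‖ * (9 / 8)) * ‖y‖ := by nlinarith
      have := le_of_mul_le_mul_right this h0
      linarith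
  have h6 : ‖Gv u y‖ ≤ rho u y := hP.norm_apply_le w
  refine ⟨h1, hP.apply_apply w, h3, ?_, h5, h6, fun hy => ?_⟩
  · rw [hG, sub_sub_cancel]
    exact ((norm_Ph_apply_le u y _).trans (norm_inV e).le).trans hE
  · have hy0 : 0 < ‖y‖ := norm_pos_iff.2 hy
    have r1 : ‖y‖ ≤ rho u y := by
      have := norm_sub_le_norm_Fg_sub u 0 y
      rwa [sub_zero] at this
    have r2 : rho u y ≤ 9 / 8 * ‖y‖ := by
      have q3 := geo_lip hu y 0
      rw [sub_zero] at q3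
      have : rho u y ^ 2 = ‖y‖ ^ 2 + ‖u y - u 0‖ ^ 2 := by
        rw [rho, Fg, Fg, ← mkHV_sub, norm_sq_mkHV, sub_zero]
      refine abs_le_of_sq_le_sq' ?_ (by positivity) |>.2
      nlinarith [norm_nonneg (u y - u 0)]
    have r0 : 0 < rho u y := hy0.trans_le r1
    have r3 : 0 < rho u y ^ 2 := by positivity
    have hκ := hu.nonneg
    refine ⟨?_, ?_, ?_⟩
    · rw [ww, le_div_iff₀ r3]
      nlinarith [norm_nonneg (Gv u y)]
    · rw [ww, le_div_iff₀ r3]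
      have s1 : ‖Nv u y‖ ^ 2 ≤ (κ * rho u y ^ 2 / 2) ^ 2 := by
        have : κ * ‖y‖ ^ 2 / 2 ≤ κ * rho u y ^ 2 / 2 := by gcongr
        have := h3.trans this
        gcongr
      nlinarith
    · rw [ww, div_le_one r3]
      nlinarith [sq_nonneg ‖Nv u y‖]

/-- derivative of `ρ²` on the base (leaf `L-Freq-pt-G`) -/
theorem hasFDerivAt_rho_sq {κ : ℝ} {u : E m → E n} (hu : Geo κ u) (y : E m) :
    HasFDerivAt (fun y => rho u y ^ 2)
      ((2 : ℝ) • (innerSL ℝ (Gv u y) ∘L dF (fderiv ℝ u y))) y ∧ ContDiff ℝ 4 (fun y => rho u y ^ 2) := by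
  constructor
  · have h1 : HasFDerivAt (fun t => Fg u t - Fg u 0) (dF (fderiv ℝ u y)) y :=
      (hasFDerivAt_Fg (hu.differentiable y)).sub_const _
    have h2 := h1.norm_sq
    have e : (2 : ℝ) • (innerSL ℝ (Gv u y) ∘L dF (fderiv ℝ u y))
        = 2 • (innerSL ℝ (Fg u y - Fg u 0)) ∘L dF (fderiv ℝ u y) := by
      ext a
      have : Ph u y (dF (fderiv ℝ u y) a) = dF (fderiv ℝ u y) a := PhA_dF _ _
      simp only [smul_apply, ContinuousLinearMap.comp_apply, innerSL_apply_apply, Gv]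
      rw [(isProj_Ph u y).symm, this]
      simp
    rw [e]
    exact h2
  · exact ((contDiff_Fg_of hu.smooth).sub contDiff_const).norm_sq ℝ

theorem rho_nonneg (u : E m → E n) (y : E m) : 0 ≤ rho u y := norm_nonneg _

/-- `dep = 1 - min(ρ, r)²/r²` -/
theorem dep_eq_min (u : E m → E n) {r : ℝ} (hr : 0 < r) (y : E m) :
    dep u r y = 1 - (min (rho u y) r) ^ 2 / r ^ 2 := by
  have hr2 : 0 < r ^ 2 := by positivity
  rcases le_total (rho u y) r with h | h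
  · rw [min_eq_left h, dep, max_eq_right]
    rw [sub_nonneg, div_le_one hr2]
    have := rho_nonneg u y
    gcongr
  · rw [min_eq_right h, dep, max_eq_left, div_self hr2.ne', sub_self]
    rw [sub_nonpos, one_le_div hr2]
    gcongr

/-- one-dimensional chain rule for the kernels -/
theorem hasFDerivAt_dep_pow {F : Type*} [NormedAddCommGroup F] [NormedSpace ℝ F] (p : ℕ) {r : ℝ} {σ : F → ℝ} {L : F →L[ℝ] ℝ}
    {x : F} (h : HasFDerivAt σ ((2 : ℝ) • L) x) :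
    HasFDerivAt (fun x => (max 0 (1 - σ x / r ^ 2)) ^ (p + 2))
      (-(2 * (p + 2 : ℕ) * (max 0 (1 - σ x / r ^ 2)) ^ (p + 1) / r ^ 2) • L) x := by
  have h1 : HasFDerivAt (fun x => 1 - σ x / r ^ 2) (-((r ^ 2)⁻¹ • ((2 : ℝ) • L))) x := by
    have := (h.const_smul (r ^ 2)⁻¹).const_sub 1
    simpa [div_eq_inv_mul] using this
  have h2 := (hasDerivAt_posPow p (1 - σ x / r ^ 2)).comp_hasFDerivAt x h1
  have e : -(2 * ((p + 2 : ℕ) : ℝ) * (max 0 (1 - σ x / r ^ 2)) ^ (p + 1) / r ^ 2) • L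
      = (((p + 2 : ℕ) : ℝ) * (max 0 (1 - σ x / r ^ 2)) ^ (p + 1)) • (-((r ^ 2)⁻¹ • ((2 : ℝ) • L))) := by
    ext a
    simp only [smul_apply, neg_apply, smul_eq_mul]
    ring
  rw [e]
  exact h2

/-- the depth function and the kernels on the base (leaf `L-Freq-pt-ker`).
PLAN.  `dep = g(ρ/r)`, `g t = max 0 (1 - t²)` is `2`-Lipschitz on `[0, ∞)`.  `s ↦ (max 0 (1 - s))^p` is `C¹` for `p ≥ 2` with derivative
`- p (max 0 (1 - s))^(p-1)`; compose with `ρ²/r²` (`hasFDerivAt_rho_sq`). -/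
theorem ker_facts {κ : ℝ} {u : E m → E n} (hu : Geo κ u) {r : ℝ} (hr : 0 < r) :
    (∀ y, 0 ≤ dep u r y ∧ dep u r y ≤ 1) ∧
    (∀ y, y ∉ Bs u r → dep u r y = 0) ∧ (∀ y ∈ Bs u r, 0 < dep u r y) ∧
    (∀ y y', |dep u r y - dep u r y'| ≤ 9 / 4 * ‖y - y'‖ / r) ∧
    ContDiff ℝ 1 (phiR u r) ∧ ContDiff ℝ 1 (psiR u r) ∧
    (∀ y, HasFDerivAt (phiR u r) (-(psiR u r y / r ^ 2) • (innerSL ℝ (Gv u y) ∘L dF (fderiv ℝ u y))) y) ∧
    IsOpen (Bs u r) ∧ Bs u r ⊆ Metric.ball 0 r ∧ Metric.ball 0 (8 / 9 * r) ⊆ Bs u r ∧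
    tsupport (phiR u r) ⊆ Metric.closedBall 0 r := by
  have hr2 : 0 < r ^ 2 := by positivity
  obtain ⟨-, hρ2, hρ3, -, -⟩ := rho_facts hu
  have hc : ContDiff ℝ 1 (fun y => 1 - rho u y ^ 2 / r ^ 2) :=
    contDiff_const.sub (((hasFDerivAt_rho_sq hu 0).2.of_le (by norm_num)).div_const _)
  have hout : ∀ y, y ∉ Bs u r → dep u r y = 0 := fun y hy => by
    have hy' : r ≤ rho u y := not_lt.1 hy
    rw [dep_eq_min u hr, min_eq_right hy', div_self hr2.ne', sub_self]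
  have hsub : Bs u r ⊆ Metric.ball 0 r := fun y hy => by
    rw [Metric.mem_ball, dist_zero_right]
    exact (hρ2 y).1.trans_lt hy
  refine ⟨fun y => ⟨le_max_left _ _, max_le zero_le_one ?_⟩, hout, fun y hy => ?_, fun y y' => ?_, ?_, ?_,
    fun y => ?_, ?_, hsub, fun y hy => ?_, ?_⟩
  · have : 0 ≤ rho u y ^ 2 / r ^ 2 := by positivity
    linarith
  · refine lt_max_of_lt_right ?_
    rw [sub_pos, div_lt_one hr2]
    have h0 := rho_nonneg u y
    have : rho u y < r := hy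
    gcongr
  · rw [dep_eq_min u hr, dep_eq_min u hr]
    set a := min (rho u y) r
    set b := min (rho u y') r
    have a0 : 0 ≤ a := le_min (rho_nonneg u y) hr.le
    have b0 : 0 ≤ b := le_min (rho_nonneg u y') hr.le
    have a1 : a ≤ r := min_le_right _ _
    have b1 : b ≤ r := min_le_right _ _
    have hab : |a - b| ≤ 9 / 8 * ‖y - y'‖ := by
      refine (abs_min_sub_min_le_max _ _ _ _).trans ?_
      rw [sub_self, abs_zero]
      exact max_le (hρ3 y y') (by positivity)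
    have e : 1 - a ^ 2 / r ^ 2 - (1 - b ^ 2 / r ^ 2) = (b - a) * (a + b) / r ^ 2 := by
      field_simp; ring
    rw [e, abs_div, abs_mul, abs_of_pos hr2, abs_of_nonneg (add_nonneg a0 b0), abs_sub_comm,
      div_le_div_iff₀ hr2 hr]
    have : |a - b| * (a + b) ≤ (9 / 8 * ‖y - y'‖) * (2 * r) :=
      mul_le_mul hab (by linarith) (by linarith) (by positivity)
    nlinarith
  · exact (contDiff_posPow 8).comp hc
  · exact contDiff_const.mul ((contDiff_posPow 7).comp hc)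
  · have := hasFDerivAt_dep_pow 8 (r := r) (hasFDerivAt_rho_sq hu y).1
    have e : -(psiR u r y / r ^ 2) = -(2 * ((8 + 2 : ℕ) : ℝ) * (max 0 (1 - rho u y ^ 2 / r ^ 2)) ^ (8 + 1) / r ^ 2) := by
      simp only [psiR, dep]
      push_cast
      ring
    rw [e]
    exact this
  · have : Continuous (rho u) := by
      have := (contDiff_Fg_of (k := 4) hu.smooth).continuous
      exact (this.sub continuous_const).norm
    exact isOpen_lt this continuous_const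
  · rw [Metric.mem_ball, dist_zero_right] at hy
    have := (hρ2 y).2
    show rho u y < r
    linarith
  · refine closure_minimal (fun y hy => ?_) Metric.isClosed_closedBall
    by_contra hcon
    apply hy
    have : y ∉ Bs u r := fun h => hcon (Metric.ball_subset_closedBall (hsub h))
    simp [phiR, hout y this]

/-! ### regularity and sign of the curvature terms -/

/-- regularity of the mean curvature vector -/
theorem contDiff_HS {u : E m → E n} {k : ℕ} (hu : ContDiff ℝ (k + 2 : ℕ) u) : ContDiff ℝ k (HS u) := by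
  have h1 : ContDiff ℝ (k + 1 : ℕ) u := hu.of_le (by exact_mod_cast Nat.le_succ _)
  have hD2 : ContDiff ℝ k (D2 u) := by
    have : ContDiff ℝ (k + 1 : ℕ) (fderiv ℝ u) := contDiff_Du (k := k + 1) hu
    exact this.fderiv_right (by norm_cast)
  unfold HS II
  refine ContDiff.sum fun a _ => ?_
  refine (contDiff_Pv_of h1).clm_apply ((inV m n).contDiff.comp ?_)
  exact (hD2.clm_apply ((contDiff_gmat_inverse_Du h1).clm_apply contDiff_const)).clm_apply contDiff_const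

/-- regularity of `|∇^⊥ H_S|²` -/
theorem contDiff_DHSsq {u : E m → E n} {k : ℕ} (hu : ContDiff ℝ (k + 3 : ℕ) u) : ContDiff ℝ k (DHSsq u) := by
  have h1 : ContDiff ℝ (k + 1 : ℕ) u := hu.of_le (by exact_mod_cast (by omega : k + 1 ≤ k + 3))
  have hH : ContDiff ℝ (k + 1 : ℕ) (HS u) := contDiff_HS (k := k + 1) hu
  have hDH : ContDiff ℝ k (fderiv ℝ (HS u)) := contDiff_Du hH
  unfold DHSsq DHS
  refine ContDiff.sum fun a _ => ?_
  refine ContDiff.inner ℝ ?_ ?_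
  · exact (contDiff_Pv_of h1).clm_apply (hDH.clm_apply ((contDiff_gmat_inverse_Du h1).clm_apply contDiff_const))
  · exact (contDiff_Pv_of h1).clm_apply (hDH.clm_apply contDiff_const)

theorem Geo_continuous_HS {κ : ℝ} {u : E m → E n} (hu : Geo κ u) : Continuous (HS u) :=
  (contDiff_HS (k := 2) hu.smooth).continuous

theorem Geo_continuous_DHSsq {κ : ℝ} {u : E m → E n} (hu : Geo κ u) : Continuous (DHSsq u) :=
  (contDiff_DHSsq (k := 1) hu.smooth).continuous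

/-- `|∇^⊥ H_S|² ≥ 0` (the inverse metric is positive) -/
theorem DHSsq_nonneg (u : E m → E n) (y : E m) : 0 ≤ DHSsq u y := by
  set L : E m →L[ℝ] E (m + n) := Pv u y ∘L fderiv ℝ (HS u) y with hL
  set T := dFp (fderiv ℝ u y) with hT
  have h1 : DHSsq u y = trc ((ContinuousLinearMap.adjoint L ∘L L ∘L T) ∘L ContinuousLinearMap.adjoint T) := by
    rw [trc_eq_sum]
    unfold DHSsq DHS
    refine Finset.sum_congr rfl fun a _ => ?_
    rw [← dFp_comp_adjoint_dFp]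
    simp only [ContinuousLinearMap.comp_apply]
    rw [ContinuousLinearMap.adjoint_inner_left]
    rfl
  rw [h1, trc_comp_comm]
  have h2 : ContinuousLinearMap.adjoint T ∘L (ContinuousLinearMap.adjoint L ∘L L ∘L T)
      = ContinuousLinearMap.adjoint (L ∘L T) ∘L (L ∘L T) := by
    rw [ContinuousLinearMap.adjoint_comp L T]
    rfl
  rw [h2]
  exact trc_adjoint_comp_self_nonneg _

/-! ### the tube -/

/-- `Vv_facts` with explicit constants `h₀ = 2/9`, `C = 6` -/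
theorem Vv_facts_of_le {κ : ℝ} {u : E m → E n} (hu : Geo κ u) {X : E (m + n)} (hX : X ∈ Tub u (2 / 9)) :
    Ph u (npr u X) (Vv u X) = Vv u X ∧
    Jz u X (Vv u X) = Gv u (npr u X) ∧
    (∀ a b, inner ℝ (Kz u X a) b = inner ℝ a (Kz u X b)) ∧
    (∀ a b, inner ℝ (Jz u X a) b = inner ℝ a (Jz u X b)) ∧
    ‖Jz u X - ContinuousLinearMap.id ℝ _‖ ≤ 6 * κ * ‖zz u X‖ ∧
    ‖Kz u X - ContinuousLinearMap.id ℝ _‖ ≤ 6 * κ * ‖zz u X‖ ∧
    ‖Vv u X - Gv u (npr u X)‖ ≤ 6 * κ * ‖zz u X‖ * ‖Gv u (npr u X)‖ ∧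
    ‖Gv u (npr u X)‖ / 2 ≤ ‖Vv u X‖ ∧ ‖Vv u X‖ ≤ 2 * ‖Gv u (npr u X)‖ ∧
    |‖Vv u X‖ ^ 2 - ‖Gv u (npr u X)‖ ^ 2| ≤ 6 * κ * ‖zz u X‖ * ‖Vv u X‖ ^ 2 ∧
    HasFDerivAt (fun X => rho u (npr u X) ^ 2) ((2 : ℝ) • innerSL ℝ (Vv u X)) X ∧
    HasFDerivAt (fun X => ‖zz u X‖ ^ 2) ((2 : ℝ) • innerSL ℝ (zz u X)) X := by
  have hS := hu.norm_Shp_zz_le_half le_rfl hX
  have hS2 := hu.norm_Shp_le (npr u X) (zz u X)
  have hκ := hu.nonneg
  have hz0 := norm_nonneg (zz u X)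
  have hκz : 0 ≤ κ * ‖zz u X‖ := mul_nonneg hκ hz0
  have hPz : Ph u (npr u X) (zz u X) = 0 := (tube_unique_of_le hu (by norm_num) hX).2.2.1
  have hP := isProj_Ph u (npr u X)
  have hPG := (Gv_facts hu (npr u X)).2.1
  have hJK : ∀ a, Jz u X (Kz u X a) = a := fun a =>
    congrArg (fun T : E (m + n) →L[ℝ] E (m + n) => T a) (Jw_comp_Kw hS)
  have hPK : ∀ a, Ph u (npr u X) (Kz u X a) = Kz u X (Ph u (npr u X) a) := fun a =>
    congrArg (fun T : E (m + n) →L[ℝ] E (m + n) => T a) (Ph_comp_Kw hu.c2 hS)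
  have hKs : ∀ a b, inner ℝ (Kz u X a) b = inner ℝ a (Kz u X b) := fun a b => by
    rw [← ContinuousLinearMap.adjoint_inner_right, Kz_eq, adjoint_Kw hu.c2 hS]
  have hJs : ∀ a b, inner ℝ (Jz u X a) b = inner ℝ a (Jz u X b) := fun a b => by
    rw [← ContinuousLinearMap.adjoint_inner_right, Jz_eq, adjoint_Jw hu.c2]
  have hPV : Ph u (npr u X) (Vv u X) = Vv u X := by rw [Vv, hPK, hPG]
  have hJV : Jz u X (Vv u X) = Gv u (npr u X) := hJK _
  have hJ1 : ‖Jz u X - ContinuousLinearMap.id ℝ _‖ ≤ 9 / 4 * κ * ‖zz u X‖ := by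
    have : Jz u X - ContinuousLinearMap.id ℝ _ = -Shp u (npr u X) (zz u X) := by
      rw [Jz]; abel
    rw [this, norm_neg]; exact hS2
  have hK1 : ‖Kz u X - ContinuousLinearMap.id ℝ _‖ ≤ 9 / 2 * κ * ‖zz u X‖ := by
    have : Kz u X - ContinuousLinearMap.id ℝ _ = Shp u (npr u X) (zz u X) ∘L Kz u X := by
      conv_lhs => rw [Kz_eq, Kw_eq_add hS]
      rw [Kz_eq]; abel
    rw [this]
    refine (ContinuousLinearMap.opNorm_comp_le _ _).trans ?_
    have := mul_le_mul hS2 (norm_Kw_le hS) (norm_nonneg _) (by positivity)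
    rw [Kz_eq]
    linarith
  have hVG : ‖Vv u X - Gv u (npr u X)‖ ≤ 9 / 2 * κ * ‖zz u X‖ * ‖Gv u (npr u X)‖ := by
    have : Vv u X - Gv u (npr u X)
        = (Kz u X - ContinuousLinearMap.id ℝ (E (m + n)) : E (m + n) →L[ℝ] E (m + n)) (Gv u (npr u X)) := by
      rw [sub_apply, Vv]; rfl
    rw [this]
    exact (ContinuousLinearMap.le_opNorm _ _).trans (mul_le_mul_of_nonneg_right hK1 (norm_nonneg _))
  have hG2 : ‖Gv u (npr u X)‖ ≤ 2 * ‖Vv u X‖ := by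
    rw [← hJV]
    exact (ContinuousLinearMap.le_opNorm _ _).trans
      (mul_le_mul_of_nonneg_right (norm_Jw_le hS) (norm_nonneg _))
  have hV2 : ‖Vv u X‖ ≤ 2 * ‖Gv u (npr u X)‖ :=
    (ContinuousLinearMap.le_opNorm _ _).trans
      (mul_le_mul_of_nonneg_right (norm_Kw_le hS) (norm_nonneg _))
  have hsq : |‖Vv u X‖ ^ 2 - ‖Gv u (npr u X)‖ ^ 2| ≤ 6 * κ * ‖zz u X‖ * ‖Vv u X‖ ^ 2 := by
    set V := Vv u X
    set S := Shp u (npr u X) (zz u X)
    have e1 : Gv u (npr u X) = V - S V := by rw [← hJV, Jz, sub_apply]; rfl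
    have e2 : ‖S V‖ ≤ ‖S‖ * ‖V‖ := S.le_opNorm V
    have e3 : |inner ℝ V (S V)| ≤ ‖V‖ * ‖S V‖ := abs_real_inner_le_norm _ _
    rw [e1, norm_sub_sq_real]
    have e4 : ‖V‖ ^ 2 - (‖V‖ ^ 2 - 2 * inner ℝ V (S V) + ‖S V‖ ^ 2) = 2 * inner ℝ V (S V) - ‖S V‖ ^ 2 := by ring
    rw [e4]
    have e5 : ‖V‖ * ‖S V‖ ≤ ‖S‖ * ‖V‖ ^ 2 := by nlinarith [norm_nonneg V]
    have e6 : ‖S V‖ ^ 2 ≤ 1 / 2 * ‖S‖ * ‖V‖ ^ 2 := by
      have : ‖S V‖ ^ 2 ≤ (‖S‖ * ‖V‖) ^ 2 := by gcongr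
      nlinarith [norm_nonneg V, norm_nonneg S, sq_nonneg ‖V‖, mul_nonneg (norm_nonneg S) (sq_nonneg ‖V‖)]
    have e7 : ‖S‖ * ‖V‖ ^ 2 ≤ 9 / 4 * κ * ‖zz u X‖ * ‖V‖ ^ 2 := mul_le_mul_of_nonneg_right hS2 (sq_nonneg _)
    have e8 : 0 ≤ κ * ‖zz u X‖ * ‖V‖ ^ 2 := by positivity
    rw [abs_le] at e3 ⊢
    constructor <;> nlinarith [sq_nonneg ‖S V‖]
  refine ⟨hPV, hJV, hKs, hJs, hJ1.trans (by nlinarith), hK1.trans (by nlinarith), hVG.trans ?_,
    by linarith, hV2, hsq, ?_, ?_⟩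
  · have := mul_nonneg hκz (norm_nonneg (Gv u (npr u X)))
    nlinarith
  · have h1 := (hasFDerivAt_rho_sq hu (npr u X)).1.comp X (npr_local hu le_rfl hX).2
    have e : (2 : ℝ) • innerSL ℝ (Vv u X) = ((2 : ℝ) • (innerSL ℝ (Gv u (npr u X)) ∘L dF (fderiv ℝ u (npr u X)))) ∘L
        (dFp (fderiv ℝ u (npr u X)) ∘L Kz u X ∘L Ph u (npr u X)) := by
      ext a
      have q : dF (fderiv ℝ u (npr u X)) (dFp (fderiv ℝ u (npr u X)) (Kz u X (Ph u (npr u X) a)))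
          = Ph u (npr u X) (Kz u X (Ph u (npr u X) a)) := by
        rw [Ph_eq]; rfl
      simp only [smul_apply, ContinuousLinearMap.comp_apply, innerSL_apply_apply]
      rw [q, ← hP.symm, hPG, ← hKs, ← hP.symm]
      rw [show Kz u X (Gv u (npr u X)) = Vv u X from rfl, hPV]
    rw [e]
    exact h1
  · have h1 := (zz_local hu le_rfl hX).2.norm_sq
    have e : (2 : ℝ) • innerSL ℝ (zz u X)
        = 2 • (innerSL ℝ (zz u X)) ∘L (ContinuousLinearMap.id ℝ _ - Kz u X ∘L Ph u (npr u X)) := by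
      ext a
      simp only [smul_apply, ContinuousLinearMap.comp_apply, innerSL_apply_apply, sub_apply,
        ContinuousLinearMap.id_apply, inner_sub_right]
      rw [← hKs, ← hP.symm, hPK, hPz]
      simp
    rw [e]
    exact h1

/-- the field `V = K_z G` (leaf `L-Freq-pt-V`).
PLAN.  `Tube.shape_facts`: `A_z = Shp u y z` is symmetric, `P_h A_z = A_z = A_z P_h`, `‖A_z‖ ≤ C κ |z|`; so `J_z = 1 - A_z` and its inverse
`K_z` (`Tube.tube_deriv`) are symmetric and commute with `P_h`; Neumann: `‖K_z - 1‖ ≤ 2 C κ |z|` when `C κ |z| ≤ 1/2`.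
`A_z z = 0` (`P_h z = 0`, `Tube.tube_unique`), so `K_z z = z`.  Chain rule with `D npr = dFp K_z P_h`, `dF dFp = P_h`:
`D(ρ²∘npr) a = 2 ⟨G, P_h K_z P_h a⟩ = 2 ⟨K_z G, a⟩`.  `D|z|² a = 2 ⟨z, a - K_z P_h a⟩ = 2 ⟨z, a⟩`. -/
theorem Vv_facts (m n : ℕ) : ∃ h₀ C : ℝ, 0 < h₀ ∧ 0 < C ∧ ∀ (κ : ℝ) (u : E m → E n), Geo κ u → ∀ X ∈ Tub u h₀,
    Ph u (npr u X) (Vv u X) = Vv u X ∧
    Jz u X (Vv u X) = Gv u (npr u X) ∧
    (∀ a b, inner ℝ (Kz u X a) b = inner ℝ a (Kz u X b)) ∧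
    (∀ a b, inner ℝ (Jz u X a) b = inner ℝ a (Jz u X b)) ∧
    ‖Jz u X - ContinuousLinearMap.id ℝ _‖ ≤ C * κ * ‖zz u X‖ ∧
    ‖Kz u X - ContinuousLinearMap.id ℝ _‖ ≤ C * κ * ‖zz u X‖ ∧
    ‖Vv u X - Gv u (npr u X)‖ ≤ C * κ * ‖zz u X‖ * ‖Gv u (npr u X)‖ ∧
    ‖Gv u (npr u X)‖ / 2 ≤ ‖Vv u X‖ ∧ ‖Vv u X‖ ≤ 2 * ‖Gv u (npr u X)‖ ∧
    |‖Vv u X‖ ^ 2 - ‖Gv u (npr u X)‖ ^ 2| ≤ C * κ * ‖zz u X‖ * ‖Vv u X‖ ^ 2 ∧
    HasFDerivAt (fun X => rho u (npr u X) ^ 2) ((2 : ℝ) • innerSL ℝ (Vv u X)) X ∧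
    HasFDerivAt (fun X => ‖zz u X‖ ^ 2) ((2 : ℝ) • innerSL ℝ (zz u X)) X :=
  ⟨2 / 9, 6, by norm_num, by norm_num, fun _ _ hu _ hX => Vv_facts_of_le hu hX⟩

theorem kerT_facts_of_le {κ : ℝ} {u : E m → E n} (hu : Geo κ u) {r : ℝ} (hr : 0 < r) :
    ContDiffOn ℝ 1 (fun X => phiR u r (npr u X)) (Tub u (2 / 9)) ∧
    ContDiffOn ℝ 1 (fun X => psiR u r (npr u X)) (Tub u (2 / 9)) ∧
    ∀ X ∈ Tub u (2 / 9),
      HasFDerivAt (fun X => phiR u r (npr u X)) (-(psiR u r (npr u X) / r ^ 2) • innerSL ℝ (Vv u X)) X ∧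
      HasFDerivAt (fun X => psiR u r (npr u X))
        (-(360 * dep u r (npr u X) ^ 8 / r ^ 2) • innerSL ℝ (Vv u X)) X := by
  obtain ⟨-, -, -, -, h1, h2, -⟩ := ker_facts hu hr
  have hn : ContDiffOn ℝ 1 (npr u) (Tub u (2 / 9)) := (tube_deriv_of_le hu le_rfl).2.1.of_le (by norm_num)
  refine ⟨h1.comp_contDiffOn hn, h2.comp_contDiffOn hn, fun X hX => ⟨?_, ?_⟩⟩
  · have := hasFDerivAt_dep_pow 8 (r := r) (Vv_facts_of_le hu hX).2.2.2.2.2.2.2.2.2.2.1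
    have e : -(psiR u r (npr u X) / r ^ 2)
        = -(2 * ((8 + 2 : ℕ) : ℝ) * (max 0 (1 - rho u (npr u X) ^ 2 / r ^ 2)) ^ (8 + 1) / r ^ 2) := by
      simp only [psiR, dep]
      push_cast
      ring
    rw [e]
    exact this
  · have := (hasFDerivAt_dep_pow 7 (r := r) (Vv_facts_of_le hu hX).2.2.2.2.2.2.2.2.2.2.1).const_mul 20
    have e : -(360 * dep u r (npr u X) ^ 8 / r ^ 2) • innerSL ℝ (Vv u X)
        = (20 : ℝ) • (-(2 * ((7 + 2 : ℕ) : ℝ) * (max 0 (1 - rho u (npr u X) ^ 2 / r ^ 2)) ^ (7 + 1) / r ^ 2)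
            • innerSL ℝ (Vv u X)) := by
      rw [smul_smul]
      congr 1
      simp only [dep]
      push_cast
      ring
    rw [e]
    exact this

/-- the kernels in the tube (leaf `L-Freq-pt-kerT`; from `Vv_facts` and the one-dimensional facts of `ker_facts`) -/
theorem kerT_facts (m n : ℕ) : ∃ h₀ : ℝ, 0 < h₀ ∧ ∀ (κ : ℝ) (u : E m → E n), Geo κ u → ∀ r : ℝ, 0 < r →
    ContDiffOn ℝ 1 (fun X => phiR u r (npr u X)) (Tub u h₀) ∧
    ContDiffOn ℝ 1 (fun X => psiR u r (npr u X)) (Tub u h₀) ∧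
    ∀ X ∈ Tub u h₀,
      HasFDerivAt (fun X => phiR u r (npr u X)) (-(psiR u r (npr u X) / r ^ 2) • innerSL ℝ (Vv u X)) X ∧
      HasFDerivAt (fun X => psiR u r (npr u X))
        (-(360 * dep u r (npr u X) ^ 8 / r ^ 2) • innerSL ℝ (Vv u X)) X :=
  ⟨2 / 9, by norm_num, fun _ _ hu _ hr => kerT_facts_of_le hu hr⟩

/-- **derivative of `V`** (leaf `L-Freq-pt-DV`; tube geometry).
PLAN.  `V = K_z G∘π`.  `D(G∘π) a = (D_α P_h)(F y - F 0) + K_z P_h a`, `α = dFp K_z P_h a`, `|D P_h| ≤ C κ`.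
`D K_z = K_z (D A_z) K_z`, `A_z = Shp u (π X) (z X)` is bilinear in (`D P_h` at `π X`, `P_v z = z`): `|D A_z| ≤ C κ` (uses `Geo.d3`).
So `DV = P_h + O(κ (ρ + |z|))`. -/
theorem DV_bound (m n : ℕ) : ∃ h₀ C : ℝ, 0 < h₀ ∧ 0 < C ∧ ∀ (κ : ℝ) (u : E m → E n), Geo κ u →
    ContDiffOn ℝ 1 (Vv u) (Tub u h₀) ∧
    ∀ X ∈ Tub u h₀, ‖fderiv ℝ (Vv u) X - Ph u (npr u X)‖ ≤ C * κ * (rho u (npr u X) + ‖zz u X‖) :=
  DV_bound_aux m n

/-! ### algebra of a projection -/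

/-- two projections of the same rank: the tilt controls `|(1 - P) v|` on the range of `H` -/
theorem two_proj_tilt {N : ℕ} {H P : E N →L[ℝ] E N} (hH : IsProj m H) (hP : IsProj m P) {v : E N} (hv : H v = v) :
    ‖v - P v‖ ^ 2 ≤ tdiv P (ContinuousLinearMap.id ℝ _ - H) * ‖v‖ ^ 2 := by
  have h1 := norm_sq_apply_le_trc ((ContinuousLinearMap.id ℝ _ - P) ∘L H) v
  rw [← block_B_eq hH hP, ← (block_facts_aux hH hP).2.2.1] at h1
  have h2 : ((ContinuousLinearMap.id ℝ _ - P) ∘L H) v = v - P v := by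
    rw [ContinuousLinearMap.comp_apply, hv]; rfl
  rwa [h2] at h1

/-- the sharp projection inequality -/
theorem two_proj_sharp {N : ℕ} {H P : E N →L[ℝ] E N} (hH : IsProj m H) (hP : IsProj m P) {v z : E N} (hv : H v = v)
    (hz : H z = 0) : inner ℝ z (P v) ^ 2 * ‖v‖ ^ 2 ≤ ‖z‖ ^ 2 * ‖P v‖ ^ 2 * ‖v - P v‖ ^ 2 := by
  set w := P v with hw
  have e1 : inner ℝ z w = inner ℝ z (w - H w) := by
    rw [inner_sub_right, ← hH.symm, hz, inner_zero_left, sub_zero]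
  have e2 : inner ℝ z w ^ 2 ≤ ‖z‖ ^ 2 * ‖w - H w‖ ^ 2 := by
    rw [e1, ← mul_pow]
    exact sq_le_sq' (by have := abs_le.1 (abs_real_inner_le_norm z (w - H w)); linarith [this.1])
      (real_inner_le_norm _ _)
  have e3 := hH.norm_sq_add w
  have e4 := hP.norm_sq_add v
  rw [← hw] at e4
  have e5 : ‖w‖ ^ 2 ≤ ‖H w‖ * ‖v‖ := by
    have : inner ℝ (H w) v = ‖w‖ ^ 2 := by rw [hH.symm, hv, hw, hP.inner_apply_self]
    rw [← this]
    exact real_inner_le_norm _ _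
  have e6 : (‖w‖ ^ 2) ^ 2 ≤ ‖H w‖ ^ 2 * ‖v‖ ^ 2 := by
    rw [← mul_pow]
    gcongr
  have e7 : ‖w - H w‖ ^ 2 * ‖v‖ ^ 2 ≤ ‖w‖ ^ 2 * ‖v - w‖ ^ 2 := by nlinarith
  calc inner ℝ z w ^ 2 * ‖v‖ ^ 2 ≤ ‖z‖ ^ 2 * ‖w - H w‖ ^ 2 * ‖v‖ ^ 2 :=
        mul_le_mul_of_nonneg_right e2 (sq_nonneg _)
    _ = ‖z‖ ^ 2 * (‖w - H w‖ ^ 2 * ‖v‖ ^ 2) := by ring
    _ ≤ ‖z‖ ^ 2 * (‖w‖ ^ 2 * ‖v - w‖ ^ 2) := mul_le_mul_of_nonneg_left e7 (sq_nonneg _)
    _ = _ := by ring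

theorem proj_facts_of_le {κ : ℝ} {u : E m → E n} (hu : Geo κ u) {X : E (m + n)} (hX : X ∈ Tub u (2 / 9))
    {P : E (m + n) →L[ℝ] E (m + n)} (hP : IsProj m P) :
    0 ≤ bet u P X ∧ bet u P X + ‖P (Vv u X)‖ ^ 2 = ‖Vv u X‖ ^ 2 ∧
    bet u P X ≤ tilt u P X * ‖Vv u X‖ ^ 2 ∧
    0 ≤ hwt u P X ∧ hwt u P X ≤ 4 ∧ 0 ≤ rwt u P X ∧ rwt u P X ≤ tilt u P X * rho u (npr u X) ^ 2 ∧
    inner ℝ (zz u X) (P (Vv u X)) ^ 2 ≤ ‖zz u X‖ ^ 2 * hwt u P X * rwt u P X := by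
  obtain ⟨hPV, -, -, -, -, -, -, hGV, hVG, -, -, -⟩ := Vv_facts_of_le hu hX
  have hH := isProj_Ph u (npr u X)
  have hPz : Ph u (npr u X) (zz u X) = 0 := (tube_unique_of_le hu (by norm_num) hX).2.2.1
  have hGρ := (Gv_facts hu (npr u X)).2.2.2.2.2.1
  have hρ0 := rho_nonneg u (npr u X)
  have ht0 := tilt_nonneg u hP X
  have b0 : 0 ≤ bet u P X := sq_nonneg _
  have b1 : bet u P X + ‖P (Vv u X)‖ ^ 2 = ‖Vv u X‖ ^ 2 := by
    rw [bet, add_comm]; exact hP.norm_sq_add _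
  have b2 : bet u P X ≤ tilt u P X * ‖Vv u X‖ ^ 2 := two_proj_tilt hH hP hPV
  have hw0 : 0 ≤ hwt u P X := by rw [hwt]; positivity
  have hr0 : 0 ≤ rwt u P X := by rw [rwt]; positivity
  refine ⟨b0, b1, b2, hw0, ?_, hr0, ?_, ?_⟩
  · rw [hwt]
    rcases eq_or_lt_of_le hρ0 with h | h
    · rw [← h]; simp
    · rw [div_le_iff₀ (by positivity)]
      have : ‖Vv u X‖ ^ 2 ≤ (2 * rho u (npr u X)) ^ 2 := by
        have : ‖Vv u X‖ ≤ 2 * rho u (npr u X) := by linarith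
        gcongr
      nlinarith
  · rw [rwt]
    rcases eq_or_lt_of_le (norm_nonneg (Vv u X)) with h | h
    · rw [← h]; simp; positivity
    · rw [div_le_iff₀ (by positivity)]
      nlinarith [sq_nonneg (rho u (npr u X))]
  · rcases eq_or_lt_of_le (norm_nonneg (Vv u X)) with h | h
    · have : Vv u X = 0 := norm_eq_zero.1 h.symm
      rw [this]; simp; positivity
    · have hρ : 0 < rho u (npr u X) := by
        have : 0 < ‖Gv u (npr u X)‖ := by linarith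
        linarith
      have key := two_proj_sharp hH hP hPV hPz
      have e : ‖zz u X‖ ^ 2 * hwt u P X * rwt u P X
          = ‖zz u X‖ ^ 2 * ‖P (Vv u X)‖ ^ 2 * ‖Vv u X - P (Vv u X)‖ ^ 2 / ‖Vv u X‖ ^ 2 := by
        rw [hwt, rwt, bet]
        field_simp
      rw [e, le_div_iff₀ (by positivity)]
      exact key

/-- (leaf `L-Freq-pt-alg`)  PLAN.  `V` is horizontal, `z` vertical.  `bet = |V|² - |P V|²` (`IsProj.norm_sq_add`),
`bet = ⟨B V, V⟩ ≤ tr B |V|²` (`Tube.block_facts`).  Sharp projection inequality: `⟨z, P V⟩ = ⟨z, P_v P V⟩`,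
`|P_v P V|² = |P V|² - |P_h P V|²`, `|P_h P V| ≥ ⟨P V, V⟩/|V| = |P V|²/|V|`; hence `|P_v P V|² ≤ |P V|² bet / |V|² = hwt rwt`.
If `y = 0` then `G = 0`, `V = 0` and everything vanishes. -/
theorem proj_facts (m n : ℕ) : ∃ h₀ : ℝ, 0 < h₀ ∧ ∀ (κ : ℝ) (u : E m → E n), Geo κ u → ∀ X ∈ Tub u h₀,
    ∀ P : E (m + n) →L[ℝ] E (m + n), IsProj m P →
    0 ≤ bet u P X ∧ bet u P X + ‖P (Vv u X)‖ ^ 2 = ‖Vv u X‖ ^ 2 ∧
    bet u P X ≤ tilt u P X * ‖Vv u X‖ ^ 2 ∧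
    0 ≤ hwt u P X ∧ hwt u P X ≤ 4 ∧ 0 ≤ rwt u P X ∧ rwt u P X ≤ tilt u P X * rho u (npr u X) ^ 2 ∧
    inner ℝ (zz u X) (P (Vv u X)) ^ 2 ≤ ‖zz u X‖ ^ 2 * hwt u P X * rwt u P X :=
  ⟨2 / 9, by norm_num, fun _ _ hu _ hX _ hP => proj_facts_of_le hu hX hP⟩

theorem hwt_defect_arith {a v g ρ2 κ z : ℝ} (a0 : 0 ≤ a) (hav : a ≤ v) (hv : 0 < v) (hρ : 0 < ρ2) (hκ : 0 ≤ κ)
    (hκ1 : κ ≤ 1) (hz : 0 ≤ z) (hvg : v ≤ 4 * g) (hsq : |v - g| ≤ 6 * κ * z * v)
    (h2 : (1 - κ ^ 2 * ρ2 / 4) * ρ2 ≤ g) (h3 : g ≤ ρ2) :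
    1 - a / ρ2 ≤ (v - a) / v + 24 * κ * (z + ρ2) := by
  have h1 : g - 24 * κ * z * g ≤ v := by
    have := (abs_le.1 hsq).1
    have q : 6 * κ * z * v ≤ 6 * κ * z * (4 * g) := mul_le_mul_of_nonneg_left hvg (by positivity)
    linarith
  have h4 : ρ2 - v ≤ 24 * κ * (z + ρ2) * ρ2 := by
    have q1 : 24 * κ * z * g ≤ 24 * κ * z * ρ2 := mul_le_mul_of_nonneg_left h3 (by positivity)
    have q2 : κ ^ 2 * ρ2 / 4 * ρ2 ≤ 24 * κ * ρ2 * ρ2 := by
      have : κ ^ 2 ≤ κ := by nlinarith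
      have : κ ^ 2 * (ρ2 * ρ2) ≤ κ * (ρ2 * ρ2) := mul_le_mul_of_nonneg_right this (by positivity)
      have : 0 ≤ κ * (ρ2 * ρ2) := by positivity
      nlinarith
    nlinarith
  have e3 : 1 - a / ρ2 - (v - a) / v = a * (ρ2 - v) / (ρ2 * v) := by
    field_simp; ring
  have h5 : a * (ρ2 - v) / (ρ2 * v) ≤ 24 * κ * (z + ρ2) := by
    rw [div_le_iff₀ (by positivity)]
    have t0 : 0 ≤ 24 * κ * (z + ρ2) * ρ2 := by positivity
    calc a * (ρ2 - v) ≤ a * (24 * κ * (z + ρ2) * ρ2) := mul_le_mul_of_nonneg_left h4 a0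
      _ ≤ v * (24 * κ * (z + ρ2) * ρ2) := mul_le_mul_of_nonneg_right hav t0
      _ = _ := by ring
  linarith

theorem hwt_defect_of_le {κ : ℝ} {u : E m → E n} (hu : Geo κ u) {X : E (m + n)} (hX : X ∈ Tub u (2 / 9))
    {P : E (m + n) →L[ℝ] E (m + n)} (hP : IsProj m P) (hy : npr u X ≠ 0) :
    1 - hwt u P X ≤ rwt u P X / rho u (npr u X) ^ 2 + 24 * κ * (‖zz u X‖ + rho u (npr u X) ^ 2) ∧
    rwt u P X / rho u (npr u X) ^ 2 ≤ tilt u P X := by
  obtain ⟨-, -, -, -, -, -, -, hGV, hVG, hsq, -, -⟩ := Vv_facts_of_le hu hX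
  obtain ⟨b0, b1, b2, -, -, -, hrt, -⟩ := proj_facts_of_le hu hX hP
  obtain ⟨-, -, -, -, hGy, hGρ, hww⟩ := Gv_facts hu (npr u X)
  obtain ⟨-, hw1, hw2⟩ := hww hy
  have hy0 : 0 < ‖npr u X‖ := norm_pos_iff.2 hy
  have hG0 : 0 < ‖Gv u (npr u X)‖ := by linarith
  have hρ : 0 < rho u (npr u X) := by linarith
  have hV0 : 0 < ‖Vv u X‖ := by linarith
  have hρ2 : 0 < rho u (npr u X) ^ 2 := by positivity
  have hV2 : 0 < ‖Vv u X‖ ^ 2 := by positivity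
  refine ⟨?_, by rw [div_le_iff₀ hρ2]; exact hrt⟩
  have e1 : rwt u P X / rho u (npr u X) ^ 2 = (‖Vv u X‖ ^ 2 - ‖P (Vv u X)‖ ^ 2) / ‖Vv u X‖ ^ 2 := by
    rw [rwt, ← b1]; field_simp; ring
  rw [e1, hwt]
  refine hwt_defect_arith (g := ‖Gv u (npr u X)‖ ^ 2) (sq_nonneg _) (by linarith) hV2 hρ2 hu.nonneg hu.le_one
    (norm_nonneg _) ?_ hsq ?_ ?_
  · have : ‖Vv u X‖ ^ 2 ≤ (2 * ‖Gv u (npr u X)‖) ^ 2 := by gcongr
    nlinarith
  · rw [ww, le_div_iff₀ hρ2] at hw1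
    exact hw1
  · rw [ww, div_le_one hρ2] at hw2
    exact hw2

/-- **defect of the height weight** (leaf `L-Freq-pt-defect`).
PLAN.  `1 - hwt = (1 - |P V|²/|V|²) + (|P V|²/|V|²)(1 - |V|²/ρ²)`; `1 - |P V|²/|V|² = bet/|V|² = rwt/ρ² ≤ tilt`;
`|V|²/ρ² ≥ (1 - C κ |z|) ww ≥ 1 - C κ |z| - κ² ρ²/4` (`Vv_facts`, `Gv_facts`). -/
theorem hwt_defect (m n : ℕ) : ∃ h₀ C : ℝ, 0 < h₀ ∧ 0 < C ∧ ∀ (κ : ℝ) (u : E m → E n), Geo κ u → ∀ X ∈ Tub u h₀,
    ∀ P : E (m + n) →L[ℝ] E (m + n), IsProj m P → npr u X ≠ 0 →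
    1 - hwt u P X ≤ rwt u P X / rho u (npr u X) ^ 2 + C * κ * (‖zz u X‖ + rho u (npr u X) ^ 2) ∧
    rwt u P X / rho u (npr u X) ^ 2 ≤ tilt u P X :=
  ⟨2 / 9, 24, by norm_num, by norm_num, fun _ _ hu _ hX _ hP hy => hwt_defect_of_le hu hX hP hy⟩

end Claimed.Agent.R322.Freq
end
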