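/- Packed by merge_tool.py (helper293): 4 modules of Claimed.Agent.R322 in one file, same declarations.
   Old modules, in this order: Fit.Fits.Defs, Fit.Pde.Mss, Lin.Limit, Freq.Angle -/
import Claimed.Agent.R322.Pack005
import Claimed.Agent.R322.Fit.Pde.Real
import Claimed.Agent.R322.Pack007
import Claimed.Agent.R322.Pack017
import Claimed.Agent.R322.Pack053
import Claimed.Agent.R322.Pack012
import Claimed.Agent.R322.Pack046
import Claimed.Agent.R322.Pack037

/- ===== packed: Claimed.Agent.R322.Fit.Fits.Defs ===== -/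
section
/-!
# Row 322, Fit/Fits (AE Lemma 7.1 = CO Lemma 4.1): definitions   (architect helper118)

Everything is written in VERTICAL coordinates over a GLOBAL graph function `f : E m → E n`.

For `X : E (m+n)`: `y = prH X`, `A = Df(y)`, `T = dF A = (1; A)`, `N = dN A = (-Aᵀ; 1)`, `G = Gf f y = (1 + AᵀA)⁻¹`,
`H = Ph f y` (tangent projection of the graph at the point ABOVE `y`), `V = Pv f y = 1 - H`.

* `zet f X = prV X - f (prH X)`  vertical height, `D zet = Nᵀ`;
* `tiV f P X = tr (P V)`         tilt of the plane `P` against the tangent plane at the vertical foot point;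
* `bet A P = Nᵀ P T`             mixed block, `|bet| ≤ (1+|A|)² sqrt(tiV)`;
* `PhiW f w = Dw G + 2 A G S_w G`, `S_w = ⟨D²f, w⟩`;  `lamV f = ∇ log sqrt(det g)`;  `LL f w = div (PhiW f w) + PhiW f w (lamV f)`:
  the second order operator (acting on test functions) of the weak Jacobi estimate;
* test fields `fldV f w = N w` (normal), `fldH f Ψ = T Ψᵀ zet` (tangential), `fldC f χ = χ² V (0, zet)` (Caccioppoli);
* `Zc R t`, `muc W R t`, `Flat W R t` : flat working cylinder `{|prH X| < R, |prV X| < t}` with a support-free collar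
  `t/2 < |prV X| < t`.  In start units `Zc 300 1 = Fit.Wk`.
* `Hgt W R t f x r h` : all support of the working cylinder over `ball x r` has vertical height `≤ h` over the graph of `f`.
-/

set_option autoImplicit false

open scoped ENNReal ContDiff Topology
open MeasureTheory

namespace Claimed.Agent.R322.Fit.Fits

open Claimed.Agent.R322.Tube

local notation "adj" => ContinuousLinearMap.adjoint

variable {m n : ℕ}

/-- vertical height over the graph of `f`. -/
noncomputable def zet (f : E m → E n) (X : E (m + n)) : E n := prV m n X - f (prH m n X)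

/-- the normal frame `N(A) w = (-Aᵀ w, w)`. -/
noncomputable def dN (A : E m →L[ℝ] E n) : E n →L[ℝ] E (m + n) := inV m n - inH m n ∘L adj A

/-- tilt against the tangent plane of the graph at the vertical foot point. -/
noncomputable def tiV (f : E m → E n) (P : E (m + n) →L[ℝ] E (m + n)) (X : E (m + n)) : ℝ :=
  tdiv P (Pv f (prH m n X))

/-- the mixed block `β = Nᵀ P T`. -/
noncomputable def bet (A : E m →L[ℝ] E n) (P : E (m + n) →L[ℝ] E (m + n)) : E m →L[ℝ] E n :=
  adj (dN A) ∘L P ∘L dF A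

/-- Hilbert-Schmidt product `⟨B, Φ⟩ = tr (Φᵀ B)`. -/
noncomputable def hs (B Φ : E m →L[ℝ] E n) : ℝ := trc (adj Φ ∘L B)

/-- `g⁻¹` along the graph. -/
noncomputable def Gf (f : E m → E n) (y : E m) : E m →L[ℝ] E m := (gmat (fderiv ℝ f y)).inverse

/-- `Φ_w = Dw G + 2 A G S_w G`. -/
noncomputable def PhiW (f w : E m → E n) (y : E m) : E m →L[ℝ] E n :=
  fderiv ℝ w y ∘L Gf f y
    + (2 : ℝ) • (fderiv ℝ f y ∘L Gf f y ∘L Sop f y (inV m n (w y)) ∘L Gf f y)

/-- `λ = ∇ log sqrt(det g)`: `⟨λ, b⟩ = tr (G Aᵀ D_b A)`. -/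
noncomputable def lamV (f : E m → E n) (y : E m) : E m :=
  ∑ b : Fin m, trc (Gf f y ∘L adj (fderiv ℝ f y) ∘L D2 f y (EuclideanSpace.single b 1)) •
    EuclideanSpace.single b (1 : ℝ)

/-- divergence of a field of homomorphisms: `div Ψ = ∑_a (∂_a Ψ) e_a`. -/
noncomputable def dvg (Ψ : E m → E m →L[ℝ] E n) (y : E m) : E n :=
  ∑ a : Fin m, fderiv ℝ Ψ y (EuclideanSpace.single a 1) (EuclideanSpace.single a 1)

/-- the operator of the weak Jacobi estimate, `LL f w = (1/√g) div (√g Φ_w)`. -/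
noncomputable def LL (f w : E m → E n) (y : E m) : E n :=
  dvg (PhiW f w) y + PhiW f w y (lamV f y)

/-- normal test field `N w`. -/
noncomputable def fldV (f w : E m → E n) (X : E (m + n)) : E (m + n) :=
  dN (fderiv ℝ f (prH m n X)) (w (prH m n X))

/-- tangential test field `T Ψᵀ ζ`. -/
noncomputable def fldH (f : E m → E n) (Ψ : E m → E m →L[ℝ] E n) (X : E (m + n)) : E (m + n) :=
  dF (fderiv ℝ f (prH m n X)) (adj (Ψ (prH m n X)) (zet f X))

/-- the test field of the weak Jacobi estimate. -/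
noncomputable def fldJ (f w : E m → E n) (X : E (m + n)) : E (m + n) :=
  fldV f w X - fldH f (PhiW f w) X

/-- the test field of the Caccioppoli inequality, `χ² V (0, ζ)`. -/
noncomputable def fldC (f : E m → E n) (χ : E m → ℝ) (X : E (m + n)) : E (m + n) :=
  (χ (prH m n X)) ^ 2 • Pv f (prH m n X) (inV m n (zet f X))

/-- flat working cylinder. -/
def Zc (m n : ℕ) (R t : ℝ) : Set (E (m + n)) := {X | ‖prH m n X‖ < R ∧ ‖prV m n X‖ < t}

/-- the weight restricted to the working cylinder. -/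
noncomputable def muc (W : SIV m n) (R t : ℝ) : Measure (E (m + n)) := W.μ.restrict (Zc m n R t)

/-- the closed working cylinder lies in the domain; the collar `t/2 < |prV X| < t` carries no support. -/
structure Flat (W : SIV m n) (R t : ℝ) : Prop where
  t_pos : 0 < t
  dom : {X | ‖prH m n X‖ ≤ R ∧ ‖prV m n X‖ ≤ t} ⊆ W.U
  gap : ∀ X ∈ W.support, ‖prH m n X‖ < R → ‖prV m n X‖ < t → ‖prV m n X‖ ≤ t / 2

/-- height bound over `ball x r`. -/
def Hgt (W : SIV m n) (R t : ℝ) (f : E m → E n) (x : E m) (r h : ℝ) : Prop :=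
  ∀ X ∈ W.support, X ∈ Zc m n R t → ‖prH m n X - x‖ < r → ‖zet f X‖ ≤ h

/-- the part of the working cylinder over `ball x r`. -/
def ovr (m n : ℕ) (x : E m) (r : ℝ) : Set (E (m + n)) := {X | ‖prH m n X - x‖ < r}

/-- weak closeness of the projected mass over `ball x r` to `Q` sheets, at scale `ℓ`. -/
def WMass (W : SIV m n) (R t : ℝ) (Q : ℕ) (x : E m) (r ℓ σ : ℝ) : Prop :=
  ∀ (η : E m → ℝ) (A : ℝ), ContDiff ℝ 1 η → tsupport η ⊆ Metric.ball x r →
    (∀ y, |η y| ≤ A) → (∀ y, ℓ * ‖fderiv ℝ η y‖ ≤ A) →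
    |∫ X, η (prH m n X) ∂(muc W R t) - Q * ∫ y, η y ∂(μH[(m : ℝ)] : Measure (E m))| ≤ σ * ℓ ^ m * A

end Claimed.Agent.R322.Fit.Fits
end

/- ===== packed: Claimed.Agent.R322.Fit.Pde.Mss ===== -/
section
/-!
# Row 322, Fit/Pde: the exact difference algebra of the minimal surface system   (architect helper281)

`Gi T = (1 + T† T)⁻¹`.  For `f₁ f₂ : E m → E n`, `p_i = D f_i (y)`, `G_i = Gi p_i`, `d = f₁ - f₂`:
`g₁ - g₂ = p₁† Dd + Dd† p₂`, `G₁ - G₂ = - G₁ (g₁ - g₂) G₂`, hence (EXACTLY, no remainder)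

  `mssOp f₁ - mssOp f₂ = (pairCoef f₁ f₂).op (f₁ - f₂)`,
  `Y^{ab} = ⟪G₁ e_b, e_a⟫ - δ_ab`,
  `B^e_{αγ} = - [D²f₂ (G₁ p₁† ε_γ, G₂ e_e)]^α - [D²f₂ (G₁ e_e, G₂ p₂† ε_γ)]^α`.

The linearisation of `mssOp` at `u` is `(pairCoef u u).op`.

Components (complex valued functions, for the Wiener bounds in `MssW.lean`):
`Pc f α a = ∂_a f^α`, `Hc f α c d = ∂_c ∂_d f^α`, `Gc f a b = ⟪G e_b, e_a⟫`, `Yc f a b = Gc f a b - δ_ab`, `Tc f γ c = (G p† ε_γ)_c = ∑_b Gc f c b Pc f γ b`.

PLANS (pure linear algebra at a fixed point `y`; `e_a = EuclideanSpace.single a 1`).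
* Tools: `Boot.gOp_isInvertible` (so `Gi T` is a two-sided inverse: `ContinuousLinearMap.IsInvertible.self_comp_inverse`, `inverse_comp_self`
  or `.inverse_apply_eq`), `Boot.gOp_inner`; `Gi T` is symmetric: `⟪Gi T u, v⟫ = ⟪u, Gi T v⟫` (write `u = g u'`, `v = g v'`, `g` symmetric by `gOp_inner`);
  expansion `v = ∑_a ⟪v, e_a⟫ e_a` (`EuclideanSpace.basisFun`, `OrthonormalBasis.sum_repr'`), `⟪v, e_a⟫ = v a` (`EuclideanSpace.inner_single_right`).
* `Gi_sub`: `G₁ - G₂ = G₁ (g₂ - g₁) G₂` and `g₁ - g₂ = p₁† (p₁ - p₂) + (p₁ - p₂)† p₂`.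
* `pairCoef_op_eq`: see the header of the theorem; expand `G₁ e_a`, `Dw (G₂ e_a)`, `Dw† (p₂ G₂ e_a)` in the bases and use the bilinearity of `D²w`, `D²f₂`,
  the symmetry of `G₂`; `pdv a (pdv b w) y = D²w(y)(e_a)(e_b)` (as in `Boot.pdv_pdv_cxv`).
* `mssOp_sub`: `D²f₁ = D²d + D²f₂`, `Dd = p₁ - p₂`, `Gi_sub`, `pairCoef_op_eq`.
-/

set_option autoImplicit false

open scoped ENNReal ContDiff Topology FourierTransform RealInnerProductSpace
open MeasureTheory

namespace Claimed.Agent.R322.Fit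

variable {m n : ℕ}

local notation "adj" => ContinuousLinearMap.adjoint

/-- the inverse metric `(1 + T† T)⁻¹` of a linear map. -/
noncomputable def Gi (T : E m →L[ℝ] E n) : E m →L[ℝ] E m := (Boot.gOp T).inverse

/-- the coefficients of the exact difference equation. -/
noncomputable def pairCoef (f₁ f₂ : E m → E n) : Coef m n where
  Y a b y := ⟪Gi (fderiv ℝ f₁ y) (EuclideanSpace.single b 1), (EuclideanSpace.single a 1 : E m)⟫
    - if a = b then 1 else 0
  B e α γ y :=
    - (fderiv ℝ (fderiv ℝ f₂) y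
        (Gi (fderiv ℝ f₁ y)
          (ContinuousLinearMap.adjoint (fderiv ℝ f₁ y) (EuclideanSpace.single γ 1)))
        (Gi (fderiv ℝ f₂ y) (EuclideanSpace.single e 1))) α
    - (fderiv ℝ (fderiv ℝ f₂) y
        (Gi (fderiv ℝ f₁ y) (EuclideanSpace.single e 1))
        (Gi (fderiv ℝ f₂ y)
          (ContinuousLinearMap.adjoint (fderiv ℝ f₂ y) (EuclideanSpace.single γ 1)))) α

/-! ### components -/

/-- the slopes `∂_a f^α`. -/
noncomputable def Pc (f : E m → E n) (α : Fin n) (a : Fin m) : E m → ℂ := Boot.cxv (pdv a f) α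

/-- the second derivatives `∂_c ∂_d f^α`. -/
noncomputable def Hc (f : E m → E n) (α : Fin n) (c d : Fin m) : E m → ℂ :=
  Boot.cxv (pdv c (pdv d f)) α

/-- the entries of the inverse metric. -/
noncomputable def Gc (f : E m → E n) (a b : Fin m) (y : E m) : ℂ :=
  ((⟪Gi (fderiv ℝ f y) (EuclideanSpace.single b 1), (EuclideanSpace.single a 1 : E m)⟫ : ℝ) : ℂ)

/-- the entries of the inverse metric minus the identity. -/
noncomputable def Yc (f : E m → E n) (a b : Fin m) (y : E m) : ℂ :=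
  Gc f a b y - if a = b then 1 else 0

/-- the components of `G p† ε_γ`. -/
noncomputable def Tc (f : E m → E n) (γ : Fin n) (c : Fin m) (y : E m) : ℂ :=
  ∑ b, Gc f c b y * Pc f γ b y

theorem cx_pairCoef_Y (f₁ f₂ : E m → E n) (a b : Fin m) :
    cx ((pairCoef f₁ f₂).Y a b) = Yc f₁ a b := by
  funext y
  by_cases h : a = b <;> simp [cx, pairCoef, Yc, Gc, h]

/-! ### leaf L-Fit-Mss-A : the inverse metric -/

theorem Gi_eq_gmat (T : E m →L[ℝ] E n) : Gi T = (Tube.gmat T).inverse := rfl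

theorem gOp_eq_gmat (T : E m →L[ℝ] E n) : Boot.gOp T = Tube.gmat T := rfl

theorem gOp_Gi (T : E m →L[ℝ] E n) (v : E m) : Boot.gOp T (Gi T v) = v :=
  Tube.gmat_apply_inverse T v

theorem Gi_gOp (T : E m →L[ℝ] E n) (v : E m) : Gi T (Boot.gOp T v) = v :=
  Tube.gmat_inverse_apply_gmat T v

theorem Gi_symm (T : E m →L[ℝ] E n) (u v : E m) : ⟪Gi T u, v⟫ = ⟪u, Gi T v⟫ :=
  Tube.gmat_inverse_symm T u v

theorem Gi_zero : Gi (0 : E m →L[ℝ] E n) = ContinuousLinearMap.id ℝ (E m) := by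
  have h : Boot.gOp (0 : E m →L[ℝ] E n) = ContinuousLinearMap.id ℝ (E m) := by
    simp [Boot.gOp]
  unfold Gi
  rw [h]
  exact ContinuousLinearMap.inverse_id

theorem norm_Gi_le (T : E m →L[ℝ] E n) : ‖Gi T‖ ≤ 1 := Tube.norm_gmat_inverse_le T

/-- the resolvent identity. -/
theorem Gi_sub (T₁ T₂ : E m →L[ℝ] E n) :
    Gi T₁ - Gi T₂ = - (Gi T₁ ∘L (ContinuousLinearMap.adjoint T₁ ∘L (T₁ - T₂)
      + ContinuousLinearMap.adjoint (T₁ - T₂) ∘L T₂) ∘L Gi T₂) := by
  have h1 : ContinuousLinearMap.adjoint T₁ ∘L (T₁ - T₂)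
      + ContinuousLinearMap.adjoint (T₁ - T₂) ∘L T₂ = Boot.gOp T₁ - Boot.gOp T₂ := by
    ext1 v
    simp [Boot.gOp, map_sub]
  rw [h1]
  ext1 v
  simp only [_root_.neg_apply, ContinuousLinearMap.comp_apply, _root_.sub_apply,
    map_sub, gOp_Gi, Gi_gOp]
  abel

/-! ### leaf L-Fit-Mss-B : the operator in invariant form, the exact difference identity -/

theorem sum_apply_single {k : ℕ} (v : E k) :
    ∑ a, v a • (EuclideanSpace.single a (1 : ℝ) : E k) = v := by
  ext b
  simp [Finset.sum_apply, Pi.single_apply]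

theorem inner_single_eq {k : ℕ} (v : E k) (a : Fin k) :
    ⟪v, (EuclideanSpace.single a (1 : ℝ) : E k)⟫ = v a := by
  rw [EuclideanSpace.inner_single_right]
  simp

theorem sum_inner_single {k : ℕ} (v : E k) :
    ∑ a, ⟪v, (EuclideanSpace.single a (1 : ℝ) : E k)⟫ • (EuclideanSpace.single a (1 : ℝ) : E k)
      = v := by
  simp only [inner_single_eq]
  exact sum_apply_single v

/-- swapping an operator in a trace of a bilinear map. -/
theorem tr_swap {F : Type*} [NormedAddCommGroup F] [NormedSpace ℝ F]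
    (β : E m →L[ℝ] E m →L[ℝ] F) (L M : E m →L[ℝ] E m) :
    ∑ e, β (L (EuclideanSpace.single e 1)) (M (EuclideanSpace.single e 1))
      = ∑ a, β (L (adj M (EuclideanSpace.single a 1))) (EuclideanSpace.single a 1) := by
  have h1 : ∀ e : Fin m, M (EuclideanSpace.single e 1)
      = ∑ a, ⟪(EuclideanSpace.single e (1 : ℝ) : E m), adj M (EuclideanSpace.single a 1)⟫
          • (EuclideanSpace.single a (1 : ℝ) : E m) := by
    intro e
    conv_lhs => rw [← sum_inner_single (M (EuclideanSpace.single e 1))]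
    refine Finset.sum_congr rfl fun a _ => ?_
    rw [ContinuousLinearMap.adjoint_inner_right]
  have h2 : ∀ a : Fin m, adj M (EuclideanSpace.single a 1)
      = ∑ e, ⟪(EuclideanSpace.single e (1 : ℝ) : E m), adj M (EuclideanSpace.single a 1)⟫
          • (EuclideanSpace.single e (1 : ℝ) : E m) := by
    intro a
    conv_lhs => rw [← sum_inner_single (adj M (EuclideanSpace.single a 1))]
    refine Finset.sum_congr rfl fun e _ => ?_
    rw [real_inner_comm]
  calc ∑ e, β (L (EuclideanSpace.single e 1)) (M (EuclideanSpace.single e 1))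
      = ∑ e, ∑ a, ⟪(EuclideanSpace.single e (1 : ℝ) : E m), adj M (EuclideanSpace.single a 1)⟫
          • β (L (EuclideanSpace.single e 1)) (EuclideanSpace.single a 1) := by
        refine Finset.sum_congr rfl fun e _ => ?_
        conv_lhs => rw [h1 e]
        simp only [map_sum, map_smul]
    _ = ∑ a, ∑ e, ⟪(EuclideanSpace.single e (1 : ℝ) : E m), adj M (EuclideanSpace.single a 1)⟫
          • β (L (EuclideanSpace.single e 1)) (EuclideanSpace.single a 1) := Finset.sum_comm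
    _ = _ := by
        refine Finset.sum_congr rfl fun a _ => ?_
        conv_rhs => rw [h2 a]
        simp only [map_sum, map_smul, _root_.sum_apply, _root_.smul_apply]

theorem pdv_pdv_eq {F : Type*} [NormedAddCommGroup F] [NormedSpace ℝ F] {w : E m → F}
    (hw : ContDiff ℝ 2 w) (a b : Fin m) (y : E m) :
    pdv a (pdv b w) y
      = fderiv ℝ (fderiv ℝ w) y (EuclideanSpace.single a 1) (EuclideanSpace.single b 1) := by
  have hd : ContDiff ℝ 1 (fderiv ℝ w) := hw.fderiv_right (by norm_num)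
  have hD : HasFDerivAt (fun z => fderiv ℝ w z (EuclideanSpace.single b 1))
      ((ContinuousLinearMap.apply ℝ F (EuclideanSpace.single b (1:ℝ))) ∘L
        fderiv ℝ (fderiv ℝ w) y) y :=
    (ContinuousLinearMap.apply ℝ F (EuclideanSpace.single b (1:ℝ))).hasFDerivAt.comp y
      (hd.differentiable (by norm_num) y).hasFDerivAt
  have : pdv b w = fun z => fderiv ℝ w z (EuclideanSpace.single b 1) := rfl
  rw [this]
  unfold pdv
  rw [hD.fderiv]
  rfl

theorem adj_Gi (T : E m →L[ℝ] E n) : adj (Gi T) = Gi T := Tube.adjoint_gmat_inverse T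

/-- `(pairCoef f₁ f₂).op w = tr (D²w ∘ G₁) - tr (D²f₂ ∘ G₁ (p₁† Dw + Dw† p₂) G₂)`.
For `f₁ = f₂ = u` this is the linearisation of `mssOp` at `u`. -/
theorem pairCoef_op_eq (f₁ f₂ : E m → E n) {w : E m → E n} (hw : ContDiff ℝ 2 w) (y : E m) :
    (pairCoef f₁ f₂).op w y
      = ∑ a, fderiv ℝ (fderiv ℝ w) y (Gi (fderiv ℝ f₁ y) (EuclideanSpace.single a 1))
          (EuclideanSpace.single a 1)
        - ∑ a, fderiv ℝ (fderiv ℝ f₂) y
            (Gi (fderiv ℝ f₁ y)
              ((ContinuousLinearMap.adjoint (fderiv ℝ f₁ y) ∘L fderiv ℝ w y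
                + ContinuousLinearMap.adjoint (fderiv ℝ w y) ∘L fderiv ℝ f₂ y)
                (Gi (fderiv ℝ f₂ y) (EuclideanSpace.single a 1))))
            (EuclideanSpace.single a 1) := by
  set p₁ := fderiv ℝ f₁ y with hp₁
  set p₂ := fderiv ℝ f₂ y with hp₂
  set q := fderiv ℝ w y with hq
  set β := fderiv ℝ (fderiv ℝ f₂) y with hβ
  set δ := fderiv ℝ (fderiv ℝ w) y with hδ
  -- second order part
  have hA : ∑ a, pdv a (pdv a w) y + ∑ a, ∑ b, (pairCoef f₁ f₂).Y a b y • pdv a (pdv b w) y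
      = ∑ a, δ (Gi p₁ (EuclideanSpace.single a 1)) (EuclideanSpace.single a 1) := by
    simp only [pdv_pdv_eq hw, pairCoef, ← hp₁, ← hδ, sub_smul, Finset.sum_sub_distrib]
    have h1 : ∑ a : Fin m, ∑ b : Fin m, (if a = b then (1 : ℝ) else 0)
        • δ (EuclideanSpace.single a 1) (EuclideanSpace.single b 1)
        = ∑ a, δ (EuclideanSpace.single a 1) (EuclideanSpace.single a 1) := by
      refine Finset.sum_congr rfl fun a _ => ?_
      simp
    rw [h1, add_sub_cancel, Finset.sum_comm]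
    refine Finset.sum_congr rfl fun b _ => ?_
    conv_rhs => rw [← sum_inner_single (Gi p₁ (EuclideanSpace.single b 1))]
    simp only [map_sum, map_smul, _root_.sum_apply, _root_.smul_apply]
  -- first order part
  have hB : ∑ e, ∑ α, ∑ γ, ((pairCoef f₁ f₂).B e α γ y * pdv e w y γ)
        • (EuclideanSpace.single α (1 : ℝ) : E n)
      = - ∑ e, β (Gi p₁ (adj p₁ (q (EuclideanSpace.single e 1)))) (Gi p₂ (EuclideanSpace.single e 1))
        - ∑ e, β (Gi p₁ (EuclideanSpace.single e 1))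
            (Gi p₂ (adj p₂ (q (EuclideanSpace.single e 1)))) := by
    rw [← Finset.sum_neg_distrib, ← Finset.sum_sub_distrib]
    refine Finset.sum_congr rfl fun e _ => ?_
    have hqe : q (EuclideanSpace.single e 1)
        = ∑ γ, pdv e w y γ • (EuclideanSpace.single γ (1 : ℝ) : E n) :=
      (sum_apply_single _).symm
    rw [Finset.sum_comm]
    conv_rhs => rw [hqe]
    simp only [map_sum, map_smul, _root_.sum_apply, _root_.smul_apply]
    rw [← Finset.sum_neg_distrib, ← Finset.sum_sub_distrib]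
    refine Finset.sum_congr rfl fun γ _ => ?_
    have h3 : ∀ α, (pairCoef f₁ f₂).B e α γ y
        = (- β (Gi p₁ (adj p₁ (EuclideanSpace.single γ 1))) (Gi p₂ (EuclideanSpace.single e 1))
          - β (Gi p₁ (EuclideanSpace.single e 1)) (Gi p₂ (adj p₂ (EuclideanSpace.single γ 1)))) α := by
      intro α
      simp [pairCoef, ← hp₁, ← hp₂, ← hβ]
    simp only [h3]
    have h4 : ∀ (v : E n) (t : ℝ), ∑ α, (v α * t) • (EuclideanSpace.single α (1 : ℝ) : E n)
        = t • v := by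
      intro v t
      conv_rhs => rw [← sum_apply_single v]
      rw [Finset.smul_sum]
      refine Finset.sum_congr rfl fun α _ => ?_
      rw [smul_smul, mul_comm]
    rw [h4, smul_sub, smul_neg]
  have hS1 := tr_swap β (Gi p₁ ∘L adj p₁ ∘L q) (Gi p₂)
  have hS2 := tr_swap β (Gi p₁) (Gi p₂ ∘L adj p₂ ∘L q)
  have hadj : adj (Gi p₂ ∘L adj p₂ ∘L q) = adj q ∘L p₂ ∘L Gi p₂ := by
    rw [ContinuousLinearMap.adjoint_comp, ContinuousLinearMap.adjoint_comp,
      ContinuousLinearMap.adjoint_adjoint, adj_Gi, ContinuousLinearMap.comp_assoc]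
  rw [adj_Gi] at hS1
  rw [hadj] at hS2
  simp only [ContinuousLinearMap.comp_apply] at hS1 hS2
  unfold Coef.op
  rw [hA, hB, hS1, hS2, sub_eq_add_neg, sub_eq_add_neg, ← neg_add,
    ← Finset.sum_add_distrib]
  congr 2
  refine Finset.sum_congr rfl fun a _ => ?_
  simp only [_root_.add_apply, ContinuousLinearMap.comp_apply, map_add]

theorem mssOp_eq (f : E m → E n) (y : E m) :
    mssOp f y = ∑ a, fderiv ℝ (fderiv ℝ f) y (Gi (fderiv ℝ f y) (EuclideanSpace.single a 1))
      (EuclideanSpace.single a 1) := rfl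

/-- **the exact difference identity.** -/
theorem mssOp_sub {f₁ f₂ : E m → E n} (h₁ : ContDiff ℝ 2 f₁) (h₂ : ContDiff ℝ 2 f₂) (y : E m) :
    mssOp f₁ y - mssOp f₂ y = (pairCoef f₁ f₂).op (fun y => f₁ y - f₂ y) y := by
  have hd1 : Differentiable ℝ f₁ := h₁.differentiable (by norm_num)
  have hd2 : Differentiable ℝ f₂ := h₂.differentiable (by norm_num)
  have hD1 : Differentiable ℝ (fderiv ℝ f₁) :=
    (h₁.fderiv_right (m := 1) (by norm_num)).differentiable (by norm_num)
  have hD2 : Differentiable ℝ (fderiv ℝ f₂) :=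
    (h₂.fderiv_right (m := 1) (by norm_num)).differentiable (by norm_num)
  have e1 : fderiv ℝ (fun y => f₁ y - f₂ y) = fun y => fderiv ℝ f₁ y - fderiv ℝ f₂ y := by
    funext z
    exact fderiv_fun_sub (hd1 z) (hd2 z)
  have e2 : fderiv ℝ (fderiv ℝ (fun y => f₁ y - f₂ y)) y
      = fderiv ℝ (fderiv ℝ f₁) y - fderiv ℝ (fderiv ℝ f₂) y := by
    rw [e1]
    exact fderiv_fun_sub (hD1 y) (hD2 y)
  rw [pairCoef_op_eq f₁ f₂ (h₁.sub h₂) y, e2, e1, mssOp_eq, mssOp_eq]
  set p₁ := fderiv ℝ f₁ y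
  set p₂ := fderiv ℝ f₂ y
  set β₁ := fderiv ℝ (fderiv ℝ f₁) y
  set β₂ := fderiv ℝ (fderiv ℝ f₂) y
  have hG : ∀ v, Gi p₁ ((adj p₁ ∘L (p₁ - p₂) + adj (p₁ - p₂) ∘L p₂) (Gi p₂ v))
      = Gi p₂ v - Gi p₁ v := by
    intro v
    have := congrArg (fun L : E m →L[ℝ] E m => L v) (Gi_sub p₁ p₂)
    simp only [_root_.sub_apply, _root_.neg_apply, ContinuousLinearMap.comp_apply] at this
    rw [← neg_sub (Gi p₁ v) (Gi p₂ v), this, neg_neg]
  show _ = ∑ a, (β₁ - β₂) (Gi p₁ (EuclideanSpace.single a 1)) (EuclideanSpace.single a 1)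
    - ∑ a, β₂ (Gi p₁ ((adj p₁ ∘L (p₁ - p₂) + adj (p₁ - p₂) ∘L p₂)
        (Gi p₂ (EuclideanSpace.single a 1)))) (EuclideanSpace.single a 1)
  simp only [hG]
  simp only [_root_.sub_apply, map_sub, Finset.sum_sub_distrib]
  abel

theorem mssOp_zero (y : E m) : mssOp (fun _ : E m => (0 : E n)) y = 0 := by
  rw [mssOp_eq]
  have : fderiv ℝ (fun _ : E m => (0 : E n)) = fun _ => 0 := by
    funext z
    simp
  rw [this]
  simp

/-- `mssOp` is local. -/
theorem mssOp_congr {f₁ f₂ : E m → E n} {y : E m} (h : f₁ =ᶠ[𝓝 y] f₂) : mssOp f₁ y = mssOp f₂ y := by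
  rw [mssOp_eq, mssOp_eq, h.fderiv_eq, h.fderiv.fderiv_eq]

/-! ### leaf L-Fit-Mss-C : the component formulas -/

/-- real entries of the inverse metric. -/
noncomputable def Gr (T : E m →L[ℝ] E n) (a b : Fin m) : ℝ :=
  ⟪Gi T (EuclideanSpace.single b 1), (EuclideanSpace.single a 1 : E m)⟫

theorem Gr_symm (T : E m →L[ℝ] E n) (a b : Fin m) : Gr T a b = Gr T b a := by
  unfold Gr
  rw [Gi_symm, real_inner_comm]

theorem Gi_single (T : E m →L[ℝ] E n) (b : Fin m) :
    Gi T (EuclideanSpace.single b 1) = ∑ d, Gr T d b • (EuclideanSpace.single d (1 : ℝ) : E m) :=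
  (sum_inner_single _).symm

theorem inner_eq_sum {k : ℕ} (u v : E k) : ⟪u, v⟫ = ∑ α, u α * v α := by
  rw [PiLp.inner_apply]
  refine Finset.sum_congr rfl fun α _ => ?_
  simp [mul_comm]

theorem inner_single_single {k : ℕ} (a b : Fin k) :
    ⟪(EuclideanSpace.single b (1 : ℝ) : E k), (EuclideanSpace.single a (1 : ℝ) : E k)⟫
      = if a = b then 1 else 0 := by
  rw [inner_single_eq]
  simp [Pi.single_apply]

/-- `(1 + N) G = 1`, real form. -/
theorem Gr_eq (T : E m →L[ℝ] E n) (a b : Fin m) :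
    Gr T a b + ∑ d, (∑ α, T (EuclideanSpace.single a 1) α * T (EuclideanSpace.single d 1) α)
      * Gr T d b = if a = b then 1 else 0 := by
  have h1 : ⟪Boot.gOp T (Gi T (EuclideanSpace.single b 1)), (EuclideanSpace.single a 1 : E m)⟫
      = if a = b then 1 else 0 := by
    rw [gOp_Gi, inner_single_single]
  rw [real_inner_comm, Boot.gOp_inner, real_inner_comm] at h1
  rw [← h1]
  congr 1
  rw [Gi_single, map_sum, inner_sum]
  refine Finset.sum_congr rfl fun d _ => ?_
  rw [map_smul, inner_smul_right, inner_eq_sum, mul_comm]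

/-- `(1 + N) G = 1` in components, `N_ad = ∑_α P_αa P_αd`. -/
theorem Yc_eq {f : E m → E n} (hf : ContDiff ℝ 1 f) (a b : Fin m) (y : E m) :
    Yc f a b y = - ∑ α, Pc f α a y * Pc f α b y
      - ∑ d, (∑ α, Pc f α a y * Pc f α d y) * Yc f d b y := by
  set T := fderiv ℝ f y with hT
  have hG : ∀ a b, Gc f a b y = ((Gr T a b : ℝ) : ℂ) := fun a b => rfl
  have hP : ∀ α a, Pc f α a y = ((T (EuclideanSpace.single a 1) α : ℝ) : ℂ) := fun α a => rfl
  have key := Gr_eq T a b
  have key' : ((Gr T a b : ℝ) : ℂ) + ∑ d, (∑ α, ((T (EuclideanSpace.single a 1) α : ℝ) : ℂ)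
      * ((T (EuclideanSpace.single d 1) α : ℝ) : ℂ)) * ((Gr T d b : ℝ) : ℂ)
      = if a = b then 1 else 0 := by
    have := congrArg (fun t : ℝ => (t : ℂ)) key
    simp only [Complex.ofReal_add, Complex.ofReal_sum, Complex.ofReal_mul] at this
    rw [this]
    split_ifs <;> simp
  unfold Yc
  simp only [hG, hP, mul_sub, Finset.sum_sub_distrib]
  have h2 : ∑ d, (∑ α, ((T (EuclideanSpace.single a 1) α : ℝ) : ℂ)
      * ((T (EuclideanSpace.single d 1) α : ℝ) : ℂ)) * (if d = b then (1 : ℂ) else 0)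
      = ∑ α, ((T (EuclideanSpace.single a 1) α : ℝ) : ℂ)
        * ((T (EuclideanSpace.single b 1) α : ℝ) : ℂ) := by
    simp
  rw [h2, ← key']
  ring

/-- the resolvent identity, real entries. -/
theorem Gr_sub (T₁ T₂ : E m →L[ℝ] E n) (a b : Fin m) :
    Gr T₁ a b - Gr T₂ a b
      = - ∑ c, ∑ d, Gr T₁ a c
          * (∑ α, (T₁ (EuclideanSpace.single c 1) α
                * (T₁ (EuclideanSpace.single d 1) α - T₂ (EuclideanSpace.single d 1) α)
              + (T₁ (EuclideanSpace.single c 1) α - T₂ (EuclideanSpace.single c 1) α)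
                * T₂ (EuclideanSpace.single d 1) α)) * Gr T₂ d b := by
  have h1 : Gr T₁ a b - Gr T₂ a b
      = ⟪(Gi T₁ - Gi T₂) (EuclideanSpace.single b 1), (EuclideanSpace.single a 1 : E m)⟫ := by
    rw [_root_.sub_apply, inner_sub_left]
    rfl
  rw [h1, Gi_sub, _root_.neg_apply, inner_neg_left]
  congr 1
  simp only [ContinuousLinearMap.comp_apply]
  rw [Gi_symm, Gi_single T₁ a, Gi_single T₂ b, map_sum, sum_inner]
  simp only [inner_sum, map_smul, inner_smul_left, inner_smul_right]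
  rw [Finset.sum_comm]
  refine Finset.sum_congr rfl fun c _ => Finset.sum_congr rfl fun d _ => ?_
  have h2 : ⟪(adj T₁ ∘L (T₁ - T₂) + adj (T₁ - T₂) ∘L T₂) (EuclideanSpace.single d 1),
      (EuclideanSpace.single c 1 : E m)⟫
      = ∑ α, (T₁ (EuclideanSpace.single c 1) α
                * (T₁ (EuclideanSpace.single d 1) α - T₂ (EuclideanSpace.single d 1) α)
              + (T₁ (EuclideanSpace.single c 1) α - T₂ (EuclideanSpace.single c 1) α)
                * T₂ (EuclideanSpace.single d 1) α) := by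
    rw [_root_.add_apply, inner_add_left, ContinuousLinearMap.comp_apply,
      ContinuousLinearMap.comp_apply, ContinuousLinearMap.adjoint_inner_left,
      ContinuousLinearMap.adjoint_inner_left, inner_eq_sum, inner_eq_sum,
      ← Finset.sum_add_distrib]
    refine Finset.sum_congr rfl fun α _ => ?_
    simp only [_root_.sub_apply, PiLp.sub_apply]
    ring
  rw [h2, Gr_symm T₁ c a]
  simp only [conj_trivial]
  ring

/-- the resolvent identity in components. -/
theorem Gc_sub {f₁ f₂ : E m → E n} (h₁ : ContDiff ℝ 1 f₁) (h₂ : ContDiff ℝ 1 f₂) (a b : Fin m)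
    (y : E m) :
    Gc f₁ a b y - Gc f₂ a b y
      = - ∑ c, ∑ d, Gc f₁ a c y
          * (∑ α, (Pc f₁ α c y * (Pc f₁ α d y - Pc f₂ α d y)
              + (Pc f₁ α c y - Pc f₂ α c y) * Pc f₂ α d y)) * Gc f₂ d b y := by
  have key := congrArg (fun t : ℝ => (t : ℂ)) (Gr_sub (fderiv ℝ f₁ y) (fderiv ℝ f₂ y) a b)
  simp only [Complex.ofReal_add, Complex.ofReal_sum, Complex.ofReal_mul, Complex.ofReal_sub,
    Complex.ofReal_neg] at key
  exact key

/-- real components of `G T† ε_γ`. -/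
noncomputable def Tr (T : E m →L[ℝ] E n) (γ : Fin n) (c : Fin m) : ℝ :=
  ∑ b, Gr T c b * T (EuclideanSpace.single b 1) γ

theorem Gi_adj_single (T : E m →L[ℝ] E n) (γ : Fin n) :
    Gi T (adj T (EuclideanSpace.single γ 1))
      = ∑ c, Tr T γ c • (EuclideanSpace.single c (1 : ℝ) : E m) := by
  conv_lhs => rw [← sum_inner_single (Gi T (adj T (EuclideanSpace.single γ 1)))]
  refine Finset.sum_congr rfl fun c _ => ?_
  congr 1
  rw [Gi_symm, ContinuousLinearMap.adjoint_inner_left, Gi_single, map_sum, inner_sum]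
  unfold Tr
  refine Finset.sum_congr rfl fun b _ => ?_
  rw [map_smul, inner_smul_right, real_inner_comm, inner_single_eq, Gr_symm]

/-- the first order coefficients in components. -/
theorem cx_pairCoef_B {f₁ f₂ : E m → E n} (h₁ : ContDiff ℝ 1 f₁) (h₂ : ContDiff ℝ 2 f₂)
    (e : Fin m) (α γ : Fin n) (y : E m) :
    cx ((pairCoef f₁ f₂).B e α γ) y
      = - ∑ c, ∑ d, Tc f₁ γ c y * Gc f₂ d e y * Hc f₂ α c d y
        - ∑ c, ∑ d, Gc f₁ c e y * Tc f₂ γ d y * Hc f₂ α c d y := by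
  set p₁ := fderiv ℝ f₁ y with hp₁
  set p₂ := fderiv ℝ f₂ y with hp₂
  set β := fderiv ℝ (fderiv ℝ f₂) y with hβ
  have hreal : (pairCoef f₁ f₂).B e α γ y
      = - ∑ c, ∑ d, Tr p₁ γ c * Gr p₂ d e
            * (β (EuclideanSpace.single c 1) (EuclideanSpace.single d 1)) α
        - ∑ c, ∑ d, Gr p₁ c e * Tr p₂ γ d
            * (β (EuclideanSpace.single c 1) (EuclideanSpace.single d 1)) α := by
    have h0 : (pairCoef f₁ f₂).B e α γ y
        = - (β (Gi p₁ (adj p₁ (EuclideanSpace.single γ 1))) (Gi p₂ (EuclideanSpace.single e 1))) α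
          - (β (Gi p₁ (EuclideanSpace.single e 1))
              (Gi p₂ (adj p₂ (EuclideanSpace.single γ 1)))) α := rfl
    have hexp : ∀ u v : Fin m → ℝ,
        (β (∑ c, u c • (EuclideanSpace.single c (1 : ℝ) : E m))
          (∑ d, v d • (EuclideanSpace.single d (1 : ℝ) : E m))) α
        = ∑ c, ∑ d, u c * v d * (β (EuclideanSpace.single c 1) (EuclideanSpace.single d 1)) α := by
      intro u v
      have h5 : β (∑ c, u c • (EuclideanSpace.single c (1 : ℝ) : E m))
          (∑ d, v d • (EuclideanSpace.single d (1 : ℝ) : E m))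
          = ∑ c, ∑ d, (u c * v d) • β (EuclideanSpace.single c 1) (EuclideanSpace.single d 1) := by
        simp only [map_sum, map_smul, _root_.sum_apply, _root_.smul_apply, Finset.smul_sum,
          smul_smul]
        rw [Finset.sum_comm]
        refine Finset.sum_congr rfl fun c _ => Finset.sum_congr rfl fun d _ => ?_
        rw [mul_comm]
      rw [h5]
      simp
    rw [h0, Gi_adj_single, Gi_adj_single, Gi_single, Gi_single, hexp, hexp]
  have hH : ∀ c d, Hc f₂ α c d y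
      = (((β (EuclideanSpace.single c 1) (EuclideanSpace.single d 1)) α : ℝ) : ℂ) := by
    intro c d
    unfold Hc Boot.cxv
    rw [pdv_pdv_eq h₂]
  have hT : ∀ (f : E m → E n) γ c, Tc f γ c y = ((Tr (fderiv ℝ f y) γ c : ℝ) : ℂ) := by
    intro f γ c
    unfold Tc Tr
    rw [Complex.ofReal_sum]
    refine Finset.sum_congr rfl fun b _ => ?_
    rw [Complex.ofReal_mul]
    rfl
  have hG : ∀ (f : E m → E n) a b, Gc f a b y = ((Gr (fderiv ℝ f y) a b : ℝ) : ℂ) :=
    fun f a b => rfl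
  have key := congrArg (fun t : ℝ => (t : ℂ)) hreal
  simp only [Complex.ofReal_sum, Complex.ofReal_mul, Complex.ofReal_sub,
    Complex.ofReal_neg] at key
  simp only [hH, hT, hG]
  exact key

/-- regularity of the entries of the inverse metric. -/
theorem contDiff_Gc {f : E m → E n} {k : ℕ} (hf : ContDiff ℝ (k + 1 : ℕ) f) (a b : Fin m) :
    ContDiff ℝ k (Gc f a b) := by
  have h1 : ContDiff ℝ k (fun y => Gi (fderiv ℝ f y)) := Tube.contDiff_gmat_inverse_Du hf
  have h2 : ContDiff ℝ k (fun y => ⟪Gi (fderiv ℝ f y) (EuclideanSpace.single b 1),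
      (EuclideanSpace.single a 1 : E m)⟫) :=
    (h1.clm_apply contDiff_const).inner ℝ contDiff_const
  exact Complex.ofRealCLM.contDiff.comp h2

theorem hasCompactSupport_Yc {f : E m → E n} (hf : HasCompactSupport f) (a b : Fin m) :
    HasCompactSupport (Yc f a b) := by
  refine HasCompactSupport.intro' hf (isClosed_tsupport f) fun y hy => ?_
  have h1 : fderiv ℝ f y = 0 := fderiv_of_notMem_tsupport ℝ hy
  unfold Yc Gc
  rw [h1, Gi_zero]
  simp only [ContinuousLinearMap.coe_id', id_eq, inner_single_single]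
  split_ifs <;> simp

end Claimed.Agent.R322.Fit
end

/- ===== packed: Claimed.Agent.R322.Lin.Limit ===== -/
section
/-!
# CO Proposition 6.1: the abstract passage to the limit (first half of the glue `Lin.core`)

`Norm1 R R₁ ν 𝔪 f β Cb C₂ e` collects what is known about the NORMALISED functionals of one normal
cylinder: they are Radon functionals on `B_R` with the uniform bound `Cb`, the block matrix is
positive, and all the identities/inequalities of `Red.LinTuple` hold on `B̄_{R₁}` up to the error `e`.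

`limit_tuple`: if for every `e > 0` eventually `Norm1 … e`, a subsequence converges to a
`Red.LinTuple` on `B_{R₁}`.  No geometry.
-/

set_option autoImplicit false

open scoped ENNReal ContDiff
open MeasureTheory Filter Topology

namespace Claimed.Agent.R322.Lin

open Claimed.Agent.R322.Fn

variable {m : ℕ}

/-! ### Elementary limit lemmas -/

theorem limit_le_zero {x : ℕ → ℝ} {L C : ℝ} (hx : Tendsto x atTop (𝓝 L))
    (h : ∀ e : ℝ, 0 < e → ∀ᶠ k in atTop, x k ≤ e * C) : L ≤ 0 := by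
  have h1 : ∀ e : ℝ, 0 < e → L ≤ e * C := fun e he => le_of_tendsto hx (h e he)
  by_contra hL
  rw [not_le] at hL
  rcases le_or_gt C 0 with hC | hC
  · have := h1 1 one_pos
    linarith
  · have := h1 (L / (2 * C)) (by positivity)
    have e1 : L / (2 * C) * C = L / 2 := by field_simp
    linarith

theorem limit_eq_zero {x : ℕ → ℝ} {L C : ℝ} (hx : Tendsto x atTop (𝓝 L))
    (h : ∀ e : ℝ, 0 < e → ∀ᶠ k in atTop, |x k| ≤ e * C) : L = 0 := by
  refine le_antisymm (limit_le_zero hx fun e he => (h e he).mono fun k hk => (le_abs_self _).trans hk)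
    ?_
  have := limit_le_zero (x := fun k => - x k) (L := -L) (C := C) hx.neg
    fun e he => (h e he).mono fun k hk => (neg_le_abs _).trans hk
  linarith

/-! ### Bounds for smooth test functions -/

theorem isTest_of_closedBall {R R₁ : ℝ} (hR : R₁ < R) {g : E m → ℝ} (hg : Continuous g)
    (hs : tsupport g ⊆ Metric.closedBall 0 R₁) : IsTest (Metric.ball 0 R) g :=
  ⟨hg, (isCompact_closedBall (0 : E m) R₁).of_isClosed_subset (isClosed_tsupport g) hs,
    hs.trans (Metric.closedBall_subset_ball hR)⟩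

theorem exists_c1_bound {Ω : Set (E m)} {g : E m → ℝ} (hg : IsSTest Ω g) :
    ∃ A : ℝ, 0 ≤ A ∧ (∀ y, |g y| ≤ A ∧ ‖fderiv ℝ g y‖ ≤ A) ∧
      ∀ y y', |g y - g y'| ≤ A * ‖y - y'‖ := by
  obtain ⟨B, hB0, hB⟩ := hg.toIsTest.exists_bound
  have hc : Continuous (fderiv ℝ g) := hg.smooth.continuous_fderiv (by simp)
  obtain ⟨B', hB'⟩ := hc.bounded_above_of_compact_support (hg.cpt.fderiv (𝕜 := ℝ))
  have hB'0 : 0 ≤ B' := (norm_nonneg _).trans (hB' 0)
  refine ⟨B + B', by positivity, fun y => ⟨(hB y).trans (by linarith), (hB' y).trans (by linarith)⟩,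
    fun y y' => ?_⟩
  have hd : Differentiable ℝ g := hg.smooth.differentiable (by simp)
  have := Convex.norm_image_sub_le_of_norm_fderiv_le (𝕜 := ℝ) (f := g) (s := Set.univ) (C := B + B')
    (fun x _ => hd x) (fun x _ => (hB' x).trans (by linarith)) convex_univ (Set.mem_univ y')
    (Set.mem_univ y)
  simpa [Real.norm_eq_abs] using this

theorem exists_c1_bound_family {Ω : Set (E m)} {ι : Type} [Fintype ι] {X : ι → E m → ℝ}
    (hX : ∀ i, IsSTest Ω (X i)) :
    ∃ A : ℝ, 0 ≤ A ∧ ∀ i y, |X i y| ≤ A ∧ ‖fderiv ℝ (X i) y‖ ≤ A := by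
  choose A hA0 hA _ using fun i => exists_c1_bound (hX i)
  refine ⟨∑ i, A i, Finset.sum_nonneg fun i _ => hA0 i, fun i y => ?_⟩
  have : A i ≤ ∑ i, A i := Finset.single_le_sum (fun i _ => hA0 i) (Finset.mem_univ i)
  exact ⟨((hA i y).1).trans this, ((hA i y).2).trans this⟩

/-! ### The normalised functionals of one cylinder -/

/-- The normalised functionals of one cylinder: Radon functionals on `B_R`, uniform bound `Cb`, and
the relations of `Red.LinTuple` on `B̄_{R₁}` up to the error `e`. -/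
structure Norm1 (R R₁ : ℝ) (nu mm : (E m → ℝ) → ℝ) (f : Fin m → (E m → ℝ) → ℝ)
    (be : Fin m → Fin m → (E m → ℝ) → ℝ) (Cb C₂ e : ℝ) : Prop where
  radon_nu : IsRadon (Metric.ball 0 R) nu
  radon_mm : IsRadon (Metric.ball 0 R) mm
  radon_f : ∀ i, IsRadon (Metric.ball 0 R) (f i)
  radon_be : ∀ i j, IsRadon (Metric.ball 0 R) (be i j)
  bd : ∀ (g : E m → ℝ) (B : ℝ), IsTest (Metric.ball 0 R) g → (∀ y, |g y| ≤ B) →
    |nu g| ≤ Cb * B ∧ |mm g| ≤ Cb * B ∧ (∀ i, |f i g| ≤ Cb * B) ∧ ∀ i j, |be i j g| ≤ Cb * B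
  symm : ∀ i j g, be i j g = be j i g
  psd : ∀ (α : E m → ℝ) (b : Fin m → E m → ℝ), IsTest (Metric.ball 0 R) α →
    (∀ i, IsTest (Metric.ball 0 R) (b i)) →
    0 ≤ nu (α * α) + 2 * ∑ i, f i (α * b i) + ∑ i, ∑ j, be i j (b i * b j)
  grad : ∀ (X : Fin m → E m → ℝ) (A : ℝ), (∀ i, ContDiff ℝ ∞ (X i)) →
    (∀ i, tsupport (X i) ⊆ Metric.closedBall 0 R₁) →
    (∀ i y, |X i y| ≤ A ∧ ‖fderiv ℝ (X i) y‖ ≤ A) →
    |nu (fun y => ∑ i, pd i (X i) y) + 2 * ∑ i, f i (X i)| ≤ e * A
  div : ∀ (φ : E m → ℝ) (A : ℝ), ContDiff ℝ ∞ φ → tsupport φ ⊆ Metric.closedBall 0 R₁ →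
    (∀ y, |φ y| ≤ A ∧ ‖fderiv ℝ φ y‖ ≤ A) →
    |∑ i, be i i φ + ∑ i, f i (pd i φ)| ≤ e * A
  stress : ∀ (X : Fin m → E m → ℝ) (A : ℝ), (∀ i, ContDiff ℝ ∞ (X i)) →
    (∀ i, tsupport (X i) ⊆ Metric.closedBall 0 R₁) →
    (∀ i y, |X i y| ≤ A ∧ ‖fderiv ℝ (X i) y‖ ≤ A) →
    |mm (fun y => ∑ i, pd i (X i) y) - ∑ i, ∑ j, be i j (pd j (X i))| ≤ e * A
  sign : ∀ (g : E m → ℝ) (A : ℝ), Continuous g → (∀ y, 0 ≤ g y ∧ g y ≤ A) →
    (∀ y y', |g y - g y'| ≤ A * ‖y - y'‖) → tsupport g ⊆ Metric.closedBall 0 R₁ →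
    2 * mm g - ∑ i, be i i g ≤ e * A
  abs : ∀ (g : E m → ℝ) (A : ℝ), Continuous g → (∀ y, 0 ≤ g y ∧ g y ≤ A) →
    (∀ y y', |g y - g y'| ≤ A * ‖y - y'‖) → tsupport g ⊆ Metric.closedBall 0 R₁ →
    |mm g| ≤ C₂ * (∑ i, be i i g + e * A)

theorem pd_zero (j : Fin m) (y : E m) : pd j (0 : E m → ℝ) y = 0 := by
  simp [pd]

/-- `∇ν = 2 f`, one component. -/
theorem Norm1.grad_single {R R₁ : ℝ} {nu mm : (E m → ℝ) → ℝ} {f : Fin m → (E m → ℝ) → ℝ}
    {be : Fin m → Fin m → (E m → ℝ) → ℝ} {Cb C₂ e : ℝ} (h : Norm1 R R₁ nu mm f be Cb C₂ e)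
    {g : E m → ℝ} (hg : ContDiff ℝ ∞ g) (hs : tsupport g ⊆ Metric.closedBall 0 R₁) {A : ℝ}
    (hA0 : 0 ≤ A) (hA : ∀ y, |g y| ≤ A ∧ ‖fderiv ℝ g y‖ ≤ A) (i : Fin m) :
    |nu (pd i g) + 2 * f i g| ≤ e * A := by
  classical
  have key := h.grad (fun j => if j = i then g else 0) A
    (fun j => by
      by_cases hj : j = i
      · simpa [hj] using hg
      · rw [if_neg hj]
        exact (contDiff_const : ContDiff ℝ ∞ fun _ : E m => (0 : ℝ)))
    (fun j => by
      by_cases hj : j = i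
      · simpa [hj] using hs
      · simp [hj, tsupport])
    (fun j y => by
      by_cases hj : j = i
      · simpa [hj] using hA y
      · simpa [hj] using hA0)
  have e1 : (fun y => ∑ j, pd j (if j = i then g else 0) y) = pd i g := by
    funext y
    rw [Finset.sum_eq_single i]
    · simp
    · intro j _ hj
      simp [hj, pd_zero]
    · intro hi
      exact absurd (Finset.mem_univ i) hi
  have e2 : ∑ j, f j (if j = i then g else 0) = f i g := by
    rw [Finset.sum_eq_single i]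
    · simp
    · intro j _ hj
      simp [hj, (h.radon_f j).map_zero]
    · intro hi
      exact absurd (Finset.mem_univ i) hi
  rwa [e1, e2] at key

/-! ### The passage to the limit -/

/-- **Abstract form of CO Proposition 6.1.** -/
theorem limit_tuple {R R₁ : ℝ} (hR : R₁ < R) (nuS mmS : ℕ → (E m → ℝ) → ℝ)
    (fS : Fin m → ℕ → (E m → ℝ) → ℝ) (bS : Fin m → Fin m → ℕ → (E m → ℝ) → ℝ) (Cb C₂ : ℝ)
    (hN : ∀ e : ℝ, 0 < e → ∀ᶠ i in atTop,
      Norm1 R R₁ (nuS i) (mmS i) (fun a => fS a i) (fun a b => bS a b i) Cb C₂ e)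
    (hpos : ∀ L : (E m → ℝ) → ℝ, IsRadon (Metric.ball 0 R₁) L →
      (∀ g, IsSTest (Metric.ball 0 R₁) g → (∀ x, 0 ≤ g x) → 0 ≤ L g) → IsPos (Metric.ball 0 R₁) L)
    (hlow : ∃ (g : E m → ℝ) (c : ℝ), IsTest (Metric.ball 0 R₁) g ∧ 0 < c ∧
      ∀ᶠ i in atTop, c ≤ nuS i g) :
    ∃ (φ : ℕ → ℕ) (T : Red.LinTuple m (Metric.ball (0 : E m) R₁)), StrictMono φ ∧
      WConv (Metric.ball 0 R₁) (fun i => nuS (φ i)) T.nu ∧
      WConv (Metric.ball 0 R₁) (fun i => mmS (φ i)) T.mm ∧
      (∀ a, WConv (Metric.ball 0 R₁) (fun i => fS a (φ i)) (T.f a)) ∧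
      (∀ a b, WConv (Metric.ball 0 R₁) (fun i => bS a b (φ i)) (T.beta a b)) := by
  set Ω : Set (E m) := Metric.ball (0 : E m) R₁ with hΩdef
  have hΩ : IsOpen Ω := Metric.isOpen_ball
  have hsub : Ω ⊆ Metric.ball 0 R := Metric.ball_subset_ball hR.le
  have hcl : Ω ⊆ Metric.closedBall 0 R₁ := Metric.ball_subset_closedBall
  obtain ⟨i₀, hi₀⟩ := eventually_atTop.1 (hN 1 one_pos)
  -- the common subsequence
  obtain ⟨ψ, Linf, hψ, hrad, hconv⟩ := exists_subseq_wconv_family
    (ι := Unit ⊕ Unit ⊕ Fin m ⊕ (Fin m × Fin m)) hΩ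
    (fun a j => Sum.elim (fun _ => nuS (j + i₀)) (Sum.elim (fun _ => mmS (j + i₀))
      (Sum.elim (fun a => fS a (j + i₀)) (fun p => bS p.1 p.2 (j + i₀)))) a)
    (fun a j => by
      have h := hi₀ (j + i₀) (Nat.le_add_left _ _)
      rcases a with _ | _ | a | p
      · exact h.radon_nu.mono hsub
      · exact h.radon_mm.mono hsub
      · exact (h.radon_f a).mono hsub
      · exact (h.radon_be p.1 p.2).mono hsub)
    (fun a K _ _ => ⟨Cb, fun j g hg _ B hB => by
      have h := (hi₀ (j + i₀) (Nat.le_add_left _ _)).bd g B (hg.mono hsub) hB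
      rcases a with _ | _ | a | p
      · exact h.1
      · exact h.2.1
      · exact h.2.2.1 a
      · exact h.2.2.2 p.1 p.2⟩)
  set φ : ℕ → ℕ := fun j => ψ j + i₀ with hφdef
  have hφ : StrictMono φ := fun a b hab => Nat.add_lt_add_right (hψ hab) _
  set nu := Linf (.inl ()) with hnudef
  set mm := Linf (.inr (.inl ())) with hmmdef
  set f : Fin m → (E m → ℝ) → ℝ := fun a => Linf (.inr (.inr (.inl a))) with hfdef
  set be : Fin m → Fin m → (E m → ℝ) → ℝ := fun a b => Linf (.inr (.inr (.inr (a, b)))) with hbedef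
  have hnu : WConv Ω (fun j => nuS (φ j)) nu := hconv (.inl ())
  have hmm : WConv Ω (fun j => mmS (φ j)) mm := hconv (.inr (.inl ()))
  have hf : ∀ a, WConv Ω (fun j => fS a (φ j)) (f a) := fun a => hconv (.inr (.inr (.inl a)))
  have hbe : ∀ a b, WConv Ω (fun j => bS a b (φ j)) (be a b) :=
    fun a b => hconv (.inr (.inr (.inr (a, b))))
  have hev : ∀ e : ℝ, 0 < e → ∀ᶠ k in atTop,
      Norm1 R R₁ (nuS (φ k)) (mmS (φ k)) (fun a => fS a (φ k)) (fun a b => bS a b (φ k)) Cb C₂ e :=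
    fun e he => hφ.tendsto_atTop.eventually (hN e he)
  have htr : ∀ g, IsTest Ω g →
      Tendsto (fun k => ∑ i, bS i i (φ k) g) atTop (𝓝 (∑ i, be i i g)) :=
    fun g hg => tendsto_finsetSum _ fun i _ => hbe i i g hg
  have hradtr : IsRadon Ω (fun g => ∑ i, be i i g) :=
    IsRadon.sum' Finset.univ fun i _ => hrad (.inr (.inr (.inr (i, i))))
  -- the two one-sided inequalities on smooth functions
  have hsign : IsPos Ω (fun g => ∑ i, be i i g + (-2) * mm g) := by
    refine hpos _ (hradtr.add' ((hrad (.inr (.inl ()))).const_mul (-2))) fun g hg hg0 => ?_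
    obtain ⟨A, hA0, hA, hLip⟩ := exists_c1_bound hg
    have lim : Tendsto (fun k => 2 * mmS (φ k) g - ∑ i, bS i i (φ k) g) atTop
        (𝓝 (2 * mm g - ∑ i, be i i g)) :=
      ((hmm g hg.toIsTest).const_mul 2).sub (htr g hg.toIsTest)
    have := limit_le_zero lim (C := A) fun e he => (hev e he).mono fun k hk =>
      hk.sign g A hg.cont (fun y => ⟨hg0 y, (le_abs_self _).trans (hA y).1⟩) hLip
        (hg.sub.trans hcl)
    linarith
  have habs : ∀ g, IsSTest Ω g → (∀ x, 0 ≤ g x) → |mm g| ≤ C₂ * ∑ i, be i i g := by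
    intro g hg hg0
    obtain ⟨A, hA0, hA, hLip⟩ := exists_c1_bound hg
    have lim : Tendsto (fun k => |mmS (φ k) g| - C₂ * ∑ i, bS i i (φ k) g) atTop
        (𝓝 (|mm g| - C₂ * ∑ i, be i i g)) :=
      ((hmm g hg.toIsTest).abs).sub ((htr g hg.toIsTest).const_mul C₂)
    have := limit_le_zero lim (C := C₂ * A) fun e he => (hev e he).mono fun k hk => by
      have := hk.abs g A hg.cont (fun y => ⟨hg0 y, (le_abs_self _).trans (hA y).1⟩) hLip
        (hg.sub.trans hcl)
      linarith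
    linarith
  have habs1 : IsPos Ω (fun g => C₂ * (∑ i, be i i g) + (-1) * mm g) := by
    refine hpos _ ((hradtr.const_mul C₂).add' ((hrad (.inr (.inl ()))).const_mul (-1)))
      fun g hg hg0 => ?_
    have := (abs_le.1 (habs g hg hg0)).2
    linarith
  have habs2 : IsPos Ω (fun g => C₂ * (∑ i, be i i g) + 1 * mm g) := by
    refine hpos _ ((hradtr.const_mul C₂).add' ((hrad (.inr (.inl ()))).const_mul 1))
      fun g hg hg0 => ?_
    have := (abs_le.1 (habs g hg hg0)).1
    linarith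
  refine ⟨φ, { nu := nu, f := f, beta := be, mm := mm
               radon_nu := hrad _, radon_f := fun i => hrad _, radon_beta := fun i j => hrad _
               radon_mm := hrad _
               beta_symm := ?_, psd := ?_, nu_ne := ?_, grad_nu := ?_, div_f := ?_, stress := ?_
               sign_le := ?_, abs_le := ?_ }, hφ, hnu, hmm, hf, hbe⟩
  · -- symmetry
    intro i j g hg
    refine tendsto_nhds_unique (hbe i j g hg) ((hbe j i g hg).congr' ?_)
    filter_upwards [hev 1 one_pos] with k hk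
    exact hk.symm j i g
  · -- positivity
    intro a b ha hb
    have t1 := hnu (a * a) (ha.mul_cont ha.cont)
    have t2 : ∀ i, Tendsto (fun k => fS i (φ k) (a * b i)) atTop (𝓝 (f i (a * b i))) :=
      fun i => hf i _ (ha.mul_cont (hb i).cont)
    have t3 : ∀ i j, Tendsto (fun k => bS i j (φ k) (b i * b j)) atTop (𝓝 (be i j (b i * b j))) :=
      fun i j => hbe i j _ ((hb i).mul_cont (hb j).cont)
    refine ge_of_tendsto ((t1.add ((tendsto_finsetSum _ fun i _ => t2 i).const_mul 2)).add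
      (tendsto_finsetSum _ fun i _ => tendsto_finsetSum _ fun j _ => t3 i j)) ?_
    filter_upwards [hev 1 one_pos] with k hk
    exact hk.psd a b (ha.mono hsub) fun i => (hb i).mono hsub
  · -- `ν ≠ 0`
    obtain ⟨g, c, hg, hc, hev'⟩ := hlow
    exact ⟨g, hg, ne_of_gt (lt_of_lt_of_le hc
      (ge_of_tendsto (hnu g hg) (hφ.tendsto_atTop.eventually hev')))⟩
  · -- gradient
    intro g hg i
    obtain ⟨A, hA0, hA, -⟩ := exists_c1_bound hg
    have lim : Tendsto (fun k => nuS (φ k) (pd i g) + 2 * fS i (φ k) g) atTop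
        (𝓝 (nu (pd i g) + 2 * f i g)) :=
      (hnu _ (hg.toIsTest.pd (hg.smooth.of_le (by simp)) i)).add
        ((hf i g hg.toIsTest).const_mul 2)
    have := limit_eq_zero lim (C := A) fun e he => (hev e he).mono fun k hk =>
      hk.grad_single hg.smooth (hg.sub.trans hcl) hA0 hA i
    linarith
  · -- divergence
    intro g hg
    obtain ⟨A, hA0, hA, -⟩ := exists_c1_bound hg
    have lim : Tendsto (fun k => ∑ i, bS i i (φ k) g + ∑ i, fS i (φ k) (pd i g)) atTop
        (𝓝 (∑ i, be i i g + ∑ i, f i (pd i g))) :=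
      (htr g hg.toIsTest).add (tendsto_finsetSum _ fun i _ =>
        hf i _ (hg.toIsTest.pd (hg.smooth.of_le (by simp)) i))
    have := limit_eq_zero lim (C := A) fun e he => (hev e he).mono fun k hk =>
      hk.div g A hg.smooth (hg.sub.trans hcl) hA
    linarith
  · -- stress
    intro X hX
    obtain ⟨A, hA0, hA⟩ := exists_c1_bound_family hX
    have hT : IsTest Ω (fun y => ∑ i, pd i (X i) y) := by
      have := IsTest.sum (Ω := Ω) Finset.univ (g := fun i => pd i (X i))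
        fun i _ => (hX i).toIsTest.pd ((hX i).smooth.of_le (by simp)) i
      have e : (∑ i, pd i (X i)) = fun y => ∑ i, pd i (X i) y := by
        funext y
        simp
      rwa [e] at this
    have lim : Tendsto (fun k => mmS (φ k) (fun y => ∑ i, pd i (X i) y) -
        ∑ i, ∑ j, bS i j (φ k) (pd j (X i))) atTop
        (𝓝 (mm (fun y => ∑ i, pd i (X i) y) - ∑ i, ∑ j, be i j (pd j (X i)))) :=
      (hmm _ hT).sub (tendsto_finsetSum _ fun i _ => tendsto_finsetSum _ fun j _ =>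
        hbe i j _ ((hX i).toIsTest.pd ((hX i).smooth.of_le (by simp)) j))
    have := limit_eq_zero lim (C := A) fun e he => (hev e he).mono fun k hk =>
      hk.stress X A (fun i => (hX i).smooth) (fun i => (hX i).sub.trans hcl) hA
    linarith
  · -- `2 𝔪 ≤ d₀`
    intro g hg hg0
    have := hsign g hg hg0
    simp only at this
    linarith
  · -- `|𝔪| ≤ C d₀`
    intro K _ _
    refine ⟨C₂, fun g hg _ hg0 => abs_le.2 ⟨?_, ?_⟩⟩
    · have := habs2 g hg hg0
      simp only at this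
      linarith
    · have := habs1 g hg hg0
      simp only at this
      linarith

end Claimed.Agent.R322.Lin
end

/- ===== packed: Claimed.Agent.R322.Freq.Angle ===== -/
section
/-!
# CO Proposition 4.5: the angle lemma (leaf `L-Freq-angle`), proof file

`ang_main` is the statement of `Freq.angle_of_near` (`Freq/Endpt.lean`), which cites it.

* `ang_exists_support` : a good varifold has a support point in every ball `B_ρ(y,0)`, `|y| ≤ 5`, as soon as
  `ε < (ρ/2)^(m+1) kap m`  (`IsGood.mass` with the tent `χ = (ρ - |X - (y,0)|)_+`, `SIV.μ_compl_support`);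
* `ang_norm_sub_PH_le` : `|(P - PH) X|² ≤ 2 tl P |X|²` for a rank `m` projection `P` (tilt calculus of `Flat/Lin.lean`);
* `ang_main` : the differences of the points of `Γ` near `(0,0)` and `(5 e_k, 0)` satisfy the cone condition.
-/

set_option autoImplicit false

open scoped ENNReal ContDiff
open MeasureTheory Filter Topology

namespace Claimed.Agent.R322.Freq

open Claimed.Agent.R322.Tube

variable {m n : ℕ}

/-- the tent function used as a test function -/
noncomputable def angTent {N : ℕ} (p : E N) (ρ : ℝ) (X : E N) : ℝ := max (ρ - ‖X - p‖) 0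

theorem angTent_nonneg {N : ℕ} (p : E N) (ρ : ℝ) (X : E N) : 0 ≤ angTent p ρ X := le_max_right _ _

theorem angTent_le {N : ℕ} (p : E N) {ρ : ℝ} (hρ : 0 ≤ ρ) (X : E N) : angTent p ρ X ≤ ρ :=
  max_le (by linarith [norm_nonneg (X - p)]) hρ

theorem angTent_lipschitz {N : ℕ} (p : E N) (ρ : ℝ) : LipschitzWith 1 (angTent p ρ) := by
  refine LipschitzWith.of_dist_le_mul fun X Y => ?_
  rw [Real.dist_eq, NNReal.coe_one, one_mul, dist_eq_norm]
  refine (abs_max_sub_max_le_abs _ _ _).trans ?_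
  have h1 : ρ - ‖X - p‖ - (ρ - ‖Y - p‖) = ‖Y - p‖ - ‖X - p‖ := by ring
  rw [h1]
  refine (abs_norm_sub_norm_le _ _).trans (le_of_eq ?_)
  rw [← norm_neg]
  congr 1
  abel

theorem angTent_pos_iff {N : ℕ} (p : E N) (ρ : ℝ) (X : E N) : 0 < angTent p ρ X ↔ ‖X - p‖ < ρ := by
  unfold angTent
  rw [lt_max_iff]
  constructor
  · rintro (h | h)
    · linarith
    · exact absurd h (lt_irrefl _)
  · intro h
    exact Or.inl (by linarith)

theorem angTent_tsupport {N : ℕ} (p : E N) (ρ : ℝ) : tsupport (angTent p ρ) ⊆ Metric.closedBall p ρ := by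
  refine closure_minimal ?_ Metric.isClosed_closedBall
  intro X hX
  have h1 : 0 < angTent p ρ X := lt_of_le_of_ne (angTent_nonneg p ρ X) (Ne.symm hX)
  rw [Metric.mem_closedBall, dist_eq_norm]
  exact ((angTent_pos_iff p ρ X).1 h1).le

theorem ang_norm_mk_sub (y y' : E m) : ‖mkHV y' (0 : E n) - mkHV y 0‖ = ‖y' - y‖ := by
  have h1 : mkHV y' (0 : E n) - mkHV y 0 = mkHV (y' - y) 0 := by
    rw [← sub_zero (0 : E n), mkHV_sub, sub_zero]
  have h2 := norm_sq_mkHV (y' - y) (0 : E n)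
  rw [norm_zero] at h2
  rw [h1]
  exact (pow_left_inj₀ (norm_nonneg _) (norm_nonneg _) two_ne_zero).1 (by rw [h2]; ring)

/-- lower bound for the integral of the tent over the plane -/
theorem ang_plane_lower (y : E m) {ρ : ℝ} (hρ : 0 < ρ) :
    (ρ / 2) ^ (m + 1) * kap m ≤ ∫ y' : E m, angTent (mkHV y (0 : E n)) ρ (mkHV y' 0) ∂μH[(m : ℝ)] := by
  have hfun : (fun y' : E m => angTent (mkHV y (0 : E n)) ρ (mkHV y' 0)) = angTent y ρ := by
    funext y'
    unfold angTent
    rw [ang_norm_mk_sub]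
  rw [hfun]
  have := isAddHaar_hausdorff m
  have hcont : Continuous (angTent y ρ) := (angTent_lipschitz y ρ).continuous
  have hcs : HasCompactSupport (angTent y ρ) :=
    HasCompactSupport.of_support_subset_isCompact (isCompact_closedBall y ρ)
      ((subset_tsupport _).trans (angTent_tsupport y ρ))
  have hint : Integrable (angTent y ρ) (μH[(m : ℝ)] : Measure (E m)) :=
    hcont.integrable_of_hasCompactSupport hcs
  have hball : (μH[(m : ℝ)] : Measure (E m)) (Metric.ball y (ρ / 2)) = ENNReal.ofReal (kap m * (ρ / 2) ^ m) :=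
    hausdorff_ball m y (half_pos hρ)
  have hind : Integrable ((Metric.ball y (ρ / 2)).indicator fun _ : E m => ρ / 2)
      (μH[(m : ℝ)] : Measure (E m)) := by
    rw [integrable_indicator_iff measurableSet_ball]
    exact integrableOn_const (by rw [hball]; exact ENNReal.ofReal_ne_top)
  have hle : ∫ y', (Metric.ball y (ρ / 2)).indicator (fun _ : E m => ρ / 2) y' ∂μH[(m : ℝ)]
      ≤ ∫ y', angTent y ρ y' ∂μH[(m : ℝ)] := by
    refine integral_mono hind hint fun y' => ?_
    by_cases hy : y' ∈ Metric.ball y (ρ / 2)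
    · rw [Set.indicator_of_mem hy]
      rw [Metric.mem_ball, dist_eq_norm] at hy
      exact le_max_of_le_left (by linarith)
    · rw [Set.indicator_of_notMem hy]
      exact angTent_nonneg _ _ _
  refine le_trans (le_of_eq ?_) hle
  rw [integral_indicator measurableSet_ball, setIntegral_const, Measure.real, hball,
    ENNReal.toReal_ofReal (mul_nonneg (kap_pos m).le (by positivity)), smul_eq_mul]
  ring

/-- a good varifold has support points near every point of the plane -/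
theorem ang_exists_support {Q : ℕ} (hQ : 1 ≤ Q) {W : SIV m n} {ε : ℝ} (hW : IsGood W Q ε) (y : E m)
    (hy : ‖y‖ ≤ 5) {ρ : ℝ} (hρ : 0 < ρ) (hρ1 : ρ ≤ 1) (hε : ε < (ρ / 2) ^ (m + 1) * kap m) :
    ∃ X ∈ W.support, ‖X - mkHV y 0‖ < ρ := by
  by_contra hno
  push Not at hno
  set p : E (m + n) := mkHV y 0 with hp
  have hpn : ‖p‖ = ‖y‖ := by
    have := ang_norm_mk_sub (n := n) (0 : E m) y
    have h0 : mkHV (0 : E m) (0 : E n) = 0 := by
      have := mkHV_sub (0 : E m) 0 (0 : E n) 0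
      simpa using this
    rw [h0, sub_zero, sub_zero] at this
    exact this
  have h1 := hW.mass (angTent p ρ)
    (fun X => by
      rw [abs_of_nonneg (angTent_nonneg _ _ _)]
      exact (angTent_le p hρ.le X).trans hρ1)
    (angTent_lipschitz p ρ)
    ((angTent_tsupport p ρ).trans (by
      intro X hX
      rw [Metric.mem_closedBall, dist_eq_norm] at hX
      rw [Metric.mem_closedBall, dist_zero_right]
      have := norm_sub_norm_le X p
      linarith))
  have h2 : ∫ X, angTent p ρ X ∂W.μ = 0 := by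
    refine integral_eq_zero_of_ae ?_
    have h3 : ∀ᵐ X ∂W.μ, X ∈ W.support := by
      rw [ae_iff]
      exact W.μ_compl_support
    filter_upwards [h3] with X hX
    have h4 := hno X hX
    have h5 : ¬ 0 < angTent p ρ X := by
      rw [angTent_pos_iff]
      exact not_lt.2 h4
    exact le_antisymm (not_lt.1 h5) (angTent_nonneg _ _ _)
  rw [h2, zero_sub, abs_neg] at h1
  have h6 := ang_plane_lower (n := n) y hρ
  rw [← hp] at h6
  have h7 : (0 : ℝ) < (ρ / 2) ^ (m + 1) * kap m := mul_pos (by positivity) (kap_pos m)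
  have hQ' : (1 : ℝ) ≤ Q := by exact_mod_cast hQ
  have h8 : (ρ / 2) ^ (m + 1) * kap m ≤ (Q : ℝ) * ∫ y' : E m, angTent p ρ (mkHV y' 0) ∂μH[(m : ℝ)] := by
    nlinarith
  have h9 := le_abs_self ((Q : ℝ) * ∫ y' : E m, angTent p ρ (mkHV y' 0) ∂μH[(m : ℝ)])
  linarith

theorem ang_PH_apply (X : E (m + n)) : PH m n X = mkHV (prH m n X) 0 := by
  show inH m n (prH m n X) = _
  rw [inH_apply]

theorem ang_norm_sub_PH (X : E (m + n)) : ‖X - PH m n X‖ = ‖prV m n X‖ := by
  have h1 := norm_sq_eq_prH_prV (X - PH m n X)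
  rw [map_sub, map_sub, ang_PH_apply, prH_mkHV, prV_mkHV, sub_self, sub_zero, norm_zero] at h1
  exact (pow_left_inj₀ (norm_nonneg _) (norm_nonneg _) two_ne_zero).1
    (by rw [ang_PH_apply, h1]; ring)

/-- distance of a rank `m` projection from the horizontal one in terms of the tilt -/
theorem ang_norm_sub_PH_le {P : E (m + n) →L[ℝ] E (m + n)} (hP : IsProj m P) (X : E (m + n)) :
    ‖(P - PH m n) X‖ ^ 2 ≤ 2 * Flat.tl P * ‖X‖ ^ 2 := by
  have h1 := norm_sq_eq_prH_prV ((P - PH m n) X)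
  rw [sub_apply, map_sub, map_sub, ang_PH_apply, prH_mkHV, prV_mkHV, sub_zero] at h1
  have h2 := Flat.norm_sq_prV_le hP X
  have h3 := Flat.lin_norm_sq_prH_le hP X
  have h4 : ‖prH m n (P X) - prH m n X‖ = ‖prH m n (X - P X)‖ := by
    rw [map_sub, norm_sub_rev]
  rw [sub_apply, ang_PH_apply, h1, h4]
  linarith

theorem ang_isProj_PH (m n : ℕ) : IsProj m (PH m n) := by
  refine ⟨?_, ?_, ?_⟩
  · ext1 X
    simp only [ContinuousLinearMap.comp_apply, ang_PH_apply, prH_mkHV]
  · intro X Y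
    show inner ℝ (inH m n (prH m n X)) Y = inner ℝ X (inH m n (prH m n Y))
    rw [inner_inH_left, real_inner_comm _ X, inner_inH_left, real_inner_comm]
  · have h1 : ((PH m n : E (m + n) →L[ℝ] E (m + n)) : E (m + n) →ₗ[ℝ] E (m + n))
        = ((inH m n : E m →L[ℝ] E (m + n)) : E m →ₗ[ℝ] E (m + n)) ∘ₗ
          ((prH m n : E (m + n) →L[ℝ] E m) : E (m + n) →ₗ[ℝ] E m) := rfl
    rw [h1, LinearMap.trace_comp_comm']
    have h2 : ((prH m n : E (m + n) →L[ℝ] E m) : E (m + n) →ₗ[ℝ] E m) ∘ₗ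
        ((inH m n : E m →L[ℝ] E (m + n)) : E m →ₗ[ℝ] E (m + n)) = LinearMap.id := by
      ext1 y
      exact prH_inH y
    rw [h2, LinearMap.trace_id, finrank_euclideanSpace_fin]

/-- the origin of a good varifold is a support point -/
theorem ang_zero_mem_support {Q : ℕ} (hQ : 1 ≤ Q) {W : SIV m n} {ε : ℝ} (hW : IsGood W Q ε) :
    (0 : E (m + n)) ∈ W.support := by
  by_contra h0
  have h1 : W.Θ 0 = 0 := W.Θ_eq_zero (hW.dom (Metric.mem_closedBall_self (by norm_num))) h0
  rw [hW.dens] at h1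
  have : (1 : ℝ) ≤ Q := by exact_mod_cast hQ
  linarith

/-- linear algebra part: the plane `Ω(horizontal)` is close to the horizontal plane if `1 - P'` is small on the
horizontal basis vectors -/
theorem ang_lin (Ω : E (m + n) ≃ₗᵢ[ℝ] E (m + n)) {δ : ℝ} (hδ : 0 ≤ δ)
    (h : ∀ k : Fin m, ‖prV m n (Ω.symm (mkHV (EuclideanSpace.single k (1 : ℝ)) 0))‖ ≤ δ) :
    ‖(Ω : E (m + n) →L[ℝ] E (m + n)) ∘L PH m n ∘L (Ω.symm : E (m + n) →L[ℝ] E (m + n)) - PH m n‖
      ≤ 2 * m * δ := by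
  set P' : E (m + n) →L[ℝ] E (m + n) :=
    (Ω : E (m + n) →L[ℝ] E (m + n)) ∘L PH m n ∘L (Ω.symm : E (m + n) →L[ℝ] E (m + n)) with hP'
  have hproj : IsProj m P' := Base.isProj_conj (ang_isProj_PH m n) Ω
  have hsub : ∀ v : E (m + n), ‖v - P' v‖ = ‖prV m n (Ω.symm v)‖ := by
    intro v
    have h1 : v - P' v = Ω (Ω.symm v - PH m n (Ω.symm v)) := by
      rw [map_sub, Ω.apply_symm_apply]
      rfl
    rw [h1, Ω.norm_map, ang_norm_sub_PH]
  have htl : Flat.tl P' ≤ m * δ ^ 2 := by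
    rw [Flat.lin_tl_eq_sumH hproj]
    calc _ ≤ ∑ _k : Fin m, δ ^ 2 := by
          refine Finset.sum_le_sum fun k _ => ?_
          rw [hsub, Flat.lin_single_castAdd]
          exact pow_le_pow_left₀ (norm_nonneg _) (h k) 2
      _ = m * δ ^ 2 := by simp
  refine ContinuousLinearMap.opNorm_le_bound _ (by positivity) fun X => ?_
  have h1 := ang_norm_sub_PH_le hproj X
  have h2 : ‖(P' - PH m n) X‖ ^ 2 ≤ (2 * m * δ * ‖X‖) ^ 2 := by
    have hm0 : (0 : ℝ) ≤ m := Nat.cast_nonneg m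
    have hmm : (m : ℝ) ≤ (m : ℝ) ^ 2 := by
      rcases Nat.eq_zero_or_pos m with h0 | h0
      · simp [h0]
      · have : (1 : ℝ) ≤ m := by exact_mod_cast h0
        nlinarith
    calc ‖(P' - PH m n) X‖ ^ 2 ≤ 2 * Flat.tl P' * ‖X‖ ^ 2 := h1
      _ ≤ 2 * (m * δ ^ 2) * ‖X‖ ^ 2 := by gcongr
      _ ≤ 4 * ((m : ℝ) ^ 2 * δ ^ 2) * ‖X‖ ^ 2 := by
          have h3 : (m : ℝ) * δ ^ 2 ≤ (m : ℝ) ^ 2 * δ ^ 2 := by gcongr
          have h4 : 0 ≤ (m : ℝ) ^ 2 * δ ^ 2 := by positivity
          gcongr ?_ * _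
          linarith
      _ = (2 * m * δ * ‖X‖) ^ 2 := by ring
  exact (pow_le_pow_iff_left₀ (norm_nonneg _) (by positivity) two_ne_zero).1 h2

/-- **Angle lemma**: the statement of `Freq.angle_of_near`. -/
theorem ang_main (m n Q : ℕ) (hQ : 1 ≤ Q) :
    ∃ C : ℝ, 1 ≤ C ∧ ∀ (W : SIV m n) (ε : ℝ), 0 < ε → ε ≤ 1 → IsGood W Q ε →
      ∀ (Γ : Set (E (m + n))) (Ω : E (m + n) ≃ₗᵢ[ℝ] E (m + n)) (s d : ℝ), 0 ≤ s → s ≤ 1 →
        (∀ p ∈ Γ, ∀ p' ∈ Γ, ‖prV m n (Ω.symm (p - p'))‖ ≤ s * ‖prH m n (Ω.symm (p - p'))‖) →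
        (∀ X ∈ W.support, ‖X‖ ≤ 10 → ∃ p ∈ Γ, ‖X - p‖ ≤ d) →
        ‖(Ω : E (m + n) →L[ℝ] E (m + n)) ∘L PH m n ∘L (Ω.symm : E (m + n) →L[ℝ] E (m + n)) - PH m n‖
          ≤ C * (s + d + ε ^ ((1 : ℝ) / (m + 1))) := by
  set κ := kap m with hκ
  have hκ0 : 0 < κ := kap_pos m
  set a : ℝ := max 1 (2 / κ) with ha
  have ha1 : 1 ≤ a := le_max_left _ _
  have ha2 : 2 ≤ a * κ := by
    have : 2 / κ ≤ a := le_max_right _ _
    rwa [div_le_iff₀ hκ0] at this
  set A : ℝ := 2 * a with hA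
  have hm0 : (0 : ℝ) ≤ m := Nat.cast_nonneg m
  refine ⟨2 * m * A + 2 * A, by nlinarith, ?_⟩
  intro W ε hε0 hε1 hW Γ Ω s d hs0 hs1 hcone hnear
  set t : ℝ := ε ^ ((1 : ℝ) / (m + 1)) with ht
  have ht0 : 0 < t := Real.rpow_pos_of_pos hε0 _
  have htpow : t ^ (m + 1) = ε := by
    rw [ht, ← Real.rpow_natCast, ← Real.rpow_mul hε0.le]
    have : (1 : ℝ) / (m + 1) * ((m + 1 : ℕ) : ℝ) = 1 := by
      push_cast
      field_simp
    rw [this, Real.rpow_one]
  -- `d ≥ 0`
  have hd0 : 0 ≤ d := by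
    obtain ⟨p, -, hp⟩ := hnear 0 (ang_zero_mem_support hQ hW) (by simp)
    exact (norm_nonneg _).trans hp
  set P' : E (m + n) →L[ℝ] E (m + n) :=
    (Ω : E (m + n) →L[ℝ] E (m + n)) ∘L PH m n ∘L (Ω.symm : E (m + n) →L[ℝ] E (m + n)) with hP'
  have hproj : IsProj m P' := Base.isProj_conj (ang_isProj_PH m n) Ω
  by_cases hbig : 1 < A * t
  · -- trivial case
    have h1 : ‖P' - PH m n‖ ≤ 2 := by
      refine (norm_sub_le _ _).trans ?_
      have := hproj.norm_le_one
      have := (ang_isProj_PH m n).norm_le_one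
      linarith
    have hA0 : 0 ≤ A := by positivity
    calc ‖P' - PH m n‖ ≤ 2 := h1
      _ ≤ 2 * (A * t) := by linarith
      _ ≤ (2 * m * A + 2 * A) * (s + d + t) := by
          have h2 : 0 ≤ 2 * m * A * (s + d + t) := by positivity
          have h3 : 0 ≤ 2 * A * (s + d) := by positivity
          nlinarith
  · push Not at hbig
    set ρ : ℝ := A * t with hρ
    have hρ0 : 0 < ρ := by positivity
    have hερ : ε < (ρ / 2) ^ (m + 1) * κ := by
      have h1 : ρ / 2 = a * t := by rw [hρ, hA]; ring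
      rw [h1, mul_pow, htpow]
      have h2 : a ≤ a ^ (m + 1) := le_self_pow₀ ha1 (by omega)
      have h3 : 2 * ε ≤ a ^ (m + 1) * ε * κ := by
        calc 2 * ε ≤ (a * κ) * ε := by gcongr
          _ ≤ (a ^ (m + 1) * κ) * ε := by gcongr
          _ = _ := by ring
      linarith
    have hmk0 : mkHV (0 : E m) (0 : E n) = 0 := by
      have := mkHV_sub (0 : E m) 0 (0 : E n) 0
      simpa using this
    obtain ⟨X₀, hX₀s, hX₀⟩ := ang_exists_support hQ hW (0 : E m) (by simp) hρ0 hbig hερ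
    rw [hmk0, sub_zero] at hX₀
    obtain ⟨p₀, hp₀Γ, hp₀⟩ := hnear X₀ hX₀s (by linarith)
    have key : ∀ k : Fin m, ‖prV m n (Ω.symm (mkHV (EuclideanSpace.single k (1 : ℝ)) 0))‖ ≤ s + d + ρ := by
      intro k
      set e : E m := EuclideanSpace.single k (1 : ℝ) with he
      have hen : ‖e‖ = 1 := by simp [he]
      have h5e : ‖(5 : ℝ) • e‖ = 5 := by rw [norm_smul, hen]; norm_num
      obtain ⟨X₁, hX₁s, hX₁⟩ := ang_exists_support hQ hW ((5 : ℝ) • e) h5e.le hρ0 hbig hερ
      set w : E (m + n) := mkHV ((5 : ℝ) • e) 0 with hw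
      have hwn : ‖w‖ = 5 := by
        have := ang_norm_mk_sub (n := n) (0 : E m) ((5 : ℝ) • e)
        rw [hmk0, sub_zero, sub_zero] at this
        rw [hw, this, h5e]
      have hX₁n : ‖X₁‖ ≤ 10 := by
        have := norm_sub_norm_le X₁ w
        linarith
      obtain ⟨p₁, hp₁Γ, hp₁⟩ := hnear X₁ hX₁s hX₁n
      set v : E (m + n) := p₁ - p₀ with hv
      have hvw : ‖w - v‖ ≤ 2 * ρ + 2 * d := by
        have h1 : w - v = -(X₁ - w) + (X₁ - p₁) + X₀ - (X₀ - p₀) := by rw [hv]; abel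
        rw [h1]
        calc _ ≤ ‖-(X₁ - w) + (X₁ - p₁) + X₀‖ + ‖X₀ - p₀‖ := norm_sub_le _ _
          _ ≤ ‖-(X₁ - w) + (X₁ - p₁)‖ + ‖X₀‖ + ‖X₀ - p₀‖ := by gcongr; exact norm_add_le _ _
          _ ≤ ‖-(X₁ - w)‖ + ‖X₁ - p₁‖ + ‖X₀‖ + ‖X₀ - p₀‖ := by gcongr; exact norm_add_le _ _
          _ ≤ 2 * ρ + 2 * d := by rw [norm_neg]; linarith
      have hvn : ‖v‖ ≤ 5 + (2 * ρ + 2 * d) := by
        have h1 := norm_sub_norm_le v w
        have h2 : ‖v - w‖ = ‖w - v‖ := norm_sub_rev _ _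
        linarith
      have hc := hcone p₁ hp₁Γ p₀ hp₀Γ
      rw [← hv] at hc
      have hc2 : ‖prV m n (Ω.symm v)‖ ≤ s * (5 + (2 * ρ + 2 * d)) := by
        refine hc.trans ?_
        gcongr
        exact (norm_prH_le _).trans (by rw [Ω.symm.norm_map]; exact hvn)
      have hw1 : ‖prV m n (Ω.symm w)‖ ≤ (2 * ρ + 2 * d) + s * (5 + (2 * ρ + 2 * d)) := by
        have h1 : prV m n (Ω.symm w) = prV m n (Ω.symm (w - v)) + prV m n (Ω.symm v) := by
          rw [← map_add, ← map_add, sub_add_cancel]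
        rw [h1]
        refine (norm_add_le _ _).trans ?_
        gcongr
        exact (norm_prV_le _).trans (by rw [Ω.symm.norm_map]; exact hvw)
      have hw2 : w = (5 : ℝ) • mkHV e (0 : E n) := by
        rw [hw, mkHV_eq, mkHV_eq, map_smul, map_zero, add_zero, add_zero]
      rw [hw2, map_smul, map_smul, norm_smul] at hw1
      have h5 : ‖(5 : ℝ)‖ = 5 := by norm_num
      rw [h5] at hw1
      have h6 : s * (2 * ρ + 2 * d) ≤ 2 * ρ + 2 * d := by
        have : 0 ≤ 2 * ρ + 2 * d := by positivity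
        nlinarith
      nlinarith
    have hfin := ang_lin Ω (by positivity : 0 ≤ s + d + ρ) key
    rw [← hP'] at hfin
    have hA1 : 1 ≤ A := by rw [hA]; linarith
    calc ‖P' - PH m n‖ ≤ 2 * m * (s + d + ρ) := hfin
      _ ≤ 2 * m * (A * (s + d + t)) := by
          have : s + d + ρ ≤ A * (s + d + t) := by
            rw [hρ]
            have : 0 ≤ s + d := by positivity
            nlinarith
          gcongr
      _ ≤ (2 * m * A + 2 * A) * (s + d + t) := by
          have : 0 ≤ 2 * A * (s + d + t) := by positivity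
          nlinarith

end Claimed.Agent.R322.Freq
end
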