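/- Packed by merge_tool.py (helper293): 7 modules of Claimed.Agent.R322 in one file, same declarations.
   Old modules, in this order: Red.Pre, Red.Freq, Red.Pos, Red.Rescale, Red.Limit, Red.Blowup, Red.Rigid -/
import Claimed.Agent.R322.Pack007
import Claimed.Agent.R322.Pack010

/- ===== packed: Claimed.Agent.R322.Red.Pre ===== -/
section
/-!
# CO Section 7: the part of a `LinTuple` which survives rescaling and weak limits (helper96; sorry-free)

`PreTuple` = `LinTuple` without `nu_ne` and `abs_le`.  All frequency identities are proved for `PreTuple`s; `nu_ne` and `abs_le`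
are used only for the ORIGINAL tuple (positivity of the height, Lemma 7.2, and the mass bound for `𝔪`).
-/

set_option autoImplicit false

open scoped ENNReal ContDiff
open MeasureTheory Filter Topology

namespace Claimed.Agent.R322.Red

open Claimed.Agent.R322.Fn

structure PreTuple (m : ℕ) (Ω : Set (E m)) where
  nu : (E m → ℝ) → ℝ
  f : Fin m → (E m → ℝ) → ℝ
  beta : Fin m → Fin m → (E m → ℝ) → ℝ
  mm : (E m → ℝ) → ℝ
  radon_nu : IsRadon Ω nu
  radon_f : ∀ i, IsRadon Ω (f i)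
  radon_beta : ∀ i j, IsRadon Ω (beta i j)
  radon_mm : IsRadon Ω mm
  beta_symm : ∀ i j g, IsTest Ω g → beta i j g = beta j i g
  psd : ∀ (a : E m → ℝ) (b : Fin m → E m → ℝ), IsTest Ω a → (∀ i, IsTest Ω (b i)) →
    0 ≤ nu (a * a) + 2 * ∑ i, f i (a * b i) + ∑ i, ∑ j, beta i j (b i * b j)
  grad_nu : ∀ g, IsSTest Ω g → ∀ i, nu (pd i g) = - (2 * f i g)
  div_f : ∀ g, IsSTest Ω g → ∑ i, f i (pd i g) = - ∑ i, beta i i g
  stress : ∀ X : Fin m → E m → ℝ, (∀ i, IsSTest Ω (X i)) →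
    mm (fun y => ∑ i, pd i (X i) y) = ∑ i, ∑ j, beta i j (pd j (X i))
  sign_le : ∀ g, IsTest Ω g → (∀ y, 0 ≤ g y) → 2 * mm g ≤ ∑ i, beta i i g

/-- forget `nu_ne` and `abs_le` -/
def LinTuple.pre {m : ℕ} {Ω : Set (E m)} (T : LinTuple m Ω) : PreTuple m Ω where
  nu := T.nu
  f := T.f
  beta := T.beta
  mm := T.mm
  radon_nu := T.radon_nu
  radon_f := T.radon_f
  radon_beta := T.radon_beta
  radon_mm := T.radon_mm
  beta_symm := T.beta_symm
  psd := T.psd
  grad_nu := T.grad_nu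
  div_f := T.div_f
  stress := T.stress
  sign_le := T.sign_le

variable {m : ℕ} {Ω : Set (E m)}

namespace PreTuple

/-- the trace `d₀ = tr β` -/
def tr (T : PreTuple m Ω) (g : E m → ℝ) : ℝ := ∑ i, T.beta i i g

theorem radon_tr (T : PreTuple m Ω) : IsRadon Ω T.tr :=
  IsRadon.sum' Finset.univ fun i _ => T.radon_beta i i

/-! ## positivity -/

/-- `√g` as a test function -/
theorem _root_.Claimed.Agent.R322.Fn.IsTest.sqrt {g : E m → ℝ} (hg : IsTest Ω g) :
    IsTest Ω (fun y => Real.sqrt (g y)) :=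
  hg.comp_left Real.continuous_sqrt Real.sqrt_zero

/-- the positive form on `a = s √g`, `b = √g • v` (`v` a constant vector) -/
theorem psd_const (T : PreTuple m Ω) {g : E m → ℝ} (hg : IsTest Ω g) (h0 : ∀ y, 0 ≤ g y) (s : ℝ)
    (v : Fin m → ℝ) :
    0 ≤ s ^ 2 * T.nu g + 2 * ∑ i, s * v i * T.f i g + ∑ i, ∑ j, v i * v j * T.beta i j g := by
  have hs := hg.sqrt
  have h1 := T.psd (s • fun y => Real.sqrt (g y)) (fun i => v i • fun y => Real.sqrt (g y))
    (hs.smul s) fun i => hs.smul (v i)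
  have e1 : (s • fun y => Real.sqrt (g y)) * (s • fun y => Real.sqrt (g y)) = (s ^ 2) • g := by
    funext y
    simp only [Pi.mul_apply, Pi.smul_apply, smul_eq_mul]
    have := Real.mul_self_sqrt (h0 y)
    calc s * Real.sqrt (g y) * (s * Real.sqrt (g y))
        = s ^ 2 * (Real.sqrt (g y) * Real.sqrt (g y)) := by ring
      _ = s ^ 2 * g y := by rw [this]
  have e2 : ∀ i, (s • fun y => Real.sqrt (g y)) * (v i • fun y => Real.sqrt (g y))
      = (s * v i) • g := by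
    intro i
    funext y
    simp only [Pi.mul_apply, Pi.smul_apply, smul_eq_mul]
    have := Real.mul_self_sqrt (h0 y)
    calc s * Real.sqrt (g y) * (v i * Real.sqrt (g y))
        = s * v i * (Real.sqrt (g y) * Real.sqrt (g y)) := by ring
      _ = s * v i * g y := by rw [this]
  have e3 : ∀ i j, (v i • fun y => Real.sqrt (g y)) * (v j • fun y => Real.sqrt (g y))
      = (v i * v j) • g := by
    intro i j
    funext y
    simp only [Pi.mul_apply, Pi.smul_apply, smul_eq_mul]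
    have := Real.mul_self_sqrt (h0 y)
    calc v i * Real.sqrt (g y) * (v j * Real.sqrt (g y))
        = v i * v j * (Real.sqrt (g y) * Real.sqrt (g y)) := by ring
      _ = v i * v j * g y := by rw [this]
  simp only [e1, e2, e3, T.radon_nu.smul _ _ hg, (T.radon_f _).smul _ _ hg,
    (T.radon_beta _ _).smul _ _ hg] at h1
  exact h1

/-- [`psd` with `a = √g` (`IsTest.comp_left` with `Real.sqrt`), `b = 0`; `√g * √g = g`; `Λ 0 = 0`.] -/
theorem pos_nu (T : PreTuple m Ω) : IsPos Ω T.nu := by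
  intro g hg h0
  have := T.psd_const hg h0 1 0
  simpa using this

/-- [`psd` with `a = 0`, `b = Pi.single i √g` (i.e. `b j = if j = i then √g else 0`).] -/
theorem pos_beta (T : PreTuple m Ω) (i : Fin m) : IsPos Ω (T.beta i i) := by
  intro g hg h0
  have := T.psd_const hg h0 0 (Pi.single i 1)
  simpa [Pi.single_apply, Finset.sum_ite_eq', Finset.sum_ite_eq, ite_mul, mul_ite] using this

theorem pos_tr (T : PreTuple m Ω) : IsPos Ω T.tr :=
  fun g hg h0 => Finset.sum_nonneg fun i _ => T.pos_beta i g hg h0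

theorem beta_le_tr (T : PreTuple m Ω) (i : Fin m) {g : E m → ℝ} (hg : IsTest Ω g)
    (h0 : ∀ y, 0 ≤ g y) : T.beta i i g ≤ T.tr g :=
  Finset.single_le_sum (f := fun i => T.beta i i g) (fun j _ => T.pos_beta j g hg h0)
    (Finset.mem_univ i)

/-- [`psd` with `a = √g`, `b = ± Pi.single i √g`: `0 ≤ ν g ± 2 f_i g + β_ii g`.] -/
theorem abs_f_le (T : PreTuple m Ω) (i : Fin m) {g : E m → ℝ} (hg : IsTest Ω g)
    (h0 : ∀ y, 0 ≤ g y) : |T.f i g| ≤ (T.nu g + T.beta i i g) / 2 := by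
  have h1 := T.psd_const hg h0 1 (Pi.single i 1)
  have h2 := T.psd_const hg h0 1 (Pi.single i (-1))
  simp only [Pi.single_apply, Finset.sum_ite_eq', Finset.sum_ite_eq, ite_mul, mul_ite, zero_mul,
    mul_zero, Finset.mem_univ, if_true, one_mul, mul_one, one_pow] at h1 h2
  rw [abs_le]
  constructor <;> linarith

/-- [`psd` with `a = 0`, `b = √g (e_i ± e_j)`: `0 ≤ β_ii g + β_jj g ± (β_ij g + β_ji g)`; `beta_symm`.  The case `i = j` is
trivial by `pos_beta`.] -/
theorem abs_beta_le (T : PreTuple m Ω) (i j : Fin m) {g : E m → ℝ} (hg : IsTest Ω g)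
    (h0 : ∀ y, 0 ≤ g y) : |T.beta i j g| ≤ (T.beta i i g + T.beta j j g) / 2 := by
  by_cases hij : i = j
  · subst hij
    rw [abs_of_nonneg (T.pos_beta i g hg h0)]
    linarith
  have key : ∀ σ : ℝ, 0 ≤ T.beta i i g + σ * T.beta i j g + σ * T.beta j i g
      + σ ^ 2 * T.beta j j g := by
    intro σ
    have h1 := T.psd_const hg h0 0 (fun k => (if k = i then 1 else 0) + if k = j then σ else 0)
    have e : ∑ a, ∑ b, ((if a = i then (1 : ℝ) else 0) + if a = j then σ else 0) *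
        ((if b = i then (1 : ℝ) else 0) + if b = j then σ else 0) * T.beta a b g
        = T.beta i i g + σ * T.beta i j g + σ * T.beta j i g + σ ^ 2 * T.beta j j g := by
      simp only [add_mul, mul_add, Finset.sum_add_distrib, ite_mul, mul_ite, zero_mul, mul_zero,
        one_mul, mul_one, Finset.sum_ite_eq', Finset.sum_ite_eq, Finset.mem_univ, if_true,
        Finset.sum_const_zero]
      ring
    rw [e] at h1
    simpa using h1
  have h1 := key 1
  have h2 := key (-1)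
  rw [T.beta_symm j i g hg] at h1 h2
  rw [abs_le]
  constructor <;> linarith

/-- **null vectors of the positive form.**
[`0 ≤ Q (a₀ + ε a', b₀) = Q (a₀, b₀) + 2 ε (ν (a₀ a') + ∑ f_i (a' b₀ i)) + ε² ν (a' a')` for all real `ε` (linearity; function identities
by `funext`/`ring`); a polynomial `2 c₁ ε + c₂ ε² ≥ 0` for all `ε` has `c₁ = 0`.] -/
theorem null_vector (T : PreTuple m Ω) {a₀ : E m → ℝ} {b₀ : Fin m → E m → ℝ} (ha : IsTest Ω a₀)
    (hb : ∀ i, IsTest Ω (b₀ i))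
    (hnull : T.nu (a₀ * a₀) + 2 * ∑ i, T.f i (a₀ * b₀ i) + ∑ i, ∑ j, T.beta i j (b₀ i * b₀ j) = 0)
    {a' : E m → ℝ} (ha' : IsTest Ω a') :
    T.nu (a₀ * a') + ∑ i, T.f i (a' * b₀ i) = 0 := by
  set L := T.nu (a₀ * a') + ∑ i, T.f i (a' * b₀ i) with hL
  set N := T.nu (a' * a') with hN
  have h00 : IsTest Ω (a₀ * a₀) := ha.mul_cont ha.cont
  have h01 : IsTest Ω (a₀ * a') := ha.mul_cont ha'.cont
  have h11 : IsTest Ω (a' * a') := ha'.mul_cont ha'.cont
  have key : ∀ ε : ℝ, 0 ≤ N * (ε * ε) + 2 * L * ε + 0 := by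
    intro ε
    have h1 := T.psd (a₀ + ε • a') b₀ (ha.add (ha'.smul ε)) hb
    have e1 : (a₀ + ε • a') * (a₀ + ε • a') = a₀ * a₀ + ((2 * ε) • (a₀ * a') + (ε * ε) • (a' * a')) := by
      funext y
      simp only [Pi.mul_apply, Pi.add_apply, Pi.smul_apply, smul_eq_mul]
      ring
    have e2 : ∀ i, (a₀ + ε • a') * b₀ i = a₀ * b₀ i + ε • (a' * b₀ i) := by
      intro i
      funext y
      simp only [Pi.mul_apply, Pi.add_apply, Pi.smul_apply, smul_eq_mul]
      ring
    have e3 : T.nu ((a₀ + ε • a') * (a₀ + ε • a'))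
        = T.nu (a₀ * a₀) + (2 * ε * T.nu (a₀ * a') + ε * ε * N) := by
      rw [e1, T.radon_nu.add _ _ h00 ((h01.smul _).add (h11.smul _)),
        T.radon_nu.add _ _ (h01.smul _) (h11.smul _), T.radon_nu.smul _ _ h01,
        T.radon_nu.smul _ _ h11]
    have e4 : ∀ i, T.f i ((a₀ + ε • a') * b₀ i) = T.f i (a₀ * b₀ i) + ε * T.f i (a' * b₀ i) := by
      intro i
      rw [e2, (T.radon_f i).add _ _ (ha.mul_cont (hb i).cont) ((ha'.mul_cont (hb i).cont).smul _),
        (T.radon_f i).smul _ _ (ha'.mul_cont (hb i).cont)]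
    simp only [e3, e4, Finset.sum_add_distrib, ← Finset.mul_sum] at h1
    have : N * (ε * ε) + 2 * L * ε + 0 = (T.nu (a₀ * a₀) + 2 * ∑ i, T.f i (a₀ * b₀ i)
        + ∑ i, ∑ j, T.beta i j (b₀ i * b₀ j)) + (N * (ε * ε) + 2 * L * ε) := by
      rw [hnull]; ring
    rw [this, hL]
    linarith
  have hd := discrim_le_zero key
  unfold discrim at hd
  have : L ^ 2 ≤ 0 := by nlinarith
  exact pow_eq_zero_iff (two_ne_zero) |>.1 (le_antisymm this (sq_nonneg _))

/-! ## the identities for `C¹` test functions -/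

/-- [`exists_stest_tendsto`, `tendsto_nhds_unique`] -/
theorem grad_nu' (T : PreTuple m Ω) (hΩ : IsOpen Ω) {g : E m → ℝ} (hg : IsTest Ω g)
    (h1 : ContDiff ℝ 1 g) (i : Fin m) : T.nu (pd i g) = - (2 * T.f i g) := by
  obtain ⟨G, hG, h0, hd⟩ := exists_stest_tendsto hΩ hg h1
  have e1 := hd T.nu i T.radon_nu
  have e2 : Tendsto (fun j => T.nu (pd i (G j))) atTop (𝓝 (-(2 * T.f i g))) := by
    simp only [T.grad_nu _ (hG _) i]
    exact ((h0 (T.f i) (T.radon_f i)).const_mul 2).neg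
  exact tendsto_nhds_unique e1 e2

theorem div_f' (T : PreTuple m Ω) (hΩ : IsOpen Ω) {g : E m → ℝ} (hg : IsTest Ω g)
    (h1 : ContDiff ℝ 1 g) : ∑ i, T.f i (pd i g) = - ∑ i, T.beta i i g := by
  obtain ⟨G, hG, h0, hd⟩ := exists_stest_tendsto hΩ hg h1
  have e1 : Tendsto (fun j => ∑ i, T.f i (pd i (G j))) atTop (𝓝 (∑ i, T.f i (pd i g))) :=
    tendsto_finsetSum _ fun i _ => hd (T.f i) i (T.radon_f i)
  have e2 : Tendsto (fun j => ∑ i, T.f i (pd i (G j))) atTop (𝓝 (-∑ i, T.beta i i g)) := by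
    simp only [T.div_f _ (hG _)]
    exact (tendsto_finsetSum _ fun i _ => h0 (T.beta i i) (T.radon_beta i i)).neg
  exact tendsto_nhds_unique e1 e2

/-- [as above, with one approximating sequence for every component `X i`; `𝔪 (∑ i, pd i (X i)) = ∑ i, 𝔪 (pd i (X i))` by
`IsRadon.map_sum` (the function `fun y => ∑ i, pd i (X i) y` equals `∑ i, pd i (X i)` by `Finset.sum_apply`).] -/
theorem stress' (T : PreTuple m Ω) (hΩ : IsOpen Ω) {X : Fin m → E m → ℝ}
    (hX : ∀ i, IsTest Ω (X i)) (h1 : ∀ i, ContDiff ℝ 1 (X i)) :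
    T.mm (fun y => ∑ i, pd i (X i) y) = ∑ i, ∑ j, T.beta i j (pd j (X i)) := by
  choose G hG h0 hd using fun i => exists_stest_tendsto hΩ (hX i) (h1 i)
  have hsum : ∀ Y : Fin m → E m → ℝ, (∀ i, IsTest Ω (Y i)) → (∀ i, ContDiff ℝ 1 (Y i)) →
      T.mm (fun y => ∑ i, pd i (Y i) y) = ∑ i, T.mm (pd i (Y i)) := by
    intro Y hY hY1
    have e : (fun y => ∑ i, pd i (Y i) y) = ∑ i, pd i (Y i) := by
      funext y; simp
    rw [e, T.radon_mm.map_sum _ fun i _ => (hY i).pd (hY1 i) i]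
  have e1 : Tendsto (fun n => T.mm (fun y => ∑ i, pd i (G i n) y)) atTop
      (𝓝 (T.mm (fun y => ∑ i, pd i (X i) y))) := by
    rw [hsum X hX h1]
    simp only [hsum (fun i => G i _) (fun i => (hG i _).toIsTest)
      (fun i => (hG i _).smooth.of_le (by simp))]
    exact tendsto_finsetSum _ fun i _ => hd i T.mm i T.radon_mm
  have e2 : Tendsto (fun n => T.mm (fun y => ∑ i, pd i (G i n) y)) atTop
      (𝓝 (∑ i, ∑ j, T.beta i j (pd j (X i)))) := by
    simp only [T.stress (fun i => G i _) (fun i => hG i _)]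
    exact tendsto_finsetSum _ fun i _ => tendsto_finsetSum _ fun j _ =>
      hd i (T.beta i j) j (T.radon_beta i j)
  exact tendsto_nhds_unique e1 e2

/-! ## mass bounds -/

/-- from nonnegative to signed test functions.
[`g = g⁺ - g⁻`, `g⁺ = fun y => max (g y) 0`, `g⁻ = fun y => max (- g y) 0` (`IsTest.comp_left`); both are supported in `tsupport g`
and bounded by `B`.] -/
theorem _root_.Claimed.Agent.R322.Fn.IsRadon.abs_le_of_nonneg {Λ : (E m → ℝ) → ℝ} (hΛ : IsRadon Ω Λ)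
    {M : ℝ}
    (h : ∀ g, IsTest Ω g → (∀ y, 0 ≤ g y) → ∀ B : ℝ, (∀ y, g y ≤ B) → |Λ g| ≤ M * B)
    {g : E m → ℝ} (hg : IsTest Ω g) {B : ℝ} (hB : ∀ y, |g y| ≤ B) : |Λ g| ≤ 2 * M * B := by
  have hp : IsTest Ω (fun y => max (g y) 0) :=
    hg.comp_left (F := fun t => max t 0) (by fun_prop) (by simp)
  have hn : IsTest Ω (fun y => max (-g y) 0) :=
    hg.comp_left (F := fun t => max (-t) 0) (by fun_prop) (by simp)
  have e : g = (fun y => max (g y) 0) - fun y => max (-g y) 0 := by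
    funext y
    simp only [Pi.sub_apply]
    rcases le_total 0 (g y) with h0 | h0
    · rw [max_eq_left h0, max_eq_right (by linarith)]; ring
    · rw [max_eq_right h0, max_eq_left (by linarith)]; ring
  have hB0 : 0 ≤ B := (abs_nonneg _).trans (hB 0)
  have h1 := h _ hp (fun y => le_max_right _ _) B fun y => max_le ((le_abs_self _).trans (hB y)) hB0
  have h2 := h _ hn (fun y => le_max_right _ _) B
    fun y => max_le ((neg_le_abs _).trans (hB y)) hB0
  rw [e, hΛ.map_sub hp hn]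
  calc |Λ (fun y => max (g y) 0) - Λ (fun y => max (-g y) 0)|
      ≤ |Λ (fun y => max (g y) 0)| + |Λ (fun y => max (-g y) 0)| := abs_sub _ _
    _ ≤ M * B + M * B := add_le_add h1 h2
    _ = 2 * M * B := by ring

/-- all components are controlled by the masses of `ν` and `tr β` -/
theorem bound_of_mass (T : PreTuple m Ω) {M : ℝ}
    (hnu : ∀ g, IsTest Ω g → (∀ y, 0 ≤ g y) → ∀ B : ℝ, (∀ y, g y ≤ B) → T.nu g ≤ M * B)
    (htr : ∀ g, IsTest Ω g → (∀ y, 0 ≤ g y) → ∀ B : ℝ, (∀ y, g y ≤ B) → T.tr g ≤ M * B)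
    {g : E m → ℝ} (hg : IsTest Ω g) {B : ℝ} (hB : ∀ y, |g y| ≤ B) :
    |T.nu g| ≤ 2 * M * B ∧ (∀ i, |T.f i g| ≤ 2 * M * B) ∧ ∀ i j, |T.beta i j g| ≤ 2 * M * B := by
  refine ⟨?_, fun i => ?_, fun i j => ?_⟩
  · refine T.radon_nu.abs_le_of_nonneg (fun g hg h0 B hB => ?_) hg hB
    rw [abs_of_nonneg (T.pos_nu g hg h0)]
    exact hnu g hg h0 B hB
  · refine (T.radon_f i).abs_le_of_nonneg (fun g hg h0 B hB => ?_) hg hB
    have h1 := T.abs_f_le i hg h0
    have h2 := hnu g hg h0 B hB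
    have h3 := (T.beta_le_tr i hg h0).trans (htr g hg h0 B hB)
    linarith
  · refine (T.radon_beta i j).abs_le_of_nonneg (fun g hg h0 B hB => ?_) hg hB
    have h1 := T.abs_beta_le i j hg h0
    have h3 := (T.beta_le_tr i hg h0).trans (htr g hg h0 B hB)
    have h4 := (T.beta_le_tr j hg h0).trans (htr g hg h0 B hB)
    linarith

end PreTuple

end Claimed.Agent.R322.Red
end

/- ===== packed: Claimed.Agent.R322.Red.Freq ===== -/
section
/-!
# CO Section 7: the frequency quantities `H, A, D, R` and the identities (7.6) (helper96; sorry-free)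
-/

set_option autoImplicit false

open scoped ENNReal ContDiff
open MeasureTheory Filter Topology

namespace Claimed.Agent.R322.Red

open Claimed.Agent.R322.Fn

variable {m : ℕ} {Ω : Set (E m)}

namespace PreTuple

/-- height `H(x,l) = ∫ ψ_{x,l} dν` -/
noncomputable def Hh (T : PreTuple m Ω) (p : ℕ) (x : E m) (l : ℝ) : ℝ := T.nu (psiK m p x l)

/-- `A(x,l) = l² ∫ φ_{x,l} d𝔪` -/
noncomputable def Aa (T : PreTuple m Ω) (p : ℕ) (x : E m) (l : ℝ) : ℝ :=
  l ^ 2 * T.mm (phiK m p x l)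

/-- `D(x,l) = l² ∫ φ_{x,l} d(tr β)` -/
noncomputable def Dd (T : PreTuple m Ω) (p : ℕ) (x : E m) (l : ℝ) : ℝ :=
  l ^ 2 * T.tr (phiK m p x l)

/-- `R(x,l) = ∫ ψ_{x,l} dβ[y-x,y-x]` -/
noncomputable def Rr (T : PreTuple m Ω) (p : ℕ) (x : E m) (l : ℝ) : ℝ :=
  ∑ i, ∑ j, T.beta i j (fun y => psiK m p x l y * (y i - x i) * (y j - x j))

variable (T : PreTuple m Ω) {p : ℕ} {x : E m} {l : ℝ}

/-! ## identities (package L-Red-Freq1) -/

/-- the flux form of `D`.
[`div_f'` with `g = phiK = kerK m p 1` (`isTest_kerK`, `contDiff_kerK`); `pd_kerK` gives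
`pd i φ = (-(l²)⁻¹) • (ψ * coord_i)` (function identity, `psiK_eq`, `2 * p * 1 = 2 * p`); `IsRadon.smul`.] -/
theorem Dd_eq (hΩ : IsOpen Ω) (hp : 4 ≤ p) (h : Adm Ω x l) :
    T.Dd p x l = ∑ i, T.f i (fun y => psiK m p x l y * (y i - x i)) := by
  have hl2 : (l ^ 2) ≠ 0 := pow_ne_zero _ h.1.ne'
  have h1 := T.div_f' hΩ (isTest_kerK (c := 1) (q := p) h (by omega))
    (contDiff_kerK (by omega) h.1)
  have e : ∀ i, pd i (kerK m p 1 x l) = (-(l ^ 2)⁻¹) • fun y => psiK m p x l y * (y i - x i) := by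
    intro i
    funext y
    rw [pd_kerK (by omega) h.1, psiK_eq]
    simp only [Pi.smul_apply, smul_eq_mul, mul_one]
    ring
  have hT : ∀ i, IsTest Ω (fun y => psiK m p x l y * (y i - x i)) := by
    intro i
    rw [psiK_eq]
    exact isTest_kerK_mul_coord h (by omega) i
  simp only [e, (T.radon_f _).smul _ _ (hT _), ← Finset.mul_sum] at h1
  unfold Dd tr
  rw [phiK_eq]
  have h2 : ∑ i, T.beta i i (kerK m p 1 x l)
      = (l ^ 2)⁻¹ * ∑ i, T.f i (fun y => psiK m p x l y * (y i - x i)) := by linarith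
  rw [h2, ← mul_assoc, mul_inv_cancel₀ hl2, one_mul]

/-- `l H' = 2 D`.
[`hasDerivAt_radon_kerK` for `ν`, `q = p - 1`, `c = 2 p`.  `dkerK = (-l⁻¹) • ∑ i, pd i (ψ * coord_i)` (`sum_pd_coord_mul_kerK`);
`IsRadon.smul`, `IsRadon.map_sum`, `grad_nu'` for `ψ * coord_i` (`isTest_kerK_mul_coord`, `contDiff_kerK_mul_coord`); `Dd_eq`.] -/
theorem hasDerivAt_Hh (hΩ : IsOpen Ω) (hp : 4 ≤ p) (h : Adm Ω x l) :
    HasDerivAt (fun l => T.Hh p x l) (2 * T.Dd p x l / l) l := by
  have h1 := hasDerivAt_radon_kerK (c := 2 * (p : ℝ)) (q := p - 1) hΩ T.radon_nu h (by omega)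
  unfold Hh
  simp only [psiK_eq]
  refine h1.congr_deriv ?_
  have hT : ∀ i, IsTest Ω (fun y => kerK m (p - 1) (2 * p) x l y * (y i - x i)) :=
    fun i => isTest_kerK_mul_coord h (by omega) i
  have hC : ∀ i, ContDiff ℝ 1 (fun y => kerK m (p - 1) (2 * p) x l y * (y i - x i)) :=
    fun i => contDiff_kerK_mul_coord (by omega) h.1 i
  have e : dkerK m (p - 1) (2 * p) x l
      = (-l⁻¹) • ∑ i, pd i (fun y => kerK m (p - 1) (2 * p) x l y * (y i - x i)) := by
    funext y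
    simp only [Pi.smul_apply, Finset.sum_apply, smul_eq_mul]
    rw [sum_pd_coord_mul_kerK (by omega) h.1]
    have := h.1.ne'
    field_simp
  rw [e, T.radon_nu.smul _ _ (IsTest.sum _ fun i _ => (hT i).pd (hC i) i),
    T.radon_nu.map_sum _ fun i _ => (hT i).pd (hC i) i]
  simp only [T.grad_nu' hΩ (hT _) (hC _)]
  rw [T.Dd_eq hΩ hp h]
  simp only [psiK_eq, Finset.sum_neg_distrib, ← Finset.mul_sum]
  ring

/-- `l A' = 2 A - D + R`.
[`HasDerivAt.mul` of `l²` and `hasDerivAt_radon_kerK` for `𝔪`, `q = p`, `c = 1`.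
`𝔪 (dkerK) = -l⁻¹ 𝔪 (∑ i, pd i (φ * coord_i)) = -l⁻¹ ∑ i j, β_ij (pd j (φ * coord_i))` (`stress'`),
`pd j (φ * coord_i) = δ_ij φ - (l²)⁻¹ ψ coord_i coord_j` (`pd_kerK_mul_coord`).] -/
theorem hasDerivAt_Aa (hΩ : IsOpen Ω) (hp : 4 ≤ p) (h : Adm Ω x l) :
    HasDerivAt (fun l => T.Aa p x l) ((2 * T.Aa p x l - T.Dd p x l + T.Rr p x l) / l) l := by
  have h1 := hasDerivAt_radon_kerK (c := (1 : ℝ)) (q := p) hΩ T.radon_mm h (by omega)
  have h2 := (hasDerivAt_pow 2 l).fun_mul h1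
  unfold Aa
  simp only [phiK_eq]
  refine h2.congr_deriv ?_
  have hl := h.1.ne'
  have hT : ∀ i, IsTest Ω (fun y => kerK m p 1 x l y * (y i - x i)) :=
    fun i => isTest_kerK_mul_coord h (by omega) i
  have hC : ∀ i, ContDiff ℝ 1 (fun y => kerK m p 1 x l y * (y i - x i)) :=
    fun i => contDiff_kerK_mul_coord (by omega) h.1 i
  have e : dkerK m p 1 x l
      = (-l⁻¹) • fun y => ∑ i, pd i (fun y => kerK m p 1 x l y * (y i - x i)) y := by
    funext y
    simp only [Pi.smul_apply, smul_eq_mul]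
    rw [sum_pd_coord_mul_kerK (by omega) h.1]
    field_simp
  have hsumT : IsTest Ω (fun y => ∑ i, pd i (fun y => kerK m p 1 x l y * (y i - x i)) y) := by
    have := IsTest.sum (Ω := Ω) Finset.univ
      (g := fun i => pd i (fun y => kerK m p 1 x l y * (y i - x i)))
      fun i _ => (hT i).pd (hC i) i
    have e' : (fun y => ∑ i, pd i (fun y => kerK m p 1 x l y * (y i - x i)) y)
        = ∑ i, pd i (fun y => kerK m p 1 x l y * (y i - x i)) := by
      funext y; simp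
    rw [e']; exact this
  rw [e, T.radon_mm.smul _ _ hsumT, T.stress' hΩ hT hC]
  have hφ : IsTest Ω (kerK m p 1 x l) := isTest_kerK h (by omega)
  have hψ2 : ∀ i j, IsTest Ω (fun y => psiK m p x l y * (y i - x i) * (y j - x j)) := by
    intro i j
    rw [psiK_eq]
    exact (isTest_kerK_mul_coord h (by omega) i).mul_cont (contDiff_coord j x).continuous
  have e2 : ∀ i j, pd j (fun y => kerK m p 1 x l y * (y i - x i))
      = (if i = j then kerK m p 1 x l else 0)
        - (l ^ 2)⁻¹ • fun y => psiK m p x l y * (y i - x i) * (y j - x j) := by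
    intro i j
    funext y
    rw [pd_kerK_mul_coord (by omega) h.1, psiK_eq]
    simp only [Pi.sub_apply, Pi.smul_apply, smul_eq_mul, mul_one]
    split_ifs <;> simp
  have e3 : ∀ i j, T.beta i j (pd j (fun y => kerK m p 1 x l y * (y i - x i)))
      = (if i = j then T.beta i j (kerK m p 1 x l) else 0)
        - (l ^ 2)⁻¹ * T.beta i j (fun y => psiK m p x l y * (y i - x i) * (y j - x j)) := by
    intro i j
    have hite : IsTest Ω (if i = j then kerK m p 1 x l else 0) := by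
      split_ifs
      · exact hφ
      · exact IsTest.zero
    rw [e2, (T.radon_beta i j).map_sub hite ((hψ2 i j).smul _),
      (T.radon_beta i j).smul _ _ (hψ2 i j)]
    split_ifs
    · rfl
    · rw [(T.radon_beta i j).map_zero]
  simp only [e3, Finset.sum_sub_distrib, Finset.sum_ite_eq, Finset.mem_univ, if_true,
    ← Finset.mul_sum]
  unfold Dd Rr tr
  rw [phiK_eq]
  field_simp
  ring

/-! ## inequalities (package L-Red-Freq2) -/

/-- the test fields used in the positive form: `a = s √ψ`, `b i = τ √ψ (y - x)_i` -/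
theorem isTest_sqrt_psiK (hp : 4 ≤ p) (h : Adm Ω x l) :
    IsTest Ω (fun y => Real.sqrt (psiK m p x l y)) := by
  rw [psiK_eq]
  exact (isTest_kerK h (by omega)).comp_left Real.continuous_sqrt Real.sqrt_zero

/-- the positive form evaluated on `a = s √ψ`, `b i = τ √ψ (y - x)_i`.
[`√ψ * √ψ = ψ` since `ψ ≥ 0` (`Real.mul_self_sqrt`); so `a * a = s² • ψ`, `a * b i = (s τ) • (ψ * coord_i)`,
`b i * b j = τ² • (ψ * coord_i * coord_j)` (function identities by `funext`, `ring_nf`/`calc`); `IsRadon.smul`; `Dd_eq`.] -/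
theorem form_eq (hΩ : IsOpen Ω) (hp : 4 ≤ p) (h : Adm Ω x l) (s τ : ℝ) :
    T.nu ((fun y => s * Real.sqrt (psiK m p x l y)) * fun y => s * Real.sqrt (psiK m p x l y))
      + 2 * ∑ i, T.f i ((fun y => s * Real.sqrt (psiK m p x l y)) *
          fun y => τ * (Real.sqrt (psiK m p x l y) * (y i - x i)))
      + ∑ i, ∑ j, T.beta i j ((fun y => τ * (Real.sqrt (psiK m p x l y) * (y i - x i))) *
          fun y => τ * (Real.sqrt (psiK m p x l y) * (y j - x j)))
      = s ^ 2 * T.Hh p x l + 2 * s * τ * T.Dd p x l + τ ^ 2 * T.Rr p x l := by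
  have hψ0 : ∀ y, 0 ≤ psiK m p x l y := by
    intro y
    rw [psiK_eq]
    exact kerK_nonneg (by positivity) h.1
  have hss : ∀ y, Real.sqrt (psiK m p x l y) * Real.sqrt (psiK m p x l y) = psiK m p x l y :=
    fun y => Real.mul_self_sqrt (hψ0 y)
  have hψ : IsTest Ω (psiK m p x l) := by
    rw [psiK_eq]; exact isTest_kerK h (by omega)
  have hψ1 : ∀ i, IsTest Ω (fun y => psiK m p x l y * (y i - x i)) :=
    fun i => hψ.mul_cont (contDiff_coord i x).continuous
  have hψ2 : ∀ i j, IsTest Ω (fun y => psiK m p x l y * (y i - x i) * (y j - x j)) :=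
    fun i j => (hψ1 i).mul_cont (contDiff_coord j x).continuous
  have e1 : ((fun y => s * Real.sqrt (psiK m p x l y)) * fun y => s * Real.sqrt (psiK m p x l y))
      = (s ^ 2) • psiK m p x l := by
    funext y
    simp only [Pi.mul_apply, Pi.smul_apply, smul_eq_mul]
    calc s * Real.sqrt (psiK m p x l y) * (s * Real.sqrt (psiK m p x l y))
        = s ^ 2 * (Real.sqrt (psiK m p x l y) * Real.sqrt (psiK m p x l y)) := by ring
      _ = _ := by rw [hss]
  have e2 : ∀ i, ((fun y => s * Real.sqrt (psiK m p x l y)) *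
      fun y => τ * (Real.sqrt (psiK m p x l y) * (y i - x i)))
      = (s * τ) • fun y => psiK m p x l y * (y i - x i) := by
    intro i
    funext y
    simp only [Pi.mul_apply, Pi.smul_apply, smul_eq_mul]
    calc s * Real.sqrt (psiK m p x l y) * (τ * (Real.sqrt (psiK m p x l y) * (y i - x i)))
        = s * τ * ((Real.sqrt (psiK m p x l y) * Real.sqrt (psiK m p x l y)) * (y i - x i)) := by
          ring
      _ = _ := by rw [hss]
  have e3 : ∀ i j, ((fun y => τ * (Real.sqrt (psiK m p x l y) * (y i - x i))) *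
      fun y => τ * (Real.sqrt (psiK m p x l y) * (y j - x j)))
      = (τ ^ 2) • fun y => psiK m p x l y * (y i - x i) * (y j - x j) := by
    intro i j
    funext y
    simp only [Pi.mul_apply, Pi.smul_apply, smul_eq_mul]
    calc τ * (Real.sqrt (psiK m p x l y) * (y i - x i)) *
          (τ * (Real.sqrt (psiK m p x l y) * (y j - x j)))
        = τ ^ 2 * ((Real.sqrt (psiK m p x l y) * Real.sqrt (psiK m p x l y)) * (y i - x i)
            * (y j - x j)) := by ring
      _ = _ := by rw [hss]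
  simp only [e1, e2, e3, T.radon_nu.smul _ _ hψ, (T.radon_f _).smul _ _ (hψ1 _),
    (T.radon_beta _ _).smul _ _ (hψ2 _ _), ← Finset.mul_sum]
  rw [T.Dd_eq hΩ hp h]
  unfold Hh Rr
  ring

theorem isTest_form_a (hp : 4 ≤ p) (h : Adm Ω x l) (s : ℝ) :
    IsTest Ω (fun y => s * Real.sqrt (psiK m p x l y)) :=
  (isTest_sqrt_psiK hp h).smul s

theorem isTest_form_b (hp : 4 ≤ p) (h : Adm Ω x l) (τ : ℝ) (i : Fin m) :
    IsTest Ω (fun y => τ * (Real.sqrt (psiK m p x l y) * (y i - x i))) :=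
  ((isTest_sqrt_psiK hp h).mul_cont (contDiff_coord i x).continuous).smul τ

theorem form_nonneg (hΩ : IsOpen Ω) (hp : 4 ≤ p) (h : Adm Ω x l) (s τ : ℝ) :
    0 ≤ s ^ 2 * T.Hh p x l + 2 * s * τ * T.Dd p x l + τ ^ 2 * T.Rr p x l := by
  rw [← T.form_eq hΩ hp h s τ]
  exact T.psd _ _ (isTest_form_a hp h s) fun i => isTest_form_b hp h τ i

theorem Hh_nonneg (hp : 4 ≤ p) (h : Adm Ω x l) : 0 ≤ T.Hh p x l := by
  unfold Hh
  rw [psiK_eq]
  exact T.pos_nu _ (isTest_kerK h (by omega)) fun y => kerK_nonneg (by positivity) h.1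

theorem Dd_nonneg (hp : 4 ≤ p) (h : Adm Ω x l) : 0 ≤ T.Dd p x l := by
  unfold Dd
  rw [phiK_eq]
  exact mul_nonneg (sq_nonneg _)
    (T.pos_tr _ (isTest_kerK h (by omega)) fun y => kerK_nonneg zero_le_one h.1)

theorem two_Aa_le (hp : 4 ≤ p) (h : Adm Ω x l) : 2 * T.Aa p x l ≤ T.Dd p x l := by
  unfold Aa Dd tr
  rw [phiK_eq]
  have := T.sign_le _ (isTest_kerK (c := 1) h (q := p) (by omega))
    fun y => kerK_nonneg zero_le_one h.1
  have h2 : 0 ≤ l ^ 2 := sq_nonneg _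
  nlinarith

/-- `l^{m-2} D` is nondecreasing.  [`kerK_mono`, `IsPos.mono` for `tr β`, `IsRadon.smul`.] -/
theorem Dd_mono {l' : ℝ} (hp : 4 ≤ p) (hl : 0 < l) (hll : l ≤ l') (h : Adm Ω x l') :
    l ^ m * l' ^ 2 * T.Dd p x l ≤ l' ^ m * l ^ 2 * T.Dd p x l' := by
  have hadm : Adm Ω x l := h.mono hl hll
  have h1 : IsTest Ω (kerK m p 1 x l) := isTest_kerK hadm (by omega)
  have h2 : IsTest Ω (kerK m p 1 x l') := isTest_kerK h (by omega)
  have h3 := T.pos_tr.mono T.radon_tr (h1.smul (l ^ m)) (h2.smul (l' ^ m)) fun y => by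
    simp only [Pi.smul_apply, smul_eq_mul]
    exact kerK_mono zero_le_one hl hll
  rw [T.radon_tr.smul _ _ h1, T.radon_tr.smul _ _ h2] at h3
  unfold Dd
  rw [phiK_eq, phiK_eq]
  have h4 : 0 ≤ l ^ 2 * l' ^ 2 := by positivity
  calc l ^ m * l' ^ 2 * (l ^ 2 * T.tr (kerK m p 1 x l))
      = l ^ 2 * l' ^ 2 * (l ^ m * T.tr (kerK m p 1 x l)) := by ring
    _ ≤ l ^ 2 * l' ^ 2 * (l' ^ m * T.tr (kerK m p 1 x l')) := mul_le_mul_of_nonneg_left h3 h4
    _ = l' ^ m * l ^ 2 * (l' ^ 2 * T.tr (kerK m p 1 x l')) := by ring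

/-! ## continuity -/

theorem continuousAt_Hh (hΩ : IsOpen Ω) (hp : 4 ≤ p) (h : Adm Ω x l) :
    ContinuousAt (fun θ : E m × ℝ => T.Hh p θ.1 θ.2) (x, l) := by
  unfold Hh
  simp only [psiK_eq]
  exact continuousAt_radon_kerK hΩ T.radon_nu h (by omega)

theorem continuousAt_Aa (hΩ : IsOpen Ω) (hp : 4 ≤ p) (h : Adm Ω x l) :
    ContinuousAt (fun θ : E m × ℝ => T.Aa p θ.1 θ.2) (x, l) := by
  unfold Aa
  simp only [phiK_eq]
  exact (continuousAt_snd.pow 2).mul (continuousAt_radon_kerK hΩ T.radon_mm h (by omega))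

/-! ## the frequency system -/

/-- the system in the variable `t = log l` -/
theorem freqSys (hΩ : IsOpen Ω) (hp : 4 ≤ p) {I : Set ℝ} (hI : ∀ t ∈ I, Adm Ω x (Real.exp t)) :
    FreqSys I (fun t => T.Hh p x (Real.exp t)) (fun t => T.Aa p x (Real.exp t))
      (fun t => T.Dd p x (Real.exp t)) (fun t => T.Rr p x (Real.exp t)) where
  dH t ht := by
    have h1 := (T.hasDerivAt_Hh hΩ hp (hI t ht)).comp t (Real.hasDerivAt_exp t)
    have h2 : 2 * T.Dd p x (Real.exp t) / Real.exp t * Real.exp t = 2 * T.Dd p x (Real.exp t) :=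
      div_mul_cancel₀ _ (Real.exp_pos t).ne'
    rw [h2] at h1
    exact h1
  dA t ht := by
    have h1 := (T.hasDerivAt_Aa hΩ hp (hI t ht)).comp t (Real.hasDerivAt_exp t)
    rw [div_mul_cancel₀ _ (Real.exp_pos t).ne'] at h1
    exact h1
  psd t ht s τ := T.form_nonneg hΩ hp (hI t ht) s τ
  D_nonneg t ht := T.Dd_nonneg hp (hI t ht)
  sign t ht := T.two_Aa_le hp (hI t ht)

end PreTuple

end Claimed.Agent.R322.Red
end

/- ===== packed: Claimed.Agent.R322.Red.Pos ===== -/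
section
/-!
# CO Lemma 7.2: positive height (helper96; sorry-free)

`LinTuple.Hh_pos` : `0 < H(x,l)` for every admissible centre and radius.

Route (slightly different from the paper: no distance to the support).  `Zs := {x | ∃ l, Adm x l ∧ H(x,l) = 0}`.
* `H(x,l₀) = 0` implies `D = 0` (Cauchy-Schwarz), `A = 0` (`abs_le`) and then `H(x,l) = 0` for ALL admissible `l`
  (`FreqSys.zero_prop`, `FreqSys.H_mono`).
* `Zs` and `Ω \ Zs` are both open; `Ω` is preconnected; so `Zs = ∅` or `Zs ⊇ Ω`.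
* If `Zs ⊇ Ω` then `ν = 0` (domination of a test function by a finite sum of kernels), contradicting `nu_ne`.
-/

set_option autoImplicit false

open scoped ENNReal ContDiff
open MeasureTheory Filter Topology

namespace Claimed.Agent.R322.Red

open Claimed.Agent.R322.Fn

variable {m : ℕ} {Ω : Set (E m)} (T : LinTuple m Ω) {p : ℕ} {x : E m} {l : ℝ}

namespace LinTuple

/-- [`T.pre.freqSys` with `I = {Real.log l}` and `FreqSys.D_eq_zero` give `D = 0`, i.e. `tr β (φ) = 0` (`l ≠ 0`);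
`T.abs_le (closedBall x l)` with `g = φ` (`tsupport_kerK_subset`) gives `𝔪 (φ) = 0`.] -/
theorem Aa_eq_zero_of_Hh (hΩ : IsOpen Ω) (hp : 4 ≤ p) (h : Adm Ω x l) (h0 : T.pre.Hh p x l = 0) :
    T.pre.Aa p x l = 0 := by
  have hexp : Real.exp (Real.log l) = l := Real.exp_log h.1
  have sys := T.pre.freqSys (x := x) hΩ hp (I := {Real.log l}) (fun t ht => by
    rw [Set.mem_singleton_iff.1 ht, hexp]; exact h)
  have hD := sys.D_eq_zero (Set.mem_singleton _) (by simp only [hexp]; exact h0)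
  simp only [hexp] at hD
  have hl2 : l ^ 2 ≠ 0 := pow_ne_zero _ h.1.ne'
  have htr : T.pre.tr (phiK m p x l) = 0 := by
    unfold PreTuple.Dd at hD
    exact (mul_eq_zero.1 hD).resolve_left hl2
  obtain ⟨C, hC⟩ := T.abs_le (Metric.closedBall x l) (isCompact_closedBall x l) h.2
  have h1 := hC (phiK m p x l) (by rw [phiK_eq]; exact isTest_kerK h (by omega))
    (by rw [phiK_eq]; exact tsupport_kerK_subset (by omega) h.1)
    (fun y => by rw [phiK_eq]; exact kerK_nonneg zero_le_one h.1)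
  have h2 : ∑ i, T.beta i i (phiK m p x l) = 0 := htr
  rw [h2, mul_zero] at h1
  have h3 : T.mm (phiK m p x l) = 0 := abs_eq_zero.1 (le_antisymm h1 (abs_nonneg _))
  show l ^ 2 * T.mm (phiK m p x l) = 0
  rw [h3, mul_zero]

/-- **P1.**  [`I := Set.Iic (Real.log (max l l₀))`; every `exp t`, `t ∈ I`, is admissible (`Adm.mono`).  If `l ≤ l₀`: `FreqSys.H_mono` and
`Hh_nonneg`.  If `l₀ ≤ l`: `FreqSys.zero_prop` with `Aa_eq_zero_of_Hh`.  `Real.exp_log`.] -/
theorem Hh_eq_zero_of_adm (hΩ : IsOpen Ω) (hp : 4 ≤ p) {l₀ : ℝ} (h₀ : Adm Ω x l₀)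
    (h0 : T.pre.Hh p x l₀ = 0) (h : Adm Ω x l) : T.pre.Hh p x l = 0 := by
  have hmax : Adm Ω x (max l l₀) := by
    rcases le_total l l₀ with hle | hle
    · rw [max_eq_right hle]; exact h₀
    · rw [max_eq_left hle]; exact h
  have sys := T.pre.freqSys (x := x) hΩ hp (I := Set.Iic (Real.log (max l l₀))) (fun t ht =>
    hmax.mono (Real.exp_pos t) ((Real.le_log_iff_exp_le hmax.1).1 ht))
  have e : Real.exp (Real.log l) = l := Real.exp_log h.1
  have e₀ : Real.exp (Real.log l₀) = l₀ := Real.exp_log h₀.1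
  rcases le_total l l₀ with hle | hle
  · have h1 := sys.H_mono (t₁ := Real.log l) (t₂ := Real.log l₀)
      (fun t ht => ht.2.trans (Real.log_le_log h₀.1 (le_max_right _ _)))
      (Real.log_le_log h.1 hle)
    simp only [e, e₀, h0] at h1
    exact le_antisymm h1 (T.pre.Hh_nonneg hp h)
  · have h1 := sys.zero_prop (t₀ := Real.log l₀) (t₁ := Real.log l)
      (fun t ht => ht.2.trans (Real.log_le_log h.1 (le_max_left _ _)))
      (Real.log_le_log h₀.1 hle) (by simp only [e₀]; exact h0)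
      (by simp only [e₀]; exact T.Aa_eq_zero_of_Hh hΩ hp h₀ h0)
    simpa only [e] using h1

/-- **P2 (domination by finitely many kernels).**
[`w := ∑ a ∈ F, ψ_{c a, r a}` is a nonnegative test function with `ν w = 0`.  On `closedBall (c a) (r a / 2)` we have
`w ≥ ψ_{c a, r a} ≥ 2 p (r a ^ m)⁻¹ (3/4)^(p-1) ≥ κ := min over F > 0` (`kerK_lower`).  With `|g| ≤ B`: `|g| ≤ (B / κ) w` everywhere
(`g = 0` outside `tsupport g`).  `IsPos.abs_le_of_dom`.  If `F = ∅` then `tsupport g = ∅` and `g = 0`.] -/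
theorem nu_eq_zero_of_cover (hp : 4 ≤ p) {ι : Type*} (F : Finset ι) (c : ι → E m) (r : ι → ℝ)
    (hadm : ∀ a ∈ F, Adm Ω (c a) (r a)) (h0 : ∀ a ∈ F, T.pre.Hh p (c a) (r a) = 0)
    {g : E m → ℝ} (hg : IsTest Ω g)
    (hcov : tsupport g ⊆ ⋃ a ∈ F, Metric.closedBall (c a) (r a / 2)) : T.nu g = 0 := by
  obtain ⟨B, hB0, hB⟩ := hg.exists_bound
  set κ : ι → ℝ := fun a => 2 * (p : ℝ) * ((r a) ^ m)⁻¹ * (3 / 4) ^ (p - 1) with hκ
  have hκpos : ∀ a ∈ F, 0 < κ a := by
    intro a ha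
    have := (hadm a ha).1
    have hp0 : (0 : ℝ) < p := by exact_mod_cast (by omega : 0 < p)
    simp only [hκ]
    positivity
  have hψT : ∀ a ∈ F, IsTest Ω (psiK m p (c a) (r a)) := by
    intro a ha
    rw [psiK_eq]; exact isTest_kerK (hadm a ha) (by omega)
  have hψ0 : ∀ a ∈ F, ∀ y, 0 ≤ psiK m p (c a) (r a) y := by
    intro a ha y
    rw [psiK_eq]; exact kerK_nonneg (by positivity) (hadm a ha).1
  set w : E m → ℝ := ∑ a ∈ F, psiK m p (c a) (r a) with hw
  have hwT : IsTest Ω w := IsTest.sum F hψT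
  have hνw : T.nu w = 0 := by
    rw [hw, T.radon_nu.map_sum F hψT]
    exact Finset.sum_eq_zero h0
  set B' : ℝ := ∑ a ∈ F, B / κ a with hB'
  have hB'0 : 0 ≤ B' := Finset.sum_nonneg fun a ha => div_nonneg hB0 (hκpos a ha).le
  have hw0 : ∀ y, 0 ≤ w y := by
    intro y
    rw [hw, Finset.sum_apply]
    exact Finset.sum_nonneg fun a ha => hψ0 a ha y
  have hdom : ∀ y, |g y| ≤ B' * w y := by
    intro y
    by_cases hy : y ∈ tsupport g
    · obtain ⟨a, ha, hya⟩ : ∃ a ∈ F, y ∈ Metric.closedBall (c a) (r a / 2) := by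
        have := hcov hy
        simpa only [Set.mem_iUnion, exists_prop] using this
      rw [Metric.mem_closedBall, dist_eq_norm] at hya
      have h1 : κ a ≤ psiK m p (c a) (r a) y := by
        rw [psiK_eq]; exact kerK_lower (by positivity) (hadm a ha).1 hya
      have h2 : psiK m p (c a) (r a) y ≤ w y := by
        rw [hw, Finset.sum_apply]
        exact Finset.single_le_sum (f := fun a => psiK m p (c a) (r a) y)
          (fun b hb => hψ0 b hb y) ha
      have h3 : B / κ a ≤ B' :=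
        Finset.single_le_sum (f := fun a => B / κ a)
          (fun b hb => div_nonneg hB0 (hκpos b hb).le) ha
      calc |g y| ≤ B := hB y
        _ = B / κ a * κ a := by rw [div_mul_cancel₀ _ (hκpos a ha).ne']
        _ ≤ B' * w y := mul_le_mul h3 (h1.trans h2) (hκpos a ha).le hB'0
    · rw [image_eq_zero_of_notMem_tsupport hy, abs_zero]
      exact mul_nonneg hB'0 (hw0 y)
  have := T.pre.pos_nu.abs_le_of_dom T.radon_nu hg hwT hdom
  rw [show T.pre.nu = T.nu from rfl, hνw, mul_zero] at this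
  exact abs_eq_zero.1 (le_antisymm this (abs_nonneg _))

/-- the set of centres with a vanishing height -/
def Zs (T : LinTuple m Ω) (p : ℕ) : Set (E m) := {x | ∃ l, Adm Ω x l ∧ T.pre.Hh p x l = 0}

/-- transfer of a zero to a nearby centre: `closedBall x' l' ⊆ closedBall x (l/2)`.
[`nu_eq_zero_of_cover` with the single ball `(x, l)` and `g = ψ_{x',l'}`.] -/
theorem Hh_eq_zero_of_subset (hp : 4 ≤ p) (h : Adm Ω x l) (h0 : T.pre.Hh p x l = 0) {x' : E m}
    {l' : ℝ} (hl' : 0 < l') (hsub : Metric.closedBall x' l' ⊆ Metric.closedBall x (l / 2)) :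
    T.pre.Hh p x' l' = 0 := by
  have hadm' : Adm Ω x' l' :=
    ⟨hl', hsub.trans ((Metric.closedBall_subset_closedBall (by linarith [h.1])).trans h.2)⟩
  have hT : IsTest Ω (psiK m p x' l') := by
    rw [psiK_eq]; exact isTest_kerK hadm' (by omega)
  refine T.nu_eq_zero_of_cover hp {()} (fun _ => x) (fun _ => l) (fun _ _ => h) (fun _ _ => h0) hT ?_
  have h1 : tsupport (psiK m p x' l') ⊆ Metric.closedBall x' l' := by
    rw [psiK_eq]; exact tsupport_kerK_subset (by omega) hl'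
  intro y hy
  simp only [Finset.mem_singleton, Set.mem_iUnion, exists_prop]
  exact ⟨(), trivial, hsub (h1 hy)⟩

/-- **P3.** [for `x ∈ Zs` with radius `l` and `dist x' x < l / 4`: `closedBall x' (l / 4) ⊆ closedBall x (l / 2)`.] -/
theorem isOpen_Zs (hp : 4 ≤ p) : IsOpen (T.Zs p) := by
  rw [Metric.isOpen_iff]
  rintro x ⟨l, h, h0⟩
  refine ⟨l / 4, by linarith [h.1], fun x' hx' => ?_⟩
  rw [Metric.mem_ball] at hx'
  have hsub : Metric.closedBall x' (l / 4) ⊆ Metric.closedBall x (l / 2) := by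
    intro y hy
    rw [Metric.mem_closedBall] at hy ⊢
    linarith [dist_triangle y x' x]
  have hl4 : 0 < l / 4 := by linarith [h.1]
  exact ⟨l / 4, ⟨hl4, hsub.trans ((Metric.closedBall_subset_closedBall (by linarith)).trans h.2)⟩,
    T.Hh_eq_zero_of_subset hp h h0 hl4 hsub⟩

/-- **P4.** [`x ∈ Ω \ Zs`; take `r > 0` with `closedBall x (2 r) ⊆ Ω`.  If `x' ∈ Zs`, `dist x' x < r / 4`, then `Adm x' r`, so
`H(x', r) = 0` (`Hh_eq_zero_of_adm`), and `closedBall x (r / 4) ⊆ closedBall x' (r / 2)`, so `x ∈ Zs`: contradiction.] -/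
theorem isOpen_diff_Zs (hΩ : IsOpen Ω) (hp : 4 ≤ p) : IsOpen (Ω \ T.Zs p) := by
  rw [Metric.isOpen_iff]
  rintro x ⟨hxΩ, hxZ⟩
  obtain ⟨ε, hε, hball⟩ := Metric.isOpen_iff.1 hΩ x hxΩ
  set r := ε / 4 with hr
  have hr0 : 0 < r := by positivity
  have hsub2 : Metric.closedBall x (2 * r) ⊆ Ω :=
    (Metric.closedBall_subset_ball (by rw [hr]; linarith)).trans hball
  refine ⟨r / 4, by positivity, fun x' hx' => ⟨hsub2 ?_, fun hZ => hxZ ?_⟩⟩
  · rw [Metric.mem_ball] at hx'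
    rw [Metric.mem_closedBall]
    linarith
  · rw [Metric.mem_ball] at hx'
    obtain ⟨l₀, h₀, h0⟩ := hZ
    have hadm : Adm Ω x' r := ⟨hr0, fun y hy => hsub2 (by
      rw [Metric.mem_closedBall] at hy ⊢
      linarith [dist_triangle y x' x])⟩
    have h1 := T.Hh_eq_zero_of_adm hΩ hp h₀ h0 hadm
    have hsub : Metric.closedBall x (r / 4) ⊆ Metric.closedBall x' (r / 2) := by
      intro y hy
      rw [Metric.mem_closedBall] at hy ⊢
      have := dist_triangle y x x'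
      rw [dist_comm x x'] at this
      linarith
    have hr4 : 0 < r / 4 := by positivity
    exact ⟨r / 4, ⟨hr4, (Metric.closedBall_subset_closedBall (by linarith)).trans hsub2⟩,
      T.Hh_eq_zero_of_subset hp hadm h1 hr4 hsub⟩

/-- **P5.** [`tsupport g` is compact and covered by the open balls `ball x (l x / 2)`, `x ∈ tsupport g`
(`IsCompact.elim_nhds_subcover`); `nu_eq_zero_of_cover`.] -/
theorem nu_eq_zero_of_Zs (hp : 4 ≤ p) (hall : Ω ⊆ T.Zs p) {g : E m → ℝ} (hg : IsTest Ω g) :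
    T.nu g = 0 := by
  have hex : ∀ x : E m, ∃ l : ℝ, x ∈ Ω → Adm Ω x l ∧ T.pre.Hh p x l = 0 := by
    intro x
    by_cases hx : x ∈ Ω
    · obtain ⟨l, hl⟩ := hall hx
      exact ⟨l, fun _ => hl⟩
    · exact ⟨0, fun h => absurd h hx⟩
  choose r hr using hex
  obtain ⟨F, hF, hcov⟩ := hg.cpt.isCompact.elim_nhds_subcover
    (fun x => Metric.closedBall x (r x / 2)) fun x hx =>
      Metric.closedBall_mem_nhds x (by linarith [(hr x (hg.sub hx)).1.1])
  exact T.nu_eq_zero_of_cover hp F id r (fun a ha => (hr a (hg.sub (hF a ha))).1)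
    (fun a ha => (hr a (hg.sub (hF a ha))).2) hg hcov

/-- **CO Lemma 7.2.** -/
theorem Hh_pos (hΩ : IsOpen Ω) (hconn : IsPreconnected Ω) (hp : 4 ≤ p) (h : Adm Ω x l) :
    0 < T.pre.Hh p x l := by
  refine lt_of_le_of_ne (T.pre.Hh_nonneg hp h) fun h0 => ?_
  have hx : x ∈ T.Zs p := ⟨l, h, h0.symm⟩
  have hxΩ : x ∈ Ω := h.2 (Metric.mem_closedBall_self h.1.le)
  have hall : Ω ⊆ T.Zs p := by
    by_contra hcon
    obtain ⟨y, hyΩ, hyZ⟩ := Set.not_subset.1 hcon
    obtain ⟨w, _, hw1, hw2⟩ := hconn (T.Zs p) (Ω \ T.Zs p) (T.isOpen_Zs hp) (T.isOpen_diff_Zs hΩ hp)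
      (fun w hw => by
        by_cases hwZ : w ∈ T.Zs p
        · exact Or.inl hwZ
        · exact Or.inr ⟨hw, hwZ⟩) ⟨x, hxΩ, hx⟩ ⟨y, hyΩ, hyΩ, hyZ⟩
    exact hw2.2 hw1
  obtain ⟨g, hg, hne⟩ := T.nu_ne
  exact hne (T.nu_eq_zero_of_Zs hp hall hg)

end LinTuple

end Claimed.Agent.R322.Red
end

/- ===== packed: Claimed.Agent.R322.Red.Rescale ===== -/
section
/-!
# CO Section 7: rescaling of a tuple (7.13) (helper96; sorry-free)

`T.rescale x lam c` lives on `Ω'` (any set with `x + lam • Ω' ⊆ Ω`):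
`ν' g = c ν (g ∘ S)`, `f' g = c lam f (g ∘ S)`, `β' g = c lam² β (g ∘ S)`, `𝔪' g = c lam² 𝔪 (g ∘ S)`, `S y = lam⁻¹ (y - x)`.
-/

set_option autoImplicit false

open scoped ENNReal ContDiff
open MeasureTheory Filter Topology

namespace Claimed.Agent.R322.Red

open Claimed.Agent.R322.Fn

variable {m : ℕ} {Ω Ω' : Set (E m)}

/-- `g ∘ S`, `S y = lam⁻¹ (y - x)` -/
noncomputable def simf (x : E m) (lam : ℝ) (g : E m → ℝ) : E m → ℝ := fun y => g (lam⁻¹ • (y - x))

theorem simf_mul (x : E m) (lam : ℝ) (g h : E m → ℝ) :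
    simf x lam (g * h) = simf x lam g * simf x lam h := rfl

theorem isTest_simf {x : E m} {lam : ℝ} (hlam : 0 < lam) (hmap : ∀ X ∈ Ω', x + lam • X ∈ Ω)
    {g : E m → ℝ} (hg : IsTest Ω' g) : IsTest Ω (simf x lam g) :=
  hg.comp_sim x hlam hmap

theorem isSTest_simf {x : E m} {lam : ℝ} (hlam : 0 < lam) (hmap : ∀ X ∈ Ω', x + lam • X ∈ Ω)
    {g : E m → ℝ} (hg : IsSTest Ω' g) : IsSTest Ω (simf x lam g) :=
  hg.comp_sim x hlam hmap

/-- `(∂_i g) ∘ S = lam ∂_i (g ∘ S)`  [`pd_comp_sim`] -/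
theorem simf_pd {x : E m} {lam : ℝ} (hlam : 0 < lam) {g : E m → ℝ} (hg : ContDiff ℝ ∞ g)
    (i : Fin m) : simf x lam (pd i g) = lam • pd i (simf x lam g) := by
  funext y
  have h1 : pd i (simf x lam g) y = lam⁻¹ * pd i g (lam⁻¹ • (y - x)) :=
    pd_comp_sim i x y lam (hg.differentiable (by simp) _)
  simp only [Pi.smul_apply, smul_eq_mul]
  rw [h1, ← mul_assoc, mul_inv_cancel₀ hlam.ne', one_mul]
  rfl

/-- kernels: `ker_{z,r} ∘ S = lam^m ker_{x + lam z, lam r}` -/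
theorem simf_kerK {x z : E m} {lam r : ℝ} (hlam : 0 < lam) (hr : 0 < r) (q : ℕ) (c : ℝ) :
    simf x lam (kerK m q c z r) = lam ^ m • kerK m q c (x + lam • z) (lam * r) := by
  funext y
  simp only [simf, Pi.smul_apply, smul_eq_mul]
  exact kerK_scale hlam hr

namespace PreTuple

variable (T : PreTuple m Ω) (x : E m) {lam c : ℝ}

/-- [`c * (psd of T with a ∘ S and lam • (b i ∘ S))`; `IsRadon.smul` to pull out `lam`, `lam²`.] -/
theorem rescale_psd (hlam : 0 < lam) (hc : 0 ≤ c) (hmap : ∀ X ∈ Ω', x + lam • X ∈ Ω)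
    (a : E m → ℝ) (b : Fin m → E m → ℝ) (ha : IsTest Ω' a) (hb : ∀ i, IsTest Ω' (b i)) :
    0 ≤ c * T.nu (simf x lam (a * a)) + 2 * ∑ i, c * lam * T.f i (simf x lam (a * b i))
      + ∑ i, ∑ j, c * lam ^ 2 * T.beta i j (simf x lam (b i * b j)) := by
  have ha' := isTest_simf hlam hmap ha
  have hb' := fun i => isTest_simf hlam hmap (hb i)
  have h1 := T.psd (simf x lam a) (fun i => lam • simf x lam (b i)) ha' fun i => (hb' i).smul lam
  have e2 : ∀ i, simf x lam a * (lam • simf x lam (b i)) = lam • simf x lam (a * b i) := by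
    intro i
    funext y
    simp only [simf, Pi.mul_apply, Pi.smul_apply, smul_eq_mul]
    ring
  have e3 : ∀ i j, (lam • simf x lam (b i)) * (lam • simf x lam (b j))
      = (lam ^ 2) • simf x lam (b i * b j) := by
    intro i j
    funext y
    simp only [simf, Pi.mul_apply, Pi.smul_apply, smul_eq_mul]
    ring
  have hab : ∀ i, IsTest Ω (simf x lam (a * b i)) :=
    fun i => isTest_simf hlam hmap (ha.mul_cont (hb i).cont)
  have hbb : ∀ i j, IsTest Ω (simf x lam (b i * b j)) :=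
    fun i j => isTest_simf hlam hmap ((hb i).mul_cont (hb j).cont)
  simp only [e2, e3, (T.radon_f _).smul _ _ (hab _), (T.radon_beta _ _).smul _ _ (hbb _ _),
    ← simf_mul] at h1
  have h2 := mul_nonneg hc h1
  refine h2.trans (le_of_eq ?_)
  simp only [mul_add, Finset.mul_sum]
  congr 1
  · congr 1
    exact Finset.sum_congr rfl fun i _ => by ring
  · exact Finset.sum_congr rfl fun i _ => Finset.sum_congr rfl fun j _ => by ring

theorem rescale_grad (hlam : 0 < lam) (hmap : ∀ X ∈ Ω', x + lam • X ∈ Ω) (g : E m → ℝ)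
    (hg : IsSTest Ω' g) (i : Fin m) :
    c * T.nu (simf x lam (pd i g)) = -(2 * (c * lam * T.f i (simf x lam g))) := by
  have h1 := isSTest_simf hlam hmap hg
  rw [simf_pd hlam hg.smooth i,
    T.radon_nu.smul lam _ (h1.toIsTest.pd (h1.smooth.of_le (by simp)) i), T.grad_nu _ h1 i]
  ring

theorem rescale_div (hlam : 0 < lam) (hmap : ∀ X ∈ Ω', x + lam • X ∈ Ω) (g : E m → ℝ)
    (hg : IsSTest Ω' g) :
    ∑ i, c * lam * T.f i (simf x lam (pd i g)) = -∑ i, c * lam ^ 2 * T.beta i i (simf x lam g) := by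
  have h1 := isSTest_simf hlam hmap hg
  have h2 : ∀ i, T.f i (simf x lam (pd i g)) = lam * T.f i (pd i (simf x lam g)) := fun i => by
    rw [simf_pd hlam hg.smooth i,
      (T.radon_f i).smul lam _ (h1.toIsTest.pd (h1.smooth.of_le (by simp)) i)]
  have h3 := T.div_f _ h1
  simp only [h2]
  calc ∑ i, c * lam * (lam * T.f i (pd i (simf x lam g)))
      = c * lam ^ 2 * ∑ i, T.f i (pd i (simf x lam g)) := by
        rw [Finset.mul_sum]; exact Finset.sum_congr rfl fun i _ => by ring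
    _ = -∑ i, c * lam ^ 2 * T.beta i i (simf x lam g) := by
        rw [h3, ← Finset.mul_sum]; ring

/-- [`simf (fun y => ∑ i, pd i (X i) y) = lam • fun y => ∑ i, pd i (simf (X i)) y` (`simf_pd`), `T.stress` for `simf (X i)`,
`simf (pd j (X i)) = lam • pd j (simf (X i))`.] -/
theorem rescale_stress (hlam : 0 < lam) (hmap : ∀ X ∈ Ω', x + lam • X ∈ Ω) (X : Fin m → E m → ℝ)
    (hX : ∀ i, IsSTest Ω' (X i)) :
    c * lam ^ 2 * T.mm (simf x lam fun y => ∑ i, pd i (X i) y) =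
      ∑ i, ∑ j, c * lam ^ 2 * T.beta i j (simf x lam (pd j (X i))) := by
  have hX' := fun i => isSTest_simf hlam hmap (hX i)
  have hpd : ∀ i j, IsTest Ω (pd j (simf x lam (X i))) :=
    fun i j => (hX' i).toIsTest.pd ((hX' i).smooth.of_le (by simp)) j
  have e1 : (simf x lam fun y => ∑ i, pd i (X i) y)
      = lam • fun y => ∑ i, pd i (simf x lam (X i)) y := by
    funext y
    have : ∀ i, pd i (X i) (lam⁻¹ • (y - x)) = lam * pd i (simf x lam (X i)) y := by
      intro i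
      have := congrFun (simf_pd (x := x) hlam (hX i).smooth i) y
      simpa only [simf, Pi.smul_apply, smul_eq_mul] using this
    simp only [simf, Pi.smul_apply, smul_eq_mul] at this ⊢
    rw [Finset.mul_sum]
    exact Finset.sum_congr rfl fun i _ => this i
  have hsumT : IsTest Ω (fun y => ∑ i, pd i (simf x lam (X i)) y) := by
    have := IsTest.sum (Ω := Ω) Finset.univ (g := fun i => pd i (simf x lam (X i)))
      fun i _ => hpd i i
    have e' : (fun y => ∑ i, pd i (simf x lam (X i)) y) = ∑ i, pd i (simf x lam (X i)) := by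
      funext y; simp
    rw [e']; exact this
  rw [e1, T.radon_mm.smul _ _ hsumT, T.stress _ hX']
  simp only [simf_pd hlam (hX _).smooth, (T.radon_beta _ _).smul _ _ (hpd _ _), Finset.mul_sum]

theorem rescale_sign (hlam : 0 < lam) (hc : 0 ≤ c) (hmap : ∀ X ∈ Ω', x + lam • X ∈ Ω) (g : E m → ℝ)
    (hg : IsTest Ω' g) (h0 : ∀ y, 0 ≤ g y) :
    2 * (c * lam ^ 2 * T.mm (simf x lam g)) ≤ ∑ i, c * lam ^ 2 * T.beta i i (simf x lam g) := by
  have h1 := T.sign_le _ (isTest_simf hlam hmap hg) fun y => h0 _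
  rw [← Finset.mul_sum]
  have h2 : 0 ≤ c * lam ^ 2 := by positivity
  nlinarith

/-- the rescaled tuple -/
noncomputable def rescale (hlam : 0 < lam) (hc : 0 ≤ c) (hmap : ∀ X ∈ Ω', x + lam • X ∈ Ω) :
    PreTuple m Ω' where
  nu g := c * T.nu (simf x lam g)
  f i g := c * lam * T.f i (simf x lam g)
  beta i j g := c * lam ^ 2 * T.beta i j (simf x lam g)
  mm g := c * lam ^ 2 * T.mm (simf x lam g)
  radon_nu := (T.radon_nu.comp_sim x hlam hmap).const_mul c
  radon_f i := ((T.radon_f i).comp_sim x hlam hmap).const_mul (c * lam)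
  radon_beta i j := ((T.radon_beta i j).comp_sim x hlam hmap).const_mul (c * lam ^ 2)
  radon_mm := (T.radon_mm.comp_sim x hlam hmap).const_mul (c * lam ^ 2)
  beta_symm i j g hg := by rw [T.beta_symm i j _ (isTest_simf hlam hmap hg)]
  psd a b ha hb := T.rescale_psd x hlam hc hmap a b ha hb
  grad_nu g hg i := T.rescale_grad x hlam hmap g hg i
  div_f g hg := T.rescale_div x hlam hmap g hg
  stress X hX := T.rescale_stress x hlam hmap X hX
  sign_le g hg h0 := T.rescale_sign x hlam hc hmap g hg h0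

variable {x}

theorem Hh_rescale (hlam : 0 < lam) (hc : 0 ≤ c) (hmap : ∀ X ∈ Ω', x + lam • X ∈ Ω) (p : ℕ)
    (hp : 4 ≤ p) {z : E m} {r : ℝ} (hadm : Adm Ω (x + lam • z) (lam * r)) (hr : 0 < r) :
    (T.rescale x hlam hc hmap).Hh p z r = c * lam ^ m * T.Hh p (x + lam • z) (lam * r) := by
  show c * T.nu (simf x lam (psiK m p z r)) = _
  unfold Hh
  rw [psiK_eq, psiK_eq, simf_kerK hlam hr, T.radon_nu.smul _ _ (isTest_kerK hadm (by omega))]
  ring

theorem Aa_rescale (hlam : 0 < lam) (hc : 0 ≤ c) (hmap : ∀ X ∈ Ω', x + lam • X ∈ Ω) (p : ℕ)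
    (hp : 4 ≤ p) {z : E m} {r : ℝ} (hadm : Adm Ω (x + lam • z) (lam * r)) (hr : 0 < r) :
    (T.rescale x hlam hc hmap).Aa p z r = c * lam ^ m * T.Aa p (x + lam • z) (lam * r) := by
  show r ^ 2 * (c * lam ^ 2 * T.mm (simf x lam (phiK m p z r))) = _
  unfold Aa
  rw [phiK_eq, phiK_eq, simf_kerK hlam hr, T.radon_mm.smul _ _ (isTest_kerK hadm (by omega))]
  ring

end PreTuple

end Claimed.Agent.R322.Red
end

/- ===== packed: Claimed.Agent.R322.Red.Limit ===== -/
section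
/-!
# CO Section 7: weak limits of tuples (blueprint helper96)
-/

set_option autoImplicit false

open scoped ENNReal ContDiff
open MeasureTheory Filter Topology

namespace Claimed.Agent.R322.Red

open Claimed.Agent.R322.Fn

variable {m : ℕ} {Ω : Set (E m)}

/-- the four components of a sequence of tuples converge weak-* -/
structure TConv (Ts : ℕ → PreTuple m Ω) (S : PreTuple m Ω) : Prop where
  nu : WConv Ω (fun j => (Ts j).nu) S.nu
  f : ∀ i, WConv Ω (fun j => (Ts j).f i) (S.f i)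
  beta : ∀ i k, WConv Ω (fun j => (Ts j).beta i k) (S.beta i k)
  mm : WConv Ω (fun j => (Ts j).mm) S.mm

/-- uniform mass bound for a sequence of tuples -/
def MassBd (Ts : ℕ → PreTuple m Ω) (M : ℝ) : Prop :=
  ∀ j g, IsTest Ω g → ∀ B : ℝ, (∀ y, |g y| ≤ B) →
    |(Ts j).nu g| ≤ M * B ∧ (∀ i, |(Ts j).f i g| ≤ M * B) ∧ (∀ i k, |(Ts j).beta i k g| ≤ M * B) ∧
      |(Ts j).mm g| ≤ M * B

/-- a weak-* limit of tuples is a tuple -/
noncomputable def PreTuple.ofLimit (Ts : ℕ → PreTuple m Ω) (nu : (E m → ℝ) → ℝ)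
    (f : Fin m → (E m → ℝ) → ℝ) (beta : Fin m → Fin m → (E m → ℝ) → ℝ) (mm : (E m → ℝ) → ℝ)
    (rnu : IsRadon Ω nu) (rf : ∀ i, IsRadon Ω (f i)) (rbeta : ∀ i k, IsRadon Ω (beta i k))
    (rmm : IsRadon Ω mm) (hnu : WConv Ω (fun j => (Ts j).nu) nu)
    (hf : ∀ i, WConv Ω (fun j => (Ts j).f i) (f i))
    (hbeta : ∀ i k, WConv Ω (fun j => (Ts j).beta i k) (beta i k))
    (hmm : WConv Ω (fun j => (Ts j).mm) mm) : PreTuple m Ω where
  nu := nu
  f := f
  beta := beta
  mm := mm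
  radon_nu := rnu
  radon_f := rf
  radon_beta := rbeta
  radon_mm := rmm
  beta_symm i k g hg := by
    refine tendsto_nhds_unique (hbeta i k g hg) ?_
    simp only [(Ts _).beta_symm i k g hg]
    exact hbeta k i g hg
  psd a b ha hb := by
    have h1 : Tendsto (fun n => (Ts n).nu (a * a) + 2 * ∑ i, (Ts n).f i (a * b i)
        + ∑ i, ∑ j, (Ts n).beta i j (b i * b j)) atTop
        (𝓝 (nu (a * a) + 2 * ∑ i, f i (a * b i) + ∑ i, ∑ j, beta i j (b i * b j))) :=
      ((hnu _ (ha.mul_cont ha.cont)).add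
        ((tendsto_finsetSum _ fun i _ => hf i _ (ha.mul_cont (hb i).cont)).const_mul 2)).add
        (tendsto_finsetSum _ fun i _ => tendsto_finsetSum _ fun j _ =>
          hbeta i j _ ((hb i).mul_cont (hb j).cont))
    exact ge_of_tendsto' h1 fun n => (Ts n).psd a b ha hb
  grad_nu g hg i := by
    refine tendsto_nhds_unique (hnu _ (hg.toIsTest.pd (hg.smooth.of_le (by simp)) i)) ?_
    simp only [(Ts _).grad_nu g hg i]
    exact ((hf i g hg.toIsTest).const_mul 2).neg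
  div_f g hg := by
    have h1 : Tendsto (fun n => ∑ i, (Ts n).f i (pd i g)) atTop (𝓝 (∑ i, f i (pd i g))) :=
      tendsto_finsetSum _ fun i _ => hf i _ (hg.toIsTest.pd (hg.smooth.of_le (by simp)) i)
    refine tendsto_nhds_unique h1 ?_
    simp only [(Ts _).div_f g hg]
    exact (tendsto_finsetSum _ fun i _ => hbeta i i g hg.toIsTest).neg
  stress X hX := by
    have hT : IsTest Ω (fun y => ∑ i, pd i (X i) y) := by
      have := IsTest.sum (Ω := Ω) Finset.univ (g := fun i => pd i (X i))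
        fun i _ => (hX i).toIsTest.pd ((hX i).smooth.of_le (by simp)) i
      have e : (fun y => ∑ i, pd i (X i) y) = ∑ i, pd i (X i) := by
        funext y; simp
      rw [e]; exact this
    refine tendsto_nhds_unique (hmm _ hT) ?_
    simp only [(Ts _).stress X hX]
    exact tendsto_finsetSum _ fun i _ => tendsto_finsetSum _ fun j _ =>
      hbeta i j _ ((hX i).toIsTest.pd ((hX i).smooth.of_le (by simp)) j)
  sign_le g hg h0 := by
    have h1 : Tendsto (fun n => 2 * (Ts n).mm g) atTop (𝓝 (2 * mm g)) := (hmm g hg).const_mul 2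
    have h2 : Tendsto (fun n => ∑ i, (Ts n).beta i i g) atTop (𝓝 (∑ i, beta i i g)) :=
      tendsto_finsetSum _ fun i _ => hbeta i i g hg
    exact le_of_tendsto_of_tendsto' h1 h2 fun n => (Ts n).sign_le g hg h0

/-- **compactness of tuples** -/
theorem PreTuple.exists_limit (hΩ : IsOpen Ω) (Ts : ℕ → PreTuple m Ω) (M : ℝ)
    (hM : MassBd Ts M) :
    ∃ (φ : ℕ → ℕ) (S : PreTuple m Ω), StrictMono φ ∧ TConv (fun j => Ts (φ j)) S := by
  let Λs : (Unit ⊕ Fin m) ⊕ ((Fin m × Fin m) ⊕ Unit) → ℕ → (E m → ℝ) → ℝ := fun a j =>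
    match a with
    | Sum.inl (Sum.inl _) => (Ts j).nu
    | Sum.inl (Sum.inr i) => (Ts j).f i
    | Sum.inr (Sum.inl q) => (Ts j).beta q.1 q.2
    | Sum.inr (Sum.inr _) => (Ts j).mm
  obtain ⟨φ, Λ, hφ, hR, hconv⟩ := exists_subseq_wconv_family hΩ Λs
    (by
      rintro ((_ | i) | (q | _)) j
      · exact (Ts j).radon_nu
      · exact (Ts j).radon_f i
      · exact (Ts j).radon_beta q.1 q.2
      · exact (Ts j).radon_mm)
    (by
      rintro ((_ | i) | (q | _)) K _ _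
      · exact ⟨M, fun j g hg _ B hB => (hM j g hg B hB).1⟩
      · exact ⟨M, fun j g hg _ B hB => (hM j g hg B hB).2.1 i⟩
      · exact ⟨M, fun j g hg _ B hB => (hM j g hg B hB).2.2.1 q.1 q.2⟩
      · exact ⟨M, fun j g hg _ B hB => (hM j g hg B hB).2.2.2⟩)
  refine ⟨φ, PreTuple.ofLimit (fun j => Ts (φ j)) (Λ (Sum.inl (Sum.inl ())))
    (fun i => Λ (Sum.inl (Sum.inr i))) (fun i k => Λ (Sum.inr (Sum.inl (i, k))))
    (Λ (Sum.inr (Sum.inr ()))) (hR _) (fun i => hR _) (fun i k => hR _) (hR _) (hconv _)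
    (fun i => hconv _) (fun i k => hconv _) (hconv _), hφ, ?_⟩
  exact ⟨hconv _, fun i => hconv _, fun i k => hconv _, hconv _⟩

/-- weak-* convergence tested with kernels with moving centres -/
theorem tendsto_wconv_kerK (hΩ : IsOpen Ω) {Λs : ℕ → (E m → ℝ) → ℝ} {Λ : (E m → ℝ) → ℝ}
    (hconv : WConv Ω Λs Λ) (hR : ∀ j, IsRadon Ω (Λs j)) {C : ℝ}
    (hB : ∀ j g, IsTest Ω g → ∀ B : ℝ, (∀ x, |g x| ≤ B) → |Λs j g| ≤ C * B)
    {q : ℕ} (hq : 1 ≤ q) (c : ℝ) {w : ℕ → E m} {w₀ : E m} {r : ℝ} (hadm : Adm Ω w₀ r)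
    (hw : Tendsto w atTop (𝓝 w₀)) :
    Tendsto (fun j => Λs j (kerK m q c (w j) r)) atTop (𝓝 (Λ (kerK m q c w₀ r))) := by
  obtain ⟨δ, hδ, hsub⟩ := hadm.exists_larger hΩ
  have hU : {θ : E m × ℝ | 0 < θ.2 ∧ dist θ.1 w₀ + θ.2 < r + δ} ∈ 𝓝 (w₀, r) := by
    have ho : IsOpen {θ : E m × ℝ | 0 < θ.2 ∧ dist θ.1 w₀ + θ.2 < r + δ} :=
      (isOpen_lt continuous_const continuous_snd).inter
        (isOpen_lt ((continuous_fst.dist continuous_const).add continuous_snd) continuous_const)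
    refine ho.mem_nhds ⟨hadm.1, ?_⟩
    simp only [dist_self, zero_add]
    linarith
  refine hconv.tendsto_param hR (isCompact_closedBall w₀ (r + δ)) hsub
    (fun j g hg _ B hB' => hB j g hg B hB') (g := fun θ : E m × ℝ => kerK m q c θ.1 θ.2) hU
    ((continuousOn_kerK m q c).mono (Set.prod_mono (fun θ hθ => hθ.1) le_rfl)) ?_
    (θ := fun j => (w j, r)) (hw.prodMk_nhds tendsto_const_nhds)
  intro θ hθ y hy
  rw [Metric.mem_closedBall, not_le] at hy
  refine kerK_eq_zero hq hθ.1 ?_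
  have h1 : dist y w₀ ≤ dist y θ.1 + dist θ.1 w₀ := dist_triangle _ _ _
  rw [← dist_eq_norm]
  linarith [hθ.2]

theorem TConv.tendsto_Hh (hΩ : IsOpen Ω) {Ts : ℕ → PreTuple m Ω} {S : PreTuple m Ω}
    (h : TConv Ts S) {M : ℝ} (hM : MassBd Ts M) {p : ℕ} (hp : 4 ≤ p) {w : ℕ → E m} {w₀ : E m}
    {r : ℝ} (hadm : Adm Ω w₀ r) (hw : Tendsto w atTop (𝓝 w₀)) :
    Tendsto (fun j => (Ts j).Hh p (w j) r) atTop (𝓝 (S.Hh p w₀ r)) := by
  unfold PreTuple.Hh
  simp only [psiK_eq]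
  exact tendsto_wconv_kerK hΩ h.nu (fun j => (Ts j).radon_nu)
    (fun j g hg B hB => (hM j g hg B hB).1) (by omega) _ hadm hw

theorem TConv.tendsto_Aa (hΩ : IsOpen Ω) {Ts : ℕ → PreTuple m Ω} {S : PreTuple m Ω}
    (h : TConv Ts S) {M : ℝ} (hM : MassBd Ts M) {p : ℕ} (hp : 4 ≤ p) {w : ℕ → E m} {w₀ : E m}
    {r : ℝ} (hadm : Adm Ω w₀ r) (hw : Tendsto w atTop (𝓝 w₀)) :
    Tendsto (fun j => (Ts j).Aa p (w j) r) atTop (𝓝 (S.Aa p w₀ r)) := by
  unfold PreTuple.Aa
  simp only [phiK_eq]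
  exact (tendsto_wconv_kerK hΩ h.mm (fun j => (Ts j).radon_mm)
    (fun j g hg B hB => (hM j g hg B hB).2.2.2) (by omega) _ hadm hw).const_mul _

end Claimed.Agent.R322.Red
end

/- ===== packed: Claimed.Agent.R322.Red.Blowup ===== -/
section
/-!
# CO Section 7: the second blow-up at a fixed centre (helper96; sorry-free)

`LinTuple.exists_blowup` : at a comparison centre `x` the normalised rescalings of the tuple at scales `lam j → 0` subconverge on `ball 0 4`,
and the heights `H` and the quantities `A` converge, also with moving centres.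
-/

set_option autoImplicit false

open scoped ENNReal ContDiff
open MeasureTheory Filter Topology

namespace Claimed.Agent.R322.Red

open Claimed.Agent.R322.Fn

variable {m : ℕ} {Ω : Set (E m)}

/-! ## bounds at the fixed centre -/

/-- the frequency system on `(-∞, log L]` -/
theorem PreTuple.freqSys_Iic (T : PreTuple m Ω) (hΩ : IsOpen Ω) {p : ℕ} (hp : 4 ≤ p) {x : E m}
    {L : ℝ} (h : Adm Ω x L) :
    FreqSys (Set.Iic (Real.log L)) (fun t => T.Hh p x (Real.exp t))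
      (fun t => T.Aa p x (Real.exp t)) (fun t => T.Dd p x (Real.exp t))
      (fun t => T.Rr p x (Real.exp t)) :=
  T.freqSys hΩ hp fun t ht => h.mono (Real.exp_pos t) ((Real.le_log_iff_exp_le h.1).1 ht)

/-- **B1b (Caccioppoli type inequality).**
[`sys := T.freqSys` on `I = Set.Iic (log (2 l))`.  `FreqSys.exists_D_eq` on `[log l, log (2 l)]` gives `ξ` with
`2 D(ξ) log 2 = H(2l) - H(l) ≤ H(2l)` (`log (2 l) - log l = log 2`).  `l_ξ = exp ξ ∈ (l, 2 l)`; `Dd_mono`:
`l^m l_ξ² D(l) ≤ l_ξ^m l² D(l_ξ)`, so `D(l) ≤ (l_ξ / l)^m (l / l_ξ)² D(l_ξ) ≤ 2^m D(l_ξ)`.] -/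
theorem PreTuple.Dd_le_Hh (T : PreTuple m Ω) (hΩ : IsOpen Ω) {p : ℕ} (hp : 4 ≤ p) {x : E m} {l : ℝ}
    (hl : 0 < l) (h : Adm Ω x (2 * l)) :
    T.Dd p x l ≤ 2 ^ m / (2 * Real.log 2) * T.Hh p x (2 * l) := by
  have hlog2 : 0 < Real.log 2 := Real.log_pos (by norm_num)
  obtain ⟨ξ, hξ, he⟩ := (T.freqSys_Iic hΩ hp h).exists_D_eq (t₁ := Real.log l)
    (t₂ := Real.log (2 * l)) (fun t ht => ht.2) (Real.log_lt_log hl (by linarith))
  simp only [Real.exp_log hl, Real.exp_log h.1] at he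
  have hdl : Real.log (2 * l) - Real.log l = Real.log 2 := by
    rw [Real.log_mul (by norm_num) hl.ne']; ring
  rw [hdl] at he
  set lx := Real.exp ξ with hlx
  have hlx1 : l < lx := (Real.log_lt_iff_lt_exp hl).1 hξ.1
  have hlx2 : lx < 2 * l := (Real.lt_log_iff_exp_lt h.1).1 hξ.2
  have hlx0 : 0 < lx := Real.exp_pos ξ
  have hadmx : Adm Ω x lx := h.mono hlx0 hlx2.le
  have hadml : Adm Ω x l := h.mono hl (by linarith)
  have hDl : 0 ≤ T.Dd p x l := T.Dd_nonneg hp hadml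
  have hDx : 0 ≤ T.Dd p x lx := T.Dd_nonneg hp hadmx
  have hHl : 0 ≤ T.Hh p x l := T.Hh_nonneg hp hadml
  have hmono := T.Dd_mono hp hl hlx1.le hadmx
  have h1 : l ^ m * l ^ 2 * T.Dd p x l ≤ l ^ m * lx ^ 2 * T.Dd p x l := by
    have : l ^ 2 ≤ lx ^ 2 := pow_le_pow_left₀ hl.le hlx1.le 2
    gcongr
  have h2 : lx ^ m * l ^ 2 * T.Dd p x lx ≤ (2 * l) ^ m * l ^ 2 * T.Dd p x lx := by
    have : lx ^ m ≤ (2 * l) ^ m := pow_le_pow_left₀ hlx0.le hlx2.le m
    gcongr
  have h3 : l ^ m * l ^ 2 * T.Dd p x l ≤ l ^ m * l ^ 2 * (2 ^ m * T.Dd p x lx) := by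
    calc l ^ m * l ^ 2 * T.Dd p x l ≤ (2 * l) ^ m * l ^ 2 * T.Dd p x lx :=
          h1.trans (hmono.trans h2)
      _ = l ^ m * l ^ 2 * (2 ^ m * T.Dd p x lx) := by rw [mul_pow]; ring
  have h4 : T.Dd p x l ≤ 2 ^ m * T.Dd p x lx :=
    le_of_mul_le_mul_left h3 (by positivity)
  have h5 : T.Dd p x lx ≤ T.Hh p x (2 * l) / (2 * Real.log 2) := by
    rw [le_div_iff₀ (by positivity)]
    nlinarith
  calc T.Dd p x l ≤ 2 ^ m * T.Dd p x lx := h4
    _ ≤ 2 ^ m * (T.Hh p x (2 * l) / (2 * Real.log 2)) := by gcongr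
    _ = 2 ^ m / (2 * Real.log 2) * T.Hh p x (2 * l) := by ring

/-- admissibility from `ball x (2 ls) ⊆ Ω` -/
theorem adm_of_ball {x : E m} {ls l : ℝ} (hadm : Metric.ball x (2 * ls) ⊆ Ω) (hl : 0 < l)
    (hlt : l < 2 * ls) : Adm Ω x l :=
  ⟨hl, (Metric.closedBall_subset_ball hlt).trans hadm⟩

/-- monotonicity of the frequency at a comparison centre, in the variable `l`.
[`T.pre.freqSys` on `I = Set.Iio (log ls)`, `FreqSys.P_mono` on `[log l₁, log l₂]`, `T.Hh_pos`, `Real.exp_log`.] -/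
theorem LinTuple.freq_mono (T : LinTuple m Ω) (hΩ : IsOpen Ω) (hconn : IsPreconnected Ω) {p : ℕ}
    (hp : 4 ≤ p) {x : E m} {ls : ℝ} (hadm : Metric.ball x (2 * ls) ⊆ Ω)
    (hcmp : ∀ l, 0 < l → l < ls → T.pre.Hh p x l ≤ 2 * T.pre.Aa p x l) {l₁ l₂ : ℝ} (h1 : 0 < l₁)
    (h12 : l₁ ≤ l₂) (h2 : l₂ < ls) :
    T.pre.Aa p x l₁ / T.pre.Hh p x l₁ ≤ T.pre.Aa p x l₂ / T.pre.Hh p x l₂ := by
  have h20 : 0 < l₂ := lt_of_lt_of_le h1 h12
  have hadm2 : Adm Ω x l₂ := adm_of_ball hadm h20 (by linarith)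
  have hle : ∀ t ∈ Set.Icc (Real.log l₁) (Real.log l₂), Real.exp t ≤ l₂ :=
    fun t ht => (Real.le_log_iff_exp_le h20).1 ht.2
  have h3 := (T.pre.freqSys_Iic hΩ hp hadm2).P_mono (t₁ := Real.log l₁) (t₂ := Real.log l₂)
    (fun t ht => ht.2) (Real.log_le_log h1 h12)
    (fun t ht => T.Hh_pos hΩ hconn hp (hadm2.mono (Real.exp_pos t) (hle t ht)))
    (fun t ht => hcmp _ (Real.exp_pos t) (lt_of_le_of_lt (hle t ht) h2))
  simpa only [Real.exp_log h1, Real.exp_log h20] using h3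

/-- **B1a (doubling at a comparison centre).**
[`C₀ := A(ls/2) / H(ls/2)`.  For `l ≤ ls / 2`: `1/2 ≤ A/H ≤ C₀` (`hcmp`, `freq_mono`), so `|A| ≤ C₀ H`.
`FreqSys.doubling` on `[log lam, log (16 lam)]`, `log (16 lam) - log lam = log 16`:
`C := exp (4 C₀ + (2 dblC C₀ + 1) log 16)`.] -/
theorem LinTuple.exists_doubling (T : LinTuple m Ω) (hΩ : IsOpen Ω) (hconn : IsPreconnected Ω)
    {p : ℕ} (hp : 4 ≤ p) {x : E m} {ls : ℝ} (hls : 0 < ls) (hadm : Metric.ball x (2 * ls) ⊆ Ω)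
    (hcmp : ∀ l, 0 < l → l < ls → T.pre.Hh p x l ≤ 2 * T.pre.Aa p x l) :
    ∃ C : ℝ, 0 ≤ C ∧ ∀ lam : ℝ, 0 < lam → 32 * lam ≤ ls →
      T.pre.Hh p x (16 * lam) ≤ C * T.pre.Hh p x lam := by
  set C₀ := T.pre.Aa p x (ls / 2) / T.pre.Hh p x (ls / 2) with hC₀
  refine ⟨Real.exp (4 * C₀ + (2 * FreqSys.dblC C₀ + 1) * Real.log 16), (Real.exp_pos _).le,
    fun lam hlam hs => ?_⟩
  have h16 : 0 < 16 * lam := by positivity
  have hadm16 : Adm Ω x (16 * lam) := adm_of_ball hadm h16 (by linarith)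
  have hle : ∀ t ∈ Set.Icc (Real.log lam) (Real.log (16 * lam)), Real.exp t ≤ 16 * lam :=
    fun t ht => (Real.le_log_iff_exp_le h16).1 ht.2
  have hpos : ∀ t ∈ Set.Icc (Real.log lam) (Real.log (16 * lam)),
      0 < T.pre.Hh p x (Real.exp t) :=
    fun t ht => T.Hh_pos hΩ hconn hp (hadm16.mono (Real.exp_pos t) (hle t ht))
  have h3 := (T.pre.freqSys_Iic hΩ hp hadm16).doubling (t₁ := Real.log lam)
    (t₂ := Real.log (16 * lam)) (C₀ := C₀) (fun t ht => ht.2)
    (Real.log_le_log hlam (by linarith)) hpos (fun t ht => by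
      have hH := hpos t ht
      have hlt : Real.exp t < ls := by linarith [hle t ht]
      have h4 := hcmp _ (Real.exp_pos t) hlt
      have h5 := T.freq_mono hΩ hconn hp hadm hcmp (Real.exp_pos t)
        (show Real.exp t ≤ ls / 2 by linarith [hle t ht]) (by linarith)
      rw [div_le_iff₀ hH] at h5
      rw [abs_of_nonneg (by linarith)]
      exact h5)
  have hdl : Real.log (16 * lam) - Real.log lam = Real.log 16 := by
    rw [Real.log_mul (by norm_num) hlam.ne']; ring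
  simpa only [Real.exp_log hlam, Real.exp_log h16, hdl] using h3

/-- monotonicity of the height in the radius [`FreqSys.H_mono`] -/
theorem PreTuple.Hh_mono (T : PreTuple m Ω) (hΩ : IsOpen Ω) {p : ℕ} (hp : 4 ≤ p) {x : E m}
    {l l' : ℝ} (hl : 0 < l) (hll : l ≤ l') (h : Adm Ω x l') : T.Hh p x l ≤ T.Hh p x l' := by
  have h1 := (T.freqSys_Iic hΩ hp h).H_mono (t₁ := Real.log l) (t₂ := Real.log l')
    (fun t ht => ht.2) (Real.log_le_log hl hll)
  simpa only [Real.exp_log hl, Real.exp_log h.1] using h1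

/-- **B1.** -/
theorem LinTuple.exists_centre_bounds (T : LinTuple m Ω) (hΩ : IsOpen Ω) (hconn : IsPreconnected Ω)
    {p : ℕ} (hp : 4 ≤ p) {x : E m} {ls : ℝ} (hls : 0 < ls) (hadm : Metric.ball x (2 * ls) ⊆ Ω)
    (hcmp : ∀ l, 0 < l → l < ls → T.pre.Hh p x l ≤ 2 * T.pre.Aa p x l) :
    ∃ C : ℝ, 0 ≤ C ∧ ∀ lam : ℝ, 0 < lam → 32 * lam ≤ ls →
      T.pre.Hh p x (8 * lam) ≤ C * T.pre.Hh p x lam ∧
      T.pre.Dd p x (8 * lam) ≤ C * T.pre.Hh p x lam := by
  obtain ⟨C, hC, hdbl⟩ := T.exists_doubling hΩ hconn hp hls hadm hcmp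
  have hlog : 0 < Real.log 2 := Real.log_pos (by norm_num)
  have hk : (0 : ℝ) ≤ 2 ^ m / (2 * Real.log 2) := by positivity
  refine ⟨max C (2 ^ m / (2 * Real.log 2) * C), le_max_of_le_left hC, fun lam hlam hs => ?_⟩
  have hadm16 : Adm Ω x (16 * lam) := adm_of_ball hadm (by positivity) (by linarith)
  have hH : 0 ≤ T.pre.Hh p x lam :=
    T.pre.Hh_nonneg hp (adm_of_ball hadm hlam (by linarith))
  have h16 := hdbl lam hlam hs
  constructor
  · calc T.pre.Hh p x (8 * lam) ≤ T.pre.Hh p x (16 * lam) :=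
          T.pre.Hh_mono hΩ hp (by positivity) (by linarith) hadm16
      _ ≤ C * T.pre.Hh p x lam := h16
      _ ≤ max C (2 ^ m / (2 * Real.log 2) * C) * T.pre.Hh p x lam :=
          mul_le_mul_of_nonneg_right (le_max_left _ _) hH
  · have h2 : Adm Ω x (2 * (8 * lam)) := by
      rw [show 2 * (8 * lam) = 16 * lam by ring]; exact hadm16
    have h3 := T.pre.Dd_le_Hh hΩ hp (show 0 < 8 * lam by positivity) h2
    rw [show 2 * (8 * lam) = 16 * lam by ring] at h3
    calc T.pre.Dd p x (8 * lam) ≤ 2 ^ m / (2 * Real.log 2) * T.pre.Hh p x (16 * lam) := h3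
      _ ≤ 2 ^ m / (2 * Real.log 2) * (C * T.pre.Hh p x lam) := mul_le_mul_of_nonneg_left h16 hk
      _ = 2 ^ m / (2 * Real.log 2) * C * T.pre.Hh p x lam := by ring
      _ ≤ max C (2 ^ m / (2 * Real.log 2) * C) * T.pre.Hh p x lam :=
          mul_le_mul_of_nonneg_right (le_max_right _ _) hH

/-! ## mass bounds for the rescaled tuples -/

/-- the kernel constant -/
noncomputable def kapM (m p : ℕ) : ℝ := 8 ^ m * (4 / 3) ^ p

theorem kapM_mul_lower (m p : ℕ) {lam : ℝ} (hlam : 0 < lam) :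
    kapM m p * lam ^ m * (((8 * lam) ^ m)⁻¹ * (3 / 4) ^ p) = 1 := by
  unfold kapM
  have h1 : ((4 : ℝ) / 3) ^ p * (3 / 4) ^ p = 1 := by
    rw [← mul_pow]; norm_num
  have h2 := (pow_pos hlam m).ne'
  rw [mul_pow]
  calc (8 : ℝ) ^ m * (4 / 3) ^ p * lam ^ m * ((8 ^ m * lam ^ m)⁻¹ * (3 / 4) ^ p)
      = ((8 : ℝ) ^ m * lam ^ m * (8 ^ m * lam ^ m)⁻¹) * ((4 / 3) ^ p * (3 / 4) ^ p) := by ring
    _ = 1 := by rw [h1, mul_inv_cancel₀ (by positivity), one_mul]

/-- lower bound for `φ` on the ball of radius `4 lam` -/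
theorem one_le_kapM_phiK (m p : ℕ) {x y : E m} {lam : ℝ} (hlam : 0 < lam)
    (hy : ‖y - x‖ ≤ 4 * lam) : 1 ≤ kapM m p * lam ^ m * phiK m p x (8 * lam) y := by
  have h1 : (1 : ℝ) * ((8 * lam) ^ m)⁻¹ * (3 / 4) ^ p ≤ kerK m p 1 x (8 * lam) y :=
    kerK_lower zero_le_one (by positivity) (by linarith)
  have hk : 0 ≤ kapM m p * lam ^ m := by unfold kapM; positivity
  rw [one_mul] at h1
  calc (1 : ℝ) = kapM m p * lam ^ m * (((8 * lam) ^ m)⁻¹ * (3 / 4) ^ p) :=
        (kapM_mul_lower m p hlam).symm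
    _ ≤ kapM m p * lam ^ m * phiK m p x (8 * lam) y := by
        rw [phiK_eq]; exact mul_le_mul_of_nonneg_left h1 hk

/-- lower bound for `ψ` on the ball of radius `4 lam` -/
theorem one_le_kapM_psiK (m : ℕ) {p : ℕ} (hp : 4 ≤ p) {x y : E m} {lam : ℝ} (hlam : 0 < lam)
    (hy : ‖y - x‖ ≤ 4 * lam) : 1 ≤ kapM m p * lam ^ m * psiK m p x (8 * lam) y := by
  have hp4 : (4 : ℝ) ≤ p := by exact_mod_cast hp
  have h1 : 2 * (p : ℝ) * ((8 * lam) ^ m)⁻¹ * (3 / 4) ^ (p - 1) ≤ kerK m (p - 1) (2 * p) x (8 * lam) y :=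
    kerK_lower (by positivity) (by positivity) (by linarith)
  have hk : 0 ≤ kapM m p * lam ^ m := by unfold kapM; positivity
  rw [psiK_eq]
  refine le_trans (le_of_eq (kapM_mul_lower m p hlam).symm)
    (mul_le_mul_of_nonneg_left (le_trans ?_ h1) hk)
  have h2 : ((3 : ℝ) / 4) ^ p ≤ (3 / 4) ^ (p - 1) :=
    pow_le_pow_of_le_one (by norm_num) (by norm_num) (by omega)
  have h3 : 0 ≤ ((8 * lam) ^ m)⁻¹ := by positivity
  have h4 : (0 : ℝ) ≤ (3 / 4) ^ (p - 1) := by positivity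
  calc ((8 * lam) ^ m)⁻¹ * (3 / 4) ^ p ≤ ((8 * lam) ^ m)⁻¹ * (3 / 4) ^ (p - 1) := by gcongr
    _ = 1 * (((8 * lam) ^ m)⁻¹ * (3 / 4) ^ (p - 1)) := by ring
    _ ≤ 2 * (p : ℝ) * (((8 * lam) ^ m)⁻¹ * (3 / 4) ^ (p - 1)) := by
        apply mul_le_mul_of_nonneg_right (by linarith) (by positivity)
    _ = 2 * (p : ℝ) * ((8 * lam) ^ m)⁻¹ * (3 / 4) ^ (p - 1) := by ring

/-- `g ∘ S` vanishes outside `closedBall x (4 lam)` (even outside the open ball) -/
theorem simf_eq_zero_of_four {x y : E m} {lam : ℝ} (hlam : 0 < lam) {g : E m → ℝ}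
    (hg : IsTest (Metric.ball (0 : E m) 4) g) (hy : 4 * lam ≤ ‖y - x‖) : simf x lam g y = 0 := by
  refine image_eq_zero_of_notMem_tsupport (f := g) fun h => ?_
  have h1 := hg.sub h
  rw [Metric.mem_ball, dist_zero_right, norm_smul, norm_inv, Real.norm_eq_abs, abs_of_pos hlam,
    inv_mul_lt_iff₀ hlam] at h1
  linarith

/-- **B2 (masses of `ν` and `tr β` on `ball 0 4`).**
[`0 ≤ B`.  If `lam⁻¹ (y - x) ∈ ball 0 4` then `‖y - x‖ ≤ (8 lam) / 2`, so by `kerK_lower`
`ψ_{x, 8 lam} y ≥ 2 p ((8 lam)^m)⁻¹ (3/4)^(p-1) ≥ (kapM m p)⁻¹ (lam^m)⁻¹` and `φ_{x, 8 lam} y ≥ ((8 lam)^m)⁻¹ (3/4)^p = (kapM m p)⁻¹ (lam^m)⁻¹`;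
otherwise `simf x lam g y = 0` (`g` vanishes outside `ball 0 4 ⊇ tsupport g`).  Hence `simf x lam g ≤ B kapM lam^m ψ` (resp. `φ`), and
`IsPos.mono` for `ν`, `tr β`.  `(rescale).nu g = c ν (simf g)`, `(rescale).tr g = c lam² tr β (simf g)` (`Finset.mul_sum`),
`D(x, 8 lam) = 64 lam² tr β (φ)`.] -/
theorem PreTuple.rescale_mass (T : PreTuple m Ω) {p : ℕ} (hp : 4 ≤ p) {x : E m} {lam c : ℝ}
    (hlam : 0 < lam) (hc : 0 ≤ c) (hmap : ∀ X ∈ Metric.ball (0 : E m) 4, x + lam • X ∈ Ω)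
    (hadm : Adm Ω x (8 * lam)) {g : E m → ℝ} (hg : IsTest (Metric.ball (0 : E m) 4) g)
    (h0 : ∀ y, 0 ≤ g y) {B : ℝ} (hB : ∀ y, g y ≤ B) :
    (T.rescale x hlam hc hmap).nu g ≤ kapM m p * (c * lam ^ m * T.Hh p x (8 * lam)) * B ∧
    (T.rescale x hlam hc hmap).tr g ≤ kapM m p * (c * lam ^ m * T.Dd p x (8 * lam)) * B := by
  have hB0 : 0 ≤ B := (h0 0).trans (hB 0)
  have hk : 0 ≤ kapM m p * lam ^ m := by unfold kapM; positivity
  have hG : IsTest Ω (simf x lam g) := isTest_simf hlam hmap hg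
  have hψ : IsTest Ω (psiK m p x (8 * lam)) := by
    rw [psiK_eq]; exact isTest_kerK hadm (by omega)
  have hφ : IsTest Ω (phiK m p x (8 * lam)) := by
    rw [phiK_eq]; exact isTest_kerK hadm (by omega)
  have hψ0 : ∀ y, 0 ≤ psiK m p x (8 * lam) y := fun y => by
    rw [psiK_eq]; exact kerK_nonneg (by positivity) hadm.1
  have hφ0 : ∀ y, 0 ≤ phiK m p x (8 * lam) y := fun y => by
    rw [phiK_eq]; exact kerK_nonneg zero_le_one hadm.1
  have hdom : ∀ (w : E m → ℝ), (∀ y, 0 ≤ w y) →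
      (∀ y, ‖y - x‖ ≤ 4 * lam → 1 ≤ kapM m p * lam ^ m * w y) →
      ∀ y, simf x lam g y ≤ ((B * (kapM m p * lam ^ m)) • w) y := by
    intro w hw0 hw1 y
    simp only [Pi.smul_apply, smul_eq_mul]
    rcases le_total (‖y - x‖) (4 * lam) with hy | hy
    · calc simf x lam g y ≤ B := hB _
        _ = B * 1 := (mul_one B).symm
        _ ≤ B * (kapM m p * lam ^ m * w y) := mul_le_mul_of_nonneg_left (hw1 y hy) hB0
        _ = B * (kapM m p * lam ^ m) * w y := by ring
    · rw [simf_eq_zero_of_four hlam hg hy]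
      exact mul_nonneg (mul_nonneg hB0 hk) (hw0 y)
  constructor
  · have h1 := T.pos_nu.mono T.radon_nu hG (hψ.smul _)
      (hdom _ hψ0 fun y hy => one_le_kapM_psiK m hp hlam hy)
    rw [T.radon_nu.smul _ _ hψ] at h1
    show c * T.nu (simf x lam g) ≤ _
    calc c * T.nu (simf x lam g) ≤ c * (B * (kapM m p * lam ^ m) * T.nu (psiK m p x (8 * lam))) :=
          mul_le_mul_of_nonneg_left h1 hc
      _ = kapM m p * (c * lam ^ m * T.Hh p x (8 * lam)) * B := by unfold PreTuple.Hh; ring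
  · have h1 := T.pos_tr.mono T.radon_tr hG (hφ.smul _)
      (hdom _ hφ0 fun y hy => one_le_kapM_phiK m p hlam hy)
    rw [T.radon_tr.smul _ _ hφ] at h1
    have e : (T.rescale x hlam hc hmap).tr g = c * lam ^ 2 * T.tr (simf x lam g) := by
      show ∑ i, c * lam ^ 2 * T.beta i i (simf x lam g) = _
      rw [← Finset.mul_sum]; rfl
    have htr0 : 0 ≤ T.tr (phiK m p x (8 * lam)) := T.pos_tr _ hφ hφ0
    rw [e]
    calc c * lam ^ 2 * T.tr (simf x lam g)
        ≤ c * lam ^ 2 * (B * (kapM m p * lam ^ m) * T.tr (phiK m p x (8 * lam))) :=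
          mul_le_mul_of_nonneg_left h1 (by positivity)
      _ = (c * B * (kapM m p * lam ^ m) * T.tr (phiK m p x (8 * lam)) * lam ^ 2) * 1 := by ring
      _ ≤ (c * B * (kapM m p * lam ^ m) * T.tr (phiK m p x (8 * lam)) * lam ^ 2) * 64 := by
          apply mul_le_mul_of_nonneg_left (by norm_num)
          positivity
      _ = kapM m p * (c * lam ^ m * T.Dd p x (8 * lam)) * B := by unfold PreTuple.Dd; ring

/-- **B3 (`𝔪` is controlled by the trace, uniformly in the scale).**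
[`simf x lam g` is a nonnegative test function on `Ω` with `tsupport ⊆ closedBall x (4 lam) ⊆ K`.] -/
theorem PreTuple.rescale_mm (T : PreTuple m Ω) {x : E m} {lam c : ℝ}
    (hlam : 0 < lam) (hc : 0 ≤ c) (hmap : ∀ X ∈ Metric.ball (0 : E m) 4, x + lam • X ∈ Ω)
    {K : Set (E m)} (hK : Metric.closedBall x (4 * lam) ⊆ K) {C : ℝ}
    (habs : ∀ g, IsTest Ω g → tsupport g ⊆ K → (∀ y, 0 ≤ g y) → |T.mm g| ≤ C * T.tr g)
    {g : E m → ℝ} (hg : IsTest (Metric.ball (0 : E m) 4) g) (h0 : ∀ y, 0 ≤ g y) :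
    |(T.rescale x hlam hc hmap).mm g| ≤ C * (T.rescale x hlam hc hmap).tr g := by
  have hG : IsTest Ω (simf x lam g) := isTest_simf hlam hmap hg
  have hsupp : tsupport (simf x lam g) ⊆ K := by
    refine (tsupport_subset_of_forall Metric.isClosed_closedBall fun y hy => ?_).trans hK
    rw [Metric.mem_closedBall, dist_eq_norm, not_le] at hy
    exact simf_eq_zero_of_four hlam hg hy.le
  have h1 := habs _ hG hsupp fun y => h0 _
  have e : (T.rescale x hlam hc hmap).tr g = c * lam ^ 2 * T.tr (simf x lam g) := by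
    show ∑ i, c * lam ^ 2 * T.beta i i (simf x lam g) = _
    rw [← Finset.mul_sum]; rfl
  rw [e]
  show |c * lam ^ 2 * T.mm (simf x lam g)| ≤ _
  have h2 : 0 ≤ c * lam ^ 2 := by positivity
  rw [abs_mul, abs_of_nonneg h2]
  calc c * lam ^ 2 * |T.mm (simf x lam g)| ≤ c * lam ^ 2 * (C * T.tr (simf x lam g)) :=
        mul_le_mul_of_nonneg_left h1 h2
    _ = C * (c * lam ^ 2 * T.tr (simf x lam g)) := by ring

/-- the map condition -/
theorem map_ball_four {x : E m} {ls lam : ℝ} (hadm : Metric.ball x (2 * ls) ⊆ Ω) (hlam : 0 < lam)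
    (hs : 32 * lam ≤ ls) : ∀ X ∈ Metric.ball (0 : E m) 4, x + lam • X ∈ Ω := by
  intro X hX
  rw [Metric.mem_ball, dist_zero_right] at hX
  refine hadm ?_
  rw [Metric.mem_ball, dist_eq_norm, add_sub_cancel_left, norm_smul, Real.norm_eq_abs,
    abs_of_pos hlam]
  nlinarith

/-- the normalised rescaling of `T` at the centre `x` and the scale `lam` -/
noncomputable def LinTuple.blow (T : LinTuple m Ω) (p : ℕ) (x : E m) {ls lam : ℝ}
    (hadm : Metric.ball x (2 * ls) ⊆ Ω) (hlam : 0 < lam) (hs : 32 * lam ≤ ls)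
    (hH : 0 ≤ T.pre.Hh p x lam) : PreTuple m (Metric.ball (0 : E m) 4) :=
  T.pre.rescale x hlam (c := (lam ^ m * T.pre.Hh p x lam)⁻¹)
    (inv_nonneg.2 (mul_nonneg (pow_nonneg hlam.le m) hH)) (map_ball_four hadm hlam hs)

/-- **B4: uniform mass bound.** -/
theorem LinTuple.exists_massBd (T : LinTuple m Ω) (hΩ : IsOpen Ω) (hconn : IsPreconnected Ω)
    {p : ℕ} (hp : 4 ≤ p) {x : E m} {ls : ℝ} (hls : 0 < ls) (hadm : Metric.ball x (2 * ls) ⊆ Ω)
    (hcmp : ∀ l, 0 < l → l < ls → T.pre.Hh p x l ≤ 2 * T.pre.Aa p x l) :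
    ∃ M : ℝ, ∀ (lam : ℝ) (hlam : 0 < lam) (hs : 32 * lam ≤ ls) (hH : 0 ≤ T.pre.Hh p x lam)
      (g : E m → ℝ), IsTest (Metric.ball (0 : E m) 4) g → ∀ B : ℝ, (∀ y, |g y| ≤ B) →
      |(T.blow p x hadm hlam hs hH).nu g| ≤ M * B ∧
      (∀ i, |(T.blow p x hadm hlam hs hH).f i g| ≤ M * B) ∧
      (∀ i k, |(T.blow p x hadm hlam hs hH).beta i k g| ≤ M * B) ∧
      |(T.blow p x hadm hlam hs hH).mm g| ≤ M * B := by
  obtain ⟨C, hC, hcb⟩ := T.exists_centre_bounds hΩ hconn hp hls hadm hcmp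
  obtain ⟨CK, hCK⟩ := T.abs_le (Metric.closedBall x ls) (isCompact_closedBall x ls)
    ((Metric.closedBall_subset_ball (by linarith)).trans hadm)
  have hκ : 0 ≤ kapM m p := by unfold kapM; positivity
  set M₀ : ℝ := kapM m p * C with hM₀
  have hM₀0 : 0 ≤ M₀ := mul_nonneg hκ hC
  refine ⟨max (2 * M₀) (2 * (|CK| * M₀)), fun lam hlam hs hH g hg B hB => ?_⟩
  have hB0 : 0 ≤ B := (abs_nonneg _).trans (hB 0)
  have hpos : 0 < T.pre.Hh p x lam := T.Hh_pos hΩ hconn hp (adm_of_ball hadm hlam (by linarith))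
  have hadm8 : Adm Ω x (8 * lam) := adm_of_ball hadm (by positivity) (by linarith)
  have hlm : 0 < lam ^ m := pow_pos hlam m
  -- normalisation
  have hnorm : ∀ Y : ℝ, Y ≤ C * T.pre.Hh p x lam →
      (lam ^ m * T.pre.Hh p x lam)⁻¹ * lam ^ m * Y ≤ C := by
    intro Y hY
    have e : (lam ^ m * T.pre.Hh p x lam)⁻¹ * lam ^ m = (T.pre.Hh p x lam)⁻¹ := by
      field_simp
    rw [e, inv_mul_le_iff₀ hpos]
    linarith
  have hmass : ∀ g, IsTest (Metric.ball (0 : E m) 4) g → (∀ y, 0 ≤ g y) → ∀ B : ℝ,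
      (∀ y, g y ≤ B) → (T.blow p x hadm hlam hs hH).nu g ≤ M₀ * B ∧
        (T.blow p x hadm hlam hs hH).tr g ≤ M₀ * B := by
    intro g hg h0 B hB
    have hB0 : 0 ≤ B := (h0 0).trans (hB 0)
    have h1 := T.pre.rescale_mass hp hlam
      (inv_nonneg.2 (mul_nonneg (pow_nonneg hlam.le m) hH)) (map_ball_four hadm hlam hs) hadm8 hg
      h0 hB
    have h2 := hcb lam hlam hs
    exact ⟨h1.1.trans (mul_le_mul_of_nonneg_right
        (mul_le_mul_of_nonneg_left (hnorm _ h2.1) hκ) hB0),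
      h1.2.trans (mul_le_mul_of_nonneg_right
        (mul_le_mul_of_nonneg_left (hnorm _ h2.2) hκ) hB0)⟩
  have hb := (T.blow p x hadm hlam hs hH).bound_of_mass
    (fun g hg h0 B hB => (hmass g hg h0 B hB).1) (fun g hg h0 B hB => (hmass g hg h0 B hB).2) hg hB
  have hle1 : 2 * M₀ * B ≤ max (2 * M₀) (2 * (|CK| * M₀)) * B :=
    mul_le_mul_of_nonneg_right (le_max_left _ _) hB0
  refine ⟨hb.1.trans hle1, fun i => (hb.2.1 i).trans hle1, fun i k => (hb.2.2 i k).trans hle1, ?_⟩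
  have hmm : |(T.blow p x hadm hlam hs hH).mm g| ≤ 2 * (|CK| * M₀) * B := by
    refine (T.blow p x hadm hlam hs hH).radon_mm.abs_le_of_nonneg (fun g hg h0 B hB => ?_) hg hB
    have h3 := T.pre.rescale_mm hlam (inv_nonneg.2 (mul_nonneg (pow_nonneg hlam.le m) hH))
      (map_ball_four hadm hlam hs) (K := Metric.closedBall x ls)
      (Metric.closedBall_subset_closedBall (by linarith)) (C := CK)
      (fun g hg hK h0 => hCK g hg hK h0) hg h0
    have h4 := (hmass g hg h0 B hB).2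
    have h5 : 0 ≤ (T.blow p x hadm hlam hs hH).tr g :=
      (T.blow p x hadm hlam hs hH).pos_tr g hg h0
    calc |(T.blow p x hadm hlam hs hH).mm g| ≤ CK * (T.blow p x hadm hlam hs hH).tr g := h3
      _ ≤ |CK| * (T.blow p x hadm hlam hs hH).tr g :=
          mul_le_mul_of_nonneg_right (le_abs_self _) h5
      _ ≤ |CK| * (M₀ * B) := mul_le_mul_of_nonneg_left h4 (abs_nonneg _)
      _ = |CK| * M₀ * B := by ring
  exact hmm.trans (mul_le_mul_of_nonneg_right (le_max_right _ _) hB0)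

/-- **M3: the second blow-up.** -/
theorem LinTuple.exists_blowup (T : LinTuple m Ω) (hΩ : IsOpen Ω) (hconn : IsPreconnected Ω)
    {p : ℕ} (hp : 4 ≤ p) {x : E m} {ls : ℝ} (hls : 0 < ls) (hadm : Metric.ball x (2 * ls) ⊆ Ω)
    (hcmp : ∀ l, 0 < l → l < ls → T.pre.Hh p x l ≤ 2 * T.pre.Aa p x l)
    (lam : ℕ → ℝ) (hlam : ∀ j, 0 < lam j) (hs : ∀ j, 32 * lam j ≤ ls) :
    ∃ (φ : ℕ → ℕ) (S : PreTuple m (Metric.ball (0 : E m) 4)), StrictMono φ ∧
      ∀ (w : ℕ → E m) (w₀ : E m) (r : ℝ), (∀ j, ‖w j‖ ≤ 1) → Tendsto w atTop (𝓝 w₀) → 0 < r →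
        r < 3 →
        Tendsto (fun j => T.pre.Hh p (x + lam (φ j) • w j) (lam (φ j) * r) /
          T.pre.Hh p x (lam (φ j))) atTop (𝓝 (S.Hh p w₀ r)) ∧
        Tendsto (fun j => T.pre.Aa p (x + lam (φ j) • w j) (lam (φ j) * r) /
          T.pre.Hh p x (lam (φ j))) atTop (𝓝 (S.Aa p w₀ r)) := by
  have hpos : ∀ j, 0 < T.pre.Hh p x (lam j) := fun j =>
    T.Hh_pos hΩ hconn hp (adm_of_ball hadm (hlam j) (by linarith [hs j, hlam j]))
  obtain ⟨M, hM⟩ := T.exists_massBd hΩ hconn hp hls hadm hcmp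
  set Ts : ℕ → PreTuple m (Metric.ball (0 : E m) 4) := fun j =>
    T.blow p x hadm (hlam j) (hs j) (hpos j).le with hTs
  have hMB : MassBd Ts M := fun j g hg B hB => hM (lam j) (hlam j) (hs j) (hpos j).le g hg B hB
  obtain ⟨φ, S, hφ, hconv⟩ := PreTuple.exists_limit Metric.isOpen_ball Ts M hMB
  have hMB' : MassBd (fun j => Ts (φ j)) M := fun j => hMB (φ j)
  refine ⟨φ, S, hφ, fun w w₀ r hw hw0 hr hr3 => ?_⟩
  have hw₀ : ‖w₀‖ ≤ 1 := le_of_tendsto' hw0.norm hw
  have hadm0 : Adm (Metric.ball (0 : E m) 4) w₀ r := by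
    refine ⟨hr, fun y hy => ?_⟩
    rw [Metric.mem_closedBall, dist_eq_norm] at hy
    rw [Metric.mem_ball, dist_zero_right]
    have : ‖y‖ ≤ ‖y - w₀‖ + ‖w₀‖ := by simpa using norm_add_le (y - w₀) w₀
    linarith
  have hadmj : ∀ j, Adm Ω (x + lam (φ j) • w j) (lam (φ j) * r) := by
    intro j
    have hl := hlam (φ j)
    refine ⟨mul_pos hl hr, fun y hy => hadm ?_⟩
    rw [Metric.mem_closedBall, dist_eq_norm] at hy
    rw [Metric.mem_ball, dist_eq_norm]
    have h1 : ‖y - x‖ ≤ ‖y - (x + lam (φ j) • w j)‖ + ‖lam (φ j) • w j‖ := by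
      have := norm_add_le (y - (x + lam (φ j) • w j)) (lam (φ j) • w j)
      rwa [show y - (x + lam (φ j) • w j) + lam (φ j) • w j = y - x by abel] at this
    have h2 : ‖lam (φ j) • w j‖ ≤ lam (φ j) := by
      rw [norm_smul, Real.norm_eq_abs, abs_of_pos hl]
      nlinarith [hw j]
    nlinarith [hs (φ j)]
  have e : ∀ j, ((lam (φ j)) ^ m * T.pre.Hh p x (lam (φ j)))⁻¹ * (lam (φ j)) ^ m
      = (T.pre.Hh p x (lam (φ j)))⁻¹ := by
    intro j
    have h1 := (hpos (φ j)).ne'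
    have h2 := (pow_pos (hlam (φ j)) m).ne'
    field_simp
  constructor
  · have h1 := hconv.tendsto_Hh Metric.isOpen_ball hMB' hp hadm0 hw0
    refine h1.congr fun j => ?_
    have h2 := T.pre.Hh_rescale (hlam (φ j))
      (inv_nonneg.2 (mul_nonneg (pow_nonneg (hlam (φ j)).le m) (hpos (φ j)).le))
      (map_ball_four hadm (hlam (φ j)) (hs (φ j))) p hp (hadmj j) hr
    calc (Ts (φ j)).Hh p (w j) r = _ := h2
      _ = _ := by rw [e j, div_eq_inv_mul]
  · have h1 := hconv.tendsto_Aa Metric.isOpen_ball hMB' hp hadm0 hw0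
    refine h1.congr fun j => ?_
    have h2 := T.pre.Aa_rescale (hlam (φ j))
      (inv_nonneg.2 (mul_nonneg (pow_nonneg (hlam (φ j)).le m) (hpos (φ j)).le))
      (map_ball_four hadm (hlam (φ j)) (hs (φ j))) p hp (hadmj j) hr
    calc (Ts (φ j)).Aa p (w j) r = _ := h2
      _ = _ := by rw [e j, div_eq_inv_mul]

end Claimed.Agent.R322.Red
end

/- ===== packed: Claimed.Agent.R322.Red.Rigid ===== -/
section
/-!
# CO Section 7: equality at independent centres (helper96; sorry-free)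

`PreTuple.Hh_eq_zero_of_const_freq` : a tuple on `ball 0 4` whose frequency is a constant `P₀ ≥ 1/2` at the centres `0, z 1, …, z m`
(`‖z i‖ ≤ 1`, spanning) for all radii in `(0,3)` has `H(0,1) = 0`.
-/

set_option autoImplicit false

open scoped ENNReal ContDiff
open MeasureTheory Filter Topology

namespace Claimed.Agent.R322.Red

open Claimed.Agent.R322.Fn

variable {m : ℕ} {Ω : Set (E m)}

namespace PreTuple

variable (S : PreTuple m Ω) {p : ℕ}

theorem psiK_pos_of_mem_ball (hp : 4 ≤ p) {z y : E m} {r : ℝ} (hr : 0 < r)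
    (hy : y ∈ Metric.ball z r) : 0 < psiK m p z r y := by
  rw [psiK_eq]
  rw [Metric.mem_ball, dist_eq_norm] at hy
  have hp0 : (0 : ℝ) < p := by exact_mod_cast (by omega : 0 < p)
  exact kerK_pos (by positivity) hr hy

/-- **R0.** `g / √ψ` is a test function when `g` is supported in the open ball.
[Continuity: on the open set `ball z r` the denominator is continuous and positive (`kerK_pos`); on the open set `(tsupport g)ᶜ` the
function vanishes identically; the two sets cover (`continuous_iff_continuousAt`, `ContinuousAt.congr`).  It vanishes outside the compact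
set `tsupport g ⊆ Ω`: `isTest_of_forall`.] -/
theorem isTest_div_sqrt_psiK (hp : 4 ≤ p) {z : E m} {r : ℝ} (hr : 0 < r) {g : E m → ℝ}
    (hg : IsTest Ω g) (hsupp : tsupport g ⊆ Metric.ball z r) :
    IsTest Ω (fun y => g y / Real.sqrt (psiK m p z r y)) := by
  have hψc : Continuous (psiK m p z r) := by
    rw [psiK_eq]; exact continuous_kerK hr
  refine isTest_of_forall ?_ hg.cpt.isCompact hg.sub fun y hy => ?_
  · rw [continuous_iff_continuousAt]
    intro y
    by_cases hy : y ∈ Metric.ball z r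
    · exact hg.cont.continuousAt.div (Real.continuous_sqrt.comp hψc).continuousAt
        (Real.sqrt_pos.2 (psiK_pos_of_mem_ball hp hr hy)).ne'
    · have hy' : y ∉ tsupport g := fun h => hy (hsupp h)
      have hev : (fun y => g y / Real.sqrt (psiK m p z r y)) =ᶠ[𝓝 y] fun _ => 0 := by
        filter_upwards [(isClosed_tsupport g).isOpen_compl.mem_nhds hy'] with w hw
        rw [image_eq_zero_of_notMem_tsupport hw, zero_div]
      exact continuousAt_const.congr hev.symm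
  · rw [image_eq_zero_of_notMem_tsupport hy, zero_div]

/-- **R1 (the first row of the null vector).**
[`null_vector` with `a₀ = fun y => (-n₀) * √ψ y`, `b₀ i = fun y => 1 * (√ψ y * (y i - z i))` (null by `form_eq` with `s = -n₀`, `τ = 1`),
`a' = g / √ψ`.  Function identities: `a₀ * a' = (-n₀) • g` and `a' * b₀ i = fun y => g y * (y i - z i)`: where `ψ y > 0` cancel `√ψ y ≠ 0`;
where `ψ y = 0`, `y ∉ ball z r`, so `g y = 0`.] -/
theorem radial_identity (hΩ : IsOpen Ω) (hp : 4 ≤ p) {z : E m} {r n₀ : ℝ} (hadm : Adm Ω z r)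
    (hnull : n₀ ^ 2 * S.Hh p z r - 2 * n₀ * S.Dd p z r + S.Rr p z r = 0) {g : E m → ℝ}
    (hg : IsTest Ω g) (hsupp : tsupport g ⊆ Metric.ball z r) :
    ∑ i, S.f i (fun y => g y * (y i - z i)) = n₀ * S.nu g := by
  have h1 := S.form_eq hΩ hp hadm (-n₀) 1
  have h2 : (-n₀) ^ 2 * S.Hh p z r + 2 * (-n₀) * 1 * S.Dd p z r + 1 ^ 2 * S.Rr p z r = 0 := by
    rw [← hnull]; ring
  rw [h2] at h1
  have h3 := S.null_vector (isTest_form_a hp hadm (-n₀)) (fun i => isTest_form_b hp hadm 1 i) h1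
    (isTest_div_sqrt_psiK hp hadm.1 hg hsupp)
  have hcancel : ∀ y, Real.sqrt (psiK m p z r y) * (g y / Real.sqrt (psiK m p z r y)) = g y := by
    intro y
    by_cases hy : y ∈ Metric.ball z r
    · exact mul_div_cancel₀ _ (Real.sqrt_pos.2 (psiK_pos_of_mem_ball hp hadm.1 hy)).ne'
    · rw [image_eq_zero_of_notMem_tsupport fun h => hy (hsupp h), zero_div, mul_zero]
  have e1 : ((fun y => -n₀ * Real.sqrt (psiK m p z r y)) *
      fun y => g y / Real.sqrt (psiK m p z r y)) = (-n₀) • g := by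
    funext y
    simp only [Pi.mul_apply, Pi.smul_apply, smul_eq_mul]
    rw [mul_assoc, hcancel]
  have e2 : ∀ i, ((fun y => g y / Real.sqrt (psiK m p z r y)) *
      fun y => 1 * (Real.sqrt (psiK m p z r y) * (y i - z i))) = fun y => g y * (y i - z i) := by
    intro i
    funext y
    simp only [Pi.mul_apply, one_mul]
    rw [← mul_assoc, mul_comm (g y / _), hcancel]
  simp only [e1, e2, S.radon_nu.smul _ _ hg] at h3
  linarith

/-- **R2 (linear algebra).**
[Subtract: `g * (y i - 0 i) - g * (y i - z k i) = z k i • g`, so `∑ i, z k i * f_i g = 0` for all `k`, i.e. the vector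
`v := WithLp.toLp 2 fun i => S.f i g` is orthogonal to every `z k`, hence to `span (range z) = ⊤`, hence `v = 0`
(`Submodule.mem_orthogonal`, `Submodule.top_orthogonal_eq_bot` or `inner_self_eq_zero`).] -/
theorem f_eq_zero_of_radial {n₀ : ℝ} {z : Fin m → E m}
    (hspan : Submodule.span ℝ (Set.range z) = ⊤) {g : E m → ℝ} (hg : IsTest Ω g)
    (h0 : ∑ i, S.f i (fun y => g y * (y i - (0 : E m) i)) = n₀ * S.nu g)
    (hz : ∀ k, ∑ i, S.f i (fun y => g y * (y i - z k i)) = n₀ * S.nu g) (i : Fin m) :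
    S.f i g = 0 := by
  have hlin : ∀ k, ∑ i, z k i * S.f i g = 0 := by
    intro k
    have e : ∀ i, S.f i (fun y => g y * (y i - (0 : E m) i))
        = S.f i (fun y => g y * (y i - z k i)) + z k i * S.f i g := by
      intro i
      have e1 : (fun y => g y * (y i - (0 : E m) i))
          = (fun y => g y * (y i - z k i)) + (z k i) • g := by
        funext y
        simp only [Pi.add_apply, Pi.smul_apply, smul_eq_mul, PiLp.zero_apply]
        ring
      have hT : IsTest Ω (fun y => g y * (y i - z k i)) :=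
        hg.mul_cont (contDiff_coord i (z k)).continuous
      rw [e1, (S.radon_f i).add _ _ hT (hg.smul _), (S.radon_f i).smul _ _ hg]
    simp only [e, Finset.sum_add_distrib] at h0
    linarith [hz k]
  set v : E m := WithLp.toLp 2 fun i => S.f i g with hv
  have hmem : ∀ k, z k ∈ (Submodule.span ℝ {v})ᗮ := by
    intro k
    rw [Submodule.mem_orthogonal_singleton_iff_inner_right]
    have := hlin k
    simp only [hv, PiLp.inner_apply, RCLike.inner_apply, conj_trivial]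
    exact this
  have hle : Submodule.span ℝ (Set.range z) ≤ (Submodule.span ℝ {v})ᗮ := by
    rw [Submodule.span_le]
    rintro _ ⟨k, rfl⟩
    exact hmem k
  rw [hspan] at hle
  have hvv : v ∈ (Submodule.span ℝ {v})ᗮ := hle Submodule.mem_top
  rw [Submodule.mem_orthogonal_singleton_iff_inner_right, inner_self_eq_zero] at hvv
  have := congrArg (fun w : E m => w i) hvv
  simpa [hv] using this

end PreTuple

/-- admissibility in `ball 0 4` -/
theorem adm_ball_four {w : E m} {r : ℝ} (hw : ‖w‖ ≤ 1) (hr : 0 < r) (hr3 : r < 3) :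
    Adm (Metric.ball (0 : E m) 4) w r := by
  refine ⟨hr, fun y hy => ?_⟩
  rw [Metric.mem_closedBall, dist_eq_norm] at hy
  rw [Metric.mem_ball, dist_zero_right]
  have : ‖y‖ ≤ ‖y - w‖ + ‖w‖ := by
    simpa using norm_add_le (y - w) w
  linarith

/-- constant frequency on `(0,3)` gives a null vector at the radius `5/2` -/
theorem PreTuple.null_of_const_freq (S : PreTuple m (Metric.ball (0 : E m) 4)) {p : ℕ} (hp : 4 ≤ p)
    {P₀ : ℝ} (hP₀ : 1 / 2 ≤ P₀) {w : E m} (hw : ‖w‖ ≤ 1)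
    (h : ∀ r, 0 < r → r < 3 → S.Aa p w r = P₀ * S.Hh p w r) :
    (2 * P₀) ^ 2 * S.Hh p w (5 / 2) - 2 * (2 * P₀) * S.Dd p w (5 / 2) + S.Rr p w (5 / 2) = 0 := by
  have hsys := S.freqSys (x := w) Metric.isOpen_ball hp (I := Set.Iio (Real.log 3)) (fun t ht =>
    adm_ball_four hw (Real.exp_pos t) ((Real.lt_log_iff_exp_lt (by norm_num)).1 ht))
  have ht : Real.log (5 / 2) ∈ Set.Iio (Real.log 3) :=
    Real.log_lt_log (by norm_num) (by norm_num)
  have hev : ∀ᶠ s in 𝓝 (Real.log (5 / 2)),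
      S.Aa p w (Real.exp s) = P₀ * S.Hh p w (Real.exp s) := by
    filter_upwards [Iio_mem_nhds ht] with s hs
    exact h _ (Real.exp_pos s) ((Real.lt_log_iff_exp_lt (by norm_num)).1 hs)
  have := hsys.rigid ht hP₀ hev
  simpa only [Real.exp_log (show (0 : ℝ) < 5 / 2 by norm_num)] using this

/-- **M4: rigidity.** -/
theorem PreTuple.Hh_eq_zero_of_const_freq (S : PreTuple m (Metric.ball (0 : E m) 4)) {p : ℕ}
    (hp : 4 ≤ p) {P₀ : ℝ} (hP₀ : 1 / 2 ≤ P₀) {z : Fin m → E m} (hz1 : ∀ i, ‖z i‖ ≤ 1)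
    (hspan : Submodule.span ℝ (Set.range z) = ⊤)
    (h0 : ∀ r, 0 < r → r < 3 → S.Aa p 0 r = P₀ * S.Hh p 0 r)
    (hz : ∀ i r, 0 < r → r < 3 → S.Aa p (z i) r = P₀ * S.Hh p (z i) r) : S.Hh p 0 1 = 0 := by
  have ho : IsOpen (Metric.ball (0 : E m) 4) := Metric.isOpen_ball
  -- the radial identity at every centre, for test functions supported in the closed unit ball
  have hrad : ∀ w : E m, ‖w‖ ≤ 1 → (∀ r, 0 < r → r < 3 → S.Aa p w r = P₀ * S.Hh p w r) →
      ∀ g : E m → ℝ, IsTest (Metric.ball (0 : E m) 4) g → tsupport g ⊆ Metric.closedBall 0 1 →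
        ∑ i, S.f i (fun y => g y * (y i - w i)) = 2 * P₀ * S.nu g := by
    intro w hw hconst g hg hsupp
    refine S.radial_identity ho hp (adm_ball_four hw (by norm_num) (by norm_num))
      (S.null_of_const_freq hp hP₀ hw hconst) hg (hsupp.trans fun y hy => ?_)
    rw [Metric.mem_closedBall, dist_zero_right] at hy
    rw [Metric.mem_ball, dist_eq_norm]
    have : ‖y - w‖ ≤ ‖y‖ + ‖w‖ := norm_sub_le y w
    linarith
  have hf0 : ∀ g : E m → ℝ, IsTest (Metric.ball (0 : E m) 4) g →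
      tsupport g ⊆ Metric.closedBall 0 1 → ∀ i, S.f i g = 0 := fun g hg hsupp i =>
    S.f_eq_zero_of_radial hspan hg (hrad 0 (by simp) h0 g hg hsupp)
      (fun k => hrad (z k) (hz1 k) (hz k) g hg hsupp) i
  have hadm1 : Adm (Metric.ball (0 : E m) 4) (0 : E m) 1 :=
    adm_ball_four (by simp) one_pos (by norm_num)
  have hψ : IsTest (Metric.ball (0 : E m) 4) (psiK m p 0 1) := by
    rw [psiK_eq]; exact isTest_kerK hadm1 (by omega)
  have hψs : tsupport (psiK m p (0 : E m) 1) ⊆ Metric.closedBall 0 1 := by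
    rw [psiK_eq]; exact tsupport_kerK_subset (by omega) one_pos
  have h1 := hrad 0 (by simp) h0 _ hψ hψs
  have h2 : ∀ i, S.f i (fun y => psiK m p 0 1 y * (y i - (0 : E m) i)) = 0 := by
    intro i
    refine hf0 _ (hψ.mul_cont (contDiff_coord i 0).continuous) ?_ i
    refine tsupport_subset_of_forall Metric.isClosed_closedBall fun y hy => ?_
    have : psiK m p 0 1 y = 0 := image_eq_zero_of_notMem_tsupport fun h => hy (hψs h)
    rw [Pi.mul_apply, this, zero_mul]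
  rw [Finset.sum_eq_zero fun i _ => h2 i] at h1
  have h3 : (2 * P₀) ≠ 0 := by
    intro h; linarith
  exact (mul_eq_zero.1 h1.symm).resolve_left h3

end Claimed.Agent.R322.Red
end
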