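/- Packed by merge_tool.py (helper293): 8 modules of Claimed.Agent.R322 in one file, same declarations.
   Old modules, in this order: Base.Area.AtlasEx, Base.Area.Tangent, Base.Area.Main, Haus.Level, Haus.Weak, Haus.Frostman, Red.Centres, Red.Main -/
import Claimed.Agent.R322.Base.Area.Lin
import Claimed.Agent.R322.Pack011
import Claimed.Agent.R322.Pack006
import Claimed.Agent.R322.Pack005
import Claimed.Agent.R322.Pack008
import Claimed.Agent.R322.Pack007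

/- ===== packed: Claimed.Agent.R322.Base.Area.AtlasEx ===== -/
section
/-!
# Row 322, Base/Area/AtlasEx: existence of an atlas
-/

set_option autoImplicit false

open MeasureTheory MeasureTheory.Measure Metric Filter Set

open scoped NNReal ENNReal Topology Function

namespace Claimed.Agent.R322.Base.Area

/-- A Lipschitz map `E m → F` is, up to a set with `μH[m]`-null image, a countable union of
measurable pieces on which it is differentiable with injective derivative, and injective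
(Rademacher + `exists_injOn_pieces`). -/
theorem exists_pieces_of_lipschitz {m : ℕ} {F : Type*} [NormedAddCommGroup F]
    [InnerProductSpace ℝ F] [FiniteDimensional ℝ F] [MeasurableSpace F] [BorelSpace F]
    (f : E m → F) {L : ℝ≥0} (hf : LipschitzWith L f) :
    ∃ t : ℕ → Set (E m), (∀ n, MeasurableSet (t n)) ∧
      (∀ n, ∀ a ∈ t n, DifferentiableAt ℝ f a) ∧
      (∀ n, ∀ a ∈ t n, Function.Injective (fderiv ℝ f a)) ∧ (∀ n, InjOn f (t n)) ∧
      μH[(m : ℝ)] (f '' (⋃ n, t n)ᶜ) = 0 := by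
  set D : Set (E m) := {a | DifferentiableAt ℝ f a} with hD
  have hDm : MeasurableSet D := measurableSet_of_differentiableAt ℝ f
  have hD0 : (μH[(m : ℝ)] : Measure (E m)) Dᶜ = 0 := hf.ae_differentiableAt
  obtain ⟨t, t_meas, -, t_sub, t_inj, t_inj', h0, -⟩ :=
    exists_injOn_pieces (s := D) (f := f) (f' := fderiv ℝ f) hDm
      (fun x hx => (DifferentiableAt.hasFDerivAt hx).hasFDerivWithinAt)
  refine ⟨t, t_meas, fun n a ha => t_sub n ha, t_inj', t_inj, ?_⟩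
  have hsub : (⋃ n, t n)ᶜ ⊆ Dᶜ ∪ (D \ ⋃ n, t n) := by
    intro x hx
    by_cases hxD : x ∈ D
    · exact Or.inr ⟨hxD, hx⟩
    · exact Or.inl hxD
  refine measure_mono_null (image_mono hsub) ?_
  rw [image_union]
  refine measure_union_null ?_ h0
  have h1 := hf.hausdorffMeasure_image_le (Nat.cast_nonneg m) Dᶜ
  rw [hD0, mul_zero] at h1
  exact le_antisymm h1 zero_le

variable {m n : ℕ} {M : Set (E (m + n))}

/-- **Disjointification.** -/
theorem exists_atlas_of_pieces (hM : MeasurableSet M) (B : ℕ → Set (E m))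
    (f : ℕ → E m → E (m + n)) (hB : ∀ k, MeasurableSet (B k))
    (hlip : ∀ k, ∃ L : ℝ≥0, LipschitzWith L (f k))
    (hdiff : ∀ k, ∀ a ∈ B k, DifferentiableAt ℝ (f k) a)
    (hinj' : ∀ k, ∀ a ∈ B k, Function.Injective (fderiv ℝ (f k) a))
    (hinj : ∀ k, InjOn (f k) (B k))
    (hnull : μH[(m : ℝ)] (M \ ⋃ k, f k '' B k) = 0) : Nonempty (Atlas m n M) := by
  have hcont : ∀ k, Continuous (f k) := fun k => by
    obtain ⟨L, hL⟩ := hlip k
    exact hL.continuous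
  have himg : ∀ k, MeasurableSet (f k '' B k) := fun k =>
    (hB k).image_of_continuousOn_injOn (hcont k).continuousOn (hinj k)
  set T : ℕ → Set (E (m + n)) := fun k => M \ ⋃ j, ⋃ (_ : j < k), f j '' B j with hT
  have hTm : ∀ k, MeasurableSet (T k) := fun k =>
    hM.diff (MeasurableSet.iUnion fun j => MeasurableSet.iUnion fun _ => himg j)
  set A : ℕ → Set (E m) := fun k => B k ∩ f k ⁻¹' T k with hA
  have hAB : ∀ k, A k ⊆ B k := fun k => inter_subset_left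
  have himA : ∀ k, f k '' A k = f k '' B k ∩ T k := fun k => image_inter_preimage _ _ _
  refine ⟨{ A := A, f := f, A_meas := fun k => (hB k).inter ((hcont k).measurable (hTm k)),
            lip := hlip, diff := fun k a ha => hdiff k a (hAB k ha),
            inj_fderiv := fun k a ha => hinj' k a (hAB k ha),
            injOn := fun k => (hinj k).mono (hAB k), disj := ?_, sub := ?_, null := ?_ }⟩
  · have key : ∀ j k, j < k → Disjoint (f j '' A j) (f k '' A k) := by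
      intro j k hjk
      rw [disjoint_left]
      intro x hxj hxk
      rw [himA] at hxj hxk
      exact hxk.2.2 (mem_iUnion.2 ⟨j, mem_iUnion.2 ⟨hjk, hxj.1⟩⟩)
    intro j k hjk
    rcases lt_or_gt_of_ne hjk with h | h
    · exact key j k h
    · exact (key k j h).symm
  · intro k
    rw [himA]
    exact fun x hx => hx.2.1
  · refine measure_mono_null ?_ hnull
    intro x hx
    refine ⟨hx.1, fun hxU => hx.2 ?_⟩
    classical
    have hex : ∃ k, x ∈ f k '' B k := mem_iUnion.1 hxU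
    refine mem_iUnion.2 ⟨Nat.find hex, ?_⟩
    rw [himA]
    refine ⟨Nat.find_spec hex, hx.1, ?_⟩
    intro hcon
    obtain ⟨j, hj⟩ := mem_iUnion.1 hcon
    obtain ⟨hjk, hj'⟩ := mem_iUnion.1 hj
    exact Nat.find_min hex hjk hj'

/-- **Existence of an atlas** for a Borel countably `m`-rectifiable set. -/
theorem exists_atlas_aux (hM : MeasurableSet M)
    (hrect : ∃ Z : Set (E (m + n)), μH[(m : ℝ)] Z = 0 ∧
      ∃ f : ℕ → E m → E (m + n), (∀ i, ∃ L, LipschitzWith L (f i)) ∧ M ⊆ Z ∪ ⋃ i, Set.range (f i)) :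
    Nonempty (Atlas m n M) := by
  obtain ⟨Z, hZ, f, hf, hMsub⟩ := hrect
  have h := fun i => exists_pieces_of_lipschitz (f i) (hf i).choose_spec
  choose t t_meas t_diff t_inj' t_inj t_null using h
  refine exists_atlas_of_pieces hM (fun k => t k.unpair.1 k.unpair.2) (fun k => f k.unpair.1)
    (fun k => t_meas _ _) (fun k => hf _) (fun k => t_diff _ _) (fun k => t_inj' _ _)
    (fun k => t_inj _ _) ?_
  have hsub : M \ ⋃ k : ℕ, f k.unpair.1 '' t k.unpair.1 k.unpair.2 ⊆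
      Z ∪ ⋃ i, f i '' (⋃ j, t i j)ᶜ := by
    intro x hx
    rcases hMsub hx.1 with h | h
    · exact Or.inl h
    · obtain ⟨i, a, rfl⟩ := mem_iUnion.1 h
      refine Or.inr (mem_iUnion.2 ⟨i, a, ?_, rfl⟩)
      intro ha
      obtain ⟨j, hj⟩ := mem_iUnion.1 ha
      refine hx.2 (mem_iUnion.2 ⟨Nat.pair i j, ?_⟩)
      simp only [Nat.unpair_pair]
      exact ⟨a, hj, rfl⟩
  refine measure_mono_null hsub (measure_union_null hZ ?_)
  exact measure_iUnion_null t_null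

end Claimed.Agent.R322.Base.Area
end

/- ===== packed: Claimed.Agent.R322.Base.Area.Tangent ===== -/
section
/-!
# Row 322, Base/Area/Tangent: the tangent field of an atlas
-/

set_option autoImplicit false

open MeasureTheory Set

open scoped NNReal ENNReal

namespace Claimed.Agent.R322.Base.Area

variable {m n : ℕ} {M : Set (E (m + n))}

theorem Atlas.continuous_f (𝒜 : Atlas m n M) (i : ℕ) : Continuous (𝒜.f i) := by
  obtain ⟨L, hL⟩ := 𝒜.lip i
  exact hL.continuous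

/-- the images of measurable subsets of the parameter domains are Borel (Lusin–Souslin). -/
theorem Atlas.measurableSet_image (𝒜 : Atlas m n M) (i : ℕ) {B : Set (E m)}
    (hB : MeasurableSet B) (hBA : B ⊆ 𝒜.A i) : MeasurableSet (𝒜.f i '' B) :=
  hB.image_of_continuousOn_injOn (𝒜.continuous_f i).continuousOn ((𝒜.injOn i).mono hBA)

/-- uniqueness of the chart and of the parameter. -/
theorem Atlas.eq_of_apply_eq (𝒜 : Atlas m n M) {i j : ℕ} {a b : E m} (ha : a ∈ 𝒜.A i)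
    (hb : b ∈ 𝒜.A j) (h : 𝒜.f i a = 𝒜.f j b) : i = j ∧ a = b := by
  have hij : i = j := by
    by_contra hne
    exact disjoint_left.1 (𝒜.disj hne) ⟨a, ha, rfl⟩ ⟨b, hb, h.symm⟩
  subst hij
  exact ⟨rfl, 𝒜.injOn i ha hb h⟩

theorem Atlas.P_apply_aux (𝒜 : Atlas m n M) {i : ℕ} {a : E m} (ha : a ∈ 𝒜.A i) :
    𝒜.P (𝒜.f i a) = projR (fderiv ℝ (𝒜.f i) a) := by
  have h : ∃ p : ℕ × E m, p.2 ∈ 𝒜.A p.1 ∧ 𝒜.f p.1 p.2 = 𝒜.f i a := ⟨(i, a), ha, rfl⟩
  unfold Atlas.P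
  rw [dif_pos h]
  obtain ⟨h1, h2⟩ := 𝒜.eq_of_apply_eq h.choose_spec.1 ha h.choose_spec.2
  rw [h1, h2]

theorem Atlas.P_apply_of_notMem (𝒜 : Atlas m n M) {x : E (m + n)}
    (hx : x ∉ ⋃ i, 𝒜.f i '' 𝒜.A i) : 𝒜.P x = stdProj m n := by
  unfold Atlas.P
  rw [dif_neg]
  rintro ⟨p, hp, rfl⟩
  exact hx (mem_iUnion.2 ⟨p.1, p.2, hp, rfl⟩)

theorem Atlas.P_proj_aux (𝒜 : Atlas m n M) (x : E (m + n)) : IsProj m (𝒜.P x) := by
  by_cases hx : x ∈ ⋃ i, 𝒜.f i '' 𝒜.A i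
  · obtain ⟨i, a, ha, rfl⟩ := mem_iUnion.1 hx
    rw [𝒜.P_apply_aux ha]
    exact projR_isProj _ (𝒜.inj_fderiv i a ha)
  · rw [𝒜.P_apply_of_notMem hx]
    exact stdProj_isProj m n

theorem Atlas.P_meas_aux (𝒜 : Atlas m n M) : Measurable 𝒜.P := by
  intro T hT
  have hq : ∀ i, Measurable fun a => projR (fderiv ℝ (𝒜.f i) a) := fun i =>
    measurable_projR.comp (measurable_fderiv ℝ (𝒜.f i))
  have hU : MeasurableSet (⋃ i, 𝒜.f i '' 𝒜.A i) :=
    MeasurableSet.iUnion fun i => 𝒜.measurableSet_image i (𝒜.A_meas i) subset_rfl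
  have heq : 𝒜.P ⁻¹' T =
      (⋃ i, 𝒜.f i '' (𝒜.A i ∩ (fun a => projR (fderiv ℝ (𝒜.f i) a)) ⁻¹' T)) ∪
        ((⋃ i, 𝒜.f i '' 𝒜.A i)ᶜ ∩ {_x | stdProj m n ∈ T}) := by
    ext x
    by_cases hx : x ∈ ⋃ i, 𝒜.f i '' 𝒜.A i
    · obtain ⟨i, a, ha, rfl⟩ := mem_iUnion.1 hx
      constructor
      · intro h
        refine Or.inl (mem_iUnion.2 ⟨i, a, ⟨ha, ?_⟩, rfl⟩)
        rw [mem_preimage, 𝒜.P_apply_aux ha] at h
        exact h
      · rintro (h | h)
        · obtain ⟨j, b, ⟨hb, hbT⟩, hba⟩ := mem_iUnion.1 h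
          obtain ⟨h1, h2⟩ := 𝒜.eq_of_apply_eq hb ha hba
          subst h1
          subst h2
          rw [mem_preimage, 𝒜.P_apply_aux ha]
          exact hbT
        · exact absurd hx h.1
    · constructor
      · intro h
        rw [mem_preimage, 𝒜.P_apply_of_notMem hx] at h
        exact Or.inr ⟨hx, h⟩
      · rintro (h | h)
        · obtain ⟨j, b, ⟨hb, -⟩, hba⟩ := mem_iUnion.1 h
          exact absurd (mem_iUnion.2 ⟨j, ⟨b, hb, hba⟩⟩ : x ∈ ⋃ i, 𝒜.f i '' 𝒜.A i) hx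
        · rw [mem_preimage, 𝒜.P_apply_of_notMem hx]
          exact h.2
  rw [heq]
  refine MeasurableSet.union (MeasurableSet.iUnion fun i => ?_)
    (hU.compl.inter (MeasurableSet.const _))
  exact 𝒜.measurableSet_image i ((𝒜.A_meas i).inter (hq i hT)) inter_subset_left

end Claimed.Agent.R322.Base.Area
end

/- ===== packed: Claimed.Agent.R322.Base.Area.Main ===== -/
section
/-!
# Row 322, Base/Area: the interface

For a Borel, countably `m`-rectifiable set `M ⊆ E (m+n)`: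

* `exists_atlas`     : `M` has an atlas (hypothesis = the unfolded frozen `IsCountablyRectifiable`);
* `Atlas.P_apply`, `Atlas.P_proj`, `Atlas.P_meas` : the tangent field;
* `Atlas.fib_meas`, `Atlas.area` : the fields `fib_meas`, `area` of `SIV` (no hypothesis `O ⊆ U`).
-/

set_option autoImplicit false

open scoped ENNReal NNReal Topology Function
open MeasureTheory Set

namespace Claimed.Agent.R322.Base.Area

variable {m n : ℕ} {M : Set (E (m + n))}

/-- **Existence of an atlas.**  The hypothesis `hrect` is the body of the frozen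
`IsCountablyRectifiable m M`. -/
theorem exists_atlas (hM : MeasurableSet M)
    (hrect : ∃ Z : Set (E (m + n)), μH[(m : ℝ)] Z = 0 ∧
      ∃ f : ℕ → E m → E (m + n), (∀ i, ∃ L, LipschitzWith L (f i)) ∧ M ⊆ Z ∪ ⋃ i, Set.range (f i)) :
    Nonempty (Atlas m n M) :=
  exists_atlas_aux hM hrect

/-- value of the tangent field on the pieces of the atlas. -/
theorem Atlas.P_apply (𝒜 : Atlas m n M) {i : ℕ} {a : E m} (ha : a ∈ 𝒜.A i) :
    𝒜.P (𝒜.f i a) = projR (fderiv ℝ (𝒜.f i) a) :=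
  𝒜.P_apply_aux ha

theorem Atlas.P_proj (𝒜 : Atlas m n M) (x : E (m + n)) : IsProj m (𝒜.P x) :=
  𝒜.P_proj_aux x

theorem Atlas.P_meas (𝒜 : Atlas m n M) : Measurable 𝒜.P :=
  𝒜.P_meas_aux

/-- a `C¹` map on an open set maps `μH[d]`-null sets to `μH[d]`-null sets. -/
theorem image_null_of_contDiffOn {N k : ℕ} {d : ℝ} (hd : 0 ≤ d) {O R : Set (E N)} {g : E N → E k}
    (hO : IsOpen O) (hg : ContDiffOn ℝ 1 g O) (hRO : R ⊆ O) (hR : μH[d] R = 0) :
    μH[d] (g '' R) = 0 := by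
  have h1 : ∀ x ∈ O, ∃ K : ℝ≥0, ∃ t ∈ 𝓝 x, LipschitzOnWith K g t := fun x hx =>
    (hg.contDiffAt (hO.mem_nhds hx)).exists_lipschitzOnWith
  classical
  choose! K t ht hK using h1
  obtain ⟨c, hcO, hc, hcov⟩ := TopologicalSpace.countable_cover_nhdsWithin
    (f := t) (s := O) fun x hx => mem_nhdsWithin_of_mem_nhds (ht x hx)
  have hsub : g '' R ⊆ ⋃ x ∈ c, g '' (R ∩ t x) := by
    rintro _ ⟨z, hz, rfl⟩
    obtain ⟨x, hx⟩ := mem_iUnion.1 (hcov (hRO hz))
    obtain ⟨hxc, hzx⟩ := mem_iUnion.1 hx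
    exact mem_iUnion.2 ⟨x, mem_iUnion.2 ⟨hxc, z, ⟨hz, hzx⟩, rfl⟩⟩
  refine measure_mono_null hsub ((measure_biUnion_null_iff hc).2 fun x hx => ?_)
  have h2 := ((hK x (hcO hx)).mono (inter_subset_right (s := R))).hausdorffMeasure_image_le hd
  rw [measure_mono_null inter_subset_left hR, mul_zero] at h2
  exact le_antisymm h2 zero_le

section formula

variable (𝒜 : Atlas m n M) (θ : E (m + n) → ℕ) {k : ℕ} (O : Set (E (m + n)))
  (g : E (m + n) → E k) (φ : E (m + n) → ℝ≥0∞)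

/-- the part of the `i`-th parameter domain which is mapped into `O`. -/
def Atlas.dom (i : ℕ) : Set (E m) := 𝒜.A i ∩ 𝒜.f i ⁻¹' O

theorem Atlas.dom_meas (hO : IsOpen O) (i : ℕ) : MeasurableSet (𝒜.dom O i) :=
  (𝒜.A_meas i).inter ((𝒜.continuous_f i).measurable hO.measurableSet)

theorem Atlas.image_dom (i : ℕ) : 𝒜.f i '' 𝒜.dom O i = 𝒜.f i '' 𝒜.A i ∩ O :=
  image_inter_preimage _ _ _

theorem Atlas.image_dom_meas (hO : IsOpen O) (i : ℕ) : MeasurableSet (𝒜.f i '' 𝒜.dom O i) :=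
  𝒜.measurableSet_image i (𝒜.dom_meas O hO i) inter_subset_left

theorem Atlas.image_dom_disj : Pairwise (Disjoint on fun i => 𝒜.f i '' 𝒜.dom O i) :=
  fun _ _ hij => (𝒜.disj hij).mono (image_mono inter_subset_left) (image_mono inter_subset_left)

theorem Atlas.iUnion_image_dom_subset : ⋃ i, 𝒜.f i '' 𝒜.dom O i ⊆ M ∩ O := by
  refine iUnion_subset fun i => ?_
  rw [𝒜.image_dom]
  exact inter_subset_inter_left _ (𝒜.sub i)

theorem Atlas.rest_subset :
    (M ∩ O) \ ⋃ i, 𝒜.f i '' 𝒜.dom O i ⊆ (M \ ⋃ i, 𝒜.f i '' 𝒜.A i) ∩ O := by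
  intro x hx
  refine ⟨⟨hx.1.1, fun h => hx.2 ?_⟩, hx.1.2⟩
  obtain ⟨i, hi⟩ := mem_iUnion.1 h
  refine mem_iUnion.2 ⟨i, ?_⟩
  rw [𝒜.image_dom]
  exact ⟨hi, hx.1.2⟩

theorem Atlas.rest_null : μH[(m : ℝ)] ((M ∩ O) \ ⋃ i, 𝒜.f i '' 𝒜.dom O i) = 0 :=
  measure_mono_null ((𝒜.rest_subset O).trans inter_subset_left) 𝒜.null

/-- derivative of `g ∘ f i`. -/
theorem Atlas.hasFDeriv_comp (hO : IsOpen O) (hg : ContDiffOn ℝ 1 g O) (i : ℕ) :
    ∀ a ∈ 𝒜.dom O i, HasFDerivWithinAt (g ∘ 𝒜.f i)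
      (fderiv ℝ g (𝒜.f i a) ∘L fderiv ℝ (𝒜.f i) a) (𝒜.dom O i) a := by
  intro a ha
  have h1 : DifferentiableAt ℝ g (𝒜.f i a) :=
    (hg.differentiableOn one_ne_zero).differentiableAt (hO.mem_nhds ha.2)
  exact (h1.hasFDerivAt.comp a (𝒜.diff i a ha.1).hasFDerivAt).hasFDerivWithinAt

/-- the fibre sum over `M ∩ O` is a.e. the sum of the fibre sums over the charts. -/
theorem Atlas.fibSum_ae_eq (hO : IsOpen O) (hg : ContDiffOn ℝ 1 g O) (w : E (m + n) → ℝ≥0∞) :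
    fibSum (M ∩ O) g w =ᵐ[μH[(m : ℝ)]]
      fun y => ∑' i, fibSum (𝒜.dom O i) (g ∘ 𝒜.f i) (w ∘ 𝒜.f i) y := by
  have h0 : μH[(m : ℝ)] (g '' ((M ∩ O) \ ⋃ i, 𝒜.f i '' 𝒜.dom O i)) = 0 :=
    image_null_of_contDiffOn (Nat.cast_nonneg m) hO hg
      ((𝒜.rest_subset O).trans inter_subset_right) (𝒜.rest_null O)
  have : ∀ᵐ y ∂(μH[(m : ℝ)] : Measure (E k)),
      y ∉ g '' ((M ∩ O) \ ⋃ i, 𝒜.f i '' 𝒜.dom O i) := by
    rw [ae_iff]; simp only [not_not]; exact h0
  filter_upwards [this] with y hy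
  rw [fibSum_eq_of_notMem_image (𝒜.iUnion_image_dom_subset O) g w hy,
    fibSum_iUnion _ (𝒜.image_dom_disj O)]
  exact tsum_congr fun i => fibSum_image _ _ ((𝒜.injOn i).mono inter_subset_left) _ _ _

end formula

theorem measurable_weight (θ : E (m + n) → ℕ) (hθ : Measurable θ) (φ : E (m + n) → ℝ≥0∞)
    (hφ : Measurable φ) : Measurable fun x => (θ x : ℝ≥0∞) * φ x :=
  ((measurable_of_countable fun j : ℕ => (j : ℝ≥0∞)).comp hθ).mul hφ

/-- a.e.-measurability of the fibre sums (field `fib_meas` of `SIV`). -/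
theorem Atlas.fib_meas (𝒜 : Atlas m n M) (θ : E (m + n) → ℕ) (hθ : Measurable θ)
    (k : ℕ) (O : Set (E (m + n))) (g : E (m + n) → E k) (φ : E (m + n) → ℝ≥0∞)
    (hO : IsOpen O) (hg : ContDiffOn ℝ 1 g O) (hφ : Measurable φ) :
    AEMeasurable (fun y : E k => ∑' x : {x // x ∈ M ∩ O ∧ g x = y}, (θ x : ℝ≥0∞) * φ x)
      (μH[(m : ℝ)]) := by
  have hw := measurable_weight θ hθ φ hφ
  refine AEMeasurable.congr ?_ (𝒜.fibSum_ae_eq O g hO hg fun x => (θ x : ℝ≥0∞) * φ x).symm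
  exact AEMeasurable.tsum fun i =>
    aemeasurable_fibSum (𝒜.dom_meas O hO i) (𝒜.hasFDeriv_comp O g hO hg i) _
      (hw.comp (𝒜.continuous_f i).measurable)

/-- **the area formula** (field `area` of `SIV`). -/
theorem Atlas.area (𝒜 : Atlas m n M) (hM : MeasurableSet M) (θ : E (m + n) → ℕ)
    (hθ : Measurable θ)
    (k : ℕ) (O : Set (E (m + n))) (g : E (m + n) → E k) (φ : E (m + n) → ℝ≥0∞)
    (hO : IsOpen O) (hg : ContDiffOn ℝ 1 g O) (hφ : Measurable φ) :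
    ∫⁻ y : E k, ∑' x : {x // x ∈ M ∩ O ∧ g x = y}, (θ x : ℝ≥0∞) * φ x ∂μH[(m : ℝ)]
      = ∫⁻ x in O, φ x * ENNReal.ofReal (tanJac (𝒜.P x) (fderiv ℝ g x)) ∂(wt m M θ) := by
  have hw := measurable_weight θ hθ φ hφ
  have hθ' : Measurable fun x => (θ x : ℝ≥0∞) :=
    (measurable_of_countable fun j : ℕ => (j : ℝ≥0∞)).comp hθ
  set w : E (m + n) → ℝ≥0∞ := fun x => (θ x : ℝ≥0∞) * φ x with hwdef
  -- left side
  have hL : ∫⁻ y : E k, fibSum (M ∩ O) g w y ∂μH[(m : ℝ)] =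
      ∑' i, ∫⁻ a in 𝒜.dom O i,
        ENNReal.ofReal (nd (fderiv ℝ g (𝒜.f i a) ∘L fderiv ℝ (𝒜.f i) a)) * w (𝒜.f i a)
          ∂μH[(m : ℝ)] := by
    rw [lintegral_congr_ae (𝒜.fibSum_ae_eq O g hO hg w), lintegral_tsum]
    · exact tsum_congr fun i => lintegral_fibSum (𝒜.dom_meas O hO i)
        (𝒜.hasFDeriv_comp O g hO hg i) _ (hw.comp (𝒜.continuous_f i).measurable)
    · exact fun i => aemeasurable_fibSum (𝒜.dom_meas O hO i) (𝒜.hasFDeriv_comp O g hO hg i) _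
        (hw.comp (𝒜.continuous_f i).measurable)
  -- right side
  set G : E (m + n) → ℝ≥0∞ :=
    fun x => (θ x : ℝ≥0∞) * (φ x * ENNReal.ofReal (tanJac (𝒜.P x) (fderiv ℝ g x))) with hG
  have hR1 : ∫⁻ x in O, φ x * ENNReal.ofReal (tanJac (𝒜.P x) (fderiv ℝ g x)) ∂(wt m M θ) =
      ∫⁻ x in M ∩ O, G x ∂μH[(m : ℝ)] := by
    unfold wt
    rw [restrict_withDensity hO.measurableSet, Measure.restrict_restrict hO.measurableSet,
      inter_comm O M,
      lintegral_withDensity_eq_lintegral_mul_non_measurable _ hθ'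
        (Filter.Eventually.of_forall fun x => ENNReal.natCast_lt_top _)]
    rfl
  have hU : MeasurableSet (⋃ i, 𝒜.f i '' 𝒜.dom O i) :=
    MeasurableSet.iUnion fun i => 𝒜.image_dom_meas O hO i
  have hR2 : ∫⁻ x in M ∩ O, G x ∂μH[(m : ℝ)] =
      ∑' i, ∫⁻ x in 𝒜.f i '' 𝒜.dom O i, G x ∂μH[(m : ℝ)] := by
    have hsplit : M ∩ O = (⋃ i, 𝒜.f i '' 𝒜.dom O i) ∪ ((M ∩ O) \ ⋃ i, 𝒜.f i '' 𝒜.dom O i) := by
      rw [union_sdiff_cancel (𝒜.iUnion_image_dom_subset O)]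
    conv_lhs => rw [hsplit]
    rw [lintegral_union ((hM.inter hO.measurableSet).diff hU) disjoint_sdiff_right,
      setLIntegral_measure_zero _ _ (𝒜.rest_null O), add_zero,
      lintegral_iUnion (fun i => 𝒜.image_dom_meas O hO i) (𝒜.image_dom_disj O)]
  change ∫⁻ y : E k, fibSum (M ∩ O) g w y ∂μH[(m : ℝ)] = _
  rw [hL, hR1, hR2]
  refine tsum_congr fun i => ?_
  rw [lintegral_image_eq_lintegral_nd_mul (𝒜.dom_meas O hO i) (f' := fderiv ℝ (𝒜.f i))
    (fun a ha => (𝒜.diff i a ha.1).hasFDerivAt.hasFDerivWithinAt)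
    ((𝒜.injOn i).mono inter_subset_left)]
  refine setLIntegral_congr_fun (𝒜.dom_meas O hO i) fun a ha => ?_
  simp only [hG, hwdef]
  rw [𝒜.P_apply ha.1, nd_comp_eq_tanJac _ (𝒜.inj_fderiv i a ha.1),
    ENNReal.ofReal_mul (show 0 ≤ tanJac _ _ from Real.sqrt_nonneg _)]
  ring

end Claimed.Agent.R322.Base.Area
end

/- ===== packed: Claimed.Agent.R322.Haus.Level ===== -/
section
/-!
# Haus (a), leaves F3, F4: the finite level measures of Frostman's lemma
-/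

set_option autoImplicit false

open scoped ENNReal NNReal
open MeasureTheory Filter Topology

namespace Claimed.Agent.R322.Haus

/-- value of a finite sum of point masses on a measurable set -/
theorem lvl_sum_dirac_apply {X P : Type*} [MeasurableSpace X] [Fintype P] (w : P → ℝ) (pt : P → X)
    {A : Set X} (hA : MeasurableSet A) [DecidablePred fun p => pt p ∈ A] :
    (∑ p, ENNReal.ofReal (w p) • Measure.dirac (pt p)) A
      = ∑ p with pt p ∈ A, ENNReal.ofReal (w p) := by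
  rw [Measure.finsetSum_apply, Finset.sum_filter]
  refine Finset.sum_congr rfl fun p _ => ?_
  rw [Measure.smul_apply, Measure.dirac_apply' _ hA, smul_eq_mul]
  by_cases hp : pt p ∈ A
  · simp [hp]
  · simp [hp]

/-- **F3.**  The level `n` measure: a finite sum of point masses at points of `K`, with mass `≤ 2^{-ks}` on every cell
of level `k ∈ [k₀, n]`, and total mass bounded below by the content.

[`P := (finite_cell_image n _).toFinset` (cells of level `n` meeting `K`), `pt : P → K` with `cell n (pt a) = a`.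
`ι :=` the finite set of pairs `(k, a)`, `k ∈ Finset.Icc k₀ n`, `a ∈ cell k '' K`; `mem p (k, a) := cell k (pt p) = a`;
`cap (k, a) := ((1/2)^k)^s`.  `exists_saturated_weights` gives `w`.  `ν := ∑ p, ofReal (w p) • dirac (pt p)`.
Capacity: `ν {cell k = a} = ∑_{p : cell k (pt p) = a} w p`.
Lower bound: `κ p :=` the least `k ∈ [k₀, n]` such that the cell `(k, cell k (pt p))` is saturated; `τ p := (κ p, cell (κ p) (pt p))`;
`T := image τ`.  If `cell (κ q) (pt p) = cell (κ q) (pt q)` then `κ p = κ q` (`cell_eq_of_le` and minimality, both directions),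
so `{p | τ p = τ q} = {p | mem p (τ q)}` and `∑ p, w p = ∑_{(k,a) ∈ T} ((1/2)^k)^s` (`Finset.sum_fiberwise_of_maps_to`).
The cells of `T` cover `K` (for `y ∈ K` take `p = cell n y`), have `ediam ≤ N (1/2)^k ≤ N (1/2)^k₀`; apply `hb` and
`(N (1/2)^k)^s = N^s ((1/2)^k)^s`.] -/
theorem exists_level_measure {N : ℕ} (K : Set (E N)) (hK : IsCompact K) (s : ℝ) (hs : 0 ≤ s)
    (k₀ : ℕ) (b : ℝ)
    (hb : ∀ (ι : Type) (F : Finset ι) (T : ι → Set (E N)),
      (∀ i ∈ F, Metric.ediam (T i) ≤ ENNReal.ofReal (N * (1 / 2 : ℝ) ^ k₀)) → K ⊆ ⋃ i ∈ F, T i →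
      ENNReal.ofReal b ≤ ∑ i ∈ F, Metric.ediam (T i) ^ s)
    (n : ℕ) (hn : k₀ ≤ n) :
    ∃ ν : Measure (E N), IsFiniteMeasure ν ∧ ν Kᶜ = 0 ∧
      (∀ k, k₀ ≤ k → k ≤ n → ∀ a : Fin N → ℤ,
        ν {y | cell k y = a} ≤ ENNReal.ofReal (((1 / 2 : ℝ) ^ k) ^ s)) ∧
      ENNReal.ofReal b ≤ ENNReal.ofReal ((N : ℝ) ^ s) * ν Set.univ := by
  classical
  set PF : Finset (Fin N → ℤ) := (finite_cell_image n hK.isBounded).toFinset with hPF
  have hPmem : ∀ p : ↥PF, ∃ x ∈ K, cell n x = p.1 := by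
    intro p
    have h : p.1 ∈ cell n '' K := (Set.Finite.mem_toFinset (finite_cell_image n hK.isBounded)).1 p.2
    exact h
  choose pt hptK hpt using hPmem
  -- the weights
  obtain ⟨w, hw0, hwcap, hwsat⟩ := exists_saturated_weights
    (P := ↥PF) (ι := ↥(Finset.Icc k₀ n) × ↥PF)
    (fun q c => cell c.1.1 (pt q) = cell c.1.1 (pt c.2))
    (fun c => ((1 / 2 : ℝ) ^ c.1.1) ^ s)
    (fun c => Real.rpow_nonneg (by positivity) s)
    (fun p => ⟨(⟨n, Finset.mem_Icc.2 ⟨hn, le_rfl⟩⟩, p), rfl⟩)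
  have hcap' : ∀ k, k₀ ≤ k → k ≤ n → ∀ p : ↥PF,
      ∑ q with cell k (pt q) = cell k (pt p), w q ≤ ((1 / 2 : ℝ) ^ k) ^ s := fun k h1 h2 p =>
    hwcap (⟨k, Finset.mem_Icc.2 ⟨h1, h2⟩⟩, p)
  have hsat' : ∀ p : ↥PF, ∃ k, k₀ ≤ k ∧ k ≤ n ∧
      ∑ q with cell k (pt q) = cell k (pt p), w q = ((1 / 2 : ℝ) ^ k) ^ s := by
    intro p
    obtain ⟨c, hc1, hc2⟩ := hwsat p
    have hk := Finset.mem_Icc.1 c.1.2
    refine ⟨c.1.1, hk.1, hk.2, ?_⟩
    rw [hc1]
    exact hc2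
  set ν : Measure (E N) := ∑ p, ENNReal.ofReal (w p) • Measure.dirac (pt p) with hν
  have hνuniv : ν Set.univ = ∑ p, ENNReal.ofReal (w p) := by
    rw [hν, lvl_sum_dirac_apply w pt MeasurableSet.univ]
    simp
  refine ⟨ν, ⟨?_⟩, ?_, ?_, ?_⟩
  · rw [hνuniv]
    exact ENNReal.sum_lt_top.2 fun p _ => ENNReal.ofReal_lt_top
  · rw [hν, lvl_sum_dirac_apply w pt hK.isClosed.measurableSet.compl]
    refine Finset.sum_eq_zero fun p hp => ?_
    exact absurd (hptK p) (Finset.mem_filter.1 hp).2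
  · intro k h1 h2 a
    rw [hν, lvl_sum_dirac_apply w pt (measurableSet_cell k a)]
    simp only [Set.mem_ofPred_eq]
    by_cases hex : ∃ p₀ : ↥PF, cell k (pt p₀) = a
    · obtain ⟨p₀, rfl⟩ := hex
      rw [← ENNReal.ofReal_sum_of_nonneg fun q _ => hw0 q]
      exact ENNReal.ofReal_le_ofReal (hcap' k h1 h2 p₀)
    · push Not at hex
      rw [Finset.filter_false_of_mem fun p _ => hex p]
      simp
  · -- lower bound
    set κ : ↥PF → ℕ := fun p => Nat.find (hsat' p) with hκ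
    have hκspec : ∀ p, k₀ ≤ κ p ∧ κ p ≤ n ∧
        ∑ q with cell (κ p) (pt q) = cell (κ p) (pt p), w q = ((1 / 2 : ℝ) ^ (κ p)) ^ s :=
      fun p => Nat.find_spec (hsat' p)
    have hκmin : ∀ p k, k₀ ≤ k → k ≤ n →
        ∑ q with cell k (pt q) = cell k (pt p), w q = ((1 / 2 : ℝ) ^ k) ^ s → κ p ≤ k :=
      fun p k h1 h2 h3 => Nat.find_min' (hsat' p) ⟨h1, h2, h3⟩
    have hκeq : ∀ p q, cell (κ q) (pt p) = cell (κ q) (pt q) → κ p = κ q := by
      intro p q hpq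
      have h1 : κ p ≤ κ q := by
        refine hκmin p (κ q) (hκspec q).1 (hκspec q).2.1 ?_
        rw [hpq]
        exact (hκspec q).2.2
      have h2 : cell (κ p) (pt p) = cell (κ p) (pt q) := cell_eq_of_le h1 hpq
      have h3 : κ q ≤ κ p := by
        refine hκmin q (κ p) (hκspec p).1 (hκspec p).2.1 ?_
        rw [← h2]
        exact (hκspec p).2.2
      exact le_antisymm h1 h3
    set τ : ↥PF → ℕ × (Fin N → ℤ) := fun p => (κ p, cell (κ p) (pt p)) with hτ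
    have hkey : ∑ t ∈ Finset.univ.image τ, ENNReal.ofReal (((1 / 2 : ℝ) ^ t.1) ^ s)
        = ∑ p, ENNReal.ofReal (w p) := by
      refine Finset.sum_image' (fun p => ENNReal.ofReal (w p)) fun q _ => ?_
      have hset : (Finset.univ.filter fun p => τ p = τ q)
          = Finset.univ.filter fun p => cell (κ q) (pt p) = cell (κ q) (pt q) := by
        ext p
        simp only [Finset.mem_filter, Finset.mem_univ, true_and, hτ, Prod.mk.injEq]
        constructor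
        · rintro ⟨h1, h2⟩
          rw [h1] at h2
          exact h2
        · intro h
          have h1 := hκeq p q h
          exact ⟨h1, by rw [h1]; exact h⟩
      rw [hset, ← ENNReal.ofReal_sum_of_nonneg fun q _ => hw0 q, (hκspec q).2.2]
    have hhalf : ∀ k, k₀ ≤ k → (1 / 2 : ℝ) ^ k ≤ (1 / 2 : ℝ) ^ k₀ := fun k hk =>
      pow_le_pow_of_le_one (by norm_num) (by norm_num) hk
    have hmemT : ∀ t ∈ Finset.univ.image τ, k₀ ≤ t.1 := by
      intro t ht
      obtain ⟨p, _, rfl⟩ := Finset.mem_image.1 ht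
      exact (hκspec p).1
    have h1 := hb (ℕ × (Fin N → ℤ)) (Finset.univ.image τ) (fun t => {y | cell t.1 y = t.2})
      (fun t ht => (ediam_cell_le t.1 t.2).trans (ENNReal.ofReal_le_ofReal
        (mul_le_mul_of_nonneg_left (hhalf t.1 (hmemT t ht)) (Nat.cast_nonneg N))))
      (by
        intro y hy
        have hyP : cell n y ∈ PF := by
          rw [hPF, Set.Finite.mem_toFinset]
          exact ⟨y, hy, rfl⟩
        refine Set.mem_iUnion₂.2 ⟨τ ⟨cell n y, hyP⟩, Finset.mem_image_of_mem _ (Finset.mem_univ _), ?_⟩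
        simp only [hτ, Set.mem_ofPred_eq]
        exact cell_eq_of_le (hκspec _).2.1 (hpt ⟨cell n y, hyP⟩).symm)
    refine h1.trans ?_
    rw [hνuniv, ← hkey, Finset.mul_sum]
    refine Finset.sum_le_sum fun t _ => ?_
    calc Metric.ediam {y : E N | cell t.1 y = t.2} ^ s
        ≤ (ENNReal.ofReal (N * (1 / 2 : ℝ) ^ t.1)) ^ s :=
          ENNReal.rpow_le_rpow (ediam_cell_le t.1 t.2) hs
      _ = ENNReal.ofReal ((N : ℝ) ^ s) * ENNReal.ofReal (((1 / 2 : ℝ) ^ t.1) ^ s) := by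
          rw [ENNReal.ofReal_rpow_of_nonneg (by positivity) hs,
            Real.mul_rpow (Nat.cast_nonneg N) (by positivity),
            ENNReal.ofReal_mul (Real.rpow_nonneg (Nat.cast_nonneg N) s)]

/-- **F4.**  Ball bound at the scales seen by the level measure.
[`k :=` the integer with `(1/2)^(k+1) < u ≤ (1/2)^k` (`exists_nat_pow_near_of_lt_one`); `k₀ ≤ k ≤ n - 1`;
`exists_cells_ball`: `ν (ball x u) ≤ 3^N ((1/2)^k)^s ≤ 3^N 2^s u^s`.] -/
theorem level_ball_le {N : ℕ} (ν : Measure (E N)) (s : ℝ) (hs : 0 ≤ s) (k₀ n : ℕ)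
    (hcap : ∀ k, k₀ ≤ k → k ≤ n → ∀ a : Fin N → ℤ,
      ν {y | cell k y = a} ≤ ENNReal.ofReal (((1 / 2 : ℝ) ^ k) ^ s))
    (x : E N) (u : ℝ) (hu1 : (1 / 2 : ℝ) ^ n ≤ u) (hu2 : u ≤ (1 / 2 : ℝ) ^ k₀) :
    ν (Metric.ball x u) ≤ ENNReal.ofReal ((3 : ℝ) ^ N * 2 ^ s * u ^ s) := by
  classical
  have hu0 : 0 < u := lt_of_lt_of_le (by positivity) hu1
  have hk₀n : k₀ ≤ n := by
    by_contra hcon
    push Not at hcon
    have : (1 / 2 : ℝ) ^ k₀ < (1 / 2 : ℝ) ^ n :=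
      pow_lt_pow_right_of_lt_one₀ (by norm_num) (by norm_num) hcon
    linarith
  set k : ℕ := Nat.findGreatest (fun k => u ≤ (1 / 2 : ℝ) ^ k) n with hk
  have hk1 : u ≤ (1 / 2 : ℝ) ^ k :=
    Nat.findGreatest_spec (P := fun k => u ≤ (1 / 2 : ℝ) ^ k) hk₀n hu2
  have hk2 : k₀ ≤ k := Nat.le_findGreatest hk₀n hu2
  have hk3 : k ≤ n := Nat.findGreatest_le n
  have hk4 : (1 / 2 : ℝ) ^ k ≤ 2 * u := by
    rcases hk3.eq_or_lt with heq | hlt
    · rw [heq]; linarith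
    · have h5 : ¬ u ≤ (1 / 2 : ℝ) ^ (k + 1) :=
        Nat.findGreatest_is_greatest (P := fun k => u ≤ (1 / 2 : ℝ) ^ k) (Nat.lt_succ_self k) hlt
      push Not at h5
      rw [pow_succ] at h5
      linarith
  obtain ⟨F, hF1, hF2⟩ := exists_cells_ball k x hk1
  have hsub : Metric.ball x u ⊆ ⋃ a ∈ F, {y : E N | cell k y = a} := fun y hy =>
    Set.mem_iUnion₂.2 ⟨cell k y, hF2 y hy, rfl⟩
  calc ν (Metric.ball x u) ≤ ν (⋃ a ∈ F, {y : E N | cell k y = a}) := measure_mono hsub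
    _ ≤ ∑ a ∈ F, ν {y : E N | cell k y = a} := measure_biUnion_finset_le _ _
    _ ≤ ∑ _a ∈ F, ENNReal.ofReal (((1 / 2 : ℝ) ^ k) ^ s) :=
        Finset.sum_le_sum fun a _ => hcap k hk2 hk3 a
    _ = (F.card : ℝ≥0∞) * ENNReal.ofReal (((1 / 2 : ℝ) ^ k) ^ s) := by
        rw [Finset.sum_const, nsmul_eq_mul]
    _ = ENNReal.ofReal ((F.card : ℝ) * ((1 / 2 : ℝ) ^ k) ^ s) := by
        rw [ENNReal.ofReal_mul (Nat.cast_nonneg _), ENNReal.ofReal_natCast]
    _ ≤ ENNReal.ofReal ((3 : ℝ) ^ N * 2 ^ s * u ^ s) := by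
        refine ENNReal.ofReal_le_ofReal ?_
        have h6 : ((1 / 2 : ℝ) ^ k) ^ s ≤ 2 ^ s * u ^ s := by
          rw [← Real.mul_rpow (by norm_num) hu0.le]
          exact Real.rpow_le_rpow (by positivity) hk4 hs
        have h7 : (F.card : ℝ) ≤ (3 : ℝ) ^ N := by exact_mod_cast hF1
        calc (F.card : ℝ) * ((1 / 2 : ℝ) ^ k) ^ s ≤ (3 : ℝ) ^ N * (2 ^ s * u ^ s) :=
              mul_le_mul h7 h6 (Real.rpow_nonneg (by positivity) s) (by positivity)
          _ = (3 : ℝ) ^ N * 2 ^ s * u ^ s := by ring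

end Claimed.Agent.R322.Haus
end

/- ===== packed: Claimed.Agent.R322.Haus.Weak ===== -/
section
/-!
# Haus (e): weak limits of measures carried by a fixed compact set
-/

set_option autoImplicit false

open scoped ENNReal NNReal
open MeasureTheory Filter Topology

namespace Claimed.Agent.R322.Haus

/-- the conclusion of the weak compactness theorems: `σ ∘ φ` converges weakly to `τ` -/
structure WLim {N : ℕ} (σ : ℕ → Measure (E N)) (τ : Measure (E N)) : Prop where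
  integral : ∀ g : E N → ℝ, Continuous g →
    Tendsto (fun j => ∫ x, g x ∂σ j) atTop (𝓝 (∫ x, g x ∂τ))
  le_liminf : ∀ G : Set (E N), IsOpen G → τ G ≤ liminf (fun j => σ j G) atTop
  limsup_le : ∀ F : Set (E N), IsClosed F → limsup (fun j => σ j F) atTop ≤ τ F

/-- truncation of a continuous function which does not change it on a compact set -/
theorem wk_exists_trunc {N : ℕ} (K : Set (E N)) (hK : IsCompact K) (g : E N → ℝ)
    (hg : Continuous g) : ∃ f : BoundedContinuousFunction (E N) ℝ, ∀ x ∈ K, f x = g x := by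
  obtain ⟨M, hM⟩ := hK.exists_bound_of_continuousOn hg.continuousOn
  have hc : Continuous fun x => max (-M) (min M (g x)) :=
    continuous_const.max (continuous_const.min hg)
  by_cases hM0 : 0 ≤ M
  · refine ⟨BoundedContinuousFunction.ofNormedAddCommGroup _ hc M ?_, ?_⟩
    · intro x
      rw [Real.norm_eq_abs, abs_le]
      constructor
      · exact le_max_left _ _
      · exact max_le (by linarith) (min_le_left _ _)
    · intro x hx
      have h1 := hM x hx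
      rw [Real.norm_eq_abs, abs_le] at h1
      simp only [BoundedContinuousFunction.coe_ofNormedAddCommGroup]
      rw [min_eq_right h1.2, max_eq_right h1.1]
  · refine ⟨0, fun x hx => ?_⟩
    exact absurd ((norm_nonneg _).trans (hM x hx)) hM0

theorem wk_integral_congr {N : ℕ} (μ : Measure (E N)) (K : Set (E N)) (hμ : μ Kᶜ = 0)
    (f g : E N → ℝ) (h : ∀ x ∈ K, f x = g x) : ∫ x, f x ∂μ = ∫ x, g x ∂μ := by
  refine integral_congr_ae ?_
  have : ∀ᵐ x ∂μ, x ∈ K := by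
    rw [ae_iff]
    exact hμ
  exact this.mono fun x hx => h x hx

/-- **Weak sequential compactness, probability measures.**
[`P j : ProbabilityMeasure (E N)`.  `{P j}` is tight (`K` compact), `isCompact_closure_of_isTightMeasureSet`;
`ProbabilityMeasure (E N)` is metrizable (Levy-Prokhorov), so `IsCompact.isSeqCompact` gives `φ` and the limit.
`ProbabilityMeasure.tendsto_iff_forall_integral_tendsto` for bounded continuous functions: replace `g` by
its truncation at `± sup_K |g|` (equal to `g` on `K`, which carries all measures).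
`ProbabilityMeasure.le_liminf_measure_open_of_tendsto`, `ProbabilityMeasure.limsup_measure_closed_le_of_tendsto`;
`τ Kᶜ = 0` from the closed set `K`.] -/
theorem exists_weak_limit_prob {N : ℕ} (σ : ℕ → Measure (E N)) (K : Set (E N)) (hK : IsCompact K)
    (hprob : ∀ j, IsProbabilityMeasure (σ j)) (hsupp : ∀ j, σ j Kᶜ = 0) :
    ∃ (φ : ℕ → ℕ) (τ : Measure (E N)), StrictMono φ ∧ IsProbabilityMeasure τ ∧ τ Kᶜ = 0 ∧
      WLim (fun j => σ (φ j)) τ := by
  set P : ℕ → ProbabilityMeasure (E N) := fun j => ⟨σ j, hprob j⟩ with hP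
  have htight : IsTightMeasureSet
      {((μ : ProbabilityMeasure (E N)) : Measure (E N)) | μ ∈ Set.range P} := by
    rw [isTightMeasureSet_iff_exists_isCompact_measure_compl_le]
    intro ε _
    refine ⟨K, hK, ?_⟩
    rintro _ ⟨_, ⟨j, rfl⟩, rfl⟩
    have : ((P j : ProbabilityMeasure (E N)) : Measure (E N)) Kᶜ = 0 := hsupp j
    rw [this]
    exact zero_le
  have hcomp := isCompact_closure_of_isTightMeasureSet htight
  obtain ⟨a, -, φ, hφ, hlim⟩ := hcomp.tendsto_subseq (x := P)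
    (fun n => subset_closure (Set.mem_range_self n))
  have hopen : ∀ G : Set (E N), IsOpen G →
      (a : Measure (E N)) G ≤ liminf (fun j => σ (φ j) G) atTop := fun G hG =>
    ProbabilityMeasure.le_liminf_measure_open_of_tendsto hlim hG
  have haK : (a : Measure (E N)) Kᶜ = 0 := by
    have h1 := hopen Kᶜ hK.isClosed.isOpen_compl
    simp only [hsupp] at h1
    simpa using h1
  refine ⟨φ, (a : Measure (E N)), hφ, inferInstance, haK, ?_, hopen, ?_⟩
  · intro g hg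
    obtain ⟨f, hf⟩ := wk_exists_trunc K hK g hg
    have h1 := (ProbabilityMeasure.tendsto_iff_forall_integral_tendsto.1 hlim) f
    have h2 : ∀ j, ∫ x, f x ∂((P ∘ φ) j : Measure (E N)) = ∫ x, g x ∂σ (φ j) := fun j =>
      wk_integral_congr _ K (hsupp (φ j)) _ _ hf
    simp only [h2] at h1
    rwa [wk_integral_congr _ K haK _ _ hf] at h1
  · intro F hF
    exact ProbabilityMeasure.limsup_measure_closed_le_of_tendsto hlim hF

/-- liminf of a product, one factor converging -/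
theorem wk_mul_le_liminf {c : ℕ → ℝ≥0∞} {c₀ : ℝ≥0∞} (hc : Tendsto c atTop (𝓝 c₀))
    {x : ℕ → ℝ≥0∞} {x₀ : ℝ≥0∞} (hx : x₀ ≤ liminf x atTop) :
    c₀ * x₀ ≤ liminf (fun j => c j * x j) atTop := by
  refine ENNReal.mul_le_of_forall_lt fun c' hc' x' hx' => ?_
  have h1 : ∀ᶠ j in atTop, c' < c j := hc.eventually (lt_mem_nhds hc')
  have h2 : ∀ᶠ j in atTop, x' < x j := eventually_lt_of_lt_liminf (lt_of_lt_of_le hx' hx)
  exact le_liminf_of_le (by isBoundedDefault)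
    ((h1.and h2).mono fun j hj => mul_le_mul' hj.1.le hj.2.le)

/-- limsup of a product, one factor converging to a positive finite limit -/
theorem wk_limsup_mul_le {c : ℕ → ℝ≥0∞} {c₀ : ℝ≥0∞} (hc : Tendsto c atTop (𝓝 c₀))
    (h0 : c₀ ≠ 0) (htop : c₀ ≠ ⊤)
    {x : ℕ → ℝ≥0∞} {x₀ : ℝ≥0∞} (hx : limsup x atTop ≤ x₀) :
    limsup (fun j => c j * x j) atTop ≤ c₀ * x₀ := by
  refine ENNReal.le_mul_of_forall_lt (Or.inl h0) (Or.inl htop) fun c' hc' x' hx' => ?_
  have h1 : ∀ᶠ j in atTop, c j < c' := hc.eventually (gt_mem_nhds hc')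
  have h2 : ∀ᶠ j in atTop, x j < x' := eventually_lt_of_limsup_lt (lt_of_le_of_lt hx hx')
  exact limsup_le_of_le (by isBoundedDefault)
    ((h1.and h2).mono fun j hj => mul_le_mul' hj.1.le hj.2.le)

/-- **Weak sequential compactness, masses in `[c, C]`.**
[normalise: `σ j = m j • π j`; subsequence with `m j → m ∈ [c, C]` (Bolzano-Weierstrass) and `π j → π`
(`exists_weak_limit_prob`); `τ = m • π`.] -/
theorem exists_weak_limit {N : ℕ} (σ : ℕ → Measure (E N)) (K : Set (E N)) (hK : IsCompact K)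
    (c C : ℝ) (hc : 0 < c) (hlow : ∀ j, ENNReal.ofReal c ≤ σ j Set.univ)
    (hup : ∀ j, σ j Set.univ ≤ ENNReal.ofReal C) (hsupp : ∀ j, σ j Kᶜ = 0) :
    ∃ (φ : ℕ → ℕ) (τ : Measure (E N)), StrictMono φ ∧ IsFiniteMeasure τ ∧
      ENNReal.ofReal c ≤ τ Set.univ ∧ τ Set.univ ≤ ENNReal.ofReal C ∧ τ Kᶜ = 0 ∧
      WLim (fun j => σ (φ j)) τ := by
  have htop : ∀ j, σ j Set.univ ≠ ⊤ := fun j => ne_top_of_le_ne_top ENNReal.ofReal_ne_top (hup j)
  have hne0 : ∀ j, σ j Set.univ ≠ 0 := fun j =>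
    (lt_of_lt_of_le (ENNReal.ofReal_pos.2 hc) (hlow j)).ne'
  have hcC : c ≤ C := by
    rcases ENNReal.ofReal_le_ofReal_iff'.1 ((hlow 0).trans (hup 0)) with h | h
    · exact h
    · linarith
  have hmem : ∀ j, (σ j Set.univ).toReal ∈ Set.Icc c C := fun j =>
    ⟨(ENNReal.ofReal_le_iff_le_toReal (htop j)).1 (hlow j),
      ENNReal.toReal_le_of_le_ofReal (hc.le.trans hcC) (hup j)⟩
  obtain ⟨m₀, hm₀, φ₁, hφ₁, hlim₁⟩ := isCompact_Icc.tendsto_subseq hmem
  have hm₀pos : 0 < m₀ := lt_of_lt_of_le hc hm₀.1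
  set π : ℕ → Measure (E N) := fun j => (σ (φ₁ j) Set.univ)⁻¹ • σ (φ₁ j) with hπ
  have hπprob : ∀ j, IsProbabilityMeasure (π j) := fun j => ⟨by
    simp only [hπ, Measure.smul_apply, smul_eq_mul]
    exact ENNReal.inv_mul_cancel (hne0 _) (htop _)⟩
  have hπK : ∀ j, π j Kᶜ = 0 := fun j => by
    simp only [hπ, Measure.smul_apply, smul_eq_mul, hsupp, mul_zero]
  obtain ⟨φ₂, π₀, hφ₂, hπ₀prob, hπ₀K, hW⟩ := exists_weak_limit_prob π K hK hπprob hπK
  have hσeq : ∀ j, σ (φ₁ (φ₂ j)) = σ (φ₁ (φ₂ j)) Set.univ • π (φ₂ j) := by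
    intro j
    simp only [hπ, smul_smul]
    rw [ENNReal.mul_inv_cancel (hne0 _) (htop _), one_smul]
  have hlim₂ : Tendsto (fun j => (σ (φ₁ (φ₂ j)) Set.univ).toReal) atTop (𝓝 m₀) :=
    hlim₁.comp hφ₂.tendsto_atTop
  have hlim₃ : Tendsto (fun j => σ (φ₁ (φ₂ j)) Set.univ) atTop (𝓝 (ENNReal.ofReal m₀)) := by
    have := ENNReal.tendsto_ofReal hlim₂
    simpa only [ENNReal.ofReal_toReal (htop _)] using this
  have huniv : (ENNReal.ofReal m₀ • π₀) Set.univ = ENNReal.ofReal m₀ := by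
    simp
  refine ⟨φ₁ ∘ φ₂, ENNReal.ofReal m₀ • π₀, hφ₁.comp hφ₂, ⟨?_⟩, ?_, ?_, ?_, ?_, ?_, ?_⟩
  · rw [huniv]; exact ENNReal.ofReal_lt_top
  · rw [huniv]; exact ENNReal.ofReal_le_ofReal hm₀.1
  · rw [huniv]; exact ENNReal.ofReal_le_ofReal hm₀.2
  · simp [hπ₀K]
  · intro g hg
    have h1 := hlim₂.mul (hW.integral g hg)
    have h2 : ∀ j, ∫ x, g x ∂σ ((φ₁ ∘ φ₂) j)
        = (σ (φ₁ (φ₂ j)) Set.univ).toReal * ∫ x, g x ∂π (φ₂ j) := by
      intro j
      have : ∫ x, g x ∂σ ((φ₁ ∘ φ₂) j) = ∫ x, g x ∂(σ (φ₁ (φ₂ j)) Set.univ • π (φ₂ j)) := by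
        rw [← hσeq j]; rfl
      rw [this, integral_smul_measure, smul_eq_mul]
    simp only [h2]
    rw [integral_smul_measure, smul_eq_mul, ENNReal.toReal_ofReal hm₀pos.le]
    exact h1
  · intro G hG
    have h1 := wk_mul_le_liminf hlim₃ (hW.le_liminf G hG)
    have h2 : ∀ j, σ ((φ₁ ∘ φ₂) j) G = σ (φ₁ (φ₂ j)) Set.univ * π (φ₂ j) G := by
      intro j
      have : σ ((φ₁ ∘ φ₂) j) G = (σ (φ₁ (φ₂ j)) Set.univ • π (φ₂ j)) G := by
        rw [← hσeq j]; rfl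
      rw [this, Measure.smul_apply, smul_eq_mul]
    simp only [h2, Measure.smul_apply, smul_eq_mul]
    exact h1
  · intro F hF
    have h1 := wk_limsup_mul_le hlim₃ (ENNReal.ofReal_pos.2 hm₀pos).ne' ENNReal.ofReal_ne_top
      (hW.limsup_le F hF)
    have h2 : ∀ j, σ ((φ₁ ∘ φ₂) j) F = σ (φ₁ (φ₂ j)) Set.univ * π (φ₂ j) F := by
      intro j
      have : σ ((φ₁ ∘ φ₂) j) F = (σ (φ₁ (φ₂ j)) Set.univ • π (φ₂ j)) F := by
        rw [← hσeq j]; rfl
      rw [this, Measure.smul_apply, smul_eq_mul]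
    simp only [h2, Measure.smul_apply, smul_eq_mul]
    exact h1

/-- the Frostman condition passes to weak limits (it is enough to have it eventually, for each ball) -/
theorem WLim.isFrost {N : ℕ} {σ : ℕ → Measure (E N)} {τ : Measure (E N)} (h : WLim σ τ) {C t : ℝ}
    (hfr : ∀ (x : E N) (u : ℝ), 0 < u → ∀ᶠ j in atTop,
      σ j (Metric.ball x u) ≤ ENNReal.ofReal (C * u ^ t)) : IsFrost τ C t := by
  intro x u hu
  refine (h.le_liminf _ Metric.isOpen_ball).trans ?_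
  refine (liminf_le_liminf (v := fun _ => ENNReal.ofReal (C * u ^ t)) (hfr x u hu)).trans ?_
  simp

/-- an open set charged by the limit is eventually charged by the sequence -/
theorem WLim.eventually_pos {N : ℕ} {σ : ℕ → Measure (E N)} {τ : Measure (E N)} (h : WLim σ τ)
    {G : Set (E N)} (hG : IsOpen G) (hpos : 0 < τ G) : ∀ᶠ j in atTop, 0 < σ j G :=
  eventually_lt_of_lt_liminf (lt_of_lt_of_le hpos (h.le_liminf G hG))

/-- the closed support of a measure -/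
def spt {N : ℕ} (τ : Measure (E N)) : Set (E N) := {z | ∀ r : ℝ, 0 < r → 0 < τ (Metric.ball z r)}

theorem wk_not_mem_spt {N : ℕ} {τ : Measure (E N)} {z : E N} (hz : z ∉ spt τ) :
    ∃ r : ℝ, 0 < r ∧ τ (Metric.ball z r) = 0 := by
  simp only [spt, Set.mem_ofPred_eq, not_forall] at hz
  obtain ⟨r, hr, h⟩ := hz
  exact ⟨r, hr, by simpa using h⟩

/-- [the complement is open: if `τ (ball z r) = 0` then every `z' ∈ ball z (r/2)` has
`τ (ball z' (r/2)) = 0`] -/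
theorem isClosed_spt {N : ℕ} (τ : Measure (E N)) : IsClosed (spt τ) := by
  rw [← isOpen_compl_iff, Metric.isOpen_iff]
  intro z hz
  obtain ⟨r, hr, h0⟩ := wk_not_mem_spt hz
  refine ⟨r / 2, by positivity, fun z' hz' hmem => ?_⟩
  have h1 := hmem (r / 2) (by positivity)
  have h2 : Metric.ball z' (r / 2) ⊆ Metric.ball z r := by
    intro y hy
    rw [Metric.mem_ball] at hy hz' ⊢
    calc dist y z ≤ dist y z' + dist z' z := dist_triangle _ _ _
      _ < r / 2 + r / 2 := add_lt_add hy hz'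
      _ = r := by ring
  exact absurd (lt_of_lt_of_le h1 (measure_mono h2)) (by rw [h0]; exact lt_irrefl _)

/-- [Lindelöf: the complement is a countable union of null balls
(`TopologicalSpace.isOpen_iUnion_countable` / `measure_null_of_locally_null`)] -/
theorem measure_compl_spt {N : ℕ} (τ : Measure (E N)) : τ (spt τ)ᶜ = 0 := by
  refine measure_null_of_locally_null _ fun x hx => ?_
  obtain ⟨r, hr, h0⟩ := wk_not_mem_spt hx
  exact ⟨Metric.ball x r, mem_nhdsWithin_of_mem_nhds (Metric.ball_mem_nhds x hr), h0⟩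

/-- [if `z ∉ F`, a ball around `z` is contained in `Fᶜ`] -/
theorem spt_subset_of_isClosed {N : ℕ} {τ : Measure (E N)} {F : Set (E N)} (hF : IsClosed F)
    (h : τ Fᶜ = 0) : spt τ ⊆ F := by
  intro z hz
  by_contra hzF
  obtain ⟨r, hr, hsub⟩ := Metric.isOpen_iff.1 hF.isOpen_compl z hzF
  have h1 := hz r hr
  have h2 : τ (Metric.ball z r) ≤ 0 := h ▸ measure_mono hsub
  exact absurd h1 (not_lt.2 h2)

/-- **The limit set of a sequence of centre measures** (used in `mid`: CO, completion of the proof). -/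
theorem exists_limit_set {N : ℕ} (σ : ℕ → Measure (E N)) (K : Set (E N)) (hK : IsCompact K)
    (c C C' t : ℝ) (hc : 0 < c) (ht : 0 < t) (hlow : ∀ j, ENNReal.ofReal c ≤ σ j Set.univ)
    (hup : ∀ j, σ j Set.univ ≤ ENNReal.ofReal C) (hsupp : ∀ j, σ j Kᶜ = 0)
    (hfr : ∀ j, IsFrost (σ j) C' t) :
    ∃ (φ : ℕ → ℕ) (Z : Set (E N)), StrictMono φ ∧ IsCompact Z ∧ Z ⊆ K ∧
      ENNReal.ofReal t ≤ dimH Z ∧
      ∀ z ∈ Z, ∀ r : ℝ, 0 < r → ∀ᶠ j in atTop, 0 < σ (φ j) (Metric.ball z r) := by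
  obtain ⟨φ, τ, hφ, hfin, hτlow, -, hτK, hlim⟩ := exists_weak_limit σ K hK c C hc hlow hup hsupp
  have hsub : spt τ ⊆ K := spt_subset_of_isClosed hK.isClosed hτK
  refine ⟨φ, spt τ, hφ, hK.of_isClosed_subset (isClosed_spt τ) hsub, hsub, ?_, ?_⟩
  · have hfrτ : IsFrost τ C' t := hlim.isFrost fun x u hu => Eventually.of_forall fun j =>
      hfr (φ j) x u hu
    refine le_dimH_of_isFrost ht hfrτ ?_
    have h1 : τ Set.univ ≤ τ (spt τ) + τ (spt τ)ᶜ := by
      rw [← Set.union_compl_self (spt τ)]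
      exact measure_union_le _ _
    rw [measure_compl_spt, add_zero] at h1
    exact lt_of_lt_of_le (ENNReal.ofReal_pos.2 hc) (hτlow.trans h1)
  · intro z hz r hr
    exact hlim.eventually_pos Metric.isOpen_ball (hz r hr)

end Claimed.Agent.R322.Haus
end

/- ===== packed: Claimed.Agent.R322.Haus.Frostman ===== -/
section
/-!
# Haus (a): Frostman's lemma for compact subsets of `E N`  (assembly; helper96)
-/

set_option autoImplicit false

open scoped ENNReal NNReal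
open MeasureTheory Filter Topology

namespace Claimed.Agent.R322.Haus

/-- **Frostman's lemma.** -/
theorem exists_frostman {N : ℕ} (K : Set (E N)) (hK : IsCompact K) (s : ℝ) (hs : 0 ≤ s)
    (hpos : 0 < μH[s] K) :
    ∃ (μ : Measure (E N)) (C : ℝ), IsProbabilityMeasure μ ∧ μ Kᶜ = 0 ∧ IsFrost μ C s := by
  obtain ⟨r, b, hr, hb, hcont⟩ := exists_content_pos K s hpos
  have hhalf : Tendsto (fun k : ℕ => (N : ℝ) * (1 / 2 : ℝ) ^ k) atTop (𝓝 ((N : ℝ) * 0)) :=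
    (tendsto_pow_atTop_nhds_zero_of_lt_one (by norm_num) (by norm_num)).const_mul _
  rw [mul_zero] at hhalf
  obtain ⟨k₀, hk₀⟩ := (hhalf.eventually (gt_mem_nhds hr)).exists
  have hb' : ∀ (ι : Type) (F : Finset ι) (T : ι → Set (E N)),
      (∀ i ∈ F, Metric.ediam (T i) ≤ ENNReal.ofReal (N * (1 / 2 : ℝ) ^ k₀)) → K ⊆ ⋃ i ∈ F, T i →
      ENNReal.ofReal b ≤ ∑ i ∈ F, Metric.ediam (T i) ^ s := fun ι F T h1 h2 =>
    hcont ι F T (fun i hi => (h1 i hi).trans (ENNReal.ofReal_le_ofReal hk₀.le)) h2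
  choose ν hfin hνK hcap hlow using fun n : ℕ =>
    exists_level_measure K hK s hs k₀ b hb' (k₀ + n) (by omega)
  have hbpos : 0 < ENNReal.ofReal b := ENNReal.ofReal_pos.2 hb
  have hmass_pos : ∀ n, ν n Set.univ ≠ 0 := by
    intro n h0
    have := hlow n
    rw [h0, mul_zero] at this
    exact absurd this (not_le.2 hbpos)
  have hmass_top : ∀ n, ν n Set.univ ≠ ⊤ := fun n => measure_ne_top _ _
  have hinv : ∀ n, (ν n Set.univ)⁻¹ ≤ ENNReal.ofReal ((N : ℝ) ^ s) / ENNReal.ofReal b := by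
    intro n
    rw [ENNReal.le_div_iff_mul_le (Or.inl hbpos.ne') (Or.inl ENNReal.ofReal_ne_top)]
    calc (ν n Set.univ)⁻¹ * ENNReal.ofReal b
        ≤ (ν n Set.univ)⁻¹ * (ENNReal.ofReal ((N : ℝ) ^ s) * ν n Set.univ) := by
          gcongr
          exact hlow n
      _ = ENNReal.ofReal ((N : ℝ) ^ s) * ((ν n Set.univ)⁻¹ * ν n Set.univ) := by ring
      _ = ENNReal.ofReal ((N : ℝ) ^ s) := by
          rw [ENNReal.inv_mul_cancel (hmass_pos n) (hmass_top n), mul_one]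
  set σ : ℕ → Measure (E N) := fun n => (ν n Set.univ)⁻¹ • ν n with hσ
  have hprob : ∀ n, IsProbabilityMeasure (σ n) := fun n => ⟨by
    simp only [hσ, Measure.smul_apply, smul_eq_mul]
    exact ENNReal.inv_mul_cancel (hmass_pos n) (hmass_top n)⟩
  have hσK : ∀ n, σ n Kᶜ = 0 := fun n => by
    simp only [hσ, Measure.smul_apply, smul_eq_mul, hνK n, mul_zero]
  obtain ⟨φ, τ, hφ, hτp, hτK, hlim⟩ := exists_weak_limit_prob σ K hK hprob hσK
  set C₁ : ℝ := (N : ℝ) ^ s / b * ((3 : ℝ) ^ N * 2 ^ s) with hC₁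
  set C₂ : ℝ := ((2 : ℝ) ^ k₀) ^ s with hC₂
  have hNs : 0 ≤ (N : ℝ) ^ s := Real.rpow_nonneg (Nat.cast_nonneg N) s
  refine ⟨τ, max C₁ C₂, hτp, hτK, hlim.isFrost ?_⟩
  intro x u hu
  have hus : 0 ≤ u ^ s := Real.rpow_nonneg hu.le s
  rcases le_or_gt u ((1 / 2 : ℝ) ^ k₀) with hsmall | hlarge
  · have hev : ∀ᶠ j : ℕ in atTop, (1 / 2 : ℝ) ^ (k₀ + φ j) ≤ u := by
      have h1 : Tendsto (fun j : ℕ => (1 / 2 : ℝ) ^ (k₀ + φ j)) atTop (𝓝 0) :=
        (tendsto_pow_atTop_nhds_zero_of_lt_one (by norm_num) (by norm_num)).comp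
          (tendsto_atTop_mono (fun j => le_add_left (hφ.le_apply (x := j))) tendsto_id)
      exact (h1.eventually (gt_mem_nhds hu)).mono fun j hj => hj.le
    refine hev.mono fun j hj => ?_
    have h2 := level_ball_le (ν (φ j)) s hs k₀ (k₀ + φ j) (hcap (φ j)) x u hj hsmall
    simp only [hσ, Measure.smul_apply, smul_eq_mul]
    calc (ν (φ j) Set.univ)⁻¹ * ν (φ j) (Metric.ball x u)
        ≤ (ENNReal.ofReal ((N : ℝ) ^ s) / ENNReal.ofReal b) *
            ENNReal.ofReal ((3 : ℝ) ^ N * 2 ^ s * u ^ s) := mul_le_mul' (hinv _) h2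
      _ = ENNReal.ofReal (C₁ * u ^ s) := by
          rw [← ENNReal.ofReal_div_of_pos hb, ← ENNReal.ofReal_mul (div_nonneg hNs hb.le), hC₁]
          congr 1
          ring
      _ ≤ ENNReal.ofReal (max C₁ C₂ * u ^ s) :=
          ENNReal.ofReal_le_ofReal (mul_le_mul_of_nonneg_right (le_max_left _ _) hus)
  · refine Eventually.of_forall fun j => ?_
    have h1 : σ (φ j) (Metric.ball x u) ≤ 1 := prob_le_one
    refine h1.trans ?_
    rw [← ENNReal.ofReal_one]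
    refine ENNReal.ofReal_le_ofReal ?_
    have h2 : 1 ≤ C₂ * u ^ s := by
      rw [hC₂, ← Real.mul_rpow (by positivity) hu.le]
      refine Real.one_le_rpow ?_ hs
      have h3 : (2 : ℝ) ^ k₀ * (1 / 2 : ℝ) ^ k₀ = 1 := by
        rw [← mul_pow]
        norm_num
      calc (1 : ℝ) = (2 : ℝ) ^ k₀ * (1 / 2 : ℝ) ^ k₀ := h3.symm
        _ ≤ (2 : ℝ) ^ k₀ * u := by gcongr
    exact h2.trans (mul_le_mul_of_nonneg_right (le_max_right _ _) hus)

/-- Frostman's lemma, dimension form. -/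
theorem exists_frostman_of_lt_dimH {N : ℕ} (K : Set (E N)) (hK : IsCompact K) (s : ℝ) (hs : 0 ≤ s)
    (h : ENNReal.ofReal s < dimH K) :
    ∃ (μ : Measure (E N)) (C : ℝ), IsProbabilityMeasure μ ∧ μ Kᶜ = 0 ∧ IsFrost μ C s := by
  refine exists_frostman K hK s hs ?_
  have h1 : μH[((s.toNNReal : ℝ≥0) : ℝ)] K = ⊤ := hausdorffMeasure_of_lt_dimH h
  rw [Real.coe_toNNReal s hs] at h1
  rw [h1]
  exact ENNReal.zero_lt_top

end Claimed.Agent.R322.Haus
end

/- ===== packed: Claimed.Agent.R322.Red.Centres ===== -/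
section
/-!
# CO Section 7: selection of the centres (helper96; sorry-free)

* `exists_compact_centres` (M1): reduction to a COMPACT set of centres with a uniform comparison radius.
* `exists_centres` (M2): a fixed centre `x`, scales `lam j → 0` and `m` quantitatively independent rescaled centres `z j i` at which the
  frequency at scale `lam j r` converges to the SAME number `P₀ = P(x,0+) ≥ 1/2`.  No Egorov / Lusin: the lower bound comes from
  monotonicity and the oscillation bound of the nested sup trick, the upper bound from monotonicity in the radius and continuity in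
  the centre at a FIXED radius.
-/

set_option autoImplicit false

open scoped ENNReal ContDiff
open MeasureTheory Filter Topology

namespace Claimed.Agent.R322.Red

open Claimed.Agent.R322.Fn

variable {m : ℕ} {Ω : Set (E m)}

namespace LinTuple

variable (T : LinTuple m Ω) {p : ℕ}

/-! ## M1 -/

/-- centres at distance `≥ 2/(k+1)` from the complement, of norm `≤ k+1`, with comparison for all radii `< 1/(k+1)` -/
def cenK (T : LinTuple m Ω) (p k : ℕ) : Set (E m) :=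
  {x | ‖x‖ ≤ (k : ℝ) + 1 ∧ (∀ y, y ∉ Ω → 2 / ((k : ℝ) + 1) ≤ dist x y) ∧
    ∀ l, 0 < l → l < 1 / ((k : ℝ) + 1) → T.pre.Hh p x l ≤ 2 * T.pre.Aa p x l}

theorem ball_subset_of_mem_cenK {k : ℕ} {x : E m} (hx : x ∈ T.cenK p k) :
    Metric.ball x (2 * (1 / ((k : ℝ) + 1))) ⊆ Ω := by
  intro y hy
  by_contra hcon
  have h1 := hx.2.1 y hcon
  rw [Metric.mem_ball, dist_comm] at hy
  have : 2 * (1 / ((k : ℝ) + 1)) = 2 / ((k : ℝ) + 1) := by ring
  linarith

/-- continuity of the height in the centre -/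
theorem continuousAt_Hh_centre (hΩ : IsOpen Ω) (hp : 4 ≤ p) {x : E m} {l : ℝ} (h : Adm Ω x l) :
    ContinuousAt (fun y => T.pre.Hh p y l) x :=
  ContinuousAt.comp (f := fun y : E m => ((y, l) : E m × ℝ))
    (g := fun θ : E m × ℝ => T.pre.Hh p θ.1 θ.2) (T.pre.continuousAt_Hh hΩ hp h)
    (by fun_prop)

theorem continuousAt_Aa_centre (hΩ : IsOpen Ω) (hp : 4 ≤ p) {x : E m} {l : ℝ} (h : Adm Ω x l) :
    ContinuousAt (fun y => T.pre.Aa p y l) x :=
  ContinuousAt.comp (f := fun y : E m => ((y, l) : E m × ℝ))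
    (g := fun θ : E m × ℝ => T.pre.Aa p θ.1 θ.2) (T.pre.continuousAt_Aa hΩ hp h)
    (by fun_prop)

/-- [`F := {x | ‖x‖ ≤ k+1 ∧ ∀ y ∉ Ω, 2/(k+1) ≤ dist x y}` is closed and bounded.  For fixed `l ∈ (0, 1/(k+1))` every `x ∈ F` has `Adm Ω x l`, so
`x ↦ H(x,l)`, `x ↦ A(x,l)` are continuous on `F` (`continuousAt_Hh`, `continuousAt_Aa` composed with `x ↦ (x,l)`), and
`{x ∈ F | H(x,l) ≤ 2 A(x,l)}` is closed (`IsClosed.isClosed_le`).  `cenK` is the intersection of these sets (and `F`).] -/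
theorem isCompact_cenK (hΩ : IsOpen Ω) (hp : 4 ≤ p) (k : ℕ) : IsCompact (T.cenK p k) := by
  set F : Set (E m) := {x | ‖x‖ ≤ (k : ℝ) + 1 ∧ ∀ y, y ∉ Ω → 2 / ((k : ℝ) + 1) ≤ dist x y} with hF
  have hk : (0 : ℝ) < (k : ℝ) + 1 := by positivity
  have hFc : IsClosed F := by
    have e : F = {x | ‖x‖ ≤ (k : ℝ) + 1} ∩ ⋂ (y : E m) (_ : y ∉ Ω),
        {x | 2 / ((k : ℝ) + 1) ≤ dist x y} := by
      ext x
      simp only [hF, Set.mem_ofPred_eq, Set.mem_inter_iff, Set.mem_iInter]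
    rw [e]
    exact (isClosed_le continuous_norm continuous_const).inter
      (isClosed_iInter fun y => isClosed_iInter fun _ =>
        isClosed_le continuous_const (continuous_id.dist continuous_const))
  have hadm : ∀ x ∈ F, ∀ l, 0 < l → l < 1 / ((k : ℝ) + 1) → Adm Ω x l := by
    intro x hx l hl hlt
    refine ⟨hl, fun y hy => ?_⟩
    by_contra hcon
    have h1 := hx.2 y hcon
    rw [Metric.mem_closedBall, dist_comm] at hy
    have h2 : 1 / ((k : ℝ) + 1) ≤ 2 / ((k : ℝ) + 1) := by gcongr; norm_num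
    linarith
  have e : T.cenK p k = F ∩ ⋂ (l : ℝ) (_ : 0 < l ∧ l < 1 / ((k : ℝ) + 1)),
      {x | x ∈ F ∧ T.pre.Hh p x l ≤ 2 * T.pre.Aa p x l} := by
    ext x
    simp only [cenK, hF, Set.mem_ofPred_eq, Set.mem_inter_iff, Set.mem_iInter]
    constructor
    · rintro ⟨h1, h2, h3⟩
      exact ⟨⟨h1, h2⟩, fun l hl => ⟨⟨h1, h2⟩, h3 l hl.1 hl.2⟩⟩
    · rintro ⟨⟨h1, h2⟩, h3⟩
      exact ⟨h1, h2, fun l hl hlt => (h3 l ⟨hl, hlt⟩).2⟩
  have hclosed : IsClosed (T.cenK p k) := by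
    rw [e]
    refine hFc.inter (isClosed_iInter fun l => isClosed_iInter fun hl => ?_)
    exact hFc.isClosed_le
      (fun x hx => (T.continuousAt_Hh_centre hΩ hp (hadm x hx l hl.1 hl.2)).continuousWithinAt)
      (fun x hx => ((T.continuousAt_Aa_centre hΩ hp
        (hadm x hx l hl.1 hl.2)).const_mul 2).continuousWithinAt)
  refine (isCompact_closedBall (0 : E m) ((k : ℝ) + 1)).of_isClosed_subset hclosed fun x hx => ?_
  rw [Metric.mem_closedBall, dist_zero_right]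
  exact hx.1

/-- [`x ∈ Ω` open: `ball x ε ⊆ Ω`; `l₀` from `hcen`; take `k` with `‖x‖ ≤ k + 1`, `2/(k+1) ≤ ε`, `1/(k+1) ≤ l₀` (`exists_nat_gt`).
Note `2 * l^2 * 𝔪 φ = 2 * (l^2 * 𝔪 φ)`.] -/
theorem subset_iUnion_cenK (hΩ : IsOpen Ω) (Z : Set (E m)) (hZ : Z ⊆ Ω)
    (hcen : ∀ x ∈ Z, ∃ l₀ : ℝ, 0 < l₀ ∧ ∀ l : ℝ, 0 < l → l < l₀ →
      T.nu (psiK m p x l) ≤ 2 * l ^ 2 * T.mm (phiK m p x l)) :
    Z ⊆ ⋃ k, T.cenK p k := by
  intro x hx
  obtain ⟨ε, hε, hball⟩ := Metric.isOpen_iff.1 hΩ x (hZ hx)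
  obtain ⟨l₀, hl₀, hcmp⟩ := hcen x hx
  obtain ⟨k, hk⟩ := exists_nat_gt (max ‖x‖ (max (2 / ε) (1 / l₀)))
  have hk1 : ‖x‖ < k := lt_of_le_of_lt (le_max_left _ _) hk
  have hk2 : 2 / ε < k := lt_of_le_of_lt ((le_max_left _ _).trans (le_max_right _ _)) hk
  have hk3 : 1 / l₀ < k := lt_of_le_of_lt ((le_max_right _ _).trans (le_max_right _ _)) hk
  have hk0 : (0 : ℝ) < (k : ℝ) + 1 := by positivity
  rw [Set.mem_iUnion]
  refine ⟨k, by linarith, fun y hy => ?_, fun l hl hlt => ?_⟩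
  · have h1 : ε ≤ dist x y := by
      by_contra hcon
      rw [not_le, dist_comm] at hcon
      exact hy (hball hcon)
    have h2 : 2 / ((k : ℝ) + 1) ≤ ε := by
      rw [div_le_iff₀ hk0]
      rw [div_lt_iff₀ hε] at hk2
      nlinarith
    linarith
  · have h2 : 1 / ((k : ℝ) + 1) ≤ l₀ := by
      rw [div_le_iff₀ hk0]
      rw [div_lt_iff₀ hl₀] at hk3
      nlinarith
    have := hcmp l hl (lt_of_lt_of_le hlt h2)
    show T.nu (psiK m p x l) ≤ 2 * (l ^ 2 * T.mm (phiK m p x l))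
    linarith

/-- **M1.** -/
theorem exists_compact_centres (hΩ : IsOpen Ω) (hp : 4 ≤ p) (Z : Set (E m)) (hZ : Z ⊆ Ω)
    (hcen : ∀ x ∈ Z, ∃ l₀ : ℝ, 0 < l₀ ∧ ∀ l : ℝ, 0 < l → l < l₀ →
      T.nu (psiK m p x l) ≤ 2 * l ^ 2 * T.mm (phiK m p x l))
    (s : ℝ) (hs : ENNReal.ofReal s < dimH Z) :
    ∃ (K₀ : Set (E m)) (ls : ℝ), IsCompact K₀ ∧ 0 < ls ∧ (∀ x ∈ K₀, Metric.ball x (2 * ls) ⊆ Ω) ∧
      (∀ x ∈ K₀, ∀ l, 0 < l → l < ls → T.pre.Hh p x l ≤ 2 * T.pre.Aa p x l) ∧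
      ENNReal.ofReal s < dimH K₀ := by
  have h1 : dimH Z ≤ ⨆ k, dimH (T.cenK p k) := by
    rw [← dimH_iUnion]
    exact dimH_mono (T.subset_iUnion_cenK hΩ Z hZ hcen)
  obtain ⟨k, hk⟩ := lt_iSup_iff.1 (lt_of_lt_of_le hs h1)
  exact ⟨T.cenK p k, 1 / ((k : ℝ) + 1), T.isCompact_cenK hΩ hp k, by positivity,
    fun x hx => T.ball_subset_of_mem_cenK hx, fun x hx => hx.2.2, hk⟩

/-! ## M2 -/

/-- continuity of the frequency in the centre -/
theorem continuousAt_freq_centre (hΩ : IsOpen Ω) (hconn : IsPreconnected Ω) (hp : 4 ≤ p) {x : E m}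
    {l : ℝ} (h : Adm Ω x l) : ContinuousAt (fun y => T.pre.Aa p y l / T.pre.Hh p y l) x :=
  (T.continuousAt_Aa_centre hΩ hp h).div (T.continuousAt_Hh_centre hΩ hp h)
    (T.Hh_pos hΩ hconn hp h).ne'

/-- the limit frequency `P(y,0+)`.
[`F k y := A(y, ls/(k+2)) / H(y, ls/(k+2))` is continuous on `K₀`; `F' k := K₀.piecewise (F k) 0` (or `Set.indicator`) is measurable
(`ContinuousOn.measurable_piecewise`, `hK₀.measurableSet`); `h y := ⨅ k, F' k y` (`Measurable.iInf`).  On `K₀`: `1/2 ≤ F k y` by `hcmp` and `Hh_pos`,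
so the infimum is bounded below (`le_ciInf`, `ciInf_le`).  Lower bound at radius `l`: choose `k` with `ls/(k+2) ≤ l`, `freq_mono`.
Approximation: `exists_lt_of_ciInf_lt`.] -/
theorem exists_freq_limit (hΩ : IsOpen Ω) (hconn : IsPreconnected Ω) (hp : 4 ≤ p) {K₀ : Set (E m)}
    {ls : ℝ} (hK₀ : IsCompact K₀) (hls : 0 < ls) (hadm : ∀ x ∈ K₀, Metric.ball x (2 * ls) ⊆ Ω)
    (hcmp : ∀ x ∈ K₀, ∀ l, 0 < l → l < ls → T.pre.Hh p x l ≤ 2 * T.pre.Aa p x l) :
    ∃ h : E m → ℝ, Measurable h ∧ (∀ y ∈ K₀, 1 / 2 ≤ h y) ∧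
      (∀ y ∈ K₀, ∀ l, 0 < l → l < ls → h y ≤ T.pre.Aa p y l / T.pre.Hh p y l) ∧
      (∀ y ∈ K₀, ∀ ε : ℝ, 0 < ε → ∃ ρ, 0 < ρ ∧ ρ < ls ∧
        T.pre.Aa p y ρ / T.pre.Hh p y ρ ≤ h y + ε) := by
  classical
  set ρ : ℕ → ℝ := fun k => ls / ((k : ℝ) + 2) with hρ
  have hρ0 : ∀ k, 0 < ρ k := fun k => by simp only [hρ]; positivity
  have hρ1 : ∀ k, ρ k < ls := fun k => by
    simp only [hρ]
    rw [div_lt_iff₀ (by positivity)]
    have : (0 : ℝ) ≤ k := Nat.cast_nonneg k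
    nlinarith
  have hA : ∀ y ∈ K₀, ∀ l, 0 < l → l < ls → Adm Ω y l := fun y hy l hl hlt =>
    adm_of_ball (hadm y hy) hl (by linarith)
  set F : ℕ → E m → ℝ := fun k y => T.pre.Aa p y (ρ k) / T.pre.Hh p y (ρ k) with hF
  set F' : ℕ → E m → ℝ := fun k => K₀.piecewise (F k) fun _ => 0 with hF'
  have hF'm : ∀ k, Measurable (F' k) := fun k =>
    ContinuousOn.measurable_piecewise
      (fun y hy => (T.continuousAt_freq_centre hΩ hconn hp
        (hA y hy _ (hρ0 k) (hρ1 k))).continuousWithinAt) continuousOn_const hK₀.measurableSet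
  have hF'eq : ∀ k, ∀ y ∈ K₀, F' k y = F k y := fun k y hy => Set.piecewise_eq_of_mem _ _ _ hy
  have hhalf : ∀ y ∈ K₀, ∀ l, 0 < l → l < ls → 1 / 2 ≤ T.pre.Aa p y l / T.pre.Hh p y l := by
    intro y hy l hl hlt
    rw [le_div_iff₀ (T.Hh_pos hΩ hconn hp (hA y hy l hl hlt))]
    linarith [hcmp y hy l hl hlt]
  have hbdd : ∀ y ∈ K₀, BddBelow (Set.range fun k => F' k y) := by
    intro y hy
    refine ⟨1 / 2, ?_⟩
    rintro _ ⟨k, rfl⟩
    simp only [hF'eq k y hy]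
    exact hhalf y hy _ (hρ0 k) (hρ1 k)
  refine ⟨fun y => ⨅ k, F' k y, Measurable.iInf hF'm, fun y hy => ?_, fun y hy l hl hlt => ?_,
    fun y hy ε hε => ?_⟩
  · refine le_ciInf fun k => ?_
    rw [hF'eq k y hy]
    exact hhalf y hy _ (hρ0 k) (hρ1 k)
  · obtain ⟨k, hk⟩ := exists_nat_gt (ls / l)
    have hkl : ρ k ≤ l := by
      simp only [hρ]
      rw [div_le_iff₀ (by positivity)]
      rw [div_lt_iff₀ hl] at hk
      nlinarith
    calc (⨅ k, F' k y) ≤ F' k y := ciInf_le (hbdd y hy) k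
      _ = F k y := hF'eq k y hy
      _ ≤ _ := T.freq_mono hΩ hconn hp (hadm y hy) (hcmp y hy) (hρ0 k) hkl hlt
  · obtain ⟨k, hk⟩ := exists_lt_of_ciInf_lt (show (⨅ k, F' k y) < (⨅ k, F' k y) + ε by linarith)
    rw [hF'eq k y hy] at hk
    exact ⟨ρ k, hρ0 k, hρ1 k, hk.le⟩

/-- convergence of the frequency along moving centres and shrinking radii.
[Lower bound: `P(y j, lam j r) ≥ h (y j) ≥ h x - 1/(j+1)` as soon as `lam j r < ls`.
Upper bound: given `ε`, take `ρ` with `P(x,ρ) ≤ h x + ε`; `y ↦ P(y,ρ)` is continuous at `x` (`continuousAt_Aa`, `continuousAt_Hh`, `Hh_pos`), so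
`P(y j, ρ) ≤ h x + 2 ε` eventually; and `P(y j, lam j r) ≤ P(y j, ρ)` as soon as `lam j r ≤ ρ` (`freq_mono` at the centre `y j ∈ K₀`).
Conclude with `tendsto_order.2` or `Metric.tendsto_atTop`.] -/
theorem tendsto_freq (hΩ : IsOpen Ω) (hconn : IsPreconnected Ω) (hp : 4 ≤ p) {K₀ : Set (E m)}
    {ls : ℝ} (hadm : ∀ x ∈ K₀, Metric.ball x (2 * ls) ⊆ Ω)
    (hcmp : ∀ x ∈ K₀, ∀ l, 0 < l → l < ls → T.pre.Hh p x l ≤ 2 * T.pre.Aa p x l)
    {h : E m → ℝ}
    (hlow : ∀ y ∈ K₀, ∀ l, 0 < l → l < ls → h y ≤ T.pre.Aa p y l / T.pre.Hh p y l)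
    (happ : ∀ y ∈ K₀, ∀ ε : ℝ, 0 < ε → ∃ ρ, 0 < ρ ∧ ρ < ls ∧
        T.pre.Aa p y ρ / T.pre.Hh p y ρ ≤ h y + ε)
    {x : E m} (hx : x ∈ K₀) {lam : ℕ → ℝ} (hlam : ∀ j, 0 < lam j)
    (hlam0 : Tendsto lam atTop (𝓝 0)) {y : ℕ → E m} (hy : ∀ j, y j ∈ K₀)
    (hyx : Tendsto y atTop (𝓝 x)) (hosc : ∀ j, |h (y j) - h x| ≤ 1 / ((j : ℝ) + 1)) {r : ℝ}
    (hr : 0 < r) :
    Tendsto (fun j => T.pre.Aa p (y j) (lam j * r) / T.pre.Hh p (y j) (lam j * r)) atTop
      (𝓝 (h x)) := by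
  rw [Metric.tendsto_atTop']
  intro ε hε
  obtain ⟨ρ, hρ0, hρ1, hρ⟩ := happ x hx (ε / 4) (by positivity)
  have hadmρ : Adm Ω x ρ := adm_of_ball (hadm x hx) hρ0 (by linarith)
  have hc := (T.continuousAt_freq_centre hΩ hconn hp hadmρ).tendsto.comp hyx
  have h1 : ∀ᶠ j in atTop, T.pre.Aa p (y j) ρ / T.pre.Hh p (y j) ρ
      < T.pre.Aa p x ρ / T.pre.Hh p x ρ + ε / 4 :=
    hc.eventually (gt_mem_nhds (by linarith))
  have hlr : Tendsto (fun j => lam j * r) atTop (𝓝 0) := by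
    simpa using hlam0.mul_const r
  have h2 : ∀ᶠ j in atTop, lam j * r < ρ := hlr.eventually (gt_mem_nhds hρ0)
  have h3 : ∀ᶠ j : ℕ in atTop, 1 / ((j : ℝ) + 1) < ε / 4 :=
    tendsto_one_div_add_atTop_nhds_zero_nat.eventually (gt_mem_nhds (by positivity))
  obtain ⟨N, hN⟩ := eventually_atTop.1 (h1.and (h2.and h3))
  refine ⟨N, fun j hj => ?_⟩
  obtain ⟨g1, g2, g3⟩ := hN j hj.le
  have hl0 : 0 < lam j * r := mul_pos (hlam j) hr
  have hlo := hlow (y j) (hy j) (lam j * r) hl0 (by linarith)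
  have hup := T.freq_mono hΩ hconn hp (hadm _ (hy j)) (hcmp _ (hy j)) hl0 g2.le hρ1
  have ho := _root_.abs_le.1 (hosc j)
  rw [Real.dist_eq, abs_lt]
  constructor <;> linarith [ho.1, ho.2]

/-- **M2.** -/
theorem exists_centres (hΩ : IsOpen Ω) (hconn : IsPreconnected Ω) (hp : 4 ≤ p) {K₀ : Set (E m)}
    {ls : ℝ} (hK₀ : IsCompact K₀) (hls : 0 < ls) (hadm : ∀ x ∈ K₀, Metric.ball x (2 * ls) ⊆ Ω)
    (hcmp : ∀ x ∈ K₀, ∀ l, 0 < l → l < ls → T.pre.Hh p x l ≤ 2 * T.pre.Aa p x l)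
    {s : ℝ} (hs0 : 0 ≤ s) (hs1 : (m : ℝ) - 1 < s) (hs : ENNReal.ofReal s < dimH K₀) :
    ∃ (x : E m) (lam : ℕ → ℝ) (z : ℕ → Fin m → E m) (δ P₀ : ℝ), x ∈ K₀ ∧ (∀ j, 0 < lam j) ∧
      (∀ j, 32 * lam j ≤ ls) ∧ 0 < δ ∧ 1 / 2 ≤ P₀ ∧ (∀ j i, ‖z j i‖ ≤ 1) ∧
      (∀ j, Haus.QInd δ (z j)) ∧
      (∀ r, 0 < r → Tendsto (fun j => T.pre.Aa p x (lam j * r) / T.pre.Hh p x (lam j * r)) atTop
        (𝓝 P₀)) ∧
      (∀ i r, 0 < r → Tendsto (fun j => T.pre.Aa p (x + lam j • z j i) (lam j * r) /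
        T.pre.Hh p (x + lam j • z j i) (lam j * r)) atTop (𝓝 P₀)) := by
  obtain ⟨h, hmeas, hhalf, hlow, happ⟩ := T.exists_freq_limit hΩ hconn hp hK₀ hls hadm hcmp
  obtain ⟨μ, C, hμp, hμK, hfr⟩ := Haus.exists_frostman_of_lt_dimH K₀ hK₀ s hs0 hs
  have hμpos : 0 < μ K₀ := by
    have h1 : μ K₀ = 1 := by
      have := prob_compl_eq_zero_iff (μ := μ) hK₀.measurableSet
      exact this.1 hμK
    rw [h1]; exact one_pos
  obtain ⟨x, Kj, l, σ, _, hKjK, _, hxKj, hosc, hl, hl0, hσp, hσc, hσf⟩ :=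
    Haus.exists_nested μ K₀ hK₀ hμpos C s hs0 hfr h hmeas
  obtain ⟨δ, hδ, hq⟩ := Haus.exists_qind m m s 1 (2 ^ (s + 1)) hs1 one_pos (by positivity)
  have hz : ∀ j, ∃ z : Fin m → E m, (∀ i, z i ∈ {X : E m | ‖X‖ ≤ 1 ∧ x + l j • X ∈ Kj j}) ∧
      Haus.QInd δ z := fun j => by
    refine hq (σ j) _ (hσf j) ?_ (hσc j) fun X hX => hX.1
    have := (hσp j).measure_univ
    rw [this]; simp
  choose z hzA hzQ using hz
  obtain ⟨j₀, hj₀⟩ : ∃ j₀, ∀ j, j₀ ≤ j → 32 * l j ≤ ls := by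
    have h1 : ∀ᶠ j in atTop, l j < ls / 32 := hl0.eventually (gt_mem_nhds (by positivity))
    obtain ⟨j₀, hj₀⟩ := eventually_atTop.1 h1
    exact ⟨j₀, fun j hj => by linarith [hj₀ j hj]⟩
  have hx : x ∈ K₀ := hKjK 0 (hxKj 0)
  have hlam0 : Tendsto (fun j => l (j + j₀)) atTop (𝓝 0) := hl0.comp (tendsto_add_atTop_nat j₀)
  have hoscle : ∀ j : ℕ, 1 / (((j + j₀ : ℕ) : ℝ) + 1) ≤ 1 / ((j : ℝ) + 1) := by
    intro j
    apply one_div_le_one_div_of_le (by positivity)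
    push_cast
    have : (0 : ℝ) ≤ j₀ := Nat.cast_nonneg _
    linarith
  refine ⟨x, fun j => l (j + j₀), fun j => z (j + j₀), δ, h x, hx, fun j => hl _,
    fun j => hj₀ _ (Nat.le_add_left _ _), hδ, hhalf x hx, fun j i => (hzA _ i).1, fun j => hzQ _,
    fun r hr => ?_, fun i r hr => ?_⟩
  · exact T.tendsto_freq hΩ hconn hp hadm hcmp hlow happ hx (fun j => hl _) hlam0 (y := fun _ => x)
      (fun _ => hx) tendsto_const_nhds (fun j => by simp; positivity) hr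
  · refine T.tendsto_freq hΩ hconn hp hadm hcmp hlow happ hx (fun j => hl _) hlam0
      (y := fun j => x + l (j + j₀) • z (j + j₀) i) (fun j => hKjK _ (hzA _ i).2) ?_
      (fun j => (hosc _ _ (hzA _ i).2).trans (hoscle j)) hr
    have h2 : Tendsto (fun j => l (j + j₀) • z (j + j₀) i) atTop (𝓝 0) := by
      rw [tendsto_zero_iff_norm_tendsto_zero]
      refine squeeze_zero (fun j => norm_nonneg _) (fun j => ?_) hlam0
      rw [norm_smul, Real.norm_eq_abs, abs_of_pos (hl _)]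
      have := (hzA (j + j₀) i).1
      nlinarith [hl (j + j₀)]
    simpa using h2.const_add x

end LinTuple

end Claimed.Agent.R322.Red
end

/- ===== packed: Claimed.Agent.R322.Red.Main ===== -/
section
/-!
# CO Proposition 7.1: dimension reduction for height and stress

Assembly (helper96) of M1 `exists_compact_centres`, M2 `exists_centres`, M3 `exists_blowup`, M4 `Hh_eq_zero_of_const_freq`.
-/

set_option autoImplicit false

open scoped ENNReal ContDiff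
open MeasureTheory Filter Topology

namespace Claimed.Agent.R322.Red

open Claimed.Agent.R322.Fn

/-- admissibility of the moving centres -/
theorem adm_moving {m : ℕ} {Ω : Set (E m)} {x w : E m} {ls lam r : ℝ}
    (hadm : Metric.ball x (2 * ls) ⊆ Ω) (hlam : 0 < lam) (hs : 32 * lam ≤ ls) (hw : ‖w‖ ≤ 1)
    (hr : 0 < r) (hr3 : r < 3) : Adm Ω (x + lam • w) (lam * r) := by
  refine ⟨mul_pos hlam hr, fun y hy => hadm ?_⟩
  rw [Metric.mem_closedBall, dist_eq_norm] at hy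
  rw [Metric.mem_ball, dist_eq_norm]
  have h1 : ‖y - x‖ ≤ ‖y - (x + lam • w)‖ + ‖lam • w‖ := by
    have := norm_add_le (y - (x + lam • w)) (lam • w)
    rwa [show y - (x + lam • w) + lam • w = y - x by abel] at this
  have h2 : ‖lam • w‖ ≤ lam := by
    rw [norm_smul, Real.norm_eq_abs, abs_of_pos hlam]
    nlinarith
  nlinarith

/-- **CO Proposition 7.1.** -/
theorem main {m : ℕ} (hm : 1 ≤ m) (p : ℕ) (hp : 4 ≤ p) (Ω : Set (E m)) (hΩ : IsOpen Ω)
    (hconn : IsPreconnected Ω) (T : LinTuple m Ω) (Z : Set (E m)) (hZ : Z ⊆ Ω)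
    (hcen : ∀ x ∈ Z, ∃ l₀ : ℝ, 0 < l₀ ∧ ∀ l : ℝ, 0 < l → l < l₀ →
      T.nu (psiK m p x l) ≤ 2 * l ^ 2 * T.mm (phiK m p x l)) :
    dimH Z ≤ ((m - 1 : ℕ) : ℝ≥0∞) := by
  by_contra hcon
  rw [not_le] at hcon
  obtain ⟨c, hc1, hc2⟩ := exists_between hcon
  have hctop : c ≠ ⊤ := ne_top_of_lt hc2
  have hsc : ENNReal.ofReal c.toReal = c := ENNReal.ofReal_toReal hctop
  have hs0 : 0 ≤ c.toReal := ENNReal.toReal_nonneg
  have hs1 : (m : ℝ) - 1 < c.toReal := by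
    have h1 : (((m - 1 : ℕ) : ℝ≥0∞)).toReal < c.toReal :=
      (ENNReal.toReal_lt_toReal (ENNReal.natCast_ne_top _) hctop).2 hc1
    rw [ENNReal.toReal_natCast, Nat.cast_sub hm] at h1
    simpa using h1
  -- M1
  obtain ⟨K₀, ls, hK₀, hls, hadm, hcmp, hdim⟩ :=
    T.exists_compact_centres hΩ hp Z hZ hcen c.toReal (by rw [hsc]; exact hc2)
  -- M2
  obtain ⟨x, lam, z, δ, P₀, hx, hlam, hsmall, hδ, hP₀, hz1, hzQ, hfx, hfz⟩ :=
    T.exists_centres hΩ hconn hp hK₀ hls hadm hcmp hs0 hs1 hdim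
  -- convergence of the rescaled centres
  have hcpt : IsCompact (Set.pi Set.univ fun _ : Fin m => Metric.closedBall (0 : E m) 1) :=
    isCompact_univ_pi fun _ => isCompact_closedBall _ _
  obtain ⟨z₀, hz₀, ψ₁, hψ₁, hzlim⟩ := hcpt.tendsto_subseq (x := z)
    (fun j i _ => by simpa using hz1 j i)
  have hzlim' : ∀ i, Tendsto (fun j => z (ψ₁ j) i) atTop (𝓝 (z₀ i)) :=
    fun i => (tendsto_pi_nhds.1 hzlim) i
  have hz₀1 : ∀ i, ‖z₀ i‖ ≤ 1 := fun i => by simpa using hz₀ i (Set.mem_univ i)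
  have hQ₀ : Haus.QInd δ z₀ :=
    Haus.QInd.of_tendsto (Eventually.of_forall fun j => hzQ (ψ₁ j)) hzlim'
  have hspan := hQ₀.span_eq_top hδ
  -- M3
  obtain ⟨φ, S, hφ, hS⟩ := T.exists_blowup hΩ hconn hp hls (hadm x hx) (hcmp x hx)
    (fun j => lam (ψ₁ j)) (fun j => hlam _) (fun j => hsmall _)
  have hsub : Tendsto (fun j => ψ₁ (φ j)) atTop atTop :=
    hψ₁.tendsto_atTop.comp hφ.tendsto_atTop
  -- constancy of the limit frequency
  have key : ∀ (w : ℕ → E m) (w₀ : E m) (r : ℝ), (∀ j, ‖w j‖ ≤ 1) → Tendsto w atTop (𝓝 w₀) →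
      0 < r → r < 3 →
      Tendsto (fun j => T.pre.Aa p (x + lam (ψ₁ (φ j)) • w j) (lam (ψ₁ (φ j)) * r) /
        T.pre.Hh p (x + lam (ψ₁ (φ j)) • w j) (lam (ψ₁ (φ j)) * r)) atTop (𝓝 P₀) →
      S.Aa p w₀ r = P₀ * S.Hh p w₀ r := by
    intro w w₀ r hw hw0 hr hr3 hfreq
    obtain ⟨hH, hA⟩ := hS w w₀ r hw hw0 hr hr3
    refine tendsto_nhds_unique hA ((hfreq.mul hH).congr fun j => ?_)
    have hpos : 0 < T.pre.Hh p (x + lam (ψ₁ (φ j)) • w j) (lam (ψ₁ (φ j)) * r) :=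
      T.Hh_pos hΩ hconn hp (adm_moving (hadm x hx) (hlam _) (hsmall _) (hw j) hr hr3)
    field_simp
  have h0 : ∀ r, 0 < r → r < 3 → S.Aa p 0 r = P₀ * S.Hh p 0 r := by
    intro r hr hr3
    refine key (fun _ => 0) 0 r (fun _ => by simp) tendsto_const_nhds hr hr3 ?_
    have h1 := (hfx r hr).comp hsub
    simpa only [smul_zero, add_zero, Function.comp_def] using h1
  have hzc : ∀ i r, 0 < r → r < 3 → S.Aa p (z₀ i) r = P₀ * S.Hh p (z₀ i) r := by
    intro i r hr hr3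
    exact key (fun j => z (ψ₁ (φ j)) i) (z₀ i) r (fun j => hz1 _ i)
      ((hzlim' i).comp hφ.tendsto_atTop) hr hr3 ((hfz i r hr).comp hsub)
  -- M4
  have hzero := S.Hh_eq_zero_of_const_freq hp hP₀ hz₀1 hspan h0 hzc
  -- normalisation
  have hone : S.Hh p 0 1 = 1 := by
    obtain ⟨hH, _⟩ := hS (fun _ => 0) 0 1 (fun _ => by simp) tendsto_const_nhds one_pos
      (by norm_num)
    refine tendsto_nhds_unique hH ((tendsto_const_nhds (x := (1 : ℝ))).congr fun j => ?_)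
    have hl1 := hsmall (ψ₁ (φ j))
    have hl2 := hlam (ψ₁ (φ j))
    have hpos : 0 < T.pre.Hh p x (lam (ψ₁ (φ j))) :=
      T.Hh_pos hΩ hconn hp (adm_of_ball (hadm x hx) hl2 (by linarith))
    simp only [smul_zero, add_zero, mul_one]
    exact (div_self hpos.ne').symm
  rw [hzero] at hone
  exact zero_ne_one hone

end Claimed.Agent.R322.Red
end
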