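/- Packed by merge_tool.py (helper293): 4 modules of Claimed.Agent.R322 in one file, same declarations.
   Old modules, in this order: Fit.Wiener.Neg, Fit.Wiener.Syn, Fit.Wiener.Weak, Base.Ops.Local -/
import Claimed.Agent.R322.Pack001
import Claimed.Agent.R322.Pack043

/- ===== packed: Claimed.Agent.R322.Fit.Wiener.Neg ===== -/
section
/-!
# Row 322, Fit/Wiener: integer (also NEGATIVE) orders, as norms of nice functions   (architect helper281)

`wz t ξ = (1 + |ξ|)^t`, `t : ℤ`;  `nZ t c = ∫ (1 + |ξ|)^t |c ξ| dξ` for a function `c` on the Fourier side;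
`nAz t f = nZ t (𝓕 f)`.  No distributions: the negative norms are only evaluated on members of `InA 0`.

PLANS.
* `wz_le_mul` (Peetre): for `t ≥ 0` this is `wgt_le_mul`; for `t = -r < 0`: `1 + |η| ≤ (1 + |ξ - η|)(1 + |ξ|)`
  (`wgt_le_mul r η ξ` and `‖η - ξ‖ = ‖ξ - η‖`), divide.  Work with real numbers, `zpow_neg`, `ENNReal.ofReal_mul`.
* `lintegral_wz_cv_le`: copy of the proof of `lintegral_wgt_cv_le` (Young.lean) with `wz_le_mul`.
* `nAz_*`: copies of the proofs of `nA_*` in Calc.lean (`fourier_add`, `fourier_const_mul`, `enorm_fourier_mul_le`, `fourier_pdv`).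
* `nAz_add_two_le`: `(1+|ξ|)^2 ≤ 2 (1 + |ξ|^2)`, `𝓕 (∑ₐ ∂ₐ∂ₐ f) ξ = - 4π² |ξ|² 𝓕 f ξ` (`fourier_sum`, `fourier_pdv_pdv`,
  `EuclideanSpace.norm_sq_eq`/`real_inner_self_eq_norm_sq`).
-/

set_option autoImplicit false

open scoped ENNReal ContDiff Topology FourierTransform
open MeasureTheory

namespace Claimed.Agent.R322.Fit

variable {m : ℕ}

/-- the weight `(1 + |ξ|)^t`, `t : ℤ`. -/
noncomputable def wz (t : ℤ) (ξ : E m) : ℝ≥0∞ := ENNReal.ofReal ((1 + ‖ξ‖) ^ t)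

/-- weighted `L¹` norm on the Fourier side. -/
noncomputable def nZ (t : ℤ) (c : E m → ℂ) : ℝ≥0∞ := ∫⁻ ξ, wz t ξ * ‖c ξ‖ₑ

/-- weighted `𝓕L¹` norm of integer order. -/
noncomputable def nAz (t : ℤ) (f : E m → ℂ) : ℝ≥0∞ := nZ t (𝓕 f)

/-! ### leaf L-Fit-Neg-A : weights -/

theorem measurable_wz (t : ℤ) : Measurable (wz t : E m → ℝ≥0∞) :=
  ENNReal.measurable_ofReal.comp ((measurable_const.add measurable_norm).pow_const t)

theorem base_pos (ξ : E m) : (0 : ℝ) < 1 + ‖ξ‖ := by positivity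

theorem wz_natCast (r : ℕ) (ξ : E m) : wz (r : ℤ) ξ = wgt r ξ := by
  simp [wz, wgt]

theorem wz_ne_zero (t : ℤ) (ξ : E m) : wz t ξ ≠ 0 :=
  (ENNReal.ofReal_pos.mpr (zpow_pos (base_pos ξ) t)).ne'

theorem wz_lt_top (t : ℤ) (ξ : E m) : wz t ξ < ⊤ := ENNReal.ofReal_lt_top

theorem wz_mono {t t' : ℤ} (h : t ≤ t') (ξ : E m) : wz t ξ ≤ wz t' ξ :=
  ENNReal.ofReal_le_ofReal (zpow_le_zpow_right₀ (one_le_base ξ) h)

theorem wz_add (t t' : ℤ) (ξ : E m) : wz (t + t') ξ = wz t ξ * wz t' ξ := by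
  unfold wz
  rw [zpow_add₀ (base_pos ξ).ne', ENNReal.ofReal_mul (zpow_nonneg (base_pos ξ).le t)]

/-- Peetre's inequality. -/
theorem wz_le_mul (t : ℤ) (ξ η : E m) : wz t ξ ≤ wgt t.natAbs (ξ - η) * wz t η := by
  obtain ⟨r, rfl | rfl⟩ := t.eq_nat_or_neg
  · rw [Int.natAbs_natCast, wz_natCast, wz_natCast]
    exact wgt_le_mul r ξ η
  · rw [Int.natAbs_neg, Int.natAbs_natCast]
    unfold wz wgt
    rw [← ENNReal.ofReal_mul (by positivity)]
    refine ENNReal.ofReal_le_ofReal ?_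
    rw [zpow_neg, zpow_neg, zpow_natCast, zpow_natCast]
    have ha := base_pos ξ
    have hb := base_pos η
    have hc := base_pos (ξ - η)
    have h1 : 1 + ‖η‖ ≤ (1 + ‖ξ - η‖) * (1 + ‖ξ‖) := by
      have h2 := base_le_add η ξ
      rw [norm_sub_rev] at h2
      have h3 : 0 ≤ ‖ξ - η‖ * ‖ξ‖ := by positivity
      nlinarith
    have h4 : (1 + ‖η‖) ^ r ≤ (1 + ‖ξ - η‖) ^ r * (1 + ‖ξ‖) ^ r := by
      rw [← mul_pow]
      exact pow_le_pow_left₀ hb.le h1 r
    rw [← div_eq_mul_inv, le_div_iff₀ (by positivity), ← div_eq_inv_mul,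
      div_le_iff₀ (by positivity)]
    exact h4

/-- `∫ (1 + |ξ|)^{-(m+1)} dξ < ∞`. -/
theorem lintegral_wz_lt_top (m : ℕ) : ∫⁻ ξ : E m, wz (-((m : ℤ) + 1)) ξ < ⊤ := by
  have hI : Integrable (fun x : E m => (1 + ‖x‖) ^ (-((m : ℝ) + 1))) :=
    integrable_one_add_norm (by rw [finrank_euclideanSpace_fin]; linarith)
  have h := hI.lintegral_lt_top
  refine lt_of_eq_of_lt (lintegral_congr fun ξ => ?_) h
  unfold wz
  congr 1
  rw [← Real.rpow_intCast]
  congr 1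
  push_cast
  ring

/-- weighted Young inequality for integer orders. -/
theorem lintegral_wz_cv_le (t : ℤ) {p q : E m → ℝ≥0∞} (hp : Measurable p) (hq : Measurable q) :
    ∫⁻ ξ, wz t ξ * cv p q ξ ≤ (∫⁻ ξ, wgt t.natAbs ξ * p ξ) * ∫⁻ ξ, wz t ξ * q ξ := by
  have hwp : Measurable (fun ξ => wgt t.natAbs ξ * p ξ) := (measurable_wgt _).mul hp
  have hwq : Measurable (fun ξ => wz t ξ * q ξ) := (measurable_wz t).mul hq
  rw [← lintegral_cv hwp hwq]
  refine lintegral_mono fun ξ => ?_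
  unfold cv
  have hm : Measurable (fun η : E m => p (ξ - η) * q η) :=
    (hp.comp (measurable_const.sub measurable_id)).mul hq
  rw [← lintegral_const_mul _ hm]
  refine lintegral_mono fun η => ?_
  calc wz t ξ * (p (ξ - η) * q η) ≤ (wgt t.natAbs (ξ - η) * wz t η) * (p (ξ - η) * q η) :=
        mul_le_mul' (wz_le_mul t ξ η) le_rfl
    _ = wgt t.natAbs (ξ - η) * p (ξ - η) * (wz t η * q η) := by ring

/-! ### leaf L-Fit-Neg-B : the norms -/

theorem nZ_mono {t t' : ℤ} (h : t ≤ t') (c : E m → ℂ) : nZ t c ≤ nZ t' c :=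
  lintegral_mono fun ξ => mul_le_mul' (wz_mono h ξ) le_rfl

theorem nZ_congr_le (t : ℤ) {c c' : E m → ℂ} (h : ∀ ξ, ‖c ξ‖ ≤ ‖c' ξ‖) : nZ t c ≤ nZ t c' :=
  lintegral_mono fun ξ => mul_le_mul' le_rfl (enorm_le_iff_norm_le.mpr (h ξ))

theorem nAz_natCast (r : ℕ) (f : E m → ℂ) : nAz (r : ℤ) f = nA r f := by
  simp only [nAz, nZ, nA, wz_natCast]

theorem nAz_mono {t t' : ℤ} (h : t ≤ t') (f : E m → ℂ) : nAz t f ≤ nAz t' f := nZ_mono h _

theorem nAz_le_nA {t : ℤ} {r : ℕ} (h : t ≤ r) (f : E m → ℂ) : nAz t f ≤ nA r f := by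
  rw [← nAz_natCast]; exact nAz_mono h f

theorem nAz_add_le (t : ℤ) {f g : E m → ℂ} (hf : Integrable f) (hg : Integrable g) :
    nAz t (fun y => f y + g y) ≤ nAz t f + nAz t g := by
  unfold nAz nZ
  have hm : Measurable (fun ξ => wz t ξ * ‖𝓕 f ξ‖ₑ) :=
    (measurable_wz t).mul (continuous_fourier hf).measurable.enorm
  rw [← lintegral_add_left hm]
  refine lintegral_mono fun ξ => ?_
  rw [fourier_add hf hg, ← mul_add]
  exact mul_le_mul' le_rfl (enorm_add_le _ _)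

theorem nAz_const_mul (t : ℤ) (c : ℂ) (f : E m → ℂ) :
    nAz t (fun y => c * f y) = ‖c‖ₑ * nAz t f := by
  unfold nAz nZ
  rw [← lintegral_const_mul' _ _ enorm_ne_top]
  refine lintegral_congr fun ξ => ?_
  rw [fourier_const_mul, enorm_mul]
  ring

theorem nAz_neg (t : ℤ) (f : E m → ℂ) : nAz t (fun y => - f y) = nAz t f := by
  have := nAz_const_mul t (-1) f
  simpa using this

theorem nAz_sub_le (t : ℤ) {f g : E m → ℂ} (hf : Integrable f) (hg : Integrable g) :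
    nAz t (fun y => f y - g y) ≤ nAz t f + nAz t g := by
  have hg' : Integrable (fun y => - g y) := hg.neg
  have := nAz_add_le t hf hg'
  rw [nAz_neg] at this
  simpa [sub_eq_add_neg] using this

theorem nAz_sum_le (t : ℤ) {ι : Type*} (s : Finset ι) {f : ι → E m → ℂ}
    (h : ∀ i ∈ s, Integrable (f i)) :
    nAz t (fun y => ∑ i ∈ s, f i y) ≤ ∑ i ∈ s, nAz t (f i) := by
  classical
  induction s using Finset.induction_on with
  | empty =>
    simp only [Finset.sum_empty, nonpos_iff_eq_zero]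
    unfold nAz nZ
    simp [fourier_zero]
  | insert i s hi ih =>
    simp only [Finset.sum_insert hi]
    refine (nAz_add_le t (h i (Finset.mem_insert_self i s))
      (integrable_finsetSum s fun j hj => h j (Finset.mem_insert_of_mem hj))).trans ?_
    exact add_le_add le_rfl (ih fun j hj => h j (Finset.mem_insert_of_mem hj))

/-- multiplication: the multiplier is measured in the order `|t|`. -/
theorem nAz_mul_le (t : ℤ) {f g : E m → ℂ} (hf : InA 0 f) (hg : InA 0 g) :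
    nAz t (fun y => f y * g y) ≤ nA t.natAbs f * nAz t g := by
  refine le_trans (lintegral_mono fun ξ => mul_le_mul' le_rfl (enorm_fourier_mul_le hf hg ξ)) ?_
  exact lintegral_wz_cv_le t hf.measurable_enorm_fourier hg.measurable_enorm_fourier

theorem nAz_pdv_le (t : ℤ) {f : E m → ℂ} (h : InA 1 f) (a : Fin m) :
    nAz t (pdv a f) ≤ ENNReal.ofReal (2 * Real.pi) * nAz (t + 1) f := by
  unfold nAz nZ
  rw [← lintegral_const_mul' _ _ ENNReal.ofReal_ne_top]
  refine lintegral_mono fun ξ => ?_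
  rw [fourier_pdv h, enorm_mul, wz_add]
  have h1 : ‖(2 * Real.pi * Complex.I * (ξ a : ℂ))‖ₑ ≤ ENNReal.ofReal (2 * Real.pi) * wz 1 ξ := by
    unfold wz
    rw [← ENNReal.ofReal_mul (by positivity), ← ofReal_norm]
    refine ENNReal.ofReal_le_ofReal ?_
    have h2 : ‖(2 * Real.pi * Complex.I * (ξ a : ℂ))‖ = 2 * Real.pi * |ξ a| := by
      simp [abs_of_pos Real.pi_pos]
    rw [h2, zpow_one]
    have h3 : |ξ a| ≤ ‖ξ‖ := abs_apply_le_norm ξ a
    have := Real.pi_pos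
    nlinarith
  calc wz t ξ * (‖(2 * Real.pi * Complex.I * (ξ a : ℂ))‖ₑ * ‖𝓕 f ξ‖ₑ)
      ≤ wz t ξ * ((ENNReal.ofReal (2 * Real.pi) * wz 1 ξ) * ‖𝓕 f ξ‖ₑ) := by gcongr
    _ = _ := by ring

theorem nAz_pdv_pdv_le (t : ℤ) {f : E m → ℂ} (h : InA 2 f) (a b : Fin m) :
    nAz t (pdv a (pdv b f)) ≤ ENNReal.ofReal ((2 * Real.pi) ^ 2) * nAz (t + 2) f := by
  have h1 : InA 1 (pdv b f) := InA.pdv (r := 1) h b
  have h2 := nAz_pdv_le t h1 a
  have h3 := nAz_pdv_le (t + 1) (h.mono (by norm_num : 1 ≤ 2)) b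
  have h4 : t + 1 + 1 = t + 2 := by ring
  rw [h4] at h3
  calc nAz t (pdv a (pdv b f)) ≤ ENNReal.ofReal (2 * Real.pi) * nAz (t + 1) (pdv b f) := h2
    _ ≤ ENNReal.ofReal (2 * Real.pi) * (ENNReal.ofReal (2 * Real.pi) * nAz (t + 2) f) := by gcongr
    _ = _ := by
        rw [← mul_assoc, ← ENNReal.ofReal_mul (by positivity), sq]

/-- the Laplacian controls two more orders. -/
theorem nAz_add_two_le (t : ℤ) {f : E m → ℂ} (h : InA 2 f) :
    nAz (t + 2) f ≤ 2 * nAz t f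
      + ENNReal.ofReal (2 / (2 * Real.pi) ^ 2) * nAz t (fun y => ∑ a, pdv a (pdv a f) y) := by
  have hint : ∀ a ∈ (Finset.univ : Finset (Fin m)), Integrable (pdv a (pdv a f)) := fun a _ =>
    (InA.pdv (r := 0) (InA.pdv (r := 1) h a) a).integrable
  have hF : ∀ ξ, 𝓕 (fun y => ∑ a, pdv a (pdv a f) y) ξ
      = -(((2 * Real.pi) ^ 2 * ‖ξ‖ ^ 2 : ℝ) : ℂ) * 𝓕 f ξ := by
    intro ξ
    rw [fourier_sum _ hint]
    simp only [fourier_pdv_pdv h]
    rw [← Finset.sum_mul, ← Finset.mul_sum, EuclideanSpace.norm_sq_eq]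
    congr 1
    push_cast
    have : ∀ a : Fin m, ((‖ξ a‖ : ℝ) : ℂ) ^ 2 = ((ξ a : ℝ) : ℂ) * ((ξ a : ℝ) : ℂ) := by
      intro a
      rw [← Complex.ofReal_pow, Real.norm_eq_abs, sq_abs, sq, Complex.ofReal_mul]
    simp only [this]
    ring
  unfold nAz nZ
  have hfm : Measurable (fun ξ => wz t ξ * ‖𝓕 f ξ‖ₑ) :=
    (measurable_wz t).mul h.measurable_enorm_fourier
  rw [← lintegral_const_mul _ hfm, ← lintegral_const_mul' _ _ ENNReal.ofReal_ne_top,
    ← lintegral_add_left (hfm.const_mul 2)]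
  refine lintegral_mono fun ξ => ?_
  rw [hF, enorm_mul, wz_add]
  have h1 : ‖-(((2 * Real.pi) ^ 2 * ‖ξ‖ ^ 2 : ℝ) : ℂ)‖ₑ
      = ENNReal.ofReal ((2 * Real.pi) ^ 2 * ‖ξ‖ ^ 2) := by
    rw [enorm_neg, ← ofReal_norm, Complex.norm_real, Real.norm_of_nonneg (by positivity)]
  have h2 : wz 2 ξ ≤ 2 + ENNReal.ofReal (2 / (2 * Real.pi) ^ 2)
      * ENNReal.ofReal ((2 * Real.pi) ^ 2 * ‖ξ‖ ^ 2) := by
    unfold wz
    rw [← ENNReal.ofReal_mul (by positivity)]
    refine le_of_le_of_eq ?_ (by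
      rw [ENNReal.ofReal_add (by norm_num) (by positivity), ENNReal.ofReal_ofNat] :
      ENNReal.ofReal (2 + 2 / (2 * Real.pi) ^ 2 * ((2 * Real.pi) ^ 2 * ‖ξ‖ ^ 2)) = _)
    refine ENNReal.ofReal_le_ofReal ?_
    have hpi : (2 * Real.pi) ^ 2 ≠ 0 := by positivity
    have h4 : 2 / (2 * Real.pi) ^ 2 * ((2 * Real.pi) ^ 2 * ‖ξ‖ ^ 2) = 2 * ‖ξ‖ ^ 2 := by
      field_simp
    rw [h4]
    have h5 : (1 + ‖ξ‖) ^ (2 : ℤ) = (1 + ‖ξ‖) ^ (2 : ℕ) := by norm_cast
    rw [h5]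
    nlinarith [sq_nonneg (1 - ‖ξ‖)]
  rw [h1]
  calc wz t ξ * wz 2 ξ * ‖𝓕 f ξ‖ₑ
      ≤ wz t ξ * (2 + ENNReal.ofReal (2 / (2 * Real.pi) ^ 2)
        * ENNReal.ofReal ((2 * Real.pi) ^ 2 * ‖ξ‖ ^ 2)) * ‖𝓕 f ξ‖ₑ := by gcongr
    _ = _ := by ring

end Claimed.Agent.R322.Fit
end

/- ===== packed: Claimed.Agent.R322.Fit.Wiener.Syn ===== -/
section
/-!
# Row 322, Fit/Wiener: synthesis `𝓕⁻ c` of functions given on the Fourier side; multipliers   (architect helper281)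

`InZ r c` : `c` is (a.e. strongly) measurable and `∫ (1 + |ξ|)^r |c| < ∞`.  `𝓕⁻ c` is then a bounded `C^r` function, in general NOT
compactly supported; `χ · 𝓕⁻ c` belongs to `InA r` for `χ ∈ InA r` and its Fourier transform is `𝓕 χ ⋆ c`.

PLANS.
* `InZ.integrable`: `1 ≤ wz r`, `lintegral_mono`, `hasFiniteIntegral_iff_enorm`.
* `contDiff_syn`, `pdv_syn`: `𝓕⁻ c y = 𝓕 c (-y)` (`Real.fourierInv_eq_fourier_neg`), `Real.contDiff_fourier`,
  `Real.fderiv_fourier` / `Real.hasFDerivAt_fourier` (`fourierSMulRight`), chain rule with `neg`.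
* `fourier_syn_mul`, `InA.syn_mul`: literally the proof of `fourier_mul` (Calc.lean) with `𝓕 g` replaced by `c`:
  `H = c ⋆ 𝓕 χ` is integrable and continuous (`BddAbove.continuous_convolution_right_of_integrable`),
  `𝓕 H = 𝓕 c · 𝓕 (𝓕 χ)` (`Real.fourier_mul_convolution_eq`), so `𝓕⁻ H = χ · 𝓕⁻ c`, which is continuous with compact support,
  `Continuous.fourier_fourierInv_eq`.  Norms: `enorm_integral_le_lintegral_enorm`, `lintegral_wz_cv_le`; for measurability of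
  `‖c ·‖ₑ` replace `c` by `hc.meas.mk c` (a.e. equal: all integrals agree).
* `syn_conv`: `ψ ⋆ G` is continuous with compact support, `𝓕 (ψ ⋆ G) = 𝓕 ψ · 𝓕 G` (`Real.fourier_mul_convolution_eq`), which is
  integrable (bounded times integrable); `Continuous.fourierInv_fourier_eq`.
* `integral_syn_mul`: Fubini (`integral_integral_swap`), or `VectorFourier.integral_fourierIntegral_smul_eq_flip`.
-/

set_option autoImplicit false

open scoped ENNReal ContDiff Topology FourierTransform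
open MeasureTheory

namespace Claimed.Agent.R322.Fit

variable {m : ℕ}

/-- the weighted `L¹` class on the Fourier side. -/
structure InZ (r : ℕ) (c : E m → ℂ) : Prop where
  meas : AEStronglyMeasurable c volume
  fin : nZ (r : ℤ) c < ⊤

/-- the symbol `2 π i ξ_a` of `∂_a`. -/
noncomputable def sy (a : Fin m) (ξ : E m) : ℂ := 2 * Real.pi * Complex.I * (ξ a : ℂ)

/-! ### leaf L-Fit-Syn-A : the class -/

theorem InZ.mono {r r' : ℕ} {c : E m → ℂ} (h : InZ r' c) (hr : r ≤ r') : InZ r c :=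
  ⟨h.meas, (nZ_mono (by exact_mod_cast hr) c).trans_lt h.fin⟩

theorem InZ.integrable {r : ℕ} {c : E m → ℂ} (h : InZ r c) : Integrable c := by
  refine ⟨h.meas, ?_⟩
  refine lt_of_le_of_lt (lintegral_mono fun ξ => ?_) h.fin
  calc ‖c ξ‖ₑ = 1 * ‖c ξ‖ₑ := (one_mul _).symm
    _ ≤ wz (r : ℤ) ξ * ‖c ξ‖ₑ := by
        rw [wz_natCast]
        exact mul_le_mul' (one_le_wgt r ξ) le_rfl

theorem InZ.integrable_pow_mul {r : ℕ} {c : E m → ℂ} (h : InZ r c) {k : ℕ} (hk : k ≤ r) :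
    Integrable (fun ξ => ‖ξ‖ ^ k * ‖c ξ‖) := by
  refine ⟨(continuous_norm.pow k).aestronglyMeasurable.mul h.meas.norm, ?_⟩
  refine lt_of_le_of_lt (lintegral_mono fun ξ => ?_) h.fin
  rw [enorm_mul, enorm_norm, wz_natCast]
  refine mul_le_mul' ?_ le_rfl
  rw [Real.enorm_eq_ofReal (by positivity)]
  refine ENNReal.ofReal_le_ofReal ?_
  calc ‖ξ‖ ^ k ≤ (1 + ‖ξ‖) ^ k := pow_le_pow_left₀ (norm_nonneg _) (by linarith) k
    _ ≤ (1 + ‖ξ‖) ^ r := pow_le_pow_right₀ (one_le_base ξ) hk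

theorem nZ_add_le (t : ℤ) {c c' : E m → ℂ} (h : AEStronglyMeasurable c volume) :
    nZ t (fun ξ => c ξ + c' ξ) ≤ nZ t c + nZ t c' := by
  unfold nZ
  have hm : AEMeasurable (fun ξ => wz t ξ * ‖c ξ‖ₑ) :=
    (measurable_wz t).aemeasurable.mul h.enorm
  rw [← lintegral_add_left' hm]
  refine lintegral_mono fun ξ => ?_
  rw [← mul_add]
  exact mul_le_mul' le_rfl (enorm_add_le _ _)

theorem nZ_const_mul (t : ℤ) (z : ℂ) (c : E m → ℂ) :
    nZ t (fun ξ => z * c ξ) = ‖z‖ₑ * nZ t c := by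
  unfold nZ
  rw [← lintegral_const_mul' _ _ enorm_ne_top]
  refine lintegral_congr fun ξ => ?_
  rw [enorm_mul]
  ring

theorem InA.inZ {r : ℕ} {f : E m → ℂ} (h : InA r f) : InZ r (𝓕 f) :=
  ⟨(continuous_fourier h.integrable).aestronglyMeasurable, by
    have := nAz_natCast r f
    unfold nAz at this
    rw [this]
    exact h.fin⟩

theorem InZ.add {r : ℕ} {c c' : E m → ℂ} (h : InZ r c) (h' : InZ r c') :
    InZ r (fun ξ => c ξ + c' ξ) :=
  ⟨h.meas.add h'.meas, (nZ_add_le _ h.meas).trans_lt (ENNReal.add_lt_top.mpr ⟨h.fin, h'.fin⟩)⟩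

theorem InZ.const_mul {r : ℕ} {c : E m → ℂ} (h : InZ r c) (z : ℂ) : InZ r (fun ξ => z * c ξ) :=
  ⟨h.meas.const_mul z, by
    rw [nZ_const_mul]
    exact ENNReal.mul_lt_top enorm_lt_top h.fin⟩

theorem InZ.sub {r : ℕ} {c c' : E m → ℂ} (h : InZ r c) (h' : InZ r c') :
    InZ r (fun ξ => c ξ - c' ξ) := by
  have := h.add (h'.const_mul (-1))
  simpa [sub_eq_add_neg] using this

/-- a symbol of order `-k`. -/
theorem nZ_symbol_mul_le (t : ℤ) (k : ℕ) {σ c : E m → ℂ} {C : ℝ}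
    (hb : ∀ ξ, ‖σ ξ‖ * (1 + ‖ξ‖) ^ k ≤ C) :
    nZ (t + k) (fun ξ => σ ξ * c ξ) ≤ ENNReal.ofReal C * nZ t c := by
  unfold nZ
  rw [← lintegral_const_mul' _ _ ENNReal.ofReal_ne_top]
  refine lintegral_mono fun ξ => ?_
  rw [wz_add, enorm_mul, wz_natCast]
  have h1 : wgt k ξ * ‖σ ξ‖ₑ ≤ ENNReal.ofReal C := by
    unfold wgt
    rw [← ofReal_norm, ← ENNReal.ofReal_mul (by positivity)]
    refine ENNReal.ofReal_le_ofReal ?_
    rw [mul_comm]
    exact hb ξ
  calc wz t ξ * wgt k ξ * (‖σ ξ‖ₑ * ‖c ξ‖ₑ) = (wgt k ξ * ‖σ ξ‖ₑ) * (wz t ξ * ‖c ξ‖ₑ) := by ring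
    _ ≤ ENNReal.ofReal C * (wz t ξ * ‖c ξ‖ₑ) := mul_le_mul' h1 le_rfl

theorem InZ.symbol_mul {r k : ℕ} {σ c : E m → ℂ} {C : ℝ} (hσ : Measurable σ)
    (hb : ∀ ξ, ‖σ ξ‖ * (1 + ‖ξ‖) ^ k ≤ C) (h : InZ r c) : InZ (r + k) (fun ξ => σ ξ * c ξ) :=
  ⟨hσ.aestronglyMeasurable.mul h.meas, by
    rw [Nat.cast_add]
    exact (nZ_symbol_mul_le _ k hb).trans_lt (ENNReal.mul_lt_top ENNReal.ofReal_lt_top h.fin)⟩

theorem nZ_sy_mul_le (t : ℤ) (c : E m → ℂ) (a : Fin m) :
    nZ t (fun ξ => sy a ξ * c ξ) ≤ ENNReal.ofReal (2 * Real.pi) * nZ (t + 1) c := by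
  unfold nZ
  rw [← lintegral_const_mul' _ _ ENNReal.ofReal_ne_top]
  refine lintegral_mono fun ξ => ?_
  rw [enorm_mul, wz_add]
  have h1 : ‖sy a ξ‖ₑ ≤ ENNReal.ofReal (2 * Real.pi) * wz 1 ξ := by
    unfold wz sy
    rw [← ENNReal.ofReal_mul (by positivity), ← ofReal_norm]
    refine ENNReal.ofReal_le_ofReal ?_
    have h2 : ‖(2 * Real.pi * Complex.I * (ξ a : ℂ))‖ = 2 * Real.pi * |ξ a| := by
      simp [abs_of_pos Real.pi_pos]
    rw [h2, zpow_one]
    have h3 : |ξ a| ≤ ‖ξ‖ := abs_apply_le_norm ξ a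
    have := Real.pi_pos
    nlinarith
  calc wz t ξ * (‖sy a ξ‖ₑ * ‖c ξ‖ₑ)
      ≤ wz t ξ * ((ENNReal.ofReal (2 * Real.pi) * wz 1 ξ) * ‖c ξ‖ₑ) := by gcongr
    _ = _ := by ring

theorem continuous_sy (a : Fin m) : Continuous (sy a : E m → ℂ) := by
  unfold sy
  exact continuous_const.mul (Complex.continuous_ofReal.comp
    ((EuclideanSpace.proj a : E m →L[ℝ] ℝ).continuous))

theorem InZ.sy_mul {r : ℕ} {c : E m → ℂ} (h : InZ (r + 1) c) (a : Fin m) :
    InZ r (fun ξ => sy a ξ * c ξ) :=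
  ⟨(continuous_sy a).aestronglyMeasurable.mul h.meas, by
    refine (nZ_sy_mul_le _ c a).trans_lt (ENNReal.mul_lt_top ENNReal.ofReal_lt_top ?_)
    have := h.fin
    rwa [Nat.cast_add, Nat.cast_one] at this⟩

/-! ### leaf L-Fit-Syn-B : regularity and linearity of the synthesis -/

theorem syn_add {c c' : E m → ℂ} (h : Integrable c) (h' : Integrable c') (y : E m) :
    𝓕⁻ (fun ξ => c ξ + c' ξ) y = 𝓕⁻ c y + 𝓕⁻ c' y := by
  simp only [Real.fourierInv_eq_fourier_neg]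
  exact fourier_add h h' _

theorem syn_const_mul (z : ℂ) (c : E m → ℂ) (y : E m) :
    𝓕⁻ (fun ξ => z * c ξ) y = z * 𝓕⁻ c y := by
  simp only [Real.fourierInv_eq_fourier_neg]
  exact fourier_const_mul z c _

theorem syn_sub {c c' : E m → ℂ} (h : Integrable c) (h' : Integrable c') (y : E m) :
    𝓕⁻ (fun ξ => c ξ - c' ξ) y = 𝓕⁻ c y - 𝓕⁻ c' y := by
  have h1 := syn_add h (h'.const_mul (-1)) y
  rw [syn_const_mul] at h1
  simpa [sub_eq_add_neg] using h1

theorem syn_sum {ι : Type*} (s : Finset ι) {c : ι → E m → ℂ} (h : ∀ i ∈ s, Integrable (c i))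
    (y : E m) : 𝓕⁻ (fun ξ => ∑ i ∈ s, c i ξ) y = ∑ i ∈ s, 𝓕⁻ (c i) y := by
  simp only [Real.fourierInv_eq_fourier_neg]
  exact fourier_sum s h _

theorem enorm_syn_le (c : E m → ℂ) (y : E m) : ‖𝓕⁻ c y‖ₑ ≤ nZ 0 c := by
  rw [Real.fourierInv_eq]
  refine (enorm_integral_le_lintegral_enorm _).trans (le_of_eq ?_)
  unfold nZ
  refine lintegral_congr fun ξ => ?_
  have : wz 0 ξ = 1 := by simp [wz]
  rw [this, one_mul, enorm_eq_iff_norm_eq, Circle.norm_smul]

theorem contDiff_syn {r : ℕ} {c : E m → ℂ} (h : InZ r c) : ContDiff ℝ r (𝓕⁻ c) := by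
  have h1 : ContDiff ℝ ((r : ℕ∞)) (𝓕 c) :=
    Real.contDiff_fourier (fun n hn => h.integrable_pow_mul (by exact_mod_cast hn))
  have h2 : 𝓕⁻ c = fun x => 𝓕 c (-x) := by
    ext x
    exact Real.fourierInv_eq_fourier_neg c x
  rw [h2]
  exact h1.comp contDiff_neg

theorem pdv_syn {c : E m → ℂ} (h : InZ 1 c) (a : Fin m) (y : E m) :
    pdv a (𝓕⁻ c) y = 𝓕⁻ (fun ξ => sy a ξ * c ξ) y := by
  have hint : Integrable c := h.integrable
  have hv : Integrable (fun v => ‖v‖ * ‖c v‖) := by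
    have := h.integrable_pow_mul (k := 1) le_rfl
    simpa using this
  have h1 := Real.hasFDerivAt_fourier hint hv (-y)
  have h2 : 𝓕⁻ c = fun x => 𝓕 c (-x) := by
    ext x
    exact Real.fourierInv_eq_fourier_neg c x
  have h3 : HasFDerivAt (fun x : E m => 𝓕 c (-x))
      ((𝓕 (VectorFourier.fourierSMulRight (innerSL ℝ) c) (-y)) ∘L
        (-ContinuousLinearMap.id ℝ (E m))) y :=
    h1.comp y (hasFDerivAt_id y).neg
  have hS : Integrable (VectorFourier.fourierSMulRight (innerSL ℝ) c) := by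
    refine ⟨hint.1.fourierSMulRight, ?_⟩
    refine (hv.const_mul (2 * Real.pi * ‖(innerSL ℝ : E m →L[ℝ] E m →L[ℝ] ℝ)‖)).2.mono ?_
    refine Filter.Eventually.of_forall fun v => ?_
    refine (VectorFourier.norm_fourierSMulRight_le (innerSL ℝ) c v).trans (le_of_eq ?_)
    rw [Real.norm_of_nonneg (by positivity)]
    ring
  unfold pdv
  rw [h2, h3.fderiv, Real.fourierInv_eq_fourier_neg]
  show 𝓕 (VectorFourier.fourierSMulRight (innerSL ℝ) c) (-y)
    ((-ContinuousLinearMap.id ℝ (E m)) (EuclideanSpace.single a 1)) = _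
  rw [Real.fourier_continuousLinearMap_apply hS]
  refine congrArg (fun g : E m → ℂ => 𝓕 g (-y)) ?_
  funext v
  rw [VectorFourier.fourierSMulRight_apply]
  have h4 : (innerSL ℝ : E m →L[ℝ] E m →L[ℝ] ℝ) v
      ((-ContinuousLinearMap.id ℝ (E m)) (EuclideanSpace.single a 1)) = - v a := by
    show inner ℝ v (-(EuclideanSpace.single a (1 : ℝ))) = - v a
    rw [inner_neg_right, EuclideanSpace.inner_single_right]
    simp
  rw [h4]
  unfold sy
  simp only [smul_eq_mul, Complex.real_smul, Complex.ofReal_neg]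
  ring

theorem pdv_pdv_syn {c : E m → ℂ} (h : InZ 2 c) (a b : Fin m) (y : E m) :
    pdv a (pdv b (𝓕⁻ c)) y = 𝓕⁻ (fun ξ => sy a ξ * (sy b ξ * c ξ)) y := by
  have h1 : pdv b (𝓕⁻ c) = 𝓕⁻ (fun ξ => sy b ξ * c ξ) :=
    funext fun z => pdv_syn (h.mono (by norm_num)) b z
  rw [h1]
  exact pdv_syn (InZ.sy_mul (r := 1) h b) a y

/-! ### leaf L-Fit-Syn-C : products with members of `InA` -/

theorem fourier_syn_mul {χ c : E m → ℂ} (hχ : InA 0 χ) (hc : InZ 0 c) (ξ : E m) :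
    𝓕 (fun y => χ y * 𝓕⁻ c y) ξ = ∫ η, 𝓕 χ (ξ - η) * c η := by
  have hP : Integrable (𝓕 χ) := hχ.integrable_fourier
  have hQ : Integrable c := hc.integrable
  have hPc : Continuous (𝓕 χ) := continuous_fourier hχ.integrable
  have hbdd : BddAbove (Set.range fun x => ‖𝓕 χ x‖) :=
    ⟨∫ y, ‖χ y‖, by rintro _ ⟨x, rfl⟩; exact norm_fourier_le χ x⟩
  set H : E m → ℂ := convolution c (𝓕 χ) (ContinuousLinearMap.mul ℂ ℂ) volume with hH
  have hHint : Integrable H := hQ.integrable_convolution _ hP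
  have hHc : Continuous H := hbdd.continuous_convolution_right_of_integrable _ hQ hPc
  have hFH : ∀ y, 𝓕 H y = 𝓕 c y * 𝓕 (𝓕 χ) y := Real.fourier_mul_convolution_eq hQ hP
  have hFF : ∀ y, 𝓕 (𝓕 χ) y = χ (-y) := by
    intro y
    have := congrFun hχ.fourierInv (-y)
    rwa [Real.fourierInv_eq_fourier_neg, neg_neg] at this
  have hinv : 𝓕⁻ H = fun y => χ y * 𝓕⁻ c y := by
    ext y
    rw [Real.fourierInv_eq_fourier_neg, hFH, hFF, neg_neg, Real.fourierInv_eq_fourier_neg,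
      mul_comm]
  have hFHint : Integrable (𝓕 H) := by
    have h1 : 𝓕 H = fun y => 𝓕 c y * χ (-y) := by
      ext y
      rw [hFH, hFF]
    rw [h1]
    have hcont : Continuous (fun y => 𝓕 c y * χ (-y)) :=
      (continuous_fourier hQ).mul (hχ.cont.comp continuous_neg)
    refine hcont.integrable_of_hasCompactSupport ?_
    exact (hχ.supp.comp_homeomorph (Homeomorph.neg (E m))).mul_left
  have h2 := hHc.fourier_fourierInv_eq hHint hFHint
  rw [← hinv, h2, hH]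
  show ∫ t, (ContinuousLinearMap.mul ℂ ℂ) (c t) (𝓕 χ (ξ - t)) = _
  simp only [ContinuousLinearMap.mul_apply', mul_comm]

theorem nAz_syn_mul_le (t : ℤ) {χ c : E m → ℂ} (hχ : InA 0 χ) (hc : InZ 0 c) :
    nAz t (fun y => χ y * 𝓕⁻ c y) ≤ nA t.natAbs χ * nZ t c := by
  set c' := hc.meas.mk c with hc'
  have hae : c =ᵐ[volume] c' := hc.meas.ae_eq_mk
  have hm' : Measurable (fun ξ => ‖c' ξ‖ₑ) := hc.meas.stronglyMeasurable_mk.measurable.enorm
  have hpt : ∀ ξ, ‖𝓕 (fun y => χ y * 𝓕⁻ c y) ξ‖ₑ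
      ≤ cv (fun ξ => ‖𝓕 χ ξ‖ₑ) (fun ξ => ‖c' ξ‖ₑ) ξ := by
    intro ξ
    rw [fourier_syn_mul hχ hc]
    refine (enorm_integral_le_lintegral_enorm _).trans (le_of_eq ?_)
    unfold cv
    refine lintegral_congr_ae ?_
    filter_upwards [hae] with η hη
    rw [enorm_mul, hη]
  have hnZ : nZ t c = ∫⁻ ξ, wz t ξ * ‖c' ξ‖ₑ := by
    unfold nZ
    refine lintegral_congr_ae ?_
    filter_upwards [hae] with η hη
    rw [hη]
  rw [hnZ]
  refine le_trans (lintegral_mono fun ξ => mul_le_mul' le_rfl (hpt ξ)) ?_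
  exact lintegral_wz_cv_le t hχ.measurable_enorm_fourier hm'

theorem InA.syn_mul {r : ℕ} {χ c : E m → ℂ} (hχ : InA r χ) (hc : InZ r c) :
    InA r (fun y => χ y * 𝓕⁻ c y) := by
  refine ⟨hχ.cont.mul (contDiff_syn (hc.mono (Nat.zero_le r))).continuous, hχ.supp.mul_right, ?_⟩
  rw [← nAz_natCast]
  refine (nAz_syn_mul_le _ (hχ.mono (Nat.zero_le _)) (hc.mono (Nat.zero_le _))).trans_lt ?_
  rw [Int.natAbs_natCast]
  exact ENNReal.mul_lt_top hχ.fin hc.fin

/-! ### leaf L-Fit-Syn-D : convolution and pairing -/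

theorem syn_conv {ψ G : E m → ℂ} (hψ : InA 0 ψ) (hG : InA 0 G) (y : E m) :
    𝓕⁻ (fun ξ => 𝓕 ψ ξ * 𝓕 G ξ) y = ∫ z, ψ (y - z) * G z := by
  set K : E m → ℂ := convolution G ψ (ContinuousLinearMap.mul ℂ ℂ) volume with hK
  have hKint : Integrable K := hG.integrable.integrable_convolution _ hψ.integrable
  obtain ⟨B, hB⟩ := hψ.cont.bounded_above_of_compact_support hψ.supp
  have hbdd : BddAbove (Set.range fun x => ‖ψ x‖) := ⟨B, by rintro _ ⟨x, rfl⟩; exact hB x⟩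
  have hKc : Continuous K :=
    hbdd.continuous_convolution_right_of_integrable _ hG.integrable hψ.cont
  have hFK : ∀ ξ, 𝓕 K ξ = 𝓕 G ξ * 𝓕 ψ ξ :=
    Real.fourier_mul_convolution_eq hG.integrable hψ.integrable
  have hFKeq : 𝓕 K = fun ξ => 𝓕 ψ ξ * 𝓕 G ξ := by
    ext ξ
    rw [hFK, mul_comm]
  have hFKint : Integrable (𝓕 K) := by
    rw [hFKeq]
    exact hG.integrable_fourier.bdd_mul (c := ∫ y, ‖ψ y‖)
      (continuous_fourier hψ.integrable).aestronglyMeasurable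
      (Filter.Eventually.of_forall fun ξ => norm_fourier_le ψ ξ)
  have h := hKc.fourierInv_fourier_eq hKint hFKint
  rw [← hFKeq, h, hK]
  show ∫ t, (ContinuousLinearMap.mul ℂ ℂ) (G t) (ψ (y - t)) = _
  simp only [ContinuousLinearMap.mul_apply', mul_comm]

theorem integral_syn_mul {c φ : E m → ℂ} (hc : Integrable c) (hφ : Integrable φ) :
    ∫ y, 𝓕⁻ c y * φ y = ∫ ξ, c ξ * 𝓕⁻ φ ξ := by
  have hφ' : Integrable (fun y => φ (-y)) := hφ.comp_neg
  have h1 : ∫ y, 𝓕⁻ c y * φ y = ∫ y, 𝓕 c y * φ (-y) := by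
    rw [← integral_neg_eq_self]
    refine integral_congr_ae (Filter.Eventually.of_forall fun y => ?_)
    simp only [Real.fourierInv_eq_fourier_neg, neg_neg]
  have h2 : ∫ y, 𝓕 c y * φ (-y) = ∫ ξ, c ξ * 𝓕 (fun y => φ (-y)) ξ := by
    have := VectorFourier.integral_fourierIntegral_smul_eq_flip (L := innerₗ (E m))
      (μ := volume) (ν := volume) Real.continuous_fourierChar continuous_inner hc hφ'
    simpa using! this
  rw [h1, h2, Real.fourierInv_eq_fourier_comp_neg]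

theorem enorm_integral_syn_mul_le (q : ℕ) {c φ : E m → ℂ} (hc : Integrable c) (hφ : Integrable φ)
    {D : ℝ} (hD : ∀ ξ, ‖𝓕⁻ φ ξ‖ * (1 + ‖ξ‖) ^ q ≤ D) :
    ‖∫ y, 𝓕⁻ c y * φ y‖ₑ ≤ ENNReal.ofReal D * nZ (-(q : ℤ)) c := by
  rw [integral_syn_mul hc hφ]
  refine (enorm_integral_le_lintegral_enorm _).trans ?_
  unfold nZ
  rw [← lintegral_const_mul' _ _ ENNReal.ofReal_ne_top]
  refine lintegral_mono fun ξ => ?_
  rw [enorm_mul]
  have h1 : ‖𝓕⁻ φ ξ‖ₑ ≤ ENNReal.ofReal D * wz (-(q : ℤ)) ξ := by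
    unfold wz
    have hD0 : 0 ≤ D := le_trans (by positivity) (hD ξ)
    rw [← ENNReal.ofReal_mul hD0, ← ofReal_norm]
    refine ENNReal.ofReal_le_ofReal ?_
    rw [zpow_neg, zpow_natCast, ← div_eq_mul_inv, le_div_iff₀ (by positivity)]
    exact hD ξ
  calc ‖c ξ‖ₑ * ‖𝓕⁻ φ ξ‖ₑ ≤ ‖c ξ‖ₑ * (ENNReal.ofReal D * wz (-(q : ℤ)) ξ) :=
        mul_le_mul' le_rfl h1
    _ = _ := by ring

end Claimed.Agent.R322.Fit
end

/- ===== packed: Claimed.Agent.R322.Fit.Wiener.Weak ===== -/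
section
/-!
# Row 322, Fit/Wiener: weak bounds (against smooth tests) versus negative norms   (architect helper281)

`IsTst N O A φ` : `φ` is a smooth real function with `tsupport φ ⊆ O` and `|D^j φ| ≤ A` for `j ≤ N`.
`WeakLe N O f b` : `|∫ f φ| ≤ b A` for all such tests.

PLANS.
* `exists_decay`: `Real.pow_mul_norm_iteratedFDeriv_fourier_le` (as in the proof of `exists_nA_le`, Calc.lean) with `k = 0`, `n = 0, q`:
  `(1+|ξ|)^q |𝓕 φ ξ| ≤ 2^q (1 + |ξ|^q) |𝓕 φ ξ| ≤ C ∑_{j ≤ q} ∫ |D^j φ| ≤ C' vol(B_R) A`;  `𝓕⁻ φ ξ = 𝓕 φ (-ξ)`.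
* `weak_to_neg`: `𝓕 (χ f) ξ = ∫ f (χ cos(2π⟨·,ξ⟩)) - i ∫ f (χ sin(2π⟨·,ξ⟩))` (`Real.fourier_eq`, `Complex.exp_mul_I`); the two tests
  satisfy `IsTst N O (C (1+|ξ|)^N)`: `norm_iteratedFDeriv_mul_le`, and `|D^j cos(2π⟨·,ξ⟩)| ≤ (2π|ξ|)^j`
  (composition with the linear map `2π⟨·,ξ⟩`: `ContinuousLinearMap.iteratedFDeriv_comp_right`, `iteratedFDeriv_eq...`/
  `norm_iteratedFDeriv_eq_norm_iteratedDeriv`, `Real.iteratedDeriv_cos`-type bounds by induction).  Then integrate: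
  `wz (-(N+m+1)) ξ (1+|ξ|)^N = wz (-(m+1)) ξ`, `lintegral_wz_lt_top`.
* `neg_to_weak`: `enorm_integral_syn_mul_le` and `exists_decay`.
-/

set_option autoImplicit false

open scoped ENNReal ContDiff Topology FourierTransform
open MeasureTheory

namespace Claimed.Agent.R322.Fit

variable {m : ℕ}

/-- smooth real test functions with bounds. -/
structure IsTst (N : ℕ) (O : Set (E m)) (A : ℝ) (φ : E m → ℝ) : Prop where
  smooth : ContDiff ℝ ∞ φ
  supp : tsupport φ ⊆ O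
  bound : ∀ j : ℕ, j ≤ N → ∀ y, ‖iteratedFDeriv ℝ j φ y‖ ≤ A

/-- weak bound of order `N` on `O`. -/
def WeakLe (N : ℕ) (O : Set (E m)) (f : E m → ℂ) (b : ℝ) : Prop :=
  ∀ (φ : E m → ℝ) (A : ℝ), IsTst N O A φ → ‖∫ y, f y * (φ y : ℂ)‖ ≤ b * A

theorem IsTst.mono {N N' : ℕ} {O O' : Set (E m)} {A : ℝ} {φ : E m → ℝ} (h : IsTst N' O A φ)
    (hN : N ≤ N') (hO : O ⊆ O') : IsTst N O' A φ :=
  ⟨h.smooth, h.supp.trans hO, fun j hj => h.bound j (hj.trans hN)⟩

theorem WeakLe.mono {N N' : ℕ} {O O' : Set (E m)} {f : E m → ℂ} {b : ℝ} (h : WeakLe N O' f b)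
    (hN : N ≤ N') (hO : O ⊆ O') : WeakLe N' O f b :=
  fun φ A hφ => h φ A (hφ.mono hN hO)

/-! ### leaf L-Fit-Weak-A -/

theorem IsTst.nonneg {N : ℕ} {O : Set (E m)} {A : ℝ} {φ : E m → ℝ} (h : IsTst N O A φ) : 0 ≤ A :=
  (norm_nonneg _).trans (h.bound 0 (Nat.zero_le N) 0)

theorem IsTst.abs_le {N : ℕ} {O : Set (E m)} {A : ℝ} {φ : E m → ℝ} (h : IsTst N O A φ) (y : E m) :
    |φ y| ≤ A := by
  have := h.bound 0 (Nat.zero_le N) y
  rwa [norm_iteratedFDeriv_zero, Real.norm_eq_abs] at this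

theorem IsTst.hasCompactSupport {N : ℕ} {O : Set (E m)} {A : ℝ} {φ : E m → ℝ}
    (h : IsTst N O A φ) (hO : Bornology.IsBounded O) : HasCompactSupport φ :=
  Metric.isCompact_of_isClosed_isBounded (isClosed_tsupport φ) (hO.subset h.supp)

theorem IsTst.zero (N : ℕ) (O : Set (E m)) {A : ℝ} (hA : 0 ≤ A) :
    IsTst N O A (fun _ : E m => (0 : ℝ)) := by
  refine ⟨contDiff_const, ?_, fun j _ y => ?_⟩
  · have : tsupport (fun _ : E m => (0 : ℝ)) = ∅ := by
      rw [tsupport_eq_empty_iff]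
      rfl
    rw [this]
    exact Set.empty_subset _
  · have : iteratedFDeriv ℝ j (fun _ : E m => (0 : ℝ)) y = 0 := by
      have h0 := iteratedFDeriv_fun_zero (𝕜 := ℝ) (E := E m) (F := ℝ) (n := j)
      exact congrFun h0 y
    rw [this, norm_zero]
    exact hA

theorem WeakLe.nonneg {N : ℕ} {O : Set (E m)} {f : E m → ℂ} {b : ℝ} (h : WeakLe N O f b) :
    0 ≤ b := by
  have := h _ 1 (IsTst.zero N O zero_le_one)
  simpa using this

theorem norm_iteratedFDeriv_cx {φ : E m → ℝ} (hφ : ContDiff ℝ ∞ φ) (j : ℕ) (y : E m) :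
    ‖iteratedFDeriv ℝ j (cx φ) y‖ = ‖iteratedFDeriv ℝ j φ y‖ :=
  Complex.ofRealLI.norm_iteratedFDeriv_comp_left (n := ∞) hφ.contDiffAt
    (by exact_mod_cast le_top)

/-- decay of the Fourier transform of a `C^q` function with compact support. -/
theorem decay_aux (q : ℕ) {f : E m → ℂ} (hf : ContDiff ℝ q f) (hc : HasCompactSupport f)
    (w : E m) :
    (1 + ‖w‖) ^ q * ‖𝓕 f w‖
      ≤ (2 ^ (q - 1) * (1 + 2 ^ q)) * ∑ j ∈ Finset.range (q + 1), ∫ y, ‖iteratedFDeriv ℝ j f y‖ := by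
  set S : ℝ := ∑ j ∈ Finset.range (q + 1), ∫ y, ‖iteratedFDeriv ℝ j f y‖ with hS
  have hterm : ∀ j ∈ Finset.range (q + 1), 0 ≤ ∫ y, ‖iteratedFDeriv ℝ j f y‖ :=
    fun j _ => integral_nonneg fun y => norm_nonneg _
  have hint : ∀ (k n : ℕ), (k : ℕ∞) ≤ (0 : ℕ∞) → (n : ℕ∞) ≤ (q : ℕ∞) →
      Integrable (fun v : E m => ‖v‖ ^ k * ‖iteratedFDeriv ℝ n f v‖) := by
    intro k n _ hn
    have h1 : Continuous (fun v : E m => ‖v‖ ^ k * ‖iteratedFDeriv ℝ n f v‖) :=
      (continuous_norm.pow k).mul (hf.continuous_iteratedFDeriv (by exact_mod_cast hn)).norm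
    refine h1.integrable_of_hasCompactSupport ?_
    exact ((hc.iteratedFDeriv n).norm).mul_left
  have hb0 : ‖𝓕 f w‖ ≤ S := by
    refine (norm_fourier_le f w).trans ?_
    have : ∫ y, ‖f y‖ = ∫ y, ‖iteratedFDeriv ℝ 0 f y‖ := by simp
    rw [this]
    exact Finset.single_le_sum hterm (Finset.mem_range.mpr (by omega))
  have hbK : ‖w‖ ^ q * ‖𝓕 f w‖ ≤ 2 ^ q * S := by
    have h1 := Real.pow_mul_norm_iteratedFDeriv_fourier_le (K := 0) (N := (q : ℕ∞))
      (f := f) (by exact_mod_cast hf) hint (k := 0) (n := q) le_rfl le_rfl w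
    simp only [norm_iteratedFDeriv_zero, pow_zero, one_mul, Nat.cast_zero, mul_zero, zero_add,
      Finset.range_one, Finset.singleton_product, Finset.sum_map, Function.Embedding.coeFn_mk]
      at h1
    exact h1
  have h1 : (1 + ‖w‖) ^ q ≤ 2 ^ (q - 1) * (1 ^ q + ‖w‖ ^ q) :=
    add_pow_le zero_le_one (norm_nonneg w) q
  calc (1 + ‖w‖) ^ q * ‖𝓕 f w‖ ≤ (2 ^ (q - 1) * (1 ^ q + ‖w‖ ^ q)) * ‖𝓕 f w‖ :=
        mul_le_mul_of_nonneg_right h1 (norm_nonneg _)
    _ = 2 ^ (q - 1) * (‖𝓕 f w‖ + ‖w‖ ^ q * ‖𝓕 f w‖) := by rw [one_pow]; ring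
    _ ≤ 2 ^ (q - 1) * (S + 2 ^ q * S) :=
        mul_le_mul_of_nonneg_left (add_le_add hb0 hbK) (by positivity)
    _ = _ := by ring

/-- decay of the Fourier transform of a test function. -/
theorem exists_decay (m q : ℕ) (R : ℝ) : ∃ C : ℝ, 0 ≤ C ∧ ∀ (φ : E m → ℝ) (A : ℝ),
    IsTst q (Metric.ball 0 R) A φ →
    ∀ ξ, ‖𝓕 (cx φ) ξ‖ * (1 + ‖ξ‖) ^ q ≤ C * A ∧ ‖𝓕⁻ (cx φ) ξ‖ * (1 + ‖ξ‖) ^ q ≤ C * A := by
  set V : ℝ := (volume : Measure (E m)).real (Metric.ball 0 R) with hV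
  have hV0 : 0 ≤ V := measureReal_nonneg
  refine ⟨(2 ^ (q - 1) * (1 + 2 ^ q)) * (((q : ℝ) + 1) * V), by positivity, ?_⟩
  intro φ A hφ
  have hA := hφ.nonneg
  have hcs : HasCompactSupport (cx φ) :=
    hasCompactSupport_cx (hφ.hasCompactSupport Metric.isBounded_ball)
  have hcd : ContDiff ℝ q (cx φ) :=
    (contDiff_cx (k := ⊤) hφ.smooth).of_le (by exact_mod_cast le_top)
  have hI : ∀ j ∈ Finset.range (q + 1), ∫ y, ‖iteratedFDeriv ℝ j (cx φ) y‖ ≤ A * V := by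
    intro j hj
    have hj' : j ≤ q := by have := Finset.mem_range.mp hj; omega
    have hzero : ∀ y, y ∉ Metric.ball (0 : E m) R → ‖iteratedFDeriv ℝ j (cx φ) y‖ = 0 := by
      intro y hy
      rw [norm_iteratedFDeriv_cx hφ.smooth, norm_eq_zero]
      by_contra hne
      exact hy (hφ.supp (support_iteratedFDeriv_subset (𝕜 := ℝ) j hne))
    rw [← setIntegral_eq_integral_of_forall_compl_eq_zero hzero]
    have h2 := norm_setIntegral_le_of_norm_le_const (μ := (volume : Measure (E m)))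
      (s := Metric.ball (0 : E m) R) (f := fun y => ‖iteratedFDeriv ℝ j (cx φ) y‖) (C := A)
      measure_ball_lt_top (fun y _ => by
        rw [norm_norm, norm_iteratedFDeriv_cx hφ.smooth]
        exact hφ.bound j hj' y)
    exact (le_abs_self _).trans h2
  have hS : ∑ j ∈ Finset.range (q + 1), ∫ y, ‖iteratedFDeriv ℝ j (cx φ) y‖
      ≤ ((q : ℝ) + 1) * V * A := by
    calc ∑ j ∈ Finset.range (q + 1), ∫ y, ‖iteratedFDeriv ℝ j (cx φ) y‖
        ≤ ∑ _j ∈ Finset.range (q + 1), A * V := Finset.sum_le_sum hI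
      _ = ((q : ℝ) + 1) * V * A := by
          rw [Finset.sum_const, Finset.card_range, nsmul_eq_mul]
          push_cast
          ring
  have key : ∀ w : E m, ‖𝓕 (cx φ) w‖ * (1 + ‖w‖) ^ q
      ≤ (2 ^ (q - 1) * (1 + 2 ^ q)) * (((q : ℝ) + 1) * V) * A := by
    intro w
    rw [mul_comm]
    refine (decay_aux q hcd hcs w).trans ?_
    calc (2 ^ (q - 1) * (1 + 2 ^ q)) * ∑ j ∈ Finset.range (q + 1), ∫ y, ‖iteratedFDeriv ℝ j (cx φ) y‖
        ≤ (2 ^ (q - 1) * (1 + 2 ^ q)) * (((q : ℝ) + 1) * V * A) :=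
          mul_le_mul_of_nonneg_left hS (by positivity)
      _ = _ := by ring
  intro ξ
  refine ⟨key ξ, ?_⟩
  rw [Real.fourierInv_eq_fourier_neg]
  have := key (-ξ)
  rwa [norm_neg] at this

/-- a negative norm on the Fourier side bounds the pairing with tests. -/
theorem neg_to_weak (m q : ℕ) (R : ℝ) : ∃ C : ℝ, 0 ≤ C ∧ ∀ c : E m → ℂ, InZ 0 c →
    WeakLe q (Metric.ball 0 R) (𝓕⁻ c) (C * (nZ (-(q : ℤ)) c).toReal) := by
  obtain ⟨C, hC0, hC⟩ := exists_decay m q R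
  refine ⟨C, hC0, fun c hc φ A hφ => ?_⟩
  have hφint : Integrable (cx φ) :=
    (contDiff_cx (k := ⊤) hφ.smooth).continuous.integrable_of_hasCompactSupport
      (hasCompactSupport_cx (hφ.hasCompactSupport Metric.isBounded_ball))
  have h1 := enorm_integral_syn_mul_le q hc.integrable hφint (D := C * A)
    (fun ξ => (hC φ A hφ ξ).2)
  have hfin : nZ (-(q : ℤ)) c < ⊤ :=
    (nZ_mono (by simp) c).trans_lt hc.fin
  have h2 : ‖∫ y, 𝓕⁻ c y * cx φ y‖ ≤ (ENNReal.ofReal (C * A) * nZ (-(q : ℤ)) c).toReal := by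
    rw [← toReal_enorm]
    exact ENNReal.toReal_mono (ENNReal.mul_lt_top ENNReal.ofReal_lt_top hfin).ne h1
  rw [ENNReal.toReal_mul, ENNReal.toReal_ofReal (mul_nonneg hC0 hφ.nonneg)] at h2
  calc ‖∫ y, 𝓕⁻ c y * (φ y : ℂ)‖ ≤ C * A * (nZ (-(q : ℤ)) c).toReal := h2
    _ = _ := by ring

/-- an `L¹` bound is a weak bound of order `0`. -/
theorem weakLe_of_integral {f : E m → ℂ} (hf : Integrable f) {a : ℝ} (ha : ∫ y, ‖f y‖ ≤ a)
    (O : Set (E m)) : WeakLe 0 O f a := by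
  intro φ A hφ
  have h1 : ‖∫ y, f y * (φ y : ℂ)‖ ≤ ∫ y, A * ‖f y‖ := by
    refine norm_integral_le_of_norm_le (hf.norm.const_mul A)
      (Filter.Eventually.of_forall fun y => ?_)
    rw [norm_mul, Complex.norm_real, Real.norm_eq_abs, mul_comm]
    exact mul_le_mul_of_nonneg_right (hφ.abs_le y) (norm_nonneg _)
  rw [integral_const_mul] at h1
  calc ‖∫ y, f y * (φ y : ℂ)‖ ≤ A * ∫ y, ‖f y‖ := h1
    _ ≤ A * a := mul_le_mul_of_nonneg_left ha hφ.nonneg
    _ = a * A := mul_comm _ _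

theorem IsTst.integrable_mul {N : ℕ} {O : Set (E m)} {A : ℝ} {φ : E m → ℝ} (h : IsTst N O A φ)
    (hO : Bornology.IsBounded O) {f : E m → ℂ} (hf : Continuous f) :
    Integrable (fun y => f y * (φ y : ℂ)) :=
  (hf.mul (Complex.continuous_ofReal.comp h.smooth.continuous)).integrable_of_hasCompactSupport
    (hasCompactSupport_cx (h.hasCompactSupport hO)).mul_left

theorem WeakLe.add {N : ℕ} {O : Set (E m)} {f g : E m → ℂ} {b b' : ℝ} (hf : WeakLe N O f b)
    (hg : WeakLe N O g b') (hfc : Continuous f) (hgc : Continuous g) (hO : Bornology.IsBounded O) :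
    WeakLe N O (fun y => f y + g y) (b + b') := by
  intro φ A hφ
  have h1 : ∫ y, (f y + g y) * (φ y : ℂ) = (∫ y, f y * (φ y : ℂ)) + ∫ y, g y * (φ y : ℂ) := by
    rw [← integral_add (hφ.integrable_mul hO hfc) (hφ.integrable_mul hO hgc)]
    simp only [add_mul]
  rw [h1, add_mul]
  exact (norm_add_le _ _).trans (add_le_add (hf φ A hφ) (hg φ A hφ))

theorem WeakLe.sub {N : ℕ} {O : Set (E m)} {f g : E m → ℂ} {b b' : ℝ} (hf : WeakLe N O f b)
    (hg : WeakLe N O g b') (hfc : Continuous f) (hgc : Continuous g) (hO : Bornology.IsBounded O) :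
    WeakLe N O (fun y => f y - g y) (b + b') := by
  intro φ A hφ
  have h1 : ∫ y, (f y - g y) * (φ y : ℂ) = (∫ y, f y * (φ y : ℂ)) - ∫ y, g y * (φ y : ℂ) := by
    rw [← integral_sub (hφ.integrable_mul hO hfc) (hφ.integrable_mul hO hgc)]
    simp only [sub_mul]
  rw [h1, add_mul]
  exact (norm_sub_le _ _).trans (add_le_add (hf φ A hφ) (hg φ A hφ))

/-- only the values on `O` matter. -/
theorem WeakLe.congr {N : ℕ} {O : Set (E m)} {f g : E m → ℂ} {b : ℝ} (hf : WeakLe N O f b)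
    (h : ∀ y ∈ O, f y = g y) : WeakLe N O g b := by
  intro φ A hφ
  have h1 : ∫ y, g y * (φ y : ℂ) = ∫ y, f y * (φ y : ℂ) := by
    refine integral_congr_ae (Filter.Eventually.of_forall fun y => ?_)
    by_cases hy : y ∈ O
    · simp only [h y hy]
    · have : φ y = 0 := image_eq_zero_of_notMem_tsupport fun hy' => hy (hφ.supp hy')
      simp only [this, Complex.ofReal_zero, mul_zero]
  rw [h1]
  exact hf φ A hφ

/-! ### leaf L-Fit-Weak-B -/

theorem norm_iteratedFDeriv_comp_clm_le {g : ℝ → ℝ} (hg : ContDiff ℝ ∞ g)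
    (hb : ∀ (l : ℕ) (t : ℝ), |iteratedDeriv l g t| ≤ 1) (L : E m →L[ℝ] ℝ) (l : ℕ) (y : E m) :
    ‖iteratedFDeriv ℝ l (fun y => g (L y)) y‖ ≤ ‖L‖ ^ l := by
  have h2 := L.iteratedFDeriv_comp_right hg y (i := l) (by exact_mod_cast le_top)
  have h3 : g ∘ L = fun y => g (L y) := rfl
  rw [h3] at h2
  rw [h2]
  refine (ContinuousMultilinearMap.norm_compContinuousLinearMap_le _ _).trans ?_
  rw [Finset.prod_const, Finset.card_univ, Fintype.card_fin,
    norm_iteratedFDeriv_eq_norm_iteratedDeriv, Real.norm_eq_abs]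
  calc |iteratedDeriv l g (L y)| * ‖L‖ ^ l ≤ 1 * ‖L‖ ^ l :=
        mul_le_mul_of_nonneg_right (hb l _) (by positivity)
    _ = ‖L‖ ^ l := one_mul _

/-- a cutoff times an oscillation is a test function. -/
theorem isTst_mul_osc (N : ℕ) {χ : E m → ℝ} (hχ : ContDiff ℝ ∞ χ) {P : ℝ}
    (hP : ∀ i ≤ N, ∀ y, ‖iteratedFDeriv ℝ i χ y‖ ≤ P) {g : ℝ → ℝ} (hg : ContDiff ℝ ∞ g)
    (hb : ∀ (l : ℕ) (t : ℝ), |iteratedDeriv l g t| ≤ 1) {O : Set (E m)} (hO : tsupport χ ⊆ O)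
    (L : E m →L[ℝ] ℝ) :
    IsTst N O (2 ^ N * P * (1 + ‖L‖) ^ N) (fun y => χ y * g (L y)) := by
  have hP0 : 0 ≤ P := (norm_nonneg _).trans (hP 0 (Nat.zero_le N) 0)
  have hgL : ContDiff ℝ ∞ (fun y => g (L y)) := hg.comp L.contDiff
  refine ⟨hχ.mul hgL, tsupport_mul_subset_left.trans hO, fun j hj y => ?_⟩
  refine (norm_iteratedFDeriv_mul_le hχ hgL y (n := j) (by exact_mod_cast le_top)).trans ?_
  have h1 : (1 : ℝ) ≤ 1 + ‖L‖ := by have := norm_nonneg L; linarith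
  calc ∑ i ∈ Finset.range (j + 1), (j.choose i : ℝ) * ‖iteratedFDeriv ℝ i χ y‖
          * ‖iteratedFDeriv ℝ (j - i) (fun y => g (L y)) y‖
      ≤ ∑ i ∈ Finset.range (j + 1), (j.choose i : ℝ) * P * (1 + ‖L‖) ^ N := by
        refine Finset.sum_le_sum fun i hi => ?_
        have hi' : i ≤ N := by have := Finset.mem_range.mp hi; omega
        refine mul_le_mul (mul_le_mul_of_nonneg_left (hP i hi' y) (Nat.cast_nonneg _)) ?_
          (norm_nonneg _) (mul_nonneg (Nat.cast_nonneg _) hP0)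
        calc ‖iteratedFDeriv ℝ (j - i) (fun y => g (L y)) y‖ ≤ ‖L‖ ^ (j - i) :=
              norm_iteratedFDeriv_comp_clm_le hg hb L _ y
          _ ≤ (1 + ‖L‖) ^ (j - i) := pow_le_pow_left₀ (norm_nonneg _) (by linarith) _
          _ ≤ (1 + ‖L‖) ^ N := pow_le_pow_right₀ h1 (by omega)
    _ = (2 : ℝ) ^ j * P * (1 + ‖L‖) ^ N := by
        rw [← Finset.sum_mul, ← Finset.sum_mul]
        congr 2
        exact_mod_cast Nat.sum_range_choose j
    _ ≤ (2 : ℝ) ^ N * P * (1 + ‖L‖) ^ N := by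
        have : (2 : ℝ) ^ j ≤ 2 ^ N := pow_le_pow_right₀ (by norm_num) hj
        gcongr

/-- the phase `y ↦ 2 π ⟨ξ, y⟩`. -/
noncomputable def phL (ξ : E m) : E m →L[ℝ] ℝ := (2 * Real.pi) • innerSL ℝ ξ

theorem phL_apply (ξ y : E m) : phL ξ y = 2 * Real.pi * inner ℝ ξ y := rfl

theorem one_add_norm_phL_le (ξ : E m) : 1 + ‖phL ξ‖ ≤ 2 * Real.pi * (1 + ‖ξ‖) := by
  have h1 : ‖phL ξ‖ ≤ 2 * Real.pi * ‖ξ‖ := by
    unfold phL
    rw [norm_smul, Real.norm_of_nonneg (by positivity), innerSL_apply_norm]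
  have h2 : (1 : ℝ) ≤ 2 * Real.pi := by have := Real.pi_gt_three; linarith
  nlinarith

theorem fourier_cutoff_eq {χ : E m → ℝ} (hχ : Continuous χ) (hc : HasCompactSupport χ)
    {f : E m → ℂ} (hf : Continuous f) (ξ : E m) :
    𝓕 (fun y => (χ y : ℂ) * f y) ξ
      = (∫ y, f y * ((χ y * Real.cos (phL ξ y) : ℝ) : ℂ))
        - Complex.I * ∫ y, f y * ((χ y * Real.sin (phL ξ y) : ℝ) : ℂ) := by
  have hi : ∀ g : ℝ → ℝ, Continuous g →
      Integrable (fun y => f y * ((χ y * g (phL ξ y) : ℝ) : ℂ)) := by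
    intro g hg
    have hcont : Continuous (fun y => f y * ((χ y * g (phL ξ y) : ℝ) : ℂ)) :=
      hf.mul (Complex.continuous_ofReal.comp (hχ.mul (hg.comp (phL ξ).continuous)))
    refine hcont.integrable_of_hasCompactSupport ?_
    have h1 : HasCompactSupport (fun y => χ y * g (phL ξ y)) := hc.mul_right
    exact (h1.comp_left (g := fun x : ℝ => (x : ℂ)) (by simp)).mul_left
  rw [← integral_const_mul, ← integral_sub (hi _ Real.continuous_cos)
    ((hi _ Real.continuous_sin).const_mul _), Real.fourier_eq]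
  refine integral_congr_ae (Filter.Eventually.of_forall fun y => ?_)
  simp only
  rw [Circle.smul_def, Real.fourierChar_apply, smul_eq_mul]
  have h1 : ((2 * Real.pi * -inner ℝ y ξ : ℝ) : ℂ) = -((phL ξ y : ℝ) : ℂ) := by
    rw [phL_apply, real_inner_comm]
    push_cast
    ring
  rw [h1, neg_mul, Complex.exp_neg, ← Complex.exp_neg, ← neg_mul, ← Complex.ofReal_neg,
    Complex.exp_mul_I, ← Complex.ofReal_cos, ← Complex.ofReal_sin, Real.cos_neg, Real.sin_neg]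
  push_cast
  ring

/-- a weak bound gives polynomial growth of the Fourier transform of a cutoff, hence a negative norm. -/
theorem weak_to_neg (N : ℕ) (χ : E m → ℝ) (hχ : ContDiff ℝ ∞ χ) (hc : HasCompactSupport χ) :
    ∃ C : ℝ, 0 ≤ C ∧ ∀ (O : Set (E m)) (f : E m → ℂ) (b : ℝ), tsupport χ ⊆ O → Continuous f →
      WeakLe N O f b →
      nAz (-((N : ℤ) + m + 1)) (fun y => (χ y : ℂ) * f y) ≤ ENNReal.ofReal (C * b) := by
  obtain ⟨P, hP0, hP⟩ : ∃ P : ℝ, 0 ≤ P ∧ ∀ i ≤ N, ∀ y, ‖iteratedFDeriv ℝ i χ y‖ ≤ P := by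
    have h1 : ∀ i : ℕ, ∃ P : ℝ, ∀ y, ‖iteratedFDeriv ℝ i χ y‖ ≤ P := by
      intro i
      exact (hχ.continuous_iteratedFDeriv (by exact_mod_cast le_top)).bounded_above_of_compact_support
        (hc.iteratedFDeriv i)
    choose P hP using h1
    refine ⟨∑ i ∈ Finset.range (N + 1), |P i|, Finset.sum_nonneg fun _ _ => abs_nonneg _,
      fun i hi y => ?_⟩
    exact ((hP i y).trans (le_abs_self _)).trans
      (Finset.single_le_sum (f := fun i => |P i|) (fun _ _ => abs_nonneg _)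
        (Finset.mem_range.mpr (by omega)))
  set I : ℝ≥0∞ := ∫⁻ ξ : E m, wz (-((m : ℤ) + 1)) ξ with hI
  have hIfin : I < ⊤ := lintegral_wz_lt_top m
  set K : ℝ := 2 * (2 ^ N * P * (2 * Real.pi) ^ N) with hK
  have hK0 : 0 ≤ K := by positivity
  refine ⟨K * I.toReal, by positivity, ?_⟩
  intro O f b hO hf hw
  have hb0 := hw.nonneg
  have hpt : ∀ ξ : E m, ‖𝓕 (fun y => (χ y : ℂ) * f y) ξ‖ ≤ K * b * (1 + ‖ξ‖) ^ N := by
    intro ξ
    rw [fourier_cutoff_eq hχ.continuous hc hf]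
    have hcos := hw _ _ (isTst_mul_osc N hχ hP Real.contDiff_cos
      Real.abs_iteratedDeriv_cos_le_one hO (phL ξ))
    have hsin := hw _ _ (isTst_mul_osc N hχ hP Real.contDiff_sin
      Real.abs_iteratedDeriv_sin_le_one hO (phL ξ))
    have hA : 2 ^ N * P * (1 + ‖phL ξ‖) ^ N ≤ 2 ^ N * P * (2 * Real.pi) ^ N * (1 + ‖ξ‖) ^ N := by
      rw [mul_assoc (2 ^ N * P), ← mul_pow]
      exact mul_le_mul_of_nonneg_left
        (pow_le_pow_left₀ (by positivity) (one_add_norm_phL_le ξ) N) (by positivity)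
    refine (norm_sub_le _ _).trans ?_
    rw [norm_mul, Complex.norm_I, one_mul]
    calc _ ≤ b * (2 ^ N * P * (1 + ‖phL ξ‖) ^ N) + b * (2 ^ N * P * (1 + ‖phL ξ‖) ^ N) :=
          add_le_add hcos hsin
      _ = 2 * b * (2 ^ N * P * (1 + ‖phL ξ‖) ^ N) := by ring
      _ ≤ 2 * b * (2 ^ N * P * (2 * Real.pi) ^ N * (1 + ‖ξ‖) ^ N) :=
          mul_le_mul_of_nonneg_left hA (by positivity)
      _ = _ := by rw [hK]; ring
  calc nAz (-((N : ℤ) + m + 1)) (fun y => (χ y : ℂ) * f y)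
      ≤ ∫⁻ ξ : E m, ENNReal.ofReal (K * b) * wz (-((m : ℤ) + 1)) ξ := by
        refine lintegral_mono fun ξ => ?_
        have h1 : ‖𝓕 (fun y => (χ y : ℂ) * f y) ξ‖ₑ ≤ ENNReal.ofReal (K * b) * wz (N : ℤ) ξ := by
          unfold wz
          rw [← ENNReal.ofReal_mul (by positivity), ← ofReal_norm, zpow_natCast]
          exact ENNReal.ofReal_le_ofReal (hpt ξ)
        have h2 : wz (-((N : ℤ) + m + 1)) ξ * wz (N : ℤ) ξ = wz (-((m : ℤ) + 1)) ξ := by
          rw [← wz_add]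
          congr 1
          ring
        calc wz (-((N : ℤ) + m + 1)) ξ * ‖𝓕 (fun y => (χ y : ℂ) * f y) ξ‖ₑ
            ≤ wz (-((N : ℤ) + m + 1)) ξ * (ENNReal.ofReal (K * b) * wz (N : ℤ) ξ) :=
              mul_le_mul' le_rfl h1
          _ = ENNReal.ofReal (K * b) * (wz (-((N : ℤ) + m + 1)) ξ * wz (N : ℤ) ξ) := by ring
          _ = _ := by rw [h2]
    _ = ENNReal.ofReal (K * b) * I := lintegral_const_mul' _ _ ENNReal.ofReal_ne_top
    _ = ENNReal.ofReal (K * I.toReal * b) := by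
        conv_lhs => rw [← ENNReal.ofReal_toReal hIfin.ne]
        rw [← ENNReal.ofReal_mul (by positivity)]
        congr 1
        ring

end Claimed.Agent.R322.Fit
end

/- ===== packed: Claimed.Agent.R322.Base.Ops.Local ===== -/
section
/-!
# Row 322, Base/Ops: corollaries of the area formula

* `W.locality` : `Dh ∘ P = 0` a.e. on `{h = 0}` for `C¹` maps `h`;
* `W.ae_fibre_finite`, `W.ae_fibre_jac_pos` : for a.e. value `y` of a `C¹` map the fibre in a
  compact set is finite and contains no point where the tangential Jacobian vanishes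
  (this is what makes the integer count `N(y)` and the fibre multisets of `Sx.Sys` meaningful);
* `W.lintegral_count` : the area formula with the count restricted to a Borel set.

PLANS.
* `locality`: compare the area formula for the graph map `g x = mkHV x (h x) : E ((m+n)+k)` and for
  the isometric embedding `ι x = mkHV x 0`, both with `φ = indicator (Z ∩ K)`,
  `Z = {x ∈ A | h x = 0}` (relatively closed in `A`, hence Borel), `K ⊆ A` compact.
  The fibre sums coincide because `g = ι` on `Z`.  Hence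
  `∫⁻_{Z ∩ K} ofReal (tanJac P Dg) dμ = ∫⁻_{Z ∩ K} ofReal (tanJac P ι) dμ = μ (Z ∩ K) < ∞`
  (`tanJac_isometry`), while `tanJac P Dg ≥ 1` with equality only if `Dh ∘ P = 0`
  (`one_le_tanJac_graph`, `‖Dg v‖² = ‖v‖² + ‖Dh v‖²`).  `ae_eq_of_ae_le_of_lintegral_le`.
  Exhaust `A` by countably many compact sets (`IsOpen.exists_iUnion_isClosed` ∩ closed balls, or
  `exists_compact_exhaustion`-type: `CompactExhaustion` of the locally compact σ-compact `A`).
* `ae_fibre_finite`: area formula with `φ = indicator K`; right side `≤ C μ K < ∞`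
  (`exists_tanJac_bound`, `fderiv g` is bounded on `K`); `ae_lt_top'` with `fib_meas`;
  a sum of terms `≥ 1` in `ℝ≥0∞` is finite only over a finite set (`ENNReal.tsum_const_eq_top_of_ne_zero`
  / `ENNReal.tsum_eq_top_of_infinite`-type).
* `ae_fibre_jac_pos`: area formula with `φ = indicator {tanJac = 0}`: right side `0`;
  `lintegral_eq_zero_iff'`; `ENNReal.tsum_eq_zero`; `θ ≥ 1`.
-/

set_option autoImplicit false

open scoped ENNReal ContDiff Topology
open MeasureTheory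

namespace Claimed.Agent.R322

variable {m n : ℕ}

namespace SIV

open Base

theorem loc_measurable_fderiv {k : ℕ} (g : E (m + n) → E k) : Measurable (fderiv ℝ g) :=
  measurable_fderiv ℝ g

theorem loc_measurable_pair (W : SIV m n) {k : ℕ} (g : E (m + n) → E k)
    (h0 : Measurable (fderiv ℝ g)) : Measurable (fun x => (W.P x, fderiv ℝ g x)) :=
  W.P_meas.prodMk h0

theorem loc_measurable_tanJac2 {k : ℕ} :
    Measurable (fun p : (E (m + n) →L[ℝ] E (m + n)) × (E (m + n) →L[ℝ] E k) =>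
      tanJac p.1 p.2) := (continuous_tanJac (m + n) k).measurable

/-- Borel measurability of `x ↦ tanJac (P x) (Dg x)` (no assumption on `g`). -/
theorem loc_measurable_tanJac (W : SIV m n) {k : ℕ} (g : E (m + n) → E k) :
    Measurable (fun x => tanJac (W.P x) (fderiv ℝ g x)) := by
  have h1 := loc_measurable_pair W g (loc_measurable_fderiv g)
  have h2 := loc_measurable_tanJac2 (m := m) (n := n) (k := k)
  exact Measurable.comp (g := fun p : (E (m + n) →L[ℝ] E (m + n)) × (E (m + n) →L[ℝ] E k) =>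
      tanJac p.1 p.2) (f := fun x => (W.P x, fderiv ℝ g x)) h2 h1

/-- if the right side of the area formula vanishes for the indicator of `S`, almost no fibre
meets `S`. -/
theorem loc_fibre_null (W : SIV m n) {k : ℕ} {A : Set (E (m + n))} (hA : IsOpen A)
    (hAU : A ⊆ W.U) {g : E (m + n) → E k} (hg : ContDiffOn ℝ 1 g A) {S : Set (E (m + n))}
    (hS : MeasurableSet S)
    (h0 : ∫⁻ x in A, S.indicator (fun _ => (1 : ℝ≥0∞)) x *
      ENNReal.ofReal (tanJac (W.P x) (fderiv ℝ g x)) ∂(wt m W.M W.θ) = 0) :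
    ∀ᵐ y ∂(μH[(m : ℝ)] : Measure (E k)), ∀ x ∈ W.M ∩ A, g x = y → x ∉ S := by
  have hφ : Measurable (S.indicator (fun _ => (1 : ℝ≥0∞))) := measurable_const.indicator hS
  have e := W.area k A g _ hA hAU hg hφ
  rw [h0] at e
  have h1 := (lintegral_eq_zero_iff' (W.fib_meas k A g _ hA hAU hg hφ)).mp e
  filter_upwards [h1] with y hy x hx hxy hxS
  have h2 := ENNReal.tsum_eq_zero.mp hy ⟨x, hx, hxy⟩
  have h3 : (1 : ℕ) ≤ W.θ x := W.θ_pos x hx.1
  simp only [Set.indicator_of_mem hxS, mul_one, Nat.cast_eq_zero] at h2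
  omega

/-- the isometric embedding `(x, z) ↦ mkHV x z` as a continuous linear map. -/
noncomputable def locIn (N k : ℕ) : (E N × E k) →L[ℝ] E (N + k) :=
  LinearMap.toContinuousLinearMap
    { toFun := fun p => mkHV p.1 p.2
      map_add' := fun p q => by
        ext i
        refine Fin.addCases (fun j => ?_) (fun j => ?_) i <;> simp [mkHV]
      map_smul' := fun c p => by
        ext i
        refine Fin.addCases (fun j => ?_) (fun j => ?_) i <;> simp [mkHV] }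

theorem locIn_norm_sq (N k : ℕ) (v : E N) (w : E k) :
    ‖locIn N k (v, w)‖ ^ 2 = ‖v‖ ^ 2 + ‖w‖ ^ 2 := by
  simp [locIn, mkHV, EuclideanSpace.norm_sq_eq, Fin.sum_univ_add]

/-- locality on one compact piece. -/
theorem loc_locality_compact (W : SIV m n) {k : ℕ} {A : Set (E (m + n))} (hA : IsOpen A)
    (hAU : A ⊆ W.U) {h : E (m + n) → E k} (hh : ContDiffOn ℝ 1 h A) {K : Set (E (m + n))}
    (hK : IsCompact K) (hKA : K ⊆ A) :
    ∀ᵐ x ∂W.μ, x ∈ K → h x = 0 → fderiv ℝ h x ∘L W.P x = 0 := by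
  set S : Set (E (m + n)) := K ∩ h ⁻¹' {0} with hSdef
  have hSc : IsClosed S :=
    (hh.continuousOn.mono hKA).preimage_isClosed_of_isClosed hK.isClosed isClosed_singleton
  have hS : MeasurableSet S := hSc.measurableSet
  have hφ : Measurable (S.indicator (fun _ => (1 : ℝ≥0∞))) := measurable_const.indicator hS
  set g : E (m + n) → E ((m + n) + k) := fun x => locIn (m + n) k (x, h x) with hgdef
  set ι : E (m + n) → E ((m + n) + k) := fun x => locIn (m + n) k (x, 0) with hιdef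
  have hg : ContDiffOn ℝ 1 g A :=
    (locIn (m + n) k).contDiff.comp_contDiffOn (contDiffOn_id.prodMk hh)
  have hι : ContDiffOn ℝ 1 ι A :=
    (locIn (m + n) k).contDiff.comp_contDiffOn (contDiffOn_id.prodMk contDiffOn_const)
  have e1 := W.area _ A g _ hA hAU hg hφ
  have e2 := W.area _ A ι _ hA hAU hι hφ
  -- the fibre sums coincide
  have hfib : ∀ y : E ((m + n) + k),
      (∑' x : {x // x ∈ W.M ∩ A ∧ g x = y}, (W.θ x : ℝ≥0∞) * S.indicator (fun _ => (1 : ℝ≥0∞)) x)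
      = ∑' x : {x // x ∈ W.M ∩ A ∧ ι x = y},
          (W.θ x : ℝ≥0∞) * S.indicator (fun _ => (1 : ℝ≥0∞)) x := by
    intro y
    have t1 := tsum_subtype {x | x ∈ W.M ∩ A ∧ g x = y}
      (fun x => (W.θ x : ℝ≥0∞) * S.indicator (fun _ => (1 : ℝ≥0∞)) x)
    have t2 := tsum_subtype {x | x ∈ W.M ∩ A ∧ ι x = y}
      (fun x => (W.θ x : ℝ≥0∞) * S.indicator (fun _ => (1 : ℝ≥0∞)) x)
    refine t1.trans (Eq.trans ?_ t2.symm)
    congr 1
    funext x
    by_cases hx : x ∈ S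
    · have hgx : g x = ι x := by
        have : h x = 0 := hx.2
        simp only [hgdef, hιdef, this]
      by_cases hm : x ∈ W.M ∩ A ∧ ι x = y
      · have hm' : x ∈ W.M ∩ A ∧ g x = y := ⟨hm.1, hgx.trans hm.2⟩
        rw [Set.indicator_of_mem (show x ∈ {x | x ∈ W.M ∩ A ∧ g x = y} from hm'),
          Set.indicator_of_mem (show x ∈ {x | x ∈ W.M ∩ A ∧ ι x = y} from hm)]
      · have hm' : ¬ (x ∈ W.M ∩ A ∧ g x = y) := fun h' => hm ⟨h'.1, hgx.symm.trans h'.2⟩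
        rw [Set.indicator_of_notMem (show x ∉ {x | x ∈ W.M ∩ A ∧ g x = y} from hm'),
          Set.indicator_of_notMem (show x ∉ {x | x ∈ W.M ∩ A ∧ ι x = y} from hm)]
    · simp [Set.indicator, hx]
  have e3 : ∫⁻ x in A, S.indicator (fun _ => (1 : ℝ≥0∞)) x *
      ENNReal.ofReal (tanJac (W.P x) (fderiv ℝ g x)) ∂(wt m W.M W.θ)
      = ∫⁻ x in A, S.indicator (fun _ => (1 : ℝ≥0∞)) x *
      ENNReal.ofReal (tanJac (W.P x) (fderiv ℝ ι x)) ∂(wt m W.M W.θ) := by
    rw [← e1, ← e2]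
    exact lintegral_congr hfib
  -- the derivative of the embedding
  have hJι : ∀ x, tanJac (W.P x) (fderiv ℝ ι x) = 1 := by
    intro x
    have hd : fderiv ℝ ι x = (locIn (m + n) k) ∘L
        (ContinuousLinearMap.inl ℝ (E (m + n)) (E k)) := by
      have : ι = ⇑((locIn (m + n) k) ∘L (ContinuousLinearMap.inl ℝ (E (m + n)) (E k))) := by
        funext z
        simp [hιdef]
      rw [this]
      exact ContinuousLinearMap.fderiv _
    rw [hd]
    refine tanJac_isometry (W.P_proj x) _ fun v => ?_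
    have h1 := locIn_norm_sq (m + n) k v 0
    have h2 : ((locIn (m + n) k) ∘L (ContinuousLinearMap.inl ℝ (E (m + n)) (E k))) v
        = locIn (m + n) k (v, 0) := by simp
    rw [h2]
    have h3 : ‖locIn (m + n) k (v, 0)‖ ^ 2 = ‖v‖ ^ 2 := by simpa using h1
    exact (pow_left_inj₀ (norm_nonneg _) (norm_nonneg _) two_ne_zero).mp h3
  -- the derivative of the graph map
  have hJg : ∀ x ∈ A, 1 ≤ tanJac (W.P x) (fderiv ℝ g x) ∧
      (tanJac (W.P x) (fderiv ℝ g x) = 1 → fderiv ℝ h x ∘L W.P x = 0) := by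
    intro x hx
    have hdh : HasFDerivAt h (fderiv ℝ h x) x :=
      ((hh.differentiableOn (by simp)).differentiableAt (hA.mem_nhds hx)).hasFDerivAt
    have hd : fderiv ℝ g x = (locIn (m + n) k) ∘L
        ((ContinuousLinearMap.id ℝ (E (m + n))).prod (fderiv ℝ h x)) :=
      ((locIn (m + n) k).hasFDerivAt.comp x ((hasFDerivAt_id x).prodMk hdh)).fderiv
    rw [hd]
    refine one_le_tanJac_graph (W.P_proj x) _ (fderiv ℝ h x) fun v => ?_
    exact locIn_norm_sq (m + n) k v (fderiv ℝ h x v)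
  simp only [hJι, ENNReal.ofReal_one, mul_one] at e3
  have hfin : ∫⁻ x in A, S.indicator (fun _ => (1 : ℝ≥0∞)) x ∂(wt m W.M W.θ) ≠ ⊤ := by
    have h1 : ∫⁻ x in A, S.indicator (fun _ => (1 : ℝ≥0∞)) x ∂(wt m W.M W.θ)
        ≤ wt m W.M W.θ K := by
      refine (setLIntegral_le_lintegral _ _).trans ?_
      rw [lintegral_indicator hS, setLIntegral_const, one_mul]
      exact measure_mono Set.inter_subset_left
    exact ne_top_of_le_ne_top (W.locfin K hK (hKA.trans hAU)).ne h1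
  have hae := ae_eq_of_ae_le_of_lintegral_le (μ := (wt m W.M W.θ).restrict A)
    (f := S.indicator (fun _ => (1 : ℝ≥0∞)))
    (g := fun x => S.indicator (fun _ => (1 : ℝ≥0∞)) x *
      ENNReal.ofReal (tanJac (W.P x) (fderiv ℝ g x)))
    (by
      refine (ae_restrict_iff' hA.measurableSet).mpr (Filter.Eventually.of_forall fun x hx => ?_)
      have h1 : (1 : ℝ≥0∞) ≤ ENNReal.ofReal (tanJac (W.P x) (fderiv ℝ g x)) := by
        rw [← ENNReal.ofReal_one]
        exact ENNReal.ofReal_le_ofReal (hJg x hx).1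
      exact le_mul_of_one_le_right zero_le h1)
    hfin
    ((hφ.mul (W.loc_measurable_tanJac g).ennreal_ofReal).aemeasurable)
    e3.le
  have hae' := (ae_restrict_iff' hA.measurableSet).mp hae
  have hae'' : ∀ᵐ x ∂W.μ, x ∈ A → S.indicator (fun _ => (1 : ℝ≥0∞)) x
      = S.indicator (fun _ => (1 : ℝ≥0∞)) x *
        ENNReal.ofReal (tanJac (W.P x) (fderiv ℝ g x)) := hae'
  filter_upwards [hae''] with x hx hxK hx0
  have hxS : x ∈ S := ⟨hxK, hx0⟩
  have h1 := hx (hKA hxK)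
  simp only [Set.indicator_of_mem hxS, one_mul] at h1
  refine (hJg x (hKA hxK)).2 ?_
  have h2 : ENNReal.ofReal (tanJac (W.P x) (fderiv ℝ g x)) = ENNReal.ofReal 1 := by
    rw [← h1, ENNReal.ofReal_one]
  exact (ENNReal.ofReal_eq_ofReal_iff (tanJac_nonneg _ _) zero_le_one).mp h2

/-- **Locality of the tangential derivative.** -/
theorem locality (W : SIV m n) {k : ℕ} {A : Set (E (m + n))} (hA : IsOpen A) (hAU : A ⊆ W.U)
    {h : E (m + n) → E k} (hh : ContDiffOn ℝ 1 h A) :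
    ∀ᵐ x ∂W.μ, x ∈ A → h x = 0 → fderiv ℝ h x ∘L W.P x = 0 := by
  obtain ⟨F, hFc, -, hFU, -⟩ := hA.exists_iUnion_isClosed
  have hall : ∀ i j : ℕ, ∀ᵐ x ∂W.μ, x ∈ F i ∩ Metric.closedBall 0 (j : ℝ) → h x = 0 →
      fderiv ℝ h x ∘L W.P x = 0 := by
    intro i j
    refine W.loc_locality_compact hA hAU hh
      ((isCompact_closedBall _ _).inter_left (hFc i)) ?_
    intro x hx
    rw [← hFU]
    exact Set.mem_iUnion.mpr ⟨i, hx.1⟩
  have hall' := ae_all_iff.mpr fun i => ae_all_iff.mpr (hall i)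
  filter_upwards [hall'] with x hx hxA hx0
  rw [← hFU] at hxA
  obtain ⟨i, hi⟩ := Set.mem_iUnion.mp hxA
  obtain ⟨j, hj⟩ := exists_nat_ge ‖x‖
  exact hx i j ⟨hi, by simpa using hj⟩ hx0

/-- two `C¹` maps have the same tangential derivative almost everywhere on their coincidence
set. -/
theorem locality_eq (W : SIV m n) {k : ℕ} {A : Set (E (m + n))} (hA : IsOpen A) (hAU : A ⊆ W.U)
    {h₁ h₂ : E (m + n) → E k} (hh₁ : ContDiffOn ℝ 1 h₁ A) (hh₂ : ContDiffOn ℝ 1 h₂ A) :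
    ∀ᵐ x ∂W.μ, x ∈ A → h₁ x = h₂ x → fderiv ℝ h₁ x ∘L W.P x = fderiv ℝ h₂ x ∘L W.P x := by
  have h := W.locality hA hAU (hh₁.sub hh₂)
  filter_upwards [h] with x hx hxA hxe
  have h1 : DifferentiableAt ℝ h₁ x :=
    (hh₁.differentiableOn (by simp)).differentiableAt (hA.mem_nhds hxA)
  have h2 : DifferentiableAt ℝ h₂ x :=
    (hh₂.differentiableOn (by simp)).differentiableAt (hA.mem_nhds hxA)
  have h3 := hx hxA (by simp [hxe])
  have h4 : fderiv ℝ (fun x => h₁ x - h₂ x) x = fderiv ℝ h₁ x - fderiv ℝ h₂ x :=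
    fderiv_fun_sub h1 h2
  rw [h4, ContinuousLinearMap.sub_comp, sub_eq_zero] at h3
  exact h3

/-- for almost every value the fibre in a compact set is finite. -/
theorem ae_fibre_finite (W : SIV m n) {k : ℕ} {A : Set (E (m + n))} (hA : IsOpen A)
    (hAU : A ⊆ W.U) {g : E (m + n) → E k} (hg : ContDiffOn ℝ 1 g A) {K : Set (E (m + n))}
    (hK : IsCompact K) (hKA : K ⊆ A) :
    ∀ᵐ y ∂(μH[(m : ℝ)] : Measure (E k)), {x | x ∈ W.M ∩ K ∧ g x = y}.Finite := by
  have hKm : MeasurableSet K := hK.isClosed.measurableSet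
  have hφ : Measurable (K.indicator (fun _ => (1 : ℝ≥0∞))) := measurable_const.indicator hKm
  have e := W.area k A g _ hA hAU hg hφ
  -- bound of the derivative on `K`
  have hcont : ContinuousOn (fderiv ℝ g) K :=
    (hg.continuousOn_fderiv_of_isOpen hA (by simp)).mono hKA
  obtain ⟨a, ha⟩ := hK.exists_bound_of_continuousOn hcont
  obtain ⟨C, hC0, hC⟩ := exists_tanJac_bound (m + n) k a
  have hfin : ∫⁻ x in A, K.indicator (fun _ => (1 : ℝ≥0∞)) x *
      ENNReal.ofReal (tanJac (W.P x) (fderiv ℝ g x)) ∂(wt m W.M W.θ) ≠ ⊤ := by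
    have h1 : ∫⁻ x in A, K.indicator (fun _ => (1 : ℝ≥0∞)) x *
        ENNReal.ofReal (tanJac (W.P x) (fderiv ℝ g x)) ∂(wt m W.M W.θ)
        ≤ ∫⁻ x, K.indicator (fun _ => ENNReal.ofReal C) x ∂(wt m W.M W.θ) := by
      refine (setLIntegral_le_lintegral _ _).trans (lintegral_mono fun x => ?_)
      by_cases hx : x ∈ K
      · simp only [Set.indicator_of_mem hx, one_mul]
        exact ENNReal.ofReal_le_ofReal (hC m _ _ (W.P_proj x) (ha x hx))
      · simp [Set.indicator_of_notMem hx]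
    rw [lintegral_indicator hKm, setLIntegral_const] at h1
    exact ne_top_of_le_ne_top
      (ENNReal.mul_ne_top ENNReal.ofReal_ne_top (W.locfin K hK (hKA.trans hAU)).ne) h1
  rw [← e] at hfin
  have h1 := ae_lt_top' (W.fib_meas k A g _ hA hAU hg hφ) hfin
  filter_upwards [h1] with y hy
  have h2 := ENNReal.finite_const_le_of_tsum_ne_top hy.ne (one_ne_zero)
  refine (h2.image Subtype.val).subset ?_
  rintro x ⟨⟨hxM, hxK⟩, hxy⟩
  refine ⟨⟨x, ⟨hxM, hKA hxK⟩, hxy⟩, ?_, rfl⟩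
  have h3 : (1 : ℕ) ≤ W.θ x := W.θ_pos x hxM
  simp only [Set.mem_ofPred_eq, Set.indicator_of_mem hxK, mul_one]
  exact_mod_cast h3

/-- for almost every value the fibre contains no critical point. -/
theorem ae_fibre_jac_pos (W : SIV m n) {k : ℕ} {A : Set (E (m + n))} (hA : IsOpen A)
    (hAU : A ⊆ W.U) {g : E (m + n) → E k} (hg : ContDiffOn ℝ 1 g A) :
    ∀ᵐ y ∂(μH[(m : ℝ)] : Measure (E k)), ∀ x ∈ W.M ∩ A, g x = y →
      0 < tanJac (W.P x) (fderiv ℝ g x) := by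
  have hS : MeasurableSet {x | tanJac (W.P x) (fderiv ℝ g x) = 0} :=
    (W.loc_measurable_tanJac g) (measurableSet_singleton (0 : ℝ))
  have h := W.loc_fibre_null hA hAU hg hS (by
    refine lintegral_eq_zero_of_ae_eq_zero (Filter.Eventually.of_forall fun x => ?_)
    by_cases hx : x ∈ {x | tanJac (W.P x) (fderiv ℝ g x) = 0}
    · have hx' : tanJac (W.P x) (fderiv ℝ g x) = 0 := hx
      simp [hx']
    · simp [Set.indicator_of_notMem hx])
  filter_upwards [h] with y hy x hx hxy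
  exact lt_of_le_of_ne (tanJac_nonneg _ _) (fun h0 => hy x hx hxy h0.symm)

/-- a `μ`-null Borel set is not seen by almost every fibre, up to critical points:
for a.e. `y` no point of the fibre lies in a given `μ`-null set. -/
theorem ae_fibre_avoid (W : SIV m n) {k : ℕ} {A : Set (E (m + n))} (hA : IsOpen A)
    (hAU : A ⊆ W.U) {g : E (m + n) → E k} (hg : ContDiffOn ℝ 1 g A) {Z : Set (E (m + n))}
    (hZ : W.μ Z = 0) :
    ∀ᵐ y ∂(μH[(m : ℝ)] : Measure (E k)), ∀ x ∈ W.M ∩ A, g x = y → x ∉ Z := by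
  have hm : MeasurableSet (toMeasurable W.μ Z) := measurableSet_toMeasurable _ _
  have hZ' : wt m W.M W.θ (toMeasurable W.μ Z) = 0 := by
    have : W.μ (toMeasurable W.μ Z) = 0 := by rw [measure_toMeasurable]; exact hZ
    exact this
  have h := W.loc_fibre_null hA hAU hg hm (by
    refine le_antisymm ?_ zero_le
    refine (setLIntegral_le_lintegral _ _).trans ?_
    have h1 : (fun x => (toMeasurable W.μ Z).indicator (fun _ => (1 : ℝ≥0∞)) x *
        ENNReal.ofReal (tanJac (W.P x) (fderiv ℝ g x)))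
        = (toMeasurable W.μ Z).indicator
          (fun x => ENNReal.ofReal (tanJac (W.P x) (fderiv ℝ g x))) := by
      funext x
      by_cases hx : x ∈ toMeasurable W.μ Z
      · simp [Set.indicator_of_mem hx]
      · simp [Set.indicator_of_notMem hx]
    rw [h1, lintegral_indicator hm, setLIntegral_measure_zero _ _ hZ'])
  filter_upwards [h] with y hy x hx hxy hxZ
  exact hy x hx hxy (subset_toMeasurable _ _ hxZ)

end SIV

end Claimed.Agent.R322
end
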