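/- Packed by merge_tool.py (helper293): 5 modules of Claimed.Agent.R322 in one file, same declarations.
   Old modules, in this order: Fit.Pde.Defs, Fit.Wiener.Scale, Fit.Wiener.Vec, Fit.Wiener.Mult, Fit.Pde.Interior -/
import Claimed.Agent.R322.Pack002
import Claimed.Agent.R322.Pack021
import Claimed.Agent.R322.Pack047

/- ===== packed: Claimed.Agent.R322.Fit.Pde.Defs ===== -/
section
/-!
# Row 322, Fit/Pde: small perturbations of the Laplacian in the Wiener scale: definitions   (architect helper281)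

`c.op w = Δ w^α + Y^{ab} ∂_ab w^α + B^{e}_{αγ} ∂_e w^γ` for systems `w : Fin n → E m → ℂ`.
`c.size r = ∑ nA r Y + ∑ nA r B`.
-/

set_option autoImplicit false

open scoped ENNReal ContDiff Topology FourierTransform
open MeasureTheory

namespace Claimed.Agent.R322.Fit

variable {m n : ℕ}

/-- coefficients of the perturbation (complex valued functions on `E m`). -/
structure CCoef (m n : ℕ) where
  Y : Fin m → Fin m → E m → ℂ
  B : Fin m → Fin n → Fin n → E m → ℂ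

namespace CCoef

/-- the operator `Δ + Y ∂² + B ∂`. -/
noncomputable def op (c : CCoef m n) (w : Fin n → E m → ℂ) (α : Fin n) (y : E m) : ℂ :=
  ∑ a, pdv a (pdv a (w α)) y + ∑ a, ∑ b, c.Y a b y * pdv a (pdv b (w α)) y
    + ∑ e, ∑ γ, c.B e α γ y * pdv e (w γ) y

/-- total size of the coefficients in `A^r`. -/
noncomputable def size (c : CCoef m n) (r : ℕ) : ℝ≥0∞ :=
  ∑ a, ∑ b, nA r (c.Y a b) + ∑ e, ∑ α, ∑ γ, nA r (c.B e α γ)

/-- the coefficients belong to `A^r`. -/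
structure Reg (c : CCoef m n) (r : ℕ) : Prop where
  Y : ∀ a b, InA r (c.Y a b)
  B : ∀ e α γ, InA r (c.B e α γ)

theorem size_mono (c : CCoef m n) {r r' : ℕ} (h : r ≤ r') : c.size r ≤ c.size r' := by
  unfold size
  refine add_le_add ?_ ?_
  · exact Finset.sum_le_sum fun a _ => Finset.sum_le_sum fun b _ => nA_mono h _
  · exact Finset.sum_le_sum fun e _ => Finset.sum_le_sum fun α _ => Finset.sum_le_sum fun γ _ =>
      nA_mono h _

theorem Reg.mono {c : CCoef m n} {r r' : ℕ} (hc : c.Reg r') (h : r ≤ r') : c.Reg r :=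
  ⟨fun a b => (hc.Y a b).mono h, fun e α γ => (hc.B e α γ).mono h⟩

/-- the operator is local. -/
theorem op_congr (c : CCoef m n) {w w' : Fin n → E m → ℂ} {y : E m} (h : ∀ α, w α =ᶠ[𝓝 y] w' α)
    (α : Fin n) : c.op w α y = c.op w' α y := by
  unfold op
  have h1 : ∀ γ e, pdv e (w γ) y = pdv e (w' γ) y := fun γ e => Boot.pdv_congr (h γ) e
  have h2 : ∀ γ a b, pdv a (pdv b (w γ)) y = pdv a (pdv b (w' γ)) y := fun γ a b =>
    Boot.pdv_congr (Boot.pdv_eventuallyEq (h γ) b) a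
  simp only [h1, h2]

end CCoef

end Claimed.Agent.R322.Fit
end

/- ===== packed: Claimed.Agent.R322.Fit.Wiener.Scale ===== -/
section
/-!
# Row 322, Fit/Wiener: the Wiener scale at length scale `ℓ`, vector valued maps, tests at scale `ℓ`   (architect helper281)

DEFINITIONS (the interface of the elliptic package, used by Fits/*):
* `nAl r ℓ f = ∫ (1 + ℓ|ξ|)^r |𝓕 f ξ| dξ` for `f : E m → ℂ`;  `Zm x ℓ f z = f (x + ℓ z)` (zoom);  `nA r (Zm x ℓ f) = nAl r ℓ f`.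
* components of `w : E m → E n` : `Boot.cxv w α y = (w y α : ℂ)`;  `VIn r w` : all components are in `A^r`;
  `vAl r ℓ w = ∑_α nAl r ℓ (cxv w α)`;  `sAl r ℓ w = ∑_a vAl r ℓ (∂_a w)` (norm of the slopes).
* `IsTsl N O ℓ A ζ` : `ζ` smooth, `tsupport ζ ⊆ O`, `ℓ^j |D^j ζ| ≤ A` for `j ≤ N`;
  `WeakV N O ℓ w b` : `|∫ ⟪w, ζ⟫| ≤ b A` for all such `ζ : E m → E n`.
* `cH m` : `μH[m] = cH m • volume` on `E m`.

PLANS.
* `enorm_fourier_Zm`: `Real.fourier_eq`; substitution `y = x + ℓ z` (`integral_add_left_eq_self`, `Measure.integral_comp_smul`):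
  `𝓕 (Zm x ℓ f) ξ = ℓ^{-m} e^{2πi⟪x,ξ⟫/ℓ} 𝓕 f (ξ/ℓ)`.
* `nA_Zm`: `enorm_fourier_Zm` and the substitution `ξ = ℓ η` in the `lintegral` (`Measure.map_addHaar_smul`, `lintegral_map`).
* all rules for `nAl` follow from those for `nA` through `nA_Zm` with `x = 0` (`Zm` commutes with sums and products,
  `pdv a (Zm x ℓ f) = ℓ Zm x ℓ (pdv a f)` : `Boot.pdv_comp_affine`), or directly (monotonicity: pointwise in `ξ`).
* `norm_iteratedFDeriv_le_nAl`: `f = (𝓕 (𝓕 f)) ∘ neg` (as in `InA.contDiff`), `Real.norm_iteratedFDeriv_fourier_le`-type bound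
  `|D^j 𝓕 g| ≤ (2π)^j ∫ |ξ|^j |g|`, and `(ℓ|ξ|)^j ≤ (1 + ℓ|ξ|)^j`.
-/

set_option autoImplicit false

open scoped ENNReal ContDiff Topology FourierTransform RealInnerProductSpace
open MeasureTheory

namespace Claimed.Agent.R322.Fit

variable {m n : ℕ}

/-! ### definitions -/

/-- the weight at scale `ℓ`. -/
noncomputable def wgl (r : ℕ) (ℓ : ℝ) (ξ : E m) : ℝ≥0∞ := ENNReal.ofReal ((1 + ℓ * ‖ξ‖) ^ r)

/-- the Wiener norm at scale `ℓ`. -/
noncomputable def nAl (r : ℕ) (ℓ : ℝ) (f : E m → ℂ) : ℝ≥0∞ := ∫⁻ ξ, wgl r ℓ ξ * ‖𝓕 f ξ‖ₑ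

/-- zoom: `z ↦ f (x + ℓ z)`. -/
def Zm {F : Type*} (x : E m) (ℓ : ℝ) (f : E m → F) (z : E m) : F := f (x + ℓ • z)

/-- all components are in `A^r`. -/
def VIn (r : ℕ) (w : E m → E n) : Prop := ∀ α, InA r (Boot.cxv w α)

/-- the Wiener norm at scale `ℓ` of a vector valued map. -/
noncomputable def vAl (r : ℕ) (ℓ : ℝ) (w : E m → E n) : ℝ≥0∞ := ∑ α, nAl r ℓ (Boot.cxv w α)

/-- the Wiener norm at scale `ℓ` of the slopes of a vector valued map. -/
noncomputable def sAl (r : ℕ) (ℓ : ℝ) (w : E m → E n) : ℝ≥0∞ := ∑ a, vAl r ℓ (pdv a w)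

/-- smooth tests at scale `ℓ`. -/
structure IsTsl {F : Type*} [NormedAddCommGroup F] [NormedSpace ℝ F] (N : ℕ) (O : Set (E m))
    (ℓ A : ℝ) (ζ : E m → F) : Prop where
  smooth : ContDiff ℝ ∞ ζ
  supp : tsupport ζ ⊆ O
  bound : ∀ j : ℕ, j ≤ N → ∀ y, ℓ ^ j * ‖iteratedFDeriv ℝ j ζ y‖ ≤ A

/-- weak bound of order `N` at scale `ℓ` on `O` of a vector valued map. -/
def WeakV (N : ℕ) (O : Set (E m)) (ℓ : ℝ) (w : E m → E n) (b : ℝ) : Prop :=
  ∀ (ζ : E m → E n) (A : ℝ), IsTsl N O ℓ A ζ → |∫ y, ⟪w y, ζ y⟫| ≤ b * A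

/-- the constant with `μH[m] = cH m • volume` on `E m`. -/
noncomputable def cH (m : ℕ) : ℝ :=
  ((μH[(m : ℝ)] : Measure (E m)).addHaarScalarFactor (volume : Measure (E m)) : ℝ)

/-- unzoom: `y ↦ g ((y - x)/ℓ)`. -/
noncomputable def Uz {F : Type*} (x : E m) (ℓ : ℝ) (g : E m → F) (y : E m) : F := g (ℓ⁻¹ • (y - x))

/-! ### the weight: elementary facts (proved) -/

theorem measurable_wgl (r : ℕ) (ℓ : ℝ) : Measurable (wgl r ℓ : E m → ℝ≥0∞) :=
  ENNReal.measurable_ofReal.comp (by fun_prop)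

theorem wgl_one (r : ℕ) (ξ : E m) : wgl r 1 ξ = wgt r ξ := by
  simp [wgl, wgt]

theorem wgl_zero (ℓ : ℝ) (ξ : E m) : wgl 0 ℓ ξ = 1 := by
  simp [wgl]

theorem wgl_mono {r r' : ℕ} (h : r ≤ r') {ℓ : ℝ} (hℓ : 0 ≤ ℓ) (ξ : E m) :
    wgl r ℓ ξ ≤ wgl r' ℓ ξ := by
  refine ENNReal.ofReal_le_ofReal (pow_le_pow_right₀ ?_ h)
  have : 0 ≤ ℓ * ‖ξ‖ := by positivity
  linarith

theorem wgl_mono_scale (r : ℕ) {ℓ ℓ' : ℝ} (h0 : 0 ≤ ℓ) (h : ℓ ≤ ℓ') (ξ : E m) :
    wgl r ℓ ξ ≤ wgl r ℓ' ξ := by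
  refine ENNReal.ofReal_le_ofReal (pow_le_pow_left₀ (by positivity) ?_ r)
  have : ℓ * ‖ξ‖ ≤ ℓ' * ‖ξ‖ := mul_le_mul_of_nonneg_right h (norm_nonneg _)
  linarith

theorem wgl_mul_scale_le (r : ℕ) {ℓ c : ℝ} (h0 : 0 ≤ ℓ) (hc : 1 ≤ c) (ξ : E m) :
    wgl r (c * ℓ) ξ ≤ ENNReal.ofReal (c ^ r) * wgl r ℓ ξ := by
  unfold wgl
  rw [← ENNReal.ofReal_mul (by positivity), ← mul_pow]
  refine ENNReal.ofReal_le_ofReal (pow_le_pow_left₀ (by positivity) ?_ r)
  have : 0 ≤ ℓ * ‖ξ‖ := by positivity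
  nlinarith

theorem nAl_one (r : ℕ) (f : E m → ℂ) : nAl r 1 f = nA r f := by
  simp only [nAl, nA, wgl_one]

theorem nAl_zero (ℓ : ℝ) (f : E m → ℂ) : nAl 0 ℓ f = nA 0 f := by
  simp only [nAl, nA, wgl_zero, wgt_zero]

theorem nAl_mono {r r' : ℕ} (h : r ≤ r') {ℓ : ℝ} (hℓ : 0 ≤ ℓ) (f : E m → ℂ) :
    nAl r ℓ f ≤ nAl r' ℓ f :=
  lintegral_mono fun ξ => mul_le_mul' (wgl_mono h hℓ ξ) le_rfl

/-- **monotonicity in the scale**: the reason why the slope invariant survives the induction. -/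
theorem nAl_mono_scale (r : ℕ) {ℓ ℓ' : ℝ} (h0 : 0 ≤ ℓ) (h : ℓ ≤ ℓ') (f : E m → ℂ) :
    nAl r ℓ f ≤ nAl r ℓ' f :=
  lintegral_mono fun ξ => mul_le_mul' (wgl_mono_scale r h0 h ξ) le_rfl

theorem nAl_mul_scale_le (r : ℕ) {ℓ c : ℝ} (h0 : 0 ≤ ℓ) (hc : 1 ≤ c) (f : E m → ℂ) :
    nAl r (c * ℓ) f ≤ ENNReal.ofReal (c ^ r) * nAl r ℓ f := by
  unfold nAl
  rw [← lintegral_const_mul' _ _ ENNReal.ofReal_ne_top]
  refine lintegral_mono fun ξ => ?_
  rw [← mul_assoc]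
  exact mul_le_mul' (wgl_mul_scale_le r h0 hc ξ) le_rfl

theorem InA.nAl_lt_top {r : ℕ} {f : E m → ℂ} (h : InA r f) {ℓ : ℝ} (hℓ : 0 ≤ ℓ) :
    nAl r ℓ f < ⊤ := by
  have h1 : nAl r ℓ f ≤ nAl r (max 1 ℓ * 1) f :=
    nAl_mono_scale r hℓ (by rw [mul_one]; exact le_max_right _ _) f
  refine (h1.trans (nAl_mul_scale_le r zero_le_one (le_max_left _ _) f)).trans_lt ?_
  rw [nAl_one]
  exact ENNReal.mul_lt_top ENNReal.ofReal_lt_top h.fin

theorem nAl_add_le (r : ℕ) (ℓ : ℝ) {f g : E m → ℂ} (hf : Integrable f) (hg : Integrable g) :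
    nAl r ℓ (fun y => f y + g y) ≤ nAl r ℓ f + nAl r ℓ g := by
  unfold nAl
  have hm : Measurable (fun ξ => wgl r ℓ ξ * ‖𝓕 f ξ‖ₑ) :=
    (measurable_wgl r ℓ).mul (continuous_fourier hf).measurable.enorm
  rw [← lintegral_add_left hm]
  refine lintegral_mono fun ξ => ?_
  rw [fourier_add hf hg, ← mul_add]
  exact mul_le_mul' le_rfl (enorm_add_le _ _)

theorem nAl_const_mul (r : ℕ) (ℓ : ℝ) (c : ℂ) (f : E m → ℂ) :
    nAl r ℓ (fun y => c * f y) = ‖c‖ₑ * nAl r ℓ f := by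
  unfold nAl
  rw [← lintegral_const_mul' _ _ enorm_ne_top]
  refine lintegral_congr fun ξ => ?_
  rw [fourier_const_mul, enorm_mul]
  ring

theorem nAl_neg (r : ℕ) (ℓ : ℝ) (f : E m → ℂ) : nAl r ℓ (fun y => - f y) = nAl r ℓ f := by
  have := nAl_const_mul r ℓ (-1) f
  simpa using this

theorem nAl_sub_le (r : ℕ) (ℓ : ℝ) {f g : E m → ℂ} (hf : Integrable f) (hg : Integrable g) :
    nAl r ℓ (fun y => f y - g y) ≤ nAl r ℓ f + nAl r ℓ g := by
  have := nAl_add_le r ℓ hf hg.neg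
  simp only [Pi.neg_apply, ← sub_eq_add_neg] at this
  refine this.trans (le_of_eq ?_)
  congr 1
  exact nAl_neg r ℓ g

theorem nAl_zero_fun (r : ℕ) (ℓ : ℝ) : nAl r ℓ (fun _ : E m => (0 : ℂ)) = 0 := by
  unfold nAl
  simp [fourier_zero]

theorem nAl_sum_le (r : ℕ) (ℓ : ℝ) {ι : Type*} (s : Finset ι) {f : ι → E m → ℂ}
    (h : ∀ i ∈ s, Integrable (f i)) :
    nAl r ℓ (fun y => ∑ i ∈ s, f i y) ≤ ∑ i ∈ s, nAl r ℓ (f i) := by
  classical
  induction s using Finset.induction_on with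
  | empty => simp [nAl_zero_fun]
  | insert i s hi ih =>
    simp only [Finset.sum_insert hi]
    refine (nAl_add_le r ℓ (h i (Finset.mem_insert_self i s))
      (integrable_finsetSum s fun j hj => h j (Finset.mem_insert_of_mem hj))).trans ?_
    exact add_le_add le_rfl (ih fun j hj => h j (Finset.mem_insert_of_mem hj))

/-! ### zoom   (leaf L-Fit-Scale-zoom) -/

theorem Zm_Uz {F : Type*} (x : E m) {ℓ : ℝ} (hℓ : ℓ ≠ 0) (g : E m → F) : Zm x ℓ (Uz x ℓ g) = g := by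
  funext z
  simp [Zm, Uz, smul_smul, inv_mul_cancel₀ hℓ]

theorem Uz_Zm {F : Type*} (x : E m) {ℓ : ℝ} (hℓ : ℓ ≠ 0) (f : E m → F) : Uz x ℓ (Zm x ℓ f) = f := by
  funext z
  simp [Zm, Uz, smul_smul, mul_inv_cancel₀ hℓ]

/-- the affine homeomorphism `z ↦ x + ℓ z`. -/
noncomputable def sclHomeo (x : E m) {ℓ : ℝ} (hℓ : ℓ ≠ 0) : E m ≃ₜ E m :=
  (Homeomorph.smulOfNeZero ℓ hℓ).trans (Homeomorph.addLeft x)

theorem sclHomeo_apply (x : E m) {ℓ : ℝ} (hℓ : ℓ ≠ 0) (z : E m) : sclHomeo x hℓ z = x + ℓ • z := rfl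

theorem Zm_eq_comp {F : Type*} (x : E m) {ℓ : ℝ} (hℓ : ℓ ≠ 0) (f : E m → F) :
    Zm x ℓ f = f ∘ sclHomeo x hℓ := rfl

theorem Uz_eq_Zm {F : Type*} (x : E m) (ℓ : ℝ) (g : E m → F) : Uz x ℓ g = Zm (-(ℓ⁻¹ • x)) ℓ⁻¹ g := by
  funext y
  simp only [Uz, Zm, smul_sub]
  congr 1
  abel

theorem scl_integral_Zm {F : Type*} [NormedAddCommGroup F] [NormedSpace ℝ F] (x : E m) {ℓ : ℝ}
    (hℓ : 0 < ℓ) (f : E m → F) : ∫ z, Zm x ℓ f z = (ℓ ^ m)⁻¹ • ∫ y, f y := by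
  have h1 := Measure.integral_comp_smul (volume : Measure (E m)) (fun y => f (x + y)) ℓ
  rw [finrank_euclideanSpace_fin, abs_of_pos (by positivity), integral_add_left_eq_self f x] at h1
  exact h1

theorem enorm_fourier_Zm (x : E m) {ℓ : ℝ} (hℓ : 0 < ℓ) (f : E m → ℂ) (ξ : E m) :
    ‖𝓕 (Zm x ℓ f) ξ‖ₑ = ENNReal.ofReal ((ℓ ^ m)⁻¹) * ‖𝓕 f (ℓ⁻¹ • ξ)‖ₑ := by
  have h1 : 𝓕 (Zm x ℓ f) ξ = ∫ z, Zm x ℓ (fun y => Real.fourierChar (⟪ℓ⁻¹ • x, ξ⟫) •
      (Real.fourierChar (-⟪y, ℓ⁻¹ • ξ⟫) • f y)) z := by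
    rw [Real.fourier_eq]
    refine integral_congr_ae (Filter.Eventually.of_forall fun z => ?_)
    simp only [Zm]
    rw [smul_smul, ← AddChar.map_add_eq_mul]
    congr 2
    simp only [inner_add_left, inner_smul_left, inner_smul_right, RCLike.conj_to_real]
    field_simp
    ring
  have h2 : ∫ y, Real.fourierChar (⟪ℓ⁻¹ • x, ξ⟫) • (Real.fourierChar (-⟪y, ℓ⁻¹ • ξ⟫) • f y) =
      Real.fourierChar (⟪ℓ⁻¹ • x, ξ⟫) • 𝓕 f (ℓ⁻¹ • ξ) := by
    rw [Real.fourier_eq, Circle.smul_def, ← integral_smul]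
    rfl
  have h3 : ‖Real.fourierChar (⟪ℓ⁻¹ • x, ξ⟫) • 𝓕 f (ℓ⁻¹ • ξ)‖ₑ = ‖𝓕 f (ℓ⁻¹ • ξ)‖ₑ :=
    enorm_eq_iff_norm_eq.2 (Circle.norm_smul _ _)
  rw [h1, scl_integral_Zm x hℓ, h2, enorm_smul, h3, Real.enorm_eq_ofReal (by positivity)]

/-- the norm at scale `ℓ` is the unit norm of the zoomed function. -/
theorem nA_Zm (r : ℕ) (x : E m) {ℓ : ℝ} (hℓ : 0 < ℓ) (f : E m → ℂ) :
    nA r (Zm x ℓ f) = nAl r ℓ f := by
  have hℓ' : ℓ⁻¹ ≠ 0 := (inv_pos.2 hℓ).ne'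
  have hmap := Measure.map_addHaar_smul (volume : Measure (E m)) hℓ'
  rw [finrank_euclideanSpace_fin, inv_pow, inv_inv, abs_of_pos (by positivity)] at hmap
  have h1 : ∫⁻ ξ : E m, wgl r ℓ (ℓ⁻¹ • ξ) * ‖𝓕 f (ℓ⁻¹ • ξ)‖ₑ =
      ENNReal.ofReal (ℓ ^ m) * ∫⁻ η : E m, wgl r ℓ η * ‖𝓕 f η‖ₑ := by
    have h2 := lintegral_map_equiv (μ := (volume : Measure (E m)))
      (fun η : E m => wgl r ℓ η * ‖𝓕 f η‖ₑ) (Homeomorph.smulOfNeZero ℓ⁻¹ hℓ').toMeasurableEquiv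
    have h3 : (⇑(Homeomorph.smulOfNeZero ℓ⁻¹ hℓ').toMeasurableEquiv : E m → E m) = fun ξ => ℓ⁻¹ • ξ := rfl
    rw [h3, hmap, lintegral_smul_measure] at h2
    rw [← h2]
    rfl
  have h4 : ∀ ξ : E m, wgl r ℓ (ℓ⁻¹ • ξ) = wgt r ξ := by
    intro ξ
    unfold wgl wgt
    rw [norm_smul, Real.norm_eq_abs, abs_of_pos (inv_pos.2 hℓ), ← mul_assoc, mul_inv_cancel₀ hℓ.ne',
      one_mul]
  unfold nA nAl
  simp only [enorm_fourier_Zm x hℓ]
  simp only [h4] at h1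
  have h5 : ∀ ξ : E m, wgt r ξ * (ENNReal.ofReal ((ℓ ^ m)⁻¹) * ‖𝓕 f (ℓ⁻¹ • ξ)‖ₑ) =
      ENNReal.ofReal ((ℓ ^ m)⁻¹) * (wgt r ξ * ‖𝓕 f (ℓ⁻¹ • ξ)‖ₑ) := fun ξ => by ring
  simp only [h5]
  rw [lintegral_const_mul' _ _ ENNReal.ofReal_ne_top, h1, ← mul_assoc,
    ← ENNReal.ofReal_mul (by positivity), inv_mul_cancel₀ (by positivity), ENNReal.ofReal_one, one_mul]

theorem InA.Zm {r : ℕ} {f : E m → ℂ} (h : InA r f) (x : E m) {ℓ : ℝ} (hℓ : 0 < ℓ) :
    InA r (Zm x ℓ f) := by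
  refine ⟨?_, ?_, ?_⟩
  · rw [Zm_eq_comp x hℓ.ne']
    exact h.cont.comp (sclHomeo x hℓ.ne').continuous
  · rw [Zm_eq_comp x hℓ.ne']
    exact h.supp.comp_homeomorph _
  · rw [nA_Zm r x hℓ]
    exact h.nAl_lt_top hℓ.le

theorem InA.Uz {r : ℕ} {g : E m → ℂ} (h : InA r g) (x : E m) {ℓ : ℝ} (hℓ : 0 < ℓ) :
    InA r (Uz x ℓ g) := by
  rw [Uz_eq_Zm]
  exact h.Zm _ (inv_pos.2 hℓ)

theorem nAl_Uz (r : ℕ) (x : E m) {ℓ : ℝ} (hℓ : 0 < ℓ) (g : E m → ℂ) :
    nAl r ℓ (Uz x ℓ g) = nA r g := by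
  rw [← nA_Zm r x hℓ, Zm_Uz x hℓ.ne']

/-- change of variables. -/
theorem integral_Zm {F : Type*} [NormedAddCommGroup F] [NormedSpace ℝ F] (x : E m) {ℓ : ℝ}
    (hℓ : 0 < ℓ) (f : E m → F) : ∫ z, Zm x ℓ f z = (ℓ ^ m)⁻¹ • ∫ y, f y :=
  scl_integral_Zm x hℓ f

theorem pdv_Zm {F : Type*} [NormedAddCommGroup F] [NormedSpace ℝ F] (x : E m) (ℓ : ℝ)
    {f : E m → F} (hf : Differentiable ℝ f) (a : Fin m) :
    pdv a (Zm x ℓ f) = fun z => ℓ • pdv a f (x + ℓ • z) := by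
  funext z
  unfold pdv
  have h0 : HasFDerivAt (fun z : E m => x + ℓ • z) (ℓ • ContinuousLinearMap.id ℝ (E m)) z :=
    ((hasFDerivAt_id z).const_smul ℓ).const_add x
  have h : HasFDerivAt (Zm x ℓ f)
      ((fderiv ℝ f (x + ℓ • z)) ∘L (ℓ • ContinuousLinearMap.id ℝ (E m))) z :=
    (hf (x + ℓ • z)).hasFDerivAt.comp z h0
  rw [h.fderiv]
  simp

theorem contDiff_Zm {F : Type*} [NormedAddCommGroup F] [NormedSpace ℝ F] (x : E m) (ℓ : ℝ)
    {f : E m → F} {k : WithTop ℕ∞} (hf : ContDiff ℝ k f) : ContDiff ℝ k (Zm x ℓ f) :=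
  hf.comp (contDiff_const.add (contDiff_id.const_smul ℓ))

theorem contDiff_Uz {F : Type*} [NormedAddCommGroup F] [NormedSpace ℝ F] (x : E m) (ℓ : ℝ)
    {f : E m → F} {k : WithTop ℕ∞} (hf : ContDiff ℝ k f) : ContDiff ℝ k (Uz x ℓ f) :=
  hf.comp ((contDiff_id.sub contDiff_const).const_smul ℓ⁻¹)

theorem norm_iteratedFDeriv_Zm {F : Type*} [NormedAddCommGroup F] [NormedSpace ℝ F] (x : E m)
    {ℓ : ℝ} (hℓ : 0 < ℓ) {f : E m → F} {j : ℕ} (hf : ContDiff ℝ j f) (z : E m) :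
    ‖iteratedFDeriv ℝ j (Zm x ℓ f) z‖ = ℓ ^ j * ‖iteratedFDeriv ℝ j f (x + ℓ • z)‖ := by
  have h1 : ContDiff ℝ j (fun y => f (x + y)) := hf.comp (contDiff_const.add contDiff_id)
  have h2 := ContinuousLinearMap.iteratedFDeriv_comp_right (ℓ • ContinuousLinearMap.id ℝ (E m)) h1 z
    (i := j) le_rfl
  have h3 : ((fun y => f (x + y)) ∘ (ℓ • ContinuousLinearMap.id ℝ (E m))) = Zm x ℓ f := by
    funext y
    simp [Zm]
  rw [h3] at h2
  rw [h2, iteratedFDeriv_comp_add_left]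
  have h4 : (iteratedFDeriv ℝ j f (x + (ℓ • ContinuousLinearMap.id ℝ (E m)) z)).compContinuousLinearMap
      (fun _ => ℓ • ContinuousLinearMap.id ℝ (E m)) = ℓ ^ j • iteratedFDeriv ℝ j f (x + ℓ • z) := by
    ext v
    simp only [ContinuousMultilinearMap.compContinuousLinearMap_apply, smul_apply]
    have := (iteratedFDeriv ℝ j f (x + ℓ • z)).map_smul_univ (fun _ => ℓ) v
    simpa using this
  rw [h4, norm_smul, Real.norm_eq_abs, abs_of_pos (by positivity)]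

theorem tsupport_Zm_subset {F : Type*} [Zero F] (x : E m) {ℓ : ℝ} (hℓ : 0 < ℓ) {f : E m → F}
    {R : ℝ} (h : tsupport f ⊆ Metric.ball x (R * ℓ)) : tsupport (Zm x ℓ f) ⊆ Metric.ball 0 R := by
  rw [Zm_eq_comp x hℓ.ne', tsupport_comp_eq_preimage]
  intro z hz
  have h1 := h hz
  rw [sclHomeo_apply, Metric.mem_ball, dist_eq_norm, add_sub_cancel_left, norm_smul, Real.norm_eq_abs,
    abs_of_pos hℓ, mul_comm] at h1
  rw [Metric.mem_ball, dist_zero_right]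
  exact lt_of_mul_lt_mul_right h1 hℓ.le

theorem tsupport_Uz_subset {F : Type*} [Zero F] (x : E m) {ℓ : ℝ} (hℓ : 0 < ℓ) {g : E m → F}
    {R : ℝ} (h : tsupport g ⊆ Metric.ball 0 R) : tsupport (Uz x ℓ g) ⊆ Metric.ball x (R * ℓ) := by
  rw [Uz_eq_Zm, Zm_eq_comp _ (inv_pos.2 hℓ).ne', tsupport_comp_eq_preimage]
  intro y hy
  have h1 := h hy
  have e : -(ℓ⁻¹ • x) + ℓ⁻¹ • y = ℓ⁻¹ • (y - x) := by
    rw [smul_sub]
    abel
  rw [sclHomeo_apply, e, Metric.mem_ball, dist_zero_right, norm_smul, Real.norm_eq_abs,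
    abs_of_pos (inv_pos.2 hℓ), inv_mul_lt_iff₀ hℓ, mul_comm] at h1
  rw [Metric.mem_ball, dist_eq_norm]
  exact h1

/-! ### the calculus at scale `ℓ`   (leaf L-Fit-Scale-calc) -/

theorem nAl_mul_le (r : ℕ) {ℓ : ℝ} (hℓ : 0 < ℓ) {f g : E m → ℂ} (hf : InA 0 f) (hg : InA 0 g) :
    nAl r ℓ (fun y => f y * g y) ≤ nAl r ℓ f * nAl r ℓ g := by
  rw [← nA_Zm r 0 hℓ, ← nA_Zm r 0 hℓ f, ← nA_Zm r 0 hℓ g]
  exact nA_mul_le r (hf.Zm 0 hℓ) (hg.Zm 0 hℓ)

theorem nAl_pdv_le (r : ℕ) {ℓ : ℝ} (hℓ : 0 < ℓ) {f : E m → ℂ} (h : InA 1 f) (a : Fin m) :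
    ENNReal.ofReal ℓ * nAl r ℓ (pdv a f) ≤ ENNReal.ofReal (2 * Real.pi) * nAl (r + 1) ℓ f := by
  have hd : Differentiable ℝ f := h.contDiff.differentiable (by norm_num)
  have h1 := nA_pdv_le r (h.Zm 0 hℓ) a
  rw [pdv_Zm 0 ℓ hd a] at h1
  have h2 : (fun z => ℓ • pdv a f (0 + ℓ • z)) = fun z => (ℓ : ℂ) * Zm 0 ℓ (pdv a f) z := by
    funext z
    simp [Zm]
  have h3 : ‖(ℓ : ℂ)‖ₑ = ENNReal.ofReal ℓ := by
    rw [← ofReal_norm, Complex.norm_real, Real.norm_eq_abs, abs_of_pos hℓ]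
  rw [h2, nA_const_mul, nA_Zm r 0 hℓ, nA_Zm (r + 1) 0 hℓ, h3] at h1
  exact h1

/-- sup bound of the derivatives at unit scale. -/
theorem scl_norm_iteratedFDeriv_le {j : ℕ} {g : E m → ℂ} (h : InA j g) (y : E m) :
    ENNReal.ofReal ‖iteratedFDeriv ℝ j g y‖ ≤ ENNReal.ofReal ((2 * Real.pi) ^ j) * nA j g := by
  have h2 : g = (𝓕 (𝓕 g)) ∘ (LinearIsometryEquiv.neg ℝ : E m ≃ₗᵢ[ℝ] E m) := by
    ext x
    have := congrFun h.fourierInv x
    rw [Real.fourierInv_eq_fourier_neg] at this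
    exact this.symm
  have h3 : ‖iteratedFDeriv ℝ j g y‖ = ‖iteratedFDeriv ℝ j (𝓕 (𝓕 g)) (-y)‖ := by
    conv_lhs => rw [h2]
    rw [LinearIsometryEquiv.norm_iteratedFDeriv_comp_right]
    rfl
  have h4 := Real.iteratedFDeriv_fourier (N := j) (f := 𝓕 g)
    (fun n hn => h.integrable_pow_mul (by exact_mod_cast hn))
    (continuous_fourier h.integrable).aestronglyMeasurable (n := j) le_rfl
  rw [h3, h4, ofReal_norm, Real.fourier_eq]
  refine (enorm_integral_le_lintegral_enorm _).trans ?_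
  unfold nA
  rw [← lintegral_const_mul' _ _ ENNReal.ofReal_ne_top]
  refine lintegral_mono fun v => ?_
  have h5 : ‖Real.fourierChar (-⟪v, -y⟫) • VectorFourier.fourierPowSMulRight (innerSL ℝ) (𝓕 g) v j‖ₑ =
      ‖VectorFourier.fourierPowSMulRight (innerSL ℝ) (𝓕 g) v j‖ₑ := by
    rw [enorm_eq_iff_norm_eq, Circle.smul_def, norm_smul, Circle.norm_coe, one_mul]
  rw [h5]
  unfold wgt
  rw [← ofReal_norm, ← ofReal_norm, ← ENNReal.ofReal_mul (by positivity),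
    ← ENNReal.ofReal_mul (by positivity)]
  refine ENNReal.ofReal_le_ofReal ?_
  refine (VectorFourier.norm_fourierPowSMulRight_le (innerSL ℝ) (𝓕 g) v j).trans ?_
  have h6 : (2 * Real.pi * ‖(innerSL ℝ : E m →L[ℝ] E m →L[ℝ] ℝ)‖) ^ j ≤ (2 * Real.pi) ^ j := by
    refine pow_le_pow_left₀ (by positivity) ?_ j
    have := norm_innerSL_le (𝕜 := ℝ) (E := E m)
    have hpi := Real.pi_pos
    nlinarith
  have h7 : ‖v‖ ^ j ≤ (1 + ‖v‖) ^ j := pow_le_pow_left₀ (norm_nonneg _) (by linarith) j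
  calc (2 * Real.pi * ‖(innerSL ℝ : E m →L[ℝ] E m →L[ℝ] ℝ)‖) ^ j * ‖v‖ ^ j * ‖𝓕 g v‖
      ≤ (2 * Real.pi) ^ j * (1 + ‖v‖) ^ j * ‖𝓕 g v‖ := by gcongr
    _ = _ := by ring

/-- sup bounds of the derivatives. -/
theorem norm_iteratedFDeriv_le_nAl {j : ℕ} {f : E m → ℂ} (h : InA j f) {ℓ : ℝ} (hℓ : 0 < ℓ)
    (y : E m) :
    ENNReal.ofReal (ℓ ^ j * ‖iteratedFDeriv ℝ j f y‖)
      ≤ ENNReal.ofReal ((2 * Real.pi) ^ j) * nAl j ℓ f := by
  have h1 := norm_iteratedFDeriv_Zm y hℓ h.contDiff 0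
  rw [smul_zero, add_zero] at h1
  rw [← h1, ← nA_Zm j y hℓ]
  exact scl_norm_iteratedFDeriv_le (h.Zm y hℓ) 0

theorem scl_fourier_conj (f : E m → ℂ) (ξ : E m) :
    𝓕 (fun y => (starRingEnd ℂ) (f y)) ξ = (starRingEnd ℂ) (𝓕 f (-ξ)) := by
  rw [Real.fourier_eq, Real.fourier_eq, ← integral_conj]
  refine integral_congr_ae (Filter.Eventually.of_forall fun v => ?_)
  simp only [Circle.smul_def, smul_eq_mul, map_mul, inner_neg_right, neg_neg]
  congr 1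
  rw [← Circle.coe_inv_eq_conj, ← AddChar.map_neg_eq_inv]

theorem scl_nA_conj (r : ℕ) (f : E m → ℂ) : nA r (fun y => (starRingEnd ℂ) (f y)) = nA r f := by
  unfold nA
  have h1 := (Measure.measurePreserving_neg (volume : Measure (E m))).lintegral_comp_emb
    (MeasurableEquiv.neg (E m)).measurableEmbedding (fun ξ => wgt r ξ * ‖𝓕 f ξ‖ₑ)
  rw [← h1]
  refine lintegral_congr fun ξ => ?_
  rw [scl_fourier_conj]
  have h2 : ‖(starRingEnd ℂ) (𝓕 f (-ξ))‖ₑ = ‖𝓕 f (-ξ)‖ₑ := enorm_eq_iff_norm_eq.2 (RCLike.norm_conj _)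
  have h3 : wgt r (-ξ) = wgt r ξ := by simp [wgt]
  rw [h2, h3]

theorem scl_nA_re_le (r : ℕ) {f : E m → ℂ} (h : InA 0 f) : nA r (cx fun y => (f y).re) ≤ nA r f := by
  have h1 : (cx fun y => (f y).re) = fun y => (1 / 2 : ℂ) * (f y + (starRingEnd ℂ) (f y)) := by
    funext y
    simp only [cx]
    rw [Complex.re_eq_add_conj]
    ring
  have hc : Integrable (fun y => (starRingEnd ℂ) (f y)) :=
    (Complex.continuous_conj.comp h.cont).integrable_of_hasCompactSupport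
      (h.supp.comp_left (g := fun z => (starRingEnd ℂ) z) (by simp))
  have h2 : ‖(1 / 2 : ℂ)‖ₑ = ENNReal.ofReal (1 / 2) := by
    rw [← ofReal_norm]
    norm_num
  rw [h1, nA_const_mul, h2]
  calc ENNReal.ofReal (1 / 2) * nA r (fun y => f y + (starRingEnd ℂ) (f y))
      ≤ ENNReal.ofReal (1 / 2) * (nA r f + nA r (fun y => (starRingEnd ℂ) (f y))) :=
        mul_le_mul' le_rfl (nA_add_le r h.integrable hc)
    _ = ENNReal.ofReal (1 / 2) * (ENNReal.ofReal 2 * nA r f) := by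
        rw [scl_nA_conj, ← two_mul]
        simp
    _ = nA r f := by
        rw [← mul_assoc, ← ENNReal.ofReal_mul (by norm_num)]
        norm_num

/-- real parts. -/
theorem InA.re {r : ℕ} {f : E m → ℂ} (h : InA r f) : InA r (cx fun y => (f y).re) := by
  refine ⟨?_, ?_, (scl_nA_re_le r (h.mono (Nat.zero_le r))).trans_lt h.fin⟩
  · exact Complex.continuous_ofReal.comp (Complex.continuous_re.comp h.cont)
  · exact h.supp.comp_left (g := fun z : ℂ => ((z.re : ℝ) : ℂ)) (by simp)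

theorem nA_re_le (r : ℕ) {f : E m → ℂ} (h : InA 0 f) : nA r (cx fun y => (f y).re) ≤ nA r f :=
  scl_nA_re_le r h

end Claimed.Agent.R322.Fit
end

/- ===== packed: Claimed.Agent.R322.Fit.Wiener.Vec ===== -/
section
/-!
# Row 322, Fit/Wiener: vector valued maps in the Wiener scale at scale `ℓ`; weak bounds; the constant `cH`   (architect helper281)

Everything here is componentwise: `Boot.cxv w α y = (w y α : ℂ)`, `Boot.cxL n α` is the continuous linear map `v ↦ (v α : ℂ)`.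

PLANS.
* `cxv_pdv`: `Boot.pdv_cxv`.  `VIn.contDiff`: `Boot.contDiffAt_of_cxv` and `InA.contDiff`.
* `VIn.hasCompactSupport`: `w y = 0` iff all components vanish; the support of `w` lies in the union of the (compact) supports.
* `norm_le_vAl`: `|w y| ≤ ∑ |w y α|` (`EuclideanSpace.norm_eq`, or `w y = ∑ w y α • e_α` and the triangle inequality), `InA.enorm_le`.
* `norm_iteratedFDeriv_le_vAl`: `w = ∑_α (cxv w α).re • e_α`, i.e. `w = ∑_α L_α ∘ cxv w α`, `L_α : ℂ →L[ℝ] E n`, `‖L_α‖ ≤ 1`;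
  `ContinuousLinearMap.norm_iteratedFDeriv_comp_left`, `iteratedFDeriv_sum`; then `norm_iteratedFDeriv_le_nAl`.
* `norm_iteratedFDeriv_succ_le_sAl`: `norm_iteratedFDeriv_fderiv`; `fderiv ℝ w = ∑_a M_a ∘ pdv a w`,
  `M_a v = (EuclideanSpace.proj a).smulRight v`, `‖M_a‖ ≤ 1`; then `norm_iteratedFDeriv_le_vAl` for `pdv a w`.
* `WeakV.weakLe`: test `ζ y = φ ((y - x)/ℓ) • e_α`; `∫ ⟪w, ζ⟫ = ℓ^m ∫ (Zm x ℓ w)_α φ` (`integral_Zm`); the integral of a real function cast to `ℂ`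
  (`integral_ofReal`).
* `WeakV.of_weakLe`: `φ_α z = ζ (x + ℓ z) α`; `⟪w, ζ⟫ = ∑_α w_α ζ_α`; `integral_finset_sum` (continuous, compact support).
* `hausdorff_eq_cH`: `Measure.isAddLeftInvariant_eq_smul` (both measures are additive Haar measures, `isAddHaar_hausdorff`).
-/

set_option autoImplicit false

open scoped ENNReal ContDiff Topology FourierTransform RealInnerProductSpace
open MeasureTheory

namespace Claimed.Agent.R322.Fit

variable {m n : ℕ}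

/-! ### the class `VIn`   (leaf L-Fit-Vec-class) -/

theorem cxv_add (u v : E m → E n) (α : Fin n) :
    Boot.cxv (fun y => u y + v y) α = fun y => Boot.cxv u α y + Boot.cxv v α y := by
  funext y
  simp [Boot.cxv]

theorem cxv_sub (u v : E m → E n) (α : Fin n) :
    Boot.cxv (fun y => u y - v y) α = fun y => Boot.cxv u α y - Boot.cxv v α y := by
  funext y
  simp [Boot.cxv]

theorem cxv_neg (u : E m → E n) (α : Fin n) :
    Boot.cxv (fun y => - u y) α = fun y => - Boot.cxv u α y := by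
  funext y
  simp [Boot.cxv]

theorem cxv_smul (χ : E m → ℝ) (u : E m → E n) (α : Fin n) :
    Boot.cxv (fun y => χ y • u y) α = fun y => (χ y : ℂ) * Boot.cxv u α y := by
  funext y
  simp [Boot.cxv]

theorem cxv_Zm (x : E m) (ℓ : ℝ) (u : E m → E n) (α : Fin n) :
    Boot.cxv (Zm x ℓ u) α = Zm x ℓ (Boot.cxv u α) := rfl

theorem cxv_Uz (x : E m) (ℓ : ℝ) (u : E m → E n) (α : Fin n) :
    Boot.cxv (Uz x ℓ u) α = Uz x ℓ (Boot.cxv u α) := rfl

theorem cxv_pdv {u : E m → E n} (hu : ContDiff ℝ 1 u) (a : Fin m) (α : Fin n) :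
    Boot.cxv (pdv a u) α = pdv a (Boot.cxv u α) := by
  funext y
  rw [Boot.pdv_cxv hu]
  rfl

theorem cxv_sum {ι : Type*} (s : Finset ι) (u : ι → E m → E n) (α : Fin n) :
    Boot.cxv (fun y => ∑ i ∈ s, u i y) α = fun y => ∑ i ∈ s, Boot.cxv (u i) α y := by
  funext y
  simp [Boot.cxv]

theorem VIn.sum {r : ℕ} {ι : Type*} (s : Finset ι) {u : ι → E m → E n} (h : ∀ i ∈ s, VIn r (u i)) :
    VIn r (fun y => ∑ i ∈ s, u i y) := fun α => by
  rw [cxv_sum]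
  exact InA.sum s fun i hi => h i hi α

theorem vAl_sum_le (r : ℕ) (ℓ : ℝ) {ι : Type*} (s : Finset ι) {u : ι → E m → E n}
    (h : ∀ i ∈ s, VIn 0 (u i)) :
    vAl r ℓ (fun y => ∑ i ∈ s, u i y) ≤ ∑ i ∈ s, vAl r ℓ (u i) := by
  unfold vAl
  rw [Finset.sum_comm]
  refine Finset.sum_le_sum fun α _ => ?_
  rw [cxv_sum]
  exact nAl_sum_le r ℓ s fun i hi => (h i hi α).integrable

theorem VIn.mono {r r' : ℕ} {w : E m → E n} (h : VIn r' w) (hr : r ≤ r') : VIn r w :=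
  fun α => (h α).mono hr

theorem VIn.zero (r : ℕ) : VIn r (fun _ : E m => (0 : E n)) := by
  intro α
  have : Boot.cxv (fun _ : E m => (0 : E n)) α = fun _ => 0 := by
    funext y
    simp [Boot.cxv]
  rw [this]
  exact InA.zero r

theorem VIn.add {r : ℕ} {u v : E m → E n} (hu : VIn r u) (hv : VIn r v) :
    VIn r (fun y => u y + v y) := fun α => by
  rw [cxv_add]
  exact (hu α).add (hv α)

theorem VIn.sub {r : ℕ} {u v : E m → E n} (hu : VIn r u) (hv : VIn r v) :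
    VIn r (fun y => u y - v y) := fun α => by
  rw [cxv_sub]
  exact (hu α).sub (hv α)

theorem VIn.neg {r : ℕ} {u : E m → E n} (hu : VIn r u) : VIn r (fun y => - u y) := fun α => by
  rw [cxv_neg]
  exact (hu α).neg

theorem VIn.contDiff {r : ℕ} {w : E m → E n} (h : VIn r w) : ContDiff ℝ r w :=
  contDiff_iff_contDiffAt.2 fun _ => Boot.contDiffAt_of_cxv fun α => (h α).contDiff.contDiffAt

theorem VIn.continuous {r : ℕ} {w : E m → E n} (h : VIn r w) : Continuous w :=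
  h.contDiff.continuous

theorem VIn.hasCompactSupport {r : ℕ} {w : E m → E n} (h : VIn r w) : HasCompactSupport w := by
  refine HasCompactSupport.intro (K := ⋃ α, tsupport (Boot.cxv w α))
    (isCompact_iUnion fun α => (h α).supp) fun y hy => ?_
  ext α
  have h1 : y ∉ tsupport (Boot.cxv w α) := fun h2 => hy (Set.mem_iUnion.2 ⟨α, h2⟩)
  have h2 := image_eq_zero_of_notMem_tsupport h1
  simpa [Boot.cxv] using h2

theorem VIn.integrable {r : ℕ} {w : E m → E n} (h : VIn r w) : Integrable w :=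
  h.continuous.integrable_of_hasCompactSupport h.hasCompactSupport

theorem VIn.pdv {r : ℕ} {w : E m → E n} (h : VIn (r + 1) w) (a : Fin m) : VIn r (pdv a w) := by
  intro α
  rw [cxv_pdv (h.contDiff.of_le (by exact_mod_cast Nat.le_add_left 1 r))]
  exact (h α).pdv a

theorem VIn.of_smooth {w : E m → E n} (hw : ContDiff ℝ ∞ w) (hc : HasCompactSupport w) (r : ℕ) :
    VIn r w := fun α =>
  InA.of_smooth (Boot.contDiff_cxv (k := ⊤) hw α)
    (hc.comp_left (g := fun v : E n => ((v α : ℝ) : ℂ)) (by simp)) r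

/-- multiplication by a scalar function of class `A^r`. -/
theorem VIn.smul {r : ℕ} {w : E m → E n} (h : VIn r w) {χ : E m → ℝ} (hχ : InA r (cx χ)) :
    VIn r (fun y => χ y • w y) := fun α => by
  rw [cxv_smul]
  exact hχ.mul (h α)

/-- multiplication by a smooth function (not necessarily compactly supported). -/
theorem VIn.smul_smooth {r : ℕ} {w : E m → E n} (h : VIn r w) {χ : E m → ℝ}
    (hχ : ContDiff ℝ ∞ χ) : VIn r (fun y => χ y • w y) := by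
  obtain ⟨R, hR⟩ := h.hasCompactSupport.isCompact.isBounded.subset_closedBall (0 : E m)
  have hR1 : (0:ℝ) < max R 0 + 1 := by positivity
  let θ : ContDiffBump (0 : E m) := ⟨max R 0 + 1, max R 0 + 2, hR1, by linarith⟩
  have e : (fun y => χ y • w y) = fun y => (θ y * χ y) • w y := by
    funext y
    by_cases hy : y ∈ tsupport w
    · have h1 : y ∈ Metric.closedBall (0 : E m) θ.rIn := by
        have := hR hy
        rw [Metric.mem_closedBall] at this ⊢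
        have h3 : θ.rIn = max R 0 + 1 := rfl
        rw [h3]
        linarith [le_max_left R 0]
      rw [θ.one_of_mem_closedBall h1, one_mul]
    · rw [image_eq_zero_of_notMem_tsupport hy, smul_zero, smul_zero]
  rw [e]
  refine h.smul (InA.of_smooth (contDiff_cx (k := ⊤) (θ.contDiff.mul hχ)) ?_ r)
  have h2 : HasCompactSupport (fun y => θ y * χ y) := θ.hasCompactSupport.mul_right
  exact h2.comp_left (g := fun t : ℝ => (t : ℂ)) (by simp)

theorem VIn.Zm {r : ℕ} {w : E m → E n} (h : VIn r w) (x : E m) {ℓ : ℝ} (hℓ : 0 < ℓ) :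
    VIn r (Zm x ℓ w) := fun α => (h α).Zm x hℓ

theorem VIn.Uz {r : ℕ} {w : E m → E n} (h : VIn r w) (x : E m) {ℓ : ℝ} (hℓ : 0 < ℓ) :
    VIn r (Uz x ℓ w) := fun α => (h α).Uz x hℓ

/-! ### the norms `vAl`, `sAl`   (leaf L-Fit-Vec-norm) -/

theorem VIn.vAl_lt_top {r : ℕ} {w : E m → E n} (h : VIn r w) {ℓ : ℝ} (hℓ : 0 ≤ ℓ) :
    vAl r ℓ w < ⊤ :=
  ENNReal.sum_lt_top.mpr fun α _ => (h α).nAl_lt_top hℓ

theorem VIn.sAl_lt_top {r : ℕ} {w : E m → E n} (h : VIn (r + 1) w) {ℓ : ℝ} (hℓ : 0 ≤ ℓ) :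
    sAl r ℓ w < ⊤ :=
  ENNReal.sum_lt_top.mpr fun a _ => (h.pdv a).vAl_lt_top hℓ

theorem vAl_mono {r r' : ℕ} (h : r ≤ r') {ℓ : ℝ} (hℓ : 0 ≤ ℓ) (w : E m → E n) :
    vAl r ℓ w ≤ vAl r' ℓ w :=
  Finset.sum_le_sum fun _ _ => nAl_mono h hℓ _

theorem vAl_mono_scale (r : ℕ) {ℓ ℓ' : ℝ} (h0 : 0 ≤ ℓ) (h : ℓ ≤ ℓ') (w : E m → E n) :
    vAl r ℓ w ≤ vAl r ℓ' w :=
  Finset.sum_le_sum fun _ _ => nAl_mono_scale r h0 h _

theorem vAl_mul_scale_le (r : ℕ) {ℓ c : ℝ} (h0 : 0 ≤ ℓ) (hc : 1 ≤ c) (w : E m → E n) :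
    vAl r (c * ℓ) w ≤ ENNReal.ofReal (c ^ r) * vAl r ℓ w := by
  unfold vAl
  rw [Finset.mul_sum]
  exact Finset.sum_le_sum fun _ _ => nAl_mul_scale_le r h0 hc _

theorem sAl_mono {r r' : ℕ} (h : r ≤ r') {ℓ : ℝ} (hℓ : 0 ≤ ℓ) (w : E m → E n) :
    sAl r ℓ w ≤ sAl r' ℓ w :=
  Finset.sum_le_sum fun _ _ => vAl_mono h hℓ _

theorem sAl_mono_scale (r : ℕ) {ℓ ℓ' : ℝ} (h0 : 0 ≤ ℓ) (h : ℓ ≤ ℓ') (w : E m → E n) :
    sAl r ℓ w ≤ sAl r ℓ' w :=
  Finset.sum_le_sum fun _ _ => vAl_mono_scale r h0 h _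

theorem sAl_mul_scale_le (r : ℕ) {ℓ c : ℝ} (h0 : 0 ≤ ℓ) (hc : 1 ≤ c) (w : E m → E n) :
    sAl r (c * ℓ) w ≤ ENNReal.ofReal (c ^ r) * sAl r ℓ w := by
  unfold sAl
  rw [Finset.mul_sum]
  exact Finset.sum_le_sum fun _ _ => vAl_mul_scale_le r h0 hc _

theorem vAl_zero_fun (r : ℕ) (ℓ : ℝ) : vAl r ℓ (fun _ : E m => (0 : E n)) = 0 := by
  unfold vAl
  refine Finset.sum_eq_zero fun α _ => ?_
  have : Boot.cxv (fun _ : E m => (0 : E n)) α = fun _ => 0 := by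
    funext y
    simp [Boot.cxv]
  rw [this, nAl_zero_fun]

theorem sAl_zero_fun (r : ℕ) (ℓ : ℝ) : sAl r ℓ (fun _ : E m => (0 : E n)) = 0 := by
  unfold sAl
  refine Finset.sum_eq_zero fun a _ => ?_
  have : pdv a (fun _ : E m => (0 : E n)) = fun _ => 0 := by
    funext y
    simp [pdv]
  rw [this, vAl_zero_fun]

theorem vAl_add_le (r : ℕ) (ℓ : ℝ) {u v : E m → E n} (hu : VIn 0 u) (hv : VIn 0 v) :
    vAl r ℓ (fun y => u y + v y) ≤ vAl r ℓ u + vAl r ℓ v := by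
  unfold vAl
  rw [← Finset.sum_add_distrib]
  refine Finset.sum_le_sum fun α _ => ?_
  rw [cxv_add]
  exact nAl_add_le r ℓ (hu α).integrable (hv α).integrable

theorem vAl_sub_le (r : ℕ) (ℓ : ℝ) {u v : E m → E n} (hu : VIn 0 u) (hv : VIn 0 v) :
    vAl r ℓ (fun y => u y - v y) ≤ vAl r ℓ u + vAl r ℓ v := by
  unfold vAl
  rw [← Finset.sum_add_distrib]
  refine Finset.sum_le_sum fun α _ => ?_
  rw [cxv_sub]
  exact nAl_sub_le r ℓ (hu α).integrable (hv α).integrable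

theorem vAl_neg (r : ℕ) (ℓ : ℝ) (u : E m → E n) : vAl r ℓ (fun y => - u y) = vAl r ℓ u := by
  unfold vAl
  refine Finset.sum_congr rfl fun α _ => ?_
  rw [cxv_neg, nAl_neg]

theorem vec_pdv_add {u v : E m → E n} (hu : Differentiable ℝ u) (hv : Differentiable ℝ v) (a : Fin m) :
    pdv a (fun y => u y + v y) = fun y => pdv a u y + pdv a v y := by
  funext y
  unfold pdv
  rw [fderiv_fun_add (hu y) (hv y)]
  rfl

theorem vec_pdv_sub {u v : E m → E n} (hu : Differentiable ℝ u) (hv : Differentiable ℝ v) (a : Fin m) :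
    pdv a (fun y => u y - v y) = fun y => pdv a u y - pdv a v y := by
  funext y
  unfold pdv
  rw [fderiv_fun_sub (hu y) (hv y)]
  rfl

theorem VIn.differentiable {w : E m → E n} (h : VIn 1 w) : Differentiable ℝ w :=
  h.contDiff.differentiable (by norm_num)

theorem sAl_add_le (r : ℕ) (ℓ : ℝ) {u v : E m → E n} (hu : VIn 1 u) (hv : VIn 1 v) :
    sAl r ℓ (fun y => u y + v y) ≤ sAl r ℓ u + sAl r ℓ v := by
  unfold sAl
  rw [← Finset.sum_add_distrib]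
  refine Finset.sum_le_sum fun a _ => ?_
  rw [vec_pdv_add hu.differentiable hv.differentiable]
  exact vAl_add_le r ℓ (VIn.pdv (r := 0) hu a) (VIn.pdv (r := 0) hv a)

theorem sAl_sub_le (r : ℕ) (ℓ : ℝ) {u v : E m → E n} (hu : VIn 1 u) (hv : VIn 1 v) :
    sAl r ℓ (fun y => u y - v y) ≤ sAl r ℓ u + sAl r ℓ v := by
  unfold sAl
  rw [← Finset.sum_add_distrib]
  refine Finset.sum_le_sum fun a _ => ?_
  rw [vec_pdv_sub hu.differentiable hv.differentiable]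
  exact vAl_sub_le r ℓ (VIn.pdv (r := 0) hu a) (VIn.pdv (r := 0) hv a)

theorem vAl_smul_le (r : ℕ) {ℓ : ℝ} (hℓ : 0 < ℓ) {w : E m → E n} (h : VIn 0 w) {χ : E m → ℝ}
    (hχ : InA 0 (cx χ)) :
    vAl r ℓ (fun y => χ y • w y) ≤ nAl r ℓ (cx χ) * vAl r ℓ w := by
  unfold vAl
  rw [Finset.mul_sum]
  refine Finset.sum_le_sum fun α _ => ?_
  rw [cxv_smul]
  exact nAl_mul_le r hℓ hχ (h α)

theorem vAl_pdv_le (r : ℕ) {ℓ : ℝ} (hℓ : 0 < ℓ) {w : E m → E n} (h : VIn 1 w) (a : Fin m) :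
    ENNReal.ofReal ℓ * vAl r ℓ (pdv a w) ≤ ENNReal.ofReal (2 * Real.pi) * vAl (r + 1) ℓ w := by
  unfold vAl
  rw [Finset.mul_sum, Finset.mul_sum]
  refine Finset.sum_le_sum fun α _ => ?_
  rw [cxv_pdv h.contDiff]
  exact nAl_pdv_le r hℓ (h α) a

/-- the slopes are controlled by the function, one order higher, with the factor `1/ℓ`. -/
theorem sAl_le_vAl (r : ℕ) {ℓ : ℝ} (hℓ : 0 < ℓ) {w : E m → E n} (h : VIn 1 w) :
    ENNReal.ofReal ℓ * sAl r ℓ w ≤ ENNReal.ofReal (2 * Real.pi * m) * vAl (r + 1) ℓ w := by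
  unfold sAl
  rw [Finset.mul_sum]
  refine (Finset.sum_le_sum fun a _ => vAl_pdv_le r hℓ h a).trans (le_of_eq ?_)
  rw [Finset.sum_const, Finset.card_univ, Fintype.card_fin, nsmul_eq_mul, ← mul_assoc,
    ENNReal.ofReal_mul (p := 2 * Real.pi) (by positivity), ENNReal.ofReal_natCast,
    mul_comm (m : ℝ≥0∞)]

theorem vec_sum_single (v : E n) : v = ∑ α, EuclideanSpace.single α (v α) := by
  ext β
  simp [Finset.sum_apply]

theorem vec_norm_le_sum (v : E n) : ‖v‖ ≤ ∑ α, |v α| := by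
  conv_lhs => rw [vec_sum_single v]
  refine (norm_sum_le _ _).trans (le_of_eq ?_)
  refine Finset.sum_congr rfl fun α _ => ?_
  rw [PiLp.norm_single, Real.norm_eq_abs]

/-- second derivatives are controlled by the slopes. -/
theorem vAl_pdv_pdv_le (r : ℕ) {ℓ : ℝ} (hℓ : 0 < ℓ) {w : E m → E n} (h : VIn 2 w) (a b : Fin m) :
    ENNReal.ofReal ℓ * vAl r ℓ (pdv a (pdv b w))
      ≤ ENNReal.ofReal (2 * Real.pi) * vAl (r + 1) ℓ (pdv b w) :=
  vAl_pdv_le r hℓ (VIn.pdv (r := 1) h b) a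

theorem vAl_Zm (r : ℕ) (x : E m) {ℓ : ℝ} (hℓ : 0 < ℓ) (w : E m → E n) :
    vAl r 1 (Zm x ℓ w) = vAl r ℓ w := by
  unfold vAl
  refine Finset.sum_congr rfl fun α _ => ?_
  rw [nAl_one, cxv_Zm, nA_Zm r x hℓ]

theorem vAl_Uz (r : ℕ) (x : E m) {ℓ : ℝ} (hℓ : 0 < ℓ) (w : E m → E n) :
    vAl r ℓ (Uz x ℓ w) = vAl r 1 w := by
  rw [← vAl_Zm r x hℓ, Zm_Uz x hℓ.ne']

/-! ### sup bounds   (leaf L-Fit-Vec-sup) -/

theorem norm_le_vAl {w : E m → E n} (h : VIn 0 w) (ℓ : ℝ) (y : E m) :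
    ENNReal.ofReal ‖w y‖ ≤ vAl 0 ℓ w := by
  refine (ENNReal.ofReal_le_ofReal (vec_norm_le_sum (w y))).trans ?_
  rw [ENNReal.ofReal_sum_of_nonneg fun _ _ => abs_nonneg _]
  unfold vAl
  refine Finset.sum_le_sum fun α _ => ?_
  rw [nAl_zero]
  refine le_trans (le_of_eq ?_) ((h α).enorm_le y)
  rw [← ofReal_norm]
  simp [Boot.cxv]

/-- `z ↦ z.re • e_α`. -/
noncomputable def vecL (n : ℕ) (α : Fin n) : ℂ →L[ℝ] E n :=
  Complex.reCLM.smulRight (EuclideanSpace.single α (1 : ℝ))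

theorem norm_vecL_le (α : Fin n) : ‖vecL n α‖ ≤ 1 := by
  refine ContinuousLinearMap.opNorm_le_bound _ zero_le_one fun z => ?_
  simp only [vecL, ContinuousLinearMap.smulRight_apply, Complex.reCLM_apply, norm_smul,
    PiLp.norm_single, norm_one, mul_one, one_mul, Real.norm_eq_abs]
  exact Complex.abs_re_le_norm z

theorem vec_eq_sum_vecL (w : E m → E n) : w = fun y => ∑ α, vecL n α (Boot.cxv w α y) := by
  funext y
  conv_lhs => rw [vec_sum_single (w y)]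
  refine Finset.sum_congr rfl fun α _ => ?_
  ext β
  simp [vecL, Boot.cxv, PiLp.single_apply]

theorem norm_iteratedFDeriv_sum_clm_le {ι F G : Type*} [Fintype ι] [NormedAddCommGroup F]
    [NormedSpace ℝ F] [NormedAddCommGroup G] [NormedSpace ℝ G] {j : ℕ} (L : ι → F →L[ℝ] G)
    (hL : ∀ i, ‖L i‖ ≤ 1) {g : ι → E m → F} (hg : ∀ i, ContDiff ℝ j (g i)) (y : E m) :
    ‖iteratedFDeriv ℝ j (fun z => ∑ i, L i (g i z)) y‖ ≤ ∑ i, ‖iteratedFDeriv ℝ j (g i) y‖ := by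
  rw [iteratedFDeriv_fun_sum_apply (f := fun i z => L i (g i z))
    (fun i _ => ((L i).contDiff.comp (hg i)).contDiffAt)]
  refine (norm_sum_le _ _).trans (Finset.sum_le_sum fun i _ => ?_)
  have h2 := (L i).norm_iteratedFDeriv_comp_left (hg i).contDiffAt (x := y) (n := j) le_rfl
  refine h2.trans ?_
  calc ‖L i‖ * ‖iteratedFDeriv ℝ j (g i) y‖
      ≤ 1 * ‖iteratedFDeriv ℝ j (g i) y‖ :=
        mul_le_mul_of_nonneg_right (hL i) (norm_nonneg _)
    _ = _ := one_mul _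

theorem norm_iteratedFDeriv_le_vAl {j : ℕ} {w : E m → E n} (h : VIn j w) {ℓ : ℝ} (hℓ : 0 < ℓ)
    (y : E m) :
    ENNReal.ofReal (ℓ ^ j * ‖iteratedFDeriv ℝ j w y‖)
      ≤ ENNReal.ofReal ((2 * Real.pi) ^ j) * vAl j ℓ w := by
  have h1 : ‖iteratedFDeriv ℝ j w y‖ ≤ ∑ α, ‖iteratedFDeriv ℝ j (Boot.cxv w α) y‖ := by
    conv_lhs => rw [vec_eq_sum_vecL w]
    exact norm_iteratedFDeriv_sum_clm_le (vecL n) norm_vecL_le (fun α => (h α).contDiff) y
  refine (ENNReal.ofReal_le_ofReal (mul_le_mul_of_nonneg_left h1 (by positivity))).trans ?_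
  rw [Finset.mul_sum, ENNReal.ofReal_sum_of_nonneg fun _ _ => by positivity]
  unfold vAl
  rw [Finset.mul_sum]
  exact Finset.sum_le_sum fun α _ => norm_iteratedFDeriv_le_nAl (h α) hℓ y

/-- `v ↦ (h ↦ h_a • v)`. -/
noncomputable def vecM (m n : ℕ) (a : Fin m) : E n →L[ℝ] (E m →L[ℝ] E n) :=
  ContinuousLinearMap.smulRightL ℝ (E m) (E n) (EuclideanSpace.proj a : E m →L[ℝ] ℝ)

theorem vecM_apply (a : Fin m) (v : E n) (h : E m) : vecM m n a v h = h a • v := rfl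

theorem norm_vecM_le (a : Fin m) : ‖vecM m n a‖ ≤ 1 := by
  refine ContinuousLinearMap.opNorm_le_bound _ zero_le_one fun v => ?_
  refine ContinuousLinearMap.opNorm_le_bound _ (by positivity) fun h => ?_
  rw [vecM_apply, norm_smul, one_mul, mul_comm]
  exact mul_le_mul_of_nonneg_left (PiLp.norm_apply_le h a) (norm_nonneg _)

theorem fderiv_eq_sum_vecM {w : E m → E n} :
    fderiv ℝ w = fun y => ∑ a, vecM m n a (pdv a w y) := by
  funext y
  ext1 h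
  conv_lhs => rw [vec_sum_single h]
  rw [map_sum, _root_.sum_apply]
  refine Finset.sum_congr rfl fun a _ => ?_
  rw [vecM_apply]
  unfold pdv
  rw [← map_smul]
  congr 1
  ext b
  simp [PiLp.single_apply]

theorem norm_iteratedFDeriv_succ_le_sAl {j : ℕ} {w : E m → E n} (h : VIn (j + 1) w) {ℓ : ℝ}
    (hℓ : 0 < ℓ) (y : E m) :
    ENNReal.ofReal (ℓ ^ j * ‖iteratedFDeriv ℝ (j + 1) w y‖)
      ≤ ENNReal.ofReal ((2 * Real.pi) ^ j) * sAl j ℓ w := by
  have h1 : ‖iteratedFDeriv ℝ (j + 1) w y‖ ≤ ∑ a, ‖iteratedFDeriv ℝ j (pdv a w) y‖ := by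
    rw [← norm_iteratedFDeriv_fderiv, fderiv_eq_sum_vecM]
    exact norm_iteratedFDeriv_sum_clm_le (vecM m n) norm_vecM_le (fun a => (h.pdv a).contDiff) y
  refine (ENNReal.ofReal_le_ofReal (mul_le_mul_of_nonneg_left h1 (by positivity))).trans ?_
  rw [Finset.mul_sum, ENNReal.ofReal_sum_of_nonneg fun _ _ => by positivity]
  unfold sAl
  rw [Finset.mul_sum]
  exact Finset.sum_le_sum fun a _ => norm_iteratedFDeriv_le_vAl (h.pdv a) hℓ y

/-- in particular the operator norm of the differential. -/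
theorem norm_fderiv_le_sAl {w : E m → E n} (h : VIn 1 w) (ℓ : ℝ) (y : E m) :
    ENNReal.ofReal ‖fderiv ℝ w y‖ ≤ sAl 0 ℓ w := by
  have h1 : ‖fderiv ℝ w y‖ ≤ ∑ a, ‖pdv a w y‖ := by
    rw [fderiv_eq_sum_vecM]
    refine (norm_sum_le _ _).trans (Finset.sum_le_sum fun a _ => ?_)
    refine ((vecM m n a).le_opNorm _).trans ?_
    calc ‖vecM m n a‖ * ‖pdv a w y‖ ≤ 1 * ‖pdv a w y‖ :=
          mul_le_mul_of_nonneg_right (norm_vecM_le a) (norm_nonneg _)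
      _ = _ := one_mul _
  refine (ENNReal.ofReal_le_ofReal h1).trans ?_
  rw [ENNReal.ofReal_sum_of_nonneg fun _ _ => norm_nonneg _]
  exact Finset.sum_le_sum fun a _ => norm_le_vAl (VIn.pdv (r := 0) h a) ℓ y

/-! ### weak bounds   (leaf L-Fit-Vec-weak) -/

theorem IsTsl.mono {F : Type*} [NormedAddCommGroup F] [NormedSpace ℝ F] {N N' : ℕ}
    {O O' : Set (E m)} {ℓ A : ℝ} {ζ : E m → F} (h : IsTsl N' O ℓ A ζ) (hN : N ≤ N') (hO : O ⊆ O') :
    IsTsl N O' ℓ A ζ :=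
  ⟨h.smooth, h.supp.trans hO, fun j hj => h.bound j (hj.trans hN)⟩

theorem WeakV.mono {N N' : ℕ} {O O' : Set (E m)} {ℓ : ℝ} {w : E m → E n} {b : ℝ}
    (h : WeakV N O' ℓ w b) (hN : N ≤ N') (hO : O ⊆ O') : WeakV N' O ℓ w b :=
  fun ζ A hζ => h ζ A (hζ.mono hN hO)

theorem norm_iteratedFDeriv_clm_le {F G : Type*} [NormedAddCommGroup F]
    [NormedSpace ℝ F] [NormedAddCommGroup G] [NormedSpace ℝ G] {j : ℕ} (L : F →L[ℝ] G)
    (hL : ‖L‖ ≤ 1) {g : E m → F} (hg : ContDiff ℝ j g) (y : E m) :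
    ‖iteratedFDeriv ℝ j (fun z => L (g z)) y‖ ≤ ‖iteratedFDeriv ℝ j g y‖ := by
  have h2 := L.norm_iteratedFDeriv_comp_left hg.contDiffAt (x := y) (n := j) le_rfl
  refine h2.trans ?_
  calc ‖L‖ * ‖iteratedFDeriv ℝ j g y‖
      ≤ 1 * ‖iteratedFDeriv ℝ j g y‖ :=
        mul_le_mul_of_nonneg_right hL (norm_nonneg _)
    _ = _ := one_mul _

/-- `t ↦ t • e_α`. -/
noncomputable def vecR (n : ℕ) (α : Fin n) : ℝ →L[ℝ] E n :=
  (ContinuousLinearMap.id ℝ ℝ).smulRight (EuclideanSpace.single α (1 : ℝ))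

theorem vecR_apply (α : Fin n) (t : ℝ) : vecR n α t = t • EuclideanSpace.single α (1 : ℝ) := rfl

theorem norm_vecR_le (α : Fin n) : ‖vecR n α‖ ≤ 1 := by
  refine ContinuousLinearMap.opNorm_le_bound _ zero_le_one fun z => ?_
  rw [vecR_apply, norm_smul, PiLp.norm_single, norm_one, mul_one, one_mul]

theorem inner_vecR (v : E n) (α : Fin n) (t : ℝ) : ⟪v, vecR n α t⟫ = v α * t := by
  rw [vecR_apply, inner_smul_right, EuclideanSpace.inner_single_right]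
  simp [mul_comm]

theorem IsTst.isTsl_Uz {N : ℕ} {x : E m} {R ℓ A : ℝ} (hℓ : 0 < ℓ) {φ : E m → ℝ}
    (hφ : IsTst N (Metric.ball 0 R) A φ) (α : Fin n) :
    IsTsl N (Metric.ball x (R * ℓ)) ℓ A (fun y => vecR n α (Uz x ℓ φ y)) := by
  refine ⟨(vecR n α).contDiff.comp (contDiff_Uz x ℓ hφ.smooth), ?_, fun j hj y => ?_⟩
  · refine (tsupport_comp_subset (g := vecR n α) (map_zero _) (Uz x ℓ φ)).trans ?_
    exact tsupport_Uz_subset x hℓ hφ.supp
  · have h1 : ContDiff ℝ j φ := hφ.smooth.of_le (by exact_mod_cast le_top)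
    have h2 := norm_iteratedFDeriv_clm_le (vecR n α) (norm_vecR_le α) (contDiff_Uz x ℓ h1) y
    have h3 : ‖iteratedFDeriv ℝ j (Uz x ℓ φ) y‖
        = ℓ⁻¹ ^ j * ‖iteratedFDeriv ℝ j φ (-(ℓ⁻¹ • x) + ℓ⁻¹ • y)‖ := by
      rw [Uz_eq_Zm]
      exact norm_iteratedFDeriv_Zm _ (inv_pos.2 hℓ) h1 y
    calc ℓ ^ j * ‖iteratedFDeriv ℝ j (fun y => vecR n α (Uz x ℓ φ y)) y‖
        ≤ ℓ ^ j * (ℓ⁻¹ ^ j * ‖iteratedFDeriv ℝ j φ (-(ℓ⁻¹ • x) + ℓ⁻¹ • y)‖) := by
          rw [← h3]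
          exact mul_le_mul_of_nonneg_left h2 (by positivity)
      _ = ‖iteratedFDeriv ℝ j φ (-(ℓ⁻¹ • x) + ℓ⁻¹ • y)‖ := by
          rw [← mul_assoc, ← mul_pow, mul_inv_cancel₀ hℓ.ne', one_pow, one_mul]
      _ ≤ A := hφ.bound j hj _

/-- from the vector form at scale `ℓ` to the components of the zoomed map. -/
theorem WeakV.weakLe {N : ℕ} {x : E m} {R ℓ : ℝ} (hℓ : 0 < ℓ) {w : E m → E n} {b : ℝ}
    (h : WeakV N (Metric.ball x (R * ℓ)) ℓ w b) (α : Fin n) :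
    WeakLe N (Metric.ball 0 R) (Zm x ℓ (Boot.cxv w α)) (b / ℓ ^ m) := by
  intro φ A hφ
  have h1 := h _ A (hφ.isTsl_Uz (x := x) hℓ α)
  have e1 : (fun z => Zm x ℓ (Boot.cxv w α) z * (φ z : ℂ))
      = Zm x ℓ (fun y => ((⟪w y, vecR n α (Uz x ℓ φ y)⟫ : ℝ) : ℂ)) := by
    funext z
    have h2 : Uz x ℓ φ (x + ℓ • z) = φ z := congrFun (Zm_Uz x hℓ.ne' φ) z
    simp only [Zm, inner_vecR, h2, Boot.cxv, Complex.ofReal_mul]
  rw [e1, integral_Zm x hℓ, integral_complex_ofReal, norm_smul, Complex.norm_real, norm_inv,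
    Real.norm_eq_abs, Real.norm_eq_abs, abs_of_pos (pow_pos hℓ m)]
  calc (ℓ ^ m)⁻¹ * |∫ y, ⟪w y, vecR n α (Uz x ℓ φ y)⟫| ≤ (ℓ ^ m)⁻¹ * (b * A) :=
        mul_le_mul_of_nonneg_left h1 (by positivity)
    _ = b / ℓ ^ m * A := by ring

theorem norm_proj_le (α : Fin n) : ‖(EuclideanSpace.proj α : E n →L[ℝ] ℝ)‖ ≤ 1 := by
  refine ContinuousLinearMap.opNorm_le_bound _ zero_le_one fun v => ?_
  rw [one_mul]
  exact PiLp.norm_apply_le v α

theorem IsTsl.isTst_Zm {N : ℕ} {x : E m} {R ℓ A : ℝ} (hℓ : 0 < ℓ) {ζ : E m → E n}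
    (hζ : IsTsl N (Metric.ball x (R * ℓ)) ℓ A ζ) (α : Fin n) :
    IsTst N (Metric.ball 0 R) A (fun z => Zm x ℓ ζ z α) := by
  have e : (fun z => Zm x ℓ ζ z α) = fun z => (EuclideanSpace.proj α : E n →L[ℝ] ℝ) (Zm x ℓ ζ z) :=
    rfl
  rw [e]
  refine ⟨(EuclideanSpace.proj α : E n →L[ℝ] ℝ).contDiff.comp (contDiff_Zm x ℓ hζ.smooth), ?_,
    fun j hj z => ?_⟩
  · refine (tsupport_comp_subset (g := (EuclideanSpace.proj α : E n →L[ℝ] ℝ)) (map_zero _)
      (Zm x ℓ ζ)).trans ?_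
    exact tsupport_Zm_subset x hℓ hζ.supp
  · have h1 : ContDiff ℝ j ζ := hζ.smooth.of_le (by exact_mod_cast le_top)
    refine (norm_iteratedFDeriv_clm_le _ (norm_proj_le α) (contDiff_Zm x ℓ h1) z).trans ?_
    rw [norm_iteratedFDeriv_Zm x hℓ h1]
    exact hζ.bound j hj _

/-- and back. -/
theorem WeakV.of_weakLe {N : ℕ} {x : E m} {R ℓ : ℝ} (hℓ : 0 < ℓ) {w : E m → E n} {b : ℝ}
    (hw : Continuous w) (h : ∀ α, WeakLe N (Metric.ball 0 R) (Zm x ℓ (Boot.cxv w α)) b) :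
    WeakV N (Metric.ball x (R * ℓ)) ℓ w (n * b * ℓ ^ m) := by
  intro ζ A hζ
  have hc : HasCompactSupport ζ :=
    (Metric.isBounded_ball.subset hζ.supp).isCompact_closure.of_isClosed_subset
      (isClosed_tsupport ζ) subset_closure
  have hζc : Continuous ζ := hζ.smooth.continuous
  have hint : ∀ α : Fin n, Integrable (fun y => w y α * ζ y α) := fun α => by
    refine Continuous.integrable_of_hasCompactSupport ?_ ?_
    · exact ((EuclideanSpace.proj α : E n →L[ℝ] ℝ).continuous.comp hw).mul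
        ((EuclideanSpace.proj α : E n →L[ℝ] ℝ).continuous.comp hζc)
    · exact (hc.comp_left (g := fun v : E n => v α) (by simp)).mul_left
  have e1 : (fun y => ⟪w y, ζ y⟫) = fun y => ∑ α, w y α * ζ y α := by
    funext y
    rw [PiLp.inner_apply]
    refine Finset.sum_congr rfl fun α _ => ?_
    simp [mul_comm]
  rw [e1, integral_finsetSum _ fun α _ => hint α]
  have h2 : ∀ α : Fin n, |∫ y, w y α * ζ y α| ≤ ℓ ^ m * (b * A) := fun α => by
    have h3 := h α _ A (hζ.isTst_Zm hℓ α)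
    have e2 : (fun z => Zm x ℓ (Boot.cxv w α) z * ((Zm x ℓ ζ z α : ℝ) : ℂ))
        = Zm x ℓ (fun y => ((w y α * ζ y α : ℝ) : ℂ)) := by
      funext z
      simp only [Zm, Boot.cxv, Complex.ofReal_mul]
    rw [e2, integral_Zm x hℓ, integral_complex_ofReal, norm_smul, Complex.norm_real, norm_inv,
      Real.norm_eq_abs, Real.norm_eq_abs, abs_of_pos (pow_pos hℓ m)] at h3
    rwa [inv_mul_le_iff₀ (pow_pos hℓ m)] at h3
  refine (Finset.abs_sum_le_sum_abs _ _).trans ((Finset.sum_le_sum fun α _ => h2 α).trans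
    (le_of_eq ?_))
  rw [Finset.sum_const, Finset.card_univ, Fintype.card_fin, nsmul_eq_mul]
  ring

/-- an `L¹` bound is a weak bound of order `0`. -/
theorem weakV_of_integral {w : E m → E n} (hw : Integrable w) {a : ℝ} (ha : ∫ y, ‖w y‖ ≤ a)
    (O : Set (E m)) (ℓ : ℝ) : WeakV 0 O ℓ w a := by
  intro ζ A hζ
  have hb : ∀ y, ‖ζ y‖ ≤ A := fun y => by
    have := hζ.bound 0 le_rfl y
    rwa [pow_zero, one_mul, norm_iteratedFDeriv_zero] at this
  have hA : 0 ≤ A := (norm_nonneg _).trans (hb 0)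
  have h1 : ‖∫ y, ⟪w y, ζ y⟫‖ ≤ ∫ y, ‖w y‖ * A :=
    norm_integral_le_of_norm_le (hw.norm.mul_const A) (Filter.Eventually.of_forall fun y =>
      (norm_inner_le_norm _ _).trans (mul_le_mul_of_nonneg_left (hb y) (norm_nonneg _)))
  rw [integral_mul_const, Real.norm_eq_abs] at h1
  exact h1.trans (mul_le_mul_of_nonneg_right ha hA)

/-! ### the constant `cH`   (leaf L-Fit-Vec-cH) -/

theorem cH_pos (m : ℕ) : 0 < cH m := by
  have := isAddHaar_hausdorff m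
  unfold cH
  exact_mod_cast Measure.addHaarScalarFactor_pos_of_isAddHaarMeasure
    (μH[(m : ℝ)] : Measure (E m)) (volume : Measure (E m))

theorem hausdorff_eq_cH (m : ℕ) :
    (μH[(m : ℝ)] : Measure (E m)) = ENNReal.ofReal (cH m) • (volume : Measure (E m)) := by
  have := isAddHaar_hausdorff m
  have h := Measure.isAddLeftInvariant_eq_smul (μH[(m : ℝ)] : Measure (E m)) (volume : Measure (E m))
  unfold cH
  rw [ENNReal.ofReal_coe_nnreal]
  exact h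

end Claimed.Agent.R322.Fit
end

/- ===== packed: Claimed.Agent.R322.Fit.Wiener.Mult ===== -/
section
/-!
# Row 322, Fit/Wiener: multipliers of `A^r` at scale `ℓ`   (architect helper281)

`IsMul r ℓ F K` : `f ∈ A^r ⟹ F f ∈ A^r` and `nAl r ℓ (F f) ≤ K nAl r ℓ f`.
Constants (`K = |c|`) and elements of `A^r` (`K = nAl r ℓ F`) are multipliers; sums and products of multipliers are multipliers.
This is how the entries `δ_ab + Y_ab` of the inverse metric are handled (constants are not in `A^r`: no compact support).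
-/

set_option autoImplicit false

open scoped ENNReal ContDiff Topology FourierTransform
open MeasureTheory

namespace Claimed.Agent.R322.Fit

variable {m : ℕ}

/-- multipliers of `A^r` with bound `K` at scale `ℓ`. -/
def IsMul (r : ℕ) (ℓ : ℝ) (F : E m → ℂ) (K : ℝ≥0∞) : Prop :=
  ∀ f : E m → ℂ, InA r f → InA r (fun y => F y * f y) ∧ nAl r ℓ (fun y => F y * f y) ≤ K * nAl r ℓ f

theorem IsMul.mono {r : ℕ} {ℓ : ℝ} {F : E m → ℂ} {K K' : ℝ≥0∞} (h : IsMul r ℓ F K) (hK : K ≤ K') :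
    IsMul r ℓ F K' :=
  fun f hf => ⟨(h f hf).1, (h f hf).2.trans (mul_le_mul' hK le_rfl)⟩

theorem IsMul.const (r : ℕ) (ℓ : ℝ) (c : ℂ) : IsMul r ℓ (fun _ : E m => c) ‖c‖ₑ :=
  fun f hf => ⟨hf.const_mul c, (nAl_const_mul r ℓ c f).le⟩

theorem IsMul.of_InA {r : ℕ} {ℓ : ℝ} (hℓ : 0 < ℓ) {F : E m → ℂ} (h : InA r F) :
    IsMul r ℓ F (nAl r ℓ F) :=
  fun _ hf => ⟨h.mul hf, nAl_mul_le r hℓ (h.mono (Nat.zero_le _)) (hf.mono (Nat.zero_le _))⟩

theorem IsMul.add {r : ℕ} {ℓ : ℝ} {F G : E m → ℂ} {K L : ℝ≥0∞} (hF : IsMul r ℓ F K)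
    (hG : IsMul r ℓ G L) : IsMul r ℓ (fun y => F y + G y) (K + L) := by
  intro f hf
  have h1 : (fun y => (F y + G y) * f y) = fun y => F y * f y + G y * f y := by
    funext y
    ring
  rw [h1]
  refine ⟨(hF f hf).1.add (hG f hf).1, ?_⟩
  refine (nAl_add_le r ℓ (hF f hf).1.integrable (hG f hf).1.integrable).trans ?_
  rw [add_mul]
  exact add_le_add (hF f hf).2 (hG f hf).2

theorem IsMul.neg {r : ℕ} {ℓ : ℝ} {F : E m → ℂ} {K : ℝ≥0∞} (hF : IsMul r ℓ F K) :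
    IsMul r ℓ (fun y => - F y) K := by
  intro f hf
  have h1 : (fun y => (- F y) * f y) = fun y => - (F y * f y) := by
    funext y
    ring
  rw [h1, nAl_neg]
  exact ⟨(hF f hf).1.neg, (hF f hf).2⟩

theorem IsMul.sub {r : ℕ} {ℓ : ℝ} {F G : E m → ℂ} {K L : ℝ≥0∞} (hF : IsMul r ℓ F K)
    (hG : IsMul r ℓ G L) : IsMul r ℓ (fun y => F y - G y) (K + L) := by
  simpa only [sub_eq_add_neg] using hF.add hG.neg

theorem IsMul.mul {r : ℕ} {ℓ : ℝ} {F G : E m → ℂ} {K L : ℝ≥0∞} (hF : IsMul r ℓ F K)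
    (hG : IsMul r ℓ G L) : IsMul r ℓ (fun y => F y * G y) (K * L) := by
  intro f hf
  have h1 : (fun y => (F y * G y) * f y) = fun y => F y * (G y * f y) := by
    funext y
    ring
  rw [h1]
  refine ⟨(hF _ (hG f hf).1).1, (hF _ (hG f hf).1).2.trans ?_⟩
  rw [mul_assoc]
  exact mul_le_mul' le_rfl (hG f hf).2

theorem IsMul.zero (r : ℕ) (ℓ : ℝ) : IsMul r ℓ (fun _ : E m => (0 : ℂ)) 0 := by
  simpa using IsMul.const (m := m) r ℓ 0

theorem IsMul.sum {r : ℕ} {ℓ : ℝ} {ι : Type*} (s : Finset ι) {F : ι → E m → ℂ} {K : ι → ℝ≥0∞}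
    (h : ∀ i ∈ s, IsMul r ℓ (F i) (K i)) :
    IsMul r ℓ (fun y => ∑ i ∈ s, F i y) (∑ i ∈ s, K i) := by
  classical
  induction s using Finset.induction_on with
  | empty => simpa using IsMul.zero (m := m) r ℓ
  | insert i s hi ih =>
    simp only [Finset.sum_insert hi]
    exact (h i (Finset.mem_insert_self i s)).add (ih fun j hj => h j (Finset.mem_insert_of_mem hj))

/-- the value of a multiplier on an element. -/
theorem IsMul.inA {r : ℕ} {ℓ : ℝ} {F f : E m → ℂ} {K : ℝ≥0∞} (hF : IsMul r ℓ F K) (hf : InA r f) :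
    InA r (fun y => F y * f y) := (hF f hf).1

theorem IsMul.le {r : ℕ} {ℓ : ℝ} {F f : E m → ℂ} {K : ℝ≥0∞} (hF : IsMul r ℓ F K) (hf : InA r f) :
    nAl r ℓ (fun y => F y * f y) ≤ K * nAl r ℓ f := (hF f hf).2

end Claimed.Agent.R322.Fit
end

/- ===== packed: Claimed.Agent.R322.Fit.Pde.Interior ===== -/
section
/-!
# Row 322, Fit/Pde: a priori estimate and interior regularity from a weak bound (unit scale, complex)   (architect helper281)

* `apriori` : `∑ nAz (t+2) g ≤ 4 ∑ nAz t g + ∑ nAz t (op g)` if `size ≤ 1/4`  (`t : ℤ`, also negative).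
* `comm_bound` : `op (χ g) - χ op g` is of first order.
* `interior_step` : one nested cutoff gains one order.
* `interior_unit` : **PDE-1**, from a weak bound of order `N` to the `A^s` norm.

PLANS.
* `apriori`.  `X = ∑_α nAz (t+2) (g α) ≤ ∑ nA s (g α) < ∞` (`nAz_le_nA`).  `nAz_add_two_le` for every `α`;
  `Δ g_α = op g α - ∑ Y ∂²g_α - ∑ B ∂g_γ` pointwise, all summands are in `InA 0` (`InA.mul`, `InA.pdv`), so `nAz_sub_le`, `nAz_sum_le`,
  `nAz_mul_le`, `nAz_pdv_pdv_le`, `nAz_pdv_le`, `nA_mono (t.natAbs ≤ r)`, `nAz_mono`: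
  `∑_α nAz t (Δ g_α) ≤ ∑ nAz t (op g α) + (2π)² size X`.  Hence `X ≤ 2 ∑ nAz t g + (2/(2π)²) ∑ nAz t (op g) + 2 size X`,
  `2 size ≤ 1/2`, `ennreal_absorb` (Young.lean), `4/(2π)² ≤ 1`.
* `comm_bound`.  `Boot.pdv_mul`, `Boot.pdv_pdv_mul`:
  `op (χ g) α - χ op g α = ∑_a (2 ∂_aχ ∂_a g_α + ∂_aaχ g_α) + ∑ Y_ab (∂_bχ ∂_a g_α + ∂_aχ ∂_b g_α + ∂_abχ g_α) + ∑ B_eαγ ∂_eχ g_γ`.
  `C` is built from `nA r (∂χ)`, `nA r (∂²χ)` (finite: `InA.of_smooth`).
* `interior_step`.  `apriori` for `χ g`; `nAz t (χ g) ≤ nA r χ · nAz (t+1) g`; `op (χ g) = (op (χ g) - χ op g) + χ E'`.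
* `exists_chainR`.  `ContDiffBump` at `0` with `rIn i = R₁ + (R₀ - R₁)/(2i+3)`, `rOut i = R₁ + (R₀ - R₁)/(2i+2)` (cf. `Boot.exists_chain`).
* `interior_unit`.  `N₁ = N + m + 1`, `M = s + N₁`, `χ = chain M`, `g_i = chain i · w`.  Claim by induction on `i ≤ M`:
  `∑ nAz (i - N₁) (g_i α) ≤ C_i (b + ∑ nA (s-2) E)`.  `i = 0`: `weak_to_neg`.  Step: `interior_step` with cutoff `chain (i+1)`, `g = g_i`,
  `t = i - N₁ - 1` (`|t| ≤ s - 2` because `N + m + 4 ≤ s`), `chain (i+1) · g_i = g_{i+1}`,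
  `chain (i+1) · op g_i = chain (i+1) · E` (`CCoef.op_congr`: `g_i = w` near the support of `chain (i+1)`, which lies in the ball).
-/

set_option autoImplicit false

open scoped ENNReal ContDiff Topology FourierTransform
open MeasureTheory

namespace Claimed.Agent.R322.Fit

variable {m n : ℕ}

/-- the three parts of the operator belong to `A^0`. -/
theorem CCoef.inA_lap {g : Fin n → E m → ℂ} (hg : ∀ α, InA 2 (g α)) (α : Fin n) :
    InA 0 (fun y => ∑ a, pdv a (pdv a (g α)) y) :=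
  InA.sum _ fun a _ => InA.pdv (r := 0) (InA.pdv (r := 1) (hg α) a) a

theorem CCoef.inA_Ypart (c : CCoef m n) (hc : c.Reg 0) {g : Fin n → E m → ℂ}
    (hg : ∀ α, InA 2 (g α)) (α : Fin n) :
    InA 0 (fun y => ∑ a, ∑ b, c.Y a b y * pdv a (pdv b (g α)) y) :=
  InA.sum _ fun a _ => InA.sum _ fun b _ =>
    (hc.Y a b).mul (InA.pdv (r := 0) (InA.pdv (r := 1) (hg α) b) a)

theorem CCoef.inA_Bpart (c : CCoef m n) (hc : c.Reg 0) {g : Fin n → E m → ℂ}
    (hg : ∀ α, InA 2 (g α)) (α : Fin n) :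
    InA 0 (fun y => ∑ e, ∑ γ, c.B e α γ y * pdv e (g γ) y) :=
  InA.sum _ fun e _ => InA.sum _ fun γ _ =>
    (hc.B e α γ).mul ((InA.pdv (r := 1) (hg γ) e).mono (Nat.zero_le _))

theorem CCoef.inA_op (c : CCoef m n) (hc : c.Reg 0) {g : Fin n → E m → ℂ}
    (hg : ∀ α, InA 2 (g α)) (α : Fin n) : InA 0 (c.op g α) :=
  ((CCoef.inA_lap hg α).add (c.inA_Ypart hc hg α)).add (c.inA_Bpart hc hg α)

theorem ofReal_two_pi_le : ENNReal.ofReal (2 * Real.pi) ≤ ENNReal.ofReal ((2 * Real.pi) ^ 2) := by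
  refine ENNReal.ofReal_le_ofReal ?_
  have := Real.pi_gt_three
  nlinarith

/-- leaf L-Fit-Pde-apriori. -/
theorem apriori (c : CCoef m n) (r s : ℕ) (t : ℤ) (hs : 2 ≤ s) (hts : t + 2 ≤ s)
    (htr : t.natAbs ≤ r) (hc : c.Reg r) (hsmall : c.size r ≤ 1 / 4)
    (g : Fin n → E m → ℂ) (hg : ∀ α, InA s (g α)) :
    ∑ α, nAz (t + 2) (g α) ≤ 4 * ∑ α, nAz t (g α) + ∑ α, nAz t (c.op g α) := by
  have hs0 : ∀ α, InA 2 (g α) := fun α => (hg α).mono hs
  have hc0 : c.Reg 0 := hc.mono (Nat.zero_le r)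
  have hd2 : ∀ α a b, InA 0 (pdv a (pdv b (g α))) := fun α a b =>
    InA.pdv (r := 0) (InA.pdv (r := 1) (hs0 α) b) a
  have hd1 : ∀ α e, InA 0 (pdv e (g α)) := fun α e =>
    (InA.pdv (r := 1) (hs0 α) e).mono (Nat.zero_le _)
  obtain ⟨X, hX⟩ : ∃ X : ℝ≥0∞, X = ∑ α, nAz (t + 2) (g α) := ⟨_, rfl⟩
  rw [← hX]
  have hXfin : X ≠ ⊤ := by
    rw [hX]
    exact (ENNReal.sum_lt_top.mpr fun α _ => (nAz_le_nA hts (g α)).trans_lt (hg α).fin).ne
  set P2 : ℝ≥0∞ := ENNReal.ofReal ((2 * Real.pi) ^ 2) with hP2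
  set κ : ℝ≥0∞ := ENNReal.ofReal (2 / (2 * Real.pi) ^ 2) with hκ
  set L : Fin n → E m → ℂ := fun α y => ∑ a, pdv a (pdv a (g α)) y with hLdef
  set TY : Fin n → E m → ℂ := fun α y => ∑ a, ∑ b, c.Y a b y * pdv a (pdv b (g α)) y with hTYdef
  set TB : Fin n → E m → ℂ := fun α y => ∑ e, ∑ γ, c.B e α γ y * pdv e (g γ) y with hTBdef
  have hL : ∀ α, InA 0 (L α) := CCoef.inA_lap hs0
  have hTY : ∀ α, InA 0 (TY α) := c.inA_Ypart hc0 hs0
  have hTB : ∀ α, InA 0 (TB α) := c.inA_Bpart hc0 hs0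
  have hopI : ∀ α, InA 0 (c.op g α) := c.inA_op hc0 hs0
  have hLeq : ∀ α, L α = fun y => c.op g α y - TY α y - TB α y := by
    intro α
    funext y
    simp only [CCoef.op, hLdef, hTYdef, hTBdef]
    ring
  have h1 : ∀ α, nAz t (L α) ≤ nAz t (c.op g α) + nAz t (TY α) + nAz t (TB α) := by
    intro α
    rw [hLeq α]
    refine (nAz_sub_le t ((hopI α).sub (hTY α)).integrable (hTB α).integrable).trans ?_
    exact add_le_add (nAz_sub_le t (hopI α).integrable (hTY α).integrable) le_rfl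
  have h2 : ∀ α, nAz t (TY α) ≤ P2 * (∑ a, ∑ b, nA r (c.Y a b)) * nAz (t + 2) (g α) := by
    intro α
    refine (nAz_sum_le t _ fun a _ =>
      (InA.sum _ fun b _ => (hc0.Y a b).mul (hd2 α a b)).integrable).trans ?_
    rw [Finset.mul_sum, Finset.sum_mul]
    refine Finset.sum_le_sum fun a _ => ?_
    refine (nAz_sum_le t _ fun b _ => ((hc0.Y a b).mul (hd2 α a b)).integrable).trans ?_
    rw [Finset.mul_sum, Finset.sum_mul]
    refine Finset.sum_le_sum fun b _ => ?_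
    calc nAz t (fun y => c.Y a b y * pdv a (pdv b (g α)) y)
        ≤ nA t.natAbs (c.Y a b) * nAz t (pdv a (pdv b (g α))) :=
          nAz_mul_le t (hc0.Y a b) (hd2 α a b)
      _ ≤ nA r (c.Y a b) * (P2 * nAz (t + 2) (g α)) :=
          mul_le_mul' (nA_mono htr _) (nAz_pdv_pdv_le t (hs0 α) a b)
      _ = _ := by ring
  have h3 : ∀ α, nAz t (TB α) ≤ P2 * (∑ e, ∑ γ, nA r (c.B e α γ)) * X := by
    intro α
    refine (nAz_sum_le t _ fun e _ =>
      (InA.sum _ fun γ _ => (hc0.B e α γ).mul (hd1 γ e)).integrable).trans ?_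
    rw [Finset.mul_sum, Finset.sum_mul]
    refine Finset.sum_le_sum fun e _ => ?_
    refine (nAz_sum_le t _ fun γ _ => ((hc0.B e α γ).mul (hd1 γ e)).integrable).trans ?_
    rw [Finset.mul_sum, Finset.sum_mul]
    refine Finset.sum_le_sum fun γ _ => ?_
    have hx : nAz (t + 1) (g γ) ≤ X := by
      rw [hX]
      exact (nAz_mono (by linarith) (g γ)).trans
        (Finset.single_le_sum (f := fun γ => nAz (t + 2) (g γ)) (fun _ _ => bot_le)
          (Finset.mem_univ γ))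
    calc nAz t (fun y => c.B e α γ y * pdv e (g γ) y)
        ≤ nA t.natAbs (c.B e α γ) * nAz t (pdv e (g γ)) := nAz_mul_le t (hc0.B e α γ) (hd1 γ e)
      _ ≤ nA r (c.B e α γ) * (ENNReal.ofReal (2 * Real.pi) * nAz (t + 1) (g γ)) :=
          mul_le_mul' (nA_mono htr _) (nAz_pdv_le t ((hs0 γ).mono (by norm_num)) e)
      _ ≤ nA r (c.B e α γ) * (P2 * X) :=
          mul_le_mul' le_rfl (mul_le_mul' ofReal_two_pi_le hx)
      _ = _ := by ring
  have h4 : ∑ α, nAz t (L α) ≤ ∑ α, nAz t (c.op g α) + P2 * c.size r * X := by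
    calc ∑ α, nAz t (L α)
        ≤ ∑ α, (nAz t (c.op g α) + P2 * (∑ a, ∑ b, nA r (c.Y a b)) * nAz (t + 2) (g α)
            + P2 * (∑ e, ∑ γ, nA r (c.B e α γ)) * X) :=
          Finset.sum_le_sum fun α _ => (h1 α).trans (add_le_add (add_le_add le_rfl (h2 α)) (h3 α))
      _ = ∑ α, nAz t (c.op g α) + P2 * c.size r * X := by
          rw [Finset.sum_add_distrib, Finset.sum_add_distrib, ← Finset.mul_sum, ← Finset.sum_mul,
            ← Finset.mul_sum, ← hX]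
          unfold CCoef.size
          rw [Finset.sum_comm (f := fun α e => ∑ γ, nA r (c.B e α γ))]
          ring
  have hκP : κ * P2 = 2 := by
    rw [hκ, hP2, ← ENNReal.ofReal_mul (by positivity)]
    have : 2 / (2 * Real.pi) ^ 2 * (2 * Real.pi) ^ 2 = 2 := by
      have hpi : (2 * Real.pi) ^ 2 ≠ 0 := by positivity
      field_simp
    rw [this]
    simp
  have h5 : X ≤ 1 / 2 * X + (2 * ∑ α, nAz t (g α) + κ * ∑ α, nAz t (c.op g α)) := by
    calc X ≤ ∑ α, (2 * nAz t (g α) + κ * nAz t (L α)) := by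
          rw [hX]
          exact Finset.sum_le_sum fun α _ => nAz_add_two_le t (hs0 α)
      _ = 2 * ∑ α, nAz t (g α) + κ * ∑ α, nAz t (L α) := by
          rw [Finset.sum_add_distrib, ← Finset.mul_sum, ← Finset.mul_sum]
      _ ≤ 2 * ∑ α, nAz t (g α) + κ * (∑ α, nAz t (c.op g α) + P2 * c.size r * X) :=
          add_le_add le_rfl (mul_le_mul' le_rfl h4)
      _ = (κ * P2) * c.size r * X + (2 * ∑ α, nAz t (g α) + κ * ∑ α, nAz t (c.op g α)) := by ring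
      _ ≤ 1 / 2 * X + (2 * ∑ α, nAz t (g α) + κ * ∑ α, nAz t (c.op g α)) := by
          refine add_le_add (mul_le_mul' ?_ le_rfl) le_rfl
          rw [hκP]
          calc 2 * c.size r ≤ 2 * (1 / 4) := mul_le_mul' le_rfl hsmall
            _ = 1 / 2 := by
                rw [one_div, one_div]
                have : (4 : ℝ≥0∞) = 2 * 2 := by norm_num
                rw [this, ENNReal.mul_inv (by simp) (by simp), ← mul_assoc,
                  ENNReal.mul_inv_cancel (by simp) (by simp), one_mul]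
  have h6 := ennreal_absorb hXfin h5
  have h2κ : 2 * κ ≤ 1 := by
    have h2 : (2 : ℝ≥0∞) = ENNReal.ofReal 2 := by simp
    rw [hκ]
    calc 2 * ENNReal.ofReal (2 / (2 * Real.pi) ^ 2)
        = ENNReal.ofReal 2 * ENNReal.ofReal (2 / (2 * Real.pi) ^ 2) := by simp
      _ = ENNReal.ofReal (2 * (2 / (2 * Real.pi) ^ 2)) := (ENNReal.ofReal_mul (by norm_num)).symm
      _ ≤ ENNReal.ofReal 1 := by
          refine ENNReal.ofReal_le_ofReal ?_
          have := Real.pi_gt_three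
          rw [← mul_div_assoc, div_le_one (by positivity)]
          nlinarith
      _ = 1 := ENNReal.ofReal_one
  calc X ≤ 2 * (2 * ∑ α, nAz t (g α) + κ * ∑ α, nAz t (c.op g α)) := h6
    _ = 4 * ∑ α, nAz t (g α) + (2 * κ) * ∑ α, nAz t (c.op g α) := by ring
    _ ≤ 4 * ∑ α, nAz t (g α) + 1 * ∑ α, nAz t (c.op g α) :=
        add_le_add le_rfl (mul_le_mul' h2κ le_rfl)
    _ = _ := by rw [one_mul]

/-- the first order part of `∂_a ∂_b (χ g) - χ ∂_a ∂_b g`. -/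
noncomputable def cmK (χ g : E m → ℂ) (a b : Fin m) (y : E m) : ℂ :=
  pdv a (pdv b χ) y * g y + pdv b χ y * pdv a g y + pdv a χ y * pdv b g y

theorem CCoef.comm_eq (c : CCoef m n) {χ : E m → ℂ} (hχ : ContDiff ℝ 2 χ) {g : Fin n → E m → ℂ}
    (hg : ∀ α, ContDiff ℝ 2 (g α)) (α : Fin n) (y : E m) :
    c.op (fun γ y => χ y * g γ y) α y - χ y * c.op g α y
      = ∑ a, cmK χ (g α) a a y + ∑ a, ∑ b, c.Y a b y * cmK χ (g α) a b y
        + ∑ e, ∑ γ, c.B e α γ y * (pdv e χ y * g γ y) := by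
  have hχ1 : Differentiable ℝ χ := hχ.differentiable (by norm_num)
  have hg1 : ∀ α, Differentiable ℝ (g α) := fun α => (hg α).differentiable (by norm_num)
  unfold CCoef.op
  simp only [Boot.pdv_pdv_mul hχ (hg _), Boot.pdv_mul (hχ1 _) (hg1 _ _)]
  have e1 : ∑ a, (pdv a (pdv a χ) y * g α y + pdv a χ y * pdv a (g α) y
        + pdv a χ y * pdv a (g α) y + χ y * pdv a (pdv a (g α)) y)
      = ∑ a, cmK χ (g α) a a y + χ y * ∑ a, pdv a (pdv a (g α)) y := by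
    rw [Finset.mul_sum, ← Finset.sum_add_distrib]
    rfl
  have e2 : ∑ a, ∑ b, c.Y a b y * (pdv a (pdv b χ) y * g α y + pdv b χ y * pdv a (g α) y
        + pdv a χ y * pdv b (g α) y + χ y * pdv a (pdv b (g α)) y)
      = ∑ a, ∑ b, c.Y a b y * cmK χ (g α) a b y
        + χ y * ∑ a, ∑ b, c.Y a b y * pdv a (pdv b (g α)) y := by
    rw [Finset.mul_sum, ← Finset.sum_add_distrib]
    refine Finset.sum_congr rfl fun a _ => ?_
    rw [Finset.mul_sum, ← Finset.sum_add_distrib]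
    refine Finset.sum_congr rfl fun b _ => ?_
    unfold cmK
    ring
  have e3 : ∑ e, ∑ γ, c.B e α γ y * (pdv e χ y * g γ y + χ y * pdv e (g γ) y)
      = ∑ e, ∑ γ, c.B e α γ y * (pdv e χ y * g γ y)
        + χ y * ∑ e, ∑ γ, c.B e α γ y * pdv e (g γ) y := by
    rw [Finset.mul_sum, ← Finset.sum_add_distrib]
    refine Finset.sum_congr rfl fun e _ => ?_
    rw [Finset.mul_sum, ← Finset.sum_add_distrib]
    refine Finset.sum_congr rfl fun γ _ => ?_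
    ring
  rw [e1, e2, e3]
  ring

/-- leaf L-Fit-Pde-comm. -/
theorem comm_bound (n r : ℕ) (χ : E m → ℂ) (hχ : ContDiff ℝ ∞ χ) (hχc : HasCompactSupport χ) :
    ∃ C : ℝ, 0 ≤ C ∧ ∀ (c : CCoef m n), c.Reg r → c.size r ≤ 1 → ∀ t : ℤ, t.natAbs ≤ r →
      ∀ g : Fin n → E m → ℂ, (∀ α, InA 2 (g α)) →
      ∑ α, nAz t (fun y => c.op (fun γ y => χ y * g γ y) α y - χ y * c.op g α y)
        ≤ ENNReal.ofReal C * ∑ α, nAz (t + 1) (g α) := by
  have hχA : ∀ s, InA s χ := fun s => InA.of_smooth hχ hχc s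
  have hχ2 : ContDiff ℝ 2 χ := hχ.of_le ENat.LEInfty.out
  have hd1A : ∀ a, InA r (pdv a χ) := fun a => (hχA (r + 1)).pdv a
  have hd2A : ∀ a b, InA r (pdv a (pdv b χ)) := fun a b => InA.pdv (InA.pdv (hχA (r + 1 + 1)) b) a
  obtain ⟨T, hT⟩ : ∃ T : ℝ≥0∞, T = ENNReal.ofReal (2 * Real.pi) := ⟨_, rfl⟩
  have hTfin : T ≠ ⊤ := by rw [hT]; exact ENNReal.ofReal_ne_top
  have hT1 : 1 ≤ T := by
    rw [hT, ENNReal.one_le_ofReal]
    have := Real.pi_gt_three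
    linarith
  set k : Fin m → Fin m → ℝ≥0∞ := fun a b =>
    nA r (pdv a (pdv b χ)) + T * nA r (pdv b χ) + T * nA r (pdv a χ) with hk
  have hkfin : ∀ a b, k a b ≠ ⊤ := fun a b =>
    ENNReal.add_ne_top.mpr ⟨ENNReal.add_ne_top.mpr ⟨(hd2A a b).fin.ne,
      ENNReal.mul_ne_top hTfin (hd1A b).fin.ne⟩, ENNReal.mul_ne_top hTfin (hd1A a).fin.ne⟩
  obtain ⟨Kt, hKt⟩ : ∃ Kt : ℝ≥0∞, Kt = ∑ a, ∑ b, k a b := ⟨_, rfl⟩
  obtain ⟨D1, hD1⟩ : ∃ D1 : ℝ≥0∞, D1 = ∑ a, nA r (pdv a χ) := ⟨_, rfl⟩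
  have hKtfin : Kt ≠ ⊤ := by
    rw [hKt]
    exact (ENNReal.sum_lt_top.mpr fun a _ => ENNReal.sum_lt_top.mpr fun b _ =>
      (hkfin a b).lt_top).ne
  have hD1fin : D1 ≠ ⊤ := by
    rw [hD1]
    exact (ENNReal.sum_lt_top.mpr fun a _ => (hd1A a).fin).ne
  have hfin : 2 * Kt + D1 ≠ ⊤ :=
    ENNReal.add_ne_top.mpr ⟨ENNReal.mul_ne_top (by simp) hKtfin, hD1fin⟩
  refine ⟨(2 * Kt + D1).toReal, ENNReal.toReal_nonneg, ?_⟩
  intro c hc hsz t ht g hg
  rw [ENNReal.ofReal_toReal hfin]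
  have hc0 : c.Reg 0 := hc.mono (Nat.zero_le r)
  have hg0 : ∀ α, InA 0 (g α) := fun α => (hg α).mono (Nat.zero_le _)
  have hg1 : ∀ α, InA 1 (g α) := fun α => (hg α).mono (by norm_num)
  have hdg : ∀ α a, InA 0 (pdv a (g α)) := fun α a => InA.pdv (r := 0) (hg1 α) a
  have hd1 : ∀ a, InA 0 (pdv a χ) := fun a => (hd1A a).mono (Nat.zero_le _)
  have hd2 : ∀ a b, InA 0 (pdv a (pdv b χ)) := fun a b => (hd2A a b).mono (Nat.zero_le _)
  obtain ⟨G, hG⟩ : ∃ G : ℝ≥0∞, G = ∑ α, nAz (t + 1) (g α) := ⟨_, rfl⟩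
  rw [← hG]
  have hGα : ∀ α, nAz (t + 1) (g α) ≤ G := fun α => by
    rw [hG]
    exact Finset.single_le_sum (f := fun α => nAz (t + 1) (g α)) (fun _ _ => bot_le)
      (Finset.mem_univ α)
  -- the functions `cmK`
  have hKA : ∀ α a b, InA 0 (cmK χ (g α) a b) := fun α a b =>
    (((hd2 a b).mul (hg0 α)).add ((hd1 b).mul (hdg α a))).add ((hd1 a).mul (hdg α b))
  have hmulχ : ∀ (f h : E m → ℂ), InA r f → InA 0 h →
      nAz t (fun y => f y * h y) ≤ nA r f * nAz t h := fun f h hf hh =>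
    (nAz_mul_le t (hf.mono (Nat.zero_le _)) hh).trans (mul_le_mul' (nA_mono ht _) le_rfl)
  have hKb : ∀ α a b, nAz t (cmK χ (g α) a b) ≤ k a b * nAz (t + 1) (g α) := by
    intro α a b
    have h1 : nAz t (fun y => pdv a (pdv b χ) y * g α y)
        ≤ nA r (pdv a (pdv b χ)) * nAz (t + 1) (g α) :=
      (hmulχ _ _ (hd2A a b) (hg0 α)).trans (mul_le_mul' le_rfl (nAz_mono (by linarith) _))
    have h2 : ∀ a b, nAz t (fun y => pdv b χ y * pdv a (g α) y)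
        ≤ T * nA r (pdv b χ) * nAz (t + 1) (g α) := by
      intro a b
      calc nAz t (fun y => pdv b χ y * pdv a (g α) y)
          ≤ nA r (pdv b χ) * nAz t (pdv a (g α)) := hmulχ _ _ (hd1A b) (hdg α a)
        _ ≤ nA r (pdv b χ) * (T * nAz (t + 1) (g α)) := by
            rw [hT]
            exact mul_le_mul' le_rfl (nAz_pdv_le t (hg1 α) a)
        _ = _ := by ring
    calc nAz t (cmK χ (g α) a b)
        ≤ nAz t (fun y => pdv a (pdv b χ) y * g α y + pdv b χ y * pdv a (g α) y)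
          + nAz t (fun y => pdv a χ y * pdv b (g α) y) :=
          nAz_add_le t (((hd2 a b).mul (hg0 α)).add ((hd1 b).mul (hdg α a))).integrable
            ((hd1 a).mul (hdg α b)).integrable
      _ ≤ (nAz t (fun y => pdv a (pdv b χ) y * g α y)
          + nAz t (fun y => pdv b χ y * pdv a (g α) y))
          + nAz t (fun y => pdv a χ y * pdv b (g α) y) :=
          add_le_add (nAz_add_le t ((hd2 a b).mul (hg0 α)).integrable
            ((hd1 b).mul (hdg α a)).integrable) le_rfl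
      _ ≤ (nA r (pdv a (pdv b χ)) * nAz (t + 1) (g α) + T * nA r (pdv b χ) * nAz (t + 1) (g α))
          + T * nA r (pdv a χ) * nAz (t + 1) (g α) :=
          add_le_add (add_le_add h1 (h2 a b)) (h2 b a)
      _ = _ := by rw [hk]; ring
  have hYle : ∀ a b, nA r (c.Y a b) ≤ 1 := by
    intro a b
    refine le_trans ?_ hsz
    unfold CCoef.size
    refine le_trans ?_ le_self_add
    exact (Finset.single_le_sum (f := fun b => nA r (c.Y a b)) (fun _ _ => bot_le)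
      (Finset.mem_univ b)).trans
      (Finset.single_le_sum (f := fun a => ∑ b, nA r (c.Y a b)) (fun _ _ => bot_le)
        (Finset.mem_univ a))
  have hBsum : ∑ e, ∑ α, ∑ γ, nA r (c.B e α γ) ≤ 1 := by
    refine le_trans ?_ hsz
    unfold CCoef.size
    exact le_add_self
  have hkle : ∀ a, k a a ≤ ∑ b, k a b := fun a =>
    Finset.single_le_sum (f := fun b => k a b) (fun _ _ => bot_le) (Finset.mem_univ a)
  -- one component
  have hone : ∀ α, nAz t (fun y => c.op (fun γ y => χ y * g γ y) α y - χ y * c.op g α y)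
      ≤ 2 * Kt * nAz (t + 1) (g α) + D1 * (∑ e, ∑ γ, nA r (c.B e α γ)) * G := by
    intro α
    have heq : (fun y => c.op (fun γ y => χ y * g γ y) α y - χ y * c.op g α y)
        = fun y => ∑ a, cmK χ (g α) a a y + ∑ a, ∑ b, c.Y a b y * cmK χ (g α) a b y
          + ∑ e, ∑ γ, c.B e α γ y * (pdv e χ y * g γ y) :=
      funext fun y => c.comm_eq hχ2 (fun α => (hg α).contDiff) α y
    rw [heq]
    have i1 : InA 0 (fun y => ∑ a, cmK χ (g α) a a y) := InA.sum _ fun a _ => hKA α a a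
    have i2 : InA 0 (fun y => ∑ a, ∑ b, c.Y a b y * cmK χ (g α) a b y) :=
      InA.sum _ fun a _ => InA.sum _ fun b _ => (hc0.Y a b).mul (hKA α a b)
    have i3 : InA 0 (fun y => ∑ e, ∑ γ, c.B e α γ y * (pdv e χ y * g γ y)) :=
      InA.sum _ fun e _ => InA.sum _ fun γ _ => (hc0.B e α γ).mul ((hd1 e).mul (hg0 γ))
    have b1 : nAz t (fun y => ∑ a, cmK χ (g α) a a y) ≤ Kt * nAz (t + 1) (g α) := by
      refine (nAz_sum_le t _ fun a _ => (hKA α a a).integrable).trans ?_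
      rw [hKt, Finset.sum_mul]
      exact Finset.sum_le_sum fun a _ => (hKb α a a).trans (mul_le_mul' (hkle a) le_rfl)
    have b2 : nAz t (fun y => ∑ a, ∑ b, c.Y a b y * cmK χ (g α) a b y)
        ≤ Kt * nAz (t + 1) (g α) := by
      refine (nAz_sum_le t _ fun a _ =>
        (InA.sum _ fun b _ => (hc0.Y a b).mul (hKA α a b)).integrable).trans ?_
      rw [hKt, Finset.sum_mul]
      refine Finset.sum_le_sum fun a _ => ?_
      refine (nAz_sum_le t _ fun b _ => ((hc0.Y a b).mul (hKA α a b)).integrable).trans ?_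
      rw [Finset.sum_mul]
      refine Finset.sum_le_sum fun b _ => ?_
      calc nAz t (fun y => c.Y a b y * cmK χ (g α) a b y)
          ≤ nA r (c.Y a b) * nAz t (cmK χ (g α) a b) := hmulχ _ _ (hc.Y a b) (hKA α a b)
        _ ≤ 1 * (k a b * nAz (t + 1) (g α)) := mul_le_mul' (hYle a b) (hKb α a b)
        _ = _ := one_mul _
    have b3 : nAz t (fun y => ∑ e, ∑ γ, c.B e α γ y * (pdv e χ y * g γ y))
        ≤ D1 * (∑ e, ∑ γ, nA r (c.B e α γ)) * G := by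
      refine (nAz_sum_le t _ fun e _ =>
        (InA.sum _ fun γ _ => (hc0.B e α γ).mul ((hd1 e).mul (hg0 γ))).integrable).trans ?_
      rw [Finset.mul_sum, Finset.sum_mul]
      refine Finset.sum_le_sum fun e _ => ?_
      refine (nAz_sum_le t _ fun γ _ =>
        ((hc0.B e α γ).mul ((hd1 e).mul (hg0 γ))).integrable).trans ?_
      rw [Finset.mul_sum, Finset.sum_mul]
      refine Finset.sum_le_sum fun γ _ => ?_
      have hd1e : nA r (pdv e χ) ≤ D1 := by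
        rw [hD1]
        exact Finset.single_le_sum (f := fun e => nA r (pdv e χ)) (fun _ _ => bot_le)
          (Finset.mem_univ e)
      calc nAz t (fun y => c.B e α γ y * (pdv e χ y * g γ y))
          ≤ nA r (c.B e α γ) * nAz t (fun y => pdv e χ y * g γ y) :=
            hmulχ _ _ (hc.B e α γ) ((hd1 e).mul (hg0 γ))
        _ ≤ nA r (c.B e α γ) * (nA r (pdv e χ) * nAz t (g γ)) :=
            mul_le_mul' le_rfl (hmulχ _ _ (hd1A e) (hg0 γ))
        _ ≤ nA r (c.B e α γ) * (D1 * G) :=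
            mul_le_mul' le_rfl (mul_le_mul' hd1e ((nAz_mono (by linarith) _).trans (hGα γ)))
        _ = _ := by ring
    calc _ ≤ nAz t (fun y => ∑ a, cmK χ (g α) a a y + ∑ a, ∑ b, c.Y a b y * cmK χ (g α) a b y)
          + nAz t (fun y => ∑ e, ∑ γ, c.B e α γ y * (pdv e χ y * g γ y)) :=
          nAz_add_le t (i1.add i2).integrable i3.integrable
      _ ≤ (nAz t (fun y => ∑ a, cmK χ (g α) a a y)
          + nAz t (fun y => ∑ a, ∑ b, c.Y a b y * cmK χ (g α) a b y))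
          + nAz t (fun y => ∑ e, ∑ γ, c.B e α γ y * (pdv e χ y * g γ y)) :=
          add_le_add (nAz_add_le t i1.integrable i2.integrable) le_rfl
      _ ≤ (Kt * nAz (t + 1) (g α) + Kt * nAz (t + 1) (g α))
          + D1 * (∑ e, ∑ γ, nA r (c.B e α γ)) * G := add_le_add (add_le_add b1 b2) b3
      _ = _ := by ring
  calc ∑ α, nAz t (fun y => c.op (fun γ y => χ y * g γ y) α y - χ y * c.op g α y)
      ≤ ∑ α, (2 * Kt * nAz (t + 1) (g α) + D1 * (∑ e, ∑ γ, nA r (c.B e α γ)) * G) :=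
        Finset.sum_le_sum fun α _ => hone α
    _ = 2 * Kt * G + D1 * (∑ e, ∑ α, ∑ γ, nA r (c.B e α γ)) * G := by
        rw [Finset.sum_add_distrib, ← Finset.mul_sum, ← hG, ← Finset.sum_mul, ← Finset.mul_sum,
          Finset.sum_comm (f := fun α e => ∑ γ, nA r (c.B e α γ))]
    _ ≤ 2 * Kt * G + D1 * 1 * G :=
        add_le_add le_rfl (mul_le_mul' (mul_le_mul' le_rfl hBsum) le_rfl)
    _ = _ := by ring

/-- leaf L-Fit-Pde-step. -/
theorem interior_step (n r : ℕ) (χ : E m → ℂ) (hχ : ContDiff ℝ ∞ χ) (hχc : HasCompactSupport χ) :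
    ∃ C : ℝ, 0 ≤ C ∧ ∀ (c : CCoef m n), c.Reg r → c.size r ≤ 1 / 4 → ∀ (s : ℕ) (t : ℤ), 2 ≤ s →
      t + 2 ≤ s → t.natAbs ≤ r → ∀ g E' : Fin n → E m → ℂ, (∀ α, InA s (g α)) →
      (∀ α, InA 0 (E' α)) → (∀ α y, χ y * c.op g α y = χ y * E' α y) →
      ∑ α, nAz (t + 2) (fun y => χ y * g α y)
        ≤ ENNReal.ofReal C * (∑ α, nAz (t + 1) (g α) + ∑ α, nAz t (E' α)) := by
  obtain ⟨C1, hC10, hC1⟩ := comm_bound (m := m) n r χ hχ hχc
  have hχA : ∀ s, InA s χ := fun s => InA.of_smooth hχ hχc s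
  obtain ⟨a, ha⟩ : ∃ a : ℝ≥0∞, a = nA r χ := ⟨_, rfl⟩
  have hafin : a ≠ ⊤ := by rw [ha]; exact (hχA r).fin.ne
  have hfin : 4 * a + ENNReal.ofReal C1 + a ≠ ⊤ :=
    ENNReal.add_ne_top.mpr ⟨ENNReal.add_ne_top.mpr ⟨ENNReal.mul_ne_top (by simp) hafin,
      ENNReal.ofReal_ne_top⟩, hafin⟩
  refine ⟨(4 * a + ENNReal.ofReal C1 + a).toReal, ENNReal.toReal_nonneg, ?_⟩
  intro c hc hsz s t hs hts htr g E' hg hE heq
  rw [ENNReal.ofReal_toReal hfin]
  have hc0 : c.Reg 0 := hc.mono (Nat.zero_le r)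
  have hsz1 : c.size r ≤ 1 := hsz.trans (by
    rw [one_div]
    exact ENNReal.inv_le_one.mpr (by norm_num))
  have hg2 : ∀ α, InA 2 (g α) := fun α => (hg α).mono hs
  have hg0 : ∀ α, InA 0 (g α) := fun α => (hg α).mono (Nat.zero_le _)
  have hχg : ∀ α, InA s (fun y => χ y * g α y) := fun α => (hχA s).mul (hg α)
  have hχg2 : ∀ α, InA 2 (fun y => χ y * g α y) := fun α => (hχg α).mono hs
  have hmulχ : ∀ h : E m → ℂ, InA 0 h → nAz t (fun y => χ y * h y) ≤ a * nAz t h := fun h hh => by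
    rw [ha]
    exact (nAz_mul_le t (hχA 0) hh).trans (mul_le_mul' (nA_mono htr _) le_rfl)
  have h1 := apriori c r s t hs hts htr hc hsz (fun α y => χ y * g α y) hχg
  have h2 := hC1 c hc hsz1 t htr g hg2
  have hop : ∀ α, InA 0 (c.op (fun γ y => χ y * g γ y) α) := c.inA_op hc0 hχg2
  have hop' : ∀ α, InA 0 (fun y => χ y * c.op g α y) := fun α => (hχA 0).mul (c.inA_op hc0 hg2 α)
  have h3 : ∀ α, nAz t (c.op (fun γ y => χ y * g γ y) α)
      ≤ nAz t (fun y => c.op (fun γ y => χ y * g γ y) α y - χ y * c.op g α y)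
        + a * nAz t (E' α) := by
    intro α
    have e : c.op (fun γ y => χ y * g γ y) α
        = fun y => (c.op (fun γ y => χ y * g γ y) α y - χ y * c.op g α y) + χ y * E' α y := by
      funext y
      rw [← heq α y]
      ring
    calc nAz t (c.op (fun γ y => χ y * g γ y) α)
        = nAz t (fun y => (c.op (fun γ y => χ y * g γ y) α y - χ y * c.op g α y)
            + χ y * E' α y) := by rw [← e]
      _ ≤ nAz t (fun y => c.op (fun γ y => χ y * g γ y) α y - χ y * c.op g α y)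
          + nAz t (fun y => χ y * E' α y) :=
          nAz_add_le t ((hop α).sub (hop' α)).integrable ((hχA 0).mul (hE α)).integrable
      _ ≤ _ := add_le_add le_rfl (hmulχ _ (hE α))
  calc ∑ α, nAz (t + 2) (fun y => χ y * g α y)
      ≤ 4 * ∑ α, nAz t (fun y => χ y * g α y)
        + ∑ α, nAz t (c.op (fun γ y => χ y * g γ y) α) := h1
    _ ≤ 4 * ∑ α, a * nAz (t + 1) (g α)
        + ∑ α, (nAz t (fun y => c.op (fun γ y => χ y * g γ y) α y - χ y * c.op g α y)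
          + a * nAz t (E' α)) := by
        refine add_le_add (mul_le_mul' le_rfl (Finset.sum_le_sum fun α _ => ?_))
          (Finset.sum_le_sum fun α _ => h3 α)
        exact (hmulχ _ (hg0 α)).trans (mul_le_mul' le_rfl (nAz_mono (by linarith) _))
    _ ≤ 4 * (a * ∑ α, nAz (t + 1) (g α))
        + (ENNReal.ofReal C1 * ∑ α, nAz (t + 1) (g α) + a * ∑ α, nAz t (E' α)) := by
        rw [Finset.sum_add_distrib, ← Finset.mul_sum, ← Finset.mul_sum]
        exact add_le_add le_rfl (add_le_add h2 le_rfl)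
    _ ≤ (4 * a + ENNReal.ofReal C1 + a) * (∑ α, nAz (t + 1) (g α) + ∑ α, nAz t (E' α)) := by
        generalize ∑ α, nAz (t + 1) (g α) = G
        generalize ∑ α, nAz t (E' α) = F
        calc 4 * (a * G) + (ENNReal.ofReal C1 * G + a * F)
            ≤ 4 * (a * G) + (ENNReal.ofReal C1 * G + a * F)
              + (a * G + (4 * a + ENNReal.ofReal C1) * F) := le_self_add
          _ = _ := by ring

/-- the bump functions of the chain between two radii. -/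
noncomputable def chainBumpR (m : ℕ) (R₁ R₀ : ℝ) (h1 : 0 < R₁) (h0 : R₁ < R₀) (i : ℕ) :
    ContDiffBump (0 : E m) where
  rIn := R₁ + (R₀ - R₁) / (2 * (i : ℝ) + 3)
  rOut := R₁ + (R₀ - R₁) / (2 * (i : ℝ) + 2)
  rIn_pos := by
    have : 0 < (R₀ - R₁) / (2 * (i : ℝ) + 3) := div_pos (by linarith) (by positivity)
    linarith
  rIn_lt_rOut := by
    have h2 : (0 : ℝ) < 2 * (i : ℝ) + 2 := by positivity
    have h3 : 2 * (i : ℝ) + 2 < 2 * (i : ℝ) + 3 := by linarith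
    have := div_lt_div_of_pos_left (by linarith : 0 < R₀ - R₁) h2 h3
    linarith

/-- leaf L-Fit-Pde-chain: nested cutoffs between two radii. -/
theorem exists_chainR (m : ℕ) (R₁ R₀ : ℝ) (h1 : 0 < R₁) (h0 : R₁ < R₀) :
    ∃ χ : ℕ → E m → ℝ, (∀ i, ContDiff ℝ ∞ (χ i)) ∧ (∀ i, HasCompactSupport (χ i)) ∧
      (∀ i, tsupport (χ i) ⊆ Metric.ball 0 R₀) ∧ (∀ i y, 0 ≤ χ i y ∧ χ i y ≤ 1) ∧
      (∀ i, ∀ y ∈ tsupport (χ (i + 1)), χ i =ᶠ[𝓝 y] 1) ∧
      (∀ i, ∀ y ∈ Metric.closedBall (0 : E m) R₁, χ i =ᶠ[𝓝 y] 1) := by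
  have hd : 0 < R₀ - R₁ := by linarith
  have hone : ∀ i : ℕ, ∀ y ∈ Metric.ball (0 : E m) (R₁ + (R₀ - R₁) / (2 * (i : ℝ) + 3)),
      (chainBumpR m R₁ R₀ h1 h0 i : E m → ℝ) =ᶠ[𝓝 y] 1 := by
    intro i y hy
    filter_upwards [Metric.isOpen_ball.mem_nhds hy] with z hz
    exact (chainBumpR m R₁ R₀ h1 h0 i).one_of_mem_closedBall (Metric.ball_subset_closedBall hz)
  refine ⟨fun i => chainBumpR m R₁ R₀ h1 h0 i, fun i => (chainBumpR m R₁ R₀ h1 h0 i).contDiff,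
    fun i => (chainBumpR m R₁ R₀ h1 h0 i).hasCompactSupport, fun i => ?_,
    fun i y => ⟨(chainBumpR m R₁ R₀ h1 h0 i).nonneg, (chainBumpR m R₁ R₀ h1 h0 i).le_one⟩,
    fun i y hy => ?_, fun i y hy => ?_⟩
  · rw [(chainBumpR m R₁ R₀ h1 h0 i).tsupport_eq]
    refine Metric.closedBall_subset_ball ?_
    show R₁ + (R₀ - R₁) / (2 * (i : ℝ) + 2) < R₀
    have h2 : (R₀ - R₁) / (2 * (i : ℝ) + 2) < R₀ - R₁ := by
      rw [div_lt_iff₀ (by positivity)]
      have : (0 : ℝ) ≤ i := Nat.cast_nonneg i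
      nlinarith
    linarith
  · refine hone i y ?_
    rw [(chainBumpR m R₁ R₀ h1 h0 (i + 1)).tsupport_eq] at hy
    rw [Metric.mem_closedBall] at hy
    rw [Metric.mem_ball]
    refine lt_of_le_of_lt hy ?_
    show R₁ + (R₀ - R₁) / (2 * ((i + 1 : ℕ) : ℝ) + 2) < R₁ + (R₀ - R₁) / (2 * (i : ℝ) + 3)
    have h3 : (0 : ℝ) < 2 * (i : ℝ) + 3 := by positivity
    have h4 : 2 * (i : ℝ) + 3 < 2 * ((i + 1 : ℕ) : ℝ) + 2 := by push_cast; linarith
    have := div_lt_div_of_pos_left hd h3 h4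
    linarith
  · refine hone i y ?_
    rw [Metric.mem_closedBall] at hy
    rw [Metric.mem_ball]
    have : 0 < (R₀ - R₁) / (2 * (i : ℝ) + 3) := div_pos hd (by positivity)
    linarith

/-- **PDE-1 (unit scale, complex).**  leaf L-Fit-Pde-interior. -/
theorem interior_unit (m n s N : ℕ) (hs : N + m + 4 ≤ s) (R₁ R₀ : ℝ) (h1 : 0 < R₁) (h0 : R₁ < R₀) :
    ∃ (χ : E m → ℝ) (C : ℝ), ContDiff ℝ ∞ χ ∧ tsupport χ ⊆ Metric.ball 0 R₀ ∧
      (∀ y ∈ Metric.closedBall (0 : E m) R₁, χ =ᶠ[𝓝 y] 1) ∧ (∀ y, 0 ≤ χ y ∧ χ y ≤ 1) ∧ 0 ≤ C ∧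
      ∀ (c : CCoef m n), c.Reg (s - 2) → c.size (s - 2) ≤ 1 / 4 →
      ∀ (w E' : Fin n → E m → ℂ) (b : ℝ), (∀ α, InA s (w α)) → (∀ α, InA (s - 2) (E' α)) →
        (∀ y ∈ Metric.ball (0 : E m) R₀, ∀ α, c.op w α y = E' α y) →
        (∀ α, WeakLe N (Metric.ball 0 R₀) (w α) b) →
        ∑ α, nA s (fun y => (χ y : ℂ) * w α y)
          ≤ ENNReal.ofReal (C * b) + ENNReal.ofReal C * ∑ α, nA (s - 2) (E' α) := by
  obtain ⟨χ, hχs, hχc, hχsupp, hχ01, hχnest, hχone⟩ := exists_chainR m R₁ R₀ h1 h0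
  obtain ⟨C0, hC00, hC0⟩ := weak_to_neg N (χ 0) (hχs 0) (hχc 0)
  have hstep := fun i : ℕ => interior_step (m := m) n (s - 2) (cx (χ (i + 1)))
    (contDiff_cx (k := ⊤) (hχs (i + 1))) (hasCompactSupport_cx (hχc (i + 1)))
  choose Cs hCs0 hCs using hstep
  -- the constants
  let K : ℕ → ℝ := fun i => Nat.rec ((n : ℝ) * C0) (fun i k => Cs i * (k + 1)) i
  have hK0 : K 0 = (n : ℝ) * C0 := rfl
  have hKs : ∀ i, K (i + 1) = Cs i * (K i + 1) := fun i => rfl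
  have hKnn : ∀ i, 0 ≤ K i := by
    intro i
    induction i with
    | zero => rw [hK0]; positivity
    | succ i ih => rw [hKs]; exact mul_nonneg (hCs0 i) (by linarith)
  set M : ℕ := s + (N + m + 1) with hM
  refine ⟨χ M, K M, hχs M, hχsupp M, hχone M, hχ01 M, hKnn M, ?_⟩
  intro c hc hsz w E' b hw hE heq hweak
  rcases isEmpty_or_nonempty (Fin n) with hn | ⟨⟨α₀⟩⟩
  · simp
  have hb0 : 0 ≤ b := (hweak α₀).nonneg
  obtain ⟨F, hF⟩ : ∃ F : ℝ≥0∞, F = ∑ α, nA (s - 2) (E' α) := ⟨_, rfl⟩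
  rw [← hF]
  have hgA : ∀ i α, InA s (fun y => (χ i y : ℂ) * w α y) := fun i α =>
    (InA.of_smooth (contDiff_cx (k := ⊤) (hχs i)) (hasCompactSupport_cx (hχc i)) s).mul (hw α)
  have key : ∀ i : ℕ, i ≤ M →
      ∑ α, nAz ((i : ℤ) - ((N : ℤ) + m + 1)) (fun y => (χ i y : ℂ) * w α y)
        ≤ ENNReal.ofReal (K i * b) + ENNReal.ofReal (K i) * F := by
    intro i
    induction i with
    | zero =>
      intro _
      refine le_trans ?_ le_self_add
      have h2 : ((0 : ℕ) : ℤ) - ((N : ℤ) + m + 1) = -((N : ℤ) + m + 1) := by simp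
      rw [h2]
      calc ∑ α, nAz (-((N : ℤ) + m + 1)) (fun y => (χ 0 y : ℂ) * w α y)
          ≤ ∑ _α : Fin n, ENNReal.ofReal (C0 * b) :=
            Finset.sum_le_sum fun α _ => hC0 _ (w α) b (hχsupp 0) (hw α).cont (hweak α)
        _ = ENNReal.ofReal (K 0 * b) := by
            rw [Finset.sum_const, Finset.card_univ, Fintype.card_fin, nsmul_eq_mul, hK0,
              mul_assoc, ENNReal.ofReal_mul (Nat.cast_nonneg n), ENNReal.ofReal_natCast]
    | succ i ih =>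
      intro hi
      have hiM : i ≤ M := by omega
      have ih' := ih hiM
      set t : ℤ := (i : ℤ) - ((N : ℤ) + m + 1) - 1 with ht
      have ht2 : ((i + 1 : ℕ) : ℤ) - ((N : ℤ) + m + 1) = t + 2 := by rw [ht]; push_cast; ring
      have ht1 : (i : ℤ) - ((N : ℤ) + m + 1) = t + 1 := by rw [ht]; ring
      rw [ht1] at ih'
      rw [ht2]
      have hts : t + 2 ≤ (s : ℤ) := by rw [ht]; omega
      have htr : t.natAbs ≤ s - 2 := by rw [ht]; omega
      have htE : t ≤ ((s - 2 : ℕ) : ℤ) := by rw [ht]; omega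
      have hfun : ∀ α, (fun y => (χ (i + 1) y : ℂ) * w α y)
          = fun y => cx (χ (i + 1)) y * ((χ i y : ℂ) * w α y) := by
        intro α
        funext y
        by_cases hy : y ∈ tsupport (χ (i + 1))
        · have : χ i y = 1 := (hχnest i y hy).eq_of_nhds
          simp [cx, this]
        · have : χ (i + 1) y = 0 := image_eq_zero_of_notMem_tsupport hy
          simp [cx, this]
      have hloc : ∀ α y, cx (χ (i + 1)) y * c.op (fun γ y => (χ i y : ℂ) * w γ y) α y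
          = cx (χ (i + 1)) y * E' α y := by
        intro α y
        by_cases hy : y ∈ tsupport (χ (i + 1))
        · have hgerm : ∀ γ, (fun y => (χ i y : ℂ) * w γ y) =ᶠ[𝓝 y] w γ := by
            intro γ
            filter_upwards [hχnest i y hy] with z hz
            simp [hz]
          rw [c.op_congr hgerm α, heq y (hχsupp (i + 1) hy) α]
        · have : χ (i + 1) y = 0 := image_eq_zero_of_notMem_tsupport hy
          simp [cx, this]
      have h3 := hCs i c hc hsz s t (by omega) hts htr (fun γ y => (χ i y : ℂ) * w γ y) E'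
        (hgA i) (fun α => (hE α).mono (Nat.zero_le _)) hloc
      simp only [hfun]
      have hEle : ∑ α, nAz t (E' α) ≤ F := by
        rw [hF]
        exact Finset.sum_le_sum fun α _ => nAz_le_nA htE (E' α)
      calc _ ≤ ENNReal.ofReal (Cs i) * (∑ α, nAz (t + 1) (fun y => (χ i y : ℂ) * w α y)
            + ∑ α, nAz t (E' α)) := h3
        _ ≤ ENNReal.ofReal (Cs i) * ((ENNReal.ofReal (K i * b) + ENNReal.ofReal (K i) * F) + F) :=
            mul_le_mul' le_rfl (add_le_add ih' hEle)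
        _ = ENNReal.ofReal (Cs i * (K i * b)) + ENNReal.ofReal (Cs i * (K i + 1)) * F := by
            rw [ENNReal.ofReal_mul (hCs0 i), ENNReal.ofReal_mul (hCs0 i),
              ENNReal.ofReal_add (hKnn i) zero_le_one, ENNReal.ofReal_one]
            ring
        _ ≤ ENNReal.ofReal (K (i + 1) * b) + ENNReal.ofReal (K (i + 1)) * F := by
            rw [hKs]
            refine add_le_add (ENNReal.ofReal_le_ofReal ?_) le_rfl
            have := mul_nonneg (hCs0 i) hb0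
            nlinarith
  have hfin := key M le_rfl
  have hMe : ((M : ℕ) : ℤ) - ((N : ℤ) + m + 1) = (s : ℤ) := by rw [hM]; push_cast; ring
  rw [hMe] at hfin
  simpa only [nAz_natCast] using hfin

end Claimed.Agent.R322.Fit
end
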