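/- Packed by merge_tool.py (helper293): 3 modules of Claimed.Agent.R322 in one file, same declarations.
   Old modules, in this order: Freq.Frame, Freq.Cacc, Freq.Flux -/
import Claimed.Agent.R322.Pack046
import Claimed.Agent.R322.Pack017
import Claimed.Agent.R322.Pack021
import Claimed.Agent.R322.Pack043
import Claimed.Agent.R322.Pack048
import Claimed.Agent.R322.Pack045
import Claimed.Agent.R322.Pack053
import Claimed.Agent.R322.Pack013

/- ===== packed: Claimed.Agent.R322.Freq.Frame ===== -/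
section
/-!
# CO Lemmas 4.2, 4.3: the single-radius frame, the quantifier prefix of the leaves, the measure-theoretic toolkit

Owner: helper109 (CO4 sub-captain; packages BP-CO4-weights, BP-CO4-freqA, BP-CO4-freqB).

* `Wt k J Cm C N r` : the conclusions of CO Lemma 4.2 at the radius `r`.  `Cm` is the UNIVERSAL mass constant (`Cmass m Q`);
  `C` is the constant of Lemma 4.2 (it depends on the fitting parameters).
* `Fr Q J k κ C N r` : everything that the proof of CO Lemma 4.3 uses at the radius `r` ("the precise single-radius inputs").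
  No fits, no tents, no failure scales.  `κ` bounds the slope, the derivatives of orders `2..J` of the centre and the height of the cylinder.
* `Unif m n Q Φ` : "there are `J₁`, `κ₀` depending only on `m, n, Q` such that for every constant `Ca` of Lemma 4.2 there are `C`, `r₀` with
  `Φ C N r` for all frames with `J ≥ J₁`, `κ ≤ κ₀`, `r ≤ r₀`".  ALL leaves of Lemma 4.3 have this form; a leaf may use any earlier
  leaf: `obtain ⟨J₁, κ₀, hκ₀, h⟩ := earlier_leaf ..`, then `obtain ⟨C, r₀, hC, hr₀, h⟩ := h Ca`.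
* toolkit: measurability, integrability, transfer of integrals to the base, almost everywhere height bound, central fibre.
-/

set_option autoImplicit false

open scoped ENNReal ContDiff
open MeasureTheory

namespace Claimed.Agent.R322.Freq

open Claimed.Agent.R322.Tube

variable {m n : ℕ}

/-- the universal mass constant -/
noncomputable def Cmass (m Q : ℕ) : ℝ := (Q + 1) * kap m * 4 ^ m

/-- The conclusions of **CO Lemma 4.2** at one radius. -/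
structure Wt (k J : ℕ) (Cm C : ℝ) (N : NCyl m n) (r : ℝ) : Prop where
  d_pos : 0 < qd N r
  d_le : qd N r ≤ C * r ^ (k - 1)
  /-- normalised mass bound -/
  mass : N.μ {X | npr N.u X ∈ Bs N.u r} ≤ ENNReal.ofReal (Cm * r ^ m)
  /-- (4.9) with `J₀ = 4` (kernel exponent `p = 10`, `m + 9 ≤ 2 k`) -/
  H_lo : C⁻¹ * qd N r ^ 4 ≤ qH N r / r ^ 2
  H_hi : qH N r / r ^ 2 ≤ C * qd N r ^ 2
  /-- (4.10) -/
  curv : ∀ y ∈ Bs N.u r, ‖HS N.u y‖ + Real.sqrt (DHSsq N.u y) ≤ C * qd N r * r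
  /-- (4.11) -/
  wcurv : ∫ X, phiR N.u r (npr N.u X) * (‖HS N.u (npr N.u X)‖ ^ 2 + DHSsq N.u (npr N.u X)) ∂N.μ
    ≤ C * ∫ X, phiR N.u r (npr N.u X) * ‖zz N.u X‖ ^ 2 ∂N.μ
  /-- the smooth mass test `χ_r` -/
  test : ∃ χ : E m → ℝ, ContDiff ℝ ∞ χ ∧ (∀ y, 0 ≤ χ y) ∧ tsupport χ ⊆ Bs N.u (r / 4) ∧
    ∫ y, χ y ∂N.volS = 1 ∧ |∫ y, χ y ∂N.nu - N.Q| ≤ 1 / 8 ∧
    ∀ j : ℕ, j ≤ J → ∀ y, r ^ m * r ^ j * ‖iteratedFDeriv ℝ j χ y‖ ≤ C

/-- **The single-radius frame of CO Lemma 4.3.** -/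
structure Fr (Q J k : ℕ) (κ C : ℝ) (N : NCyl m n) (r : ℝ) : Prop where
  Q_eq : N.Q = Q
  Ω_eq : N.Ω = Metric.ball 0 4
  ref : RefGraph J κ κ N.u
  h_le : N.h ≤ κ
  u0 : ‖N.u 0‖ ≤ 1
  k_ge : 5 ≤ k
  r_pos : 0 < r
  r_le : r ≤ 1
  /-- upper mass bound at all centres and radii which are used -/
  lmass : ∀ (X : E (m + n)) (s : ℝ), ‖X‖ ≤ 3 → 0 < s → s ≤ 1 →
    N.W.μ (Metric.ball X s) ≤ ENNReal.ofReal (Cmass m Q * s ^ m)
  wt : Wt k J (Cmass m Q) C N r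

/-- the quantifier prefix of the leaves of CO Lemma 4.3 -/
def Unif (m n Q : ℕ) (Φ : ℝ → NCyl m n → ℝ → Prop) : Prop :=
  ∃ (J₁ : ℕ) (κ₀ : ℝ), 0 < κ₀ ∧ ∀ Ca : ℝ, ∃ C r₀ : ℝ, 1 ≤ C ∧ 0 < r₀ ∧
    ∀ (J k : ℕ) (κ : ℝ) (N : NCyl m n) (r : ℝ), J₁ ≤ J → κ ≤ κ₀ → r ≤ r₀ → Fr Q J k κ Ca N r → Φ C N r

/-- the same prefix for statements without a new constant -/
def Unif₀ (m n Q : ℕ) (Φ : NCyl m n → ℝ → Prop) : Prop :=
  ∃ (J₁ : ℕ) (κ₀ : ℝ), 0 < κ₀ ∧
    ∀ (J k : ℕ) (κ Ca : ℝ) (N : NCyl m n) (r : ℝ), J₁ ≤ J → κ ≤ κ₀ → Fr Q J k κ Ca N r → Φ N r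

theorem refGraph_mono {J J' : ℕ} {K K' ε ε' : ℝ} {u : E m → E n} (h : RefGraph J K ε u) (hJ : J' ≤ J)
    (hK : K ≤ K') (hε : ε ≤ ε') : RefGraph J' K' ε' u where
  smooth := h.smooth.of_le (by exact_mod_cast hJ)
  slope y := (h.slope y).trans hε
  bound j hj hj' y := (h.bound j hj (hj'.trans hJ) y).trans hK

theorem refGraph_geo {J : ℕ} {κ : ℝ} {u : E m → E n} (h : RefGraph J κ κ u) (hJ : 4 ≤ J) (hκ : κ ≤ 1 / 2) :
    Geo κ u where
  smooth := h.smooth.of_le (by exact_mod_cast hJ)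
  slope y := (h.slope y).trans hκ
  d2 y := h.bound 2 le_rfl (by omega) y
  d3 y := h.bound 3 (by omega) (by omega) y
  le_one := hκ.trans (by norm_num)

variable {Q J k : ℕ} {κ C : ℝ} {N : NCyl m n} {r : ℝ}

theorem Fr.geo (h : Fr Q J k κ C N r) (hJ : 4 ≤ J) (hκ : κ ≤ 1 / 2) : Geo κ N.u := refGraph_geo h.ref hJ hκ

theorem Fr.κ_nonneg (h : Fr Q J k κ C N r) : 0 ≤ κ := (norm_nonneg _).trans (h.ref.slope 0)

/-! ### toolkit (leaves `L-Freq-tk-*`) -/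

local notation "adj" => ContinuousLinearMap.adjoint

/-- qualitative facts of a frame (`Lin.CylOK`, bounded geometry, the cylinder lies in the good tube) -/
structure FrOK (κ : ℝ) (N : NCyl m n) : Prop where
  geo : Geo κ N.u
  ok : Lin.CylOK N
  tub : Cyl N.u N.Ω N.h ⊆ Tub N.u (2 / 9)

theorem exists_frOK (m n : ℕ) : ∃ κ₀ : ℝ, 0 < κ₀ ∧ ∀ (Q J k : ℕ) (κ C : ℝ) (N : NCyl m n) (r : ℝ),
    4 ≤ J → κ ≤ κ₀ → Fr Q J k κ C N r → FrOK κ N := by
  obtain ⟨h₀, hh₀, H⟩ := Lin.exists_cylOK m n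
  refine ⟨min (2 / 9) h₀, lt_min (by norm_num) hh₀, ?_⟩
  intro Q J k κ C N r hJ hκ h
  have hκ1 : κ ≤ 2 / 9 := hκ.trans (min_le_left _ _)
  have hG : Geo κ N.u := h.geo hJ (hκ1.trans (by norm_num))
  exact ⟨hG, H κ N hG (h.h_le.trans (hκ.trans (min_le_right _ _))),
    fun X hX => ⟨npr N.u X, hX.2.trans_le (h.h_le.trans hκ1)⟩⟩

theorem tk_continuous_Shp {u : E m → E n} (hu : ContDiff ℝ 4 u) :
    Continuous fun p : E m × E (m + n) => Shp u p.1 p.2 := by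
  have h1 : Continuous (fderiv ℝ (Ph u)) :=
    (contDiff_Ph_of (k := 3) hu).continuous_fderiv (by norm_num)
  have h2 : Continuous (Pv u) := (contDiff_Pv_of (k := 3) hu).continuous
  have h3 : Continuous fun y => dFp (fderiv ℝ u y) := (contDiff_dFp_Du (k := 3) hu).continuous
  have h4 : Continuous fun y => (fderiv ℝ (Ph u) y).flip :=
    (ContinuousLinearMap.flipₗᵢ ℝ (E m) (E (m + n)) (E (m + n))).continuous.comp h1
  unfold Shp
  exact ((h4.comp continuous_fst).clm_apply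
    ((h2.comp continuous_fst).clm_apply continuous_snd)).clm_comp (h3.comp continuous_fst)

theorem tk_continuous_Gv {u : E m → E n} (hu : ContDiff ℝ 4 u) : Continuous (Gv u) := by
  unfold Gv
  exact (contDiff_Ph_of (k := 3) hu).continuous.clm_apply
    ((contDiff_Fg_of hu).continuous.sub continuous_const)

theorem tk_continuous_HS {u : E m → E n} (hu : ContDiff ℝ 4 u) : Continuous (HS u) :=
  (tr_contDiff_HS (hu.of_le (by norm_num))).continuous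

theorem tk_continuous_DHSsq {u : E m → E n} (hu : ContDiff ℝ 4 u) : Continuous (DHSsq u) := by
  have h1 : Continuous (fderiv ℝ (HS u)) :=
    (tr_contDiff_HS (hu.of_le (by norm_num))).continuous_fderiv one_ne_zero
  have h2 : Continuous (Pv u) := (contDiff_Pv_of (k := 3) hu).continuous
  have h3 : Continuous fun y => (gmat (fderiv ℝ u y)).inverse :=
    (contDiff_gmat_inverse_Du (k := 3) hu).continuous
  unfold DHSsq DHS
  refine continuous_finsetSum _ fun a _ => ?_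
  exact (h2.clm_apply (h1.clm_apply (h3.clm_apply continuous_const))).inner
    (h2.clm_apply (h1.clm_apply continuous_const))

theorem tk_DHSsq_nonneg (u : E m → E n) (y : E m) : 0 ≤ DHSsq u y := by
  rw [DHSsq_eq_trc, ← dFp_comp_adjoint_dFp]
  have e1 : adj (DHSop u y) ∘L DHSop u y ∘L (dFp (fderiv ℝ u y) ∘L adj (dFp (fderiv ℝ u y)))
      = (adj (DHSop u y) ∘L DHSop u y ∘L dFp (fderiv ℝ u y)) ∘L adj (dFp (fderiv ℝ u y)) := by
    simp only [ContinuousLinearMap.comp_assoc]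
  have e2 : adj (dFp (fderiv ℝ u y)) ∘L (adj (DHSop u y) ∘L DHSop u y ∘L dFp (fderiv ℝ u y))
      = adj (DHSop u y ∘L dFp (fderiv ℝ u y)) ∘L (DHSop u y ∘L dFp (fderiv ℝ u y)) := by
    rw [ContinuousLinearMap.adjoint_comp]
    simp only [ContinuousLinearMap.comp_assoc]
  rw [e1, trc_comp_comm, e2]
  exact trc_adjoint_comp_self_nonneg _

theorem tk_lam_nonneg (u : E m → E n) (X : E (m + n)) : 0 ≤ lam u X := by
  unfold lam
  have := tk_DHSsq_nonneg u (npr u X)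
  positivity

namespace FrOK

variable {κ' : ℝ} {N' : NCyl m n}

theorem continuousOn_Jz (h : FrOK κ' N') : ContinuousOn (Jz N'.u) (Cyl N'.u N'.Ω N'.h) := by
  have h0 : ContinuousOn (fun X => (npr N'.u X, zz N'.u X)) (Cyl N'.u N'.Ω N'.h) :=
    h.ok.cont_npr.prodMk h.ok.cont_zz
  have h1 : ContinuousOn (fun X => Shp N'.u (npr N'.u X) (zz N'.u X)) (Cyl N'.u N'.Ω N'.h) :=
    Continuous.comp_continuousOn (g := fun p : E m × E (m + n) => Shp N'.u p.1 p.2)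
      (f := fun X => (npr N'.u X, zz N'.u X)) (tk_continuous_Shp h.geo.smooth) h0
  have h2 : Jz N'.u = fun X => ContinuousLinearMap.id ℝ (E (m + n))
      - Shp N'.u (npr N'.u X) (zz N'.u X) := rfl
  rw [h2]
  exact continuousOn_const.sub h1

theorem continuousOn_Kz (h : FrOK κ' N') : ContinuousOn (Kz N'.u) (Cyl N'.u N'.Ω N'.h) := by
  intro X hX
  have hd := (tube_deriv_of_le h.geo le_rfl).2.2.2 X (h.tub hX)
  have hinv : (Jz N'.u X).IsInvertible :=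
    ContinuousLinearMap.IsInvertible.of_inverse hd.1 hd.2.1
  have hc : ContinuousAt ContinuousLinearMap.inverse (Jz N'.u X) :=
    (hinv.contDiffAt_map_inverse (n := 0)).continuousAt
  exact hc.comp_continuousWithinAt (h.continuousOn_Jz X hX)

theorem continuousOn_Vv (h : FrOK κ' N') : ContinuousOn (Vv N'.u) (Cyl N'.u N'.Ω N'.h) := by
  unfold Vv
  exact h.continuousOn_Kz.clm_apply
    ((tk_continuous_Gv h.geo.smooth).comp_continuousOn h.ok.cont_npr)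

theorem continuousOn_lam (h : FrOK κ' N') : ContinuousOn (lam N'.u) (Cyl N'.u N'.Ω N'.h) := by
  unfold lam
  exact ((h.ok.cont_zz.norm.pow 2).add
    (((tk_continuous_HS h.geo.smooth).comp_continuousOn h.ok.cont_npr).norm.pow 2)).add
    ((tk_continuous_DHSsq h.geo.smooth).comp_continuousOn h.ok.cont_npr)

/-- integration against a pushed-forward density, Borel test functions -/
theorem integral_push (h : FrOK κ' N') {w : E (m + n) → ℝ} (hw : AEStronglyMeasurable w N'.μ)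
    (h0 : ∀ X, 0 ≤ w X) {g : E m → ℝ} (hg : Measurable g) :
    ∫ y, g y ∂((N'.μ.withDensity fun X => ENNReal.ofReal (w X)).map (npr N'.u))
      = ∫ X, g (npr N'.u X) * w X ∂N'.μ := by
  rw [integral_map (h.ok.aemeasurable_npr_wd _) hg.aestronglyMeasurable,
    integral_withDensity_eq_integral_toReal_smul₀ hw.aemeasurable.ennreal_ofReal
      (Filter.Eventually.of_forall fun _ => ENNReal.ofReal_lt_top)]
  refine integral_congr_ae (Filter.Eventually.of_forall fun X => ?_)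
  simp only [ENNReal.toReal_ofReal (h0 X), smul_eq_mul, mul_comm]

/-- pushed-forward densities on Borel sets -/
theorem push_apply (h : FrOK κ' N') (f : E (m + n) → ℝ≥0∞) {A : Set (E m)} (hA : MeasurableSet A) :
    ((N'.μ.withDensity f).map (npr N'.u)) A = ∫⁻ X in {X | npr N'.u X ∈ A}, f X ∂N'.μ := by
  rw [Measure.map_apply_of_aemeasurable (h.ok.aemeasurable_npr_wd f) hA]
  exact withDensity_apply₀ f (h.ok.aemeasurable_npr.nullMeasurableSet_preimage hA)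

end FrOK

/-- measurability of everything that is integrated (leaf `L-Freq-tk-meas`).
PLAN.  `Tube.tube_deriv`: `npr`, `zz` are continuous on the open set `Tub u h₀ ⊇ Cyl`; `Tube.cyl_carrier`: the cylinder is open;
`ContinuousOn.aestronglyMeasurable`.  `Vv = Kz (G ∘ npr)`: `Jz` is continuous on the tube (`Ph` is `C³`), `Kz = Ring.inverse`-type
inverse of an invertible operator (`tube_deriv`), continuous by `ContinuousLinearMap` inverse continuity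
(`ContinuousAt` of `ContinuousLinearMap.inverse` at an equivalence).  `W.P_meas` and `Base` lemmas `measurable_P_apply`,
`measurable_tdiv` for the terms with `P` (replace a.e. by measurable representatives, or use `AEStronglyMeasurable.clm_apply`-type lemmas). -/
structure Meas (N : NCyl m n) : Prop where
  mCyl : MeasurableSet (Cyl N.u N.Ω N.h)
  mNpr : AEStronglyMeasurable (npr N.u) N.μ
  mZz : AEStronglyMeasurable (zz N.u) N.μ
  mV : AEStronglyMeasurable (Vv N.u) N.μ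
  mPV : AEStronglyMeasurable (fun X => N.W.P X (Vv N.u X)) N.μ
  mTilt : AEStronglyMeasurable (fun X => tilt N.u (N.W.P X) X) N.μ
  /-- composition of a Borel function on the base with the projection -/
  mComp : ∀ η : E m → ℝ, Measurable η → AEStronglyMeasurable (fun X => η (npr N.u X)) N.μ

theorem FrOK.meas {κ' : ℝ} {N' : NCyl m n} (h : FrOK κ' N') : Meas N' where
  mCyl := h.ok.measurableSet
  mNpr := h.ok.aesm h.ok.cont_npr
  mZz := h.ok.aesm h.ok.cont_zz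
  mV := h.ok.aesm h.continuousOn_Vv
  mPV := (isBoundedBilinearMap_apply (𝕜 := ℝ) (E := E (m + n))
    (F := E (m + n))).continuous.comp_aestronglyMeasurable
      ((Lin.CylOK.aesm_P N').prodMk (h.ok.aesm h.continuousOn_Vv))
  mTilt := h.ok.aesm_tilt
  mComp := fun _ hη => (hη.comp_aemeasurable h.ok.aemeasurable_npr).aestronglyMeasurable

theorem meas (m n Q : ℕ) : Unif₀ m n Q (fun N _ => Meas N) := by
  obtain ⟨κ₀, hκ₀, H⟩ := exists_frOK m n
  exact ⟨4, κ₀, hκ₀, fun J k κ Ca N r hJ hκ h => (H Q J k κ Ca N r hJ hκ h).meas⟩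

/-- the height bound holds at almost every point (leaf `L-Freq-tk-height`).
PLAN.  `Tube.cyl_carrier` (almost every point is a support point in the cylinder), definition of `qd`, `NCyl.supz`, `le_csSup`
(the set is bounded by `N.h`). -/
theorem ae_height (m n Q : ℕ) : Unif₀ m n Q (fun N r =>
    (∀ X ∈ N.W.support, X ∈ Cyl N.u N.Ω N.h → npr N.u X ∈ Bs N.u r → ‖zz N.u X‖ ≤ qd N r * r) ∧
    (∀ᵐ X ∂N.μ, X ∈ N.W.support ∧ X ∈ Cyl N.u N.Ω N.h) ∧
    ∀ᵐ X ∂N.μ, npr N.u X ∈ Bs N.u r → ‖zz N.u X‖ ≤ qd N r * r) := by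
  obtain ⟨κ₀, hκ₀, H⟩ := exists_frOK m n
  refine ⟨4, κ₀, hκ₀, ?_⟩
  intro J k κ Ca N r hJ hκ h
  have hok := H Q J k κ Ca N r hJ hκ h
  have h1 : ∀ X ∈ N.W.support, X ∈ Cyl N.u N.Ω N.h → npr N.u X ∈ Bs N.u r →
      ‖zz N.u X‖ ≤ qd N r * r := by
    intro X hXs hXc hXb
    have e : qd N r * r = N.supz (Bs N.u r) := by
      unfold qd
      rw [mul_comm, ← mul_assoc, mul_inv_cancel₀ h.r_pos.ne', one_mul]
    rw [e]
    unfold NCyl.supz
    refine le_csSup ⟨N.h, ?_⟩ ⟨X, hXs, hXc, hXb, rfl⟩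
    rintro t ⟨Y, -, hYc, -, rfl⟩
    exact hYc.2.le
  have h2 : ∀ᵐ X ∂N.μ, X ∈ N.W.support ∧ X ∈ Cyl N.u N.Ω N.h :=
    hok.ok.ae_mem.mono fun X hX => ⟨hX.1, hX.2.1⟩
  exact ⟨h1, h2, h2.mono fun X hX => h1 X hX.1 hX.2⟩

theorem Cmass_nonneg (m Q : ℕ) : 0 ≤ Cmass m Q := by
  unfold Cmass kap
  have : 0 ≤ ((μH[(m : ℝ)] : Measure (E m)) (Metric.ball 0 1)).toReal := ENNReal.toReal_nonneg
  positivity

/-- integrability of bounded functions with base support in the disc (leaf `L-Freq-tk-int`).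
PLAN.  `f = indicator {npr ∈ Bs r} f`; the set has finite measure by `Wt.mass`; `Measure.integrableOn_of_bounded`,
`norm_integral_le_of_norm_le_const`-type estimate on the restricted measure. -/
theorem integrable_base (m n Q : ℕ) : Unif₀ m n Q (fun N r =>
    ∀ (f : E (m + n) → ℝ) (b : ℝ), 0 ≤ b → AEStronglyMeasurable f N.μ → (∀ᵐ X ∂N.μ, |f X| ≤ b) →
      (∀ X, npr N.u X ∉ Bs N.u r → f X = 0) →
      Integrable f N.μ ∧ |∫ X, f X ∂N.μ| ≤ b * (Cmass m Q * r ^ m)) := by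
  refine ⟨0, 1, one_pos, ?_⟩
  intro J k κ Ca N r _ _ h f b hb hf hfb hf0
  have hA : N.μ {X | npr N.u X ∈ Bs N.u r} ≤ ENNReal.ofReal (Cmass m Q * r ^ m) := h.wt.mass
  have hAfin : N.μ {X | npr N.u X ∈ Bs N.u r} < ⊤ := hA.trans_lt ENNReal.ofReal_lt_top
  have hsupp : Function.support f ⊆ {X | npr N.u X ∈ Bs N.u r} := fun X hX =>
    by_contra fun hn => hX (hf0 X hn)
  have hfb' : ∀ᵐ X ∂N.μ.restrict {X | npr N.u X ∈ Bs N.u r}, ‖f X‖ ≤ b :=
    ae_restrict_of_ae (hfb.mono fun X hX => by rwa [Real.norm_eq_abs])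
  have hint : Integrable f N.μ := by
    rw [← integrableOn_iff_integrable_of_support_subset hsupp]
    exact Measure.integrableOn_of_bounded (M := b) hAfin.ne hf hfb'
  refine ⟨hint, ?_⟩
  rw [← setIntegral_eq_integral_of_forall_compl_eq_zero (s := {X | npr N.u X ∈ Bs N.u r})
    (fun X hX => hf0 X hX), ← Real.norm_eq_abs]
  refine (norm_setIntegral_le_of_norm_le_const_ae hAfin hfb').trans ?_
  refine mul_le_mul_of_nonneg_left ?_ hb
  exact ENNReal.toReal_le_of_le_ofReal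
    (mul_nonneg (Cmass_nonneg m Q) (pow_nonneg h.r_pos.le m)) hA

/-- transfer of base integrals (leaf `L-Freq-tk-transfer`).
PLAN.  `integral_map` (`Meas.mNpr`), `integral_withDensity_eq_integral_toReal_smul₀` (`Meas.mTilt`; `tilt ≥ 0` by `Tube.block_facts`,
`lam ≥ 0`: `DHSsq ≥ 0` because `g⁻¹` is positive definite).  For `volS`: `withDensity` over `μH[m]` restricted to `Ω`. -/
theorem transfer (m n Q : ℕ) : Unif₀ m n Q (fun N _ => ∀ η : E m → ℝ, Measurable η →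
    ∫ y, η y ∂N.nu = ∫ X, η (npr N.u X) ∂N.μ ∧
    ∫ y, η y ∂N.Dm = ∫ X, η (npr N.u X) * tilt N.u (N.W.P X) X ∂N.μ ∧
    ∫ y, η y ∂N.Lm = ∫ X, η (npr N.u X) * lam N.u X ∂N.μ ∧
    ∫ y, η y ∂N.volS = ∫ y in N.Ω, η y * vdens (fderiv ℝ N.u y) ∂μH[(m : ℝ)]) := by
  obtain ⟨κ₀, hκ₀, H⟩ := exists_frOK m n
  refine ⟨4, κ₀, hκ₀, ?_⟩
  intro J k κ Ca N r hJ hκ h η hη
  have hok := H Q J k κ Ca N r hJ hκ h
  refine ⟨integral_map hok.ok.aemeasurable_npr hη.aestronglyMeasurable,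
    hok.integral_push hok.ok.aesm_tilt (fun X => tilt_nonneg N.u (N.W.P_proj X) X) hη,
    hok.integral_push (hok.ok.aesm hok.continuousOn_lam) (tk_lam_nonneg N.u) hη, ?_⟩
  unfold NCyl.volS
  have hm : Measurable fun y => ENNReal.ofReal (vdens (fderiv ℝ N.u y)) :=
    (Lin.continuous_vdens.comp
      (contDiff_Du (k := 3) hok.geo.smooth).continuous).measurable.ennreal_ofReal
  rw [integral_withDensity_eq_integral_toReal_smul hm
    (Filter.Eventually.of_forall fun _ => ENNReal.ofReal_lt_top)]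
  refine integral_congr_ae (Filter.Eventually.of_forall fun y => ?_)
  simp only [ENNReal.toReal_ofReal (vdens_nonneg _), smul_eq_mul, mul_comm]

/-- the same for measures of Borel sets (leaf `L-Freq-tk-transfer`) -/
theorem transfer_set (m n Q : ℕ) : Unif₀ m n Q (fun N _ => ∀ A : Set (E m), MeasurableSet A →
    N.nu A = N.μ {X | npr N.u X ∈ A} ∧
    N.Dm A = ∫⁻ X in {X | npr N.u X ∈ A}, ENNReal.ofReal (tilt N.u (N.W.P X) X) ∂N.μ ∧
    N.Lm A = ∫⁻ X in {X | npr N.u X ∈ A}, ENNReal.ofReal (lam N.u X) ∂N.μ) := by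
  obtain ⟨κ₀, hκ₀, H⟩ := exists_frOK m n
  refine ⟨4, κ₀, hκ₀, ?_⟩
  intro J k κ Ca N r hJ hκ h A hA
  have hok := H Q J k κ Ca N r hJ hκ h
  exact ⟨hok.ok.nu_apply hA, hok.push_apply _ hA, hok.push_apply _ hA⟩

/-- **the central fibre is vertical** (leaf `L-Freq-tk-fibre`).
PLAN.  `W.locality` with `h = npr` on the open cylinder: almost everywhere on `{npr = 0}` one has `D npr ∘ P = 0`; by `Tube.tube_deriv`
`D npr = dFp K_z P_h`, `dFp` is injective on the range of `P_h`, `K_z` is invertible and commutes with `P_h`: `P_h P = 0`;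
so `tilt = tr (P P_v) = tr P - tr (P P_h) = m`. -/
theorem central_fibre (m n Q : ℕ) : Unif₀ m n Q (fun N _ =>
    ∀ᵐ X ∂N.μ, npr N.u X = 0 → tilt N.u (N.W.P X) X = m) := by
  obtain ⟨κ₀, hκ₀, H⟩ := exists_frOK m n
  refine ⟨4, κ₀, hκ₀, ?_⟩
  intro J k κ Ca N r hJ hκ h
  have hok := H Q J k κ Ca N r hJ hκ h
  have hT := tube_deriv_of_le hok.geo (le_refl (2 / 9 : ℝ))
  have hC1 : ContDiffOn ℝ 1 (npr N.u) (Cyl N.u N.Ω N.h) :=
    (hT.2.1.mono hok.tub).of_le (by norm_num)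
  have hloc := N.W.locality hok.ok.isOpen N.cyl_sub hC1
  have hloc' : ∀ᵐ X ∂N.μ, X ∈ Cyl N.u N.Ω N.h → npr N.u X = 0 →
      fderiv ℝ (npr N.u) X ∘L N.W.P X = 0 := ae_restrict_of_ae hloc
  filter_upwards [hloc', hok.ok.ae_cyl] with X hX hXc hX0
  have hd := hT.2.2.2 X (hok.tub hXc)
  have hS := hok.geo.norm_Shp_zz_le_half (le_refl (2 / 9 : ℝ)) (hok.tub hXc)
  have h1 := hX hXc hX0
  rw [hd.2.2.1] at h1
  -- `P_h P = 0`
  have h2 : Ph N.u (npr N.u X) ∘L N.W.P X = 0 := by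
    have e1 : dF (fderiv ℝ N.u (npr N.u X)) ∘L
        ((dFp (fderiv ℝ N.u (npr N.u X)) ∘L Kz N.u X ∘L Ph N.u (npr N.u X)) ∘L N.W.P X) = 0 := by
      rw [h1, ContinuousLinearMap.comp_zero]
    have e2 : dF (fderiv ℝ N.u (npr N.u X)) ∘L
        ((dFp (fderiv ℝ N.u (npr N.u X)) ∘L Kz N.u X ∘L Ph N.u (npr N.u X)) ∘L N.W.P X)
        = Kz N.u X ∘L (Ph N.u (npr N.u X) ∘L N.W.P X) := by
      calc dF (fderiv ℝ N.u (npr N.u X)) ∘L
          ((dFp (fderiv ℝ N.u (npr N.u X)) ∘L Kz N.u X ∘L Ph N.u (npr N.u X)) ∘L N.W.P X)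
          = ((dF (fderiv ℝ N.u (npr N.u X)) ∘L dFp (fderiv ℝ N.u (npr N.u X))) ∘L Kz N.u X)
              ∘L (Ph N.u (npr N.u X) ∘L N.W.P X) := by
            simp only [ContinuousLinearMap.comp_assoc]
        _ = (Ph N.u (npr N.u X) ∘L Kz N.u X) ∘L (Ph N.u (npr N.u X) ∘L N.W.P X) := by
            rw [← Ph_eq]
        _ = (Kz N.u X ∘L Ph N.u (npr N.u X)) ∘L (Ph N.u (npr N.u X) ∘L N.W.P X) := by
            rw [Kz_eq, Ph_comp_Kw hok.geo.c2 hS]
        _ = Kz N.u X ∘L ((Ph N.u (npr N.u X) ∘L Ph N.u (npr N.u X)) ∘L N.W.P X) := by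
            simp only [ContinuousLinearMap.comp_assoc]
        _ = _ := by rw [Ph_comp_Ph]
    rw [e2] at e1
    calc Ph N.u (npr N.u X) ∘L N.W.P X
        = (Jz N.u X ∘L Kz N.u X) ∘L (Ph N.u (npr N.u X) ∘L N.W.P X) := by
          rw [hd.1, ContinuousLinearMap.id_comp]
      _ = Jz N.u X ∘L (Kz N.u X ∘L (Ph N.u (npr N.u X) ∘L N.W.P X)) := by
          rw [ContinuousLinearMap.comp_assoc]
      _ = 0 := by rw [e1, ContinuousLinearMap.comp_zero]
  unfold tilt Pv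
  rw [tdiv_eq_trc, ContinuousLinearMap.comp_sub, ContinuousLinearMap.comp_id, trc_sub,
    trc_comp_comm, h2, trc_zero, sub_zero]
  exact (N.W.P_proj X).tr

end Claimed.Agent.R322.Freq
end

/- ===== packed: Claimed.Agent.R322.Freq.Cacc ===== -/
section
/-!
# Caccioppoli inequality in a normal cylinder (normal stationarity tested with `ζ² z`)

Owner: helper109.  Leaves `L-Freq-cacc-*` (all proved).  Used at the scale of the cells (CO Lemma 4.3, AE (8.6)), at the scale `r` (selection of the integer)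
and in CO Proposition 4.5 (`tilt_bound`).

Reusable: `exists_frOK'` (`FrOK` from `Geo` and a small height), `FrOK.integrable_of_base`, `FrOK.abs_integral_le`, `exists_ball_cutoff`,
`norm_Ph_P_normal_le`.
-/

set_option autoImplicit false

open scoped ENNReal ContDiff Topology
open MeasureTheory

namespace Claimed.Agent.R322.Freq

open Claimed.Agent.R322.Tube

variable {m n : ℕ}

/-- `|P_h P z| ≤ sqrt(tilt) |z|` for a normal vector `z` -/
theorem norm_Ph_P_normal_le (u : E m → E n) (X : E (m + n)) {P : E (m + n) →L[ℝ] E (m + n)} (hP : IsProj m P)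
    {z : E (m + n)} (hz : Ph u (npr u X) z = 0) : ‖Ph u (npr u X) (P z)‖ ≤ Real.sqrt (tilt u P X) * ‖z‖ := by
  have hH := isProj_Ph u (npr u X)
  set w := Ph u (npr u X) (P z) with hw
  have hHw : Ph u (npr u X) w = w := hH.apply_apply _
  have h1 : ‖w‖ ^ 2 = inner ℝ z (Pvh u P X w) := by
    have e1 : Pvh u P X w = P w - Ph u (npr u X) (P w) := by
      simp only [Pvh, Pv, ContinuousLinearMap.comp_apply, sub_apply, ContinuousLinearMap.id_apply, hHw]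
    rw [e1, inner_sub_right, ← hH.symm z, hz, inner_zero_left, sub_zero, ← hP.symm, ← hHw, ← hH.symm,
      hHw, ← hw, real_inner_self_eq_norm_sq]
  have h2 : ‖Pvh u P X‖ ≤ Real.sqrt (tilt u P X) :=
    Real.le_sqrt_of_sq_le (block_facts_aux hH hP).2.2.2.2.2
  have h3 : ‖w‖ ^ 2 ≤ ‖z‖ * (Real.sqrt (tilt u P X) * ‖w‖) := by
    rw [h1]
    refine (real_inner_le_norm _ _).trans (mul_le_mul_of_nonneg_left ?_ (norm_nonneg _))
    exact (ContinuousLinearMap.le_opNorm _ _).trans (mul_le_mul_of_nonneg_right h2 (norm_nonneg _))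
  rcases eq_or_lt_of_le (norm_nonneg w) with h0 | h0
  · rw [← h0]; positivity
  · have : ‖w‖ * ‖w‖ ≤ (Real.sqrt (tilt u P X) * ‖z‖) * ‖w‖ := by nlinarith
    exact le_of_mul_le_mul_right this h0

theorem cacc_arith {ζ0 e H z D C₀ κ T A : ℝ} (he : 0 ≤ e) (hz : 0 ≤ z) (hC : 0 ≤ C₀) (hκ : 0 ≤ κ)
    (hκ1 : κ ≤ 1) (hH : 0 ≤ H) (hsm : C₀ * z ≤ 1 / 4) (hT : |T - (e - A)| ≤ C₀ * (κ ^ 2 * z ^ 2 + κ * e * z))
    (hA : |A| ≤ H * z) {R : ℝ} (hR : |R| ≤ 6 * |ζ0| * D * (Real.sqrt e * z)) :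
    ζ0 ^ 2 * e / 2 ≤ ζ0 ^ 2 * T + R + (C₀ + 36) * (ζ0 ^ 2 * (H * z + z ^ 2) + D ^ 2 * z ^ 2) := by
  have h1 : e - A - C₀ * (κ ^ 2 * z ^ 2 + κ * e * z) ≤ T := by linarith [(abs_le.1 hT).1]
  have h2 : -(H * z) ≤ -A := by linarith [(abs_le.1 hA).2]
  have h3 : C₀ * (κ ^ 2 * z ^ 2 + κ * e * z) ≤ C₀ * z ^ 2 + e / 4 := by
    have a1 : κ ^ 2 ≤ 1 := by nlinarith
    have a2 : C₀ * (κ ^ 2 * z ^ 2) ≤ C₀ * z ^ 2 := by
      have : κ ^ 2 * z ^ 2 ≤ 1 * z ^ 2 := mul_le_mul_of_nonneg_right a1 (sq_nonneg _)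
      nlinarith
    have a3 : C₀ * (κ * e * z) ≤ e / 4 := by
      have : κ * e * (C₀ * z) ≤ 1 * e * (1 / 4) :=
        mul_le_mul (mul_le_mul_of_nonneg_right hκ1 he) hsm (by positivity) (by positivity)
      nlinarith
    nlinarith
  have h4 : 3 / 4 * e - H * z - C₀ * z ^ 2 ≤ T := by linarith
  have h5 : ζ0 ^ 2 * (3 / 4 * e - H * z - C₀ * z ^ 2) ≤ ζ0 ^ 2 * T := mul_le_mul_of_nonneg_left h4 (sq_nonneg _)
  have h6 : 6 * |ζ0| * D * (Real.sqrt e * z) ≤ ζ0 ^ 2 * e / 4 + 36 * (D ^ 2 * z ^ 2) := by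
    have s := Real.sq_sqrt he
    have q := sq_nonneg (|ζ0| * Real.sqrt e / 2 - 6 * (D * z))
    have a := sq_abs ζ0
    nlinarith
  have h7 : -(ζ0 ^ 2 * e / 4 + 36 * (D ^ 2 * z ^ 2)) ≤ R := by linarith [(abs_le.1 hR).1]
  have h8 : 0 ≤ ζ0 ^ 2 * (H * z) := by positivity
  have h9 : 0 ≤ ζ0 ^ 2 * z ^ 2 := by positivity
  have h10 : 0 ≤ D ^ 2 * z ^ 2 := by positivity
  nlinarith

/-- pointwise form (leaf `L-Freq-cacc-pt`).
PLAN.  `tdiv_fderiv_smul` with `a = ζ² ∘ npr`, `Y = zz`: `tdiv P D(a z) = ζ² tdiv P Dz + Da (P z)`;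
`Da (P z) = 2 ζ Dζ (dFp K_z P_h P z)`, `z = P_v z`, `‖P_h P P_v‖ = ‖P_v P P_h‖ ≤ sqrt tilt` (`Tube.block_facts`, adjoint),
`‖dFp‖ ≤ 1`, `‖K_z‖ ≤ 2`; `Tube.normal_trace`; Young: `4 |ζ| |Dζ| sqrt(e) |z| ≤ ζ² e/4 + 16 |Dζ|² |z|²`, `C κ |z| ≤ 1/4`. -/
theorem cacc_point (m n : ℕ) : ∃ h₀ C : ℝ, 0 < h₀ ∧ 0 < C ∧ ∀ (κ : ℝ) (u : E m → E n), Geo κ u →
    ∀ ζ : E m → ℝ, ContDiff ℝ 1 ζ → ∀ X ∈ Tub u h₀, ∀ P : E (m + n) →L[ℝ] E (m + n), IsProj m P →
      ζ (npr u X) ^ 2 * tilt u P X / 2 ≤ tdiv P (fderiv ℝ (fun X => ζ (npr u X) ^ 2 • zz u X) X)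
        + C * (ζ (npr u X) ^ 2 * (‖HS u (npr u X)‖ * ‖zz u X‖ + ‖zz u X‖ ^ 2)
            + ‖fderiv ℝ ζ (npr u X)‖ ^ 2 * ‖zz u X‖ ^ 2) := by
  set C₀ : ℝ := 11 * ((m + n : ℕ) : ℝ) + 3 with hC₀
  have hC₀pos : 0 < C₀ := by positivity
  refine ⟨min (2 / 9) (1 / (4 * C₀)), C₀ + 36, lt_min (by norm_num) (by positivity), by positivity,
    fun κ u hu ζ hζ X hX P hP => ?_⟩
  have hX' : X ∈ Tub u (2 / 9) := by
    obtain ⟨y, hy⟩ := hX
    exact ⟨y, hy.trans_le (min_le_left _ _)⟩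
  have hzlt : ‖zz u X‖ < min (2 / 9) (1 / (4 * C₀)) :=
    (tube_unique_of_le hu ((min_le_left _ _).trans (by norm_num)) hX).2.2.2.1
  have hPz : Ph u (npr u X) (zz u X) = 0 := (tube_unique_of_le hu (by norm_num) hX').2.2.1
  have hS := hu.norm_Shp_zz_le_half le_rfl hX'
  have hn := (npr_local hu le_rfl hX').2
  have hz := (zz_local hu le_rfl hX').2
  have ha : HasFDerivAt (fun X => ζ (npr u X) ^ 2)
      ((2 * ζ (npr u X)) • (fderiv ℝ ζ (npr u X) ∘L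
        (dFp (fderiv ℝ u (npr u X)) ∘L Kz u X ∘L Ph u (npr u X)))) X := by
    have := (((hζ.differentiable (by norm_num)) (npr u X)).hasFDerivAt.comp X hn).pow 2
    simpa using this
  rw [tdiv_fderiv_smul P ha.differentiableAt hz.differentiableAt, ha.fderiv]
  refine cacc_arith (tilt_nonneg u hP X) (norm_nonneg _) hC₀pos.le hu.nonneg hu.le_one
    (norm_nonneg _) ?_ (normal_trace_of_le hu le_rfl hX' hP).2 (abs_real_inner_le_norm _ _) ?_
  · have := hzlt.le.trans (min_le_right _ _)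
    rw [le_div_iff₀ (by positivity)] at this
    linarith
  · simp only [smul_apply, ContinuousLinearMap.comp_apply, smul_eq_mul]
    rw [abs_mul, abs_mul]
    have b1 := norm_Ph_P_normal_le u X hP hPz
    have b2 : ‖Kz u X (Ph u (npr u X) (P (zz u X)))‖ ≤ 2 * (Real.sqrt (tilt u P X) * ‖zz u X‖) :=
      (ContinuousLinearMap.le_opNorm _ _).trans (mul_le_mul (norm_Kw_le hS) b1 (norm_nonneg _) (by norm_num))
    have b3 : ‖dFp (fderiv ℝ u (npr u X)) (Kz u X (Ph u (npr u X) (P (zz u X))))‖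
        ≤ 3 / 2 * (2 * (Real.sqrt (tilt u P X) * ‖zz u X‖)) :=
      (ContinuousLinearMap.le_opNorm _ _).trans (mul_le_mul ((norm_dFp_le _).trans (by linarith [hu.slope (npr u X)])) b2 (norm_nonneg _) (by norm_num))
    have b4 : |fderiv ℝ ζ (npr u X) (dFp (fderiv ℝ u (npr u X)) (Kz u X (Ph u (npr u X) (P (zz u X)))))|
        ≤ ‖fderiv ℝ ζ (npr u X)‖ * (3 / 2 * (2 * (Real.sqrt (tilt u P X) * ‖zz u X‖))) := by
      rw [← Real.norm_eq_abs]
      exact (ContinuousLinearMap.le_opNorm _ _).trans (mul_le_mul_of_nonneg_left b3 (norm_nonneg _))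
    have b5 := mul_le_mul_of_nonneg_left b4 (mul_nonneg (abs_nonneg (2 : ℝ)) (abs_nonneg (ζ (npr u X))))
    refine b5.trans (le_of_eq ?_)
    rw [abs_of_pos (by norm_num : (0 : ℝ) < 2)]
    ring

/-- `FrOK` from bounded geometry and a small height -/
theorem exists_frOK' (m n : ℕ) : ∃ h₀ : ℝ, 0 < h₀ ∧ ∀ (κ : ℝ) (N : NCyl m n), Geo κ N.u → N.h ≤ h₀ → FrOK κ N := by
  obtain ⟨h₀, hh₀, H⟩ := Lin.exists_cylOK m n
  refine ⟨min (2 / 9) h₀, lt_min (by norm_num) hh₀, fun κ N hG hh => ?_⟩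
  exact ⟨hG, H κ N hG (hh.trans (min_le_right _ _)),
    fun X hX => ⟨npr N.u X, hX.2.trans_le (hh.trans (min_le_left _ _))⟩⟩

/-- bounded functions whose base support is compact in `Ω` are integrable -/
theorem FrOK.integrable_of_base {κ : ℝ} {N : NCyl m n} (h : FrOK κ N) {K : Set (E m)} (hK : IsCompact K) (hKΩ : K ⊆ N.Ω)
    {f : E (m + n) → ℝ} (hf : AEStronglyMeasurable f N.μ) {b : ℝ} (hb : ∀ᵐ X ∂N.μ, |f X| ≤ b)
    (hs : ∀ X, npr N.u X ∉ K → f X = 0) : Integrable f N.μ := by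
  refine ⟨hf, ?_⟩
  have h1 : ∫⁻ X, ‖f X‖ₑ ∂N.μ ≤ ∫⁻ X, Set.indicator {X | npr N.u X ∈ K} (fun _ => ENNReal.ofReal b) X ∂N.μ := by
    refine lintegral_mono_ae ?_
    filter_upwards [hb] with X hX
    by_cases hXK : npr N.u X ∈ K
    · rw [Set.indicator_of_mem (show X ∈ {X | npr N.u X ∈ K} from hXK)]
      rw [← ofReal_norm, Real.norm_eq_abs]
      exact ENNReal.ofReal_le_ofReal hX
    · rw [hs X hXK]; simp
  refine (h1.trans (lintegral_indicator_const_le _ _)).trans_lt ?_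
  exact ENNReal.mul_lt_top ENNReal.ofReal_lt_top (h.ok.fin K hK hKΩ)

/-- **Caccioppoli inequality** (leaf `L-Freq-cacc-int`).
PLAN.  Integrate `cacc_point`; `Tube.stat_cyl` with `Y = ζ(npr)² zz`, `K = tsupport ζ`; all integrands are bounded, measurable and vanish
unless `npr X ∈ tsupport ζ`, a set of finite measure (`Tube.cyl_carrier`). -/
theorem cacc (m n : ℕ) : ∃ h₀ C : ℝ, 0 < h₀ ∧ 0 < C ∧ ∀ (κ : ℝ) (N : NCyl m n), Geo κ N.u → N.h ≤ h₀ →
    ∀ ζ : E m → ℝ, ContDiff ℝ 1 ζ → HasCompactSupport ζ → tsupport ζ ⊆ N.Ω →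
      Integrable (fun X => ζ (npr N.u X) ^ 2 * tilt N.u (N.W.P X) X) N.μ ∧
      ∫ X, ζ (npr N.u X) ^ 2 * tilt N.u (N.W.P X) X ∂N.μ
        ≤ C * ∫ X, (ζ (npr N.u X) ^ 2 * (‖HS N.u (npr N.u X)‖ * ‖zz N.u X‖ + ‖zz N.u X‖ ^ 2)
            + ‖fderiv ℝ ζ (npr N.u X)‖ ^ 2 * ‖zz N.u X‖ ^ 2) ∂N.μ ∧
      Integrable (fun X => ζ (npr N.u X) ^ 2 * (‖HS N.u (npr N.u X)‖ * ‖zz N.u X‖ + ‖zz N.u X‖ ^ 2)
            + ‖fderiv ℝ ζ (npr N.u X)‖ ^ 2 * ‖zz N.u X‖ ^ 2) N.μ := by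
  obtain ⟨h₁, C, hh₁, hC, Hpt⟩ := cacc_point m n
  obtain ⟨h₂, hh₂, Hst⟩ := stat_cyl m n
  obtain ⟨h₃, hh₃, Hok⟩ := exists_frOK' m n
  refine ⟨min h₁ (min h₂ h₃), 2 * C, lt_min hh₁ (lt_min hh₂ hh₃), by positivity, ?_⟩
  intro κ N hG hh ζ hζ hcs hsub
  have ok : FrOK κ N := Hok κ N hG (hh.trans ((min_le_right _ _).trans (min_le_right _ _)))
  have hK : IsCompact (tsupport ζ) := hcs
  have hζ0 : ∀ y, y ∉ tsupport ζ → ζ y = 0 := fun y hy => image_eq_zero_of_notMem_tsupport hy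
  have hDζ0 : ∀ y, y ∉ tsupport ζ → fderiv ℝ ζ y = 0 := fun y hy =>
    image_eq_zero_of_notMem_tsupport (fun h => hy (tsupport_fderiv_subset ℝ h))
  have hζc : Continuous ζ := hζ.continuous
  have hDζc : Continuous (fderiv ℝ ζ) := hζ.continuous_fderiv one_ne_zero
  have hHc : Continuous (HS N.u) := tk_continuous_HS hG.smooth
  -- bounds
  obtain ⟨b₁, hb₁⟩ := hcs.exists_bound_of_continuous hζc
  obtain ⟨b₂, hb₂⟩ := (hcs.fderiv (𝕜 := ℝ)).exists_bound_of_continuous hDζc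
  obtain ⟨b₃, hb₃⟩ := hK.exists_bound_of_continuousOn hHc.continuousOn
  have hb₁0 : 0 ≤ b₁ := (norm_nonneg _).trans (hb₁ 0)
  have hb₂0 : 0 ≤ b₂ := (norm_nonneg _).trans (hb₂ 0)
  have hcyl := ok.ok.ae_cyl
  have hh0 : 0 ≤ N.h := (N.h'_pos.trans N.h'_lt).le
  -- measurability
  have m1 : AEStronglyMeasurable (fun X => ζ (npr N.u X)) N.μ := ok.ok.aesm_comp_npr hζc
  have m2 : AEStronglyMeasurable (fun X => ‖fderiv ℝ ζ (npr N.u X)‖) N.μ := ok.ok.aesm_comp_npr hDζc.norm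
  have m3 : AEStronglyMeasurable (fun X => ‖HS N.u (npr N.u X)‖) N.μ := ok.ok.aesm_comp_npr hHc.norm
  have m4 : AEStronglyMeasurable (fun X => ‖zz N.u X‖) N.μ := (ok.ok.aesm ok.ok.cont_zz).norm
  have i1 : Integrable (fun X => ζ (npr N.u X) ^ 2 * tilt N.u (N.W.P X) X) N.μ := by
    refine ok.integrable_of_base hK hsub ((m1.pow 2).mul ok.ok.aesm_tilt) (b := b₁ ^ 2 * m)
      (Filter.Eventually.of_forall fun X => ?_) (fun X hX => by rw [hζ0 _ hX]; simp)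
    rw [abs_mul, abs_of_nonneg (sq_nonneg _), abs_of_nonneg (tilt_nonneg _ (N.W.P_proj X) _)]
    refine mul_le_mul ?_ (tilt_le _ (N.W.P_proj X) _) (tilt_nonneg _ (N.W.P_proj X) _) (sq_nonneg _)
    have := hb₁ (npr N.u X)
    rw [Real.norm_eq_abs] at this
    rw [← sq_abs]
    gcongr
  have i2 : Integrable (fun X => ζ (npr N.u X) ^ 2 * (‖HS N.u (npr N.u X)‖ * ‖zz N.u X‖ + ‖zz N.u X‖ ^ 2)
            + ‖fderiv ℝ ζ (npr N.u X)‖ ^ 2 * ‖zz N.u X‖ ^ 2) N.μ := by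
    refine ok.integrable_of_base hK hsub
      (((m1.pow 2).mul ((m3.mul m4).add (m4.pow 2))).add ((m2.pow 2).mul (m4.pow 2)))
      (b := b₁ ^ 2 * (|b₃| * N.h + N.h ^ 2) + b₂ ^ 2 * N.h ^ 2) ?_
      (fun X hX => by rw [hζ0 _ hX, hDζ0 _ hX]; simp)
    filter_upwards [hcyl] with X hX
    by_cases hXK : npr N.u X ∈ tsupport ζ
    · have q1 := hb₁ (npr N.u X)
      rw [Real.norm_eq_abs] at q1
      have q1' : ζ (npr N.u X) ^ 2 ≤ b₁ ^ 2 := by rw [← sq_abs]; gcongr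
      have q2 := hb₂ (npr N.u X)
      have q3 : ‖HS N.u (npr N.u X)‖ ≤ |b₃| := (hb₃ _ hXK).trans (le_abs_self _)
      have q4 : ‖zz N.u X‖ ≤ N.h := hX.2.le
      rw [abs_of_nonneg (by positivity)]
      gcongr
    · rw [hζ0 _ hXK, hDζ0 _ hXK]
      simp
      positivity
  -- stationarity
  have hsubT : Cyl N.u N.Ω N.h ⊆ Tub N.u (2 / 9) := ok.tub
  have hY : ContDiffOn ℝ 1 (fun X => ζ (npr N.u X) ^ 2 • zz N.u X) (Cyl N.u N.Ω N.h) := by
    obtain ⟨-, hn, hz, -⟩ := tube_deriv_of_le hG (le_refl (2 / 9 : ℝ))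
    have hn1 : ContDiffOn ℝ 1 (npr N.u) (Cyl N.u N.Ω N.h) := (hn.of_le (by norm_num)).mono hsubT
    have hz1 : ContDiffOn ℝ 1 (zz N.u) (Cyl N.u N.Ω N.h) := (hz.of_le (by norm_num)).mono hsubT
    exact ((hζ.comp_contDiffOn hn1).pow 2).smul hz1
  obtain ⟨i3, hst⟩ := Hst κ N hG (hh.trans ((min_le_right _ _).trans (min_le_left _ _))) _ (tsupport ζ) hY hK hsub
    (fun X _ hX => by rw [hζ0 _ hX]; simp)
  refine ⟨i1, ?_, i2⟩
  have key : ∫ X, ζ (npr N.u X) ^ 2 * tilt N.u (N.W.P X) X / 2 ∂N.μ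
      ≤ ∫ X, (tdiv (N.W.P X) (fderiv ℝ (fun X => ζ (npr N.u X) ^ 2 • zz N.u X) X)
        + C * (ζ (npr N.u X) ^ 2 * (‖HS N.u (npr N.u X)‖ * ‖zz N.u X‖ + ‖zz N.u X‖ ^ 2)
            + ‖fderiv ℝ ζ (npr N.u X)‖ ^ 2 * ‖zz N.u X‖ ^ 2)) ∂N.μ := by
    refine integral_mono_ae (i1.div_const 2) (i3.add (i2.const_mul C)) ?_
    filter_upwards [hcyl] with X hX
    exact Hpt κ N.u hG ζ hζ X ⟨npr N.u X, hX.2.trans_le (hh.trans (min_le_left _ _))⟩ _ (N.W.P_proj X)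
  rw [integral_add i3 (i2.const_mul C), hst, zero_add, integral_const_mul, integral_div] at key
  linarith

/-- **local mass bound** (leaf `L-Freq-cacc-mass`): balls in the base whose radius dominates the height of the support over them.
PLAN.  Almost every point `X` of the cylinder is a support point (`Tube.cyl_carrier`); if `npr X ∈ ball x s` then
`|X - F x| ≤ |z| + |F(npr X) - F x| ≤ s + (9/8) s < 4 s` (`rho_facts`); `|F x| ≤ |x| + |u 0| + |x|/2 ≤ 3`; hypothesis `hM` at `(F x, 4 s)`;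
`N.nu A = N.μ (npr ⁻¹' A)` (`Measure.map_apply_of_aemeasurable`; `npr` is continuous on the open cylinder). -/
theorem local_mass_gen (m n : ℕ) : ∃ h₀ : ℝ, 0 < h₀ ∧ ∀ (κ Cm : ℝ) (N : NCyl m n), Geo κ N.u → N.h ≤ h₀ → ‖N.u 0‖ ≤ 1 →
    (∀ (X : E (m + n)) (s : ℝ), ‖X‖ ≤ 3 → 0 < s → s ≤ 1 → N.W.μ (Metric.ball X s) ≤ ENNReal.ofReal (Cm * s ^ m)) →
    ∀ (x : E m) (s : ℝ), ‖x‖ ≤ 1 → 0 < s → s ≤ 1 / 4 →
      (∀ X ∈ N.W.support, X ∈ Cyl N.u N.Ω N.h → npr N.u X ∈ Metric.ball x s → ‖zz N.u X‖ ≤ s) →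
      N.nu (Metric.ball x s) ≤ ENNReal.ofReal (Cm * 4 ^ m * s ^ m) := by
  obtain ⟨h₀, hh₀, Hok⟩ := exists_frOK' m n
  refine ⟨h₀, hh₀, fun κ Cm N hG hh hu0 hM x s hx hs hs4 hz => ?_⟩
  have ok := Hok κ N hG hh
  rw [ok.ok.nu_apply Metric.isOpen_ball.measurableSet]
  have h1 : N.μ {X | npr N.u X ∈ Metric.ball x s} ≤ N.μ (Metric.ball (Fg N.u x) (4 * s)) := by
    refine measure_mono_ae ?_
    filter_upwards [ok.ok.ae_mem] with X hX hXA
    have hXA' : npr N.u X ∈ Metric.ball x s := hXA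
    have a1 := hz X hX.1 hX.2.1 hXA'
    have a2 := norm_Fg_sub_le hG (npr N.u X) x
    rw [Metric.mem_ball, dist_eq_norm] at hXA'
    show X ∈ Metric.ball (Fg N.u x) (4 * s)
    rw [Metric.mem_ball, dist_eq_norm]
    have e : X - Fg N.u x = zz N.u X + (Fg N.u (npr N.u X) - Fg N.u x) := by rw [zz]; abel
    rw [e]
    refine (norm_add_le _ _).trans_lt ?_
    linarith
  have h2 : ‖Fg N.u x‖ ≤ 3 := by
    rw [Fg_eq]
    refine (norm_add_le _ _).trans ?_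
    rw [norm_inH, norm_inV]
    have := geo_lip hG x 0
    rw [sub_zero] at this
    have := norm_le_norm_add_norm_sub' (N.u x) (N.u 0)
    linarith
  refine h1.trans ((Measure.restrict_le_self _).trans ((hM _ (4 * s) h2 (by positivity) (by linarith)).trans ?_))
  rw [mul_pow, mul_assoc]

/-- local mass bound in a frame (leaf `L-Freq-cacc-mass`; from `local_mass_gen`, `ae_height`; `ball x s ⊆ Bs r ⊆ ball 0 1` gives `|x| ≤ 1`) -/
theorem local_mass (m n Q : ℕ) : Unif₀ m n Q (fun N r => ∀ (x : E m) (s : ℝ), qd N r * r ≤ s → 0 < s → s ≤ 1 / 4 →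
    Metric.ball x s ⊆ Bs N.u r → N.nu (Metric.ball x s) ≤ ENNReal.ofReal (Cmass m Q * 4 ^ m * s ^ m)) := by
  obtain ⟨h₀, hh₀, H⟩ := local_mass_gen m n
  obtain ⟨J₁, κ₁, hκ₁, Hh⟩ := ae_height m n Q
  refine ⟨max 4 J₁, min (min h₀ κ₁) (1 / 2), lt_min (lt_min hh₀ hκ₁) (by norm_num), ?_⟩
  intro J k κ Ca N r hJ hκ h x s hds hs hs4 hsub
  have hG : Geo κ N.u := h.geo ((le_max_left _ _).trans hJ) (hκ.trans (min_le_right _ _))
  have hh := (Hh J k κ Ca N r ((le_max_right _ _).trans hJ)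
    (hκ.trans ((min_le_left _ _).trans (min_le_right _ _))) h).1
  refine H κ _ N hG (h.h_le.trans (hκ.trans ((min_le_left _ _).trans (min_le_left _ _)))) h.u0 h.lmass x s ?_ hs hs4
    (fun X hX1 hX2 hX3 => (hh X hX1 hX2 (hsub hX3)).trans hds)
  have h1 : x ∈ Metric.ball (0 : E m) r := (ker_facts hG h.r_pos).2.2.2.2.2.2.2.2.1 (hsub (Metric.mem_ball_self hs))
  rw [Metric.mem_ball, dist_zero_right] at h1
  exact h1.le.trans h.r_le

/-- translated radial cutoffs: `1` on `closedBall x s`, supported in `closedBall x (3 s / 2)`, gradient `≤ c₀ / s` -/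
theorem exists_ball_cutoff (m : ℕ) : ∃ c₀ : ℝ, 0 < c₀ ∧ ∀ (x : E m) (s : ℝ), 0 < s → ∃ ζ : E m → ℝ,
    ContDiff ℝ 1 ζ ∧ (∀ y, 0 ≤ ζ y) ∧ (∀ y, ζ y ≤ 1) ∧ (∀ y ∈ Metric.closedBall x s, ζ y = 1) ∧
    HasCompactSupport ζ ∧ tsupport ζ ⊆ Metric.closedBall x (3 / 2 * s) ∧ ∀ y, ‖fderiv ℝ ζ y‖ ≤ c₀ / s := by
  obtain ⟨c₀, hc₀, H⟩ := Flat.exists_radial_cutoff m
  refine ⟨c₀, hc₀, fun x s hs => ?_⟩
  obtain ⟨ξ, h1, h2, h3, h4, h5, h6⟩ := H s hs
  have hz : ∀ y, y ∉ Metric.closedBall x (3 / 2 * s) → ξ (y - x) = 0 := by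
    intro y hy
    by_contra hne
    apply hy
    have : ‖y - x‖ ^ 2 ≤ 2 * s ^ 2 := h5 (subset_tsupport _ hne)
    rw [Metric.mem_closedBall, dist_eq_norm]
    refine abs_le_of_sq_le_sq' ?_ (by positivity) |>.2
    nlinarith
  refine ⟨fun y => ξ (y - x), h1.comp (contDiff_id.sub contDiff_const), fun y => h2 _, fun y => h3 _,
    fun y hy => h4 _ (by rwa [Metric.mem_closedBall, dist_eq_norm] at hy),
    HasCompactSupport.intro (isCompact_closedBall _ _) hz, ?_, fun y => ?_⟩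
  · refine closure_minimal (fun y hy => ?_) Metric.isClosed_closedBall
    by_contra hcon
    exact hy (hz y hcon)
  · rw [fderiv_comp_sub]
    exact h6 _

/-- estimate of an integral by the mass over a Borel base set -/
theorem FrOK.abs_integral_le {κ : ℝ} {N : NCyl m n} (_h : FrOK κ N) {A : Set (E m)}
    {f : E (m + n) → ℝ} {b M : ℝ} (hb : 0 ≤ b) (hM0 : 0 ≤ M) (hM : N.μ {X | npr N.u X ∈ A} ≤ ENNReal.ofReal M)
    (hfb : ∀ᵐ X ∂N.μ, npr N.u X ∈ A → |f X| ≤ b) (hf0 : ∀ X, npr N.u X ∉ A → f X = 0) :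
    |∫ X, f X ∂N.μ| ≤ b * M := by
  have hfin : N.μ {X | npr N.u X ∈ A} < ⊤ := hM.trans_lt ENNReal.ofReal_lt_top
  have hfb' : ∀ᵐ X ∂N.μ.restrict {X | npr N.u X ∈ A}, ‖f X‖ ≤ b := by
    refine ae_restrict_of_ae (hfb.mono fun X hX => ?_)
    rw [Real.norm_eq_abs]
    by_cases hXA : npr N.u X ∈ A
    · exact hX hXA
    · rw [hf0 X hXA, abs_zero]; exact hb
  rw [← setIntegral_eq_integral_of_forall_compl_eq_zero (s := {X | npr N.u X ∈ A}) (fun X hX => hf0 X hX),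
    ← Real.norm_eq_abs]
  refine (norm_setIntegral_le_of_norm_le_const_ae hfin hfb').trans ?_
  exact mul_le_mul_of_nonneg_left (ENNReal.toReal_le_of_le_ofReal hM0 hM) hb

theorem local_cacc_arith {C₁ Ca c₀ M d s sm tm I₁ : ℝ} (hC₁ : 0 < C₁) (hM : 0 ≤ M) (hs : 0 < s)
    (hs1 : s ≤ 1) (hsm : 0 ≤ sm) (htm : 0 ≤ tm)
    (hI₁ : I₁ ≤ C₁ * (((|Ca| + 1) * d ^ 2 + (c₀ / s) ^ 2 * d ^ 2) * (M * (tm * sm)))) :
    I₁ + (1 + Ca ^ 2) * d ^ 2 * (M * sm)
      ≤ (C₁ * (|Ca| + 1 + c₀ ^ 2) * M * tm + (1 + Ca ^ 2) * M + 1) * (d / s) ^ 2 * sm := by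
  have h1 : d ^ 2 ≤ (d / s) ^ 2 := by
    rw [div_pow, le_div_iff₀ (by positivity)]
    have : s ^ 2 ≤ 1 := by nlinarith
    nlinarith [sq_nonneg d]
  have h2 : (c₀ / s) ^ 2 * d ^ 2 = c₀ ^ 2 * (d / s) ^ 2 := by
    field_simp
  have h3 : (|Ca| + 1) * d ^ 2 + (c₀ / s) ^ 2 * d ^ 2 ≤ (|Ca| + 1 + c₀ ^ 2) * (d / s) ^ 2 := by
    rw [h2]
    have : (|Ca| + 1) * d ^ 2 ≤ (|Ca| + 1) * (d / s) ^ 2 := mul_le_mul_of_nonneg_left h1 (by positivity)
    linarith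
  have h4 : C₁ * (((|Ca| + 1) * d ^ 2 + (c₀ / s) ^ 2 * d ^ 2) * (M * (tm * sm)))
      ≤ C₁ * (((|Ca| + 1 + c₀ ^ 2) * (d / s) ^ 2) * (M * (tm * sm))) := by
    gcongr
  have h5 : (1 + Ca ^ 2) * d ^ 2 * (M * sm) ≤ (1 + Ca ^ 2) * (d / s) ^ 2 * (M * sm) := by
    gcongr
  have h6 : 0 ≤ (d / s) ^ 2 * sm := by positivity
  nlinarith

/-- **local tilt and geometric error** AE (8.6) (leaf `L-Freq-cacc-local`).
PLAN.  `cacc` with a cutoff `ζ = 1` on `ball x s`, `tsupport ζ ⊆ ball x (2 s)`, `|Dζ| ≤ 2/s` (e.g. `ContDiffBump`, or a smooth function of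
`|y - x|²/s²`); on `Bs r`: `|z| ≤ δ r` a.e., `|H_S|² + |∇H_S|² ≤ (Ca δ r)²` (`Wt.curv`); mass `≤ C (2 s)^m` (`local_mass`); `s ≤ 1`, `r ≤ 1`. -/
theorem local_cacc (m n Q : ℕ) : Unif m n Q (fun C N r => ∀ (x : E m) (s : ℝ), qd N r * r ≤ s → 0 < s → s ≤ 1 / 8 →
    Metric.ball x (2 * s) ⊆ Bs N.u r →
    (N.Dm + N.Lm) (Metric.ball x s) ≤ ENNReal.ofReal (C * (qd N r * r / s) ^ 2 * s ^ m)) := by
  obtain ⟨h₁, C₁, hh₁, hC₁, Hc⟩ := cacc m n
  obtain ⟨c₀, hc₀, Hcut⟩ := exists_ball_cutoff m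
  obtain ⟨J₂, κ₂, hκ₂, Hm⟩ := local_mass m n Q
  obtain ⟨J₃, κ₃, hκ₃, Hh⟩ := ae_height m n Q
  obtain ⟨κ₄, hκ₄, Hok⟩ := exists_frOK m n
  refine ⟨max 4 (max J₂ J₃), min (min h₁ κ₂) (min κ₃ (min κ₄ (1 / 2))),
    lt_min (lt_min hh₁ hκ₂) (lt_min hκ₃ (lt_min hκ₄ (by norm_num))), fun Ca => ?_⟩
  set M : ℝ := Cmass m Q * 4 ^ m with hMdef
  have hM0 : 0 ≤ M := mul_nonneg (Cmass_nonneg m Q) (by positivity)
  refine ⟨C₁ * (|Ca| + 1 + c₀ ^ 2) * M * 2 ^ m + (1 + Ca ^ 2) * M + 1, 1, ?_, one_pos, ?_⟩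
  · have : 0 ≤ C₁ * (|Ca| + 1 + c₀ ^ 2) * M * 2 ^ m + (1 + Ca ^ 2) * M := by positivity
    linarith
  intro J k κ N r hJ hκ _ h x s hds hs hs8 hsub
  have hJ4 : 4 ≤ J := (le_max_left _ _).trans hJ
  have hG : Geo κ N.u := h.geo hJ4
    (hκ.trans ((min_le_right _ _).trans ((min_le_right _ _).trans (min_le_right _ _))))
  have ok : FrOK κ N := Hok Q J k κ Ca N r hJ4
    (hκ.trans ((min_le_right _ _).trans ((min_le_right _ _).trans (min_le_left _ _)))) h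
  have hmass := Hm J k κ Ca N r ((le_max_left _ _).trans ((le_max_right _ _).trans hJ))
    (hκ.trans ((min_le_left _ _).trans (min_le_right _ _))) h
  obtain ⟨-, -, hht⟩ := Hh J k κ Ca N r ((le_max_right _ _).trans ((le_max_right _ _).trans hJ))
    (hκ.trans ((min_le_right _ _).trans (min_le_left _ _))) h
  set d := qd N r * r with hd
  have hd0 : 0 ≤ d := mul_nonneg h.wt.d_pos.le h.r_pos.le
  have hsub1 : Metric.ball x s ⊆ Metric.ball x (2 * s) := Metric.ball_subset_ball (by linarith)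
  have hm1 : N.μ {X | npr N.u X ∈ Metric.ball x s} ≤ ENNReal.ofReal (M * s ^ m) := by
    rw [← ok.ok.nu_apply Metric.isOpen_ball.measurableSet]
    exact hmass x s hds hs (by linarith) (hsub1.trans hsub)
  have hm2 : N.μ {X | npr N.u X ∈ Metric.ball x (2 * s)} ≤ ENNReal.ofReal (M * (2 ^ m * s ^ m)) := by
    rw [← ok.ok.nu_apply Metric.isOpen_ball.measurableSet, ← mul_pow]
    exact hmass x (2 * s) (by linarith) (by positivity) (by linarith) hsub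
  have hcurv : ∀ y ∈ Metric.ball x (2 * s), ‖HS N.u y‖ + Real.sqrt (DHSsq N.u y) ≤ Ca * d := fun y hy => by
    have := h.wt.curv y (hsub hy)
    rwa [mul_assoc] at this
  -- the geometric error
  have hL : N.Lm (Metric.ball x s) ≤ ENNReal.ofReal ((1 + Ca ^ 2) * d ^ 2 * (M * s ^ m)) := by
    rw [NCyl.Lm, ok.push_apply _ Metric.isOpen_ball.measurableSet]
    have hnm : NullMeasurableSet {X | npr N.u X ∈ Metric.ball x s} N.μ :=
      ok.ok.aemeasurable_npr.nullMeasurableSet_preimage Metric.isOpen_ball.measurableSet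
    have : ∫⁻ X in {X | npr N.u X ∈ Metric.ball x s}, ENNReal.ofReal (lam N.u X) ∂N.μ
        ≤ ∫⁻ _ in {X | npr N.u X ∈ Metric.ball x s}, ENNReal.ofReal ((1 + Ca ^ 2) * d ^ 2) ∂N.μ := by
      refine lintegral_mono_ae ?_
      filter_upwards [ae_restrict_of_ae hht, ae_restrict_mem₀ hnm] with X hX1 hX2
      have hX2' : npr N.u X ∈ Metric.ball x s := hX2
      have a1 := hX1 (hsub (hsub1 hX2'))
      have a2 := hcurv _ (hsub1 hX2')
      have a3 := Real.sq_sqrt (tk_DHSsq_nonneg N.u (npr N.u X))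
      have a4 := Real.sqrt_nonneg (DHSsq N.u (npr N.u X))
      have a5 := norm_nonneg (HS N.u (npr N.u X))
      have a6 : (‖HS N.u (npr N.u X)‖ + Real.sqrt (DHSsq N.u (npr N.u X))) ^ 2 ≤ (Ca * d) ^ 2 := by gcongr
      have a7 : ‖zz N.u X‖ ^ 2 ≤ d ^ 2 := by gcongr
      refine ENNReal.ofReal_le_ofReal ?_
      rw [lam]
      nlinarith
    refine this.trans ?_
    rw [setLIntegral_const, ENNReal.ofReal_mul (p := (1 + Ca ^ 2) * d ^ 2) (by positivity)]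
    exact mul_le_mul_right hm1 _
  -- the tilt
  obtain ⟨ζ, z1, z2, z3, z4, z5, z6, z7⟩ := Hcut x s hs
  have hsuppB : tsupport ζ ⊆ Metric.ball x (2 * s) := z6.trans (Metric.closedBall_subset_ball (by linarith))
  have hΩ : tsupport ζ ⊆ N.Ω := by
    rw [h.Ω_eq]
    refine (hsuppB.trans hsub).trans (((ker_facts hG h.r_pos).2.2.2.2.2.2.2.2.1).trans ?_)
    exact Metric.ball_subset_ball (by linarith [h.r_le])
  obtain ⟨i1, hcc, i2⟩ := Hc κ N hG (h.h_le.trans (hκ.trans ((min_le_left _ _).trans (min_le_left _ _)))) ζ z1 z5 hΩ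
  have hζ0 : ∀ y, y ∉ Metric.ball x (2 * s) → ζ y = 0 := fun y hy =>
    image_eq_zero_of_notMem_tsupport (fun hc => hy (hsuppB hc))
  have hDζ0 : ∀ y, y ∉ Metric.ball x (2 * s) → fderiv ℝ ζ y = 0 := fun y hy =>
    image_eq_zero_of_notMem_tsupport (fun hc => hy (hsuppB (tsupport_fderiv_subset ℝ hc)))
  have hI2 := ok.abs_integral_le (A := Metric.ball x (2 * s))
    (f := fun X => ζ (npr N.u X) ^ 2 * (‖HS N.u (npr N.u X)‖ * ‖zz N.u X‖ + ‖zz N.u X‖ ^ 2)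
            + ‖fderiv ℝ ζ (npr N.u X)‖ ^ 2 * ‖zz N.u X‖ ^ 2)
    (b := (|Ca| + 1) * d ^ 2 + (c₀ / s) ^ 2 * d ^ 2) (by positivity) (by positivity) hm2
    (by
      filter_upwards [hht] with X hX1 hX2
      have a1 := hX1 (hsub hX2)
      have a2 := hcurv _ hX2
      have a4 := Real.sqrt_nonneg (DHSsq N.u (npr N.u X))
      have a5 : ‖HS N.u (npr N.u X)‖ ≤ |Ca| * d :=
        (by linarith : ‖HS N.u (npr N.u X)‖ ≤ Ca * d).trans (mul_le_mul_of_nonneg_right (le_abs_self _) hd0)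
      have a6 : ζ (npr N.u X) ^ 2 ≤ 1 := by
        have := z2 (npr N.u X); have := z3 (npr N.u X); nlinarith
      have a7 := z7 (npr N.u X)
      rw [abs_of_nonneg (by positivity)]
      have b1 : ‖HS N.u (npr N.u X)‖ * ‖zz N.u X‖ + ‖zz N.u X‖ ^ 2 ≤ (|Ca| + 1) * d ^ 2 := by
        have : ‖HS N.u (npr N.u X)‖ * ‖zz N.u X‖ ≤ (|Ca| * d) * d :=
          mul_le_mul a5 a1 (norm_nonneg _) (by positivity)
        have : ‖zz N.u X‖ ^ 2 ≤ d ^ 2 := by gcongr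
        nlinarith
      have b2 : ζ (npr N.u X) ^ 2 * (‖HS N.u (npr N.u X)‖ * ‖zz N.u X‖ + ‖zz N.u X‖ ^ 2)
          ≤ 1 * ((|Ca| + 1) * d ^ 2) := mul_le_mul a6 b1 (by positivity) zero_le_one
      have b3 : ‖fderiv ℝ ζ (npr N.u X)‖ ^ 2 * ‖zz N.u X‖ ^ 2 ≤ (c₀ / s) ^ 2 * d ^ 2 := by gcongr
      linarith)
    (fun X hX => by rw [hζ0 _ hX, hDζ0 _ hX]; simp)
  have hD : N.Dm (Metric.ball x s) ≤ ENNReal.ofReal (∫ X, ζ (npr N.u X) ^ 2 * tilt N.u (N.W.P X) X ∂N.μ) := by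
    rw [NCyl.Dm, ok.push_apply _ Metric.isOpen_ball.measurableSet,
      ofReal_integral_eq_lintegral_ofReal i1 (Filter.Eventually.of_forall fun X =>
        mul_nonneg (sq_nonneg _) (tilt_nonneg _ (N.W.P_proj X) _))]
    have hnm : NullMeasurableSet {X | npr N.u X ∈ Metric.ball x s} N.μ :=
      ok.ok.aemeasurable_npr.nullMeasurableSet_preimage Metric.isOpen_ball.measurableSet
    refine le_trans ?_ (setLIntegral_le_lintegral {X | npr N.u X ∈ Metric.ball x s} _)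
    refine lintegral_mono_ae ?_
    filter_upwards [ae_restrict_mem₀ hnm] with X hX
    have hX' : npr N.u X ∈ Metric.ball x s := hX
    rw [z4 _ (Metric.ball_subset_closedBall hX')]
    simp
  rw [Measure.add_apply]
  refine (add_le_add hD hL).trans ?_
  rw [← ENNReal.ofReal_add (integral_nonneg fun X => mul_nonneg (sq_nonneg _) (tilt_nonneg _ (N.W.P_proj X) _))
    (by positivity)]
  refine ENNReal.ofReal_le_ofReal ?_
  refine local_cacc_arith hC₁ hM0 hs (by linarith) (by positivity) (by positivity) ?_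
  refine hcc.trans (mul_le_mul_of_nonneg_left ((le_abs_self _).trans hI2) hC₁.le)

end Claimed.Agent.R322.Freq
end

/- ===== packed: Claimed.Agent.R322.Freq.Flux ===== -/
section
/-!
# CO Lemma 4.3: signs, weighted height comparisons (4.13), normal flux (4.16)

Owner: helper109.  Leaves `L-Freq-fl-*`.
-/

set_option autoImplicit false

open scoped ENNReal ContDiff
open MeasureTheory

namespace Claimed.Agent.R322.Freq

open Claimed.Agent.R322.Tube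

variable {m n : ℕ}

/-- all integrands of the frequency quantities are integrable, with their transfer to `N.μ` (leaf `L-Freq-fl-int`).
PLAN.  `integrable_base`, `meas`, `proj_facts` (`0 ≤ hwt ≤ 4`, `0 ≤ rwt ≤ m ρ²`), `ae_height`, `ker_facts`, `transfer`. -/
structure Ints (N : NCyl m n) (r : ℝ) : Prop where
  iH : Integrable (fun X => psiR N.u r (npr N.u X) * ‖zz N.u X‖ ^ 2 * hwt N.u (N.W.P X) X) N.μ
  iHχ : Integrable (fun X => chiR N.u r (npr N.u X) * ‖zz N.u X‖ ^ 2 * hwt N.u (N.W.P X) X) N.μ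
  iR : Integrable (fun X => psiR N.u r (npr N.u X) * rwt N.u (N.W.P X) X) N.μ
  iE : Integrable (fun X => phiR N.u r (npr N.u X) * tilt N.u (N.W.P X) X) N.μ
  iFl : Integrable (fun X => psiR N.u r (npr N.u X) * inner ℝ (zz N.u X) (N.W.P X (Vv N.u X))) N.μ
  iZφ : Integrable (fun X => phiR N.u r (npr N.u X) * ‖zz N.u X‖ ^ 2) N.μ
  iZψ : Integrable (fun X => psiR N.u r (npr N.u X) * ‖zz N.u X‖ ^ 2) N.μ
  iL : Integrable (fun X => phiR N.u r (npr N.u X) * lam N.u X) N.μ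
  iK : Integrable (fun X => phiR N.u r (npr N.u X) * (‖HS N.u (npr N.u X)‖ ^ 2 + DHSsq N.u (npr N.u X))) N.μ
  eE : qE N r = r ^ 2 * (r ^ m)⁻¹ * ∫ X, phiR N.u r (npr N.u X) * tilt N.u (N.W.P X) X ∂N.μ
  eL : qL N r = (r ^ m)⁻¹ * ∫ X, phiR N.u r (npr N.u X) * lam N.u X ∂N.μ

/-- continuity of the curvature density on the base (aux of `ints`) -/
theorem fli_meas_curv {u : E m → E n} (hu : ContDiff ℝ 4 u) :
    Measurable (fun y => ‖HS u y‖ ^ 2 + DHSsq u y) := by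
  have hHS : ContDiff ℝ 2 (HS u) := contDiff_HS (k := 2) (by exact_mod_cast hu)
  have hD : Continuous (fderiv ℝ (HS u)) := hHS.continuous_fderiv (by norm_num)
  have hPv : Continuous (Pv u) := (contDiff_Pv_of (k := 0) (hu.of_le (by norm_num))).continuous
  have hg : Continuous (fun y => (gmat (fderiv ℝ u y)).inverse) :=
    (contDiff_gmat_inverse_Du (k := 0) (hu.of_le (by norm_num))).continuous
  have h2 : Continuous (DHSsq u) := by
    unfold DHSsq DHS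
    refine continuous_finsetSum _ fun a _ => ?_
    exact (hPv.clm_apply (hD.clm_apply (hg.clm_apply continuous_const))).inner
      (hPv.clm_apply (hD.clm_apply continuous_const))
  exact ((hHS.continuous.norm.pow 2).add h2).measurable

theorem ints (m n Q : ℕ) : Unif₀ m n Q (fun N r => Ints N r) := by
  obtain ⟨J₁, κ₁, hκ₁, hmeas⟩ := meas m n Q
  obtain ⟨J₂, κ₂, hκ₂, hht⟩ := ae_height m n Q
  obtain ⟨J₃, κ₃, hκ₃, hint⟩ := integrable_base m n Q
  obtain ⟨J₄, κ₄, hκ₄, htr⟩ := transfer m n Q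
  obtain ⟨h₀, hh₀, hproj⟩ := proj_facts m n
  refine ⟨max (max J₁ J₂) (max (max J₃ J₄) 4),
    min (min κ₁ κ₂) (min (min κ₃ κ₄) (min h₀ (1 / 2))), by positivity, ?_⟩
  intro J k κ Ca N r hJ hκ hF
  have hJ1 : J₁ ≤ J := le_trans (le_trans (le_max_left _ _) (le_max_left _ _)) hJ
  have hJ2 : J₂ ≤ J := le_trans (le_trans (le_max_right _ _) (le_max_left _ _)) hJ
  have hJ3 : J₃ ≤ J :=
    le_trans (le_trans (le_trans (le_max_left _ _) (le_max_left _ _)) (le_max_right _ _)) hJ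
  have hJ4 : J₄ ≤ J :=
    le_trans (le_trans (le_trans (le_max_right _ _) (le_max_left _ _)) (le_max_right _ _)) hJ
  have hJ5 : 4 ≤ J := le_trans (le_trans (le_max_right _ _) (le_max_right _ _)) hJ
  have hk1 : κ ≤ κ₁ := le_trans hκ (le_trans (min_le_left _ _) (min_le_left _ _))
  have hk2 : κ ≤ κ₂ := le_trans hκ (le_trans (min_le_left _ _) (min_le_right _ _))
  have hk3 : κ ≤ κ₃ :=
    le_trans hκ (le_trans (min_le_right _ _) (le_trans (min_le_left _ _) (min_le_left _ _)))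
  have hk4 : κ ≤ κ₄ :=
    le_trans hκ (le_trans (min_le_right _ _) (le_trans (min_le_left _ _) (min_le_right _ _)))
  have hk5 : κ ≤ h₀ :=
    le_trans hκ (le_trans (min_le_right _ _) (le_trans (min_le_right _ _) (min_le_left _ _)))
  have hk6 : κ ≤ 1 / 2 :=
    le_trans hκ (le_trans (min_le_right _ _) (le_trans (min_le_right _ _) (min_le_right _ _)))
  have hgeo : Geo κ N.u := hF.geo hJ5 hk6
  have M : Meas N := hmeas J k κ Ca N r hJ1 hk1 hF
  obtain ⟨-, hae, hz⟩ := hht J k κ Ca N r hJ2 hk2 hF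
  have I := hint J k κ Ca N r hJ3 hk3 hF
  have T := htr J k κ Ca N r hJ4 hk4 hF
  have hr : 0 < r := hF.r_pos
  obtain ⟨kdep, koff, -, -, kφ, kψ, -, -, -, -, -⟩ := ker_facts hgeo hr
  obtain ⟨-, -, ρlip, -, -⟩ := rho_facts hgeo
  have hρ0 : ∀ y, 0 ≤ rho N.u y := fun y => norm_nonneg _
  -- measurability on the base
  have cρ : Continuous (rho N.u) := by
    have : LipschitzWith (9 / 8 : NNReal) (rho N.u) := by
      refine LipschitzWith.of_dist_le_mul fun y y' => ?_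
      rw [Real.dist_eq, dist_eq_norm]
      simpa using ρlip y y'
    exact this.continuous
  have mρ : Measurable (rho N.u) := cρ.measurable
  have mφ : Measurable (phiR N.u r) := kφ.continuous.measurable
  have mψ : Measurable (psiR N.u r) := kψ.continuous.measurable
  have mχ : Measurable (chiR N.u r) := by
    unfold chiR dep
    fun_prop
  -- bounds of the kernels
  have bφ : ∀ y, 0 ≤ phiR N.u r y ∧ phiR N.u r y ≤ 1 := fun y =>
    ⟨pow_nonneg (kdep y).1 _, pow_le_one₀ (kdep y).1 (kdep y).2⟩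
  have bψ : ∀ y, 0 ≤ psiR N.u r y ∧ psiR N.u r y ≤ 20 := fun y => by
    have h1 : 0 ≤ dep N.u r y ^ 9 := pow_nonneg (kdep y).1 _
    have h2 : dep N.u r y ^ 9 ≤ 1 := pow_le_one₀ (kdep y).1 (kdep y).2
    unfold psiR
    constructor <;> linarith
  have zφ : ∀ y, y ∉ Bs N.u r → phiR N.u r y = 0 := fun y hy => by
    unfold phiR; rw [koff y hy]; norm_num
  have zψ : ∀ y, y ∉ Bs N.u r → psiR N.u r y = 0 := fun y hy => by
    unfold psiR; rw [koff y hy]; norm_num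
  have zχ : ∀ y, y ∉ Bs N.u r → chiR N.u r y = 0 := fun y hy => by
    unfold chiR; rw [koff y hy]; norm_num
  have hρr : ∀ y ∈ Bs N.u r, rho N.u y ^ 2 ≤ r ^ 2 := fun y hy =>
    pow_le_pow_left₀ (hρ0 y) (le_of_lt hy) 2
  have bχ : ∀ y, 0 ≤ chiR N.u r y ∧ chiR N.u r y ≤ 360 := fun y => by
    by_cases hy : y ∈ Bs N.u r
    · have h1 : 0 ≤ dep N.u r y ^ 8 := pow_nonneg (kdep y).1 _
      have h2 : dep N.u r y ^ 8 ≤ 1 := pow_le_one₀ (kdep y).1 (kdep y).2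
      have h3 : 0 ≤ rho N.u y ^ 2 / r ^ 2 := by positivity
      have h4 : rho N.u y ^ 2 / r ^ 2 ≤ 1 := by
        rw [div_le_one (by positivity)]; exact hρr y hy
      unfold chiR
      constructor
      · positivity
      · nlinarith [mul_le_one₀ h2 h3 h4]
    · rw [zχ y hy]; norm_num
  -- the general principle
  have key : ∀ (w : E m → ℝ) (c : ℝ), Measurable w → (∀ y, 0 ≤ w y ∧ w y ≤ c) →
      (∀ y, y ∉ Bs N.u r → w y = 0) → ∀ (g : E (m + n) → ℝ) (b : ℝ), 0 ≤ b →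
      AEStronglyMeasurable g N.μ → (∀ᵐ X ∂N.μ, npr N.u X ∈ Bs N.u r → |g X| ≤ b) →
      Integrable (fun X => w (npr N.u X) * g X) N.μ := by
    intro w c mw bw zw g b hb mg hg
    have hc : 0 ≤ c := (bw 0).1.trans (bw 0).2
    refine (I (fun X => w (npr N.u X) * g X) (c * b) (mul_nonneg hc hb)
      ((M.mComp w mw).mul mg) ?_ (fun X hX => by simp [zw _ hX])).1
    filter_upwards [hg] with X hX
    by_cases hy : npr N.u X ∈ Bs N.u r
    · rw [abs_mul, abs_of_nonneg (bw _).1]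
      exact mul_le_mul (bw _).2 (hX hy) (abs_nonneg _) hc
    · simp only [zw _ hy, zero_mul, abs_zero]
      exact mul_nonneg hc hb
  -- pointwise facts
  have hd : 0 ≤ qd N r * r := mul_nonneg hF.wt.d_pos.le hr.le
  have hTub : ∀ᵐ X ∂N.μ, X ∈ Tub N.u h₀ := hae.mono fun X hX =>
    ⟨npr N.u X, lt_of_lt_of_le hX.2.2 (hF.h_le.trans hk5)⟩
  have hzsq : ∀ᵐ X ∂N.μ, npr N.u X ∈ Bs N.u r → ‖zz N.u X‖ ^ 2 ≤ (qd N r * r) ^ 2 :=
    hz.mono fun X hX hy => pow_le_pow_left₀ (norm_nonneg _) (hX hy) 2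
  have hm0 : (0 : ℝ) ≤ m := Nat.cast_nonneg m
  -- measurability upstairs
  have mz2 : AEStronglyMeasurable (fun X => ‖zz N.u X‖ ^ 2) N.μ := M.mZz.norm.pow 2
  have mρX : AEMeasurable (fun X => rho N.u (npr N.u X) ^ 2) N.μ :=
    ((M.mComp _ mρ).aemeasurable).pow_const 2
  have mhwt : AEStronglyMeasurable (fun X => hwt N.u (N.W.P X) X) N.μ := by
    unfold hwt
    exact ((M.mPV.norm.aemeasurable.pow_const 2).div mρX).aestronglyMeasurable
  have mrwt : AEStronglyMeasurable (fun X => rwt N.u (N.W.P X) X) N.μ := by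
    unfold rwt bet
    exact ((((M.mV.sub M.mPV).norm.aemeasurable.pow_const 2).mul mρX).div
      (M.mV.norm.aemeasurable.pow_const 2)).aestronglyMeasurable
  have mK : AEStronglyMeasurable
      (fun X => ‖HS N.u (npr N.u X)‖ ^ 2 + DHSsq N.u (npr N.u X)) N.μ :=
    M.mComp _ (fli_meas_curv hgeo.smooth)
  have mlam : AEStronglyMeasurable (fun X => lam N.u X) N.μ := by
    have : (fun X => lam N.u X)
        = fun X => ‖zz N.u X‖ ^ 2 + (‖HS N.u (npr N.u X)‖ ^ 2 + DHSsq N.u (npr N.u X)) := by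
      funext X; unfold lam; ring
    rw [this]
    exact mz2.add mK
  -- bounds upstairs
  have bH : ∀ᵐ X ∂N.μ, npr N.u X ∈ Bs N.u r →
      |‖zz N.u X‖ ^ 2 * hwt N.u (N.W.P X) X| ≤ (qd N r * r) ^ 2 * 4 := by
    filter_upwards [hTub, hzsq] with X hX hzX hy
    obtain ⟨-, -, -, h1, h2, -, -, -⟩ := hproj κ N.u hgeo X hX _ (N.W.P_proj X)
    rw [abs_of_nonneg (mul_nonneg (by positivity) h1)]
    exact mul_le_mul (hzX hy) h2 h1 (by positivity)
  have bR : ∀ᵐ X ∂N.μ, npr N.u X ∈ Bs N.u r → |rwt N.u (N.W.P X) X| ≤ m * r ^ 2 := by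
    filter_upwards [hTub] with X hX hy
    obtain ⟨-, -, -, -, -, h1, h2, -⟩ := hproj κ N.u hgeo X hX _ (N.W.P_proj X)
    obtain ⟨t0, t1, -⟩ := block_facts m n κ N.u hgeo X _ (N.W.P_proj X)
    rw [abs_of_nonneg h1]
    exact h2.trans (mul_le_mul t1 (hρr _ hy) (by positivity) hm0)
  have bE : ∀ᵐ X ∂N.μ, npr N.u X ∈ Bs N.u r → |tilt N.u (N.W.P X) X| ≤ m := by
    refine Filter.Eventually.of_forall fun X _ => ?_
    obtain ⟨t0, t1, -⟩ := block_facts m n κ N.u hgeo X _ (N.W.P_proj X)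
    rwa [abs_of_nonneg t0]
  have bFl : ∀ᵐ X ∂N.μ, npr N.u X ∈ Bs N.u r →
      |inner ℝ (zz N.u X) (N.W.P X (Vv N.u X))| ≤ Real.sqrt ((qd N r * r) ^ 2 * 4 * (m * r ^ 2)) := by
    filter_upwards [hTub, bH, bR] with X hX hHX hRX hy
    obtain ⟨-, -, -, h1, -, h3, -, h5⟩ := hproj κ N.u hgeo X hX _ (N.W.P_proj X)
    refine Real.abs_le_sqrt (h5.trans ?_)
    have e1 := hHX hy
    have e2 := hRX hy
    rw [abs_of_nonneg (mul_nonneg (by positivity) h1)] at e1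
    rw [abs_of_nonneg h3] at e2
    exact mul_le_mul e1 e2 h3 (by positivity)
  have bZ : ∀ᵐ X ∂N.μ, npr N.u X ∈ Bs N.u r → |‖zz N.u X‖ ^ 2| ≤ (qd N r * r) ^ 2 := by
    filter_upwards [hzsq] with X hX hy
    rw [abs_of_nonneg (by positivity)]
    exact hX hy
  have bK0 : ∀ y ∈ Bs N.u r, 0 ≤ ‖HS N.u y‖ ^ 2 + DHSsq N.u y ∧
      ‖HS N.u y‖ ^ 2 + DHSsq N.u y ≤ 2 * (Ca * qd N r * r) ^ 2 := by
    intro y hy
    have h1 := hF.wt.curv y hy
    have h2 := DHSsq_nonneg N.u y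
    have h3 := Real.sqrt_nonneg (DHSsq N.u y)
    have h4 := norm_nonneg (HS N.u y)
    have h5 : ‖HS N.u y‖ ^ 2 ≤ (Ca * qd N r * r) ^ 2 := pow_le_pow_left₀ h4 (by linarith) 2
    have h6 : DHSsq N.u y ≤ (Ca * qd N r * r) ^ 2 := by
      rw [← Real.sq_sqrt h2]
      exact pow_le_pow_left₀ h3 (by linarith) 2
    exact ⟨by positivity, by linarith⟩
  have bK : ∀ᵐ X ∂N.μ, npr N.u X ∈ Bs N.u r →
      |‖HS N.u (npr N.u X)‖ ^ 2 + DHSsq N.u (npr N.u X)| ≤ 2 * (Ca * qd N r * r) ^ 2 := by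
    refine Filter.Eventually.of_forall fun X hy => ?_
    rw [abs_of_nonneg (bK0 _ hy).1]
    exact (bK0 _ hy).2
  have bL : ∀ᵐ X ∂N.μ, npr N.u X ∈ Bs N.u r →
      |lam N.u X| ≤ (qd N r * r) ^ 2 + 2 * (Ca * qd N r * r) ^ 2 := by
    filter_upwards [hzsq] with X hX hy
    have h1 := bK0 _ hy
    have h2 := hX hy
    have h3 : 0 ≤ ‖zz N.u X‖ ^ 2 := by positivity
    unfold lam
    rw [abs_of_nonneg (by linarith)]
    linarith
  refine ⟨?_, ?_, ?_, ?_, ?_, ?_, ?_, ?_, ?_, ?_, ?_⟩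
  · simpa only [mul_assoc] using key _ 20 mψ bψ zψ
      (fun X => ‖zz N.u X‖ ^ 2 * hwt N.u (N.W.P X) X) _ (by positivity) (mz2.mul mhwt) bH
  · simpa only [mul_assoc] using key _ 360 mχ bχ zχ
      (fun X => ‖zz N.u X‖ ^ 2 * hwt N.u (N.W.P X) X) _ (by positivity) (mz2.mul mhwt) bH
  · exact key _ 20 mψ bψ zψ _ _ (by positivity) mrwt bR
  · exact key _ 1 mφ bφ zφ _ _ hm0 M.mTilt bE
  · exact key _ 20 mψ bψ zψ _ _ (Real.sqrt_nonneg _) (M.mZz.inner M.mPV) bFl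
  · exact key _ 1 mφ bφ zφ _ _ (by positivity) mz2 bZ
  · exact key _ 20 mψ bψ zψ _ _ (by positivity) mz2 bZ
  · exact key _ 1 mφ bφ zφ _ _ (by positivity) mlam bL
  · exact key _ 1 mφ bφ zφ _ _ (by positivity) mK bK
  · unfold qE
    rw [(T _ mφ).2.1]
  · unfold qL
    rw [(T _ mφ).2.2.1]

/-- signs (leaf `L-Freq-fl-sign`): integrals of nonnegative functions; `H > 0` by `Wt.H_lo`, `Wt.d_pos` (needs `Ca > 0`: if `Ca ≤ 0` then
`Wt.d_le` contradicts `Wt.d_pos`). -/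
theorem signs (m n Q : ℕ) : Unif₀ m n Q (fun N r =>
    0 < qH N r ∧ 0 ≤ qE N r ∧ 0 ≤ qR N r ∧ 0 ≤ qZφ N r ∧ 0 ≤ qZψ N r ∧ 0 ≤ qL N r ∧ -(m : ℝ) * qH N r ≤ qH' N r ∧
    0 < qd N r) := by
  refine ⟨0, 1, one_pos, ?_⟩
  intro J k κ Ca N r _ _ hF
  have hr : 0 < r := hF.r_pos
  have hd : 0 < qd N r := hF.wt.d_pos
  have hdep : ∀ y, 0 ≤ dep N.u r y := fun y => le_max_left _ _
  have hφ : ∀ y, 0 ≤ phiR N.u r y := fun y => pow_nonneg (hdep y) _
  have hψ : ∀ y, 0 ≤ psiR N.u r y := fun y => mul_nonneg (by norm_num) (pow_nonneg (hdep y) _)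
  have hχ : ∀ y, 0 ≤ chiR N.u r y := fun y =>
    mul_nonneg (mul_nonneg (by norm_num) (pow_nonneg (hdep y) _)) (by positivity)
  have hhwt : ∀ X, 0 ≤ hwt N.u (N.W.P X) X := fun X => by unfold hwt; positivity
  have hrwt : ∀ X, 0 ≤ rwt N.u (N.W.P X) X := fun X => by unfold rwt bet; positivity
  have hCa : 0 < Ca := by
    have h1 : 0 < Ca * r ^ (k - 1) := lt_of_lt_of_le hd hF.wt.d_le
    exact (pos_iff_pos_of_mul_pos h1).2 (by positivity)
  refine ⟨?_, ?_, ?_, ?_, ?_, ?_, ?_, hd⟩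
  · have h1 : 0 < qH N r / r ^ 2 := lt_of_lt_of_le (by positivity) hF.wt.H_lo
    exact (div_pos_iff_of_pos_right (by positivity)).1 h1
  · unfold qE
    exact mul_nonneg (by positivity) (integral_nonneg hφ)
  · unfold qR
    exact mul_nonneg (by positivity) (integral_nonneg fun X => mul_nonneg (hψ _) (hrwt X))
  · unfold qZφ
    exact mul_nonneg (by positivity) (integral_nonneg fun X => mul_nonneg (hφ _) (by positivity))
  · unfold qZψ
    exact mul_nonneg (by positivity) (integral_nonneg fun X => mul_nonneg (hψ _) (by positivity))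
  · unfold qL
    exact mul_nonneg (by positivity) (integral_nonneg hφ)
  · unfold qH'
    have h1 : 0 ≤ (r ^ m)⁻¹ *
        ∫ X, chiR N.u r (npr N.u X) * ‖zz N.u X‖ ^ 2 * hwt N.u (N.W.P X) X ∂N.μ :=
      mul_nonneg (by positivity) (integral_nonneg fun X =>
        mul_nonneg (mul_nonneg (hχ _) (by positivity)) (hhwt X))
    linarith

/-- pointwise defect of the height weight in a frame (aux of `wcompA`, `wcompB`) -/
theorem flw_pt (m n Q : ℕ) (hm : 1 ≤ m) : Unif m n Q (fun C N r =>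
    qd N r ≤ 1 ∧ ∀ᵐ X ∂N.μ, npr N.u X ∈ Bs N.u r →
      ‖zz N.u X‖ ^ 2 ≤ (qd N r * r) ^ 2 ∧ 0 ≤ tilt N.u (N.W.P X) X ∧
      1 - hwt N.u (N.W.P X) X ≤ tilt N.u (N.W.P X) X + C * r ∧
      (r / 2 < rho N.u (npr N.u X) →
        1 - hwt N.u (N.W.P X) X ≤ 4 * rwt N.u (N.W.P X) X / r ^ 2 + C * r)) := by
  obtain ⟨J₂, κ₂, hκ₂, hht⟩ := ae_height m n Q
  obtain ⟨J₃, κ₃, hκ₃, hfib⟩ := central_fibre m n Q
  obtain ⟨h₀, C₀, hh₀, hC₀, hdef⟩ := hwt_defect m n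
  refine ⟨max (max J₂ J₃) 4, min (min κ₂ κ₃) (min h₀ (1 / 2)), by positivity, fun Ca =>
    ⟨1 + 2 * C₀, 1 / (|Ca| + 1), by linarith, by positivity, ?_⟩⟩
  intro J k κ N r hJ hκ hr₀ hF
  have hJ2 : J₂ ≤ J := le_trans (le_trans (le_max_left _ _) (le_max_left _ _)) hJ
  have hJ3 : J₃ ≤ J := le_trans (le_trans (le_max_right _ _) (le_max_left _ _)) hJ
  have hJ5 : 4 ≤ J := le_trans (le_max_right _ _) hJ
  have hk2 : κ ≤ κ₂ := le_trans hκ (le_trans (min_le_left _ _) (min_le_left _ _))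
  have hk3 : κ ≤ κ₃ := le_trans hκ (le_trans (min_le_left _ _) (min_le_right _ _))
  have hk5 : κ ≤ h₀ := le_trans hκ (le_trans (min_le_right _ _) (min_le_left _ _))
  have hk6 : κ ≤ 1 / 2 := le_trans hκ (le_trans (min_le_right _ _) (min_le_right _ _))
  have hgeo : Geo κ N.u := hF.geo hJ5 hk6
  obtain ⟨-, hae, hz⟩ := hht J k κ Ca N r hJ2 hk2 hF
  have hfb := hfib J k κ Ca N r hJ3 hk3 hF
  have hr : 0 < r := hF.r_pos
  have hr1 : r ≤ 1 := hF.r_le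
  have hd0 : 0 < qd N r := hF.wt.d_pos
  have hκ0 : 0 ≤ κ := hF.κ_nonneg
  have hd1 : qd N r ≤ 1 := by
    have h1 : r ^ (k - 1) ≤ r := pow_le_of_le_one hr.le hr1 (by have := hF.k_ge; omega)
    have h2 : Ca * r ^ (k - 1) ≤ |Ca| * r :=
      mul_le_mul (le_abs_self _) h1 (by positivity) (abs_nonneg _)
    have h3 : |Ca| * r ≤ |Ca| * (1 / (|Ca| + 1)) := mul_le_mul_of_nonneg_left hr₀ (abs_nonneg _)
    have h4 : |Ca| * (1 / (|Ca| + 1)) ≤ 1 := by
      rw [mul_one_div, div_le_one (by positivity)]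
      linarith
    exact hF.wt.d_le.trans (h2.trans (h3.trans h4))
  refine ⟨hd1, ?_⟩
  filter_upwards [hae, hz, hfb] with X hX hzX hfX hy
  have hT : X ∈ Tub N.u h₀ := ⟨npr N.u X, lt_of_lt_of_le hX.2.2 (hF.h_le.trans hk5)⟩
  obtain ⟨t0, -, -⟩ := block_facts m n κ N.u hgeo X _ (N.W.P_proj X)
  have hz1 : ‖zz N.u X‖ ≤ qd N r * r := hzX hy
  have hρ0 : 0 ≤ rho N.u (npr N.u X) := norm_nonneg _
  have hρr : rho N.u (npr N.u X) ≤ r := le_of_lt hy
  have hhw : 0 ≤ hwt N.u (N.W.P X) X := by unfold hwt; positivity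
  have hrw : 0 ≤ rwt N.u (N.W.P X) X := by unfold rwt bet; positivity
  have herr : C₀ * κ * (‖zz N.u X‖ + rho N.u (npr N.u X) ^ 2) ≤ (1 + 2 * C₀) * r := by
    have h1 : ‖zz N.u X‖ ≤ r := hz1.trans (by nlinarith)
    have h2 : rho N.u (npr N.u X) ^ 2 ≤ r := by nlinarith
    have h3 : C₀ * κ ≤ C₀ := by nlinarith [hgeo.le_one]
    calc C₀ * κ * (‖zz N.u X‖ + rho N.u (npr N.u X) ^ 2) ≤ C₀ * (r + r) :=
          mul_le_mul h3 (add_le_add h1 h2) (by positivity) hC₀.le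
      _ ≤ (1 + 2 * C₀) * r := by nlinarith
  refine ⟨pow_le_pow_left₀ (norm_nonneg _) hz1 2, t0, ?_, ?_⟩
  · by_cases h0 : npr N.u X = 0
    · have h1 : (1 : ℝ) ≤ tilt N.u (N.W.P X) X := by
        rw [hfX h0]; exact_mod_cast hm
      have h2 : 0 ≤ (1 + 2 * C₀) * r := by positivity
      linarith
    · obtain ⟨h1, h2⟩ := hdef κ N.u hgeo X hT _ (N.W.P_proj X) h0
      linarith
  · intro hρ
    have h0 : npr N.u X ≠ 0 := by
      intro h0
      rw [h0] at hρ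
      have : rho N.u 0 = 0 := by simp [rho]
      rw [this] at hρ
      linarith
    obtain ⟨h1, -⟩ := hdef κ N.u hgeo X hT _ (N.W.P_proj X) h0
    have h3 : rwt N.u (N.W.P X) X / rho N.u (npr N.u X) ^ 2 ≤ 4 * rwt N.u (N.W.P X) X / r ^ 2 := by
      have hρp : 0 < rho N.u (npr N.u X) := by linarith
      rw [div_le_div_iff₀ (by positivity) (by positivity)]
      have h4 : r ^ 2 ≤ 4 * rho N.u (npr N.u X) ^ 2 := by nlinarith
      nlinarith
    linarith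

/-- kernels: elementary facts without geometry (aux of `wcompA`, `wcompB`) -/
theorem flw_ker (u : E m → E n) {r : ℝ} (hr : 0 < r) (y : E m) :
    0 ≤ phiR u r y ∧ 0 ≤ psiR u r y ∧ 20 * phiR u r y ≤ psiR u r y ∧
    (y ∉ Bs u r → phiR u r y = 0 ∧ psiR u r y = 0) ∧
    (rho u y ≤ r / 2 → psiR u r y ≤ 80 / 3 * phiR u r y) := by
  have hρ0 : 0 ≤ rho u y := norm_nonneg _
  have h0 : 0 ≤ dep u r y := le_max_left _ _
  have h1 : dep u r y ≤ 1 := by
    unfold dep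
    refine max_le zero_le_one ?_
    have : 0 ≤ rho u y ^ 2 / r ^ 2 := by positivity
    linarith
  have h9 : 0 ≤ dep u r y ^ 9 := pow_nonneg h0 _
  have e10 : dep u r y ^ 10 = dep u r y * dep u r y ^ 9 := by ring
  refine ⟨pow_nonneg h0 _, mul_nonneg (by norm_num) h9, ?_, ?_, ?_⟩
  · unfold phiR psiR
    rw [e10]
    nlinarith
  · intro hy
    have hy' : r ≤ rho u y := not_lt.1 hy
    have : dep u r y = 0 := by
      unfold dep
      refine max_eq_left ?_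
      have : 1 ≤ rho u y ^ 2 / r ^ 2 := by
        rw [one_le_div (by positivity)]
        exact pow_le_pow_left₀ hr.le hy' 2
      linarith
    unfold phiR psiR
    rw [this]
    norm_num
  · intro hy
    have : 3 / 4 ≤ dep u r y := by
      unfold dep
      refine le_trans ?_ (le_max_right _ _)
      have : rho u y ^ 2 / r ^ 2 ≤ 1 / 4 := by
        rw [div_le_iff₀ (by positivity)]
        nlinarith
      linarith
    unfold phiR psiR
    rw [e10]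
    nlinarith

/-- **CO (4.13), first and third line** (leaf `L-Freq-fl-wcompA`).
PLAN.  Almost everywhere on `{npr ∈ Bs r}`: `1 ≤ 2 (hwt + tilt)` (`hwt_defect` off the central fibre with `C κ (δ r + r²) ≤ 1/2`;
`central_fibre` on it, `m ≥ 1`).  `φ ≤ ψ/20`, `|z|² ≤ δ² r²`: `φ |z|² ≤ ψ |z|² hwt / 10 + 2 δ² r² φ tilt`.  Third line: `lam = |z|² + ...`, `Wt.wcurv`. -/
theorem wcompA (m n Q : ℕ) (hm : 1 ≤ m) : Unif m n Q (fun C N r =>
    qZφ N r ≤ qH N r + 2 * qd N r ^ 2 * qE N r ∧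
    qL N r ≤ C * (qH N r + qd N r ^ 2 * qE N r)) := by
  obtain ⟨J₁, κ₁, hκ₁, hints⟩ := ints m n Q
  obtain ⟨J₂, κ₂, hκ₂, hsg⟩ := signs m n Q
  obtain ⟨J₃, κ₃, hκ₃, hpt⟩ := flw_pt m n Q hm
  refine ⟨max (max J₁ J₂) J₃, min (min κ₁ κ₂) κ₃, by positivity, fun Ca => ?_⟩
  obtain ⟨C, r₀, hC, hr₀, hpt⟩ := hpt Ca
  refine ⟨2 * (1 + |Ca|), min r₀ (1 / (2 * C)), by have := abs_nonneg Ca; linarith,
    by positivity, ?_⟩
  intro J k κ N r hJ hκ hrr hF
  have hJ1 : J₁ ≤ J := le_trans (le_trans (le_max_left _ _) (le_max_left _ _)) hJ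
  have hJ2 : J₂ ≤ J := le_trans (le_trans (le_max_right _ _) (le_max_left _ _)) hJ
  have hJ3 : J₃ ≤ J := le_trans (le_max_right _ _) hJ
  have hk1 : κ ≤ κ₁ := le_trans hκ (le_trans (min_le_left _ _) (min_le_left _ _))
  have hk2 : κ ≤ κ₂ := le_trans hκ (le_trans (min_le_left _ _) (min_le_right _ _))
  have hk3 : κ ≤ κ₃ := le_trans hκ (min_le_right _ _)
  have I : Ints N r := hints J k κ Ca N r hJ1 hk1 hF
  obtain ⟨sH, sE, -, sZ, -, -, -, sd⟩ := hsg J k κ Ca N r hJ2 hk2 hF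
  obtain ⟨-, hp⟩ := hpt J k κ N r hJ3 hk3 (hrr.trans (min_le_left _ _)) hF
  have hr : 0 < r := hF.r_pos
  have hCr : C * r ≤ 1 / 2 := by
    have h1 : r ≤ 1 / (2 * C) := hrr.trans (min_le_right _ _)
    rw [le_div_iff₀ (by positivity)] at h1
    linarith
  have ha : 0 < (r ^ m)⁻¹ := by positivity
  -- the pointwise inequality
  have hpw : ∀ᵐ X ∂N.μ, phiR N.u r (npr N.u X) * ‖zz N.u X‖ ^ 2 ≤
      1 / 10 * (psiR N.u r (npr N.u X) * ‖zz N.u X‖ ^ 2 * hwt N.u (N.W.P X) X)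
        + 2 * (qd N r * r) ^ 2 * (phiR N.u r (npr N.u X) * tilt N.u (N.W.P X) X) := by
    filter_upwards [hp] with X hX
    obtain ⟨f0, p0, fp, off, -⟩ := flw_ker N.u hr (npr N.u X)
    by_cases hy : npr N.u X ∈ Bs N.u r
    · obtain ⟨z2, t0, d1, -⟩ := hX hy
      have hhw : 0 ≤ hwt N.u (N.W.P X) X := by unfold hwt; positivity
      have hz0 : 0 ≤ ‖zz N.u X‖ ^ 2 := by positivity
      have h1 : 1 ≤ 2 * (hwt N.u (N.W.P X) X + tilt N.u (N.W.P X) X) := by linarith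
      have h2 : phiR N.u r (npr N.u X) * ‖zz N.u X‖ ^ 2 ≤
          phiR N.u r (npr N.u X) * ‖zz N.u X‖ ^ 2
            * (2 * (hwt N.u (N.W.P X) X + tilt N.u (N.W.P X) X)) :=
        le_mul_of_one_le_right (mul_nonneg f0 hz0) h1
      have h3 : 2 * phiR N.u r (npr N.u X) * (‖zz N.u X‖ ^ 2 * hwt N.u (N.W.P X) X) ≤
          1 / 10 * psiR N.u r (npr N.u X) * (‖zz N.u X‖ ^ 2 * hwt N.u (N.W.P X) X) :=
        mul_le_mul_of_nonneg_right (by linarith) (mul_nonneg hz0 hhw)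
      have h4 : ‖zz N.u X‖ ^ 2 * (phiR N.u r (npr N.u X) * tilt N.u (N.W.P X) X) ≤
          (qd N r * r) ^ 2 * (phiR N.u r (npr N.u X) * tilt N.u (N.W.P X) X) :=
        mul_le_mul_of_nonneg_right z2 (mul_nonneg f0 t0)
      nlinarith
    · rw [(off hy).1, (off hy).2]
      simp
  have hint := integral_mono_ae I.iZφ
    ((I.iH.const_mul (1 / 10)).add (I.iE.const_mul (2 * (qd N r * r) ^ 2))) hpw
  rw [integral_add' (I.iH.const_mul (1 / 10)) (I.iE.const_mul (2 * (qd N r * r) ^ 2)),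
    integral_const_mul, integral_const_mul] at hint
  have hZ : qZφ N r ≤ 1 / 10 * qH N r + 2 * qd N r ^ 2 * qE N r := by
    rw [I.eE]
    unfold qZφ qH
    have := mul_le_mul_of_nonneg_left hint ha.le
    refine this.trans (le_of_eq ?_)
    ring
  have hδE : 0 ≤ qd N r ^ 2 * qE N r := mul_nonneg (by positivity) sE
  refine ⟨by linarith, ?_⟩
  -- the geometric error
  have hlam : ∫ X, phiR N.u r (npr N.u X) * lam N.u X ∂N.μ
      = ∫ X, phiR N.u r (npr N.u X) * ‖zz N.u X‖ ^ 2 ∂N.μ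
        + ∫ X, phiR N.u r (npr N.u X) * (‖HS N.u (npr N.u X)‖ ^ 2 + DHSsq N.u (npr N.u X)) ∂N.μ := by
    rw [← integral_add I.iZφ I.iK]
    refine integral_congr_ae (Filter.Eventually.of_forall fun X => ?_)
    simp only [lam]
    ring
  have hL : qL N r ≤ (1 + Ca) * qZφ N r := by
    rw [I.eL, hlam]
    unfold qZφ
    have := mul_le_mul_of_nonneg_left hF.wt.wcurv ha.le
    nlinarith
  have hCa : (1 + Ca) * qZφ N r ≤ (1 + |Ca|) * qZφ N r :=
    mul_le_mul_of_nonneg_right (by linarith [le_abs_self Ca]) sZ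
  have hfin : (1 + |Ca|) * qZφ N r ≤ (1 + |Ca|) * (2 * (qH N r + qd N r ^ 2 * qE N r)) :=
    mul_le_mul_of_nonneg_left (by linarith) (by positivity)
  calc qL N r ≤ (1 + |Ca|) * (2 * (qH N r + qd N r ^ 2 * qE N r)) := hL.trans (hCa.trans hfin)
    _ = 2 * (1 + |Ca|) * (qH N r + qd N r ^ 2 * qE N r) := by ring

/-- **defect of `H` against the unweighted height** (leaf `L-Freq-fl-wcompB`); it contains the second line of CO (4.13).
PLAN.  `ψ |z|² (1 - hwt)`: on `ρ ≤ r/2` (`dep ≥ 3/4`, `ψ ≤ (80/3) φ`) use `1 - hwt ≤ tilt + C κ (|z| + ρ²)` (a.e., also on the central fibre);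
on `ρ > r/2` use `1 - hwt ≤ rwt/ρ² + C κ (|z| + ρ²) ≤ 4 rwt / r² + ...`; `|z| ≤ δ r`, `δ ≤ 1`.  This gives
`Zψ - H ≤ 27 δ² E + 4 δ² R + C r Zψ`; absorb `C r ≤ 1/2` for the second claim. -/
theorem wcompB (m n Q : ℕ) (hm : 1 ≤ m) : Unif m n Q (fun C N r =>
    qZψ N r - qH N r ≤ C * (qd N r ^ 2 * (qE N r + qR N r) + r * qH N r) ∧
    qZψ N r ≤ C * (qH N r + qd N r ^ 2 * (qE N r + qR N r))) := by
  obtain ⟨J₁, κ₁, hκ₁, hints⟩ := ints m n Q
  obtain ⟨J₂, κ₂, hκ₂, hsg⟩ := signs m n Q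
  obtain ⟨J₃, κ₃, hκ₃, hpt⟩ := flw_pt m n Q hm
  refine ⟨max (max J₁ J₂) J₃, min (min κ₁ κ₂) κ₃, by positivity, fun Ca => ?_⟩
  obtain ⟨C, r₀, hC, hr₀, hpt⟩ := hpt Ca
  refine ⟨54 + 2 * C, min r₀ (1 / (2 * C)), by linarith, by positivity, ?_⟩
  intro J k κ N r hJ hκ hrr hF
  have hJ1 : J₁ ≤ J := le_trans (le_trans (le_max_left _ _) (le_max_left _ _)) hJ
  have hJ2 : J₂ ≤ J := le_trans (le_trans (le_max_right _ _) (le_max_left _ _)) hJ
  have hJ3 : J₃ ≤ J := le_trans (le_max_right _ _) hJ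
  have hk1 : κ ≤ κ₁ := le_trans hκ (le_trans (min_le_left _ _) (min_le_left _ _))
  have hk2 : κ ≤ κ₂ := le_trans hκ (le_trans (min_le_left _ _) (min_le_right _ _))
  have hk3 : κ ≤ κ₃ := le_trans hκ (min_le_right _ _)
  have I : Ints N r := hints J k κ Ca N r hJ1 hk1 hF
  obtain ⟨sH, sE, sR, -, sZ, -, -, sd⟩ := hsg J k κ Ca N r hJ2 hk2 hF
  obtain ⟨-, hp⟩ := hpt J k κ N r hJ3 hk3 (hrr.trans (min_le_left _ _)) hF
  have hr : 0 < r := hF.r_pos
  have hCr : C * r ≤ 1 / 2 := by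
    have h1 : r ≤ 1 / (2 * C) := hrr.trans (min_le_right _ _)
    rw [le_div_iff₀ (by positivity)] at h1
    linarith
  have hCr0 : 0 ≤ C * r := by positivity
  have ha : 0 < (r ^ m)⁻¹ := by positivity
  have hpw : ∀ᵐ X ∂N.μ, psiR N.u r (npr N.u X) * ‖zz N.u X‖ ^ 2 ≤
      psiR N.u r (npr N.u X) * ‖zz N.u X‖ ^ 2 * hwt N.u (N.W.P X) X
        + (80 / 3 * (qd N r * r) ^ 2 * (phiR N.u r (npr N.u X) * tilt N.u (N.W.P X) X)
        + (4 * qd N r ^ 2 * (psiR N.u r (npr N.u X) * rwt N.u (N.W.P X) X)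
        + C * r * (psiR N.u r (npr N.u X) * ‖zz N.u X‖ ^ 2))) := by
    filter_upwards [hp] with X hX
    obtain ⟨f0, p0, -, off, near⟩ := flw_ker N.u hr (npr N.u X)
    by_cases hy : npr N.u X ∈ Bs N.u r
    · obtain ⟨z2, t0, d1, d2⟩ := hX hy
      have hrw : 0 ≤ rwt N.u (N.W.P X) X := by unfold rwt bet; positivity
      have hz0 : 0 ≤ ‖zz N.u X‖ ^ 2 := by positivity
      have hw0 : 0 ≤ psiR N.u r (npr N.u X) * ‖zz N.u X‖ ^ 2 := mul_nonneg p0 hz0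
      have hq0 : 0 ≤ (qd N r * r) ^ 2 := by positivity
      rcases le_or_gt (rho N.u (npr N.u X)) (r / 2) with hρ | hρ
      · have h1 := mul_le_mul_of_nonneg_left d1 hw0
        have h2 : psiR N.u r (npr N.u X) * ‖zz N.u X‖ ^ 2 * tilt N.u (N.W.P X) X ≤
            80 / 3 * phiR N.u r (npr N.u X) * (qd N r * r) ^ 2 * tilt N.u (N.W.P X) X :=
          mul_le_mul_of_nonneg_right (mul_le_mul (near hρ) z2 hz0 (by positivity)) t0
        have h3 : 0 ≤ 4 * qd N r ^ 2 * (psiR N.u r (npr N.u X) * rwt N.u (N.W.P X) X) := by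
          positivity
        nlinarith
      · have h1 := mul_le_mul_of_nonneg_left (d2 hρ) hw0
        have h2 : psiR N.u r (npr N.u X) * ‖zz N.u X‖ ^ 2 * (4 * rwt N.u (N.W.P X) X / r ^ 2) ≤
            psiR N.u r (npr N.u X) * (qd N r * r) ^ 2 * (4 * rwt N.u (N.W.P X) X / r ^ 2) :=
          mul_le_mul_of_nonneg_right (mul_le_mul_of_nonneg_left z2 p0) (by positivity)
        have h3 : psiR N.u r (npr N.u X) * (qd N r * r) ^ 2 * (4 * rwt N.u (N.W.P X) X / r ^ 2)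
            = 4 * qd N r ^ 2 * (psiR N.u r (npr N.u X) * rwt N.u (N.W.P X) X) := by
          field_simp
        have h4 : 0 ≤ 80 / 3 * (qd N r * r) ^ 2
            * (phiR N.u r (npr N.u X) * tilt N.u (N.W.P X) X) := by positivity
        nlinarith
    · rw [(off hy).1, (off hy).2]
      simp
  have i2 := I.iE.const_mul (80 / 3 * (qd N r * r) ^ 2)
  have i3 := I.iR.const_mul (4 * qd N r ^ 2)
  have i4 := I.iZψ.const_mul (C * r)
  have hint := integral_mono_ae I.iZψ (I.iH.add (i2.add (i3.add i4))) hpw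
  rw [integral_add' I.iH (i2.add (i3.add i4)), integral_add' i2 (i3.add i4), integral_add' i3 i4,
    integral_const_mul, integral_const_mul, integral_const_mul] at hint
  have hZ : qZψ N r ≤ qH N r + (80 / 3 * qd N r ^ 2 * qE N r + (4 * qd N r ^ 2 * qR N r
      + C * r * qZψ N r)) := by
    rw [I.eE]
    unfold qZψ qH qR
    have := mul_le_mul_of_nonneg_left hint ha.le
    refine this.trans (le_of_eq ?_)
    ring
  have hδE : 0 ≤ qd N r ^ 2 * qE N r := mul_nonneg (by positivity) sE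
  have hδR : 0 ≤ qd N r ^ 2 * qR N r := mul_nonneg (by positivity) sR
  have h1 : C * r * qZψ N r ≤ 1 / 2 * qZψ N r := mul_le_mul_of_nonneg_right hCr sZ
  have h2 : qZψ N r ≤ 2 * qH N r + 54 * (qd N r ^ 2 * (qE N r + qR N r)) := by nlinarith
  have h3 : C * r * qZψ N r ≤ C * r * (2 * qH N r + 54 * (qd N r ^ 2 * (qE N r + qR N r))) :=
    mul_le_mul_of_nonneg_left h2 hCr0
  have h4 : C * r * (54 * (qd N r ^ 2 * (qE N r + qR N r)))
      ≤ 1 / 2 * (54 * (qd N r ^ 2 * (qE N r + qR N r))) :=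
    mul_le_mul_of_nonneg_right hCr (by nlinarith)
  have h5 : 0 ≤ r * qH N r := mul_nonneg hr.le sH.le
  constructor
  · nlinarith
  · nlinarith

/-- **flux identity** (leaf `L-Freq-fl-id`).
PLAN.  `Tube.stat_cyl` with `Y = φ(npr) zz`, `K = closedBall 0 r`; `tdiv_fderiv_smul`, `kerT_facts`:
`tdiv P DY = φ tdiv P Dz - ψ r^{-2} ⟨V, P z⟩`, `⟨V, P z⟩ = ⟨z, P V⟩` (`IsProj.symm`). -/
theorem flux_id (m n Q : ℕ) : Unif₀ m n Q (fun N r =>
    Integrable (fun X => phiR N.u r (npr N.u X) * tdiv (N.W.P X) (fderiv ℝ (zz N.u) X)) N.μ ∧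
    qFl N r = r ^ 2 * (r ^ m)⁻¹ * ∫ X, phiR N.u r (npr N.u X) * tdiv (N.W.P X) (fderiv ℝ (zz N.u) X) ∂N.μ) := by
  obtain ⟨J₁, κ₁, hκ₁, hints⟩ := ints m n Q
  obtain ⟨J₂, κ₂, hκ₂, hht⟩ := ae_height m n Q
  obtain ⟨h₀, hh₀, hstat⟩ := stat_cyl m n
  refine ⟨max (max J₁ J₂) 4, min (min κ₁ κ₂) (min h₀ (2 / 9)), by positivity, ?_⟩
  intro J k κ Ca N r hJ hκ hF
  have hJ1 : J₁ ≤ J := le_trans (le_trans (le_max_left _ _) (le_max_left _ _)) hJ
  have hJ2 : J₂ ≤ J := le_trans (le_trans (le_max_right _ _) (le_max_left _ _)) hJ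
  have hJ4 : 4 ≤ J := le_trans (le_max_right _ _) hJ
  have hk1 : κ ≤ κ₁ := le_trans hκ (le_trans (min_le_left _ _) (min_le_left _ _))
  have hk2 : κ ≤ κ₂ := le_trans hκ (le_trans (min_le_left _ _) (min_le_right _ _))
  have hk3 : κ ≤ h₀ := le_trans hκ (le_trans (min_le_right _ _) (min_le_left _ _))
  have hk4 : κ ≤ 2 / 9 := le_trans hκ (le_trans (min_le_right _ _) (min_le_right _ _))
  have hgeo : Geo κ N.u := hF.geo hJ4 (hk4.trans (by norm_num))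
  have I : Ints N r := hints J k κ Ca N r hJ1 hk1 hF
  obtain ⟨-, hae, -⟩ := hht J k κ Ca N r hJ2 hk2 hF
  have hr : 0 < r := hF.r_pos
  have hsub : Cyl N.u N.Ω N.h ⊆ Tub N.u (2 / 9) := fun X hX =>
    ⟨npr N.u X, lt_of_lt_of_le hX.2 (hF.h_le.trans hk4)⟩
  obtain ⟨cφ, -, dφ⟩ := kerT_facts_of_le hgeo hr
  obtain ⟨-, -, cz, -⟩ := tube_deriv_of_le hgeo (le_refl (2 / 9 : ℝ))
  obtain ⟨-, koff, -, -, -, -, -, -, hBs, -, -⟩ := ker_facts hgeo hr
  have hY : ContDiffOn ℝ 1 (fun X => phiR N.u r (npr N.u X) • zz N.u X) (Cyl N.u N.Ω N.h) :=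
    (cφ.smul (cz.of_le (by norm_num))).mono hsub
  have hK : Metric.closedBall (0 : E m) r ⊆ N.Ω := by
    rw [hF.Ω_eq]
    exact Metric.closedBall_subset_ball (by linarith [hF.r_le])
  obtain ⟨i0, e0⟩ := hstat κ N hgeo (hF.h_le.trans hk3) _ _ hY (isCompact_closedBall 0 r) hK
    (fun X _ hX => by
      have h1 : npr N.u X ∉ Bs N.u r := fun h => hX (Metric.ball_subset_closedBall (hBs h))
      simp [phiR, koff _ h1])
  have hpt : ∀ᵐ X ∂N.μ, phiR N.u r (npr N.u X) * tdiv (N.W.P X) (fderiv ℝ (zz N.u) X)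
      = tdiv (N.W.P X) (fderiv ℝ (fun X => phiR N.u r (npr N.u X) • zz N.u X) X)
        + (r ^ 2)⁻¹ * (psiR N.u r (npr N.u X) * inner ℝ (zz N.u X) (N.W.P X (Vv N.u X))) := by
    filter_upwards [hae] with X hX
    have hT := hsub hX.2
    have d1 := (dφ X hT).1
    have d2 := (zz_local hgeo (le_refl (2 / 9 : ℝ)) hT).2
    rw [tdiv_fderiv_smul _ d1.differentiableAt d2.differentiableAt, d1.fderiv]
    simp only [smul_apply, innerSL_apply_apply, smul_eq_mul]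
    rw [← (N.W.P_proj X).symm, real_inner_comm]
    field_simp
    ring
  have i1 := i0.add (I.iFl.const_mul (r ^ 2)⁻¹)
  refine ⟨i1.congr (hpt.mono fun X h => h.symm), ?_⟩
  rw [integral_congr_ae hpt, integral_add i0 (I.iFl.const_mul _), e0, zero_add, integral_const_mul]
  unfold qFl
  field_simp

/-- pointwise estimate behind `flux_est` -/
theorem fle_point {a e t s H D z κ C₀ d : ℝ} (ha : 0 ≤ a) (he : 0 ≤ e) (hD : 0 ≤ D) (hz : 0 ≤ z)
    (hκ0 : 0 ≤ κ) (hκ1 : κ ≤ 1) (hC : 0 ≤ C₀) (hs : |s| ≤ H * z) (hzd : a ≠ 0 → z ≤ d)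
    (ht : |t - (e - s)| ≤ C₀ * (κ ^ 2 * z ^ 2 + κ * e * z)) :
    |a * e - a * t| ≤ 1 / 2 * (a * (H ^ 2 + D)) + (1 / 2 + C₀) * (a * z ^ 2) + C₀ * d * (a * e) := by
  by_cases ha0 : a = 0
  · subst ha0
    simp
  have hzd' := hzd ha0
  have h1 : |e - t| ≤ H * z + C₀ * (κ ^ 2 * z ^ 2 + κ * e * z) := by
    have e1 : e - t = s - (t - (e - s)) := by ring
    rw [e1]
    exact (abs_sub _ _).trans (add_le_add hs ht)
  have h2 : H * z ≤ 1 / 2 * (H ^ 2 + D) + 1 / 2 * z ^ 2 := by nlinarith [sq_nonneg (H - z)]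
  have h3 : κ ^ 2 * z ^ 2 ≤ z ^ 2 := by
    have : κ ^ 2 ≤ 1 := pow_le_one₀ hκ0 hκ1
    nlinarith [sq_nonneg z]
  have h4 : κ * e * z ≤ d * e := by
    have q1 : κ * e ≤ e := by nlinarith
    calc κ * e * z ≤ e * z := mul_le_mul_of_nonneg_right q1 hz
      _ ≤ e * d := mul_le_mul_of_nonneg_left hzd' he
      _ = d * e := mul_comm _ _
  have h5 : |e - t| ≤ 1 / 2 * (H ^ 2 + D) + (1 / 2 + C₀) * z ^ 2 + C₀ * d * e := by
    have q2 : C₀ * (κ ^ 2 * z ^ 2 + κ * e * z) ≤ C₀ * (z ^ 2 + d * e) :=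
      mul_le_mul_of_nonneg_left (add_le_add h3 h4) hC
    linarith
  have e2 : a * e - a * t = a * (e - t) := by ring
  rw [e2, abs_mul, abs_of_nonneg ha]
  calc a * |e - t| ≤ a * (1 / 2 * (H ^ 2 + D) + (1 / 2 + C₀) * z ^ 2 + C₀ * d * e) :=
        mul_le_mul_of_nonneg_left h5 ha
    _ = _ := by ring

/-- **normal flux estimate** (leaf `L-Freq-fl-est`).
PLAN.  `E - Fl = r^{2-m} ∫ φ (tilt - tdiv P Dz)`; `Tube.normal_trace`: `|tilt - tdiv P Dz| ≤ |H_S||z| + C (|z|² + |z| tilt)`;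
`|H_S||z| ≤ (|H_S|² + |z|²)/2`, `Wt.wcurv`, `|z| ≤ δ r`; `wcompA`. -/
theorem flux_est (m n Q : ℕ) (hm : 1 ≤ m) : Unif m n Q (fun C N r =>
    |qE N r - qFl N r| ≤ C * (r ^ 2 * qH N r + qd N r * qE N r)) := by
  obtain ⟨J₁, κ₁, hκ₁, hints⟩ := ints m n Q
  obtain ⟨J₂, κ₂, hκ₂, hht⟩ := ae_height m n Q
  obtain ⟨J₃, κ₃, hκ₃, hfl⟩ := flux_id m n Q
  obtain ⟨J₄, κ₄, hκ₄, hsg⟩ := signs m n Q
  obtain ⟨J₅, κ₅, hκ₅, hwc⟩ := wcompA m n Q hm
  refine ⟨max (max (max J₁ J₂) (max J₃ J₄)) (max J₅ 4),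
    min (min (min κ₁ κ₂) (min κ₃ κ₄)) (min κ₅ (2 / 9)), by positivity, ?_⟩
  intro Ca
  obtain ⟨C₅, r₅, hC₅, hr₅, hwc⟩ := hwc Ca
  set C₀ : ℝ := 11 * ((m + n : ℕ) : ℝ) + 3 with hC₀
  have hC₀0 : 0 ≤ C₀ := by positivity
  set C₁ : ℝ := |Ca| / 2 + 1 / 2 + C₀ with hC₁
  have hC₁0 : 0 ≤ C₁ := by positivity
  refine ⟨1 + C₁ * (1 + 2 * |Ca|) + C₀, r₅, by nlinarith [abs_nonneg Ca], hr₅, ?_⟩
  intro J k κ N r hJ hκ hr₀ hF
  have hJ1 : J₁ ≤ J := le_trans (le_trans (le_trans (le_max_left _ _) (le_max_left _ _)) (le_max_left _ _)) hJ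
  have hJ2 : J₂ ≤ J := le_trans (le_trans (le_trans (le_max_right _ _) (le_max_left _ _)) (le_max_left _ _)) hJ
  have hJ3 : J₃ ≤ J := le_trans (le_trans (le_trans (le_max_left _ _) (le_max_right _ _)) (le_max_left _ _)) hJ
  have hJ4 : J₄ ≤ J := le_trans (le_trans (le_trans (le_max_right _ _) (le_max_right _ _)) (le_max_left _ _)) hJ
  have hJ5 : J₅ ≤ J := le_trans (le_trans (le_max_left _ _) (le_max_right _ _)) hJ
  have hJ6 : 4 ≤ J := le_trans (le_trans (le_max_right _ _) (le_max_right _ _)) hJ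
  have hk1 : κ ≤ κ₁ := le_trans hκ (le_trans (min_le_left _ _) (le_trans (min_le_left _ _) (min_le_left _ _)))
  have hk2 : κ ≤ κ₂ := le_trans hκ (le_trans (min_le_left _ _) (le_trans (min_le_left _ _) (min_le_right _ _)))
  have hk3 : κ ≤ κ₃ := le_trans hκ (le_trans (min_le_left _ _) (le_trans (min_le_right _ _) (min_le_left _ _)))
  have hk4 : κ ≤ κ₄ := le_trans hκ (le_trans (min_le_left _ _) (le_trans (min_le_right _ _) (min_le_right _ _)))
  have hk5 : κ ≤ κ₅ := le_trans hκ (le_trans (min_le_right _ _) (min_le_left _ _))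
  have hk6 : κ ≤ 2 / 9 := le_trans hκ (le_trans (min_le_right _ _) (min_le_right _ _))
  have hgeo : Geo κ N.u := hF.geo hJ6 (hk6.trans (by norm_num))
  have I : Ints N r := hints J k κ Ca N r hJ1 hk1 hF
  obtain ⟨-, hae, hz⟩ := hht J k κ Ca N r hJ2 hk2 hF
  obtain ⟨iT, eFl⟩ := hfl J k κ Ca N r hJ3 hk3 hF
  obtain ⟨hH, hE, -, hZ, -, -, -, hd⟩ := hsg J k κ Ca N r hJ4 hk4 hF
  obtain ⟨hw, -⟩ := hwc J k κ N r hJ5 hk5 hr₀ hF
  have hr : 0 < r := hF.r_pos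
  have hr1 : r ≤ 1 := hF.r_le
  have hsub : Cyl N.u N.Ω N.h ⊆ Tub N.u (2 / 9) := fun X hX =>
    ⟨npr N.u X, lt_of_lt_of_le hX.2 (hF.h_le.trans hk6)⟩
  obtain ⟨kdep, koff, -⟩ := ker_facts hgeo hr
  have hφ0 : ∀ y, 0 ≤ phiR N.u r y := fun y => pow_nonneg (kdep y).1 _
  -- the pointwise bound
  have hb : ∀ᵐ X ∂N.μ, ‖phiR N.u r (npr N.u X) * tilt N.u (N.W.P X) X
      - phiR N.u r (npr N.u X) * tdiv (N.W.P X) (fderiv ℝ (zz N.u) X)‖
      ≤ 1 / 2 * (phiR N.u r (npr N.u X) * (‖HS N.u (npr N.u X)‖ ^ 2 + DHSsq N.u (npr N.u X)))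
        + (1 / 2 + C₀) * (phiR N.u r (npr N.u X) * ‖zz N.u X‖ ^ 2)
        + C₀ * (qd N r * r) * (phiR N.u r (npr N.u X) * tilt N.u (N.W.P X) X) := by
    filter_upwards [hae, hz] with X hX hzX
    rw [Real.norm_eq_abs]
    refine fle_point (s := inner ℝ (HS N.u (npr N.u X)) (zz N.u X)) (κ := κ) (hφ0 _)
      (tilt_nonneg N.u (N.W.P_proj X) X) (DHSsq_nonneg N.u _) (norm_nonneg _)
      hgeo.nonneg hgeo.le_one hC₀0 (abs_real_inner_le_norm _ _) (fun h0 => hzX ?_)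
      (normal_trace_of_le hgeo (le_refl (2 / 9 : ℝ)) (hsub hX.2) (N.W.P_proj X)).2
    by_contra hc
    exact h0 (by simp [phiR, koff _ hc])
  have i12 : Integrable (fun X =>
      1 / 2 * (phiR N.u r (npr N.u X) * (‖HS N.u (npr N.u X)‖ ^ 2 + DHSsq N.u (npr N.u X)))
        + (1 / 2 + C₀) * (phiR N.u r (npr N.u X) * ‖zz N.u X‖ ^ 2)) N.μ :=
    (I.iK.const_mul (1 / 2)).add (I.iZφ.const_mul (1 / 2 + C₀))
  have ib : Integrable (fun X =>
      1 / 2 * (phiR N.u r (npr N.u X) * (‖HS N.u (npr N.u X)‖ ^ 2 + DHSsq N.u (npr N.u X)))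
        + (1 / 2 + C₀) * (phiR N.u r (npr N.u X) * ‖zz N.u X‖ ^ 2)
        + C₀ * (qd N r * r) * (phiR N.u r (npr N.u X) * tilt N.u (N.W.P X) X)) N.μ :=
    i12.add (I.iE.const_mul (C₀ * (qd N r * r)))
  have h1 := norm_integral_le_of_norm_le ib hb
  rw [integral_sub I.iE iT, integral_add i12 (I.iE.const_mul (C₀ * (qd N r * r))),
    integral_add (I.iK.const_mul (1 / 2)) (I.iZφ.const_mul (1 / 2 + C₀)),
    integral_const_mul, integral_const_mul, integral_const_mul, Real.norm_eq_abs] at h1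
  set IE := ∫ X, phiR N.u r (npr N.u X) * tilt N.u (N.W.P X) X ∂N.μ with hIE
  set IT := ∫ X, phiR N.u r (npr N.u X) * tdiv (N.W.P X) (fderiv ℝ (zz N.u) X) ∂N.μ with hIT
  set IK := ∫ X, phiR N.u r (npr N.u X) * (‖HS N.u (npr N.u X)‖ ^ 2 + DHSsq N.u (npr N.u X)) ∂N.μ with hIK
  set IZ := ∫ X, phiR N.u r (npr N.u X) * ‖zz N.u X‖ ^ 2 ∂N.μ with hIZ
  have hIZ0 : 0 ≤ IZ := integral_nonneg fun X => mul_nonneg (hφ0 _) (by positivity)
  have h2 : IK ≤ |Ca| * IZ := hF.wt.wcurv.trans (mul_le_mul_of_nonneg_right (le_abs_self _) hIZ0)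
  set c : ℝ := r ^ 2 * (r ^ m)⁻¹ with hc
  have hc0 : 0 ≤ c := by positivity
  have eE : qE N r = c * IE := I.eE
  have eZ : r ^ 2 * qZφ N r = c * IZ := by
    unfold qZφ
    rw [hc, mul_assoc]
  have h3 : |qE N r - qFl N r| ≤ C₁ * (r ^ 2 * qZφ N r) + C₀ * (qd N r * r) * qE N r := by
    rw [eE, eFl, eZ, ← mul_sub, abs_mul, abs_of_nonneg hc0]
    calc c * |IE - IT| ≤ c * (1 / 2 * IK + (1 / 2 + C₀) * IZ + C₀ * (qd N r * r) * IE) :=
          mul_le_mul_of_nonneg_left h1 hc0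
      _ ≤ c * (1 / 2 * (|Ca| * IZ) + (1 / 2 + C₀) * IZ + C₀ * (qd N r * r) * IE) := by
          refine mul_le_mul_of_nonneg_left ?_ hc0
          linarith
      _ = _ := by rw [hC₁]; ring
  have hdCa : qd N r ≤ |Ca| := by
    refine hF.wt.d_le.trans ?_
    calc Ca * r ^ (k - 1) ≤ |Ca| * r ^ (k - 1) := mul_le_mul_of_nonneg_right (le_abs_self _) (by positivity)
      _ ≤ |Ca| * 1 := mul_le_mul_of_nonneg_left (pow_le_one₀ hr.le hr1) (abs_nonneg _)
      _ = |Ca| := mul_one _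
  have hr2 : r ^ 2 ≤ 1 := pow_le_one₀ hr.le hr1
  have hdE : 0 ≤ qd N r * qE N r := mul_nonneg hd.le hE
  have h4 : r ^ 2 * qZφ N r ≤ r ^ 2 * qH N r + 2 * |Ca| * (qd N r * qE N r) := by
    have q1 : r ^ 2 * qZφ N r ≤ r ^ 2 * (qH N r + 2 * qd N r ^ 2 * qE N r) :=
      mul_le_mul_of_nonneg_left hw (by positivity)
    have q2 : r ^ 2 * (2 * qd N r ^ 2 * qE N r) ≤ 2 * |Ca| * (qd N r * qE N r) := by
      have q3 : r ^ 2 * qd N r ≤ 1 * |Ca| := mul_le_mul hr2 hdCa hd.le zero_le_one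
      calc r ^ 2 * (2 * qd N r ^ 2 * qE N r) = 2 * (r ^ 2 * qd N r) * (qd N r * qE N r) := by ring
        _ ≤ 2 * (1 * |Ca|) * (qd N r * qE N r) := by gcongr
        _ = _ := by ring
    linarith [mul_add (r ^ 2) (qH N r) (2 * qd N r ^ 2 * qE N r)]
  have h5 : C₀ * (qd N r * r) * qE N r ≤ C₀ * (qd N r * qE N r) := by
    have : qd N r * r * qE N r ≤ qd N r * qE N r := by
      have : qd N r * qE N r * r ≤ qd N r * qE N r * 1 := mul_le_mul_of_nonneg_left hr1 hdE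
      linarith
    calc C₀ * (qd N r * r) * qE N r = C₀ * (qd N r * r * qE N r) := by ring
      _ ≤ _ := mul_le_mul_of_nonneg_left this hC₀0
  have hrH : 0 ≤ r ^ 2 * qH N r := by positivity
  have h6 : C₁ * (r ^ 2 * qZφ N r) ≤ C₁ * (r ^ 2 * qH N r + 2 * |Ca| * (qd N r * qE N r)) :=
    mul_le_mul_of_nonneg_left h4 hC₁0
  have hCa0 := abs_nonneg Ca
  have h7 : 0 ≤ C₁ * |Ca| := mul_nonneg hC₁0 hCa0
  calc |qE N r - qFl N r| ≤ C₁ * (r ^ 2 * qH N r + 2 * |Ca| * (qd N r * qE N r)) + C₀ * (qd N r * qE N r) := by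
        linarith
    _ ≤ (1 + C₁ * (1 + 2 * |Ca|) + C₀) * (r ^ 2 * qH N r + qd N r * qE N r) := by
        nlinarith [mul_nonneg h7 hrH, mul_nonneg hC₀0 hrH, mul_nonneg hC₁0 hdE]

/-- pointwise: a quadratic form with nonpositive discriminant is nonnegative. -/
theorem flux_cs_quad {a b f : ℝ} (ha : 0 ≤ a) (hb : 0 ≤ b) (hf : f ^ 2 ≤ a * b) (t : ℝ) :
    0 ≤ a * (t * t) + 2 * f * t + b := by
  rcases ha.eq_or_lt with rfl | ha'
  · have : f = 0 := by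
      have h1 : f ^ 2 ≤ 0 := by simpa using hf
      exact pow_eq_zero_iff (two_ne_zero) |>.1 (le_antisymm h1 (sq_nonneg f))
    subst this
    simpa using hb
  · have h1 : 0 ≤ a * (a * (t * t) + 2 * f * t + b) := by
      have : a * (a * (t * t) + 2 * f * t + b) = (a * t + f) ^ 2 + (a * b - f ^ 2) := by ring
      rw [this]
      have := sq_nonneg (a * t + f)
      linarith
    exact nonneg_of_mul_nonneg_right h1 ha'

/-- Cauchy-Schwarz in the form: `f² ≤ a b` a.e. implies `(∫ f)² ≤ ∫ a ∫ b`. -/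
theorem flux_cs_integral {α : Type*} [MeasurableSpace α] {μ : Measure α} {a b f : α → ℝ}
    (ia : Integrable a μ) (ib : Integrable b μ) (iF : Integrable f μ)
    (ha : ∀ᵐ x ∂μ, 0 ≤ a x) (hb : ∀ᵐ x ∂μ, 0 ≤ b x) (hf : ∀ᵐ x ∂μ, f x ^ 2 ≤ a x * b x) :
    (∫ x, f x ∂μ) ^ 2 ≤ (∫ x, a x ∂μ) * ∫ x, b x ∂μ := by
  have key : ∀ t : ℝ, 0 ≤ (∫ x, a x ∂μ) * (t * t) + (2 * ∫ x, f x ∂μ) * t + ∫ x, b x ∂μ := by
    intro t
    have h1 : 0 ≤ ∫ x, (a x * (t * t) + 2 * f x * t + b x) ∂μ := by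
      apply integral_nonneg_of_ae
      filter_upwards [ha, hb, hf] with x h1 h2 h3
      exact flux_cs_quad h1 h2 h3 t
    have h2 : ∫ x, (a x * (t * t) + 2 * f x * t + b x) ∂μ
        = (∫ x, a x ∂μ) * (t * t) + (2 * ∫ x, f x ∂μ) * t + ∫ x, b x ∂μ := by
      have i1 : Integrable (fun x => a x * (t * t)) μ := ia.mul_const _
      have i2 : Integrable (fun x => 2 * f x * t) μ := (iF.const_mul 2).mul_const _
      have i3 : Integrable (fun x => a x * (t * t) + 2 * f x * t) μ := i1.add i2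
      rw [integral_add i3 ib, integral_add i1 i2, integral_mul_const,
        integral_mul_const, integral_const_mul]
    rwa [h2] at h1
  have := discrim_le_zero key
  unfold discrim at this
  nlinarith

/-- **Cauchy-Schwarz for the flux** with the sharp constant (leaf `L-Freq-fl-cs`).
PLAN.  `proj_facts`: `|ψ ⟨z, P V⟩| ≤ sqrt (ψ |z|² hwt) sqrt (ψ rwt)`; Hölder / `inner_mul_le_norm_mul_norm` in `L²`, or: for all `t > 0`,
`2 |ab| ≤ t a² + b²/t`, integrate and optimise (`Fl² ≤ H R` follows from `2 |Fl| ≤ t H + R / t` for all `t > 0`). -/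
theorem flux_cs (m n Q : ℕ) : Unif₀ m n Q (fun N r => qFl N r ^ 2 ≤ qH N r * qR N r) := by
  obtain ⟨J₁, κ₁, hκ₁, h₁⟩ := ints m n Q
  obtain ⟨J₂, κ₂, hκ₂, h₂⟩ := ae_height m n Q
  obtain ⟨h₀, hh₀, h₃⟩ := proj_facts m n
  refine ⟨max (max J₁ J₂) 4, min (min κ₁ κ₂) (min h₀ (1 / 2)),
    lt_min (lt_min hκ₁ hκ₂) (lt_min hh₀ (by norm_num)), fun J k κ Ca N r hJ hκ hF => ?_⟩
  have hJ1 : J₁ ≤ J := (le_max_left _ _).trans ((le_max_left _ _).trans hJ)
  have hJ2 : J₂ ≤ J := (le_max_right _ _).trans ((le_max_left _ _).trans hJ)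
  have hJ4 : 4 ≤ J := (le_max_right _ _).trans hJ
  have hk1 : κ ≤ κ₁ := hκ.trans ((min_le_left _ _).trans (min_le_left _ _))
  have hk2 : κ ≤ κ₂ := hκ.trans ((min_le_left _ _).trans (min_le_right _ _))
  have hk3 : κ ≤ h₀ := hκ.trans ((min_le_right _ _).trans (min_le_left _ _))
  have hk4 : κ ≤ 1 / 2 := hκ.trans ((min_le_right _ _).trans (min_le_right _ _))
  have hI := h₁ J k κ Ca N r hJ1 hk1 hF
  obtain ⟨-, hae, -⟩ := h₂ J k κ Ca N r hJ2 hk2 hF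
  have hgeo := hF.geo hJ4 hk4
  have hψ : ∀ y, 0 ≤ psiR N.u r y := fun y => by
    unfold psiR dep
    have : (0 : ℝ) ≤ max 0 (1 - rho N.u y ^ 2 / r ^ 2) := le_max_left _ _
    positivity
  have hfacts : ∀ᵐ X ∂N.μ, 0 ≤ hwt N.u (N.W.P X) X ∧ 0 ≤ rwt N.u (N.W.P X) X ∧
      inner ℝ (zz N.u X) (N.W.P X (Vv N.u X)) ^ 2
        ≤ ‖zz N.u X‖ ^ 2 * hwt N.u (N.W.P X) X * rwt N.u (N.W.P X) X := by
    filter_upwards [hae] with X hX
    have hT : X ∈ Tub N.u h₀ := ⟨npr N.u X, lt_of_lt_of_le hX.2.2 (hF.h_le.trans hk3)⟩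
    obtain ⟨-, -, -, g1, -, g2, -, g3⟩ := h₃ κ N.u hgeo X hT (N.W.P X) (N.W.P_proj X)
    exact ⟨g1, g2, g3⟩
  have hcs := flux_cs_integral hI.iH hI.iR hI.iFl
    (by
      filter_upwards [hfacts] with X hX
      exact mul_nonneg (mul_nonneg (hψ _) (by positivity)) hX.1)
    (by
      filter_upwards [hfacts] with X hX
      exact mul_nonneg (hψ _) hX.2.1)
    (by
      filter_upwards [hfacts] with X hX
      have h5 := mul_le_mul_of_nonneg_left hX.2.2 (sq_nonneg (psiR N.u r (npr N.u X)))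
      calc (psiR N.u r (npr N.u X) * inner ℝ (zz N.u X) (N.W.P X (Vv N.u X))) ^ 2
          = psiR N.u r (npr N.u X) ^ 2 * inner ℝ (zz N.u X) (N.W.P X (Vv N.u X)) ^ 2 := by ring
        _ ≤ psiR N.u r (npr N.u X) ^ 2 *
            (‖zz N.u X‖ ^ 2 * hwt N.u (N.W.P X) X * rwt N.u (N.W.P X) X) := h5
        _ = _ := by ring)
  unfold qFl qH qR
  have h6 := mul_le_mul_of_nonneg_left hcs (sq_nonneg ((r ^ m)⁻¹))
  calc _ = ((r ^ m)⁻¹) ^ 2 *
        (∫ X, psiR N.u r (npr N.u X) * inner ℝ (zz N.u X) (N.W.P X (Vv N.u X)) ∂N.μ) ^ 2 := by ring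
    _ ≤ _ := h6
    _ = _ := by ring

end Claimed.Agent.R322.Freq
end
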