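/- Packed by merge_tool.py (helper293): 7 modules of Claimed.Agent.R322 in one file, same declarations.
   Old modules, in this order: Freq.Tent, Flat.Moll, Flat.Radial, Flat.Planar, Flat.Pinch, Flat.Tilt, Freq.One -/
import Claimed.Agent.R322.Freq.Start
import Claimed.Agent.R322.Pack053
import Claimed.Agent.R322.Pack055

/- ===== packed: Claimed.Agent.R322.Freq.Tent ===== -/
section
/-!
# CO Section 4: elementary facts on tents and on the failure parameter `b` (CO (4.3))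

Owner: helper109 (package BP-CO4-cover).  Leaf `L-Freq-tent`: everything in this file is elementary (`sSup` of bounded sets of
reals; the nonzero values of `ℓ` are dyadic and bounded, hence every nonempty set of values `≥ a > 0` is finite).
-/

set_option autoImplicit false

namespace Claimed.Agent.R322.Freq

variable {m : ℕ}

/-- standing assumptions on the failure scales -/
structure IsFail (ℓ : E m → ℝ) (a : ℝ) : Prop where
  dyadic : ∀ x, ℓ x = 0 ∨ ∃ j : ℕ, ℓ x = (2 : ℝ)⁻¹ ^ j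
  le : ∀ x, ℓ x ≤ a

variable {ℓ : E m → ℝ} {a : ℝ}

theorem IsFail.nonneg (h : IsFail ℓ a) (x : E m) : 0 ≤ ℓ x := by
  rcases h.dyadic x with h0 | ⟨j, hj⟩
  · rw [h0]
  · rw [hj]; positivity

theorem tent_bddAbove (h : IsFail ℓ a) (w : E m) :
    BddAbove ({0} ∪ {s : ℝ | ∃ x : E m, ‖x‖ < 5 ∧ s = ℓ x - ‖w - x‖}) := by
  refine ⟨max 0 a, ?_⟩
  rintro s (hs | ⟨x, -, rfl⟩)
  · rw [Set.mem_singleton_iff.mp hs]
    exact le_max_left _ _
  · exact le_trans (by linarith [norm_nonneg (w - x), h.le x]) (le_max_right _ _)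

theorem bpar_bddAbove (h : IsFail ℓ a) :
    BddAbove ({0} ∪ {s : ℝ | ∃ x : E m, ‖x‖ < 5 ∧ ‖x‖ ≤ 16 * ℓ x ∧ s = ℓ x}) := by
  refine ⟨max 0 a, ?_⟩
  rintro s (hs | ⟨x, -, -, rfl⟩)
  · rw [Set.mem_singleton_iff.mp hs]
    exact le_max_left _ _
  · exact le_trans (h.le x) (le_max_right _ _)

theorem tent_nonempty (ℓ : E m → ℝ) (w : E m) :
    ({0} ∪ {s : ℝ | ∃ x : E m, ‖x‖ < 5 ∧ s = ℓ x - ‖w - x‖}).Nonempty := ⟨0, Or.inl rfl⟩

theorem bpar_nonempty (ℓ : E m → ℝ) :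
    ({0} ∪ {s : ℝ | ∃ x : E m, ‖x‖ < 5 ∧ ‖x‖ ≤ 16 * ℓ x ∧ s = ℓ x}).Nonempty := ⟨0, Or.inl rfl⟩

theorem tent_nonneg (h : IsFail ℓ a) (w : E m) : 0 ≤ tent ℓ w :=
  le_csSup (tent_bddAbove h w) (Or.inl rfl)

theorem le_tent (h : IsFail ℓ a) (w x : E m) (hx : ‖x‖ < 5) : ℓ x - ‖w - x‖ ≤ tent ℓ w :=
  le_csSup (tent_bddAbove h w) (Or.inr ⟨x, hx, rfl⟩)

theorem tent_le_of (h : IsFail ℓ a) {c : ℝ} (hc : 0 ≤ c) (hℓ : ∀ x, ‖x‖ < 5 → ℓ x ≤ c) (w : E m) :
    tent ℓ w ≤ c := by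
  refine csSup_le (tent_nonempty _ _) ?_
  rintro s (hs | ⟨x, hx, rfl⟩)
  · rw [Set.mem_singleton_iff.mp hs]
    exact hc
  · linarith [norm_nonneg (w - x), hℓ x hx]

/-- `t` is `1`-Lipschitz -/
theorem tent_le_tent_add (h : IsFail ℓ a) (w w' : E m) : tent ℓ w ≤ tent ℓ w' + ‖w - w'‖ := by
  refine csSup_le (tent_nonempty _ _) ?_
  rintro s (hs | ⟨x, hx, rfl⟩)
  · rw [Set.mem_singleton_iff.mp hs]
    linarith [tent_nonneg h w', norm_nonneg (w - w')]
  · have h1 := le_tent h w' x hx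
    have h2 : ‖w' - x‖ ≤ ‖w - w'‖ + ‖w - x‖ := by
      have : w' - x = -(w - w') + (w - x) := by abel
      rw [this]
      exact (norm_add_le _ _).trans (by rw [norm_neg])
    linarith

theorem tent_lip (h : IsFail ℓ a) (w w' : E m) : |tent ℓ w - tent ℓ w'| ≤ ‖w - w'‖ := by
  rw [abs_sub_le_iff]
  constructor
  · linarith [tent_le_tent_add h w w']
  · have := tent_le_tent_add h w' w
    rw [norm_sub_rev] at this
    linarith

/-- a witness of `t(w) > 0` -/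
theorem tent_witness (h : IsFail ℓ a) {w : E m} (hw : 0 < tent ℓ w) :
    ∃ x : E m, ‖x‖ < 5 ∧ tent ℓ w / 2 < ℓ x - ‖w - x‖ := by
  have hlt : tent ℓ w / 2 < tent ℓ w := by linarith
  obtain ⟨s, hs, hs'⟩ := exists_lt_of_lt_csSup (tent_nonempty ℓ w) hlt
  rcases hs with hs | ⟨x, hx, rfl⟩
  · rw [Set.mem_singleton_iff.mp hs] at hs'
    linarith
  · exact ⟨x, hx, hs'⟩

theorem bpar_nonneg (h : IsFail ℓ a) : 0 ≤ bpar ℓ :=
  le_csSup (bpar_bddAbove h) (Or.inl rfl)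

theorem le_bpar (h : IsFail ℓ a) {x : E m} (hx : ‖x‖ < 5) (hx' : ‖x‖ ≤ 16 * ℓ x) : ℓ x ≤ bpar ℓ :=
  le_csSup (bpar_bddAbove h) (Or.inr ⟨x, hx, hx', rfl⟩)

theorem bpar_le (h : IsFail ℓ a) (ha : 0 ≤ a) : bpar ℓ ≤ a := by
  refine csSup_le (bpar_nonempty _) ?_
  rintro s (hs | ⟨x, -, -, rfl⟩)
  · rw [Set.mem_singleton_iff.mp hs]
    exact ha
  · exact h.le x

/-- two different dyadic numbers differ by a factor `≥ 2` -/
theorem tent_dyadic_gap {j j' : ℕ} (h : (2 : ℝ)⁻¹ ^ j < (2 : ℝ)⁻¹ ^ j') :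
    2 * (2 : ℝ)⁻¹ ^ j ≤ (2 : ℝ)⁻¹ ^ j' := by
  have hlt : j' < j := by
    by_contra hc
    push Not at hc
    exact absurd h (not_lt.mpr (pow_le_pow_of_le_one (by norm_num) (by norm_num) hc))
  have h1 : (2 : ℝ)⁻¹ ^ (j' + 1) = (2 : ℝ)⁻¹ ^ j' * 2⁻¹ := pow_succ _ _
  have h2 : (2 : ℝ)⁻¹ ^ j ≤ (2 : ℝ)⁻¹ ^ (j' + 1) :=
    pow_le_pow_of_le_one (by norm_num) (by norm_num) hlt
  linarith

/-- the maximum is attained -/
theorem bpar_attained (h : IsFail ℓ a) (hb : 0 < bpar ℓ) :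
    ∃ x : E m, ‖x‖ < 5 ∧ ‖x‖ ≤ 16 * ℓ x ∧ ℓ x = bpar ℓ := by
  have hlt : bpar ℓ / 2 < bpar ℓ := by linarith
  obtain ⟨s, hs, hs'⟩ := exists_lt_of_lt_csSup (bpar_nonempty ℓ) hlt
  rcases hs with hs | ⟨x, hx, hx', rfl⟩
  · rw [Set.mem_singleton_iff.mp hs] at hs'
    linarith
  refine ⟨x, hx, hx', le_antisymm (le_bpar h hx hx') ?_⟩
  by_contra hc
  push Not at hc
  obtain ⟨s, hs, hs''⟩ := exists_lt_of_lt_csSup (bpar_nonempty ℓ) hc
  rcases hs with hs | ⟨y, hy, hy', rfl⟩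
  · rw [Set.mem_singleton_iff.mp hs] at hs''
    linarith
  have hyb := le_bpar h hy hy'
  rcases h.dyadic x with h0 | ⟨j, hj⟩
  · rw [h0] at hs'
    linarith
  rcases h.dyadic y with h0 | ⟨j', hj'⟩
  · rw [h0] at hs''
    linarith
  rw [hj, hj'] at hs''
  have := tent_dyadic_gap hs''
  rw [← hj, ← hj'] at this
  linarith

theorem bpar_dyadic (h : IsFail ℓ a) : bpar ℓ = 0 ∨ ∃ j : ℕ, bpar ℓ = (2 : ℝ)⁻¹ ^ j := by
  rcases (bpar_nonneg h).eq_or_lt with h0 | h0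
  · exact Or.inl h0.symm
  · obtain ⟨x, -, -, hx⟩ := bpar_attained h h0
    rcases h.dyadic x with h1 | h1
    · rw [← hx, h1] at h0
      exact absurd h0 (lt_irrefl _)
    · rw [← hx]; exact Or.inr h1

/-- `t(w) ≤ b + |w|` -/
theorem tent_le_add (h : IsFail ℓ a) (w : E m) : tent ℓ w ≤ bpar ℓ + ‖w‖ := by
  refine csSup_le (tent_nonempty _ _) ?_
  rintro s (hs | ⟨x, hx, rfl⟩)
  · rw [Set.mem_singleton_iff.mp hs]
    linarith [bpar_nonneg h, norm_nonneg w]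
  · have h2 : ‖x‖ ≤ ‖w‖ + ‖w - x‖ := by
      have : x = w - (w - x) := by abel
      calc ‖x‖ = ‖w - (w - x)‖ := by rw [← this]
        _ ≤ ‖w‖ + ‖w - x‖ := norm_sub_le _ _
    by_cases hx' : ‖x‖ ≤ 16 * ℓ x
    · linarith [le_bpar h hx hx', norm_nonneg (w - x), norm_nonneg w]
    · push Not at hx'
      linarith [bpar_nonneg h, norm_nonneg (w - x), norm_nonneg w]

/-- CO (4.12): a witness at a point `w` has scale `≤ max (b, (|w| + ...)/15)` -/
theorem witness_size (h : IsFail ℓ a) {w x : E m} (hx : ‖x‖ < 5) (hw : 0 < ℓ x - ‖w - x‖) :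
    ℓ x ≤ max (bpar ℓ) (‖w‖ / 15) := by
  by_cases hx' : ‖x‖ ≤ 16 * ℓ x
  · exact le_trans (le_bpar h hx hx') (le_max_left _ _)
  · push Not at hx'
    have h2 : ‖x‖ ≤ ‖w‖ + ‖w - x‖ := by
      have : x = w - (w - x) := by abel
      calc ‖x‖ = ‖w - (w - x)‖ := by rw [← this]
        _ ≤ ‖w‖ + ‖w - x‖ := norm_sub_le _ _
    refine le_trans ?_ (le_max_right _ _)
    linarith

theorem Start.isFail {n Q : ℕ} {π : Par} (S : Start m n Q π) : IsFail S.ℓ π.lm :=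
  ⟨S.ℓ_dyadic, S.ℓ_small⟩

end Claimed.Agent.R322.Freq
end

/- ===== packed: Claimed.Agent.R322.Flat.Moll ===== -/
section
/-!
# R322 / Flat / Moll : the projected weight is close to a multiple of `μH[m]`
(leaves L-Flat-MollEx = `exists_moll`; L-Flat-MollErr = `moll_err`; L-Flat-ProjApprox = `proj_approx`)

PLANS.
* `exists_moll`: `ContDiffBump (0 : E m)` with `rOut = d`, `.normed μH[m]` (`μH[m]` on `E m` is an additive Haar measure:
  `isAddHaarMeasure_hausdorffMeasure`, see `Base/Mono/Kap.lean`); the derivative of a `C¹_c` function is bounded.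
* `moll_err`: `∫ g x k (y - x) dx - g y = ∫ (g x - g y) k (y - x) dx`, `|g x - g y| ≤ d` where `k (y - x) ≠ 0`
  (`integral_sub_left_eq_self` for `∫ k (y - x) dx = 1`).
* `proj_approx`: with `g_d y = ∫ g x k (y - x) dx` and `K x = ∫_{ball 0 (2ρ)} k (prH X - x) dμ`:
  `|∫_{ball} g (prH X) dμ - ∫_{ball} g_d (prH X) dμ| ≤ d μ(ball)` (`moll_err`);
  `∫_{ball} g_d (prH X) dμ = ∫ g x K x dx` (Fubini `integral_integral_swap`: bounded, compactly supported in `x`, finite measure in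
  `X`); `|K x - K 0| ≤ B ρ T` for `x ∈ tsupport g` (`transl_le`).
-/

set_option autoImplicit false

open scoped ENNReal ContDiff
open MeasureTheory

namespace Claimed.Agent.R322.Flat

variable {m n : ℕ}

theorem exists_moll (m : ℕ) (d : ℝ) (hd : 0 < d) : ∃ (k : E m → ℝ) (B : ℝ), ContDiff ℝ 1 k ∧
    (∀ y, 0 ≤ k y) ∧ ∫ y, k y ∂μH[(m : ℝ)] = 1 ∧ tsupport k ⊆ Metric.closedBall 0 d ∧
    ∀ y, ‖fderiv ℝ k y‖ ≤ B := by
  let f : ContDiffBump (0 : E m) := ⟨d / 2, d, by positivity, by linarith⟩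
  have hc : ContDiff ℝ 1 (f.normed (μH[(m : ℝ)] : Measure (E m))) := f.contDiff_normed
  have hcs : HasCompactSupport (f.normed (μH[(m : ℝ)] : Measure (E m))) := f.hasCompactSupport_normed
  obtain ⟨B, hB⟩ := (hcs.fderiv (𝕜 := ℝ)).exists_bound_of_continuous (hc.continuous_fderiv one_ne_zero)
  refine ⟨f.normed (μH[(m : ℝ)] : Measure (E m)), B, hc, fun y => f.nonneg_normed y,
    f.integral_normed, ?_, hB⟩
  rw [f.tsupport_normed_eq]

theorem moll_err {d : ℝ} (k : E m → ℝ) (hk : Continuous k) (hk0 : ∀ y, 0 ≤ k y)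
    (hk1 : ∫ y, k y ∂μH[(m : ℝ)] = 1) (hks : tsupport k ⊆ Metric.closedBall 0 d)
    (g : E m → ℝ) (hg : LipschitzWith 1 g) (y : E m) :
    |(∫ x, g x * k (y - x) ∂μH[(m : ℝ)]) - g y| ≤ d := by
  have hkc : HasCompactSupport k :=
    (isCompact_closedBall (0 : E m) d).of_isClosed_subset (isClosed_tsupport k) hks
  have hky : Continuous fun x => k (y - x) := hk.comp (continuous_const.sub continuous_id)
  have hkyc : HasCompactSupport fun x => k (y - x) := by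
    have := hkc.comp_homeomorph (Homeomorph.subLeft y)
    exact this
  have i1 : Integrable (fun x => k (y - x)) (μH[(m : ℝ)] : Measure (E m)) :=
    hky.integrable_of_hasCompactSupport hkyc
  have i2 : Integrable (fun x => g x * k (y - x)) (μH[(m : ℝ)] : Measure (E m)) :=
    (hg.continuous.mul hky).integrable_of_hasCompactSupport hkyc.mul_left
  have e1 : ∫ x, k (y - x) ∂(μH[(m : ℝ)] : Measure (E m)) = 1 := by
    rw [integral_sub_left_eq_self k (μH[(m : ℝ)] : Measure (E m)) y, hk1]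
  have e2 : (∫ x, g x * k (y - x) ∂μH[(m : ℝ)]) - g y
      = ∫ x, (g x - g y) * k (y - x) ∂(μH[(m : ℝ)] : Measure (E m)) := by
    have e3 : ∀ x, (g x - g y) * k (y - x) = g x * k (y - x) - g y * k (y - x) := fun x => by ring
    simp only [e3]
    rw [integral_sub i2 (i1.const_mul _), integral_const_mul, e1, mul_one]
  rw [e2]
  calc |∫ x, (g x - g y) * k (y - x) ∂(μH[(m : ℝ)] : Measure (E m))|
      ≤ ∫ x, |(g x - g y) * k (y - x)| ∂(μH[(m : ℝ)] : Measure (E m)) := abs_integral_le_integral_abs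
    _ ≤ ∫ x, d * k (y - x) ∂(μH[(m : ℝ)] : Measure (E m)) := by
        refine integral_mono_of_nonneg (Filter.Eventually.of_forall fun x => abs_nonneg _)
          (i1.const_mul d) (Filter.Eventually.of_forall fun x => ?_)
        simp only
        rw [abs_mul, abs_of_nonneg (hk0 _)]
        by_cases hx : k (y - x) = 0
        · rw [hx, mul_zero, mul_zero]
        · have h1 : y - x ∈ Metric.closedBall (0 : E m) d := hks (subset_tsupport k hx)
          rw [Metric.mem_closedBall, dist_zero_right] at h1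
          have h2 : |g x - g y| ≤ d := by
            have := hg.dist_le_mul x y
            rw [NNReal.coe_one, one_mul, Real.dist_eq, dist_eq_norm, ← norm_neg, neg_sub] at this
            exact this.trans h1
          exact mul_le_mul_of_nonneg_right h2 (hk0 _)
    _ = d := by rw [integral_const_mul, e1, mul_one]

theorem proj_approx (W : SIV m n) {ρ σ d : ℝ} (hρ : 0 < ρ) (hσ : σ ≤ ρ / 4)
    (hU : Metric.closedBall 0 (2 * ρ) ⊆ W.U)
    (hh : ∀ X ∈ W.support, ‖X‖ ≤ 2 * ρ → ‖prV m n X‖ ≤ σ)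
    (k : E m → ℝ) (hk : ContDiff ℝ 1 k) (hk0 : ∀ y, 0 ≤ k y) (hk1 : ∫ y, k y ∂μH[(m : ℝ)] = 1)
    (hd : 0 < d) (hd' : d ≤ ρ / 4) (hks : tsupport k ⊆ Metric.closedBall 0 d)
    (B : ℝ) (hB : ∀ y, ‖fderiv ℝ k y‖ ≤ B)
    (g : E m → ℝ) (hg : LipschitzWith 1 g) (hgs : tsupport g ⊆ Metric.closedBall 0 ρ) :
    |(∫ X in Metric.ball 0 (2 * ρ), g (prH m n X) ∂W.μ)
        - (∫ X in Metric.ball 0 (2 * ρ), k (prH m n X) ∂W.μ) * ∫ y, g y ∂μH[(m : ℝ)]|
      ≤ d * (W.μ (Metric.ball 0 (2 * ρ))).toReal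
        + B * ρ * (∫ X in Metric.ball 0 (2 * ρ), tl (W.P X) ∂W.μ) * ∫ y, |g y| ∂μH[(m : ℝ)] := by
  set μ' : Measure (E (m + n)) := W.μ.restrict (Metric.ball 0 (2 * ρ)) with hμ'
  set lam : Measure (E m) := μH[(m : ℝ)] with hlam
  have hfin : IsFiniteMeasure μ' := by
    constructor
    rw [hμ', Measure.restrict_apply_univ]
    exact lt_of_le_of_lt (measure_mono Metric.ball_subset_closedBall)
      (W.locfin _ (isCompact_closedBall _ _) hU)
  have hkcont : Continuous k := hk.continuous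
  have hgcont : Continuous g := hg.continuous
  have hkc : HasCompactSupport k :=
    (isCompact_closedBall (0 : E m) d).of_isClosed_subset (isClosed_tsupport k) hks
  have hgc : HasCompactSupport g :=
    (isCompact_closedBall (0 : E m) ρ).of_isClosed_subset (isClosed_tsupport g) hgs
  obtain ⟨Mk, hMk⟩ := hkc.exists_bound_of_continuous hkcont
  obtain ⟨Mg, hMg⟩ := hgc.exists_bound_of_continuous hgcont
  have hgi : Integrable g lam := hgcont.integrable_of_hasCompactSupport hgc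
  have hB0 : 0 ≤ B := (norm_nonneg _).trans (hB 0)
  set T : ℝ := ∫ X, tl (W.P X) ∂μ' with hT
  have hT0 : 0 ≤ T := integral_nonneg fun X => tl_nonneg (W.P_proj X)
  -- the kernel on the product
  have hFc : Continuous fun q : E (m + n) × E m => g q.2 * k (prH m n q.1 - q.2) :=
    (hgcont.comp continuous_snd).mul
      (hkcont.comp (((prH m n).continuous.comp continuous_fst).sub continuous_snd))
  have hF : Integrable (fun q : E (m + n) × E m => g q.2 * k (prH m n q.1 - q.2)) (μ'.prod lam) := by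
    refine Integrable.mono' ((hgi.abs.comp_snd μ').mul_const Mk) hFc.aestronglyMeasurable
      (Filter.Eventually.of_forall fun q => ?_)
    rw [norm_mul, Real.norm_eq_abs]
    exact mul_le_mul_of_nonneg_left (hMk _) (abs_nonneg _)
  -- step 1
  have i1 : Integrable (fun X => g (prH m n X)) μ' :=
    Integrable.of_bound (hgcont.comp (prH m n).continuous).aestronglyMeasurable Mg
      (Filter.Eventually.of_forall fun X => hMg _)
  have i2 : Integrable (fun X => ∫ x, g x * k (prH m n X - x) ∂lam) μ' := hF.integral_prod_left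
  have s1 : |(∫ X, g (prH m n X) ∂μ') - ∫ X, (∫ x, g x * k (prH m n X - x) ∂lam) ∂μ'|
      ≤ d * (W.μ (Metric.ball 0 (2 * ρ))).toReal := by
    rw [← integral_sub i1 i2]
    calc |∫ X, (g (prH m n X) - ∫ x, g x * k (prH m n X - x) ∂lam) ∂μ'|
        ≤ ∫ X, |g (prH m n X) - ∫ x, g x * k (prH m n X - x) ∂lam| ∂μ' :=
          abs_integral_le_integral_abs
      _ ≤ ∫ _, d ∂μ' := by
          refine integral_mono_of_nonneg (Filter.Eventually.of_forall fun X => abs_nonneg _)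
            (integrable_const d) (Filter.Eventually.of_forall fun X => ?_)
          simp only
          rw [abs_sub_comm]
          exact moll_err k hkcont hk0 hk1 hks g hg _
      _ = d * (W.μ (Metric.ball 0 (2 * ρ))).toReal := by
          rw [integral_const, smul_eq_mul, mul_comm, Measure.real, hμ', Measure.restrict_apply_univ]
  -- step 2: Fubini
  have s2 : ∫ X, (∫ x, g x * k (prH m n X - x) ∂lam) ∂μ'
      = ∫ x, g x * (∫ X, k (prH m n X - x) ∂μ') ∂lam := by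
    rw [integral_integral_swap (f := fun X x => g x * k (prH m n X - x)) hF]
    refine integral_congr_ae (Filter.Eventually.of_forall fun x => ?_)
    simp only
    rw [integral_const_mul]
  -- step 3
  have i3 : Integrable (fun x => g x * (∫ X, k (prH m n X - x) ∂μ')) lam := by
    refine hF.integral_prod_right.congr (Filter.Eventually.of_forall fun x => ?_)
    simp only
    rw [integral_const_mul]
  have i4 : Integrable (fun x => g x * (∫ X, k (prH m n X) ∂μ')) lam := hgi.mul_const _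
  have s3 : |(∫ x, g x * (∫ X, k (prH m n X - x) ∂μ') ∂lam)
        - (∫ X, k (prH m n X) ∂μ') * ∫ y, g y ∂lam| ≤ B * ρ * T * ∫ y, |g y| ∂lam := by
    have e1 : (∫ X, k (prH m n X) ∂μ') * ∫ y, g y ∂lam
        = ∫ x, g x * (∫ X, k (prH m n X) ∂μ') ∂lam := by
      rw [integral_mul_const, mul_comm]
    rw [e1, ← integral_sub i3 i4]
    calc |∫ x, (g x * (∫ X, k (prH m n X - x) ∂μ') - g x * (∫ X, k (prH m n X) ∂μ')) ∂lam|
        ≤ ∫ x, |g x * (∫ X, k (prH m n X - x) ∂μ') - g x * (∫ X, k (prH m n X) ∂μ')| ∂lam :=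
          abs_integral_le_integral_abs
      _ ≤ ∫ x, B * ρ * T * |g x| ∂lam := by
          refine integral_mono_of_nonneg (Filter.Eventually.of_forall fun x => abs_nonneg _)
            (hgi.abs.const_mul _) (Filter.Eventually.of_forall fun x => ?_)
          simp only
          rw [← mul_sub, abs_mul, mul_comm]
          by_cases hx : g x = 0
          · rw [hx, abs_zero, mul_zero, mul_zero]
          · have hx1 : ‖x‖ ≤ ρ := by
              have := hgs (subset_tsupport g hx)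
              rwa [Metric.mem_closedBall, dist_zero_right] at this
            have h1 := transl_le W hρ hσ hU hh k hk
              (hks.trans (Metric.closedBall_subset_closedBall hd')) B hB x (by linarith)
            refine mul_le_mul_of_nonneg_right (h1.trans ?_) (abs_nonneg _)
            gcongr
      _ = _ := by rw [integral_const_mul]
  calc |(∫ X, g (prH m n X) ∂μ') - (∫ X, k (prH m n X) ∂μ') * ∫ y, g y ∂lam|
      ≤ |(∫ X, g (prH m n X) ∂μ') - ∫ X, (∫ x, g x * k (prH m n X - x) ∂lam) ∂μ'|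
        + |(∫ X, (∫ x, g x * k (prH m n X - x) ∂lam) ∂μ')
          - (∫ X, k (prH m n X) ∂μ') * ∫ y, g y ∂lam| := abs_sub_le _ _ _
    _ ≤ _ := by
        refine add_le_add s1 ?_
        rw [s2]
        exact s3

end Claimed.Agent.R322.Flat
end

/- ===== packed: Claimed.Agent.R322.Flat.Radial ===== -/
section
/-!
# R322 / Flat / Radial : identification of the constant by a radial test function
(leaves L-Flat-RadKer = `h2_*`, `integral_ker_scale`, `kerC_h2_pos`, `lipschitz_g0`, `tsupport_g0`; L-Flat-RadCmp = `radial_compare`)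

`h2 s = (max (1 - s) 0)²` (`isKer_pow`), `g0 ρ y = h2 (‖y‖²/ρ²)`.
PLANS.
* `integral_ker_scale`: `y = ρ • y'`, `Measure.integral_comp_smul` for the Haar measure `μH[m]` (`finrank = m`).
* `kerC_h2_pos`: the integrand is continuous, `≥ 0`, and `= 1` at `0` (`Continuous.integral_pos_of_hasCompactSupport_nonneg_nonzero`).
* `lipschitz_g0`: `|h2 s - h2 s'| ≤ 2 |s - s'|` for `s, s' ≥ 0`; `g0 ρ y = h2 (min (‖y‖/ρ) 1 ^ 2)` and `t ↦ (min t 1)²` is `2`-Lipschitz.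
* `radial_compare`: `W.kint_one_le` at `p = 0`: `q ρ^m kerC ≤ ∫ h2 (‖X‖²/ρ²) dμ ≤ (q + η) ρ^m kerC`; the integrand vanishes off
  `ball 0 ρ`; on support points of `ball 0 (2ρ)`, `|h2 (‖X‖²/ρ²) - h2 (‖prH X‖²/ρ²)| ≤ 2 ‖prV X‖²/ρ² ≤ 2 σ²/ρ²` (`norm_sq_split`).
-/

set_option autoImplicit false

open scoped ENNReal ContDiff
open MeasureTheory

namespace Claimed.Agent.R322.Flat

variable {m n : ℕ}

/-- the kernel `(1 - s)_+²`. -/
noncomputable def h2 (s : ℝ) : ℝ := (max (1 - s) 0) ^ 2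

theorem isKer_h2 : IsKer h2 := isKer_pow le_rfl

theorem h2_lip {s s' : ℝ} (hs : 0 ≤ s) (hs' : 0 ≤ s') : |h2 s - h2 s'| ≤ 2 * |s - s'| := by
  unfold h2
  set a := max (1 - s) 0 with ha
  set b := max (1 - s') 0 with hb
  have ha0 : 0 ≤ a := le_max_right _ _
  have hb0 : 0 ≤ b := le_max_right _ _
  have ha1 : a ≤ 1 := max_le (by linarith) zero_le_one
  have hb1 : b ≤ 1 := max_le (by linarith) zero_le_one
  have hab : |a - b| ≤ |s - s'| := by
    have := abs_max_sub_max_le_abs (1 - s) (1 - s') 0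
    have e : |1 - s - (1 - s')| = |s - s'| := by
      rw [← abs_neg]; congr 1; ring
    rwa [e] at this
  have e : a ^ 2 - b ^ 2 = (a - b) * (a + b) := by ring
  rw [e, abs_mul, abs_of_nonneg (by linarith : 0 ≤ a + b)]
  nlinarith [abs_nonneg (a - b)]

theorem integral_ker_scale (m : ℕ) {h : ℝ → ℝ} {ρ : ℝ} (hρ : 0 < ρ) :
    ∫ y : E m, h (‖y‖ ^ 2 / ρ ^ 2) ∂μH[(m : ℝ)] = ρ ^ m * kerC m h := by
  have h1 := Measure.integral_comp_smul (μH[(m : ℝ)] : Measure (E m)) (fun y : E m => h (‖y‖ ^ 2)) ρ⁻¹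
  have e : ∀ y : E m, h (‖ρ⁻¹ • y‖ ^ 2) = h (‖y‖ ^ 2 / ρ ^ 2) := by
    intro y
    rw [norm_smul, Real.norm_eq_abs, abs_of_pos (inv_pos.2 hρ)]
    congr 1
    field_simp
  simp only [e] at h1
  rw [h1, finrank_euclideanSpace_fin, inv_pow, inv_inv, abs_of_pos (by positivity), smul_eq_mul]
  rfl

theorem kerC_h2_pos (m : ℕ) : 0 < kerC m h2 := by
  unfold kerC
  have hc : Continuous fun y : E m => h2 (‖y‖ ^ 2) :=
    isKer_h2.smooth.continuous.comp (continuous_norm.pow 2)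
  refine hc.integral_pos_of_hasCompactSupport_nonneg_nonzero (x := 0) ?_ ?_ ?_
  · refine HasCompactSupport.intro (isCompact_closedBall (0 : E m) 1) fun y hy => ?_
    rw [Metric.mem_closedBall, dist_zero_right, not_le] at hy
    exact isKer_h2.zero _ (by nlinarith)
  · intro y
    exact sq_nonneg _
  · simp [h2]

theorem h2_sq_min (t : ℝ) (ht : 0 ≤ t) : h2 (t ^ 2) = h2 ((min t 1) ^ 2) := by
  rcases le_total t 1 with h | h
  · rw [min_eq_left h]
  · rw [min_eq_right h, isKer_h2.zero _ (by nlinarith), isKer_h2.zero _ (by norm_num)]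

theorem lipschitz_g0 (m : ℕ) {ρ : ℝ} (hρ : 0 < ρ) :
    LipschitzWith 1 (fun y : E m => ρ / 4 * h2 (‖y‖ ^ 2 / ρ ^ 2)) := by
  refine LipschitzWith.of_dist_le_mul fun x y => ?_
  rw [NNReal.coe_one, one_mul, Real.dist_eq, ← mul_sub, abs_mul, abs_of_pos (by positivity)]
  have e : ∀ z : E m, h2 (‖z‖ ^ 2 / ρ ^ 2) = h2 ((min (‖z‖ / ρ) 1) ^ 2) := by
    intro z
    rw [← h2_sq_min _ (by positivity), div_pow]
  rw [e, e]
  set a := min (‖x‖ / ρ) 1 with ha
  set b := min (‖y‖ / ρ) 1 with hb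
  have ha0 : 0 ≤ a := le_min (by positivity) zero_le_one
  have hb0 : 0 ≤ b := le_min (by positivity) zero_le_one
  have ha1 : a ≤ 1 := min_le_right _ _
  have hb1 : b ≤ 1 := min_le_right _ _
  have hab : |a - b| ≤ dist x y / ρ := by
    have h1 := abs_min_sub_min_le_max (‖x‖ / ρ) 1 (‖y‖ / ρ) 1
    rw [sub_self, abs_zero, max_eq_left (abs_nonneg _)] at h1
    refine h1.trans ?_
    rw [← sub_div, abs_div, abs_of_pos hρ, dist_eq_norm]
    gcongr
    exact abs_norm_sub_norm_le x y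
  have h1 := h2_lip (sq_nonneg a) (sq_nonneg b)
  have h3 : |a ^ 2 - b ^ 2| ≤ 2 * |a - b| := by
    have e2 : a ^ 2 - b ^ 2 = (a - b) * (a + b) := by ring
    rw [e2, abs_mul, abs_of_nonneg (by linarith : 0 ≤ a + b)]
    nlinarith [abs_nonneg (a - b)]
  calc ρ / 4 * |h2 (a ^ 2) - h2 (b ^ 2)| ≤ ρ / 4 * (2 * (2 * (dist x y / ρ))) := by
        gcongr
        linarith
    _ = dist x y := by field_simp; ring

theorem tsupport_g0 (m : ℕ) {ρ : ℝ} (hρ : 0 < ρ) :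
    tsupport (fun y : E m => ρ / 4 * h2 (‖y‖ ^ 2 / ρ ^ 2)) ⊆ Metric.closedBall 0 ρ := by
  refine closure_minimal ?_ Metric.isClosed_closedBall
  intro y hy
  rw [Metric.mem_closedBall, dist_zero_right]
  by_contra hlt
  rw [not_le] at hlt
  apply hy
  have : 1 ≤ ‖y‖ ^ 2 / ρ ^ 2 := by
    rw [le_div_iff₀ (by positivity)]
    nlinarith
  simp only
  rw [isKer_h2.zero _ this, mul_zero]

theorem h2_abs_le_one {s : ℝ} (hs : 0 ≤ s) : |h2 s| ≤ 1 := by
  unfold h2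
  have h0 : 0 ≤ max (1 - s) 0 := le_max_right _ _
  have h1 : max (1 - s) 0 ≤ 1 := max_le (by linarith) zero_le_one
  rw [abs_of_nonneg (sq_nonneg _)]
  nlinarith

theorem radial_compare (hm : 1 ≤ m) (W : SIV m n) {ρ σ q η : ℝ} (hρ : 0 < ρ) (hσ : 0 ≤ σ)
    (hU : Metric.closedBall 0 (2 * ρ) ⊆ W.U)
    (hh : ∀ X ∈ W.support, ‖X‖ ≤ 2 * ρ → ‖prV m n X‖ ≤ σ)
    (hq : W.Θ 0 = q) (hr : W.ratio 0 ρ ≤ q + η) :
    |(∫ X in Metric.ball 0 (2 * ρ), h2 (‖prH m n X‖ ^ 2 / ρ ^ 2) ∂W.μ) - q * (ρ ^ m * kerC m h2)|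
      ≤ η * (ρ ^ m * kerC m h2) + 2 * (σ / ρ) ^ 2 * (W.μ (Metric.ball 0 (2 * ρ))).toReal := by
  set μ' : Measure (E (m + n)) := W.μ.restrict (Metric.ball 0 (2 * ρ)) with hμ'
  have hfin : IsFiniteMeasure μ' := by
    constructor
    rw [hμ', Measure.restrict_apply_univ]
    exact lt_of_le_of_lt (measure_mono Metric.ball_subset_closedBall)
      (W.locfin _ (isCompact_closedBall _ _) hU)
  have hkC := kerC_h2_pos m
  have hc2 : Continuous h2 := isKer_h2.smooth.continuous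
  have hU' : Metric.closedBall (0 : E (m + n)) ρ ⊆ W.U :=
    (Metric.closedBall_subset_closedBall (by linarith)).trans hU
  obtain ⟨k1, k2⟩ := W.kint_one_le hm hρ hU' isKer_h2
  rw [hq] at k1
  -- the radial integral
  set I₀ : ℝ := ∫ X, h2 (‖X‖ ^ 2 / ρ ^ 2) ∂μ' with hI₀
  have eI : W.kint (fun _ => 1) h2 0 ρ = (ρ ^ m)⁻¹ * I₀ := by
    unfold SIV.kint
    congr 1
    rw [hI₀, hμ', setIntegral_eq_integral_of_forall_compl_eq_zero]
    · simp
    · intro X hX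
      rw [Metric.mem_ball, dist_zero_right, not_lt] at hX
      apply isKer_h2.zero
      rw [le_div_iff₀ (by positivity)]
      nlinarith
  have hρm : 0 < ρ ^ m := by positivity
  rw [eI] at k1 k2
  have b1 : q * (ρ ^ m * kerC m h2) ≤ I₀ := by
    have := mul_le_mul_of_nonneg_left k1 hρm.le
    rw [mul_inv_cancel_left₀ hρm.ne'] at this
    linarith
  have b2 : I₀ ≤ (q + η) * (ρ ^ m * kerC m h2) := by
    have h3 : (ρ ^ m)⁻¹ * I₀ ≤ (q + η) * kerC m h2 :=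
      k2.trans (mul_le_mul_of_nonneg_right hr hkC.le)
    have := mul_le_mul_of_nonneg_left h3 hρm.le
    rw [mul_inv_cancel_left₀ hρm.ne'] at this
    linarith
  have b3 : |I₀ - q * (ρ ^ m * kerC m h2)| ≤ η * (ρ ^ m * kerC m h2) := by
    rw [abs_of_nonneg (by linarith)]
    linarith
  -- comparison
  have i1 : Integrable (fun X => h2 (‖prH m n X‖ ^ 2 / ρ ^ 2)) μ' :=
    Integrable.of_bound (hc2.comp ((((prH m n).continuous.norm).pow 2).div_const _)).aestronglyMeasurable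
      1 (Filter.Eventually.of_forall fun X => h2_abs_le_one (by positivity))
  have i2 : Integrable (fun X : E (m + n) => h2 (‖X‖ ^ 2 / ρ ^ 2)) μ' :=
    Integrable.of_bound (hc2.comp ((continuous_norm.pow 2).div_const _)).aestronglyMeasurable
      1 (Filter.Eventually.of_forall fun X => h2_abs_le_one (by positivity))
  have hae : ∀ᵐ X ∂μ', ‖prV m n X‖ ≤ σ := by
    have h1 : ∀ᵐ X ∂W.μ, X ∈ W.support := by
      rw [ae_iff]
      exact W.μ_compl_support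
    rw [hμ', ae_restrict_iff' Metric.isOpen_ball.measurableSet]
    filter_upwards [h1] with X hX hXb
    rw [Metric.mem_ball, dist_zero_right] at hXb
    exact hh X hX hXb.le
  have b4 : |(∫ X, h2 (‖prH m n X‖ ^ 2 / ρ ^ 2) ∂μ') - I₀|
      ≤ 2 * (σ / ρ) ^ 2 * (W.μ (Metric.ball 0 (2 * ρ))).toReal := by
    rw [hI₀, ← integral_sub i1 i2]
    calc |∫ X, (h2 (‖prH m n X‖ ^ 2 / ρ ^ 2) - h2 (‖X‖ ^ 2 / ρ ^ 2)) ∂μ'|
        ≤ ∫ X, |h2 (‖prH m n X‖ ^ 2 / ρ ^ 2) - h2 (‖X‖ ^ 2 / ρ ^ 2)| ∂μ' :=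
          abs_integral_le_integral_abs
      _ ≤ ∫ _, 2 * (σ / ρ) ^ 2 ∂μ' := by
          refine integral_mono_of_nonneg (Filter.Eventually.of_forall fun X => abs_nonneg _)
            (integrable_const _) ?_
          filter_upwards [hae] with X hX
          refine (h2_lip (by positivity) (by positivity)).trans ?_
          rw [norm_sq_split X, ← sub_div, abs_div, abs_of_pos (by positivity : 0 < ρ ^ 2)]
          have e : ‖prH m n X‖ ^ 2 - (‖prH m n X‖ ^ 2 + ‖prV m n X‖ ^ 2) = -(‖prV m n X‖ ^ 2) := by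
            ring
          rw [e, abs_neg, abs_of_nonneg (sq_nonneg _), div_pow]
          gcongr
      _ = _ := by
          rw [integral_const, smul_eq_mul, mul_comm, Measure.real, hμ', Measure.restrict_apply_univ]
  calc |(∫ X, h2 (‖prH m n X‖ ^ 2 / ρ ^ 2) ∂μ') - q * (ρ ^ m * kerC m h2)|
      ≤ |(∫ X, h2 (‖prH m n X‖ ^ 2 / ρ ^ 2) ∂μ') - I₀| + |I₀ - q * (ρ ^ m * kerC m h2)| :=
        abs_sub_le _ _ _
    _ ≤ _ := by linarith

end Claimed.Agent.R322.Flat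
end

/- ===== packed: Claimed.Agent.R322.Flat.Planar ===== -/
section
/-!
# R322 / Flat / Planar : a flat stationary varifold is weakly close to `q` copies of the plane
(leaves L-Flat-PlanarProj = `planar_proj`; L-Flat-PlanarCore = `planar_core`; L-Flat-PlanarHeight = `planar_of_height_real`)

PLANS.
* `IsFlat.mass_le`: `W.μ_ball_eq`.
* `planar_proj`.  `M₀ = (q₀+1) kap (2ρ)^m` bounds the mass of `ball 0 (2ρ)`, `c₀ = ρ^m kerC m h2 > 0`, `v = kap ρ^m ≥ ∫ |g|`.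
  Choose `d ≤ ρ/4` small, `(k, B)` from `exists_moll`, then `η ≤ min 1 (ρ/4)` small.  Put `θ = ∫_{ball} k (prH X) dμ`, `T = ∫ tl ≤ η`.
  `proj_approx` for `ρ/4 * g0` and `radial_compare` (ratio at `ρ` by `W.ratio_mono`) give
  `|θ - q| c₀ ≤ (4/ρ) d M₀ + B ρ η c₀ + η c₀ + 2 (η/ρ)² M₀`; `proj_approx` for `g` gives
  `|∫ g (prH X) dμ - q ∫ g| ≤ d M₀ + B ρ η v + |θ - q| v`.
* `planar_core`.  `g y = χ (mkHV y 0)` is `1`-Lipschitz (`isometry_mk_zero`), `|g| ≤ 1`, `tsupport g ⊆ closedBall 0 ρ`.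
  `∫ χ dμ = ∫_{ball 0 (2ρ)} χ dμ`; on support points of the ball `|χ X - g (prH X)| ≤ ‖X - mkHV (prH X) 0‖ = ‖prV X‖ ≤ η`.
* `planar_of_height_real`.  `IsFlat W q (2ρ) η` from the height bound in `closedBall 0 (3ρ)`: `caccioppoli` with `r = 2ρ`,
  `W.ratio_mono`, mass bound.
-/

set_option autoImplicit false

open scoped ENNReal ContDiff
open MeasureTheory Filter Topology

namespace Claimed.Agent.R322.Flat

variable {m n : ℕ}

theorem IsFlat.mass_le {W : SIV m n} {q R η : ℝ} (h : IsFlat W q R η) (hR : 0 < R) :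
    (W.μ (Metric.ball 0 R)).toReal ≤ (q + η) * (kap m * R ^ m) := by
  have hk : 0 < kap m * R ^ m := mul_pos (kap_pos m) (pow_pos hR m)
  have h1 := h.ratio
  unfold SIV.ratio at h1
  rwa [div_le_iff₀ hk] at h1

theorem integrableOn_tl (W : SIV m n) {R : ℝ} (hU : Metric.closedBall 0 R ⊆ W.U) :
    IntegrableOn (fun X => tl (W.P X)) (Metric.ball 0 R) W.μ :=
  W.mea_integrableOn hU Metric.isOpen_ball.measurableSet Metric.ball_subset_closedBall
    (measurable_tl W) (C := m) fun X _ => by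
      rw [abs_of_nonneg (tl_nonneg (W.P_proj X))]
      exact tl_le (W.P_proj X)

theorem IsFlat.mono {W : SIV m n} {q R R' η η' : ℝ} (hm : 1 ≤ m) (h : IsFlat W q R η) (hR' : 0 < R')
    (hRR : R' ≤ R) (hη : η ≤ η') : IsFlat W q R' η' := by
  refine ⟨(Metric.closedBall_subset_closedBall hRR).trans h.dom, h.dens, ?_, ?_, ?_⟩
  · linarith [W.ratio_mono hm hR' hRR h.dom, h.ratio]
  · intro X hX hXR
    exact (h.height X hX (hXR.trans hRR)).trans hη
  · refine le_trans ?_ (h.tilt.trans hη)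
    exact setIntegral_mono_set (integrableOn_tl W h.dom)
      (Eventually.of_forall fun X => tl_nonneg (W.P_proj X))
      (Metric.ball_subset_ball hRR).eventuallyLE

/-- smallness of a continuous quantity which vanishes at `0`. -/
theorem eventually_small {f : ℝ → ℝ} (hf : Continuous f) (h0 : f 0 = 0) {e : ℝ} (he : 0 < e) :
    ∀ᶠ η in 𝓝[>] (0 : ℝ), f η ≤ e := by
  have h1 : Tendsto f (𝓝[>] 0) (𝓝 0) := by
    have := (hf.tendsto 0).mono_left (nhdsWithin_le_nhds (s := Set.Ioi (0 : ℝ)))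
    rwa [h0] at this
  exact h1.eventually_le_const he

theorem integral_abs_le_kap {g : E m → ℝ} (hg1 : ∀ y, |g y| ≤ 1) {ρ : ℝ} (hρ : 0 < ρ)
    (hgs : tsupport g ⊆ Metric.closedBall 0 ρ) :
    ∫ y, |g y| ∂μH[(m : ℝ)] ≤ kap m * ρ ^ m := by
  have h1 : ∫ y, |g y| ∂μH[(m : ℝ)] = ∫ y in Metric.closedBall 0 ρ, |g y| ∂μH[(m : ℝ)] := by
    refine (setIntegral_eq_integral_of_forall_compl_eq_zero fun y hy => ?_).symm
    rw [image_eq_zero_of_notMem_tsupport (fun h => hy (hgs h)), abs_zero]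
  rw [h1]
  have h2 := norm_setIntegral_le_of_norm_le_const (μ := (μH[(m : ℝ)] : Measure (E m)))
    (s := Metric.closedBall 0 ρ) (f := fun y => |g y|) (C := 1)
    (by rw [hausdorff_closedBall m 0 hρ]; exact ENNReal.ofReal_lt_top)
    (fun y _ => by rw [Real.norm_eq_abs, abs_abs]; exact hg1 y)
  rw [Measure.real, hausdorff_closedBall m 0 hρ,
    ENNReal.toReal_ofReal (mul_pos (kap_pos m) (pow_pos hρ m)).le, one_mul] at h2
  exact (le_abs_self _).trans h2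

/-- projected form. -/
theorem planar_proj (m n : ℕ) (hm : 1 ≤ m) (q₀ ρ ε : ℝ) (hρ : 0 < ρ) (hε : 0 < ε) :
    ∃ η : ℝ, 0 < η ∧ ∀ (W : SIV m n) (q : ℝ), q ≤ q₀ → IsFlat W q (2 * ρ) η →
      ∀ g : E m → ℝ, (∀ y, |g y| ≤ 1) → LipschitzWith 1 g → tsupport g ⊆ Metric.closedBall 0 ρ →
        |(∫ X in Metric.ball 0 (2 * ρ), g (prH m n X) ∂W.μ) - q * ∫ y, g y ∂μH[(m : ℝ)]| ≤ ε := by
  have hk := kap_pos m
  obtain ⟨M₀, hM₀def⟩ : ∃ M₀ : ℝ, M₀ = (|q₀| + 1) * (kap m * (2 * ρ) ^ m) := ⟨_, rfl⟩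
  have hM₀ : 0 < M₀ := by rw [hM₀def]; positivity
  obtain ⟨c₀, hc₀def⟩ : ∃ c₀ : ℝ, c₀ = ρ ^ m * kerC m h2 := ⟨_, rfl⟩
  have hc₀ : 0 < c₀ := by rw [hc₀def]; exact mul_pos (pow_pos hρ m) (kerC_h2_pos m)
  obtain ⟨v, hvdef⟩ : ∃ v : ℝ, v = kap m * ρ ^ m := ⟨_, rfl⟩
  have hv : 0 < v := by rw [hvdef]; positivity
  obtain ⟨a, hadef⟩ : ∃ a : ℝ, a = ρ / 4 * c₀ := ⟨_, rfl⟩
  have ha : 0 < a := by rw [hadef]; positivity
  obtain ⟨ε₁, hε₁def⟩ : ∃ ε₁ : ℝ, ε₁ = ε / (2 * (v + 1)) := ⟨_, rfl⟩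
  have hε₁ : 0 < ε₁ := by rw [hε₁def]; positivity
  have hε₁v : ε₁ * v ≤ ε / 2 := by
    rw [hε₁def, div_mul_eq_mul_div, div_le_iff₀ (by positivity)]
    nlinarith
  -- choice of `d`
  obtain ⟨d, ⟨⟨hd1, hd2⟩, hd3⟩, hd0⟩ : ∃ d : ℝ, ((d ≤ ρ / 4 ∧ d * M₀ ≤ ε₁ * a / 4) ∧
      d * M₀ ≤ ε / 4) ∧ 0 < d :=
    (((eventually_small continuous_id rfl (by positivity : 0 < ρ / 4)).and
      (eventually_small (f := fun d => d * M₀) (by fun_prop) (by simp)
        (by positivity : 0 < ε₁ * a / 4))).and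
      (eventually_small (f := fun d => d * M₀) (by fun_prop) (by simp)
        (by positivity : 0 < ε / 4)) |>.and self_mem_nhdsWithin).exists
  obtain ⟨k, B, hk1, hk0, hkint, hks, hB⟩ := exists_moll m d hd0
  have hB0 : 0 ≤ B := (norm_nonneg _).trans (hB 0)
  -- choice of `η`
  obtain ⟨η, ⟨⟨⟨⟨⟨⟨he1, he2⟩, he3⟩, he4⟩, he5⟩, he6⟩, he0⟩⟩ : ∃ η : ℝ, ((((((η ≤ 1 ∧ η ≤ ρ / 4) ∧
      B * ρ * η ≤ ε₁ / 4) ∧ η ≤ ε₁ / 4) ∧ ρ / 4 * (2 * (η / ρ) ^ 2 * M₀) ≤ ε₁ * a / 4) ∧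
      B * ρ * η * v ≤ ε / 4) ∧ 0 < η) :=
    ((((((eventually_small continuous_id rfl one_pos).and
      (eventually_small continuous_id rfl (by positivity : 0 < ρ / 4))).and
      (eventually_small (f := fun η => B * ρ * η) (by fun_prop) (by simp)
        (by positivity : 0 < ε₁ / 4))).and
      (eventually_small continuous_id rfl (by positivity : 0 < ε₁ / 4))).and
      (eventually_small (f := fun η => ρ / 4 * (2 * (η / ρ) ^ 2 * M₀)) (by fun_prop) (by simp)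
        (by positivity : 0 < ε₁ * a / 4))).and
      (eventually_small (f := fun η => B * ρ * η * v) (by fun_prop) (by simp)
        (by positivity : 0 < ε / 4)) |>.and self_mem_nhdsWithin).exists
  refine ⟨η, he0, fun W q hq hF g hg1 hgL hgs => ?_⟩
  have h2ρ : 0 < 2 * ρ := by positivity
  have h0U : (0 : E (m + n)) ∈ W.U := hF.dom (Metric.mem_closedBall_self h2ρ.le)
  have hq0 : 0 ≤ q := hF.dens ▸ W.Θ_nonneg hm h0U
  -- mass and tilt
  obtain ⟨mass, hmassdef⟩ : ∃ mass : ℝ, mass = (W.μ (Metric.ball 0 (2 * ρ))).toReal := ⟨_, rfl⟩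
  have hmass0 : 0 ≤ mass := hmassdef ▸ ENNReal.toReal_nonneg
  have hmass : mass ≤ M₀ := by
    rw [hmassdef, hM₀def]
    refine (hF.mass_le h2ρ).trans ?_
    refine mul_le_mul_of_nonneg_right ?_ (by positivity)
    linarith [le_abs_self q₀]
  obtain ⟨T, hTdef⟩ : ∃ T : ℝ, T = ∫ X in Metric.ball 0 (2 * ρ), tl (W.P X) ∂W.μ := ⟨_, rfl⟩
  have hT0 : 0 ≤ T := hTdef ▸ integral_nonneg fun X => tl_nonneg (W.P_proj X)
  have hT : T ≤ η := hTdef ▸ hF.tilt
  obtain ⟨θ, hθdef⟩ : ∃ θ : ℝ, θ = ∫ X in Metric.ball 0 (2 * ρ), k (prH m n X) ∂W.μ := ⟨_, rfl⟩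
  obtain ⟨I₀, hI₀def⟩ : ∃ I₀ : ℝ,
      I₀ = ∫ X in Metric.ball 0 (2 * ρ), h2 (‖prH m n X‖ ^ 2 / ρ ^ 2) ∂W.μ := ⟨_, rfl⟩
  -- the three estimates
  have E1 : |ρ / 4 * I₀ - θ * a| ≤ d * mass + B * ρ * T * a := by
    have := proj_approx W hρ he2 hF.dom hF.height k hk1 hk0 hkint hd0 hd1 hks B hB _
      (lipschitz_g0 m hρ) (tsupport_g0 m hρ)
    have habs : ∀ y : E m, |ρ / 4 * h2 (‖y‖ ^ 2 / ρ ^ 2)| = ρ / 4 * h2 (‖y‖ ^ 2 / ρ ^ 2) :=
      fun y => abs_of_nonneg (mul_nonneg (by positivity) (isKer_h2.nonneg _))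
    simp only [habs] at this
    rw [integral_const_mul, integral_const_mul, integral_ker_scale m hρ, ← hc₀def, ← hadef,
      ← hI₀def, ← hθdef, ← hmassdef, ← hTdef] at this
    exact this
  have E2 : |I₀ - q * c₀| ≤ η * c₀ + 2 * (η / ρ) ^ 2 * mass := by
    have := radial_compare hm W hρ he0.le hF.dom hF.height hF.dens
      ((W.ratio_mono hm hρ (by linarith) hF.dom).trans hF.ratio)
    rw [← hc₀def, ← hI₀def, ← hmassdef] at this
    exact this
  obtain ⟨J, hJdef⟩ : ∃ J : ℝ, J = ∫ y, g y ∂μH[(m : ℝ)] := ⟨_, rfl⟩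
  obtain ⟨J', hJ'def⟩ : ∃ J' : ℝ, J' = ∫ y, |g y| ∂μH[(m : ℝ)] := ⟨_, rfl⟩
  have hJ'0 : 0 ≤ J' := hJ'def ▸ integral_nonneg fun y => abs_nonneg _
  have hJ'v : J' ≤ v := by
    rw [hJ'def, hvdef]
    exact integral_abs_le_kap hg1 hρ hgs
  have hJJ' : |J| ≤ J' := by
    rw [hJdef, hJ'def]
    exact abs_integral_le_integral_abs
  obtain ⟨Ig, hIgdef⟩ : ∃ Ig : ℝ, Ig = ∫ X in Metric.ball 0 (2 * ρ), g (prH m n X) ∂W.μ := ⟨_, rfl⟩
  have E3 : |Ig - θ * J| ≤ d * mass + B * ρ * T * J' := by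
    have := proj_approx W hρ he2 hF.dom hF.height k hk1 hk0 hkint hd0 hd1 hks B hB g hgL hgs
    rw [← hIgdef, ← hθdef, ← hJdef, ← hJ'def, ← hmassdef, ← hTdef] at this
    exact this
  rw [← hIgdef, ← hJdef]
  -- arithmetic
  have hBρ : 0 ≤ B * ρ := mul_nonneg hB0 hρ.le
  have b1 : d * mass ≤ d * M₀ := mul_le_mul_of_nonneg_left hmass hd0.le
  have b2 : B * ρ * T ≤ B * ρ * η := mul_le_mul_of_nonneg_left hT hBρ
  have b3 : B * ρ * T * a ≤ ε₁ / 4 * a := mul_le_mul_of_nonneg_right (b2.trans he3) ha.le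
  have b4 : ρ / 4 * (η * c₀) ≤ ε₁ / 4 * a := by
    have : ρ / 4 * (η * c₀) = η * a := by rw [hadef]; ring
    rw [this]
    exact mul_le_mul_of_nonneg_right he4 ha.le
  have b5 : ρ / 4 * (2 * (η / ρ) ^ 2 * mass) ≤ ρ / 4 * (2 * (η / ρ) ^ 2 * M₀) :=
    mul_le_mul_of_nonneg_left (mul_le_mul_of_nonneg_left hmass (by positivity)) (by positivity)
  have A1 : |θ - q| * a ≤ ε₁ * a := by
    have e1 : (θ - q) * a = -(ρ / 4 * I₀ - θ * a) + ρ / 4 * (I₀ - q * c₀) := by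
      rw [hadef]; ring
    have e2 : |θ - q| * a = |(θ - q) * a| := by rw [abs_mul, abs_of_pos ha]
    rw [e2, e1]
    have e3 : |ρ / 4 * (I₀ - q * c₀)| = ρ / 4 * |I₀ - q * c₀| := by
      rw [abs_mul, abs_of_pos (by positivity : 0 < ρ / 4)]
    have e4 : ρ / 4 * |I₀ - q * c₀| ≤ ρ / 4 * (η * c₀) + ρ / 4 * (2 * (η / ρ) ^ 2 * mass) := by
      rw [← mul_add]
      exact mul_le_mul_of_nonneg_left E2 (by positivity)
    calc |-(ρ / 4 * I₀ - θ * a) + ρ / 4 * (I₀ - q * c₀)|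
        ≤ |-(ρ / 4 * I₀ - θ * a)| + |ρ / 4 * (I₀ - q * c₀)| := abs_add_le _ _
      _ ≤ ε₁ * a := by
        rw [abs_neg, e3]
        linarith
  have A2 : |θ - q| ≤ ε₁ := le_of_mul_le_mul_right A1 ha
  have A3 : |θ - q| * |J| ≤ ε₁ * v :=
    mul_le_mul A2 (hJJ'.trans hJ'v) (abs_nonneg _) hε₁.le
  have b6 : B * ρ * T * J' ≤ B * ρ * η * v :=
    mul_le_mul b2 hJ'v hJ'0 (mul_nonneg hBρ he0.le)
  have e5 : Ig - q * J = (Ig - θ * J) + (θ - q) * J := by ring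
  rw [e5]
  calc |(Ig - θ * J) + (θ - q) * J| ≤ |Ig - θ * J| + |(θ - q) * J| := abs_add_le _ _
    _ ≤ ε := by
      rw [abs_mul]
      linarith

theorem ae_mem_support (W : SIV m n) : ∀ᵐ X ∂W.μ, X ∈ W.support := by
  rw [ae_iff]
  exact W.μ_compl_support

theorem norm_sub_mk_prH (X : E (m + n)) : ‖X - mkHV (prH m n X) 0‖ = ‖prV m n X‖ := by
  have h1 : X - mkHV (prH m n X) 0 = mkHV 0 (prV m n X) := by
    conv_lhs => rw [← mk_prH_prV X]
    rw [prH_mk, ← mk_sub, sub_self, sub_zero]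
  rw [h1]
  have h2 := norm_sq_mk (0 : E m) (prV m n X)
  rw [norm_zero] at h2
  have h3 : ‖mkHV (0 : E m) (prV m n X)‖ ^ 2 = ‖prV m n X‖ ^ 2 := by linarith
  exact (pow_left_inj₀ (norm_nonneg _) (norm_nonneg _) (by norm_num)).1 h3

/-- ambient form. -/
theorem planar_core (m n : ℕ) (hm : 1 ≤ m) (q₀ ρ ε : ℝ) (hρ : 0 < ρ) (hε : 0 < ε) :
    ∃ η : ℝ, 0 < η ∧ ∀ (W : SIV m n) (q : ℝ), q ≤ q₀ → IsFlat W q (2 * ρ) η →
      ∀ χ : E (m + n) → ℝ, (∀ X, |χ X| ≤ 1) → LipschitzWith 1 χ →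
        tsupport χ ⊆ Metric.closedBall 0 ρ →
        |∫ X, χ X ∂W.μ - q * ∫ y : E m, χ (mkHV y 0) ∂μH[(m : ℝ)]| ≤ ε := by
  have hk := kap_pos m
  obtain ⟨η₁, hη₁, H⟩ := planar_proj m n hm q₀ ρ (ε / 2) hρ (by positivity)
  obtain ⟨M₀, hM₀def⟩ : ∃ M₀ : ℝ, M₀ = (|q₀| + 1) * (kap m * (2 * ρ) ^ m) := ⟨_, rfl⟩
  have hM₀ : 0 < M₀ := by rw [hM₀def]; positivity
  obtain ⟨η, ⟨⟨he1, he2⟩, he3⟩, he0⟩ : ∃ η : ℝ, ((η ≤ 1 ∧ η ≤ η₁) ∧ η * M₀ ≤ ε / 2) ∧ 0 < η :=
    (((eventually_small continuous_id rfl one_pos).and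
      (eventually_small continuous_id rfl hη₁)).and
      (eventually_small (f := fun d => d * M₀) (by fun_prop) (by simp)
        (by positivity : 0 < ε / 2)) |>.and self_mem_nhdsWithin).exists
  refine ⟨η, he0, fun W q hq hF χ hχ1 hχL hχs => ?_⟩
  have h2ρ : 0 < 2 * ρ := by positivity
  have hF₁ : IsFlat W q (2 * ρ) η₁ := hF.mono hm h2ρ le_rfl he2
  have hfin : W.μ (Metric.ball 0 (2 * ρ)) < ⊤ := W.rat_ball_lt_top hF.dom
  have hmass : (W.μ (Metric.ball 0 (2 * ρ))).toReal ≤ M₀ := by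
    rw [hM₀def]
    refine (hF.mass_le h2ρ).trans ?_
    refine mul_le_mul_of_nonneg_right ?_ (by positivity)
    linarith [le_abs_self q₀]
  -- the projected test function
  have hgL : LipschitzWith 1 (fun y : E m => χ (mkHV y (0 : E n))) := by
    have := hχL.comp (isometry_mk_zero (m := m) (n := n)).lipschitz
    rw [one_mul] at this
    exact this
  have hgs : tsupport (fun y : E m => χ (mkHV y (0 : E n))) ⊆ Metric.closedBall 0 ρ := by
    refine closure_minimal (fun y hy => ?_) Metric.isClosed_closedBall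
    have h1 : mkHV y (0 : E n) ∈ tsupport χ := subset_tsupport _ hy
    have h2 := hχs h1
    rw [mem_closedBall_zero_iff, norm_mk_zero] at h2
    rwa [mem_closedBall_zero_iff]
  have h1 := H W q hq hF₁ (fun y => χ (mkHV y 0)) (fun y => hχ1 _) hgL hgs
  -- comparison of the two integrals
  have h2 : ∫ X, χ X ∂W.μ = ∫ X in Metric.ball 0 (2 * ρ), χ X ∂W.μ := by
    refine (setIntegral_eq_integral_of_forall_compl_eq_zero fun X hX => ?_).symm
    refine image_eq_zero_of_notMem_tsupport fun h => hX ?_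
    exact Metric.closedBall_subset_ball (by linarith) (hχs h)
  have hi1 : IntegrableOn χ (Metric.ball 0 (2 * ρ)) W.μ :=
    W.mea_integrableOn hF.dom Metric.isOpen_ball.measurableSet Metric.ball_subset_closedBall
      hχL.continuous.measurable (C := 1) fun X _ => hχ1 X
  have hi2 : IntegrableOn (fun X => χ (mkHV (prH m n X) 0)) (Metric.ball 0 (2 * ρ)) W.μ :=
    W.mea_integrableOn hF.dom Metric.isOpen_ball.measurableSet Metric.ball_subset_closedBall
      (hgL.continuous.comp (prH m n).continuous).measurable (C := 1) fun X _ => hχ1 _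
  have h3 : |(∫ X in Metric.ball 0 (2 * ρ), χ X ∂W.μ)
      - ∫ X in Metric.ball 0 (2 * ρ), χ (mkHV (prH m n X) 0) ∂W.μ| ≤ η * M₀ := by
    rw [← integral_sub hi1 hi2]
    have h4 := norm_setIntegral_le_of_norm_le_const_ae' (μ := W.μ) (s := Metric.ball 0 (2 * ρ))
      (f := fun X => χ X - χ (mkHV (prH m n X) 0)) (C := η) hfin (by
        filter_upwards [ae_mem_support W] with X hX hXB
        rw [← dist_eq_norm]
        refine (hχL.dist_le_mul _ _).trans ?_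
        rw [NNReal.coe_one, one_mul, dist_eq_norm, norm_sub_mk_prH]
        exact hF.height X hX (mem_ball_zero_iff.1 hXB).le)
    rw [Real.norm_eq_abs] at h4
    exact h4.trans (mul_le_mul_of_nonneg_left hmass he0.le)
  rw [h2]
  have e5 : ∀ a b c : ℝ, a - c = (a - b) + (b - c) := fun a b c => by ring
  rw [e5 _ (∫ X in Metric.ball 0 (2 * ρ), χ (mkHV (prH m n X) 0) ∂W.μ) _]
  refine (abs_add_le _ _).trans ?_
  linarith

/-- **Small height and pinched mass ratio imply weak closeness to `q` planes** (real density `q`;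
`Freq.planar_of_height` is the case `ρ = 1000`, `q = q₀ = Q`). -/
theorem planar_of_height_real (m n : ℕ) (hm : 1 ≤ m) (q₀ ρ ε : ℝ) (hρ : 0 < ρ) (hε : 0 < ε) :
    ∃ η₁ : ℝ, 0 < η₁ ∧ ∀ (W : SIV m n) (q : ℝ), q ≤ q₀ → Metric.closedBall 0 (3 * ρ) ⊆ W.U →
      W.Θ 0 = q → W.ratio 0 (3 * ρ) ≤ q + η₁ →
      (∀ X ∈ W.support, ‖X‖ ≤ 3 * ρ → ‖prV m n X‖ ≤ η₁) →
      ∀ χ : E (m + n) → ℝ, (∀ X, |χ X| ≤ 1) → LipschitzWith 1 χ →
        tsupport χ ⊆ Metric.closedBall 0 ρ →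
        |∫ X, χ X ∂W.μ - q * ∫ y : E m, χ (mkHV y 0) ∂μH[(m : ℝ)]| ≤ ε := by
  have hk := kap_pos m
  obtain ⟨η, hη, H⟩ := planar_core m n hm q₀ ρ ε hρ hε
  obtain ⟨C, hC, HC⟩ := caccioppoli m n
  obtain ⟨M₀, hM₀def⟩ : ∃ M₀ : ℝ, M₀ = (|q₀| + 1) * (kap m * (3 * ρ) ^ m) := ⟨_, rfl⟩
  have hM₀ : 0 < M₀ := by rw [hM₀def]; positivity
  obtain ⟨η₁, ⟨⟨he1, he2⟩, he3⟩, he0⟩ : ∃ η₁ : ℝ, ((η₁ ≤ 1 ∧ η₁ ≤ η) ∧
      C * (η₁ / (2 * ρ)) ^ 2 * M₀ ≤ η) ∧ 0 < η₁ :=
    (((eventually_small continuous_id rfl one_pos).and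
      (eventually_small continuous_id rfl hη)).and
      (eventually_small (f := fun d => C * (d / (2 * ρ)) ^ 2 * M₀) (by fun_prop) (by simp) hη)
      |>.and self_mem_nhdsWithin).exists
  refine ⟨η₁, he0, fun W q hq hU hΘ hr hh χ hχ1 hχL hχs => ?_⟩
  have h2ρ : 0 < 2 * ρ := by positivity
  have h3ρ : 0 < 3 * ρ := by positivity
  have h23 : 2 * ρ ≤ 3 * ρ := by linarith
  have e3 : 3 * (2 * ρ) / 2 = 3 * ρ := by ring
  have hmass : (W.μ (Metric.ball 0 (3 * ρ))).toReal ≤ M₀ := by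
    have hk3 : 0 < kap m * (3 * ρ) ^ m := by positivity
    have h1 := hr
    unfold SIV.ratio at h1
    rw [div_le_iff₀ hk3] at h1
    rw [hM₀def]
    refine h1.trans (mul_le_mul_of_nonneg_right ?_ hk3.le)
    linarith [le_abs_self q₀]
  refine H W q hq ⟨(Metric.closedBall_subset_closedBall h23).trans hU, hΘ, ?_, ?_, ?_⟩ χ hχ1 hχL hχs
  · linarith [W.ratio_mono hm h2ρ h23 hU]
  · intro X hX hXR
    exact (hh X hX (hXR.trans h23)).trans he2
  · have h1 := HC W (2 * ρ) η₁ h2ρ he0.le (by rwa [e3]) (by rwa [e3])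
    rw [e3] at h1
    refine h1.trans (le_trans ?_ he3)
    exact mul_le_mul_of_nonneg_left hmass (by positivity)

end Claimed.Agent.R322.Flat
end

/- ===== packed: Claimed.Agent.R322.Flat.Pinch ===== -/
section
/-!
# R322 / Flat / Pinch : the mass ratio is pinched near a point at all comparable scales   (leaf L-Flat-Pinch)

PLAN.  Let `q = Θ x ≥ 0`.  Choose `Λ' ≥ Λ` with `(1 + 1/Λ')^m (q + ε/2) ≤ q + ε` (`(1 + 1/Λ')^m → 1`), then `r₁` with
`closedBall x r₁ ⊆ U` and `ratio x r ≤ q + ε/2` for `0 < r ≤ r₁` (`W.tendsto_ratio`), and `r₀ = r₁ / (Λ' + 1)`.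
For `‖p - x‖ ≤ l ≤ r₀`: `closedBall p (Λ l) ⊆ closedBall p (Λ' l) ⊆ closedBall x ((Λ'+1) l) ⊆ U`,
`ratio p (Λ l) ≤ ratio p (Λ' l)` (`W.ratio_mono`) `≤ (1 + l/(Λ' l))^m ratio x (Λ' l + l)` (`W.ratio_le_of_dist`).
-/

set_option autoImplicit false

open scoped ENNReal
open MeasureTheory

namespace Claimed.Agent.R322.Flat

variable {m n : ℕ}

theorem pinch (hm : 1 ≤ m) (W : SIV m n) {x : E (m + n)} (hx : x ∈ W.U) (Λ ε : ℝ) (hΛ : 0 < Λ)
    (hε : 0 < ε) :
    ∃ r₀ : ℝ, 0 < r₀ ∧ ∀ l : ℝ, 0 < l → l ≤ r₀ → ∀ p : E (m + n), ‖p - x‖ ≤ l →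
      Metric.closedBall p (Λ * l) ⊆ W.U ∧ W.ratio p (Λ * l) ≤ W.Θ x + ε := by
  set q := W.Θ x with hq
  have hq0 : 0 ≤ q := W.Θ_nonneg hm hx
  -- choice of `Λ'`
  have ht : Filter.Tendsto (fun t : ℝ => (1 + 1 / t) ^ m * (q + ε / 2)) Filter.atTop
      (nhds ((1 + 0) ^ m * (q + ε / 2))) := by
    refine Filter.Tendsto.mul_const _ (Filter.Tendsto.pow ?_ m)
    refine tendsto_const_nhds.add ?_
    have e : (fun t : ℝ => 1 / t) = fun t => t⁻¹ := by funext t; rw [one_div]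
    change Filter.Tendsto (fun t : ℝ => 1 / t) _ _
    rw [e]
    exact tendsto_inv_atTop_zero (𝕜 := ℝ)
  have hlt : (1 + 0 : ℝ) ^ m * (q + ε / 2) < q + ε := by
    simp; linarith
  obtain ⟨Λ', hΛ'1, hΛ'2⟩ := ((ht.eventually (gt_mem_nhds hlt)).and
    (Filter.eventually_ge_atTop Λ)).exists
  have hΛ'0 : 0 < Λ' := lt_of_lt_of_le hΛ hΛ'2
  -- choice of `r₁`
  obtain ⟨R, hR0, hR⟩ := W.rat_exists_closedBall hx
  have hev : ∀ᶠ r in nhdsWithin (0 : ℝ) (Set.Ioi 0), W.ratio x r < q + ε / 2 :=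
    (W.tendsto_ratio hm hx).eventually (gt_mem_nhds (by linarith))
  obtain ⟨u, hu0, hu⟩ := mem_nhdsGT_iff_exists_Ioo_subset.1 hev
  have hu0' : (0 : ℝ) < u := hu0
  set r₁ := min R (u / 2) with hr₁
  have hr₁0 : 0 < r₁ := lt_min hR0 (by linarith)
  refine ⟨r₁ / (Λ' + 1), by positivity, fun l hl hlr p hp => ?_⟩
  have h1 : Λ' * l + l ≤ r₁ := by
    rw [le_div_iff₀ (by positivity)] at hlr
    nlinarith
  have hsub2 : Metric.closedBall x (Λ' * l + l) ⊆ W.U :=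
    (Metric.closedBall_subset_closedBall (h1.trans (min_le_left _ _))).trans hR
  have hd : dist p x ≤ l := by rw [dist_eq_norm]; exact hp
  have hsub1 : Metric.closedBall p (Λ' * l) ⊆ W.U :=
    (Metric.closedBall_subset_closedBall' (by linarith)).trans hsub2
  have hΛl : Λ * l ≤ Λ' * l := mul_le_mul_of_nonneg_right hΛ'2 hl.le
  refine ⟨(Metric.closedBall_subset_closedBall hΛl).trans hsub1, ?_⟩
  have e1 := W.ratio_mono hm (p := p) (mul_pos hΛ hl) hΛl hsub1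
  have e2 := W.ratio_le_of_dist (p := x) (q := p) (r := Λ' * l) (δ := l) (mul_pos hΛ'0 hl) hd hsub2
  have e3 : W.ratio x (Λ' * l + l) ≤ q + ε / 2 := by
    have : Λ' * l + l ∈ Set.Ioo 0 u := by
      refine ⟨by positivity, ?_⟩
      have := min_le_right R (u / 2)
      linarith
    exact (hu this).le
  have e4 : l / (Λ' * l) = 1 / Λ' := by
    field_simp
  rw [e4] at e2
  calc W.ratio p (Λ * l) ≤ W.ratio p (Λ' * l) := e1
    _ ≤ (1 + 1 / Λ') ^ m * W.ratio x (Λ' * l + l) := e2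
    _ ≤ (1 + 1 / Λ') ^ m * (q + ε / 2) := mul_le_mul_of_nonneg_left e3 (by positivity)
    _ ≤ q + ε := hΛ'1.le

end Claimed.Agent.R322.Flat
end

/- ===== packed: Claimed.Agent.R322.Flat.Tilt ===== -/
section
/-!
# R322 / Flat / Tilt : pinching at `m + 1` centres forces small tilt and small height
(leaves L-Flat-Centre = `int_centre_le`; L-Flat-TiltPinch = `tilt_of_pinch`; L-Flat-HeightL2 = `int_height_le`;
 L-Flat-HeightSup = `sup_height_le`; L-Flat-HeightPinch = `height_of_pinch`)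

`W.nsq p X = |(1 - P_X)(X - p)|²` (`Base/Mono/Radial.lean`), `W.defect : ∫_{B_s(p)} nsq p ≤ s^{m+2} kap (ratio p s - Θ p)`.
PLANS.
* `int_centre_le`: `(1-P) z = (1-P)(X - 0) - (1-P)(X - z)`, so `|z - P z|² ≤ 2 nsq 0 X + 2 nsq z X`; `ball 0 R ⊆ ball 0 (R+1) ∩
  ball z (R+1)`; all integrands are measurable, bounded on bounded sets, the balls have finite mass (`W.mea_integrableOn`).
* `tilt_of_pinch`: `|(1-P)(y_i,0)|² ≤ 2 |(1-P) z_i|² + 2 |z_i - (y_i,0)|²` (`‖1 - P‖ ≤ 1`), `int_centre_le`, `W.defect` at `0` and at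
  `z_i` with `s = R + 1` (`closedBall (z i) (R+1) ⊆ closedBall 0 (R+2)`), `μ (ball 0 R) ≤ q₀ kap (R+1)^m` (`W.μ_ball_eq`), `tl_le_sum`.
  `C = m³/δ² · kap (R+1)^m (8 (R+1)² + 2 q₀)` works.
* `int_height_le`: `prV X = prV ((1-P) X) + prV (P X)`, `norm_prV_le`, `norm_sq_prV_le`.
* `sup_height_le`: `W.mean_value` with `u = ‖prV ·‖²`, `c = 0`, `O = univ`, `tlap_height`, `tl_nonneg`.
* `height_of_pinch`: `sup_height_le` on `ball X (R/2) ⊆ ball 0 R`, `int_height_le`, `W.defect`, `tilt_of_pinch`.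
-/

set_option autoImplicit false

open scoped ENNReal
open MeasureTheory

namespace Claimed.Agent.R322.Flat

variable {m n : ℕ}

theorem til_intOn_nsq (W : SIV m n) {p : E (m + n)} {s : ℝ} (hs : Metric.closedBall p s ⊆ W.U)
    {A : Set (E (m + n))} (hA : MeasurableSet A) (hAs : A ⊆ Metric.closedBall p s) :
    IntegrableOn (W.nsq p) A W.μ := by
  refine W.mea_integrableOn hs hA hAs (W.measurable_nsq p) (C := s ^ 2) fun x hx => ?_
  rw [abs_of_nonneg (W.nsq_nonneg p x)]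
  refine (W.nsq_le p x).trans ?_
  have := hAs hx
  rw [Metric.mem_closedBall, dist_eq_norm] at this
  exact pow_le_pow_left₀ (norm_nonneg _) this 2

theorem til_intOn_sub (W : SIV m n) {p : E (m + n)} {s : ℝ} (hs : Metric.closedBall p s ⊆ W.U)
    {A : Set (E (m + n))} (hA : MeasurableSet A) (hAs : A ⊆ Metric.closedBall p s) (z : E (m + n)) :
    IntegrableOn (fun X => ‖z - W.P X z‖ ^ 2) A W.μ := by
  refine W.mea_integrableOn hs hA hAs ?_ (C := ‖z‖ ^ 2) fun x _ => ?_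
  · exact ((measurable_const.sub (W.measurable_P_apply measurable_const)).norm).pow_const 2
  · rw [abs_of_nonneg (sq_nonneg _)]
    exact pow_le_pow_left₀ (norm_nonneg _) ((W.P_proj x).norm_sub_apply_le z) 2

theorem til_intOn_tl (W : SIV m n) {p : E (m + n)} {s : ℝ} (hs : Metric.closedBall p s ⊆ W.U)
    {A : Set (E (m + n))} (hA : MeasurableSet A) (hAs : A ⊆ Metric.closedBall p s) :
    IntegrableOn (fun X => tl (W.P X)) A W.μ := by
  refine W.mea_integrableOn hs hA hAs (measurable_tl W) (C := m) fun x _ => ?_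
  rw [abs_of_nonneg (tl_nonneg (W.P_proj x))]
  exact tl_le (W.P_proj x)

theorem til_norm_sq_sub_le {F : Type*} [SeminormedAddCommGroup F] (a b : F) :
    ‖a - b‖ ^ 2 ≤ 2 * ‖a‖ ^ 2 + 2 * ‖b‖ ^ 2 := by
  have h := norm_sub_le a b
  have h2 : ‖a - b‖ ^ 2 ≤ (‖a‖ + ‖b‖) ^ 2 := pow_le_pow_left₀ (norm_nonneg _) h 2
  nlinarith [sq_nonneg (‖a‖ - ‖b‖)]

theorem til_norm_sq_add_le {F : Type*} [SeminormedAddCommGroup F] (a b : F) :
    ‖a + b‖ ^ 2 ≤ 2 * ‖a‖ ^ 2 + 2 * ‖b‖ ^ 2 := by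
  have h := norm_add_le a b
  have h2 : ‖a + b‖ ^ 2 ≤ (‖a‖ + ‖b‖) ^ 2 := pow_le_pow_left₀ (norm_nonneg _) h 2
  nlinarith [sq_nonneg (‖a‖ - ‖b‖)]

theorem til_closedBall_sub {R : ℝ} {z : E (m + n)} (hz : ‖z‖ ≤ 1) :
    Metric.closedBall z (R + 1) ⊆ Metric.closedBall 0 (R + 2) := by
  refine Metric.closedBall_subset_closedBall' ?_
  rw [dist_zero_right]; linarith

theorem til_ball_sub {R : ℝ} {z : E (m + n)} (hz : ‖z‖ ≤ 1) :
    Metric.ball (0 : E (m + n)) R ⊆ Metric.ball z (R + 1) := by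
  refine Metric.ball_subset_ball' ?_
  rw [dist_zero_left]; linarith

theorem int_centre_le (W : SIV m n) {R : ℝ} (hR : 0 < R) (hU : Metric.closedBall 0 (R + 2) ⊆ W.U)
    (z : E (m + n)) (hz : ‖z‖ ≤ 1) :
    ∫ X in Metric.ball 0 R, ‖z - W.P X z‖ ^ 2 ∂W.μ
      ≤ 2 * (∫ X in Metric.ball 0 (R + 1), W.nsq 0 X ∂W.μ)
        + 2 * ∫ X in Metric.ball z (R + 1), W.nsq z X ∂W.μ := by
  have hU0 : Metric.closedBall (0 : E (m + n)) (R + 1) ⊆ W.U :=
    (Metric.closedBall_subset_closedBall (by linarith)).trans hU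
  have hUz : Metric.closedBall z (R + 1) ⊆ W.U := (til_closedBall_sub hz).trans hU
  have hs0 : Metric.ball (0 : E (m + n)) R ⊆ Metric.ball 0 (R + 1) :=
    Metric.ball_subset_ball (by linarith)
  have hsz : Metric.ball (0 : E (m + n)) R ⊆ Metric.ball z (R + 1) := til_ball_sub hz
  have i0 : IntegrableOn (W.nsq 0) (Metric.ball 0 (R + 1)) W.μ :=
    til_intOn_nsq W hU0 measurableSet_ball Metric.ball_subset_closedBall
  have iz : IntegrableOn (W.nsq z) (Metric.ball z (R + 1)) W.μ :=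
    til_intOn_nsq W hUz measurableSet_ball Metric.ball_subset_closedBall
  have i0' : IntegrableOn (W.nsq 0) (Metric.ball 0 R) W.μ := i0.mono_set hs0
  have iz' : IntegrableOn (W.nsq z) (Metric.ball 0 R) W.μ := iz.mono_set hsz
  have il : IntegrableOn (fun X => ‖z - W.P X z‖ ^ 2) (Metric.ball 0 R) W.μ :=
    til_intOn_sub W hU0 measurableSet_ball (hs0.trans Metric.ball_subset_closedBall) z
  have hpt : ∀ X, ‖z - W.P X z‖ ^ 2 ≤ 2 * W.nsq 0 X + 2 * W.nsq z X := by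
    intro X
    have e : z - W.P X z = ((X - 0) - W.P X (X - 0)) - ((X - z) - W.P X (X - z)) := by
      simp only [map_sub, sub_zero]; abel
    rw [e]
    exact til_norm_sq_sub_le _ _
  calc ∫ X in Metric.ball 0 R, ‖z - W.P X z‖ ^ 2 ∂W.μ
      ≤ ∫ X in Metric.ball 0 R, (2 * W.nsq 0 X + 2 * W.nsq z X) ∂W.μ :=
        integral_mono il ((i0'.const_mul 2).add (iz'.const_mul 2)) hpt
    _ = 2 * (∫ X in Metric.ball 0 R, W.nsq 0 X ∂W.μ) + 2 * ∫ X in Metric.ball 0 R, W.nsq z X ∂W.μ := by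
        rw [integral_add (i0'.const_mul 2) (iz'.const_mul 2), integral_const_mul, integral_const_mul]
    _ ≤ _ := by
        have a0 := setIntegral_mono_set i0 (Filter.Eventually.of_forall fun X => W.nsq_nonneg 0 X)
          hs0.eventuallyLE
        have az := setIntegral_mono_set iz (Filter.Eventually.of_forall fun X => W.nsq_nonneg z X)
          hsz.eventuallyLE
        linarith

theorem tilt_of_pinch (m n : ℕ) (hm : 1 ≤ m) (δ R q₀ : ℝ) (hδ : 0 < δ) (hR : 0 < R) (hq₀ : 0 ≤ q₀) :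
    ∃ C : ℝ, 0 < C ∧ ∀ (W : SIV m n) (y : Fin m → E m) (z : Fin m → E (m + n)) (η : ℝ), 0 ≤ η →
      Haus.QInd δ y → (∀ i, ‖z i‖ ≤ 1) → (∀ i, ‖z i - mkHV (y i) 0‖ ^ 2 ≤ η) →
      Metric.closedBall 0 (R + 2) ⊆ W.U → W.ratio 0 (R + 1) ≤ q₀ →
      W.ratio 0 (R + 1) - W.Θ 0 ≤ η → (∀ i, W.ratio (z i) (R + 1) - W.Θ (z i) ≤ η) →
      ∫ X in Metric.ball 0 R, tl (W.P X) ∂W.μ ≤ C * η := by
  have hk := kap_pos m
  have hm' : (0 : ℝ) < m := by exact_mod_cast hm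
  refine ⟨(m : ℝ) ^ 3 / δ ^ 2 * (kap m * (R + 1) ^ m * (8 * (R + 1) ^ 2 + 2 * q₀)), by positivity,
    fun W y z η hη hy hz hzy hU hq h0 hzi => ?_⟩
  have hU0 : Metric.closedBall (0 : E (m + n)) (R + 1) ⊆ W.U :=
    (Metric.closedBall_subset_closedBall (by linarith)).trans hU
  have hs0 : Metric.ball (0 : E (m + n)) R ⊆ Metric.ball 0 (R + 1) :=
    Metric.ball_subset_ball (by linarith)
  have hsc : Metric.ball (0 : E (m + n)) R ⊆ Metric.closedBall 0 (R + 1) :=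
    hs0.trans Metric.ball_subset_closedBall
  have hR1 : 0 < R + 1 := by linarith
  -- pointwise bound
  have hpt : ∀ X, tl (W.P X) ≤ (m : ℝ) ^ 2 / δ ^ 2 * ∑ i, (2 * ‖z i - W.P X (z i)‖ ^ 2 + 2 * η) := by
    intro X
    refine (tl_le_sum (W.P_proj X) y hδ hy).trans ?_
    refine mul_le_mul_of_nonneg_left (Finset.sum_le_sum fun i _ => ?_) (by positivity)
    have e : mkHV (y i) (0 : E n) - W.P X (mkHV (y i) 0)
        = (z i - W.P X (z i)) - ((z i - mkHV (y i) 0) - W.P X (z i - mkHV (y i) 0)) := by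
      simp only [map_sub]; abel
    rw [e]
    refine (til_norm_sq_sub_le _ _).trans ?_
    have h1 : ‖(z i - mkHV (y i) 0) - W.P X (z i - mkHV (y i) 0)‖ ^ 2 ≤ η :=
      (pow_le_pow_left₀ (norm_nonneg _) ((W.P_proj X).norm_sub_apply_le _) 2).trans (hzy i)
    linarith
  have il : ∀ i, IntegrableOn (fun X => ‖z i - W.P X (z i)‖ ^ 2) (Metric.ball 0 R) W.μ := fun i =>
    til_intOn_sub W hU0 measurableSet_ball hsc (z i)
  have itl : IntegrableOn (fun X => tl (W.P X)) (Metric.ball 0 R) W.μ :=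
    til_intOn_tl W hU0 measurableSet_ball hsc
  have hfin : W.μ (Metric.ball 0 R) < ⊤ :=
    lt_of_le_of_lt (measure_mono hs0) (W.rat_ball_lt_top hU0)
  have ic : IntegrableOn (fun _ : E (m + n) => 2 * η) (Metric.ball 0 R) W.μ :=
    integrableOn_const hfin.ne
  have isum : ∀ i, IntegrableOn (fun X => 2 * ‖z i - W.P X (z i)‖ ^ 2 + 2 * η) (Metric.ball 0 R) W.μ :=
    fun i => ((il i).const_mul 2).add ic
  -- mass of the ball
  have hmass : (W.μ (Metric.ball 0 R)).toReal ≤ q₀ * (kap m * (R + 1) ^ m) := by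
    have h1 : (W.μ (Metric.ball 0 R)).toReal ≤ (W.μ (Metric.ball 0 (R + 1))).toReal :=
      ENNReal.toReal_mono (W.rat_ball_lt_top hU0).ne (measure_mono hs0)
    rw [W.μ_ball_eq hR1 hU0, ENNReal.toReal_ofReal
      (mul_nonneg (W.ratio_nonneg 0 hR1.le) (by positivity))] at h1
    exact h1.trans (mul_le_mul_of_nonneg_right hq (by positivity))
  -- centres
  have hcen : ∀ i, ∫ X in Metric.ball 0 R, ‖z i - W.P X (z i)‖ ^ 2 ∂W.μ
      ≤ 4 * ((R + 1) ^ (m + 2) * kap m * η) := by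
    intro i
    have a := int_centre_le W hR hU (z i) (hz i)
    have b0 := W.defect hm hR1 hU0
    have bz := W.defect hm hR1 ((til_closedBall_sub (hz i)).trans hU)
    have c0 : (R + 1) ^ (m + 2) * kap m * (W.ratio 0 (R + 1) - W.Θ 0)
        ≤ (R + 1) ^ (m + 2) * kap m * η := mul_le_mul_of_nonneg_left h0 (by positivity)
    have cz : (R + 1) ^ (m + 2) * kap m * (W.ratio (z i) (R + 1) - W.Θ (z i))
        ≤ (R + 1) ^ (m + 2) * kap m * η := mul_le_mul_of_nonneg_left (hzi i) (by positivity)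
    linarith
  calc ∫ X in Metric.ball 0 R, tl (W.P X) ∂W.μ
      ≤ ∫ X in Metric.ball 0 R,
          (m : ℝ) ^ 2 / δ ^ 2 * ∑ i, (2 * ‖z i - W.P X (z i)‖ ^ 2 + 2 * η) ∂W.μ :=
        integral_mono itl ((integrable_finsetSum _ fun i _ => isum i).const_mul _) hpt
    _ = (m : ℝ) ^ 2 / δ ^ 2 * ∑ i, (2 * (∫ X in Metric.ball 0 R, ‖z i - W.P X (z i)‖ ^ 2 ∂W.μ)
          + 2 * η * (W.μ (Metric.ball 0 R)).toReal) := by
        rw [integral_const_mul, integral_finsetSum _ fun i _ => isum i]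
        congr 1
        refine Finset.sum_congr rfl fun i _ => ?_
        rw [integral_add ((il i).const_mul 2) ic, integral_const_mul, setIntegral_const]
        simp [Measure.real, mul_comm]
    _ ≤ (m : ℝ) ^ 2 / δ ^ 2 * ∑ _i : Fin m, (2 * (4 * ((R + 1) ^ (m + 2) * kap m * η))
          + 2 * η * (q₀ * (kap m * (R + 1) ^ m))) := by
        refine mul_le_mul_of_nonneg_left (Finset.sum_le_sum fun i _ => ?_) (by positivity)
        have := mul_le_mul_of_nonneg_left hmass (by positivity : 0 ≤ 2 * η)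
        have := hcen i
        linarith
    _ = _ := by
        simp only [Finset.sum_const, Finset.card_univ, Fintype.card_fin, nsmul_eq_mul]
        ring

theorem int_height_le (W : SIV m n) {R : ℝ} (hR : 0 < R) (hU : Metric.closedBall 0 R ⊆ W.U) :
    ∫ X in Metric.ball 0 R, ‖prV m n X‖ ^ 2 ∂W.μ
      ≤ 2 * (∫ X in Metric.ball 0 R, W.nsq 0 X ∂W.μ)
        + 2 * R ^ 2 * ∫ X in Metric.ball 0 R, tl (W.P X) ∂W.μ := by
  have i0 : IntegrableOn (W.nsq 0) (Metric.ball 0 R) W.μ :=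
    til_intOn_nsq W hU measurableSet_ball Metric.ball_subset_closedBall
  have itl : IntegrableOn (fun X => tl (W.P X)) (Metric.ball 0 R) W.μ :=
    til_intOn_tl W hU measurableSet_ball Metric.ball_subset_closedBall
  have ih : IntegrableOn (fun X => ‖prV m n X‖ ^ 2) (Metric.ball 0 R) W.μ := by
    refine W.mea_integrableOn hU measurableSet_ball Metric.ball_subset_closedBall
      ((prV m n).continuous.measurable.norm.pow_const 2) (C := R ^ 2) fun x hx => ?_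
    rw [abs_of_nonneg (sq_nonneg _)]
    rw [Metric.mem_ball, dist_zero_right] at hx
    exact pow_le_pow_left₀ (norm_nonneg _) ((norm_prV_le x).trans hx.le) 2
  have hpt : ∀ X ∈ Metric.ball (0 : E (m + n)) R,
      ‖prV m n X‖ ^ 2 ≤ 2 * W.nsq 0 X + 2 * R ^ 2 * tl (W.P X) := by
    intro X hX
    rw [Metric.mem_ball, dist_zero_right] at hX
    have e : prV m n X = prV m n (X - W.P X X) + prV m n (W.P X X) := by
      rw [← map_add]; simp
    have h1 : ‖prV m n (X - W.P X X)‖ ^ 2 ≤ W.nsq 0 X := by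
      have : W.nsq 0 X = ‖X - W.P X X‖ ^ 2 := by simp [SIV.nsq]
      rw [this]
      exact pow_le_pow_left₀ (norm_nonneg _) (norm_prV_le _) 2
    have h2 : ‖prV m n (W.P X X)‖ ^ 2 ≤ R ^ 2 * tl (W.P X) := by
      refine (norm_sq_prV_le (W.P_proj X) X).trans ?_
      rw [mul_comm]
      exact mul_le_mul_of_nonneg_right (pow_le_pow_left₀ (norm_nonneg _) hX.le 2)
        (tl_nonneg (W.P_proj X))
    rw [e]
    refine (til_norm_sq_add_le _ _).trans ?_
    linarith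
  calc ∫ X in Metric.ball 0 R, ‖prV m n X‖ ^ 2 ∂W.μ
      ≤ ∫ X in Metric.ball 0 R, (2 * W.nsq 0 X + 2 * R ^ 2 * tl (W.P X)) ∂W.μ :=
        setIntegral_mono_on ih (show IntegrableOn (fun X => 2 * W.nsq 0 X + 2 * R ^ 2 * tl (W.P X))
          (Metric.ball 0 R) W.μ from (i0.const_mul 2).add (itl.const_mul (2 * R ^ 2)))
          measurableSet_ball hpt
    _ = _ := by
        rw [integral_add (i0.const_mul 2) (itl.const_mul _), integral_const_mul, integral_const_mul]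

theorem sup_height_le (hm : 1 ≤ m) (W : SIV m n) {X₀ : E (m + n)} {r : ℝ} (hX : X₀ ∈ W.support)
    (hr : 0 < r) (hU : Metric.closedBall X₀ r ⊆ W.U) :
    ‖prV m n X₀‖ ^ 2 ≤ (kap m * r ^ m)⁻¹ * ∫ X in Metric.ball X₀ r, ‖prV m n X‖ ^ 2 ∂W.μ := by
  have h := W.mean_value hm hX hr hU isOpen_univ (Set.subset_univ _)
    (u := fun X => ‖prV m n X‖ ^ 2) ((prV m n).contDiff.norm_sq ℝ).contDiffOn
    (fun x _ => sq_nonneg _) (c := 0) le_rfl
    (Filter.Eventually.of_forall fun x _ => by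
      rw [tlap_height]
      have := tl_nonneg (W.P_proj x)
      simp only [neg_zero, zero_mul]
      linarith)
  simpa using h

theorem height_of_pinch (m n : ℕ) (hm : 1 ≤ m) (δ R q₀ : ℝ) (hδ : 0 < δ) (hR : 0 < R)
    (hq₀ : 0 ≤ q₀) :
    ∃ C : ℝ, 0 < C ∧ ∀ (W : SIV m n) (y : Fin m → E m) (z : Fin m → E (m + n)) (η : ℝ), 0 ≤ η →
      Haus.QInd δ y → (∀ i, ‖z i‖ ≤ 1) → (∀ i, ‖z i - mkHV (y i) 0‖ ^ 2 ≤ η) →
      Metric.closedBall 0 (R + 2) ⊆ W.U → W.ratio 0 (R + 1) ≤ q₀ →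
      W.ratio 0 (R + 1) - W.Θ 0 ≤ η → (∀ i, W.ratio (z i) (R + 1) - W.Θ (z i) ≤ η) →
      ∀ X ∈ W.support, ‖X‖ ≤ R / 2 → ‖prV m n X‖ ^ 2 ≤ C * η := by
  obtain ⟨C₁, hC₁, H⟩ := tilt_of_pinch m n hm δ R q₀ hδ hR hq₀
  have hk := kap_pos m
  refine ⟨(kap m * (R / 2) ^ m)⁻¹ * (2 * ((R + 1) ^ (m + 2) * kap m) + 2 * R ^ 2 * C₁),
    by positivity, fun W y z η hη hy hz hzy hU hq h0 hzi X hX hXR => ?_⟩
  have ht := H W y z η hη hy hz hzy hU hq h0 hzi
  have hR1 : 0 < R + 1 := by linarith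
  have hU1 : Metric.closedBall (0 : E (m + n)) (R + 1) ⊆ W.U :=
    (Metric.closedBall_subset_closedBall (by linarith)).trans hU
  have hU0 : Metric.closedBall (0 : E (m + n)) R ⊆ W.U :=
    (Metric.closedBall_subset_closedBall (by linarith)).trans hU
  have hUX : Metric.closedBall X (R / 2) ⊆ W.U := by
    refine (Metric.closedBall_subset_closedBall' ?_).trans hU0
    rw [dist_zero_right]; linarith
  have hsX : Metric.ball X (R / 2) ⊆ Metric.ball 0 R := by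
    refine Metric.ball_subset_ball' ?_
    rw [dist_zero_right]; linarith
  have a := sup_height_le hm W hX (by positivity : 0 < R / 2) hUX
  have ih : IntegrableOn (fun X => ‖prV m n X‖ ^ 2) (Metric.ball 0 R) W.μ := by
    refine W.mea_integrableOn hU0 measurableSet_ball Metric.ball_subset_closedBall
      ((prV m n).continuous.measurable.norm.pow_const 2) (C := R ^ 2) fun x hx => ?_
    rw [abs_of_nonneg (sq_nonneg _)]
    rw [Metric.mem_ball, dist_zero_right] at hx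
    exact pow_le_pow_left₀ (norm_nonneg _) ((norm_prV_le x).trans hx.le) 2
  have b : ∫ Y in Metric.ball X (R / 2), ‖prV m n Y‖ ^ 2 ∂W.μ
      ≤ ∫ Y in Metric.ball 0 R, ‖prV m n Y‖ ^ 2 ∂W.μ :=
    setIntegral_mono_set ih (Filter.Eventually.of_forall fun Y => sq_nonneg _)
      hsX.eventuallyLE
  have c := int_height_le W hR hU0
  have i1 : IntegrableOn (W.nsq 0) (Metric.ball 0 (R + 1)) W.μ :=
    til_intOn_nsq W hU1 measurableSet_ball Metric.ball_subset_closedBall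
  have d : ∫ Y in Metric.ball 0 R, W.nsq 0 Y ∂W.μ ≤ ∫ Y in Metric.ball 0 (R + 1), W.nsq 0 Y ∂W.μ :=
    setIntegral_mono_set i1 (Filter.Eventually.of_forall fun Y => W.nsq_nonneg 0 Y)
      (Metric.ball_subset_ball (by linarith) : Metric.ball (0 : E (m + n)) R ⊆ Metric.ball 0 (R + 1)).eventuallyLE
  have e := W.defect hm hR1 hU1
  have f : (R + 1) ^ (m + 2) * kap m * (W.ratio 0 (R + 1) - W.Θ 0)
      ≤ (R + 1) ^ (m + 2) * kap m * η := mul_le_mul_of_nonneg_left h0 (by positivity)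
  have g : 2 * R ^ 2 * ∫ X in Metric.ball 0 R, tl (W.P X) ∂W.μ ≤ 2 * R ^ 2 * (C₁ * η) :=
    mul_le_mul_of_nonneg_left ht (by positivity)
  calc ‖prV m n X‖ ^ 2 ≤ (kap m * (R / 2) ^ m)⁻¹ * ∫ Y in Metric.ball X (R / 2), ‖prV m n Y‖ ^ 2 ∂W.μ := a
    _ ≤ (kap m * (R / 2) ^ m)⁻¹ * (2 * ((R + 1) ^ (m + 2) * kap m * η) + 2 * R ^ 2 * (C₁ * η)) :=
        mul_le_mul_of_nonneg_left (by linarith) (by positivity)
    _ = _ := by ring

end Claimed.Agent.R322.Flat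
end

/- ===== packed: Claimed.Agent.R322.Freq.One ===== -/
section
/-!
# CO Section 4: tools for ONE start

Owner: helper109 (packages BP-CO4-cover, BP-CO4-weights).

`fail_small` (failure scales are small if the support is close to a small-slope set), `start_geo` (basic geometry), `start_flat` (the support is
quadratically close to the tangent plane of the centre at scales `≥ b`), `lowtilt_hwt` (low tilt gives `hwt ≥ 1/2`), `height_lower` (separated
low-tilt mass gives a lower bound for `H`).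
-/

set_option autoImplicit false

open scoped ENNReal ContDiff
open MeasureTheory Filter Topology

namespace Claimed.Agent.R322.Freq

open Claimed.Agent.R322.Tube

variable {m n : ℕ}

/-- support points in the working cylinder of a start -/
def Start.In {Q : ℕ} {π : Par} (S : Start m n Q π) (X : E (m + n)) : Prop :=
  X ∈ S.N.W.support ∧ X ∈ Cyl S.N.u (Metric.ball 0 4) π.hc

/-- the graph of the centre as a set -/
def gr (u : E m → E n) : Set (E (m + n)) := Set.range (Fg u)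

/-! ### one start -/

theorem norm_le_prH_add_prV (X : E (m + n)) : ‖X‖ ≤ ‖prH m n X‖ + ‖prV m n X‖ := by
  have h := norm_sq_eq_prH_prV X
  have h1 := norm_nonneg (prH m n X)
  have h2 := norm_nonneg (prV m n X)
  exact abs_le_of_sq_le_sq' (by nlinarith) (by positivity) |>.2

/-- a power `t^k`, `k ≥ 1`, `0 ≤ t ≤ M`, is at most `M^(k-1) t` -/
theorem one_pow_le_lin {t M : ℝ} {k : ℕ} (hk : k ≠ 0) (ht : 0 ≤ t) (htM : t ≤ M) :
    t ^ k ≤ M ^ (k - 1) * t := by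
  obtain ⟨j, rfl⟩ := Nat.exists_eq_succ_of_ne_zero hk
  rw [Nat.succ_sub_one, pow_succ]
  gcongr

theorem one_lip_of_slope {u : E m → E n} {κ : ℝ} (hu : Differentiable ℝ u)
    (hs : ∀ y, ‖fderiv ℝ u y‖ ≤ κ) (y y' : E m) : ‖u y - u y'‖ ≤ κ * ‖y - y'‖ :=
  Convex.norm_image_sub_le_of_norm_fderiv_le (s := Set.univ) (fun x _ => hu x) (fun x _ => hs x)
    convex_univ (Set.mem_univ _) (Set.mem_univ _)

theorem one_lip_of_fderiv {G : Type*} [NormedAddCommGroup G] [NormedSpace ℝ G] {u : E m → G} {κ : ℝ}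
    (hu : Differentiable ℝ u) (hs : ∀ y, ‖fderiv ℝ u y‖ ≤ κ) (y y' : E m) :
    ‖u y - u y'‖ ≤ κ * ‖y - y'‖ :=
  Convex.norm_image_sub_le_of_norm_fderiv_le (s := Set.univ) (fun x _ => hu x) (fun x _ => hs x)
    convex_univ (Set.mem_univ _) (Set.mem_univ _)

/-- second order Taylor estimate at the origin -/
theorem one_taylor2 {u : E m → E n} {κ : ℝ} (hu : ContDiff ℝ 2 u)
    (h2 : ∀ y, ‖iteratedFDeriv ℝ 2 u y‖ ≤ κ) (y : E m) :
    ‖u y - u 0 - fderiv ℝ u 0 y‖ ≤ κ * ‖y‖ ^ 2 := by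
  have hκ : 0 ≤ κ := (norm_nonneg _).trans (h2 0)
  have hdu : Differentiable ℝ u := hu.differentiable (by norm_num)
  have hD : Differentiable ℝ (fderiv ℝ u) := fun y => (hasFDerivAt_Du (y := y) hu).differentiableAt
  have hDb : ∀ y, ‖fderiv ℝ (fderiv ℝ u) y‖ ≤ κ := fun y => by
    have := norm_D2_eq u y
    rw [D2] at this
    rw [this]
    exact h2 y
  have hlip : ∀ y', ‖fderiv ℝ u y' - fderiv ℝ u 0‖ ≤ κ * ‖y'‖ := fun y' => by
    simpa using one_lip_of_fderiv hD hDb y' 0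
  have hg : ∀ x ∈ Metric.closedBall (0 : E m) ‖y‖,
      HasFDerivWithinAt (fun y' => u y' - fderiv ℝ u 0 y') (fderiv ℝ u x - fderiv ℝ u 0)
        (Metric.closedBall (0 : E m) ‖y‖) x := fun x _ =>
    ((hdu x).hasFDerivAt.sub (fderiv ℝ u 0).hasFDerivAt).hasFDerivWithinAt
  have hb : ∀ x ∈ Metric.closedBall (0 : E m) ‖y‖, ‖fderiv ℝ u x - fderiv ℝ u 0‖ ≤ κ * ‖y‖ := by
    intro x hx
    rw [mem_closedBall_zero_iff] at hx
    exact (hlip x).trans (by gcongr)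
  have := Convex.norm_image_sub_le_of_norm_hasFDerivWithin_le hg hb (convex_closedBall _ _)
    (Metric.mem_closedBall_self (norm_nonneg y)) (mem_closedBall_zero_iff.mpr le_rfl)
  simp only [map_zero, sub_zero] at this
  calc ‖u y - u 0 - fderiv ℝ u 0 y‖ = ‖u y - fderiv ℝ u 0 y - u 0‖ := by congr 1; abel
    _ ≤ κ * ‖y‖ * ‖y‖ := this
    _ = κ * ‖y‖ ^ 2 := by ring

/-- **Failure scales are small if the support is close to a small-slope set** (leaf `L-Freq-fail-small`).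
PLAN.  `ℓ x = 0`: `0 ∈ support` gives `0 ≤ d`.  `ℓ x > 0`: `S.sep x _ _ x _ Γ hΓ` gives a set of positive mass; by
`W.μ_compl_support` it contains a support point `X`, `|X| ≤ |prH X| + |prV X| ≤ 5 + 1 + 1`; compare with the hypothesis. -/
theorem fail_small {Q : ℕ} (hm : 1 ≤ m) (B : FitBase) (hB : B.Adm m) :
    Ev B (fun π => ∀ (S : Start m n Q π) (Γ : Set (E (m + n))) (d : ℝ), ConeSet π.ε₁ Γ →
      (∀ X ∈ S.N.W.support, ‖X‖ ≤ 10 → ∃ p ∈ Γ, ‖X - p‖ ≤ d) →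
      ∀ x : E m, ‖x‖ < 5 → π.c * π.m₀ * S.ℓ x ^ π.k ≤ d) := by
  refine (Ev.pos B).mono fun π hπ hpos S Γ d hΓ hd x hx => ?_
  obtain ⟨-, -, hm0, -, -, -, -, -, -, -, hlm1, -, -⟩ := hpos
  have hA : π.toFitBase.Adm m := hπ ▸ hB
  have hk : π.k ≠ 0 := by
    have := hA.k_gt
    omega
  rcases (S.isFail.nonneg x).eq_or_lt with h0 | hl
  · rw [← h0, zero_pow hk, mul_zero]
    obtain ⟨p, -, hp⟩ := hd 0 S.sing.1 (by simp)
    exact (norm_nonneg _).trans hp
  · have hs := S.sep x hx hl x (by rw [sub_self, norm_zero]; positivity) Γ hΓ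
    have hcpos : 0 < π.c := hA.c_pos
    have hApos := lt_of_lt_of_le
      (ENNReal.ofReal_pos.mpr (show 0 < π.fit.c * S.ℓ x ^ m from mul_pos hcpos (pow_pos hl m))) hs
    obtain ⟨X, hXA, hXs⟩ : ∃ X, X ∈ {X | ‖prH m n X - x‖ < π.fit.c₀ * S.ℓ x ∧ ‖prV m n X‖ ≤ 1 ∧
        ‖S.N.W.P X - PH m n‖ ≤ π.fit.ε₀ ∧ ∀ P ∈ Γ, π.fit.c * π.fit.m₀ * S.ℓ x ^ π.fit.k ≤ ‖X - P‖} ∧
        X ∈ S.N.W.support := by
      by_contra hc
      push Not at hc
      have hsub : {X | ‖prH m n X - x‖ < π.fit.c₀ * S.ℓ x ∧ ‖prV m n X‖ ≤ 1 ∧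
        ‖S.N.W.P X - PH m n‖ ≤ π.fit.ε₀ ∧ ∀ P ∈ Γ, π.fit.c * π.fit.m₀ * S.ℓ x ^ π.fit.k ≤ ‖X - P‖}
          ⊆ S.N.W.supportᶜ := fun X hX => hc X hX
      have := measure_mono_null hsub S.N.W.μ_compl_support
      rw [this] at hApos
      exact lt_irrefl _ hApos
    obtain ⟨h1, h2, -, h4⟩ := hXA
    have hc0 : π.fit.c₀ * S.ℓ x ≤ 1 := by
      have e1 : π.fit.c₀ ≤ 1 / 100 := hA.c₀_le
      have e2 : S.ℓ x ≤ 1 := (S.ℓ_small x).trans hlm1
      have e3 : 0 < π.fit.c₀ := hA.c₀_pos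
      nlinarith
    have hX10 : ‖X‖ ≤ 10 := by
      have e1 := norm_le_prH_add_prV X
      have e2 : ‖prH m n X‖ ≤ ‖prH m n X - x‖ + ‖x‖ := by
        simpa using norm_add_le (prH m n X - x) x
      linarith
    obtain ⟨p, hp, hpd⟩ := hd X hXs hX10
    exact (h4 p hp).trans hpd

/-- basic geometry of a start (leaf `L-Freq-start-geo`): the centre has bounded geometry, the origin is close to the centre, support
points near the origin are in the cylinder with controlled height. -/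
theorem start_geo {Q : ℕ} (hm : 1 ≤ m) (B : FitBase) (hB : B.Adm m) (hJ : 4 ≤ B.J) :
    Ev B (fun π => ∀ S : Start m n Q π,
      Geo (π.C * π.m₀) S.N.u ∧ ConeSet (π.C * π.m₀) (gr S.N.u) ∧
      ‖S.N.u 0‖ ≤ π.C * π.m₀ * S.b ^ π.k ∧
      (∀ X ∈ S.N.W.support, ‖X‖ ≤ 2 → S.In X ∧
        ‖zz S.N.u X‖ ≤ π.C * π.m₀ * (S.b + 2 * ‖X‖) ^ π.k ∧ ‖npr S.N.u X‖ ≤ 2 * ‖X‖ + S.b ∧
        rho S.N.u (npr S.N.u X) ≤ 2 * ‖X‖ + S.b) ∧
      (∀ X, S.In X → ∀ a : ℝ, (∀ x : E m, ‖x‖ < 5 → S.ℓ x ≤ a) → 0 ≤ a →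
        ‖zz S.N.u X‖ ≤ π.C * π.m₀ * a ^ π.k)) := by
  have hCpos : 0 < B.C := lt_of_lt_of_le one_pos hB.C_ge
  have hsm : Ev B (fun π => π.m₀ < 1 / (4 * B.C * 5 ^ (B.k - 1))) :=
    Ev.m₀_lt B (fun _ => 1 / (4 * B.C * 5 ^ (B.k - 1))) (fun _ => by positivity)
  refine ((Ev.pos B).and hsm).mono fun π hπ hh S => ?_
  obtain ⟨⟨-, -, hm0, -, -, -, -, -, -, hlm0, hlm1, -, -⟩, hsm⟩ := hh
  have hA : π.toFitBase.Adm m := hπ ▸ hB
  have hJ' : 4 ≤ π.J := by rw [← hπ] at hJ; exact hJ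
  have hk : π.k ≠ 0 := by
    have := hA.k_gt
    omega
  have hC1 : 1 ≤ π.C := hA.C_ge
  have hC0 : 0 < π.C := lt_of_lt_of_le one_pos hC1
  -- the smallness of `m₀`
  have hκ5 : π.C * π.m₀ * 5 ^ (π.k - 1) ≤ 1 / 4 := by
    have e : π.m₀ < 1 / (4 * π.C * 5 ^ (π.k - 1)) := by
      have : B.C = π.C ∧ B.k = π.k := by rw [← hπ]; exact ⟨rfl, rfl⟩
      rw [this.1, this.2] at hsm
      exact hsm
    have hp : (0 : ℝ) < 4 * π.C * 5 ^ (π.k - 1) := by positivity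
    rw [lt_div_iff₀ hp] at e
    nlinarith
  have h5 : (1 : ℝ) ≤ 5 ^ (π.k - 1) := one_le_pow₀ (by norm_num)
  set κ := π.C * π.m₀ with hκ
  have hκ0 : 0 < κ := mul_pos hC0 hm0
  have hκ4 : κ ≤ 1 / 4 := by nlinarith
  have href : RefGraph π.J κ κ S.N.u := S.ref
  have hF := S.isFail
  have hb0 : 0 ≤ S.b := bpar_nonneg hF
  have hb1 : S.b ≤ 1 := (bpar_le hF hlm0.le).trans hlm1
  have h4 : ContDiff ℝ 4 S.N.u := href.smooth.of_le (by exact_mod_cast hJ')
  have hdiff : Differentiable ℝ S.N.u := h4.differentiable (by norm_num)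
  have hpow : ∀ t : ℝ, 0 ≤ t → t ≤ 5 → κ * t ^ π.k ≤ t / 4 := by
    intro t ht ht5
    have := one_pow_le_lin hk ht ht5
    calc κ * t ^ π.k ≤ κ * (5 ^ (π.k - 1) * t) := by gcongr
      _ = (κ * 5 ^ (π.k - 1)) * t := by ring
      _ ≤ 1 / 4 * t := by gcongr
      _ = t / 4 := by ring
  -- the origin
  have h0s : (0 : E (m + n)) ∈ S.N.W.support := S.sing.1
  have h0c : (0 : E (m + n)) ∈ Cyl S.N.u (Metric.ball 0 4) π.hc :=
    S.cover 0 h0s (by simp) (by simp)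
  have hu0 : ‖S.N.u 0‖ ≤ κ * S.b ^ π.k := by
    have e1 := S.height_v 0 h0s h0c
    simp only [map_zero, zero_sub, norm_neg] at e1
    have e2 : tent S.ℓ 0 ≤ S.b := by
      have := tent_le_add hF (0 : E m)
      rw [norm_zero, add_zero] at this
      exact this
    calc ‖S.N.u 0‖ ≤ κ * tent S.ℓ 0 ^ π.k := e1
      _ ≤ κ * S.b ^ π.k := by
        gcongr
        exact tent_nonneg hF 0
  refine ⟨⟨h4, fun y => (href.slope y).trans (by linarith), fun y => href.bound 2 le_rfl (by omega) y,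
    fun y => href.bound 3 (by omega) (by omega) y, by linarith⟩, ?_, hu0, ?_, ?_⟩
  · rintro _ ⟨y, rfl⟩ _ ⟨y', rfl⟩
    have e1 : prV m n (Fg S.N.u y - Fg S.N.u y') = S.N.u y - S.N.u y' := by
      rw [map_sub]; simp only [Fg, prV_mkHV]
    have e2 : prH m n (Fg S.N.u y - Fg S.N.u y') = y - y' := by
      rw [map_sub]; simp only [Fg, prH_mkHV]
    rw [e1, e2]
    exact one_lip_of_slope hdiff href.slope y y'
  · intro X hX hX2
    have hH : ‖prH m n X‖ ≤ ‖X‖ := norm_prH_le X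
    have hc : X ∈ Cyl S.N.u (Metric.ball 0 4) π.hc := S.cover X hX (by linarith) (by linarith)
    have hX0 := norm_nonneg X
    have hz : ‖zz S.N.u X‖ ≤ κ * (S.b + 2 * ‖X‖) ^ π.k := by
      have e1 := S.height_h X hX hc
      have e2 : tent S.ℓ (prH m n X) ≤ S.b + 2 * ‖X‖ := by
        have := tent_le_add hF (prH m n X)
        have hb : bpar S.ℓ = S.b := rfl
        linarith
      calc ‖zz S.N.u X‖ ≤ κ * tent S.ℓ (prH m n X) ^ π.k := e1
        _ ≤ κ * (S.b + 2 * ‖X‖) ^ π.k := by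
          gcongr
          exact tent_nonneg hF _
    have hz' : ‖zz S.N.u X‖ ≤ (S.b + 2 * ‖X‖) / 4 :=
      hz.trans (hpow _ (by positivity) (by linarith))
    have hFy : Fg S.N.u (npr S.N.u X) = X - zz S.N.u X := by
      simp only [zz]; abel
    refine ⟨⟨hX, hc⟩, hz, ?_, ?_⟩
    · have e1 : npr S.N.u X = prH m n (X - zz S.N.u X) := by
        rw [← hFy]; simp only [Fg, prH_mkHV]
      rw [e1]
      have e2 := norm_prH_le (X - zz S.N.u X)
      have e3 := norm_sub_le X (zz S.N.u X)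
      linarith
    · have e0 : ‖Fg S.N.u 0‖ = ‖S.N.u 0‖ := by
        have : Fg S.N.u 0 = inV m n (S.N.u 0) := by rw [inV_apply]; rfl
        rw [this, norm_inV]
      have e1 : rho S.N.u (npr S.N.u X) ≤ ‖X‖ + ‖zz S.N.u X‖ + ‖S.N.u 0‖ := by
        unfold rho
        rw [hFy, ← e0]
        exact (norm_sub_le _ _).trans (by gcongr; exact norm_sub_le _ _)
      have e2 : ‖S.N.u 0‖ ≤ S.b / 4 := hu0.trans (hpow _ hb0 (by linarith))
      linarith
  · intro X hX a ha ha0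
    have e1 := S.height_h X hX.1 hX.2
    have e2 : tent S.ℓ (prH m n X) ≤ a := tent_le_of hF ha0 ha _
    calc ‖zz S.N.u X‖ ≤ κ * tent S.ℓ (prH m n X) ^ π.k := e1
      _ ≤ κ * a ^ π.k := by
        gcongr
        exact tent_nonneg hF _

/-- **The support is quadratically close to the tangent plane of the centre at scales `≥ b`** (leaf `L-Freq-start-flat`).
PLAN.  `X = F y + z`, `y = npr X`; `F y = F 0 + dF(Du 0) y + (0, u y - u 0 - Du(0) y)`; Taylor with `|D²u| ≤ C m₀`;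
`|u 0| ≤ C m₀ b^k`, `|z| ≤ C m₀ (b + 2|X|)^k`, `k ≥ 2`, `b ≤ s ≤ 1`. -/
theorem start_flat {Q : ℕ} (hm : 1 ≤ m) (B : FitBase) (hB : B.Adm m) (hJ : 4 ≤ B.J) :
    Ev B (fun π => ∀ (S : Start m n Q π) (s : ℝ), S.b ≤ s → s ≤ 1 →
      ∀ X ∈ S.N.W.support, ‖X‖ ≤ s → ∃ (t : E m) (e : E (m + n)),
        X = dF (fderiv ℝ S.N.u 0) t + e ∧ ‖e‖ ≤ π.C₁ * s ^ 2) := by
  have hC1 : Ev B (fun π => B.C * π.m₀ * (3 ^ B.k + 10) ≤ π.C₁) :=
    Ev.C₁_ge B (fun _ m₀ _ => B.C * m₀ * (3 ^ B.k + 10))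
  refine (((Ev.pos B).and hC1).and (start_geo (n := n) (Q := Q) hm B hB hJ)).mono
    fun π hπ hh S s hbs hs1 X hX hXs => ?_
  obtain ⟨⟨⟨-, -, hm0, -, -, -, -, -, -, hlm0, -, -, -⟩, hC1⟩, hgeo⟩ := hh
  obtain ⟨hG, -, hu0, h4, -⟩ := hgeo S
  have hA : π.toFitBase.Adm m := hπ ▸ hB
  have hk : 2 ≤ π.k := by
    have := hA.k_gt
    omega
  have hC0 : 0 < π.C := lt_of_lt_of_le one_pos hA.C_ge
  have hC1' : π.C * π.m₀ * (3 ^ π.k + 10) ≤ π.C₁ := by
    have : B.C = π.C ∧ B.k = π.k := by rw [← hπ]; exact ⟨rfl, rfl⟩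
    rw [this.1, this.2] at hC1
    exact hC1
  set κ := π.C * π.m₀ with hκ
  have hκ0 : 0 < κ := mul_pos hC0 hm0
  have hb0 : 0 ≤ S.b := bpar_nonneg S.isFail
  have hs0 : 0 ≤ s := hb0.trans hbs
  have hX0 := norm_nonneg X
  obtain ⟨-, hz, hy, -⟩ := h4 X hX (by linarith)
  have hsk : s ^ π.k ≤ s ^ 2 := pow_le_pow_of_le_one hs0 hs1 hk
  set y := npr S.N.u X with hydef
  refine ⟨y, X - dF (fderiv ℝ S.N.u 0) y, by abel, ?_⟩
  have e1 : X - dF (fderiv ℝ S.N.u 0) y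
      = zz S.N.u X + inV m n (S.N.u y - S.N.u 0 - fderiv ℝ S.N.u 0 y) + inV m n (S.N.u 0) := by
    have a1 : X = zz S.N.u X + Fg S.N.u y := by simp only [zz, hydef]; abel
    have a2 : dF (fderiv ℝ S.N.u 0) y = inH m n y + inV m n (fderiv ℝ S.N.u 0 y) := rfl
    rw [a2, map_sub, map_sub]
    conv_lhs => rw [a1, Fg_eq]
    abel
  have b1 : ‖zz S.N.u X‖ ≤ κ * (3 ^ π.k * s ^ 2) := by
    calc ‖zz S.N.u X‖ ≤ κ * (S.b + 2 * ‖X‖) ^ π.k := hz
      _ ≤ κ * (3 * s) ^ π.k := by gcongr; linarith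
      _ = κ * (3 ^ π.k * s ^ π.k) := by rw [mul_pow]
      _ ≤ κ * (3 ^ π.k * s ^ 2) := by gcongr
  have b2 : ‖S.N.u 0‖ ≤ κ * s ^ 2 := by
    calc ‖S.N.u 0‖ ≤ κ * S.b ^ π.k := hu0
      _ ≤ κ * s ^ π.k := by gcongr
      _ ≤ κ * s ^ 2 := by gcongr
  have b3 : ‖S.N.u y - S.N.u 0 - fderiv ℝ S.N.u 0 y‖ ≤ κ * (9 * s ^ 2) := by
    have := one_taylor2 (hG.smooth.of_le (by norm_num)) hG.d2 y
    calc _ ≤ κ * ‖y‖ ^ 2 := this
      _ ≤ κ * (3 * s) ^ 2 := by gcongr; linarith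
      _ = κ * (9 * s ^ 2) := by ring
  rw [e1]
  calc _ ≤ ‖zz S.N.u X‖ + ‖inV m n (S.N.u y - S.N.u 0 - fderiv ℝ S.N.u 0 y)‖ + ‖inV m n (S.N.u 0)‖ :=
        norm_add₃_le
    _ ≤ κ * (3 ^ π.k * s ^ 2) + κ * (9 * s ^ 2) + κ * s ^ 2 := by
        rw [norm_inV, norm_inV]
        gcongr
    _ = κ * (3 ^ π.k + 10) * s ^ 2 := by ring
    _ ≤ π.C₁ * s ^ 2 := by gcongr

/-- on the central fibre the tangent planes are vertical (same proof as `central_fibre`) -/
theorem FrOK.central_comp {κ : ℝ} {N : NCyl m n} (hok : FrOK κ N) :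
    ∀ᵐ X ∂N.μ, npr N.u X = 0 → Ph N.u (npr N.u X) ∘L N.W.P X = 0 := by
  have hT := tube_deriv_of_le hok.geo (le_refl (2 / 9 : ℝ))
  have hC1 : ContDiffOn ℝ 1 (npr N.u) (Cyl N.u N.Ω N.h) :=
    (hT.2.1.mono hok.tub).of_le (by norm_num)
  have hloc := N.W.locality hok.ok.isOpen N.cyl_sub hC1
  have hloc' : ∀ᵐ X ∂N.μ, X ∈ Cyl N.u N.Ω N.h → npr N.u X = 0 →
      fderiv ℝ (npr N.u) X ∘L N.W.P X = 0 := ae_restrict_of_ae hloc
  filter_upwards [hloc', hok.ok.ae_cyl] with X hX hXc hX0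
  have hd := hT.2.2.2 X (hok.tub hXc)
  have hS := hok.geo.norm_Shp_zz_le_half (le_refl (2 / 9 : ℝ)) (hok.tub hXc)
  have h1 := hX hXc hX0
  rw [hd.2.2.1] at h1
  have e1 : dF (fderiv ℝ N.u (npr N.u X)) ∘L
      ((dFp (fderiv ℝ N.u (npr N.u X)) ∘L Kz N.u X ∘L Ph N.u (npr N.u X)) ∘L N.W.P X) = 0 := by
    rw [h1, ContinuousLinearMap.comp_zero]
  have e2 : dF (fderiv ℝ N.u (npr N.u X)) ∘L
      ((dFp (fderiv ℝ N.u (npr N.u X)) ∘L Kz N.u X ∘L Ph N.u (npr N.u X)) ∘L N.W.P X)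
      = Kz N.u X ∘L (Ph N.u (npr N.u X) ∘L N.W.P X) := by
    calc dF (fderiv ℝ N.u (npr N.u X)) ∘L
        ((dFp (fderiv ℝ N.u (npr N.u X)) ∘L Kz N.u X ∘L Ph N.u (npr N.u X)) ∘L N.W.P X)
        = ((dF (fderiv ℝ N.u (npr N.u X)) ∘L dFp (fderiv ℝ N.u (npr N.u X))) ∘L Kz N.u X)
            ∘L (Ph N.u (npr N.u X) ∘L N.W.P X) := by
          simp only [ContinuousLinearMap.comp_assoc]
      _ = (Ph N.u (npr N.u X) ∘L Kz N.u X) ∘L (Ph N.u (npr N.u X) ∘L N.W.P X) := by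
          rw [← Ph_eq]
      _ = (Kz N.u X ∘L Ph N.u (npr N.u X)) ∘L (Ph N.u (npr N.u X) ∘L N.W.P X) := by
          rw [Kz_eq, Ph_comp_Kw hok.geo.c2 hS]
      _ = Kz N.u X ∘L ((Ph N.u (npr N.u X) ∘L Ph N.u (npr N.u X)) ∘L N.W.P X) := by
          simp only [ContinuousLinearMap.comp_assoc]
      _ = _ := by rw [Ph_comp_Ph]
  rw [e2] at e1
  calc Ph N.u (npr N.u X) ∘L N.W.P X
      = (Jz N.u X ∘L Kz N.u X) ∘L (Ph N.u (npr N.u X) ∘L N.W.P X) := by
        rw [hd.1, ContinuousLinearMap.id_comp]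
    _ = Jz N.u X ∘L (Kz N.u X ∘L (Ph N.u (npr N.u X) ∘L N.W.P X)) := by
        rw [ContinuousLinearMap.comp_assoc]
    _ = 0 := by rw [e1, ContinuousLinearMap.comp_zero]

theorem norm_sub_PH (X : E (m + n)) : ‖X - PH m n X‖ = ‖prV m n X‖ := by
  have h : X - PH m n X = inV m n (prV m n X) := by
    have h0 := inH_prH_add_inV_prV X
    have h1 : PH m n X = inH m n (prH m n X) := rfl
    rw [h1, sub_eq_iff_eq_add, add_comm (inV m n _)]
    exact h0.symm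
  rw [h, norm_inV]

/-- a vector of the tangent plane of a graph is close to its horizontal projection -/
theorem one_sub_PH_le (A : E m →L[ℝ] E n) {V : E (m + n)} (hV : PhA A V = V) :
    ‖V - PH m n V‖ ≤ ‖A‖ * ‖V‖ := by
  rw [norm_sub_PH]
  have h1 : V = dF A (dFp A V) := by
    conv_lhs => rw [← hV, PhA_eq]
    rfl
  have h2 : prV m n V = A (prH m n V) := by
    rw [h1, prV_dF, prH_dF]
  rw [h2]
  exact (A.le_opNorm _).trans (by gcongr; exact norm_prH_le V)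

/-- a vector normal to a graph of small slope is almost vertical -/
theorem one_prH_le_of_normal (A : E m →L[ℝ] E n) {v : E (m + n)} (hv : PhA A v = 0) :
    ‖prH m n v‖ ≤ ‖A‖ * ‖v‖ := by
  have h0 : inner ℝ v (dF A (prH m n v)) = 0 := by
    rw [← PhA_dF, ← (isProj_PhA A).symm, hv, inner_zero_left]
  rw [dF_apply, ← mkHV_prH_prV v, inner_mkHV, prH_mkHV] at h0
  rw [real_inner_self_eq_norm_sq] at h0
  have h1 : |inner ℝ (prV m n v) (A (prH m n v))| ≤ ‖prV m n v‖ * (‖A‖ * ‖prH m n v‖) :=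
    (abs_real_inner_le_norm _ _).trans (by gcongr; exact A.le_opNorm _)
  have h2 := norm_prV_le v
  have h3 := norm_nonneg (prH m n v)
  have h4 := norm_nonneg A
  rcases h3.eq_or_lt with h5 | h5
  · rw [← h5]; positivity
  · have h6 : ‖prH m n v‖ ^ 2 ≤ ‖prV m n v‖ * (‖A‖ * ‖prH m n v‖) := by
      have := abs_le.mp h1
      linarith [this.1]
    have h7 : ‖prH m n v‖ ≤ ‖prV m n v‖ * ‖A‖ := by
      by_contra hc
      push Not at hc
      nlinarith
    calc ‖prH m n v‖ ≤ ‖prV m n v‖ * ‖A‖ := h7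
      _ ≤ ‖v‖ * ‖A‖ := by gcongr
      _ = ‖A‖ * ‖v‖ := mul_comm _ _

/-- **low tilt gives a definite height weight** (leaf `L-Freq-lowtilt`).
PLAN.  `‖P_h(y) - PH‖ ≤ C ‖Du y‖ ≤ C κ`.  Off the central fibre: `V` is tangent to `S`, `(1 - P) V = (P_h - P) V`, so `|P V| ≥ (1 - 1/20 - C κ)|V|`;
`|V|²/ρ² ≥ (1 - C κ |z|)(1 - κ² ρ²/4)` (`Vv_facts`, `Gv_facts`).  On the central fibre `tilt = m ≥ 1` almost everywhere (same proof as `central_fibre`:
`W.locality` for `npr`), while `tilt = tr (P P_v) = tr (P (P_v - (1 - PH))) + tr (P (1 - PH)) ≤ m (C κ + 1/20) < 1`: a null set. -/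
theorem lowtilt_hwt (m n : ℕ) (hm : 1 ≤ m) : ∃ κ₀ : ℝ, 0 < κ₀ ∧ ∀ (κ : ℝ) (N : NCyl m n), Geo κ N.u → κ ≤ κ₀ → N.h ≤ κ₀ →
    (∀ y, ‖fderiv ℝ N.u y‖ ≤ κ) →
    ∀ᵐ X ∂N.μ, rho N.u (npr N.u X) ≤ 1 → ‖N.W.P X - PH m n‖ ≤ 1 / 20 → 1 / 2 ≤ hwt N.u (N.W.P X) X := by
  obtain ⟨h₀, hh₀, H⟩ := Lin.exists_cylOK m n
  refine ⟨min (1 / 200) h₀, lt_min (by norm_num) hh₀, ?_⟩
  intro κ N hG hκ hh hsl
  have hκ1 : κ ≤ 1 / 200 := hκ.trans (min_le_left _ _)
  have hh1 : N.h ≤ 1 / 200 := hh.trans (min_le_left _ _)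
  have hκ0 : 0 ≤ κ := hG.nonneg
  have hok : FrOK κ N := ⟨hG, H κ N hG (hh.trans (min_le_right _ _)),
    fun X hX => ⟨npr N.u X, hX.2.trans_le (hh1.trans (by norm_num))⟩⟩
  filter_upwards [hok.central_comp, hok.ok.ae_cyl] with X hcf hXc hρ hP
  have hXt := hok.tub hXc
  have hPr := N.W.P_proj X
  set P := N.W.P X with hPdef
  set y := npr N.u X with hy
  by_cases hy0 : y = 0
  · -- impossible
    exfalso
    have hc := hcf hy0
    have hP0 : P ≠ 0 := by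
      intro h0
      have htr := hPr.tr
      rw [h0] at htr
      have h1 : (m : ℝ) = 0 := by rw [← htr]; simp
      have h2 : m = 0 := by exact_mod_cast h1
      omega
    obtain ⟨w, hw⟩ : ∃ w, P w ≠ 0 := by
      by_contra hcon
      push Not at hcon
      exact hP0 (ContinuousLinearMap.ext hcon)
    set v := P w with hv
    have hPv : P v = v := by
      have := congrArg (fun L : E (m + n) →L[ℝ] E (m + n) => L w) hPr.idem
      exact this
    have hHv : PhA (fderiv ℝ N.u y) v = 0 := by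
      have := congrArg (fun L : E (m + n) →L[ℝ] E (m + n) => L w) hc
      exact this
    have h1 := one_prH_le_of_normal _ hHv
    have h2 : ‖v - PH m n v‖ ≤ 1 / 20 * ‖v‖ := by
      have : v - PH m n v = (P - PH m n) v := by
        rw [sub_apply, hPv]
      rw [this]
      exact ((P - PH m n).le_opNorm v).trans (by gcongr)
    have h3 : ‖PH m n v‖ = ‖prH m n v‖ := by
      have : PH m n v = inH m n (prH m n v) := rfl
      rw [this, norm_inH]
    have h4 : ‖v‖ ≤ ‖v - PH m n v‖ + ‖PH m n v‖ := by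
      simpa using norm_add_le (v - PH m n v) (PH m n v)
    have h5 : 0 < ‖v‖ := norm_pos_iff.mpr hw
    have h6 : ‖fderiv ℝ N.u y‖ * ‖v‖ ≤ 1 / 200 * ‖v‖ := by
      gcongr
      exact (hsl y).trans hκ1
    linarith
  · obtain ⟨hPV, -, -, -, -, -, -, hGV, -, -, -, -⟩ := Vv_facts_of_le hG hXt
    obtain ⟨hdef, -⟩ := hwt_defect_of_le hG hXt hPr hy0
    obtain ⟨-, -, -, -, hGy, -, -⟩ := Gv_facts hG y
    have hy1 : 0 < ‖y‖ := norm_pos_iff.mpr hy0
    have hV0 : 0 < ‖Vv N.u X‖ := by linarith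
    have hρ0 : 0 < rho N.u y := lt_of_lt_of_le hy1 ((rho_facts hG).2.1 y).1
    have hb : ‖Vv N.u X - P (Vv N.u X)‖ ≤ (κ + 1 / 20) * ‖Vv N.u X‖ := by
      have e1 := one_sub_PH_le (fderiv ℝ N.u y) hPV
      have e2 : ‖(PH m n - P) (Vv N.u X)‖ ≤ 1 / 20 * ‖Vv N.u X‖ := by
        refine ((PH m n - P).le_opNorm _).trans ?_
        rw [norm_sub_rev]
        gcongr
      have e3 : Vv N.u X - P (Vv N.u X)
          = (Vv N.u X - PH m n (Vv N.u X)) + (PH m n - P) (Vv N.u X) := by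
        rw [sub_apply]; abel
      rw [e3]
      refine (norm_add_le _ _).trans ?_
      have e4 : ‖fderiv ℝ N.u y‖ * ‖Vv N.u X‖ ≤ κ * ‖Vv N.u X‖ := by
        gcongr
        exact hsl y
      linarith
    have hr : rwt N.u P X / rho N.u y ^ 2 ≤ (κ + 1 / 20) ^ 2 := by
      unfold rwt bet
      rw [div_div, mul_comm (‖Vv N.u X‖ ^ 2), ← div_div, mul_div_assoc, div_self (by positivity),
        mul_one, div_le_iff₀ (by positivity), ← mul_pow]
      exact pow_le_pow_left₀ (norm_nonneg _) hb 2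
    have hz : ‖zz N.u X‖ ≤ 1 / 200 := hXc.2.le.trans hh1
    have hρ2 : rho N.u y ^ 2 ≤ 1 := pow_le_one₀ hρ0.le hρ
    have hz0 := norm_nonneg (zz N.u X)
    have e5 : 24 * κ * (‖zz N.u X‖ + rho N.u y ^ 2) ≤ 24 * (1 / 200) * (1 / 200 + 1) := by
      gcongr
    have e6 : (κ + 1 / 20) ^ 2 ≤ (1 / 200 + 1 / 20) ^ 2 := by gcongr
    norm_num at e5 e6
    linarith

/-- Markov's inequality for an arbitrary (not necessarily measurable) set -/
theorem one_markov {α : Type*} [MeasurableSpace α] {μ : Measure α} {f : α → ℝ} (hf0 : 0 ≤ᵐ[μ] f)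
    (hfi : Integrable f μ) {A : Set α} {c a : ℝ} (hc : 0 ≤ c) (hA : ENNReal.ofReal a ≤ μ A)
    (h : ∀ᵐ x ∂μ, x ∈ A → c ≤ f x) : c * a ≤ ∫ x, f x ∂μ := by
  rcases hc.eq_or_lt with rfl | hc
  · rw [zero_mul]
    exact integral_nonneg_of_ae hf0
  have h1 : μ A ≤ μ {x | c ≤ f x} := measure_mono_ae h
  have h2 : μ {x | c ≤ f x} < ⊤ := hfi.measure_ge_lt_top hc
  have h3 : a ≤ μ.real {x | c ≤ f x} :=
    (ENNReal.ofReal_le_iff_le_toReal h2.ne).mp (hA.trans h1)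
  calc c * a ≤ c * μ.real {x | c ≤ f x} := by gcongr
    _ ≤ ∫ x, f x ∂μ := mul_meas_ge_le_integral_of_nonneg hf0 hfi c

/-- the qualitative toolkit is available at every start -/
theorem start_frOK {Q : ℕ} (hm : 1 ≤ m) (B : FitBase) (hB : B.Adm m) (hJ : 4 ≤ B.J) :
    Ev B (fun π => ∀ S : Start m n Q π, FrOK (π.C * π.m₀) S.N) := by
  obtain ⟨h₀, hh₀, H⟩ := Lin.exists_cylOK m n
  refine ((start_geo (n := n) (Q := Q) hm B hB hJ).and
    (Ev.hc_lt B (min h₀ (2 / 9)) (lt_min hh₀ (by norm_num)))).mono fun π _ hh S => ?_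
  obtain ⟨hgeo, hhc⟩ := hh
  have hG := (hgeo S).1
  have hNh : S.N.h = π.hc := S.N_h
  exact ⟨hG, H _ S.N hG (by rw [hNh]; exact hhc.le.trans (min_le_left _ _)),
    fun X hX => ⟨npr S.N.u X, hX.2.trans_le (by rw [hNh]; exact hhc.le.trans (min_le_right _ _))⟩⟩

/-- integrability of bounded functions whose base support lies in a disc `Bs r`, `r < 4` -/
theorem FrOK.integrable_of_bdd {κ : ℝ} {N : NCyl m n} (hok : FrOK κ N) (hΩ : N.Ω = Metric.ball 0 4)
    {r : ℝ} (hr0 : 0 < r) (hr : r < 4) {f : E (m + n) → ℝ} {b : ℝ} (hf : AEStronglyMeasurable f N.μ)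
    (hfb : ∀ᵐ X ∂N.μ, |f X| ≤ b) (hf0 : ∀ X, npr N.u X ∉ Bs N.u r → f X = 0) : Integrable f N.μ := by
  have hsub : Bs N.u r ⊆ Metric.closedBall 0 r :=
    ((ker_facts hok.geo hr0).2.2.2.2.2.2.2.2.1).trans Metric.ball_subset_closedBall
  have hfin : N.μ {X | npr N.u X ∈ Metric.closedBall (0 : E m) r} < ⊤ :=
    hok.ok.fin _ (isCompact_closedBall _ _) (by rw [hΩ]; exact Metric.closedBall_subset_ball hr)
  have hsupp : Function.support f ⊆ {X | npr N.u X ∈ Metric.closedBall (0 : E m) r} := fun X hX =>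
    hsub (by_contra fun hn => hX (hf0 X hn))
  rw [← integrableOn_iff_integrable_of_support_subset hsupp]
  exact Measure.integrableOn_of_bounded (M := b) hfin.ne hf
    (ae_restrict_of_ae (hfb.mono fun X hX => by rwa [Real.norm_eq_abs]))

/-- measurability of the integrand of `qH` -/
theorem FrOK.aesm_qH {κ : ℝ} {N : NCyl m n} (hok : FrOK κ N) {r : ℝ} (hr0 : 0 < r) :
    AEStronglyMeasurable
      (fun X => psiR N.u r (npr N.u X) * ‖zz N.u X‖ ^ 2 * hwt N.u (N.W.P X) X) N.μ := by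
  have hM := hok.meas
  have h1 : AEStronglyMeasurable (fun X => psiR N.u r (npr N.u X)) N.μ :=
    hM.mComp _ (ker_facts hok.geo hr0).2.2.2.2.2.1.continuous.measurable
  have h2 : AEStronglyMeasurable (fun X => ‖zz N.u X‖ ^ 2) N.μ := hM.mZz.norm.pow 2
  have h3 : AEStronglyMeasurable (fun X => rho N.u (npr N.u X) ^ 2) N.μ :=
    hM.mComp (fun y => rho N.u y ^ 2) (hasFDerivAt_rho_sq hok.geo 0).2.continuous.measurable
  have h4 : AEStronglyMeasurable (fun X => hwt N.u (N.W.P X) X) N.μ :=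
    ((hM.mPV.norm.pow 2).aemeasurable.div h3.aemeasurable).aestronglyMeasurable
  exact (h1.mul h2).mul h4

/-- **Lower bound for `H` from low-tilt mass away from the centre** (leaf `L-Freq-height-lower`).
PLAN.  For `X ∈ A ∩ support`: `X` is in the cylinder (`start_geo`), `|zz X| ≥ d` (take `y = npr X`), `ρ(npr X) ≤ 2|X| + b ≤ 0.26 r`,
so `dep ≥ 0.93`, `psiR = 20 dep⁹ ≥ 10`; `hwt ≥ 1/2` almost everywhere on `A` (`lowtilt_hwt`).  Markov's inequality
(no measurability of `A` is needed: `lintegral` over a measurable superset / `meas_ge_le_lintegral_div`-type with outer measure). -/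
theorem height_lower {Q : ℕ} (hm : 1 ≤ m) (B : FitBase) (hB : B.Adm m) (hJ : 4 ≤ B.J) :
    Ev B (fun π => ∀ (S : Start m n Q π) (A : Set (E (m + n))) (r a d : ℝ), 0 < r → 100 * S.b ≤ r →
      r ≤ 4 * π.rs → 0 ≤ a → 0 ≤ d → ENNReal.ofReal a ≤ S.N.W.μ A →
      (∀ X ∈ A, ‖X‖ ≤ r / 8 ∧ ‖S.N.W.P X - PH m n‖ ≤ 1 / 20 ∧ ∀ p ∈ gr S.N.u, d ≤ ‖X - p‖) →
      a * d ^ 2 ≤ r ^ m * qH S.N r) := by
  obtain ⟨κ₀, hκ₀, HL⟩ := lowtilt_hwt m n hm
  have hCpos : 0 < B.C := lt_of_lt_of_le one_pos hB.C_ge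
  have e1 := start_geo (n := n) (Q := Q) hm B hB hJ
  have e2 := start_frOK (n := n) (Q := Q) hm B hB hJ
  have e3 := Ev.hc_lt B κ₀ hκ₀
  have e4 := Ev.m₀_lt B (fun _ => κ₀ / B.C) (fun _ => by positivity)
  have e5 := Ev.rs_lt B (fun _ _ _ _ => 1 / 4) (fun _ _ _ _ => by norm_num)
  refine (((((e1.and e2).and e3).and e4).and e5).and (Ev.pos B)).mono ?_
  rintro π hπ ⟨⟨⟨⟨⟨a1, a2⟩, a3⟩, a4⟩, a5⟩, a6⟩ S A r a d hr0 hbr hrs ha hd hA hAX
  subst hπ
  obtain ⟨hhc0, hhc1, hm0, -, -, -, -, -, -, -, -, -, -⟩ := a6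
  obtain ⟨hG, -, -, h4, -⟩ := a1 S
  have hok := a2 S
  have hNh : S.N.h = π.hc := S.N_h
  have hκ : π.C * π.m₀ ≤ κ₀ := by
    have : π.m₀ < κ₀ / π.C := a4
    rw [lt_div_iff₀ hCpos] at this
    linarith
  have hr1 : r ≤ 1 := by
    have : π.rs < 1 / 4 := a5
    linarith
  have hb0 : 0 ≤ S.b := bpar_nonneg S.isFail
  have hlow := HL _ S.N hG hκ (by rw [hNh]; exact a3.le) S.ref.slope
  set f : E (m + n) → ℝ :=
    fun X => psiR S.N.u r (npr S.N.u X) * ‖zz S.N.u X‖ ^ 2 * hwt S.N.u (S.N.W.P X) X with hf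
  have hker := ker_facts hG hr0
  have hpsi0 : ∀ y, 0 ≤ psiR S.N.u r y := fun y => by
    unfold psiR
    have := (hker.1 y).1
    positivity
  have hpsi20 : ∀ y, psiR S.N.u r y ≤ 20 := fun y => by
    unfold psiR
    have h1 := (hker.1 y).1
    have h2 := (hker.1 y).2
    have : dep S.N.u r y ^ 9 ≤ 1 := pow_le_one₀ h1 h2
    linarith
  have hfm : AEStronglyMeasurable f S.N.μ := hok.aesm_qH hr0
  have hf0 : 0 ≤ᵐ[S.N.μ] f := by
    filter_upwards [hok.ok.ae_cyl] with X hX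
    have := (proj_facts_of_le hG (hok.tub hX) (S.N.W.P_proj X)).2.2.2.1
    have h2 := hpsi0 (npr S.N.u X)
    show 0 ≤ psiR S.N.u r (npr S.N.u X) * ‖zz S.N.u X‖ ^ 2 * hwt S.N.u (S.N.W.P X) X
    positivity
  have hfb : ∀ᵐ X ∂S.N.μ, |f X| ≤ 20 * 1 * 4 := by
    filter_upwards [hok.ok.ae_cyl] with X hX
    obtain ⟨-, -, -, p1, p2, -⟩ := proj_facts_of_le hG (hok.tub hX) (S.N.W.P_proj X)
    have h2 := hpsi0 (npr S.N.u X)
    have h3 := hpsi20 (npr S.N.u X)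
    have h5 : ‖zz S.N.u X‖ ^ 2 ≤ 1 :=
      pow_le_one₀ (norm_nonneg _) (hX.2.le.trans (by rw [hNh]; exact hhc1))
    rw [abs_of_nonneg (by positivity)]
    show psiR S.N.u r (npr S.N.u X) * ‖zz S.N.u X‖ ^ 2 * hwt S.N.u (S.N.W.P X) X ≤ _
    gcongr
  have hfz : ∀ X, npr S.N.u X ∉ Bs S.N.u r → f X = 0 := by
    intro X hX
    show psiR S.N.u r (npr S.N.u X) * ‖zz S.N.u X‖ ^ 2 * hwt S.N.u (S.N.W.P X) X = 0
    unfold psiR
    rw [hker.2.1 _ hX]
    simp
  have hfi : Integrable f S.N.μ :=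
    hok.integrable_of_bdd S.N_Ω hr0 (by linarith) hfm hfb hfz
  -- the mass of `A` in the cylinder
  have hAN : ENNReal.ofReal a ≤ S.N.μ A := by
    have h1 : S.N.W.μ A ≤ S.N.W.μ (A ∩ S.N.W.support) := by
      calc S.N.W.μ A ≤ S.N.W.μ (A ∩ S.N.W.support ∪ S.N.W.supportᶜ) := by
            refine measure_mono fun X hX => ?_
            by_cases hs : X ∈ S.N.W.support
            · exact Or.inl ⟨hX, hs⟩
            · exact Or.inr hs
        _ ≤ S.N.W.μ (A ∩ S.N.W.support) + S.N.W.μ S.N.W.supportᶜ := measure_union_le _ _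
        _ = S.N.W.μ (A ∩ S.N.W.support) := by rw [S.N.W.μ_compl_support, add_zero]
    have h2 : S.N.W.μ (A ∩ S.N.W.support) ≤ S.N.μ A := by
      unfold NCyl.μ
      rw [Measure.restrict_apply' hok.ok.measurableSet]
      refine measure_mono fun X hX => ⟨hX.1, ?_⟩
      have := (h4 X hX.2 (by linarith [(hAX X hX.1).1])).1.2
      rw [S.N_Ω, hNh]
      exact this
    exact hA.trans (h1.trans h2)
  have hpt : ∀ᵐ X ∂S.N.μ, X ∈ A → 5 * d ^ 2 ≤ f X := by
    filter_upwards [hok.ok.ae_mem, hlow] with X hX hl hXA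
    obtain ⟨q1, q2, q3⟩ := hAX X hXA
    obtain ⟨-, -, -, hρ⟩ := h4 X hX.1 (by linarith)
    have hρ' : rho S.N.u (npr S.N.u X) ≤ 0.26 * r := by linarith
    have hρ0 := rho_nonneg S.N.u (npr S.N.u X)
    have hw := hl (by linarith) q2
    have hz : d ≤ ‖zz S.N.u X‖ := q3 _ ⟨npr S.N.u X, rfl⟩
    have hdep : 0.93 ≤ dep S.N.u r (npr S.N.u X) := by
      unfold dep
      refine le_trans ?_ (le_max_right _ _)
      have : rho S.N.u (npr S.N.u X) ^ 2 / r ^ 2 ≤ 0.07 := by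
        rw [div_le_iff₀ (by positivity)]
        nlinarith
      linarith
    have hpsi : 10 ≤ psiR S.N.u r (npr S.N.u X) := by
      unfold psiR
      have : (0.93 : ℝ) ^ 9 ≤ dep S.N.u r (npr S.N.u X) ^ 9 := by gcongr
      norm_num at this ⊢
      linarith
    show 5 * d ^ 2 ≤ psiR S.N.u r (npr S.N.u X) * ‖zz S.N.u X‖ ^ 2 * hwt S.N.u (S.N.W.P X) X
    calc 5 * d ^ 2 = 10 * d ^ 2 * (1 / 2) := by ring
      _ ≤ _ := by gcongr
  have hmk := one_markov hf0 hfi (by positivity) hAN hpt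
  have hq : r ^ m * qH S.N r = ∫ X, f X ∂S.N.μ := by
    unfold qH
    rw [← mul_assoc, mul_inv_cancel₀ (by positivity), one_mul]
  rw [hq]
  nlinarith [mul_nonneg ha (sq_nonneg d)]

end Claimed.Agent.R322.Freq
end
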