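/- Packed by merge_tool.py (helper293): 6 modules of Claimed.Agent.R322 in one file, same declarations.
   Old modules, in this order: Fit.Pde.Param, Fit.Pde.Correct, Fit.Pde.Main, Fit.Glue.Center, Base.Entrance, Flat.Nest -/
import Claimed.Agent.R322.Fit.Pde.Real
import Claimed.Agent.R322.Fit.Glue.Jet
import Claimed.Prelude.Def_0507
import Claimed.Agent.R322.Pack009
import Claimed.Agent.R322.Pack006
import Claimed.Agent.R322.Pack015
import Claimed.Agent.R322.Pack050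
import Claimed.Agent.R322.Pack056
import Claimed.Agent.R322.Pack042
import Claimed.Agent.R322.Pack043

/- ===== packed: Claimed.Agent.R322.Fit.Pde.Param ===== -/
section
/-!
# Row 322, Fit/Pde: the local right inverse of the Laplacian as a Fourier multiplier; Picard iterates   (architect helper281)

`ψ ≥ 0` is an even bump with `∫ ψ = 1` which vanishes on a large ball `B_ρ`; `𝔪 ξ = (1 - 𝓕 ψ ξ)/(4π²|ξ|²)` (`= 0` at `ξ = 0`) is a bounded
symbol of order `-2`, and `S G = 𝓕⁻ (- 𝔪 𝓕 G)` satisfies `Δ S G = G - ψ ⋆ G`; `ψ ⋆ G = 0` on `B_R` if `G` is supported in `B_R`, `2R ≤ ρ`.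

`Kop c χ 𝔪 G = χ (Y ∂² S G + B ∂ S G)`;  Picard iterates `G_0 = G₀`, `G_{k+1} = G₀ - Kop G_k`.

PLANS.
* `exists_symbol`.  `β` = a normed `ContDiffBump` at `0` of outer radius `1` (`ContDiffBump.normed`, even: `ContDiffBump.normed_neg`),
  `p = (ρ + 2) e₀` (`m ≥ 1`), `ψ y = (β (y - p) + β (y + p))/2`.  `𝓕 ψ ξ = ∫ ψ(y) cos(2π⟨y,ξ⟩) dy` is real (evenness),
  `0 ≤ 1 - 𝓕 ψ ξ = ∫ ψ (1 - cos) ≤ min 2 (2π²|ξ|²(ρ+3)²)` (`1 - cos x ≤ x²/2`: `Real.one_sub_sq_div_two_le_cos`).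
  `𝔪 ξ := (1 - (𝓕 ψ ξ).re)/(4π²‖ξ‖²)`; for `|ξ| ≤ 1`: `𝔪 (1+|ξ|)² ≤ 2(ρ+3)²`; for `|ξ| ≥ 1`: `𝔪 (1+|ξ|)² ≤ 2·4/(4π²)`.
* `Sop` facts: `c = - 𝔪 𝓕 G ∈ InZ (r+2)` (`InZ.symbol_mul`), `pdv_syn`, `pdv_pdv_syn`, `contDiff_syn`.
* `lap_Sop`: `∑_a sy a ξ * (sy a ξ * (-𝔪 ξ * 𝓕 G ξ)) = 4π²|ξ|² 𝔪 𝓕 G = 𝓕 G - 𝓕 ψ 𝓕 G`; `syn_sum`, `syn_sub`, `InA.fourierInv`, `syn_conv`.
* `Kop_bound`: `χ Y_ab ∈ InA`, `nAz_syn_mul_le`, `nA_mul_le`, `|sy a sy b 𝔪| ≤ 4π² C`, `|sy e 𝔪| ≤ 2π C` (`nZ_symbol_mul_le` with `k = 0`).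
* `Pic_*`: induction on `k`.
-/

set_option autoImplicit false

open scoped ENNReal ContDiff Topology FourierTransform
open MeasureTheory

namespace Claimed.Agent.R322.Fit

variable {m n : ℕ}

/-- a parametrix symbol: the bump `ψ`, the symbol `𝔪`, its bound `C`, the radius `ρ` of the hole of `ψ`. -/
structure IsSymbol (ρ : ℝ) (ψ : E m → ℂ) (𝔪 : E m → ℝ) (C : ℝ) : Prop where
  smooth : ContDiff ℝ ∞ ψ
  cpt : HasCompactSupport ψ
  hole : ∀ y, ‖y‖ ≤ ρ → ψ y = 0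
  meas : Measurable 𝔪
  nonneg : ∀ ξ, 0 ≤ 𝔪 ξ
  bound : ∀ ξ, 𝔪 ξ * (1 + ‖ξ‖) ^ 2 ≤ C
  eq : ∀ ξ, ((4 * Real.pi ^ 2 * ‖ξ‖ ^ 2 * 𝔪 ξ : ℝ) : ℂ) = 1 - 𝓕 ψ ξ

theorem abs_phL_le (ξ y : E m) : |phL ξ y| ≤ 2 * Real.pi * ‖ξ‖ * ‖y‖ := by
  rw [phL_apply, abs_mul, abs_of_pos Real.two_pi_pos, mul_assoc (2 * Real.pi) ‖ξ‖ ‖y‖]
  exact mul_le_mul_of_nonneg_left (abs_real_inner_le_norm ξ y) Real.two_pi_pos.le

/-- every even nonnegative normalised bump with a hole gives a symbol. -/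
theorem isSymbol_of_even {ρ ρ' : ℝ} (ψr : E m → ℝ) (hs : ContDiff ℝ ∞ ψr)
    (h0 : ∀ y, 0 ≤ ψr y) (heven : ∀ y, ψr (-y) = ψr y) (hint : ∫ y, ψr y = 1)
    (hhole : ∀ y, ‖y‖ ≤ ρ → ψr y = 0) (hout : ∀ y, ρ' < ‖y‖ → ψr y = 0) :
    IsSymbol ρ (cx ψr) (fun ξ => (1 - (𝓕 (cx ψr) ξ).re) / (4 * Real.pi ^ 2 * ‖ξ‖ ^ 2))
      (2 * ρ' ^ 2 + 1) := by
  have hc : HasCompactSupport ψr :=
    HasCompactSupport.intro (isCompact_closedBall (0 : E m) ρ') fun y hy => hout y (by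
      rw [mem_closedBall_zero_iff, not_le] at hy
      exact hy)
  have hcont : Continuous ψr := hs.continuous
  have hψi : Integrable ψr := hcont.integrable_of_hasCompactSupport hc
  have hgi : ∀ g : ℝ → ℝ, Continuous g → ∀ ξ : E m, Integrable (fun y => ψr y * g (phL ξ y)) :=
    fun g hg ξ => (hcont.mul (hg.comp (phL ξ).continuous)).integrable_of_hasCompactSupport
      hc.mul_right
  -- the sine part vanishes
  have hsin : ∀ ξ : E m, ∫ y, ψr y * Real.sin (phL ξ y) = 0 := by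
    intro ξ
    have h1 : ∫ y, ψr y * Real.sin (phL ξ y) = ∫ y, ψr (-y) * Real.sin (phL ξ (-y)) :=
      (integral_neg_eq_self (fun y => ψr y * Real.sin (phL ξ y)) volume).symm
    have h2 : ∫ y, ψr (-y) * Real.sin (phL ξ (-y)) = - ∫ y, ψr y * Real.sin (phL ξ y) := by
      rw [← integral_neg]
      refine integral_congr_ae (Filter.Eventually.of_forall fun y => ?_)
      simp only [heven, map_neg, Real.sin_neg]
      ring
    linarith
  have hF : ∀ ξ : E m, 𝓕 (cx ψr) ξ = ((∫ y, ψr y * Real.cos (phL ξ y) : ℝ) : ℂ) := by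
    intro ξ
    have h1 := fourier_cutoff_eq hcont hc (f := fun _ => (1 : ℂ)) continuous_const ξ
    simp only [mul_one, one_mul] at h1
    have h2 : (fun y => ((ψr y : ℝ) : ℂ)) = cx ψr := rfl
    rw [h2, integral_complex_ofReal, integral_complex_ofReal, hsin] at h1
    simpa using h1
  have hnum : ∀ ξ : E m, 1 - (𝓕 (cx ψr) ξ).re = ∫ y, ψr y * (1 - Real.cos (phL ξ y)) := by
    intro ξ
    rw [hF, Complex.ofReal_re]
    calc 1 - ∫ y, ψr y * Real.cos (phL ξ y)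
        = (∫ y, ψr y) - ∫ y, ψr y * Real.cos (phL ξ y) := by rw [hint]
      _ = ∫ y, (ψr y - ψr y * Real.cos (phL ξ y)) :=
          (integral_sub hψi (hgi _ Real.continuous_cos ξ)).symm
      _ = _ := by
          refine integral_congr_ae (Filter.Eventually.of_forall fun y => ?_)
          simp only
          ring
  have hnn : ∀ ξ : E m, 0 ≤ 1 - (𝓕 (cx ψr) ξ).re := by
    intro ξ
    rw [hnum]
    exact integral_nonneg fun y => mul_nonneg (h0 y) (by have := Real.cos_le_one (phL ξ y); linarith)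
  have hi1 : ∀ ξ : E m, Integrable (fun y => ψr y * (1 - Real.cos (phL ξ y))) := fun ξ =>
    hgi (fun x => 1 - Real.cos x) (continuous_const.sub Real.continuous_cos) ξ
  have hle2 : ∀ ξ : E m, 1 - (𝓕 (cx ψr) ξ).re ≤ 2 := by
    intro ξ
    rw [hnum]
    calc ∫ y, ψr y * (1 - Real.cos (phL ξ y)) ≤ ∫ y, ψr y * 2 := by
          refine integral_mono (hi1 ξ) (hψi.mul_const 2) fun y => ?_
          exact mul_le_mul_of_nonneg_left (by have := Real.neg_one_le_cos (phL ξ y); linarith) (h0 y)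
      _ = 2 := by rw [integral_mul_const, hint, one_mul]
  have hleq : ∀ ξ : E m, 1 - (𝓕 (cx ψr) ξ).re ≤ (2 * Real.pi * ‖ξ‖ * ρ') ^ 2 / 2 := by
    intro ξ
    rw [hnum]
    calc ∫ y, ψr y * (1 - Real.cos (phL ξ y))
        ≤ ∫ y, ψr y * ((2 * Real.pi * ‖ξ‖ * ρ') ^ 2 / 2) := by
          refine integral_mono (hi1 ξ) (hψi.mul_const _) fun y => ?_
          simp only
          by_cases hy : ρ' < ‖y‖
          · rw [hout y hy, zero_mul, zero_mul]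
          · refine mul_le_mul_of_nonneg_left ?_ (h0 y)
            have h1 := Real.one_sub_sq_div_two_le_cos (x := phL ξ y)
            have h2 : |phL ξ y| ≤ 2 * Real.pi * ‖ξ‖ * ρ' :=
              (abs_phL_le ξ y).trans (mul_le_mul_of_nonneg_left (not_lt.mp hy) (by positivity))
            have h3 : (phL ξ y) ^ 2 ≤ (2 * Real.pi * ‖ξ‖ * ρ') ^ 2 := sq_le_sq' (by
              have := neg_abs_le (phL ξ y); linarith) ((le_abs_self _).trans h2)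
            linarith
      _ = (2 * Real.pi * ‖ξ‖ * ρ') ^ 2 / 2 := by rw [integral_mul_const, hint, one_mul]
  have hFc : Continuous (𝓕 (cx ψr)) := continuous_fourier
    ((contDiff_cx (k := ⊤) hs).continuous.integrable_of_hasCompactSupport (hasCompactSupport_cx hc))
  refine ⟨contDiff_cx (k := ⊤) hs, hasCompactSupport_cx hc, fun y hy => by simp [cx, hhole y hy],
    ?_, fun ξ => div_nonneg (hnn ξ) (by positivity), fun ξ => ?_, fun ξ => ?_⟩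
  · exact (measurable_const.sub (Complex.continuous_re.comp hFc).measurable).div
      (measurable_const.mul (measurable_norm.pow_const 2))
  · have hpi := Real.pi_gt_three
    rcases eq_or_ne ξ 0 with rfl | hξ
    · simp only [norm_zero]
      norm_num
      positivity
    have hξ0 : 0 < ‖ξ‖ := norm_pos_iff.mpr hξ
    rw [div_mul_eq_mul_div, div_le_iff₀ (by positivity)]
    rcases le_total ‖ξ‖ 1 with h1 | h1
    · have h4 : (1 + ‖ξ‖) ^ 2 ≤ 4 := by nlinarith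
      calc (1 - (𝓕 (cx ψr) ξ).re) * (1 + ‖ξ‖) ^ 2
          ≤ ((2 * Real.pi * ‖ξ‖ * ρ') ^ 2 / 2) * 4 :=
            mul_le_mul (hleq ξ) h4 (by positivity) (by positivity)
        _ = 2 * ρ' ^ 2 * (4 * Real.pi ^ 2 * ‖ξ‖ ^ 2) := by ring
        _ ≤ (2 * ρ' ^ 2 + 1) * (4 * Real.pi ^ 2 * ‖ξ‖ ^ 2) :=
            mul_le_mul_of_nonneg_right (by linarith) (by positivity)
    · have h4 : (1 + ‖ξ‖) ^ 2 ≤ 4 * ‖ξ‖ ^ 2 := by nlinarith
      calc (1 - (𝓕 (cx ψr) ξ).re) * (1 + ‖ξ‖) ^ 2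
          ≤ 2 * (4 * ‖ξ‖ ^ 2) := mul_le_mul (hle2 ξ) h4 (by positivity) (by norm_num)
        _ ≤ 1 * (4 * Real.pi ^ 2 * ‖ξ‖ ^ 2) := by
            have h6 : (2 : ℝ) ≤ Real.pi ^ 2 := by nlinarith
            nlinarith [mul_le_mul_of_nonneg_right h6 (sq_nonneg ‖ξ‖)]
        _ ≤ (2 * ρ' ^ 2 + 1) * (4 * Real.pi ^ 2 * ‖ξ‖ ^ 2) :=
            mul_le_mul_of_nonneg_right (by nlinarith [sq_nonneg ρ']) (by positivity)
  · have hre : 𝓕 (cx ψr) ξ = (((𝓕 (cx ψr) ξ).re : ℝ) : ℂ) := by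
      rw [hF, Complex.ofReal_re]
    rcases eq_or_ne ξ 0 with rfl | hξ
    · have : 𝓕 (cx ψr) 0 = 1 := by
        rw [hF]
        have : ∀ y : E m, phL (0 : E m) y = 0 := fun y => by simp [phL_apply]
        simp only [this, Real.cos_zero, mul_one, hint, Complex.ofReal_one]
      simp [this]
    have hξ0 : 0 < ‖ξ‖ := norm_pos_iff.mpr hξ
    have h5 : 4 * Real.pi ^ 2 * ‖ξ‖ ^ 2 * ((1 - (𝓕 (cx ψr) ξ).re) / (4 * Real.pi ^ 2 * ‖ξ‖ ^ 2))
        = 1 - (𝓕 (cx ψr) ξ).re := by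
      field_simp
    rw [h5]
    conv_rhs => rw [hre]
    push_cast
    ring

/-- leaf L-Fit-Pde-symbol. -/
theorem exists_symbol (m : ℕ) (hm : 1 ≤ m) (ρ : ℝ) (hρ : 0 < ρ) :
    ∃ (ψ : E m → ℂ) (𝔪 : E m → ℝ) (C : ℝ), 0 < C ∧ IsSymbol ρ ψ 𝔪 C := by
  let f : ContDiffBump (0 : E m) := ⟨1 / 2, 1, by norm_num, by norm_num⟩
  set β : E m → ℝ := f.normed volume with hβ
  have hβ0 : ∀ z : E m, 1 ≤ ‖z‖ → β z = 0 := by
    intro z hz
    have h1 : z ∉ Function.support β := by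
      rw [hβ, f.support_normed_eq]
      simp only [Metric.mem_ball, dist_zero_right, not_lt]
      exact hz
    exact Function.notMem_support.mp h1
  set p : E m := EuclideanSpace.single (⟨0, hm⟩ : Fin m) (ρ + 2) with hp
  have hpn : ‖p‖ = ρ + 2 := by
    rw [hp, PiLp.norm_single, Real.norm_of_nonneg (by linarith)]
  set ψr : E m → ℝ := fun y => (β (y - p) + β (y + p)) / 2 with hψr
  have hβs : ContDiff ℝ ∞ β := f.contDiff_normed
  have hs : ContDiff ℝ ∞ ψr :=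
    ((hβs.comp (contDiff_id.sub contDiff_const)).add
      (hβs.comp (contDiff_id.add contDiff_const))).div_const 2
  have h0 : ∀ y, 0 ≤ ψr y := fun y =>
    div_nonneg (add_nonneg (f.nonneg_normed _) (f.nonneg_normed _)) (by norm_num)
  have heven : ∀ y, ψr (-y) = ψr y := by
    intro y
    simp only [hψr]
    have hneg : ∀ z, β (-z) = β z := fun z => f.normed_neg (μ := volume) z
    have h1 : β (-y - p) = β (y + p) := by
      rw [← hneg (y + p)]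
      congr 1
      abel
    have h2 : β (-y + p) = β (y - p) := by
      rw [← hneg (y - p)]
      congr 1
      abel
    rw [h1, h2, add_comm]
  have hβi : Integrable β := f.integrable_normed
  have hint : ∫ y, ψr y = 1 := by
    simp only [hψr]
    rw [integral_div, integral_add (hβi.comp_sub_right p) (hβi.comp_add_right p),
      integral_sub_right_eq_self β p, integral_add_right_eq_self β p, hβ, f.integral_normed]
    norm_num
  have hhole : ∀ y, ‖y‖ ≤ ρ → ψr y = 0 := by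
    intro y hy
    have h1 : 1 ≤ ‖y - p‖ := by
      have := norm_sub_norm_le p y
      rw [norm_sub_rev] at this
      linarith
    have h2 : 1 ≤ ‖y + p‖ := by
      have := norm_sub_norm_le p (-y)
      rw [sub_neg_eq_add, norm_neg, add_comm] at this
      linarith
    simp only [hψr, hβ0 _ h1, hβ0 _ h2]
    norm_num
  have hout : ∀ y, ρ + 3 < ‖y‖ → ψr y = 0 := by
    intro y hy
    have h1 : 1 ≤ ‖y - p‖ := by
      have := norm_sub_norm_le y p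
      linarith
    have h2 : 1 ≤ ‖y + p‖ := by
      have := norm_sub_norm_le y (-p)
      rw [sub_neg_eq_add, norm_neg] at this
      linarith
    simp only [hψr, hβ0 _ h1, hβ0 _ h2]
    norm_num
  exact ⟨cx ψr, _, 2 * (ρ + 3) ^ 2 + 1, by positivity,
    isSymbol_of_even ψr hs h0 heven hint hhole hout⟩

/-- the parametrix `S G = 𝓕⁻ (- 𝔪 𝓕 G)`. -/
noncomputable def Sop (𝔪 : E m → ℝ) (G : E m → ℂ) : E m → ℂ :=
  𝓕⁻ (fun ξ => -(𝔪 ξ : ℂ) * 𝓕 G ξ)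

/-- `Kop G = χ (Y ∂² S G + B ∂ S G)`. -/
noncomputable def Kop (c : CCoef m n) (χ : E m → ℂ) (𝔪 : E m → ℝ) (G : Fin n → E m → ℂ)
    (α : Fin n) (y : E m) : ℂ :=
  χ y * (∑ a, ∑ b, c.Y a b y * pdv a (pdv b (Sop 𝔪 (G α))) y
    + ∑ e, ∑ γ, c.B e α γ y * pdv e (Sop 𝔪 (G γ)) y)

/-- Picard iterates of `G = G₀ - Kop G`. -/
noncomputable def Pic (c : CCoef m n) (χ : E m → ℂ) (𝔪 : E m → ℝ) (G₀ : Fin n → E m → ℂ) :
    ℕ → Fin n → E m → ℂ
  | 0 => G₀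
  | k + 1 => fun α y => G₀ α y - Kop c χ 𝔪 (Pic c χ 𝔪 G₀ k) α y

variable {ρ C : ℝ} {ψ : E m → ℂ} {𝔪 : E m → ℝ}

/-! ### leaf L-Fit-Pde-Sop -/

theorem IsSymbol.norm_neg_le (h : IsSymbol ρ ψ 𝔪 C) (ξ : E m) :
    ‖-(𝔪 ξ : ℂ)‖ * (1 + ‖ξ‖) ^ 2 ≤ C := by
  rw [norm_neg, Complex.norm_real, Real.norm_of_nonneg (h.nonneg ξ)]
  exact h.bound ξ

theorem IsSymbol.inZ (h : IsSymbol ρ ψ 𝔪 C) {r : ℕ} {G : E m → ℂ} (hG : InA r G) :
    InZ (r + 2) (fun ξ => -(𝔪 ξ : ℂ) * 𝓕 G ξ) :=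
  InZ.symbol_mul (σ := fun ξ => -(𝔪 ξ : ℂ)) (Complex.measurable_ofReal.comp h.meas).neg
    h.norm_neg_le hG.inZ

theorem IsSymbol.nZ_le (h : IsSymbol ρ ψ 𝔪 C) (t : ℤ) (G : E m → ℂ) :
    nZ (t + 2) (fun ξ => -(𝔪 ξ : ℂ) * 𝓕 G ξ) ≤ ENNReal.ofReal C * nAz t G := by
  have := nZ_symbol_mul_le t 2 (σ := fun ξ => -(𝔪 ξ : ℂ)) (c := 𝓕 G) h.norm_neg_le
  exact_mod_cast this

theorem IsSymbol.contDiff_Sop (h : IsSymbol ρ ψ 𝔪 C) {r : ℕ} {G : E m → ℂ} (hG : InA r G) :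
    ContDiff ℝ (r + 2 : ℕ) (Sop 𝔪 G) :=
  contDiff_syn (h.inZ hG)

theorem IsSymbol.inA (h : IsSymbol ρ ψ 𝔪 C) (r : ℕ) : InA r ψ := InA.of_smooth h.smooth h.cpt r

theorem sum_sy_sq (ξ : E m) :
    ∑ a, sy a ξ * sy a ξ = -((4 * Real.pi ^ 2 * ‖ξ‖ ^ 2 : ℝ) : ℂ) := by
  rw [EuclideanSpace.norm_sq_eq]
  push_cast
  rw [Finset.mul_sum, ← Finset.sum_neg_distrib]
  refine Finset.sum_congr rfl fun a _ => ?_
  have h5 : ((‖ξ a‖ : ℝ) : ℂ) ^ 2 = ((ξ a : ℝ) : ℂ) * ((ξ a : ℝ) : ℂ) := by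
    rw [← Complex.ofReal_pow, Real.norm_eq_abs, sq_abs, sq, Complex.ofReal_mul]
  rw [h5]
  unfold sy
  have hI : Complex.I * Complex.I = -1 := Complex.I_mul_I
  linear_combination (4 * (Real.pi : ℂ) ^ 2 * ((ξ a : ℝ) : ℂ) * ((ξ a : ℝ) : ℂ)) * hI

/-- `Δ S G = G - ψ ⋆ G`. -/
theorem IsSymbol.lap_Sop (h : IsSymbol ρ ψ 𝔪 C) {G : E m → ℂ} (hG : InA 0 G) (y : E m) :
    ∑ a, pdv a (pdv a (Sop 𝔪 G)) y = G y - ∫ z, ψ (y - z) * G z := by
  have hc : InZ 2 (fun ξ => -(𝔪 ξ : ℂ) * 𝓕 G ξ) := h.inZ hG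
  unfold Sop
  simp only [pdv_pdv_syn hc]
  rw [← syn_sum _ (fun a _ => (InZ.sy_mul (r := 0) (InZ.sy_mul (r := 1) hc a) a).integrable)]
  have h1 : (fun ξ => ∑ a, sy a ξ * (sy a ξ * (-(𝔪 ξ : ℂ) * 𝓕 G ξ)))
      = fun ξ => 𝓕 G ξ - 𝓕 ψ ξ * 𝓕 G ξ := by
    funext ξ
    calc ∑ a, sy a ξ * (sy a ξ * (-(𝔪 ξ : ℂ) * 𝓕 G ξ))
        = (∑ a, sy a ξ * sy a ξ) * (-(𝔪 ξ : ℂ) * 𝓕 G ξ) := by
          rw [Finset.sum_mul]
          exact Finset.sum_congr rfl fun a _ => by ring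
      _ = ((4 * Real.pi ^ 2 * ‖ξ‖ ^ 2 * 𝔪 ξ : ℝ) : ℂ) * 𝓕 G ξ := by
          rw [sum_sy_sq]
          push_cast
          ring
      _ = (1 - 𝓕 ψ ξ) * 𝓕 G ξ := by rw [h.eq]
      _ = _ := by ring
  have hi : Integrable (fun ξ => 𝓕 ψ ξ * 𝓕 G ξ) :=
    hG.integrable_fourier.bdd_mul (c := ∫ y, ‖ψ y‖)
      (continuous_fourier (h.inA 0).integrable).aestronglyMeasurable
      (Filter.Eventually.of_forall fun ξ => norm_fourier_le ψ ξ)
  rw [h1, syn_sub hG.integrable_fourier hi, syn_conv (h.inA 0) hG, hG.fourierInv]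

/-- the far bump does not see the working ball. -/
theorem IsSymbol.conv_eq_zero (h : IsSymbol ρ ψ 𝔪 C) {G : E m → ℂ} {R : ℝ} (hR : 2 * R ≤ ρ)
    (hG : ∀ z, R ≤ ‖z‖ → G z = 0) {y : E m} (hy : ‖y‖ ≤ R) : ∫ z, ψ (y - z) * G z = 0 := by
  have h1 : ∀ z, ψ (y - z) * G z = 0 := by
    intro z
    rcases le_or_gt R ‖z‖ with hz | hz
    · rw [hG z hz, mul_zero]
    · rw [h.hole (y - z) ((norm_sub_le y z).trans (by linarith)), zero_mul]
  simp only [h1, integral_zero]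

theorem fourier_sub {f g : E m → ℂ} (hf : Integrable f) (hg : Integrable g) (ξ : E m) :
    𝓕 (fun y => f y - g y) ξ = 𝓕 f ξ - 𝓕 g ξ := by
  have hg' : Integrable (fun y => - g y) := hg.neg
  have := fourier_add hf hg' ξ
  rw [fourier_neg] at this
  simpa [sub_eq_add_neg] using this

theorem Sop_sub {G G' : E m → ℂ} (hG : InA 0 G) (hG' : InA 0 G') (h : IsSymbol ρ ψ 𝔪 C) :
    Sop 𝔪 (fun y => G y - G' y) = fun y => Sop 𝔪 G y - Sop 𝔪 G' y := by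
  funext y
  unfold Sop
  rw [← syn_sub (h.inZ hG).integrable (h.inZ hG').integrable]
  refine congrArg (fun g : E m → ℂ => 𝓕⁻ g y) ?_
  funext ξ
  rw [fourier_sub hG.integrable hG'.integrable]
  ring

/-! ### leaf L-Fit-Pde-Kop -/

theorem IsSymbol.pdv_Sop (h : IsSymbol ρ ψ 𝔪 C) {G : E m → ℂ} (hG : InA 0 G) (e : Fin m) :
    pdv e (Sop 𝔪 G) = 𝓕⁻ (fun ξ => sy e ξ * (-(𝔪 ξ : ℂ) * 𝓕 G ξ)) :=
  funext fun y => pdv_syn ((h.inZ hG).mono (by norm_num)) e y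

theorem IsSymbol.pdv_pdv_Sop (h : IsSymbol ρ ψ 𝔪 C) {G : E m → ℂ} (hG : InA 0 G) (a b : Fin m) :
    pdv a (pdv b (Sop 𝔪 G)) = 𝓕⁻ (fun ξ => sy a ξ * (sy b ξ * (-(𝔪 ξ : ℂ) * 𝓕 G ξ))) :=
  funext fun y => pdv_pdv_syn (h.inZ hG) a b y

theorem IsSymbol.Kop_eq (h : IsSymbol ρ ψ 𝔪 C) (c : CCoef m n) (χ : E m → ℂ)
    {G : Fin n → E m → ℂ} (hG : ∀ α, InA 0 (G α)) (α : Fin n) :
    Kop c χ 𝔪 G α = fun y =>
      ∑ a, ∑ b, (χ y * c.Y a b y) * 𝓕⁻ (fun ξ => sy a ξ * (sy b ξ * (-(𝔪 ξ : ℂ) * 𝓕 (G α) ξ))) y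
      + ∑ e, ∑ γ, (χ y * c.B e α γ y) * 𝓕⁻ (fun ξ => sy e ξ * (-(𝔪 ξ : ℂ) * 𝓕 (G γ) ξ)) y := by
  funext y
  unfold Kop
  simp only [h.pdv_pdv_Sop (hG _)]
  simp only [h.pdv_Sop (hG _)]
  rw [mul_add, Finset.mul_sum, Finset.mul_sum]
  congr 1
  · refine Finset.sum_congr rfl fun a _ => ?_
    rw [Finset.mul_sum]
    exact Finset.sum_congr rfl fun b _ => by ring
  · refine Finset.sum_congr rfl fun e _ => ?_
    rw [Finset.mul_sum]
    exact Finset.sum_congr rfl fun γ _ => by ring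

theorem IsSymbol.inA_Kop (h : IsSymbol ρ ψ 𝔪 C) {r : ℕ} {c : CCoef m n} (hc : c.Reg r)
    {χ : E m → ℂ} (hχ : InA r χ) {G : Fin n → E m → ℂ} (hG : ∀ α, InA r (G α)) (α : Fin n) :
    InA r (Kop c χ 𝔪 G α) := by
  rw [h.Kop_eq c χ (fun α => (hG α).mono (Nat.zero_le r)) α]
  refine InA.add ?_ ?_
  · exact InA.sum _ fun a _ => InA.sum _ fun b _ => InA.syn_mul (hχ.mul (hc.Y a b))
      (InZ.sy_mul (r := r) (InZ.sy_mul (r := r + 1) (h.inZ (hG α)) b) a)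
  · exact InA.sum _ fun e _ => InA.sum _ fun γ _ => InA.syn_mul (hχ.mul (hc.B e α γ))
      (InZ.sy_mul (r := r) ((h.inZ (hG γ)).mono (by omega)) e)

/-- `Kop` is bounded on every order `t`, `|t| ≤ r`, with small norm. -/
theorem IsSymbol.Kop_bound (h : IsSymbol ρ ψ 𝔪 C) {r : ℕ} {c : CCoef m n} (hc : c.Reg r)
    {χ : E m → ℂ} (hχ : InA r χ) {G : Fin n → E m → ℂ} (hG : ∀ α, InA 0 (G α)) (t : ℤ)
    (ht : t.natAbs ≤ r) :
    ∑ α, nAz t (Kop c χ 𝔪 G α)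
      ≤ ENNReal.ofReal ((2 * Real.pi) ^ 2 * C) * nA r χ * c.size r * ∑ α, nAz t (G α) := by
  have hc0 : c.Reg 0 := hc.mono (Nat.zero_le r)
  have hχ0 : InA 0 χ := hχ.mono (Nat.zero_le r)
  obtain ⟨Θ, hΘ⟩ : ∃ Θ : ℝ≥0∞, Θ = ENNReal.ofReal ((2 * Real.pi) ^ 2 * C) := ⟨_, rfl⟩
  obtain ⟨T, hT⟩ : ∃ T : ℝ≥0∞, T = ENNReal.ofReal (2 * Real.pi) := ⟨_, rfl⟩
  obtain ⟨x, hx⟩ : ∃ x : ℝ≥0∞, x = nA r χ := ⟨_, rfl⟩
  obtain ⟨Gt, hGt⟩ : ∃ Gt : ℝ≥0∞, Gt = ∑ α, nAz t (G α) := ⟨_, rfl⟩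
  rw [← hΘ, ← hx, ← hGt]
  have hTT : T * T * ENNReal.ofReal C = Θ := by
    rw [hT, hΘ, ← ENNReal.ofReal_mul (by positivity), ← ENNReal.ofReal_mul (by positivity), sq]
  have hT1 : T ≤ T * T := by
    have h1 : 1 ≤ T := by
      rw [hT, ENNReal.one_le_ofReal]
      have := Real.pi_gt_three
      linarith
    calc T = 1 * T := (one_mul T).symm
      _ ≤ T * T := mul_le_mul' h1 le_rfl
  have hZ2 : ∀ α a b, InZ 0 (fun ξ => sy a ξ * (sy b ξ * (-(𝔪 ξ : ℂ) * 𝓕 (G α) ξ))) :=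
    fun α a b => InZ.sy_mul (r := 0) (InZ.sy_mul (r := 1) (h.inZ (hG α)) b) a
  have hZ1 : ∀ α e, InZ 0 (fun ξ => sy e ξ * (-(𝔪 ξ : ℂ) * 𝓕 (G α) ξ)) :=
    fun α e => InZ.sy_mul (r := 0) ((h.inZ (hG α)).mono (by norm_num)) e
  have hn2 : ∀ α a b, nZ t (fun ξ => sy a ξ * (sy b ξ * (-(𝔪 ξ : ℂ) * 𝓕 (G α) ξ)))
      ≤ Θ * nAz t (G α) := by
    intro α a b
    have e1 : t + 1 + 1 = t + 2 := by ring
    calc nZ t (fun ξ => sy a ξ * (sy b ξ * (-(𝔪 ξ : ℂ) * 𝓕 (G α) ξ)))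
        ≤ T * nZ (t + 1) (fun ξ => sy b ξ * (-(𝔪 ξ : ℂ) * 𝓕 (G α) ξ)) := by
          rw [hT]; exact nZ_sy_mul_le t _ a
      _ ≤ T * (T * nZ (t + 2) (fun ξ => -(𝔪 ξ : ℂ) * 𝓕 (G α) ξ)) := by
          rw [hT, ← e1]; exact mul_le_mul' le_rfl (nZ_sy_mul_le (t + 1) _ b)
      _ ≤ T * (T * (ENNReal.ofReal C * nAz t (G α))) :=
          mul_le_mul' le_rfl (mul_le_mul' le_rfl (h.nZ_le t (G α)))
      _ = _ := by rw [← hTT]; ring
  have hn1 : ∀ α e, nZ t (fun ξ => sy e ξ * (-(𝔪 ξ : ℂ) * 𝓕 (G α) ξ)) ≤ Θ * nAz t (G α) := by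
    intro α e
    calc nZ t (fun ξ => sy e ξ * (-(𝔪 ξ : ℂ) * 𝓕 (G α) ξ))
        ≤ T * nZ (t + 1) (fun ξ => -(𝔪 ξ : ℂ) * 𝓕 (G α) ξ) := by
          rw [hT]; exact nZ_sy_mul_le t _ e
      _ ≤ (T * T) * nZ (t + 2) (fun ξ => -(𝔪 ξ : ℂ) * 𝓕 (G α) ξ) :=
          mul_le_mul' hT1 (nZ_mono (by linarith) _)
      _ ≤ (T * T) * (ENNReal.ofReal C * nAz t (G α)) := mul_le_mul' le_rfl (h.nZ_le t (G α))
      _ = _ := by rw [← hTT]; ring
  have hmul : ∀ (f : E m → ℂ), InA r f → ∀ cc : E m → ℂ, InZ 0 cc →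
      nAz t (fun y => (χ y * f y) * 𝓕⁻ cc y) ≤ x * nA r f * nZ t cc := by
    intro f hf cc hcc
    have hf0 : InA 0 f := hf.mono (Nat.zero_le r)
    calc nAz t (fun y => (χ y * f y) * 𝓕⁻ cc y)
        ≤ nA t.natAbs (fun y => χ y * f y) * nZ t cc := nAz_syn_mul_le t (hχ0.mul hf0) hcc
      _ ≤ nA r (fun y => χ y * f y) * nZ t cc := mul_le_mul' (nA_mono ht _) le_rfl
      _ ≤ (nA r χ * nA r f) * nZ t cc := mul_le_mul' (nA_mul_le r hχ0 hf0) le_rfl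
      _ = _ := by rw [hx]
  have hGα : ∀ α, nAz t (G α) ≤ Gt := fun α => by
    rw [hGt]
    exact Finset.single_le_sum (f := fun α => nAz t (G α)) (fun _ _ => bot_le) (Finset.mem_univ α)
  have hone : ∀ α, nAz t (Kop c χ 𝔪 G α)
      ≤ Θ * x * (∑ a, ∑ b, nA r (c.Y a b)) * nAz t (G α)
        + Θ * x * (∑ e, ∑ γ, nA r (c.B e α γ)) * Gt := by
    intro α
    rw [h.Kop_eq c χ hG α]
    have iY : ∀ a b, InA 0 (fun y => (χ y * c.Y a b y)
        * 𝓕⁻ (fun ξ => sy a ξ * (sy b ξ * (-(𝔪 ξ : ℂ) * 𝓕 (G α) ξ))) y) :=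
      fun a b => InA.syn_mul (hχ0.mul (hc0.Y a b)) (hZ2 α a b)
    have iB : ∀ e γ, InA 0 (fun y => (χ y * c.B e α γ y)
        * 𝓕⁻ (fun ξ => sy e ξ * (-(𝔪 ξ : ℂ) * 𝓕 (G γ) ξ)) y) :=
      fun e γ => InA.syn_mul (hχ0.mul (hc0.B e α γ)) (hZ1 γ e)
    refine (nAz_add_le t (InA.sum _ fun a _ => InA.sum _ fun b _ => iY a b).integrable
      (InA.sum _ fun e _ => InA.sum _ fun γ _ => iB e γ).integrable).trans (add_le_add ?_ ?_)
    · refine (nAz_sum_le t _ fun a _ => (InA.sum _ fun b _ => iY a b).integrable).trans ?_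
      rw [Finset.mul_sum, Finset.sum_mul]
      refine Finset.sum_le_sum fun a _ => ?_
      refine (nAz_sum_le t _ fun b _ => (iY a b).integrable).trans ?_
      rw [Finset.mul_sum, Finset.sum_mul]
      refine Finset.sum_le_sum fun b _ => ?_
      calc _ ≤ x * nA r (c.Y a b) * nZ t _ := hmul _ (hc.Y a b) _ (hZ2 α a b)
        _ ≤ x * nA r (c.Y a b) * (Θ * nAz t (G α)) := mul_le_mul' le_rfl (hn2 α a b)
        _ = _ := by ring
    · refine (nAz_sum_le t _ fun e _ => (InA.sum _ fun γ _ => iB e γ).integrable).trans ?_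
      rw [Finset.mul_sum, Finset.sum_mul]
      refine Finset.sum_le_sum fun e _ => ?_
      refine (nAz_sum_le t _ fun γ _ => (iB e γ).integrable).trans ?_
      rw [Finset.mul_sum, Finset.sum_mul]
      refine Finset.sum_le_sum fun γ _ => ?_
      calc _ ≤ x * nA r (c.B e α γ) * nZ t _ := hmul _ (hc.B e α γ) _ (hZ1 γ e)
        _ ≤ x * nA r (c.B e α γ) * (Θ * Gt) :=
            mul_le_mul' le_rfl ((hn1 γ e).trans (mul_le_mul' le_rfl (hGα γ)))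
        _ = _ := by ring
  calc ∑ α, nAz t (Kop c χ 𝔪 G α)
      ≤ ∑ α, (Θ * x * (∑ a, ∑ b, nA r (c.Y a b)) * nAz t (G α)
        + Θ * x * (∑ e, ∑ γ, nA r (c.B e α γ)) * Gt) := Finset.sum_le_sum fun α _ => hone α
    _ = Θ * x * c.size r * Gt := by
        rw [Finset.sum_add_distrib, ← Finset.mul_sum, ← hGt, ← Finset.sum_mul, ← Finset.mul_sum,
          Finset.sum_comm (f := fun α e => ∑ γ, nA r (c.B e α γ))]
        unfold CCoef.size
        ring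

theorem IsSymbol.Kop_sub (h : IsSymbol ρ ψ 𝔪 C) (c : CCoef m n) (χ : E m → ℂ)
    {G G' : Fin n → E m → ℂ} (hG : ∀ α, InA 0 (G α)) (hG' : ∀ α, InA 0 (G' α)) (α : Fin n)
    (y : E m) :
    Kop c χ 𝔪 (fun γ y => G γ y - G' γ y) α y = Kop c χ 𝔪 G α y - Kop c χ 𝔪 G' α y := by
  have hd : ∀ γ, ContDiff ℝ 2 (Sop 𝔪 (G γ)) := fun γ => h.contDiff_Sop (hG γ)
  have hd' : ∀ γ, ContDiff ℝ 2 (Sop 𝔪 (G' γ)) := fun γ => h.contDiff_Sop (hG' γ)
  have h1 : ∀ γ e z, pdv e (Sop 𝔪 (fun y => G γ y - G' γ y)) z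
      = pdv e (Sop 𝔪 (G γ)) z - pdv e (Sop 𝔪 (G' γ)) z := by
    intro γ e z
    rw [Sop_sub (hG γ) (hG' γ) h]
    unfold pdv
    rw [fderiv_fun_sub ((hd γ).differentiable (by norm_num) z)
      ((hd' γ).differentiable (by norm_num) z)]
    rfl
  have h2 : ∀ γ a b, pdv a (pdv b (Sop 𝔪 (fun y => G γ y - G' γ y))) y
      = pdv a (pdv b (Sop 𝔪 (G γ))) y - pdv a (pdv b (Sop 𝔪 (G' γ))) y := by
    intro γ a b
    have e1 : pdv b (Sop 𝔪 (fun y => G γ y - G' γ y))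
        = fun z => pdv b (Sop 𝔪 (G γ)) z - pdv b (Sop 𝔪 (G' γ)) z := funext fun z => h1 γ b z
    rw [e1]
    have d1 : Differentiable ℝ (pdv b (Sop 𝔪 (G γ))) :=
      (Boot.contDiff_pdv (k := 1) (by exact_mod_cast hd γ) b).differentiable (by norm_num)
    have d2 : Differentiable ℝ (pdv b (Sop 𝔪 (G' γ))) :=
      (Boot.contDiff_pdv (k := 1) (by exact_mod_cast hd' γ) b).differentiable (by norm_num)
    show fderiv ℝ (fun z => pdv b (Sop 𝔪 (G γ)) z - pdv b (Sop 𝔪 (G' γ)) z) y _ = _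
    rw [fderiv_fun_sub (d1 y) (d2 y)]
    rfl
  unfold Kop
  simp only [h1, h2, mul_sub, Finset.sum_sub_distrib]
  ring

/-- the operator applied to the parametrix, at a point where `χ = 1`. -/
theorem IsSymbol.op_Sop (h : IsSymbol ρ ψ 𝔪 C) (c : CCoef m n) {χ : E m → ℂ}
    {G : Fin n → E m → ℂ} (hG : ∀ α, InA 0 (G α)) (α : Fin n) {y : E m} (hy : χ y = 1) :
    c.op (fun γ => Sop 𝔪 (G γ)) α y
      = G α y - (∫ z, ψ (y - z) * G α z) + Kop c χ 𝔪 G α y := by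
  unfold CCoef.op Kop
  rw [h.lap_Sop (hG α), hy, one_mul]
  ring

/-! ### leaf L-Fit-Pde-Pic -/

theorem IsSymbol.inA_Pic (h : IsSymbol ρ ψ 𝔪 C) {r : ℕ} {c : CCoef m n} (hc : c.Reg r)
    {χ : E m → ℂ} (hχ : InA r χ) {G₀ : Fin n → E m → ℂ} (hG : ∀ α, InA r (G₀ α)) (k : ℕ)
    (α : Fin n) : InA r (Pic c χ 𝔪 G₀ k α) := by
  induction k generalizing α with
  | zero => exact hG α
  | succ k ih => exact (hG α).sub (h.inA_Kop hc hχ ih α)

/-- the iterates vanish where `χ` and `G₀` vanish. -/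
theorem Pic_eq_zero (c : CCoef m n) {χ : E m → ℂ} (𝔪 : E m → ℝ) {G₀ : Fin n → E m → ℂ} {y : E m}
    (hχ : χ y = 0) (hG : ∀ α, G₀ α y = 0) (k : ℕ) (α : Fin n) : Pic c χ 𝔪 G₀ k α y = 0 := by
  cases k with
  | zero => exact hG α
  | succ k =>
    show G₀ α y - Kop c χ 𝔪 (Pic c χ 𝔪 G₀ k) α y = 0
    unfold Kop
    rw [hG α, hχ, zero_mul, sub_zero]

/-- geometric bounds for the iterates, on every order `t` with `|t| ≤ r` at once. -/
theorem IsSymbol.Pic_bound (h : IsSymbol ρ ψ 𝔪 C) {r : ℕ} {c : CCoef m n} (hc : c.Reg r)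
    {χ : E m → ℂ} (hχ : InA r χ)
    (hsmall : ENNReal.ofReal ((2 * Real.pi) ^ 2 * C) * nA r χ * c.size r ≤ 1 / 2)
    {G₀ : Fin n → E m → ℂ} (hG : ∀ α, InA r (G₀ α)) (t : ℤ) (ht : t.natAbs ≤ r) (k : ℕ) :
    ∑ α, nAz t (Pic c χ 𝔪 G₀ k α) ≤ 2 * ∑ α, nAz t (G₀ α) ∧
    ∑ α, nAz t (fun y => Pic c χ 𝔪 G₀ (k + 1) α y - Pic c χ 𝔪 G₀ k α y)
      ≤ (1 / 2) ^ (k + 1) * ∑ α, nAz t (G₀ α) := by
  have hP : ∀ k α, InA 0 (Pic c χ 𝔪 G₀ k α) := fun k α =>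
    (h.inA_Pic hc hχ hG k α).mono (Nat.zero_le r)
  have hK : ∀ G : Fin n → E m → ℂ, (∀ α, InA 0 (G α)) →
      ∑ α, nAz t (Kop c χ 𝔪 G α) ≤ 1 / 2 * ∑ α, nAz t (G α) := fun G hG' =>
    (h.Kop_bound hc hχ hG' t ht).trans (mul_le_mul' hsmall le_rfl)
  have hKA : ∀ G : Fin n → E m → ℂ, (∀ α, InA 0 (G α)) → ∀ α, InA 0 (Kop c χ 𝔪 G α) :=
    fun G hG' α => h.inA_Kop (hc.mono (Nat.zero_le r)) (hχ.mono (Nat.zero_le r)) hG' α
  obtain ⟨A, hA⟩ : ∃ A : ℝ≥0∞, A = ∑ α, nAz t (G₀ α) := ⟨_, rfl⟩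
  rw [← hA]
  have hhalf : (1 / 2 : ℝ≥0∞) * 2 = 1 := by
    rw [one_div]
    exact ENNReal.inv_mul_cancel (by simp) (by simp)
  constructor
  · induction k with
    | zero =>
      show ∑ α, nAz t (G₀ α) ≤ 2 * A
      rw [← hA, two_mul]
      exact le_self_add
    | succ k ih =>
      calc ∑ α, nAz t (Pic c χ 𝔪 G₀ (k + 1) α)
          ≤ ∑ α, (nAz t (G₀ α) + nAz t (Kop c χ 𝔪 (Pic c χ 𝔪 G₀ k) α)) :=
            Finset.sum_le_sum fun α _ => nAz_sub_le t ((hG α).integrable)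
              (hKA _ (hP k) α).integrable
        _ = A + ∑ α, nAz t (Kop c χ 𝔪 (Pic c χ 𝔪 G₀ k) α) := by
            rw [Finset.sum_add_distrib, ← hA]
        _ ≤ A + 1 / 2 * (2 * A) :=
            add_le_add le_rfl ((hK _ (hP k)).trans (mul_le_mul' le_rfl ih))
        _ = 2 * A := by rw [← mul_assoc, hhalf, one_mul, two_mul]
  · induction k with
    | zero =>
      have e : ∀ α, (fun y => Pic c χ 𝔪 G₀ (0 + 1) α y - Pic c χ 𝔪 G₀ 0 α y)
          = fun y => - Kop c χ 𝔪 G₀ α y := by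
        intro α
        funext y
        show G₀ α y - Kop c χ 𝔪 G₀ α y - G₀ α y = _
        ring
      simp only [e, nAz_neg]
      rw [zero_add, pow_one, hA]
      exact hK _ (fun α => (hG α).mono (Nat.zero_le r))
    | succ k ih =>
      have e : ∀ α, (fun y => Pic c χ 𝔪 G₀ (k + 1 + 1) α y - Pic c χ 𝔪 G₀ (k + 1) α y)
          = fun y => - Kop c χ 𝔪
            (fun γ y => Pic c χ 𝔪 G₀ (k + 1) γ y - Pic c χ 𝔪 G₀ k γ y) α y := by
        intro α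
        funext y
        rw [h.Kop_sub c χ (hP (k + 1)) (hP k)]
        show G₀ α y - Kop c χ 𝔪 (Pic c χ 𝔪 G₀ (k + 1)) α y
          - (G₀ α y - Kop c χ 𝔪 (Pic c χ 𝔪 G₀ k) α y) = _
        ring
      simp only [e, nAz_neg]
      calc _ ≤ 1 / 2 * ∑ α, nAz t (fun y => Pic c χ 𝔪 G₀ (k + 1) α y - Pic c χ 𝔪 G₀ k α y) :=
            hK _ (fun α => (hP (k + 1) α).sub (hP k α))
        _ ≤ 1 / 2 * ((1 / 2) ^ (k + 1) * A) := mul_le_mul' le_rfl ih
        _ = _ := by rw [pow_succ (1 / 2 : ℝ≥0∞) (k + 1)]; ring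

end Claimed.Agent.R322.Fit
end

/- ===== packed: Claimed.Agent.R322.Fit.Pde.Correct ===== -/
section
/-!
# Row 322, Fit/Pde: local solvability and the correction theorem (unit scale, complex)   (architect helper281)

* `solve_unit` : for `r ∈ A^{s-2}` there is `w = 𝓕⁻ cw`, `cw ∈ InZ s`, with `op w = r + ρ'` on `B_{R}`, `ρ'` as small as we like in `A^{s-2}`,
  and `cw` is bounded in the order `-(N+m+1)+2` by the weak norm of order `N` of `r` on `B_{R₀}`.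
* `correction_unit` : **PDE-2**.

PLANS.
* `solve_unit`.  `χ` = a smooth cutoff, `1` on `closedBall 0 R`, supported in `ball 0 R₀` (`exists_chainR`, index `0`); `ρ = 2 R₀`;
  `(ψ, 𝔪, C₀)` from `exists_symbol`; `σ = min (1/4) (1 / (2 (2π)² C₀ nA (s-2) χ))` (as a real number; `nA (s-2) χ < ∞`).
  `G₀ = χ r`, `G = Pic c χ 𝔪 G₀ K`, `cw α = - 𝔪 𝓕 (G α)`, `ρ' = Kop (Pic (K) - Pic (K-1))` with `K ≥ 1` so large that
  `(1/2)^{K+1} ∑ nA (s-2) (G₀ α) ≤ τ`.  For `y ∈ ball 0 R`: `IsSymbol.op_Sop` (`χ y = 1`), `IsSymbol.conv_eq_zero` (`Pic_eq_zero` outside `ball 0 R₀`),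
  `Pic K = G₀ - Kop (Pic (K-1))`, `IsSymbol.Kop_sub`: `op w = G₀ + Kop (Pic K - Pic (K-1)) = r + ρ'`.
  Bounds: `IsSymbol.nZ_le`, `IsSymbol.Pic_bound` with `t = -(N+m+1)`, `weak_to_neg N χ`.
* `correction_unit`.  Radii `R₁ < Ra < Rb < R₀` (thirds).  `r = op 𝗎 - F₀ ∈ A^{s-2}`; `solve_unit` on `(Rb, R₀)` gives `cw, ρ'`; `w = 𝓕⁻ cw`.
  `χ₃` = cutoff `1` on `closedBall 0 Ra`, supported in `ball 0 Rb`; `v' = χ₃ (𝗎 - w) ∈ InA s` (`InA.of_smooth`, `InA.syn_mul`);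
  `op v' = F₀ - ρ'` on `ball 0 Ra` (`CCoef.op_congr`, linearity of `op`); weak bound of order `q = N+m+1` of `v'` on `ball 0 Ra`:
  `weakLe_of_integral` for `𝗎`, `neg_to_weak` for `w` (`nZ (-q) ≤ nZ (-q+2)`).  `interior_unit` with `(s, q, R₁, Ra)` (`q + m + 4 ≤ s`) gives `χ₄`;
  `v = χ₄ v'`, `ρ = - ρ'`.
-/

set_option autoImplicit false

open scoped ENNReal ContDiff Topology FourierTransform
open MeasureTheory

namespace Claimed.Agent.R322.Fit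

variable {m n : ℕ}

theorem exists_half_pow_mul_le {A : ℝ≥0∞} (hA : A ≠ ⊤) {τ : ℝ} (hτ : 0 < τ) :
    ∃ k : ℕ, (1 / 2 : ℝ≥0∞) ^ (k + 1) * A ≤ ENNReal.ofReal τ := by
  obtain ⟨k, hk⟩ := exists_pow_lt_of_lt_one (x := τ / (A.toReal + 1)) (y := (1 / 2 : ℝ))
    (div_pos hτ (by positivity)) (by norm_num)
  refine ⟨k, ?_⟩
  have h1 : (1 / 2 : ℝ≥0∞) = ENNReal.ofReal (1 / 2) := by
    rw [ENNReal.ofReal_div_of_pos (by norm_num)]
    simp
  rw [h1, ← ENNReal.ofReal_pow (by norm_num), ← ENNReal.ofReal_toReal hA,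
    ← ENNReal.ofReal_mul (by positivity)]
  refine ENNReal.ofReal_le_ofReal ?_
  have h2 : (0 : ℝ) ≤ A.toReal := ENNReal.toReal_nonneg
  have h3 : (1 / 2 : ℝ) ^ (k + 1) ≤ (1 / 2 : ℝ) ^ k :=
    pow_le_pow_of_le_one (by norm_num) (by norm_num) (Nat.le_succ k)
  rw [lt_div_iff₀ (by positivity)] at hk
  have h4 : (0 : ℝ) ≤ (1 / 2 : ℝ) ^ k := by positivity
  nlinarith

/-- leaf L-Fit-Pde-solve. -/
theorem solve_unit (m n s N : ℕ) (hm : 1 ≤ m) (hs : N + m + 3 ≤ s) (R R₀ : ℝ) (h1 : 0 < R)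
    (h0 : R < R₀) :
    ∃ σ C : ℝ, 0 < σ ∧ 0 ≤ C ∧ ∀ (c : CCoef m n), c.Reg (s - 2) →
      c.size (s - 2) ≤ ENNReal.ofReal σ →
      ∀ (r : Fin n → E m → ℂ) (b τ : ℝ), 0 < τ → (∀ α, InA (s - 2) (r α)) →
        (∀ α, WeakLe N (Metric.ball 0 R₀) (r α) b) →
        ∃ cw ρ' : Fin n → E m → ℂ, (∀ α, InZ s (cw α)) ∧ (∀ α, InA (s - 2) (ρ' α)) ∧
          (∀ y ∈ Metric.ball (0 : E m) R, ∀ α, c.op (fun γ => 𝓕⁻ (cw γ)) α y = r α y + ρ' α y) ∧
          ∑ α, nA (s - 2) (ρ' α) ≤ ENNReal.ofReal τ ∧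
          ∑ α, nZ (-((N : ℤ) + m + 1) + 2) (cw α) ≤ ENNReal.ofReal (C * b) := by
  obtain ⟨χs, hχs, hχc, hχsupp, -, -, hχone⟩ := exists_chainR m R R₀ h1 h0
  set χr : E m → ℝ := χs 0 with hχr
  set χ : E m → ℂ := cx χr with hχ
  have hχ1 : ∀ y ∈ Metric.ball (0 : E m) R, χ y = 1 := by
    intro y hy
    have : χr y = 1 := (hχone 0 y (Metric.ball_subset_closedBall hy)).eq_of_nhds
    simp [hχ, cx, this]
  have hχ0 : ∀ y : E m, R₀ ≤ ‖y‖ → χ y = 0 := by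
    intro y hy
    have : χr y = 0 := image_eq_zero_of_notMem_tsupport fun hy' => by
      have := hχsupp 0 hy'
      rw [mem_ball_zero_iff] at this
      linarith
    simp [hχ, cx, this]
  have hR0 : 0 < R₀ := h1.trans h0
  obtain ⟨ψ, 𝔪, C₀, hC₀, hsym⟩ := exists_symbol m hm (2 * R₀) (by positivity)
  obtain ⟨Cw, hCw0, hCw⟩ := weak_to_neg N χr (hχs 0) (hχc 0)
  have hχA : ∀ k, InA k χ := fun k =>
    InA.of_smooth (contDiff_cx (k := ⊤) (hχs 0)) (hasCompactSupport_cx (hχc 0)) k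
  set a : ℝ := (nA (s - 2) χ).toReal with ha
  have ha0 : 0 ≤ a := ENNReal.toReal_nonneg
  have haeq : nA (s - 2) χ = ENNReal.ofReal a := (ENNReal.ofReal_toReal (hχA (s - 2)).fin.ne).symm
  refine ⟨1 / (2 * ((2 * Real.pi) ^ 2 * C₀ * a + 1)), C₀ * (2 * ((n : ℝ) * Cw)), by positivity,
    by positivity, ?_⟩
  intro c hc hsz r b τ hτ hr hweak
  have hsmall : ENNReal.ofReal ((2 * Real.pi) ^ 2 * C₀) * nA (s - 2) χ * c.size (s - 2) ≤ 1 / 2 := by
    calc ENNReal.ofReal ((2 * Real.pi) ^ 2 * C₀) * nA (s - 2) χ * c.size (s - 2)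
        ≤ ENNReal.ofReal ((2 * Real.pi) ^ 2 * C₀) * ENNReal.ofReal a
          * ENNReal.ofReal (1 / (2 * ((2 * Real.pi) ^ 2 * C₀ * a + 1))) := by
          rw [haeq]
          exact mul_le_mul' le_rfl hsz
      _ = ENNReal.ofReal ((2 * Real.pi) ^ 2 * C₀ * a * (1 / (2 * ((2 * Real.pi) ^ 2 * C₀ * a + 1)))) := by
          rw [← ENNReal.ofReal_mul (by positivity), ← ENNReal.ofReal_mul (by positivity)]
      _ ≤ ENNReal.ofReal (1 / 2) := by
          refine ENNReal.ofReal_le_ofReal ?_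
          have hx : 0 ≤ (2 * Real.pi) ^ 2 * C₀ * a := by positivity
          rw [mul_one_div, div_le_iff₀ (by positivity)]
          linarith
      _ = 1 / 2 := by
          rw [ENNReal.ofReal_div_of_pos (by norm_num)]
          simp
  set G₀ : Fin n → E m → ℂ := fun α y => χ y * r α y with hG₀
  have hG₀A : ∀ α, InA (s - 2) (G₀ α) := fun α => (hχA _).mul (hr α)
  obtain ⟨A, hA⟩ : ∃ A : ℝ≥0∞, A = ∑ α, nA (s - 2) (G₀ α) := ⟨_, rfl⟩
  have hAfin : A ≠ ⊤ := by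
    rw [hA]
    exact (ENNReal.sum_lt_top.mpr fun α _ => (hG₀A α).fin).ne
  obtain ⟨k, hk⟩ := exists_half_pow_mul_le hAfin hτ
  have hP : ∀ j α, InA (s - 2) (Pic c χ 𝔪 G₀ j α) := fun j α =>
    hsym.inA_Pic hc (hχA _) hG₀A j α
  have hP0 : ∀ j α, InA 0 (Pic c χ 𝔪 G₀ j α) := fun j α => (hP j α).mono (Nat.zero_le _)
  have hs2 : s - 2 + 2 = s := by omega
  refine ⟨fun α ξ => -(𝔪 ξ : ℂ) * 𝓕 (Pic c χ 𝔪 G₀ (k + 1) α) ξ,
    Kop c χ 𝔪 (fun γ y => Pic c χ 𝔪 G₀ (k + 1) γ y - Pic c χ 𝔪 G₀ k γ y), fun α => ?_,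
    fun α => ?_, fun y hy α => ?_, ?_, ?_⟩
  · have := hsym.inZ (hP (k + 1) α)
    rwa [hs2] at this
  · exact hsym.inA_Kop hc (hχA _) (fun γ => (hP (k + 1) γ).sub (hP k γ)) α
  · have e1 := hsym.op_Sop c (χ := χ) (hP0 (k + 1)) α (hχ1 y hy)
    have hyR : ‖y‖ ≤ R₀ := by
      rw [mem_ball_zero_iff] at hy
      linarith
    have e2 : ∫ z, ψ (y - z) * Pic c χ 𝔪 G₀ (k + 1) α z = 0 :=
      hsym.conv_eq_zero (R := R₀) le_rfl (fun z hz => Pic_eq_zero c 𝔪 (hχ0 z hz)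
        (fun α => by simp only [hG₀, hχ0 z hz, zero_mul]) (k + 1) α) hyR
    have e3 : Pic c χ 𝔪 G₀ (k + 1) α y = G₀ α y - Kop c χ 𝔪 (Pic c χ 𝔪 G₀ k) α y := rfl
    have e4 : G₀ α y = r α y := by simp only [hG₀, hχ1 y hy, one_mul]
    show c.op (fun γ => Sop 𝔪 (Pic c χ 𝔪 G₀ (k + 1) γ)) α y = _
    rw [e1, e2, hsym.Kop_sub c χ (hP0 (k + 1)) (hP0 k), e3, e4]
    ring
  · have hnat : (((s - 2 : ℕ) : ℤ)).natAbs ≤ s - 2 := by simp
    have b1 := hsym.Kop_bound hc (hχA (s - 2))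
      (G := fun γ y => Pic c χ 𝔪 G₀ (k + 1) γ y - Pic c χ 𝔪 G₀ k γ y)
      (fun γ => (hP0 (k + 1) γ).sub (hP0 k γ)) ((s - 2 : ℕ) : ℤ) hnat
    have b2 := (hsym.Pic_bound hc (hχA (s - 2)) hsmall hG₀A ((s - 2 : ℕ) : ℤ) hnat k).2
    simp only [nAz_natCast] at b1 b2
    rw [← hA] at b2
    calc _ ≤ _ := b1
      _ ≤ 1 / 2 * ((1 / 2) ^ (k + 1) * A) := mul_le_mul' hsmall b2
      _ ≤ 1 * ((1 / 2) ^ (k + 1) * A) := mul_le_mul' (by
          rw [one_div]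
          exact ENNReal.inv_le_one.mpr (by norm_num)) le_rfl
      _ = (1 / 2) ^ (k + 1) * A := one_mul _
      _ ≤ _ := hk
  · have hnat : (-((N : ℤ) + m + 1)).natAbs ≤ s - 2 := by omega
    have b2 := (hsym.Pic_bound hc (hχA (s - 2)) hsmall hG₀A (-((N : ℤ) + m + 1)) hnat (k + 1)).1
    calc ∑ α, nZ (-((N : ℤ) + m + 1) + 2) (fun ξ => -(𝔪 ξ : ℂ) * 𝓕 (Pic c χ 𝔪 G₀ (k + 1) α) ξ)
        ≤ ∑ α, ENNReal.ofReal C₀ * nAz (-((N : ℤ) + m + 1)) (Pic c χ 𝔪 G₀ (k + 1) α) :=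
          Finset.sum_le_sum fun α _ => hsym.nZ_le _ _
      _ = ENNReal.ofReal C₀ * ∑ α, nAz (-((N : ℤ) + m + 1)) (Pic c χ 𝔪 G₀ (k + 1) α) :=
          (Finset.mul_sum _ _ _).symm
      _ ≤ ENNReal.ofReal C₀ * (2 * ∑ α, nAz (-((N : ℤ) + m + 1)) (G₀ α)) :=
          mul_le_mul' le_rfl b2
      _ ≤ ENNReal.ofReal C₀ * (2 * ∑ _α : Fin n, ENNReal.ofReal (Cw * b)) := by
          refine mul_le_mul' le_rfl (mul_le_mul' le_rfl (Finset.sum_le_sum fun α _ => ?_))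
          exact hCw _ (r α) b (hχsupp 0) (hr α).cont (hweak α)
      _ = ENNReal.ofReal (C₀ * (2 * ((n : ℝ) * Cw)) * b) := by
          rw [Finset.sum_const, Finset.card_univ, Fintype.card_fin, nsmul_eq_mul]
          have e : C₀ * (2 * ((n : ℝ) * Cw)) * b = C₀ * (2 * ((n : ℝ) * (Cw * b))) := by ring
          rw [e]
          generalize Cw * b = z
          rw [ENNReal.ofReal_mul hC₀.le, ENNReal.ofReal_mul (by norm_num),
            ENNReal.ofReal_mul (Nat.cast_nonneg n), ENNReal.ofReal_natCast, ENNReal.ofReal_ofNat]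

theorem pdv_sub' {f g : E m → ℂ} {z : E m} (hf : DifferentiableAt ℝ f z)
    (hg : DifferentiableAt ℝ g z) (e : Fin m) :
    pdv e (fun y => f y - g y) z = pdv e f z - pdv e g z := by
  unfold pdv
  rw [fderiv_fun_sub hf hg]
  rfl

theorem pdv_pdv_sub' {f g : E m → ℂ} (hf : ContDiff ℝ 2 f) (hg : ContDiff ℝ 2 g) (a b : Fin m)
    (z : E m) :
    pdv a (pdv b (fun y => f y - g y)) z = pdv a (pdv b f) z - pdv a (pdv b g) z := by
  have e1 : pdv b (fun y => f y - g y) = fun z => pdv b f z - pdv b g z := funext fun z =>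
    pdv_sub' (hf.differentiable (by norm_num) z) (hg.differentiable (by norm_num) z) b
  rw [e1]
  exact pdv_sub'
    ((Boot.contDiff_pdv (k := 1) (by exact_mod_cast hf) b).differentiable (by norm_num) z)
    ((Boot.contDiff_pdv (k := 1) (by exact_mod_cast hg) b).differentiable (by norm_num) z) a

theorem CCoef.op_sub (c : CCoef m n) {g g' : Fin n → E m → ℂ} (hg : ∀ α, ContDiff ℝ 2 (g α))
    (hg' : ∀ α, ContDiff ℝ 2 (g' α)) (α : Fin n) (y : E m) :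
    c.op (fun γ y => g γ y - g' γ y) α y = c.op g α y - c.op g' α y := by
  unfold CCoef.op
  simp only [pdv_pdv_sub' (hg _) (hg' _),
    pdv_sub' ((hg _).differentiable (by norm_num) _) ((hg' _).differentiable (by norm_num) _),
    mul_sub, Finset.sum_sub_distrib]
  ring

theorem CCoef.inA_op' (c : CCoef m n) {r : ℕ} (hc : c.Reg r) {g : Fin n → E m → ℂ}
    (hg : ∀ α, InA (r + 2) (g α)) (α : Fin n) : InA r (c.op g α) := by
  have h2 : ∀ α a b, InA r (pdv a (pdv b (g α))) := fun α a b =>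
    InA.pdv (r := r) (InA.pdv (r := r + 1) (hg α) b) a
  have h1 : ∀ α e, InA r (pdv e (g α)) := fun α e =>
    (InA.pdv (r := r + 1) (hg α) e).mono (Nat.le_succ r)
  exact ((InA.sum _ fun a _ => h2 α a a).add
    (InA.sum _ fun a _ => InA.sum _ fun b _ => (hc.Y a b).mul (h2 α a b))).add
    (InA.sum _ fun e _ => InA.sum _ fun γ _ => (hc.B e α γ).mul (h1 γ e))

theorem WeakLe.mono_const {N : ℕ} {O : Set (E m)} {f : E m → ℂ} {b b' : ℝ} (h : WeakLe N O f b)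
    (hb : b ≤ b') : WeakLe N O f b' :=
  fun φ A hφ => (h φ A hφ).trans (mul_le_mul_of_nonneg_right hb hφ.nonneg)

theorem WeakLe.neg {N : ℕ} {O : Set (E m)} {f : E m → ℂ} {b : ℝ} (h : WeakLe N O f b) :
    WeakLe N O (fun y => - f y) b := by
  intro φ A hφ
  have : ∫ y, - f y * (φ y : ℂ) = - ∫ y, f y * (φ y : ℂ) := by
    rw [← integral_neg]
    simp only [neg_mul]
  rw [this, norm_neg]
  exact h φ A hφ

theorem nA_neg (r : ℕ) (f : E m → ℂ) : nA r (fun y => - f y) = nA r f := by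
  rw [← nAz_natCast, ← nAz_natCast, nAz_neg]

theorem nA_sub_le (r : ℕ) {f g : E m → ℂ} (hf : Integrable f) (hg : Integrable g) :
    nA r (fun y => f y - g y) ≤ nA r f + nA r g := by
  simp only [← nAz_natCast]
  exact nAz_sub_le _ hf hg

/-- **PDE-2 (unit scale, complex).**  leaf L-Fit-Pde-correct. -/
theorem correction_unit (m n s N : ℕ) (hm : 1 ≤ m) (hs : N + 2 * m + 5 ≤ s) (R₁ R₀ : ℝ)
    (h1 : 0 < R₁) (h0 : R₁ < R₀) :
    ∃ σ C : ℝ, 0 < σ ∧ 0 ≤ C ∧ ∀ (c : CCoef m n), c.Reg (s - 2) →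
      c.size (s - 2) ≤ ENNReal.ofReal σ →
      ∀ (u F₀ : Fin n → E m → ℂ) (a b τ : ℝ), 0 < τ → (∀ α, ContDiff ℝ ∞ (u α)) →
        (∀ α, HasCompactSupport (u α)) → (∀ α, InA (s - 2) (F₀ α)) → (∀ α, ∫ y, ‖u α y‖ ≤ a) →
        (∀ α, WeakLe N (Metric.ball 0 R₀) (fun y => c.op u α y - F₀ α y) b) →
        ∃ v ρ' : Fin n → E m → ℂ, (∀ α, InA s (v α)) ∧ (∀ α, tsupport (v α) ⊆ Metric.ball 0 R₀) ∧
          (∀ α, InA (s - 2) (ρ' α)) ∧
          (∀ y ∈ Metric.ball (0 : E m) R₁, ∀ α, c.op v α y = F₀ α y + ρ' α y) ∧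
          ∑ α, nA (s - 2) (ρ' α) ≤ ENNReal.ofReal τ ∧
          ∑ α, nA s (v α)
            ≤ ENNReal.ofReal (C * (a + b + τ)) + ENNReal.ofReal C * ∑ α, nA (s - 2) (F₀ α) ∧
          (∀ α, WeakLe (N + m + 1) (Metric.ball 0 R₁) (fun y => v α y - u α y) (C * b)) := by
  set Ra : ℝ := R₁ + (R₀ - R₁) / 3 with hRa
  set Rb : ℝ := R₁ + 2 * (R₀ - R₁) / 3 with hRb
  have hd : 0 < R₀ - R₁ := by linarith
  have h1a : R₁ < Ra := by rw [hRa]; linarith
  have hab : Ra < Rb := by rw [hRa, hRb]; linarith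
  have hb0' : Rb < R₀ := by rw [hRb]; linarith
  have hRa0 : 0 < Ra := h1.trans h1a
  have hRb0 : 0 < Rb := hRa0.trans hab
  set q : ℕ := N + m + 1 with hq
  obtain ⟨σ₁, C₁, hσ₁, hC₁, hsolve⟩ := solve_unit m n s N hm (by omega) Rb R₀ hRb0 hb0'
  obtain ⟨χs, hχs, hχc, hχsupp, -, -, hχone⟩ := exists_chainR m Ra Rb hRa0 hab
  set χ₃ : E m → ℝ := χs 0 with hχ₃
  obtain ⟨χ₄, C₄, hχ₄s, hχ₄supp, hχ₄one, -, hC₄, hint⟩ :=
    interior_unit m n s q (by omega) R₁ Ra h1 h1a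
  obtain ⟨C₅, hC₅, hneg⟩ := neg_to_weak m q Ra
  have hχ₄c : HasCompactSupport χ₄ :=
    Metric.isCompact_of_isClosed_isBounded (isClosed_tsupport χ₄)
      (Metric.isBounded_ball.subset hχ₄supp)
  have hχ₃A : ∀ k, InA k (cx χ₃) := fun k =>
    InA.of_smooth (contDiff_cx (k := ⊤) (hχs 0)) (hasCompactSupport_cx (hχc 0)) k
  have hχ₄A : ∀ k, InA k (cx χ₄) := fun k =>
    InA.of_smooth (contDiff_cx (k := ⊤) hχ₄s) (hasCompactSupport_cx hχ₄c) k
  refine ⟨min σ₁ (1 / 4), C₄ * (1 + C₅ * C₁) + C₅ * C₁, lt_min hσ₁ (by norm_num), by positivity, ?_⟩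
  intro c hc hsz u F₀ a b τ hτ hus huc hF hua hweak
  have hsz1 : c.size (s - 2) ≤ ENNReal.ofReal σ₁ :=
    hsz.trans (ENNReal.ofReal_le_ofReal (min_le_left _ _))
  have hsz4 : c.size (s - 2) ≤ 1 / 4 := by
    refine hsz.trans ((ENNReal.ofReal_le_ofReal (min_le_right _ _)).trans (le_of_eq ?_))
    rw [ENNReal.ofReal_div_of_pos (by norm_num)]
    simp
  have huA : ∀ k α, InA k (u α) := fun k α => InA.of_smooth (hus α) (huc α) k
  have hopu : ∀ α, InA (s - 2) (c.op u α) := c.inA_op' hc (huA _)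
  obtain ⟨cw, ρ'', hcw, hρ'', hsol, hρτ, hcwb⟩ := hsolve c hc hsz1
    (fun α y => c.op u α y - F₀ α y) b τ hτ (fun α => (hopu α).sub (hF α)) hweak
  have hs2 : 2 ≤ s := by omega
  have hwC : ∀ γ, ContDiff ℝ 2 (𝓕⁻ (cw γ)) := fun γ =>
    (contDiff_syn (hcw γ)).of_le (by exact_mod_cast hs2)
  have huC : ∀ γ, ContDiff ℝ 2 (u γ) := fun γ => (hus γ).of_le ENat.LEInfty.out
  -- the first localisation
  set v' : Fin n → E m → ℂ := fun α y => cx χ₃ y * (u α y - 𝓕⁻ (cw α) y) with hv'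
  have hv'A : ∀ α, InA s (v' α) := by
    intro α
    have : v' α = fun y => cx χ₃ y * u α y - cx χ₃ y * 𝓕⁻ (cw α) y := by
      funext y
      simp only [hv']
      ring
    rw [this]
    exact ((hχ₃A s).mul (huA s α)).sub (InA.syn_mul (hχ₃A s) (hcw α))
  have hgerm3 : ∀ y ∈ Metric.ball (0 : E m) Ra, ∀ γ,
      v' γ =ᶠ[𝓝 y] fun y => u γ y - 𝓕⁻ (cw γ) y := by
    intro y hy γ
    filter_upwards [hχone 0 y (Metric.ball_subset_closedBall hy)] with z hz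
    have : χ₃ z = 1 := hz
    simp [hv', cx, this]
  set E' : Fin n → E m → ℂ := fun α y => F₀ α y - ρ'' α y with hE'
  have hE'A : ∀ α, InA (s - 2) (E' α) := fun α => (hF α).sub (hρ'' α)
  have hopv' : ∀ y ∈ Metric.ball (0 : E m) Ra, ∀ α, c.op v' α y = E' α y := by
    intro y hy α
    have hyb : y ∈ Metric.ball (0 : E m) Rb := Metric.ball_subset_ball hab.le hy
    rw [c.op_congr (hgerm3 y hy) α, c.op_sub huC hwC, hsol y hyb α]
    simp only [hE']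
    ring
  -- weak bounds
  have hww : ∀ α, WeakLe q (Metric.ball 0 Ra) (𝓕⁻ (cw α)) (C₅ * C₁ * b) := by
    intro α
    have hb0 : 0 ≤ b := (hweak α).nonneg
    refine (hneg (cw α) ((hcw α).mono (Nat.zero_le s))).mono_const ?_
    rw [mul_assoc]
    refine mul_le_mul_of_nonneg_left ?_ hC₅
    refine ENNReal.toReal_le_of_le_ofReal (mul_nonneg hC₁ hb0) ?_
    refine le_trans ?_ hcwb
    have hle : -((q : ℕ) : ℤ) ≤ -((N : ℤ) + m + 1) + 2 := by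
      rw [hq]
      push_cast
      linarith
    exact (nZ_mono hle (cw α)).trans
      (Finset.single_le_sum (f := fun α => nZ (-((N : ℤ) + m + 1) + 2) (cw α))
        (fun _ _ => bot_le) (Finset.mem_univ α))
  have hwcont : ∀ α, Continuous (𝓕⁻ (cw α)) := fun α => (hwC α).continuous
  have hwv' : ∀ α, WeakLe q (Metric.ball 0 Ra) (v' α) (a + C₅ * C₁ * b) := by
    intro α
    have h2 : WeakLe q (Metric.ball 0 Ra) (u α) a :=
      (weakLe_of_integral (huA 0 α).integrable (hua α) (Metric.ball 0 Ra)).mono (Nat.zero_le q)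
        le_rfl
    refine (h2.sub (hww α) (hus α).continuous (hwcont α) Metric.isBounded_ball).congr ?_
    intro y hy
    exact ((hgerm3 y hy α).eq_of_nhds).symm
  have hmain := hint c hc hsz4 v' E' (a + C₅ * C₁ * b) hv'A hE'A hopv' hwv'
  have hgerm4 : ∀ y ∈ Metric.ball (0 : E m) R₁, ∀ γ,
      (fun y => (χ₄ y : ℂ) * v' γ y) =ᶠ[𝓝 y] v' γ := by
    intro y hy γ
    filter_upwards [hχ₄one y (Metric.ball_subset_closedBall hy)] with z hz
    have : χ₄ z = 1 := hz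
    simp [this]
  refine ⟨fun α y => (χ₄ y : ℂ) * v' α y, fun α y => - ρ'' α y, fun α => (hχ₄A s).mul (hv'A α),
    fun α => ?_, fun α => (hρ'' α).neg, fun y hy α => ?_, ?_, ?_, fun α => ?_⟩
  · have h3 : tsupport (fun y => (χ₄ y : ℂ) * v' α y) ⊆ tsupport (fun y => (χ₄ y : ℂ)) :=
      tsupport_mul_subset_left
    have h4 : tsupport (fun y => (χ₄ y : ℂ)) ⊆ tsupport χ₄ :=
      tsupport_comp_subset (g := fun t : ℝ => (t : ℂ)) (by simp) _
    exact ((h3.trans h4).trans hχ₄supp).trans (Metric.ball_subset_ball (by linarith))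
  · rw [c.op_congr (hgerm4 y hy) α, hopv' y (Metric.ball_subset_ball h1a.le hy) α]
    simp only [hE']
    ring
  · simp only [nA_neg]
    exact hρτ
  · rcases isEmpty_or_nonempty (Fin n) with hn | ⟨⟨α₀⟩⟩
    · simp
    have hb0 : 0 ≤ b := (hweak α₀).nonneg
    have ha0 : 0 ≤ a := (integral_nonneg fun y => norm_nonneg _).trans (hua α₀)
    have hEs : ∑ α, nA (s - 2) (E' α) ≤ ∑ α, nA (s - 2) (F₀ α) + ENNReal.ofReal τ := by
      calc ∑ α, nA (s - 2) (E' α) ≤ ∑ α, (nA (s - 2) (F₀ α) + nA (s - 2) (ρ'' α)) :=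
            Finset.sum_le_sum fun α _ => nA_sub_le _ (hF α).integrable (hρ'' α).integrable
        _ = ∑ α, nA (s - 2) (F₀ α) + ∑ α, nA (s - 2) (ρ'' α) := Finset.sum_add_distrib
        _ ≤ _ := add_le_add le_rfl hρτ
    set Ct : ℝ := C₄ * (1 + C₅ * C₁) + C₅ * C₁ with hCt
    have hC4t : C₄ ≤ Ct := by
      rw [hCt]
      nlinarith [mul_nonneg hC₄ (mul_nonneg hC₅ hC₁), mul_nonneg hC₅ hC₁]
    calc ∑ α, nA s (fun y => (χ₄ y : ℂ) * v' α y)
        ≤ ENNReal.ofReal (C₄ * (a + C₅ * C₁ * b)) + ENNReal.ofReal C₄ * ∑ α, nA (s - 2) (E' α) :=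
          hmain
      _ ≤ ENNReal.ofReal (C₄ * (a + C₅ * C₁ * b))
          + ENNReal.ofReal C₄ * (∑ α, nA (s - 2) (F₀ α) + ENNReal.ofReal τ) :=
          add_le_add le_rfl (mul_le_mul' le_rfl hEs)
      _ = ENNReal.ofReal (C₄ * (a + C₅ * C₁ * b) + C₄ * τ)
          + ENNReal.ofReal C₄ * ∑ α, nA (s - 2) (F₀ α) := by
          rw [ENNReal.ofReal_add (by positivity) (by positivity), ENNReal.ofReal_mul hC₄ (q := τ)]
          ring
      _ ≤ ENNReal.ofReal (Ct * (a + b + τ)) + ENNReal.ofReal Ct * ∑ α, nA (s - 2) (F₀ α) := by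
          refine add_le_add (ENNReal.ofReal_le_ofReal ?_)
            (mul_le_mul' (ENNReal.ofReal_le_ofReal hC4t) le_rfl)
          have e1 : 0 ≤ C₅ * C₁ := mul_nonneg hC₅ hC₁
          have e2 : 0 ≤ C₄ * (C₅ * C₁) := mul_nonneg hC₄ e1
          rw [hCt]
          nlinarith [mul_nonneg e2 ha0, mul_nonneg e2 hτ.le, mul_nonneg e1 ha0,
            mul_nonneg e1 hb0, mul_nonneg e1 hτ.le, mul_nonneg hC₄ hb0]
  · have hb0 : 0 ≤ b := (hweak α).nonneg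
    have h5 : WeakLe q (Metric.ball 0 R₁) (fun y => - 𝓕⁻ (cw α) y) (C₅ * C₁ * b) :=
      ((hww α).mono le_rfl (Metric.ball_subset_ball h1a.le)).neg
    refine (h5.mono_const ?_).congr ?_
    · have e1 : 0 ≤ C₄ * (1 + C₅ * C₁) := by positivity
      nlinarith [mul_nonneg e1 hb0]
    · intro y hy
      have e1 := (hgerm4 y hy α).eq_of_nhds
      have e2 := (hgerm3 y (Metric.ball_subset_ball h1a.le hy) α).eq_of_nhds
      show -𝓕⁻ (cw α) y = (χ₄ y : ℂ) * v' α y - u α y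
      rw [e1, e2]
      ring

end Claimed.Agent.R322.Fit
end

/- ===== packed: Claimed.Agent.R322.Fit.Pde.Main ===== -/
section
/-!
# Row 322, Fit/Pde: the two elliptic theorems at scale `ℓ`, real form   (architect helper281)

**PDE-1** `interior` and **PDE-2** `correction`: the interface used by Fits/Step, Fits/Main.

Both are obtained from the unit scale complex versions (`interior_unit`, `correction_unit`) by
`w_s = Zm x ℓ w`, `c_s = (c.zoom x ℓ).toC`, right sides `ℓ² Zm x ℓ (·)`, weak bounds `b / ℓ^m`, and by taking real parts.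

PLAN of `interior`.  `(χ, C)` from `interior_unit`.  Given the data put `w_s α = Zm x ℓ (cxv w α)`, `E_s α = (ℓ² : ℂ) * Zm x ℓ (cxv E' α)`.
`Coef.Reg.zoom`, `Coef.size_zoom`, `InA.Zm`, `InA.const_mul`; the equation: `Coef.cxv_op` for `Zm x ℓ w`, `Coef.op_zoom`,
`x + ℓ z ∈ ball x (R₀ ℓ)` for `z ∈ ball 0 R₀`; the weak bound: `WeakV.weakLe`.  In the conclusion
`(χ z : ℂ) * w_s α z = Zm x ℓ (cxv (fun y => Uz x ℓ χ y • w y) α) z`, `nA_Zm`, `nA_const_mul`.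

PLAN of `correction`.  `(σ, C₀)` from `correction_unit`, `C = (n + 1) C₀`.  `u_s α = Zm x ℓ (cxv u α)`, `F_s α = ℓ² Zm x ℓ (cxv F₀ α)`, `a_s = a / ℓ^m`
(`integral_Zm`, `|u y α| ≤ |u y|`), `b_s = ℓ² b / ℓ^m`, `τ_s = ℓ² τ`.  Output `v_s, ρ_s`;  `v = Uz x ℓ (reV v_s)`, `ρ = ℓ⁻² • Uz x ℓ (reV ρ_s)`.
Equation: `Coef.op_zoom` for `v` (`Zm x ℓ v = reV v_s`), `Coef.cxv_op`, `Coef.toC_op_re`, real part of the unit equation.
Norms: `vAl_Uz`, `vAl_reV_le`.  Weak bound: `WeakV.of_weakLe`; `Zm x ℓ (cxv (v - u) α) = cx (re (v_s α - u_s α))`, and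
`∫ re(g) φ = re ∫ g φ`, `|re z| ≤ |z|`.
-/

set_option autoImplicit false

open scoped ENNReal ContDiff Topology FourierTransform RealInnerProductSpace
open MeasureTheory

namespace Claimed.Agent.R322.Fit

variable {m n : ℕ}

/-! ### auxiliary facts -/

theorem mem_ball_zoom {x z : E m} {R ℓ : ℝ} (hℓ : 0 < ℓ) (hz : z ∈ Metric.ball (0 : E m) R) :
    x + ℓ • z ∈ Metric.ball x (R * ℓ) := by
  rw [mem_ball_zero_iff] at hz
  rw [Metric.mem_ball, dist_eq_norm, add_sub_cancel_left, norm_smul, Real.norm_eq_abs,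
    abs_of_pos hℓ, mul_comm]
  exact mul_lt_mul_of_pos_right hz hℓ

theorem mem_ball_unzoom {x y : E m} {R ℓ : ℝ} (hℓ : 0 < ℓ) (hy : y ∈ Metric.ball x (R * ℓ)) :
    ℓ⁻¹ • (y - x) ∈ Metric.ball (0 : E m) R := by
  rw [Metric.mem_ball, dist_eq_norm] at hy
  rw [mem_ball_zero_iff, norm_smul, norm_inv, Real.norm_eq_abs, abs_of_pos hℓ,
    inv_mul_lt_iff₀ hℓ, mul_comm]
  exact hy

theorem enorm_ofReal_cast {t : ℝ} (ht : 0 ≤ t) : ‖((t : ℝ) : ℂ)‖ₑ = ENNReal.ofReal t := by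
  rw [← ofReal_norm, Complex.norm_real, Real.norm_eq_abs, abs_of_nonneg ht]

/-- the zoomed equation. -/
theorem Coef.op_zoom_cxv (c : Coef m n) (x : E m) (ℓ : ℝ) {w : E m → E n} (hw : ContDiff ℝ 2 w)
    (α : Fin n) (z : E m) :
    (c.zoom x ℓ).toC.op (fun α => Zm x ℓ (Boot.cxv w α)) α z
      = ((ℓ ^ 2 : ℝ) : ℂ) * Zm x ℓ (Boot.cxv (c.op w) α) z := by
  have h1 := Coef.cxv_op (c.zoom x ℓ) (contDiff_Zm x ℓ hw) α z
  have h2 : Boot.cxv (Zm x ℓ w) = fun α => Zm x ℓ (Boot.cxv w α) := rfl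
  rw [h2] at h1
  rw [← h1]
  unfold Boot.cxv Zm
  have h3 := Coef.op_zoom c x ℓ hw z
  unfold Zm at h3
  rw [h3]
  simp

theorem IsTsl.nonneg {F : Type*} [NormedAddCommGroup F] [NormedSpace ℝ F] {N : ℕ}
    {O : Set (E m)} {ℓ A : ℝ} {ζ : E m → F} (h : IsTsl N O ℓ A ζ) : 0 ≤ A := by
  have := h.bound 0 (Nat.zero_le N) 0
  rw [pow_zero, one_mul] at this
  exact (norm_nonneg _).trans this

theorem IsTsl.zero {F : Type*} [NormedAddCommGroup F] [NormedSpace ℝ F] (N : ℕ) (O : Set (E m))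
    (ℓ : ℝ) {A : ℝ} (hA : 0 ≤ A) : IsTsl N O ℓ A (fun _ : E m => (0 : F)) := by
  refine ⟨contDiff_const, ?_, fun j _ y => ?_⟩
  · have : tsupport (fun _ : E m => (0 : F)) = ∅ := by
      rw [tsupport_eq_empty_iff]
      rfl
    rw [this]
    exact Set.empty_subset _
  · have : iteratedFDeriv ℝ j (fun _ : E m => (0 : F)) y = 0 := by
      have h0 := iteratedFDeriv_fun_zero (𝕜 := ℝ) (E := E m) (F := F) (n := j)
      exact congrFun h0 y
    rw [this, norm_zero, mul_zero]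
    exact hA

theorem WeakV.nonneg {N : ℕ} {O : Set (E m)} {ℓ : ℝ} {w : E m → E n} {b : ℝ}
    (h : WeakV N O ℓ w b) : 0 ≤ b := by
  have := h _ 1 (IsTsl.zero N O ℓ zero_le_one)
  simpa using this

theorem WeakV.mono_bound {N : ℕ} {O : Set (E m)} {ℓ : ℝ} {w : E m → E n} {b b' : ℝ}
    (h : WeakV N O ℓ w b) (hb : b ≤ b') : WeakV N O ℓ w b' :=
  fun ζ A hζ => (h ζ A hζ).trans (mul_le_mul_of_nonneg_right hb hζ.nonneg)

theorem WeakLe.const_mul {N : ℕ} {O : Set (E m)} {f : E m → ℂ} {b : ℝ} (h : WeakLe N O f b)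
    (t : ℂ) : WeakLe N O (fun y => t * f y) (‖t‖ * b) := by
  intro φ A hφ
  have h1 : ∫ y, t * f y * (φ y : ℂ) = t * ∫ y, f y * (φ y : ℂ) := by
    rw [← integral_const_mul]
    simp only [mul_assoc]
  rw [h1, norm_mul, mul_assoc]
  exact mul_le_mul_of_nonneg_left (h φ A hφ) (norm_nonneg _)

theorem WeakLe.re {N : ℕ} {O : Set (E m)} {f : E m → ℂ} {b : ℝ} (h : WeakLe N O f b)
    (hf : Continuous f) (hO : Bornology.IsBounded O) : WeakLe N O (cx fun y => (f y).re) b := by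
  intro φ A hφ
  have h1 : ∫ y, cx (fun y => (f y).re) y * (φ y : ℂ)
      = (((∫ y, f y * (φ y : ℂ)).re : ℝ) : ℂ) := by
    have h2 : (∫ y, f y * (φ y : ℂ)).re = ∫ y, (f y * (φ y : ℂ)).re :=
      (integral_re (hφ.integrable_mul hO hf)).symm
    rw [h2, ← integral_complex_ofReal]
    refine integral_congr_ae (Filter.Eventually.of_forall fun y => ?_)
    simp [cx]
  rw [h1, Complex.norm_real]
  exact (Complex.abs_re_le_norm _).trans (h φ A hφ)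

theorem cxv_const_smul (t : ℝ) (u : E m → E n) (α : Fin n) :
    Boot.cxv (fun y => t • u y) α = fun y => (t : ℂ) * Boot.cxv u α y := by
  funext y
  simp [Boot.cxv]

theorem VIn.const_smul {r : ℕ} {w : E m → E n} (h : VIn r w) (t : ℝ) :
    VIn r (fun y => t • w y) := fun α => by
  rw [cxv_const_smul]
  exact (h α).const_mul _

theorem vAl_const_smul (r : ℕ) (ℓ : ℝ) {t : ℝ} (ht : 0 ≤ t) (w : E m → E n) :
    vAl r ℓ (fun y => t • w y) = ENNReal.ofReal t * vAl r ℓ w := by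
  unfold vAl
  rw [Finset.mul_sum]
  refine Finset.sum_congr rfl fun α _ => ?_
  rw [cxv_const_smul, nAl_const_mul, enorm_ofReal_cast ht]

/-- **PDE-1: interior estimate from a weak bound.**  The cutoff is `y ↦ χ ((y - x)/ℓ)`. -/
theorem interior (m n s N : ℕ) (hs : N + m + 4 ≤ s) (R₁ R₀ : ℝ) (h1 : 0 < R₁) (h0 : R₁ < R₀) :
    ∃ (χ : E m → ℝ) (C : ℝ), ContDiff ℝ ∞ χ ∧ tsupport χ ⊆ Metric.ball 0 R₀ ∧
      (∀ y ∈ Metric.closedBall (0 : E m) R₁, χ =ᶠ[𝓝 y] 1) ∧ (∀ y, 0 ≤ χ y ∧ χ y ≤ 1) ∧ 0 ≤ C ∧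
      ∀ (x : E m) (ℓ : ℝ), 0 < ℓ → ∀ c : Coef m n, c.Reg (s - 2) → c.sizel (s - 2) ℓ ≤ 1 / 4 →
      ∀ (w E' : E m → E n) (b : ℝ), VIn s w → VIn (s - 2) E' →
        (∀ y ∈ Metric.ball x (R₀ * ℓ), c.op w y = E' y) →
        WeakV N (Metric.ball x (R₀ * ℓ)) ℓ w b →
        vAl s ℓ (fun y => Uz x ℓ χ y • w y)
          ≤ ENNReal.ofReal (C * (b / ℓ ^ m)) + ENNReal.ofReal (C * ℓ ^ 2) * vAl (s - 2) ℓ E' := by
  obtain ⟨χ, C, hχ, hsupp, hone, h01, hC, H⟩ := interior_unit m n s N hs R₁ R₀ h1 h0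
  refine ⟨χ, C, hχ, hsupp, hone, h01, hC, ?_⟩
  intro x ℓ hℓ c hreg hsize w E' b hw hE heq hweak
  have hs2 : 2 ≤ s := by omega
  have hw2 : ContDiff ℝ 2 w := hw.contDiff.of_le (by exact_mod_cast hs2)
  have key := H (c.zoom x ℓ).toC (hreg.zoom x hℓ) (by rw [Coef.size_zoom c _ x hℓ]; exact hsize)
    (fun α => Zm x ℓ (Boot.cxv w α)) (fun α y => ((ℓ ^ 2 : ℝ) : ℂ) * Zm x ℓ (Boot.cxv E' α) y)
    (b / ℓ ^ m) (fun α => (hw α).Zm x hℓ) (fun α => ((hE α).Zm x hℓ).const_mul _)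
    (by
      intro z hz α
      rw [Coef.op_zoom_cxv c x ℓ hw2]
      unfold Zm Boot.cxv
      rw [heq _ (mem_ball_zoom hℓ hz)])
    (fun α => hweak.weakLe hℓ α)
  have hL : vAl s ℓ (fun y => Uz x ℓ χ y • w y)
      = ∑ α, nA s (fun y => (χ y : ℂ) * Zm x ℓ (Boot.cxv w α) y) := by
    unfold vAl
    refine Finset.sum_congr rfl fun α _ => ?_
    rw [← nA_Zm s x hℓ]
    congr 1
    funext z
    simp [Zm, Uz, Boot.cxv, smul_smul, inv_mul_cancel₀ hℓ.ne']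
  have hR : ∑ α, nA (s - 2) (fun y => ((ℓ ^ 2 : ℝ) : ℂ) * Zm x ℓ (Boot.cxv E' α) y)
      = ENNReal.ofReal (ℓ ^ 2) * vAl (s - 2) ℓ E' := by
    unfold vAl
    rw [Finset.mul_sum]
    refine Finset.sum_congr rfl fun α _ => ?_
    rw [nA_const_mul, nA_Zm _ x hℓ, enorm_ofReal_cast (by positivity)]
  rw [hL]
  refine key.trans (le_of_eq ?_)
  rw [hR, ENNReal.ofReal_mul (q := ℓ ^ 2) hC, mul_assoc]

/-- **PDE-2: the correction theorem.** -/
theorem correction (m n s N : ℕ) (hm : 1 ≤ m) (hs : N + 2 * m + 5 ≤ s) (R₁ R₀ : ℝ)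
    (h1 : 0 < R₁) (h0 : R₁ < R₀) :
    ∃ σ C : ℝ, 0 < σ ∧ 0 ≤ C ∧
      ∀ (x : E m) (ℓ : ℝ), 0 < ℓ → ∀ c : Coef m n, c.Reg (s - 2) →
      c.sizel (s - 2) ℓ ≤ ENNReal.ofReal σ →
      ∀ (u F₀ : E m → E n) (a b τ : ℝ), 0 < τ → ContDiff ℝ ∞ u → HasCompactSupport u →
        VIn (s - 2) F₀ → ∫ y, ‖u y‖ ≤ a →
        WeakV N (Metric.ball x (R₀ * ℓ)) ℓ (fun y => c.op u y - F₀ y) b →
        ∃ v ρ : E m → E n, VIn s v ∧ tsupport v ⊆ Metric.ball x (R₀ * ℓ) ∧ VIn (s - 2) ρ ∧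
          (∀ y ∈ Metric.ball x (R₁ * ℓ), c.op v y = F₀ y + ρ y) ∧
          vAl (s - 2) ℓ ρ ≤ ENNReal.ofReal τ ∧
          vAl s ℓ v ≤ ENNReal.ofReal (C * (a / ℓ ^ m + b * ℓ ^ 2 / ℓ ^ m + ℓ ^ 2 * τ))
            + ENNReal.ofReal (C * ℓ ^ 2) * vAl (s - 2) ℓ F₀ ∧
          WeakV (N + m + 1) (Metric.ball x (R₁ * ℓ)) ℓ (fun y => v y - u y) (C * (b * ℓ ^ 2)) := by
  obtain ⟨σ, C₀, hσ, hC₀, H⟩ := correction_unit m n s N hm hs R₁ R₀ h1 h0
  refine ⟨σ, (n + 1) * C₀, hσ, by positivity, ?_⟩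
  intro x ℓ hℓ c hreg hsize u F₀ a b τ hτ hu huc hF ha hweak
  have hs2 : 2 ≤ s := by omega
  have hb : 0 ≤ b := hweak.nonneg
  have ha0 : 0 ≤ a := (integral_nonneg fun y => norm_nonneg _).trans ha
  have hℓm : 0 < ℓ ^ m := by positivity
  have hu2 : ContDiff ℝ 2 u := hu.of_le (WithTop.coe_le_coe.2 le_top)
  have huV : ∀ r, VIn r u := fun r => VIn.of_smooth hu huc r
  have hl2 : ‖((ℓ ^ 2 : ℝ) : ℂ)‖ = ℓ ^ 2 := by
    rw [Complex.norm_real, Real.norm_eq_abs, abs_of_nonneg (by positivity)]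
  -- the unit scale data
  have hint : ∀ α, ∫ z, ‖Zm x ℓ (Boot.cxv u α) z‖ ≤ a / ℓ ^ m := by
    intro α
    have e1 : (fun z => ‖Zm x ℓ (Boot.cxv u α) z‖) = Zm x ℓ (fun y => ‖Boot.cxv u α y‖) := rfl
    rw [e1, integral_Zm x hℓ, smul_eq_mul, div_eq_inv_mul]
    refine mul_le_mul_of_nonneg_left (le_trans ?_ ha) (by positivity)
    refine integral_mono ((huV 0 α).integrable.norm) ((huV 0).integrable.norm) fun y => ?_
    show ‖((u y α : ℝ) : ℂ)‖ ≤ ‖u y‖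
    rw [Complex.norm_real]
    exact PiLp.norm_apply_le _ _
  have hwk : ∀ α, WeakLe N (Metric.ball 0 R₀)
      (fun y => (c.zoom x ℓ).toC.op (fun α => Zm x ℓ (Boot.cxv u α)) α y
        - ((ℓ ^ 2 : ℝ) : ℂ) * Zm x ℓ (Boot.cxv F₀ α) y) (b * ℓ ^ 2 / ℓ ^ m) := by
    intro α
    have e1 := ((hweak.weakLe hℓ α).const_mul ((ℓ ^ 2 : ℝ) : ℂ))
    rw [hl2] at e1
    have e2 : ℓ ^ 2 * (b / ℓ ^ m) = b * ℓ ^ 2 / ℓ ^ m := by ring
    rw [e2] at e1
    refine e1.congr fun y _ => ?_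
    rw [Coef.op_zoom_cxv c x ℓ hu2, ← mul_sub]
    congr 1
    simp [Zm, Boot.cxv]
  obtain ⟨vs, ρs, hvs, hvsupp, hρs, heq, hρb, hvb, hvw⟩ :=
    H (c.zoom x ℓ).toC (hreg.zoom x hℓ) (by rw [Coef.size_zoom c _ x hℓ]; exact hsize)
      (fun α => Zm x ℓ (Boot.cxv u α)) (fun α y => ((ℓ ^ 2 : ℝ) : ℂ) * Zm x ℓ (Boot.cxv F₀ α) y)
      (a / ℓ ^ m) (b * ℓ ^ 2 / ℓ ^ m) (ℓ ^ 2 * τ) (by positivity)
      (fun α => contDiff_Zm x ℓ (Boot.contDiff_cxv hu α))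
      (fun α => ((huV 0 α).Zm x hℓ).supp) (fun α => ((hF α).Zm x hℓ).const_mul _) hint hwk
  have hvV : VIn s (Uz x ℓ (reV vs)) := (VIn_reV hvs).Uz x hℓ
  have hv2 : ContDiff ℝ 2 (Uz x ℓ (reV vs)) := hvV.contDiff.of_le (by exact_mod_cast hs2)
  have hinv : (0 : ℝ) ≤ (ℓ ^ 2)⁻¹ := by positivity
  refine ⟨Uz x ℓ (reV vs), fun y => (ℓ ^ 2)⁻¹ • Uz x ℓ (reV ρs) y, hvV,
    tsupport_Uz_subset x hℓ (tsupport_reV_subset hvsupp),
    ((VIn_reV hρs).Uz x hℓ).const_smul _, ?_, ?_, ?_, ?_⟩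
  · -- the equation
    intro y hy
    set z : E m := ℓ⁻¹ • (y - x) with hz
    have hzb : z ∈ Metric.ball (0 : E m) R₁ := mem_ball_unzoom hℓ hy
    have hyz : x + ℓ • z = y := by
      rw [hz, smul_smul, mul_inv_cancel₀ hℓ.ne', one_smul]
      abel
    ext α
    have e1 := Coef.op_zoom_cxv c x ℓ hv2 α z
    have e2 : (fun α => Zm x ℓ (Boot.cxv (Uz x ℓ (reV vs)) α)) = Boot.cxv (reV vs) := by
      funext α
      rw [← cxv_Zm, Zm_Uz x hℓ.ne']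
    rw [e2, Coef.toC_op_re _ (fun α => (hvs α).contDiff.of_le (by exact_mod_cast hs2)),
      heq z hzb α] at e1
    have e3 : (((ℓ ^ 2 : ℝ) : ℂ) * Zm x ℓ (Boot.cxv F₀ α) z + ρs α z).re
        = ℓ ^ 2 * F₀ y α + (ρs α z).re := by
      rw [Complex.add_re, Complex.re_ofReal_mul]
      simp [Zm, Boot.cxv, hyz]
    have e4 : ((ℓ ^ 2 : ℝ) : ℂ) * Zm x ℓ (Boot.cxv (c.op (Uz x ℓ (reV vs))) α) z
        = ((ℓ ^ 2 * c.op (Uz x ℓ (reV vs)) y α : ℝ) : ℂ) := by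
      simp [Zm, Boot.cxv, hyz]
    rw [e3, e4] at e1
    have e5 : ℓ ^ 2 * F₀ y α + (ρs α z).re = ℓ ^ 2 * c.op (Uz x ℓ (reV vs)) y α := by
      exact_mod_cast e1
    have e6 : (F₀ y + (ℓ ^ 2)⁻¹ • Uz x ℓ (reV ρs) y) α = F₀ y α + (ℓ ^ 2)⁻¹ * (ρs α z).re := by
      simp [Uz, reV, hz]
    rw [e6]
    have hl : ℓ ^ 2 ≠ 0 := by positivity
    field_simp
    linarith
  · -- the size of `ρ`
    rw [vAl_const_smul _ _ hinv, vAl_Uz _ x hℓ]
    refine (mul_le_mul' le_rfl ((vAl_reV_le _ fun α => (hρs α).mono (Nat.zero_le _)).trans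
      hρb)).trans (le_of_eq ?_)
    rw [← ENNReal.ofReal_mul hinv]
    congr 1
    field_simp
  · -- the size of `v`
    rw [vAl_Uz _ x hℓ]
    refine ((vAl_reV_le _ fun α => (hvs α).mono (Nat.zero_le _)).trans hvb).trans ?_
    have hR : ∑ α, nA (s - 2) (fun y => ((ℓ ^ 2 : ℝ) : ℂ) * Zm x ℓ (Boot.cxv F₀ α) y)
        = ENNReal.ofReal (ℓ ^ 2) * vAl (s - 2) ℓ F₀ := by
      unfold vAl
      rw [Finset.mul_sum]
      refine Finset.sum_congr rfl fun α _ => ?_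
      rw [nA_const_mul, nA_Zm _ x hℓ, enorm_ofReal_cast (by positivity)]
    rw [hR, ← mul_assoc, ← ENNReal.ofReal_mul hC₀]
    have hCC : C₀ ≤ (n + 1) * C₀ := by nlinarith
    refine add_le_add (ENNReal.ofReal_le_ofReal ?_) (mul_le_mul' (ENNReal.ofReal_le_ofReal ?_) le_rfl)
    · exact mul_le_mul_of_nonneg_right hCC (by positivity)
    · exact mul_le_mul_of_nonneg_right hCC (by positivity)
  · -- the weak bound
    have hcont : Continuous (fun y => Uz x ℓ (reV vs) y - u y) :=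
      hvV.continuous.sub hu.continuous
    have e1 : ∀ α, WeakLe (N + m + 1) (Metric.ball 0 R₁)
        (Zm x ℓ (Boot.cxv (fun y => Uz x ℓ (reV vs) y - u y) α))
        (C₀ * (b * ℓ ^ 2 / ℓ ^ m)) := by
      intro α
      have e2 := (hvw α).re (((hvs α).cont).sub ((huV 0 α).Zm x hℓ).cont) Metric.isBounded_ball
      refine e2.congr fun z _ => ?_
      simp [cx, Zm, Uz, reV, Boot.cxv, smul_smul, inv_mul_cancel₀ hℓ.ne']
    refine (WeakV.of_weakLe hℓ hcont e1).mono_bound ?_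
    have e3 : (n : ℝ) * (C₀ * (b * ℓ ^ 2 / ℓ ^ m)) * ℓ ^ m = n * C₀ * (b * ℓ ^ 2) := by
      field_simp
    rw [e3]
    refine mul_le_mul_of_nonneg_right ?_ (by positivity)
    nlinarith

end Claimed.Agent.R322.Fit
end

/- ===== packed: Claimed.Agent.R322.Fit.Glue.Center ===== -/
section
/-!
# Gluing half of AE Proposition 7.3: the glued centre of a family of fits

Owner: helper79 (package BP-Fit-glue).

`F : FitFam W Q c m₀` (interface `Fit/Defs.lean`), `ℓ = F.ℓ` the first failed scales, `t = tent ℓ`.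
The abstract theorem `gl_main` is applied with `T = Tsc ℓ = max t (|·| - 22/5)`, `K = c.C m₀`, `δ = c.C m₀²`,
`con x j := |x| < 5 ∧ j ≤ jf x`.  Output: `Center F C u` (`exists_center`).
Consequences on `{|y| ≤ 22/5}` (if all failure scales are `≤ 1/32`): curvature `center_curv` and vertical height `center_height` (CO (4.4)).

Both consequences use `le_of_scales`: an estimate `L ≤ A (sc j)^e` for ALL `j` with `8 t ≤ sc j` gives `L ≤ A 16^e t^e` (`t > 0`: choose `8 t ≤ sc j < 16 t`;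
`t = 0`: let `j → ∞`).
-/

set_option autoImplicit false

open scoped ContDiff Topology ENNReal

namespace Claimed.Agent.R322.Fit.Glue

open Claimed.Agent.R322.Tube Claimed.Agent.R322.Freq

variable {m n Q : ℕ} {W : SIV m n} {c : FitCst} {m₀ : ℝ}

/-! ### Leaf `L-Fit-Glue-scale`: scales -/

/-- dyadic selection -/
theorem exists_sc {s : ℝ} (hs : 0 < s) (hs1 : s ≤ 1) : ∃ j : ℕ, s ≤ sc j ∧ sc j < 2 * s := by
  obtain ⟨j, hj1, hj2⟩ := exists_nat_pow_near_of_lt_one hs hs1 (y := (2 : ℝ)⁻¹) (by norm_num) (by norm_num)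
  refine ⟨j, hj2, ?_⟩
  have e := sc_succ j
  have hj1' : sc (j + 1) < s := hj1
  linarith

/-- see the header -/
theorem le_of_scales {L A t : ℝ} {e : ℕ} (he : 1 ≤ e) (hA : 0 ≤ A) (ht0 : 0 ≤ t) (ht : 8 * t ≤ 1)
    (h : ∀ j : ℕ, 8 * t ≤ sc j → L ≤ A * sc j ^ e) : L ≤ A * 16 ^ e * t ^ e := by
  rcases ht0.eq_or_lt with h0 | h0
  · rw [← h0, zero_pow (by omega), mul_zero]
    have hlim : Filter.Tendsto (fun j : ℕ => A * sc j ^ e) Filter.atTop (𝓝 0) := by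
      have h1 : Filter.Tendsto (fun j : ℕ => sc j) Filter.atTop (𝓝 0) :=
        tendsto_pow_atTop_nhds_zero_of_lt_one (by norm_num) (by norm_num)
      have h2 := (h1.pow e).const_mul A
      rwa [zero_pow (by omega), mul_zero] at h2
    refine ge_of_tendsto' hlim fun j => h j ?_
    rw [← h0, mul_zero]
    exact (sc_pos j).le
  · obtain ⟨j, hj1, hj2⟩ := exists_sc (s := 8 * t) (by positivity) ht
    have hs := sc_pos j
    calc L ≤ A * sc j ^ e := h j hj1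
      _ ≤ A * (16 * t) ^ e :=
          mul_le_mul_of_nonneg_left (pow_le_pow_left₀ hs.le (by linarith) e) hA
      _ = A * 16 ^ e * t ^ e := by rw [mul_pow]; ring

theorem isFail_ℓ (F : FitFam W Q c m₀) : IsFail F.ℓ 1 := by
  constructor
  · intro x
    unfold FitFam.ℓ
    split_ifs
    · exact Or.inr ⟨_, rfl⟩
    · exact Or.inl rfl
  · intro x
    unfold FitFam.ℓ
    split_ifs
    · exact sc_le_one _
    · exact zero_le_one

/-- the scale function of the gluing -/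
noncomputable def Tsc (ℓ : E m → ℝ) (w : E m) : ℝ := max (tent ℓ w) (‖w‖ - 22 / 5)

theorem Tsc_nonneg {ℓ : E m → ℝ} {a : ℝ} (h : IsFail ℓ a) (w : E m) : 0 ≤ Tsc ℓ w :=
  le_max_of_le_left (tent_nonneg h w)

theorem Tsc_eq {ℓ : E m → ℝ} {a : ℝ} (h : IsFail ℓ a) {w : E m} (hw : ‖w‖ ≤ 22 / 5) : Tsc ℓ w = tent ℓ w :=
  max_eq_left (by linarith [tent_nonneg h w])

/-- `abs_max_sub_max_le_max`, `tent_lip`, `abs_norm_sub_norm_le` -/
theorem Tsc_lip {ℓ : E m → ℝ} {a : ℝ} (h : IsFail ℓ a) (w w' : E m) : |Tsc ℓ w - Tsc ℓ w'| ≤ ‖w - w'‖ := by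
  unfold Tsc
  refine (abs_max_sub_max_le_max _ _ _ _).trans (max_le (tent_lip h w w') ?_)
  have e : ‖w‖ - 22 / 5 - (‖w'‖ - 22 / 5) = ‖w‖ - ‖w'‖ := by ring
  rw [e]
  exact abs_norm_sub_norm_le w w'

/-- small scale function implies an ACCEPTED fit: `|x| ≤ 22/5 + 1/2`, `ℓ x ≤ t x ≤ sc j / 2 < sc j` (`le_tent` with `w = x`), and
`sc` is strictly decreasing -/
theorem acc_of_Tsc (F : FitFam W Q c m₀) {x : E m} {j : ℕ} (h : Tsc F.ℓ x ≤ sc j / 2) :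
    ‖x‖ < 5 ∧ (j : ℕ∞) < F.jf x := by
  have hs := sc_pos j
  have hs1 := sc_le_one j
  have h1 : ‖x‖ - 22 / 5 ≤ Tsc F.ℓ x := le_max_right _ _
  have h2 : tent F.ℓ x ≤ Tsc F.ℓ x := le_max_left _ _
  have hx : ‖x‖ < 5 := by linarith
  refine ⟨hx, ?_⟩
  by_contra hc
  rw [not_lt] at hc
  have htop : F.jf x ≠ ⊤ := fun ht => by rw [ht] at hc; exact absurd hc (by simp)
  have h3 := le_tent (isFail_ℓ F) x x hx
  rw [sub_self, norm_zero, sub_zero] at h3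
  have h4 : F.ℓ x = sc (F.jf x).toNat := by
    unfold FitFam.ℓ
    rw [if_pos ⟨hx, htop⟩]
  have h5 : (F.jf x).toNat ≤ j := by
    have := ENat.toNat_le_toNat hc (by simp)
    simpa using this
  have h6 := sc_anti h5
  linarith

/-- all tents are small if all failure scales are -/
theorem tent_le_of_ℓ (F : FitFam W Q c m₀) {a : ℝ} (ha : 0 ≤ a) (h : ∀ x, F.ℓ x ≤ a) (w : E m) :
    tent F.ℓ w ≤ a :=
  tent_le_of (isFail_ℓ F) ha (fun x _ => h x) w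

/-! ### the glued centre -/

/-- the input of the abstract gluing theorem -/
noncomputable def glIn (F : FitFam W Q c m₀) (hc : c.Adm m) (hm₀ : 0 ≤ m₀) : GlIn m n c.J c.k where
  K := c.C * m₀
  δ := c.C * m₀ ^ 2
  T := Tsc F.ℓ
  con := fun x j => ‖x‖ < 5 ∧ (j : ℕ∞) ≤ F.jf x
  f := F.f
  hJk := by have := hc.J_lt; omega
  K_nonneg := mul_nonneg (by linarith [hc.C_ge]) hm₀
  δ_nonneg := mul_nonneg (by linarith [hc.C_ge]) (by positivity)
  T_nonneg := Tsc_nonneg (isFail_ℓ F)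
  T_lip := Tsc_lip (isFail_ℓ F)
  T_coer := fun y => le_max_of_le_right (by linarith)
  con_of := fun x j h => ⟨(acc_of_Tsc F h).1, (acc_of_Tsc F h).2.le⟩
  smooth := fun x j h => F.smooth x j h.1 h.2
  deriv := fun x j h => F.deriv x j h.1 h.2
  overlap := fun x x' j j' h h' => F.overlap x x' j j' h.1 h'.1 h.2 h'.2

/-- **the glued centre** of a family of fits -/
structure Center (F : FitFam W Q c m₀) (C : ℝ) (u : E m → E n) : Prop where
  smooth : ContDiff ℝ c.J u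
  bound : ∀ i : ℕ, i ≤ c.J → ∀ w, ‖iteratedFDeriv ℝ i u w‖ ≤ C * m₀
  comp : ∀ (w x : E m) (j : ℕ), ‖w‖ ≤ 22 / 5 → 8 * tent F.ℓ w ≤ sc j → ‖x - w‖ ≤ sc j / 8 → ∀ i : ℕ, i ≤ c.J →
    ‖iteratedFDeriv ℝ i (u - F.f x j) w‖ ≤ C * m₀ ^ 2 * sc j ^ (2 * c.k - 1 - i)

/-- existence of the glued centre (glue) -/
theorem exists_center (m n : ℕ) (c : FitCst) (hc : c.Adm m) : ∃ C : ℝ, 1 ≤ C ∧
    ∀ (Q : ℕ) (W : SIV m n) (m₀ : ℝ), 0 < m₀ → m₀ ≤ 1 → ∀ F : FitFam W Q c m₀, ∃ u : E m → E n, Center F C u := by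
  obtain ⟨C, hC, h⟩ := gl_main m n c.J c.k
  have hcC := hc.C_ge
  refine ⟨2 * C * c.C, by nlinarith, fun Q W m₀ hm₀ hm₁ F => ?_⟩
  obtain ⟨u, h1, h2, h3⟩ := h (glIn F hc hm₀.le)
  refine ⟨u, h1, fun i hi w => (h2 i hi w).trans ?_, fun w x j hw ht hx i hi => ?_⟩
  · show C * (c.C * m₀ + c.C * m₀ ^ 2) ≤ 2 * C * c.C * m₀
    have : m₀ ^ 2 ≤ m₀ := by nlinarith
    have h5 : 0 ≤ C * c.C := by positivity
    nlinarith
  · have hT : 8 * (glIn F hc hm₀.le).T w ≤ sc j := by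
      show 8 * Tsc F.ℓ w ≤ sc j
      rwa [Tsc_eq (isFail_ℓ F) hw]
    refine (h3 w x j hT hx i hi).trans ?_
    show C * (c.C * m₀ ^ 2) * sc j ^ (2 * c.k - 1 - i) ≤ 2 * C * c.C * m₀ ^ 2 * sc j ^ (2 * c.k - 1 - i)
    have h5 : 0 ≤ C * c.C * m₀ ^ 2 * sc j ^ (2 * c.k - 1 - i) := by
      have := sc_pos j
      positivity
    nlinarith

/-! ### Leaf `L-Fit-Glue-curv`: curvature of the glued centre, CO (4.4) -/

/-- PLAN.  `C_j` from `jet_curv`.  Fix `y`, `t = tent F.ℓ y ≤ 1/32`.  For every `j` with `8 t ≤ sc j`: `x = y` in `Center.comp` (`i = 1,2,3`), the fit `f = F.f y j` is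
constructed (`acc_of_Tsc`, `Tsc_eq`), `F.curv`, `F.deriv` (`JetLe f y` because `c.C m₀ ≤ 1`), `Center.bound` (`JetLe u y` because `C m₀ ≤ 1`):
`L ≤ 2 (c.C m₀² sc^(2k-3) + c.C m₀² sc^(2k-4)) + C_j 3 C m₀² sc^(2k-4) ≤ (4 c.C + 3 C_j C) m₀² sc^(2k-4)`.  Then `le_of_scales` with `e = 2k-4`. -/
theorem center_curv (m n : ℕ) (c : FitCst) (hc : c.Adm m) (hJ : 3 ≤ c.J) (C : ℝ) (hC : 1 ≤ C) : ∃ C' : ℝ, 1 ≤ C' ∧
    ∀ (Q : ℕ) (W : SIV m n) (m₀ : ℝ), 0 < m₀ → C * m₀ ≤ 1 → c.C * m₀ ≤ 1 → ∀ (F : FitFam W Q c m₀) (u : E m → E n),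
      Center F C u → (∀ x, F.ℓ x ≤ 1 / 32) → ∀ y : E m, ‖y‖ ≤ 22 / 5 →
        ‖HS u y‖ + Real.sqrt (DHSsq u y) ≤ C' * m₀ ^ 2 * tent F.ℓ y ^ (2 * c.k - 4) := by
  obtain ⟨Cj, hCj, hjet⟩ := jet_curv m n
  have hcC := hc.C_ge
  have hk := hc.J_lt
  have h16 : (1 : ℝ) ≤ 16 ^ (2 * c.k - 4) := one_le_pow₀ (by norm_num)
  have hB : 1 ≤ 4 * c.C + 3 * Cj * C := by
    have : 0 ≤ 3 * Cj * C := by positivity
    linarith
  refine ⟨(4 * c.C + 3 * Cj * C) * 16 ^ (2 * c.k - 4), by nlinarith, ?_⟩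
  intro Q W m₀ hm₀ hCm hcm F u hu hl y hy
  have ht0 := tent_nonneg (isFail_ℓ F) y
  have ht1 := tent_le_of_ℓ F (by norm_num) hl y
  have h3J : ((3 : ℕ) : WithTop ℕ∞) ≤ (c.J : WithTop ℕ∞) := by exact_mod_cast hJ
  have key : ∀ j : ℕ, 8 * tent F.ℓ y ≤ sc j → ‖HS u y‖ + Real.sqrt (DHSsq u y)
      ≤ (4 * c.C + 3 * Cj * C) * m₀ ^ 2 * sc j ^ (2 * c.k - 4) := by
    intro j hj
    have hs := sc_pos j
    have hs1 := sc_le_one j
    obtain ⟨hy5, hjf⟩ := acc_of_Tsc F (x := y) (j := j) (by rw [Tsc_eq (isFail_ℓ F) hy]; linarith)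
    have hyb : y ∈ Metric.ball y (80 * sc j) := Metric.mem_ball_self (by positivity)
    have hsu : ContDiff ℝ 3 u := hu.smooth.of_le h3J
    have hsf : ContDiff ℝ 3 (F.f y j) := (F.smooth y j hy5 hjf.le).of_le h3J
    have hju : JetLe u y := fun i _ hi => (hu.bound i (hi.trans hJ) y).trans hCm
    have hjf' : JetLe (F.f y j) y := fun i _ hi => (F.deriv y j hy5 hjf.le i (hi.trans hJ) y hyb).trans hcm
    obtain ⟨c1, c2⟩ := F.curv y j hy5 hjf.le y hyb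
    have hcomp := fun i hi => hu.comp y y j hy hj (by rw [sub_self, norm_zero]; positivity) i hi
    have hpow : ∀ e : ℕ, 2 * c.k - 4 ≤ e → sc j ^ e ≤ sc j ^ (2 * c.k - 4) := fun e he =>
      pow_le_pow_of_le_one hs.le hs1 he
    have hCm2 : 0 ≤ C * m₀ ^ 2 := by positivity
    have hcm2 : 0 ≤ c.C * m₀ ^ 2 := by positivity
    have d1 := (hcomp 1 (by omega)).trans (mul_le_mul_of_nonneg_left (hpow (2 * c.k - 1 - 1) (by omega)) hCm2)
    have d2 := (hcomp 2 (by omega)).trans (mul_le_mul_of_nonneg_left (hpow (2 * c.k - 1 - 2) (by omega)) hCm2)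
    have d3 := (hcomp 3 (by omega)).trans (mul_le_mul_of_nonneg_left (hpow (2 * c.k - 1 - 3) (by omega)) hCm2)
    have hjd : jd u (F.f y j) y ≤ 3 * (C * m₀ ^ 2 * sc j ^ (2 * c.k - 4)) := by
      unfold jd; linarith
    have c1' := c1.trans (mul_le_mul_of_nonneg_left (hpow (2 * c.k - 3) (by omega)) hcm2)
    have h5 := hjet u (F.f y j) y hsu hsf hju hjf'
    have h6 : Cj * jd u (F.f y j) y ≤ Cj * (3 * (C * m₀ ^ 2 * sc j ^ (2 * c.k - 4))) :=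
      mul_le_mul_of_nonneg_left hjd hCj
    calc _ ≤ 2 * (‖HS (F.f y j) y‖ + Real.sqrt (DHSsq (F.f y j) y)) + Cj * jd u (F.f y j) y := h5
      _ ≤ 2 * (c.C * m₀ ^ 2 * sc j ^ (2 * c.k - 4) + c.C * m₀ ^ 2 * sc j ^ (2 * c.k - 4))
          + Cj * (3 * (C * m₀ ^ 2 * sc j ^ (2 * c.k - 4))) := by linarith
      _ = _ := by ring
  have h7 := le_of_scales (e := 2 * c.k - 4) (by omega) (by positivity) ht0 (by linarith) key
  refine h7.trans (le_of_eq ?_)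
  ring

/-! ### Leaf `L-Fit-Glue-height`: vertical height over the glued centre, CO (4.4) -/

/-- PLAN.  `w = prH X`, `t = tent F.ℓ w`.  For every `j` with `8 t ≤ sc j` the fit `F.f w j` is ACCEPTED (`acc_of_Tsc`, `Tsc_eq`): `F.accept` gives
`|X_v - f w| ≤ m₀ sc^k`; `Center.comp` with `x = w`, `i = 0` (`norm_iteratedFDeriv_zero`) gives `|u w - f w| ≤ C m₀² sc^(2k-1) ≤ C m₀ sc^k`.
`le_of_scales` with `e = k`, `A = (1 + C) m₀`. -/
theorem center_height (hc : c.Adm m) {C : ℝ} (hC : 1 ≤ C) (hm₀ : 0 < m₀) (hm₁ : m₀ ≤ 1) (F : FitFam W Q c m₀)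
    {u : E m → E n} (hu : Center F C u) (hl : ∀ x, F.ℓ x ≤ 1 / 32) {X : E (m + n)} (hX : X ∈ W.support)
    (hXW : X ∈ Wk m n) (hXh : ‖prH m n X‖ ≤ 22 / 5) :
    ‖prV m n X - u (prH m n X)‖ ≤ (1 + C) * 16 ^ c.k * m₀ * tent F.ℓ (prH m n X) ^ c.k := by
  have hk := hc.J_lt
  set w := prH m n X with hw
  have ht0 := tent_nonneg (isFail_ℓ F) w
  have ht1 := tent_le_of_ℓ F (by norm_num) hl w
  have key : ∀ j : ℕ, 8 * tent F.ℓ w ≤ sc j → ‖prV m n X - u w‖ ≤ (1 + C) * m₀ * sc j ^ c.k := by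
    intro j hj
    have hs := sc_pos j
    have hs1 := sc_le_one j
    obtain ⟨hw5, hjf⟩ := acc_of_Tsc F (x := w) (j := j) (by rw [Tsc_eq (isFail_ℓ F) hXh]; linarith)
    have a1 := F.accept w j hw5 hjf X hX hXW (by rw [← hw, sub_self, norm_zero]; positivity)
    rw [← hw] at a1
    have a2 := hu.comp w w j hXh hj (by rw [sub_self, norm_zero]; positivity) 0 (Nat.zero_le _)
    rw [norm_iteratedFDeriv_zero, Pi.sub_apply] at a2
    have hp : sc j ^ (2 * c.k - 1 - 0) ≤ sc j ^ c.k := pow_le_pow_of_le_one hs.le hs1 (by omega)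
    have hm2 : m₀ ^ 2 ≤ m₀ := by nlinarith
    have hpk : 0 ≤ sc j ^ c.k := by positivity
    have a3 : C * m₀ ^ 2 * sc j ^ (2 * c.k - 1 - 0) ≤ C * m₀ * sc j ^ c.k := by
      refine mul_le_mul (mul_le_mul_of_nonneg_left hm2 (by linarith)) hp (by positivity) (by positivity)
    have e : prV m n X - u w = (prV m n X - F.f w j w) - (u w - F.f w j w) := by abel
    rw [e]
    calc _ ≤ ‖prV m n X - F.f w j w‖ + ‖u w - F.f w j w‖ := norm_sub_le _ _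
      _ ≤ m₀ * sc j ^ c.k + C * m₀ * sc j ^ c.k := add_le_add a1 (a2.trans a3)
      _ = _ := by ring
  have h7 := le_of_scales (e := c.k) (by omega) (by positivity) ht0 (by linarith) key
  refine h7.trans (le_of_eq ?_)
  ring

end Claimed.Agent.R322.Fit.Glue
end

/- ===== packed: Claimed.Agent.R322.Base.Entrance ===== -/
section
/-!
# Row 322, Base: the entrance theorem

A frozen stationary integral varifold with a tangent field (B1) and the a.e. lower density bound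
(B4) is an `SIV` with the same domain and the same weight measure.
-/

set_option autoImplicit false

open scoped ENNReal ContDiff
open MeasureTheory
open Claims.C0507

namespace Claimed.Agent.R322.Base

variable {m n : ℕ} {U : Set (E (m + n))}

theorem weight_eq_wt (V : IntegralVarifold m n U) : V.weight = wt m V.carrier V.mult := rfl

theorem deformedMass_eq_defMass (V : IntegralVarifold m n U) (X : E (m + n) → E (m + n)) (t : ℝ) :
    V.deformedMass X t = defMass m V.carrier V.mult X t := rfl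

/-- local finiteness of the weight measure. -/
theorem wt_lt_top (V : IntegralVarifold m n U) (K : Set (E (m + n))) (hK : IsCompact K)
    (hKU : K ⊆ U) : wt m V.carrier V.mult K < ⊤ := by
  have h := V.locallyFinite K hK hKU
  rw [wt, withDensity_apply _ hK.measurableSet, Measure.restrict_restrict hK.measurableSet,
    Set.inter_comm]
  exact h

/-- **Entrance**, conditional on the outputs of B1 (`IsTanField`) and B4 (`HasLowerDens`). -/
theorem exists_SIV_of (hU : IsOpen U) (V : IntegralVarifold m n U) (hV : V.IsStationary)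
    {P : E (m + n) → E (m + n) →L[ℝ] E (m + n)} (hP : IsTanField m n U V.carrier V.mult P)
    (hd : HasLowerDens m (wt m V.carrier V.mult)) :
    ∃ W : SIV m n, W.U = U ∧ W.μ = V.weight :=
  ⟨{ U := U
     M := V.carrier
     θ := V.mult
     P := P
     isOpen_U := hU
     M_sub := V.carrier_subset
     M_meas := V.measurableSet_carrier
     θ_meas := V.measurable_mult
     θ_pos := V.one_le_mult
     P_meas := hP.meas
     P_proj := hP.proj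
     locfin := wt_lt_top V
     fib_meas := hP.fib_meas
     area := hP.area
     stat := first_variation hP hU (wt_lt_top V) hV
     dens := hd }, rfl, rfl⟩

/-- the tangent field of an atlas (B1) is a tangent field in the sense of `Base/Calc`. -/
theorem isTanField_of_atlas {M : Set (E (m + n))} (𝒜 : Area.Atlas m n M) (hM : MeasurableSet M)
    (θ : E (m + n) → ℕ) (hθ : Measurable θ) : IsTanField m n U M θ 𝒜.P where
  meas := 𝒜.P_meas
  proj := 𝒜.P_proj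
  fib_meas := fun k O g φ hO _ hg hφ => 𝒜.fib_meas θ hθ k O g φ hO hg hφ
  area := fun k O g φ hO _ hg hφ => 𝒜.area hM θ hθ k O g φ hO hg hφ

/-- **Entrance**, conditional only on the a.e. lower density bound (B4). -/
theorem exists_SIV_of_lowerDens (hU : IsOpen U) (V : IntegralVarifold m n U)
    (hV : V.IsStationary) (hd : HasLowerDens m (wt m V.carrier V.mult)) :
    ∃ W : SIV m n, W.U = U ∧ W.μ = V.weight := by
  obtain ⟨𝒜⟩ := Area.exists_atlas V.measurableSet_carrier V.rectifiable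
  exact exists_SIV_of hU V hV
    (isTanField_of_atlas 𝒜 V.measurableSet_carrier V.mult V.measurable_mult) hd

end Claimed.Agent.R322.Base
end

/- ===== packed: Claimed.Agent.R322.Flat.Nest ===== -/
section
/-!
# R322 / Flat / Nest : nested data at a point, and eventual flatness of the rescalings
(leaves L-Flat-MeasTheta = `exists_measurable_Θ`; L-Flat-ExNest = `exists_nest`; L-Flat-Centres = `Nest.exists_centres`;
 L-Flat-Subseq = `exists_subseq_centres`; L-Flat-Eventually = `eventually_isFlat`; L-Flat-NestFlat = `Nest.flat`)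

PLANS.
* `exists_measurable_Θ`: `h = U.indicator Θ`; `{h < a} = (U ∩ {Θ < a}) ∪ (Uᶜ ∩ {0 < a})`, the first set is open because `Θ` is upper
  semicontinuous on the open set `U` (`W.Θ_usc`); `measurable_of_Iio`.
* `exists_nest`: `Haus.exists_nested` with this `h`.
* `Nest.exists_centres`: `Haus.exists_qind (m+n) m s 1 (2^(s+1))` with `A = {X | ‖X‖ ≤ 1 ∧ x + l j • X ∈ Kj j}`.
* `exists_subseq_centres`: `Fin m → closedBall 0 1` is compact (`isCompact_univ_pi`, `IsCompact.tendsto_subseq`, `tendsto_pi_nhds`).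
* `eventually_isFlat`.  `q = Θ x`, `W_j = W.simil x (l j) O`, centres `ζ_i = O (z j i)`, `simInv x (l j) O ζ_i = x + l j • z j i`.
  Let `R₁ = 2R`, `C` the larger of the constants of `tilt_of_pinch`, `height_of_pinch` for `(δ, R₁, q + 1)`; choose `η' ≤ 1` with
  `C η' ≤ min η (η²)`.  `pinch` at `x` with `Λ = R₁ + 2`, `R₁ + 1`, `R` and `ε = η'/2`; for late `j`: `l j ≤ r₀`,
  `Θ (x + l j • z j i) ≥ q - η'/2`, `‖O (z j i) - mkHV (y i) 0‖² ≤ η'`.  Translate with `simil_ratio`, `simil_Θ`, `simil_support`,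
  `(W.simil ..).U = simInv ⁻¹' U` (`closedBall` in the new units ↔ `closedBall x (l j * ·)`).
* `Nest.flat`: `exists_centres`, `exists_subseq_centres`, `Haus.QInd.of_tendsto`, `exists_rotation`, `qind_prH`,
  `eventually_isFlat` along `φ` (`y i = prH (O (z∞ i))`, `mkHV (y i) 0 = O (z∞ i)` by `mk_prH_prV`; `Θ` by `D.osc`).
-/

set_option autoImplicit false

open scoped ENNReal ContDiff
open MeasureTheory Filter Topology

namespace Claimed.Agent.R322.Flat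

variable {m n : ℕ}

/-- a measurable function which agrees with the density on the domain. -/
theorem exists_measurable_Θ (hm : 1 ≤ m) (W : SIV m n) :
    ∃ h : E (m + n) → ℝ, Measurable h ∧ ∀ p ∈ W.U, h p = W.Θ p := by
  classical
  refine ⟨W.U.indicator W.Θ, ?_, fun p hp => Set.indicator_of_mem hp _⟩
  refine measurable_of_Iio fun a => ?_
  obtain ⟨u, hu, hue⟩ := (upperSemicontinuousOn_iff_preimage_Iio.1 (W.Θ_usc hm)) a
  have h1 : W.U.indicator W.Θ ⁻¹' Set.Iio a = (W.U ∩ u) ∪ (W.Uᶜ ∩ {_p | (0 : ℝ) < a}) := by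
    rw [← hue]
    ext p
    by_cases hp : p ∈ W.U
    · simp [hp]
    · simp [hp]
  rw [h1]
  exact (W.isOpen_U.measurableSet.inter hu.measurableSet).union
    (W.isOpen_U.measurableSet.compl.inter (MeasurableSet.const _))

/-- **Nested data** (output of `Haus.exists_nested` for the density function). -/
structure Nest (W : SIV m n) (s : ℝ) where
  x : E (m + n)
  Kj : ℕ → Set (E (m + n))
  l : ℕ → ℝ
  σ : ℕ → Measure (E (m + n))
  K_sub : ∀ j, Kj j ⊆ W.support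
  x_mem : ∀ j, x ∈ Kj j
  osc : ∀ j, ∀ p ∈ Kj j, |W.Θ p - W.Θ x| ≤ 1 / ((j : ℝ) + 1)
  l_pos : ∀ j, 0 < l j
  l_lim : Tendsto l atTop (𝓝 0)
  prob : ∀ j, IsProbabilityMeasure (σ j)
  carr : ∀ j, σ j {X | ¬ (‖X‖ ≤ 1 ∧ x + l j • X ∈ Kj j)} = 0
  frost : ∀ j, Haus.IsFrost (σ j) (2 ^ (s + 1)) s

theorem exists_nest (hm : 1 ≤ m) (W : SIV m n) (μ₀ : Measure (E (m + n))) [IsFiniteMeasure μ₀]
    (K : Set (E (m + n))) (hK : IsCompact K) (hKs : K ⊆ W.support) (hpos : 0 < μ₀ K) (C s : ℝ)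
    (hs : 0 ≤ s) (hfr : Haus.IsFrost μ₀ C s) :
    ∃ D : Nest W s, D.x ∈ K ∧ ∀ j, D.Kj j ⊆ K := by
  obtain ⟨h, hmeas, hh⟩ := exists_measurable_Θ hm W
  obtain ⟨x, Kj, l, σ, -, h2, -, h4, h5, h6, h7, h8, h9, h10⟩ :=
    Haus.exists_nested μ₀ K hK hpos C s hs hfr h hmeas
  have hU : ∀ j, ∀ p ∈ Kj j, p ∈ W.U := fun j p hp => (hKs (h2 j hp)).1
  refine ⟨⟨x, Kj, l, σ, fun j => (h2 j).trans hKs, h4, fun j p hp => ?_, h6, h7, h8, h9, h10⟩,
    h2 0 (h4 0), h2⟩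
  rw [← hh p (hU j p hp), ← hh x (hU j x (h4 j))]
  exact h5 j p hp

theorem Nest.exists_centres {W : SIV m n} {s : ℝ} (hs : (m : ℝ) - 1 < s) (D : Nest W s) :
    ∃ (δ : ℝ) (z : ℕ → Fin m → E (m + n)), 0 < δ ∧
      ∀ j, (∀ i, ‖z j i‖ ≤ 1 ∧ D.x + D.l j • z j i ∈ D.Kj j) ∧ Haus.QInd δ (z j) := by
  obtain ⟨δ, hδ, H⟩ := Haus.exists_qind (m + n) m s 1 (2 ^ (s + 1)) hs one_pos (by positivity)
  have H2 : ∀ j, ∃ z : Fin m → E (m + n),
      (∀ i, z i ∈ {X | ‖X‖ ≤ 1 ∧ D.x + D.l j • X ∈ D.Kj j}) ∧ Haus.QInd δ z := by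
    intro j
    have := D.prob j
    refine H (D.σ j) _ (D.frost j) (by simp) (D.carr j) (fun X hX => hX.1)
  choose z hz using H2
  exact ⟨δ, z, hδ, fun j => ⟨fun i => (hz j).1 i, (hz j).2⟩⟩

theorem exists_subseq_centres {N k : ℕ} (z : ℕ → Fin k → E N) (hz : ∀ j i, ‖z j i‖ ≤ 1) :
    ∃ (φ : ℕ → ℕ) (z' : Fin k → E N), StrictMono φ ∧
      ∀ i, Tendsto (fun j => z (φ j) i) atTop (𝓝 (z' i)) := by
  have hc : IsCompact (Set.univ.pi fun _ : Fin k => Metric.closedBall (0 : E N) 1) :=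
    isCompact_univ_pi fun _ => isCompact_closedBall _ _
  obtain ⟨z', -, φ, hφ, hlim⟩ := hc.tendsto_subseq (x := z)
    (fun j i _ => by simpa using hz j i)
  exact ⟨φ, z', hφ, fun i => (tendsto_pi_nhds.1 hlim) i⟩

theorem simil_closedBall_subset (W : SIV m n) (x : E (m + n)) (r : ℝ) (hr : 0 < r)
    (O : E (m + n) ≃ₗᵢ[ℝ] E (m + n)) (ζ : E (m + n)) (t : ℝ)
    (h : Metric.closedBall (simInv x r O ζ) (r * t) ⊆ W.U) :
    Metric.closedBall ζ t ⊆ (W.simil x r hr O).U := by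
  intro Y hY
  change simInv x r O Y ∈ W.U
  apply h
  rw [Metric.mem_closedBall, Base.dist_simInv x O hr]
  exact mul_le_mul_of_nonneg_left hY hr.le

theorem simInv_O (x : E (m + n)) (r : ℝ) (O : E (m + n) ≃ₗᵢ[ℝ] E (m + n)) (z : E (m + n)) :
    simInv x r O (O z) = x + r • z := by
  simp [simInv]

theorem simInv_zero' (x : E (m + n)) (r : ℝ) (O : E (m + n) ≃ₗᵢ[ℝ] E (m + n)) :
    simInv x r O 0 = x := by
  simp [simInv]

/-- `pinch` along a sequence of scales. -/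
theorem eventually_pinch (hm : 1 ≤ m) (W : SIV m n) {x : E (m + n)} (hx : x ∈ W.U)
    (l : ℕ → ℝ) (hl : ∀ j, 0 < l j) (hl0 : Tendsto l atTop (𝓝 0)) (Λ ε : ℝ) (hΛ : 0 < Λ)
    (hε : 0 < ε) :
    ∀ᶠ j in atTop, ∀ p : E (m + n), ‖p - x‖ ≤ l j →
      Metric.closedBall p (l j * Λ) ⊆ W.U ∧ W.ratio p (l j * Λ) ≤ W.Θ x + ε := by
  obtain ⟨r₀, hr₀, H⟩ := pinch hm W hx Λ ε hΛ hε
  filter_upwards [hl0.eventually_le_const hr₀] with j hj p hp
  rw [mul_comm]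
  exact H (l j) (hl j) hj p hp

/-- **Eventual flatness of the rescalings.** -/
theorem eventually_isFlat (hm : 1 ≤ m) (W : SIV m n) {x : E (m + n)} (hx : x ∈ W.U)
    (O : E (m + n) ≃ₗᵢ[ℝ] E (m + n)) {δ : ℝ} (hδ : 0 < δ) (y : Fin m → E m) (hy : Haus.QInd δ y)
    (l : ℕ → ℝ) (hl : ∀ j, 0 < l j) (hl0 : Tendsto l atTop (𝓝 0))
    (z : ℕ → Fin m → E (m + n)) (hz1 : ∀ j i, ‖z j i‖ ≤ 1)
    (hzy : ∀ i, Tendsto (fun j => O (z j i)) atTop (𝓝 (mkHV (y i) 0)))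
    (hΘ : ∀ i, Tendsto (fun j => W.Θ (x + l j • z j i)) atTop (𝓝 (W.Θ x)))
    (R η : ℝ) (hR : 0 < R) (hη : 0 < η) :
    ∀ᶠ j in atTop, IsFlat (W.simil x (l j) (hl j) O) (W.Θ x) R η := by
  have hq0 : 0 ≤ W.Θ x := W.Θ_nonneg hm hx
  obtain ⟨C₁, hC₁, T⟩ := tilt_of_pinch m n hm δ R (W.Θ x + 1) hδ hR (by linarith)
  obtain ⟨C₂, hC₂, Hh⟩ := height_of_pinch m n hm δ (2 * R) (W.Θ x + 1) hδ (by linarith) (by linarith)
  -- the small parameter
  obtain ⟨η', hη', hη'1, hη'η, hT, hH⟩ : ∃ η' : ℝ, 0 < η' ∧ η' ≤ 1 ∧ η' ≤ η ∧ C₁ * η' ≤ η ∧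
      C₂ * η' ≤ η ^ 2 := by
    refine ⟨min (min 1 η) (min (η / C₁) (η ^ 2 / C₂)), by positivity, ?_, ?_, ?_, ?_⟩
    · exact (min_le_left _ _).trans (min_le_left _ _)
    · exact (min_le_left _ _).trans (min_le_right _ _)
    · have : min (min 1 η) (min (η / C₁) (η ^ 2 / C₂)) ≤ η / C₁ :=
        (min_le_right _ _).trans (min_le_left _ _)
      calc C₁ * _ ≤ C₁ * (η / C₁) := mul_le_mul_of_nonneg_left this hC₁.le
        _ = η := by field_simp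
    · have : min (min 1 η) (min (η / C₁) (η ^ 2 / C₂)) ≤ η ^ 2 / C₂ :=
        (min_le_right _ _).trans (min_le_right _ _)
      calc C₂ * _ ≤ C₂ * (η ^ 2 / C₂) := mul_le_mul_of_nonneg_left this hC₂.le
        _ = η ^ 2 := by field_simp
  have hε : 0 < η' / 2 := by positivity
  have e1 := eventually_pinch hm W hx l hl hl0 (R + 2) (η' / 2) (by linarith) hε
  have e2 := eventually_pinch hm W hx l hl hl0 (R + 1) (η' / 2) (by linarith) hε
  have e3 := eventually_pinch hm W hx l hl hl0 (2 * R + 2) (η' / 2) (by linarith) hε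
  have e4 := eventually_pinch hm W hx l hl hl0 (2 * R + 1) (η' / 2) (by linarith) hε
  have e5 := eventually_pinch hm W hx l hl hl0 R (η' / 2) hR hε
  have e6 : ∀ᶠ j in atTop, ∀ i, W.Θ x - η' / 2 ≤ W.Θ (x + l j • z j i) :=
    eventually_all.2 fun i => (hΘ i).eventually_const_le (by linarith)
  have e7 : ∀ᶠ j in atTop, ∀ i, ‖O (z j i) - mkHV (y i) 0‖ ^ 2 ≤ η' := by
    refine eventually_all.2 fun i => ?_
    have h1 : Tendsto (fun j => ‖O (z j i) - mkHV (y i) 0‖ ^ 2) atTop (𝓝 0) := by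
      have := ((tendsto_iff_norm_sub_tendsto_zero.1 (hzy i)).pow 2)
      simpa using this
    exact h1.eventually_le_const hη'
  filter_upwards [e1, e2, e3, e4, e5, e6, e7] with j h1 h2 h3 h4 h5 h6 h7
  have hx0 : ‖x - x‖ ≤ l j := by simpa using (hl j).le
  have hzj : ∀ i, ‖(x + l j • z j i) - x‖ ≤ l j := by
    intro i
    rw [add_sub_cancel_left, norm_smul, Real.norm_of_nonneg (hl j).le]
    calc l j * ‖z j i‖ ≤ l j * 1 := mul_le_mul_of_nonneg_left (hz1 j i) (hl j).le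
      _ = l j := mul_one _
  have hΘ0 : (W.simil x (l j) (hl j) O).Θ 0 = W.Θ x := by
    rw [SIV.simil_Θ, simInv_zero']
  have hrat0 : ∀ t : ℝ, 0 < t → (W.simil x (l j) (hl j) O).ratio 0 t = W.ratio x (l j * t) := by
    intro t ht
    rw [SIV.simil_ratio _ _ _ _ _ _ _ ht, simInv_zero']
  have hrati : ∀ (i : Fin m) (t : ℝ), 0 < t →
      (W.simil x (l j) (hl j) O).ratio (O (z j i)) t = W.ratio (x + l j • z j i) (l j * t) := by
    intro i t ht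
    rw [SIV.simil_ratio _ _ _ _ _ _ _ ht, simInv_O]
  have hΘi : ∀ i : Fin m, (W.simil x (l j) (hl j) O).Θ (O (z j i)) = W.Θ (x + l j • z j i) := by
    intro i
    rw [SIV.simil_Θ, simInv_O]
  have hdom : ∀ t : ℝ, Metric.closedBall x (l j * t) ⊆ W.U →
      Metric.closedBall 0 t ⊆ (W.simil x (l j) (hl j) O).U := by
    intro t ht
    apply simil_closedBall_subset
    rwa [simInv_zero']
  have hnz : ∀ i, ‖O (z j i)‖ ≤ 1 := fun i => by
    rw [O.norm_map]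
    exact hz1 j i
  refine ⟨hdom R (h5 x hx0).1, hΘ0, ?_, ?_, ?_⟩
  · rw [hrat0 R hR]
    linarith [(h5 x hx0).2]
  · intro X hX hXR
    have := Hh (W.simil x (l j) (hl j) O) y (fun i => O (z j i)) η' hη'.le hy hnz h7
      (hdom _ (h3 x hx0).1) (by rw [hrat0 _ (by linarith)]; linarith [(h4 x hx0).2])
      (by rw [hrat0 _ (by linarith), hΘ0]; linarith [(h4 x hx0).2])
      (fun i => by
        rw [hrati i _ (by linarith), hΘi]
        linarith [(h4 _ (hzj i)).2, h6 i])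
      X hX (by linarith)
    exact abs_le_of_sq_le_sq' (this.trans hH) hη.le |>.2
  · refine (T (W.simil x (l j) (hl j) O) y (fun i => O (z j i)) η' hη'.le hy hnz h7
      (hdom _ (h1 x hx0).1) (by rw [hrat0 _ (by linarith)]; linarith [(h2 x hx0).2])
      (by rw [hrat0 _ (by linarith), hΘ0]; linarith [(h2 x hx0).2])
      (fun i => by
        rw [hrati i _ (by linarith), hΘi]
        linarith [(h2 _ (hzj i)).2, h6 i])).trans hT

theorem Nest.flat (hm : 1 ≤ m) {W : SIV m n} {s : ℝ} (hs : (m : ℝ) - 1 < s) (D : Nest W s) :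
    ∃ (O : E (m + n) ≃ₗᵢ[ℝ] E (m + n)) (φ : ℕ → ℕ), StrictMono φ ∧
      ∀ R η : ℝ, 0 < R → 0 < η →
        ∀ᶠ j in atTop, IsFlat (W.simil D.x (D.l (φ j)) (D.l_pos (φ j)) O) (W.Θ D.x) R η := by
  obtain ⟨δ, z, hδ, hz⟩ := D.exists_centres hs
  obtain ⟨φ, z', hφ, hlim⟩ := exists_subseq_centres z (fun j i => ((hz j).1 i).1)
  have hq : Haus.QInd δ z' :=
    Haus.QInd.of_tendsto (l := atTop) (z := fun j => z (φ j))
      (Eventually.of_forall fun j => (hz (φ j)).2) hlim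
  obtain ⟨O, hO⟩ := exists_rotation z'
  have hy := qind_prH hq O hO
  refine ⟨O, φ, hφ, fun R η hR hη => ?_⟩
  have hxU : D.x ∈ W.U := (D.K_sub 0 (D.x_mem 0)).1
  refine eventually_isFlat hm W hxU O hδ _ hy (fun j => D.l (φ j)) (fun j => D.l_pos (φ j))
    (D.l_lim.comp hφ.tendsto_atTop) (fun j => z (φ j)) (fun j i => ((hz (φ j)).1 i).1) (fun i => ?_)
    (fun i => ?_) R η hR hη
  · have h1 : mkHV (prH m n (O (z' i))) (0 : E n) = O (z' i) := by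
      rw [← hO i, mk_prH_prV]
    rw [h1]
    exact (O.continuous.tendsto _).comp (hlim i)
  · rw [tendsto_iff_dist_tendsto_zero]
    have h2 : Tendsto (fun j : ℕ => 1 / (((φ j : ℕ) : ℝ) + 1)) atTop (𝓝 0) :=
      tendsto_one_div_add_atTop_nhds_zero_nat.comp hφ.tendsto_atTop
    refine squeeze_zero (fun _ => dist_nonneg) (fun j => ?_) h2
    rw [Real.dist_eq]
    exact D.osc (φ j) _ ((hz (φ j)).1 i).2

end Claimed.Agent.R322.Flat
end
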