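/- Packed by merge_tool.py (helper293): 3 modules of Claimed.Agent.R322 in one file, same declarations.
   Old modules, in this order: Tube.Pointwise, Tube.Lower, Tube.Dil -/
import Claimed.Agent.R322.Pack002
import Claimed.Agent.R322.Pack017
import Claimed.Agent.R322.Pack019
import Claimed.Agent.R322.Pack043

/- ===== packed: Claimed.Agent.R322.Tube.Pointwise ===== -/
section
/-!
# Pointwise trace identities for the two families of test fields (leaves P-H, P-N of `Tube/InstValid.lean`)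

`pw_horiz`, `pw_normal`: product rule for `Y ↦ L(Y) (g (chart Y))`, derivative of the chart (`chart_facts`),
trace algebra in the frames (`PwAlg.horiz`, `PwAlg.normal`).  All helper names carry the prefix `pw`.
-/

set_option autoImplicit false

open scoped ENNReal NNReal InnerProductSpace ContDiff
open MeasureTheory ContinuousLinearMap Set Metric

namespace Claimed.Agent.R322.Tube

local notation "adj" => ContinuousLinearMap.adjoint
local notation "𝟙" => ContinuousLinearMap.id ℝ _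

section alg

variable {m n N : ℕ}

/-- the algebraic relations between the frame, the coordinate matrix and `J_z`, `K_z` -/
structure PwAlg (τ : E m →L[ℝ] E N) (C Ci : E m →L[ℝ] E m) (J K H : E N →L[ℝ] E N) : Prop where
  tt : ∀ a, adj τ (τ a) = a
  tH : ∀ x, τ (adj τ x) = H x
  CCi : ∀ a, C (Ci a) = a
  CiC : ∀ a, Ci (C a) = a
  JK : ∀ x, J (K x) = x
  KJ : ∀ x, K (J x) = x
  HJ : ∀ x, H (J x) = J (H x)
  HK : ∀ x, H (K x) = K (H x)

variable {τ : E m →L[ℝ] E N} {C Ci : E m →L[ℝ] E m} {J K H : E N →L[ℝ] E N}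

theorem PwAlg.Ht (h : PwAlg τ C Ci J K H) (a : E m) : H (τ a) = τ a := by
  rw [← h.tH, h.tt]

theorem PwAlg.tH' (h : PwAlg τ C Ci J K H) (x : E N) : adj τ (H x) = adj τ x := by
  rw [← h.tH, h.tt]

theorem PwAlg.jC_inverse (h : PwAlg τ C Ci J K H) :
    (adj τ ∘L J ∘L τ ∘L C).inverse = Ci ∘L adj τ ∘L K ∘L τ := by
  refine ContinuousLinearMap.inverse_eq ?_ ?_
  · ext1 a
    simp only [coe_comp, Function.comp_apply, coe_id', id_eq, h.CCi, h.tH, ← h.HJ, h.JK, h.tH', h.tt]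
  · ext1 a
    simp only [coe_comp, Function.comp_apply, coe_id', id_eq, h.tH, ← h.HK, h.KJ, h.tH', h.tt, h.CiC]

theorem pw_tr_eq_trc {k : ℕ} (A : E k →L[ℝ] E k) : Sx.tr A = trc A := Sx.tr_eq_trace A

/-- trace algebra of the horizontal test field -/
theorem PwAlg.horiz (h : PwAlg τ C Ci J K H) (ν : E n →L[ℝ] E N) (P : E N →L[ℝ] E N) {l : ℝ}
    (hl : l ≠ 0) (om : E m →L[ℝ] E n) (T : E N →L[ℝ] E m)
    (D1 : E m →L[ℝ] E m) (D2 : E n →L[ℝ] E m) :
    trc (P ∘L (l • (J ∘L τ ∘L C)) ∘L (D1 ∘L (l⁻¹ • (Ci ∘L adj τ ∘L K ∘L H))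
        + D2 ∘L (l⁻¹ • adj ν - om ∘L T ∘L K ∘L H)))
      = (Sx.tr D1 - Sx.tr ((adj τ ∘L (𝟙 - P) ∘L τ) ∘L D1) + Sx.tr (D2 ∘L (adj ν ∘L P ∘L τ)))
        - (Sx.tr (((adj τ ∘L J ∘L τ ∘L C).inverse ∘L (adj τ ∘L (𝟙 - P) ∘L τ) ∘L
              (adj τ ∘L J ∘L τ ∘L C) - (adj τ ∘L (𝟙 - P) ∘L τ)) ∘L D1)
          + Sx.tr (D2 ∘L ((adj ν ∘L P ∘L τ) ∘L (𝟙 - (adj τ ∘L J ∘L τ ∘L C))
              + l • (om ∘L (T ∘L K ∘L H ∘L P) ∘L τ ∘L (adj τ ∘L J ∘L τ ∘L C))))) := by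
  rw [h.jC_inverse]
  simp only [pw_tr_eq_trc]
  -- split the left side
  have e1 : P ∘L (l • (J ∘L τ ∘L C)) ∘L (D1 ∘L (l⁻¹ • (Ci ∘L adj τ ∘L K ∘L H))
        + D2 ∘L (l⁻¹ • adj ν - om ∘L T ∘L K ∘L H))
      = (P ∘L J ∘L τ ∘L C ∘L D1) ∘L (Ci ∘L adj τ ∘L K ∘L H)
        + (P ∘L J ∘L τ ∘L C ∘L D2) ∘L (adj ν - l • (om ∘L T ∘L K ∘L H)) := by
    ext1 x
    simp only [coe_comp, Function.comp_apply, add_apply, FunLike.coe_smul, Pi.smul_apply, FunLike.coe_sub,
      Pi.sub_apply, map_add, map_sub, map_smul, smul_add, smul_sub, smul_smul, mul_inv_cancel₀ hl,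
      one_smul]
  rw [e1, trc_add, trc_comp_comm, trc_comp_comm (P ∘L J ∘L τ ∘L C ∘L D2)]
  have e2 : (Ci ∘L adj τ ∘L K ∘L H) ∘L (P ∘L J ∘L τ ∘L C ∘L D1)
      = D1 - (adj τ ∘L (𝟙 - P) ∘L τ) ∘L D1
        - ((Ci ∘L adj τ ∘L K ∘L τ) ∘L (adj τ ∘L (𝟙 - P) ∘L τ) ∘L (adj τ ∘L J ∘L τ ∘L C)
            - (adj τ ∘L (𝟙 - P) ∘L τ)) ∘L D1 := by
    ext1 a
    simp only [coe_comp, Function.comp_apply, FunLike.coe_sub, Pi.sub_apply, coe_id', id_eq, map_sub,
      h.tH, h.HJ, h.KJ, h.tt, h.CiC, h.Ht]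
    abel
  have e3 : trc ((adj ν - l • (om ∘L T ∘L K ∘L H)) ∘L (P ∘L J ∘L τ ∘L C ∘L D2))
      = trc (D2 ∘L (adj ν - l • (om ∘L T ∘L K ∘L H)) ∘L (P ∘L J ∘L τ ∘L C)) := by
    rw [trc_comp_comm D2]
    rfl
  have e4 : D2 ∘L (adj ν - l • (om ∘L T ∘L K ∘L H)) ∘L (P ∘L J ∘L τ ∘L C)
      = D2 ∘L (adj ν ∘L P ∘L τ) - D2 ∘L ((adj ν ∘L P ∘L τ) ∘L (𝟙 - (adj τ ∘L J ∘L τ ∘L C))
              + l • (om ∘L (T ∘L K ∘L H ∘L P) ∘L τ ∘L (adj τ ∘L J ∘L τ ∘L C))) := by
    ext1 a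
    simp only [coe_comp, Function.comp_apply, FunLike.coe_sub, Pi.sub_apply, coe_id', id_eq, map_sub,
      add_apply, FunLike.coe_smul, Pi.smul_apply, map_add, map_smul,
      h.tH, h.HJ, h.Ht]
    abel
  rw [e2, e3, e4, trc_sub, trc_sub, trc_sub]
  ring

/-- trace algebra of the normal test field -/
theorem PwAlg.normal (h : PwAlg τ C Ci J K H) (ν : E n →L[ℝ] E N) (P : E N →L[ℝ] E N)
    (hP : adj P = P) {l : ℝ} (hl : l ≠ 0) (om : E m →L[ℝ] E n) (T : E N →L[ℝ] E m)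
    (D1 : E m →L[ℝ] E n) (D2 : E n →L[ℝ] E n) :
    trc (P ∘L (l • ν) ∘L (D1 ∘L (l⁻¹ • (Ci ∘L adj τ ∘L K ∘L H))
        + D2 ∘L (l⁻¹ • adj ν - om ∘L T ∘L K ∘L H)))
      = (Sx.tr ((adj ν ∘L P ∘L ν) ∘L D2) + Sx.tr (adj (adj ν ∘L P ∘L τ) ∘L D1))
        - (Sx.tr ((l • (om ∘L (T ∘L K ∘L H ∘L P) ∘L ν)) ∘L D2)
          + Sx.tr (adj ((adj ν ∘L P ∘L τ) ∘L adj (𝟙 - (adj τ ∘L J ∘L τ ∘L C).inverse)) ∘L D1)) := by
  rw [h.jC_inverse]
  simp only [pw_tr_eq_trc]
  have a1 : adj (adj ν ∘L P ∘L τ) = adj τ ∘L P ∘L ν := by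
    rw [adjoint_comp, adjoint_comp, adjoint_adjoint, hP, comp_assoc]
  have a2 : adj ((adj ν ∘L P ∘L τ) ∘L adj (𝟙 - Ci ∘L adj τ ∘L K ∘L τ))
      = (𝟙 - Ci ∘L adj τ ∘L K ∘L τ) ∘L (adj τ ∘L P ∘L ν) := by
    rw [adjoint_comp, adjoint_adjoint, a1]
  rw [a1, a2]
  have e1 : P ∘L (l • ν) ∘L (D1 ∘L (l⁻¹ • (Ci ∘L adj τ ∘L K ∘L H))
        + D2 ∘L (l⁻¹ • adj ν - om ∘L T ∘L K ∘L H))
      = (P ∘L ν ∘L D1) ∘L (Ci ∘L adj τ ∘L K ∘L H)
        + (P ∘L ν ∘L D2) ∘L (adj ν - l • (om ∘L T ∘L K ∘L H)) := by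
    ext1 x
    simp only [coe_comp, Function.comp_apply, add_apply, FunLike.coe_smul, Pi.smul_apply,
      FunLike.coe_sub, Pi.sub_apply, map_add, map_sub, map_smul, smul_add, smul_sub, smul_smul,
      mul_inv_cancel₀ hl, one_smul]
  rw [e1, trc_add, trc_comp_comm, trc_comp_comm (P ∘L ν ∘L D2)]
  have e2 : (Ci ∘L adj τ ∘L K ∘L H) ∘L (P ∘L ν ∘L D1)
      = (adj τ ∘L P ∘L ν) ∘L D1 - ((𝟙 - Ci ∘L adj τ ∘L K ∘L τ) ∘L (adj τ ∘L P ∘L ν)) ∘L D1 := by
    ext1 a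
    simp only [coe_comp, Function.comp_apply, FunLike.coe_sub, Pi.sub_apply, coe_id', id_eq, h.tH]
    abel
  have e4 : (adj ν - l • (om ∘L T ∘L K ∘L H)) ∘L (P ∘L ν ∘L D2)
      = (adj ν ∘L P ∘L ν) ∘L D2 - (l • (om ∘L (T ∘L K ∘L H ∘L P) ∘L ν)) ∘L D2 := by
    ext1 a
    simp only [coe_comp, Function.comp_apply, FunLike.coe_sub, Pi.sub_apply,
      FunLike.coe_smul, Pi.smul_apply]
  rw [e2, e4, trc_sub, trc_sub]
  ring

end alg

section reg

variable {m n : ℕ} {u : E m → E n}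

theorem pw_contDiff_Shp (hu : ContDiff ℝ 4 u) :
    ContDiff ℝ 2 (fun p : E m × E (m + n) => Shp u p.1 p.2) := by
  have hu' : ContDiff ℝ ((3 + 1 : ℕ) : ℕ) u := by exact_mod_cast hu
  have hPh : ContDiff ℝ 3 (Ph u) := by exact_mod_cast contDiff_Ph_of (k := 3) hu'
  have hPv : ContDiff ℝ 3 (Pv u) := by exact_mod_cast contDiff_Pv_of (k := 3) hu'
  have hT : ContDiff ℝ 3 (fun y => dFp (fderiv ℝ u y)) := by
    exact_mod_cast contDiff_dFp_Du (k := 3) hu'
  have h1 : ContDiff ℝ 2 (fderiv ℝ (Ph u)) := hPh.fderiv_right (by norm_num)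
  have h3 : ContDiff ℝ 2 (fun p : E m × E (m + n) => Pv u p.1 p.2) :=
    ((hPv.of_le (by norm_num)).comp contDiff_fst).clm_apply contDiff_snd
  rw [contDiff_clm_apply_iff]
  intro a
  have h5 : ContDiff ℝ 2 (fun p : E m × E (m + n) => dFp (fderiv ℝ u p.1) a) :=
    ((hT.of_le (by norm_num)).comp contDiff_fst).clm_apply contDiff_const
  exact ((h1.comp contDiff_fst).clm_apply h5).clm_apply h3

theorem pw_contDiffOn_Jz {κ₂ : ℝ} (hu : Geo κ₂ u) {h : ℝ} (hh : h ≤ 2 / 9) :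
    ContDiffOn ℝ 2 (Jz u) (Tub u h) := by
  obtain ⟨-, h1, h2, -⟩ := tube_deriv_of_le hu hh
  have h3 := (pw_contDiff_Shp hu.smooth).comp_contDiffOn
    ((h1.of_le (by norm_num : (2 : WithTop ℕ∞) ≤ 3)).prodMk (h2.of_le (by norm_num)))
  exact contDiffOn_const.sub h3

theorem pw_Tub_mono (u : E m → E n) {h h' : ℝ} (hh : h ≤ h') : Tub u h ⊆ Tub u h' :=
  fun _ ⟨y, hy⟩ => ⟨y, hy.trans_le hh⟩

theorem pw_GeoS_mono {κ₂ ε ε' : ℝ} (h : GeoS κ₂ ε u) (hε : ε ≤ ε') : GeoS κ₂ ε' u :=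
  { toGeo := h.toGeo, slope' := fun y => (h.slope' y).trans hε, smooth5 := h.smooth5,
    d4 := h.d4, d5 := h.d5 }

theorem pw_tdiv_sum {N : ℕ} {ι : Type*} (s : Finset ι) (P : E N →L[ℝ] E N)
    (A : ι → E N →L[ℝ] E N) : tdiv P (∑ i ∈ s, A i) = ∑ i ∈ s, tdiv P (A i) := by
  classical
  induction s using Finset.induction_on with
  | empty => simp [tdiv]
  | insert a s ha ih => rw [Finset.sum_insert ha, Finset.sum_insert ha, tdiv_add, ih]

/-- product rule for `y ↦ L y (g y)` under the tangential divergence -/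
theorem pw_tdiv_clm_apply {k N : ℕ} {L : E N → E k →L[ℝ] E N} {g : E N → E k} {x : E N}
    (hL : DifferentiableAt ℝ L x) (hg : DifferentiableAt ℝ g x) (P : E N →L[ℝ] E N) :
    tdiv P (fderiv ℝ (fun y => L y (g y)) x)
      = trc (P ∘L L x ∘L fderiv ℝ g x)
        + ∑ a : Fin k, g x a *
            tdiv P (fderiv ℝ (fun y => L y (EuclideanSpace.single a (1 : ℝ))) x) := by
  have h1 := (hL.hasFDerivAt.clm_apply hg.hasFDerivAt).fderiv
  have h2 : ∀ a : Fin k, fderiv ℝ (fun y => L y (EuclideanSpace.single a (1 : ℝ))) x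
      = (fderiv ℝ L x).flip (EuclideanSpace.single a 1) := by
    intro a
    have := (hL.hasFDerivAt.clm_apply (hasFDerivAt_const (EuclideanSpace.single a (1 : ℝ)) x)).fderiv
    rw [this]
    simp
  rw [h1, tdiv_add]
  congr 1
  simp only [h2]
  conv_lhs => rw [← Sx.sum_coord_smul_eb (g x)]
  rw [map_sum, pw_tdiv_sum]
  refine Finset.sum_congr rfl fun a _ => ?_
  rw [map_smul, tdiv_smul]

theorem pw_bpt_bco (u : E m → E n) (x₀ : E m) {l : ℝ} (hl : l ≠ 0) (y : E m) :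
    bpt u x₀ l (bco u x₀ l y) = y := by
  have h := (A0_facts m n u x₀ _ le_rfl).2.2.1
  have h' : (A0 u x₀).inverse (A0 u x₀ (y - x₀)) = y - x₀ :=
    congrArg (fun T : E m →L[ℝ] E m => T (y - x₀)) h
  unfold bpt bco
  rw [map_smul, smul_smul, mul_inv_cancel₀ hl, one_smul, h']
  abel

/-- the algebraic relations at a point of the tube -/
theorem pw_alg_of {κ₂ : ℝ} (hu : Geo κ₂ u) {h : ℝ} (hh : h ≤ 2 / 9) {X : E (m + n)}
    (hX : X ∈ Tub u h) (x₀ : E m)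
    (h1 : adj (tauF u x₀ (npr u X)) ∘L tauF u x₀ (npr u X) = 𝟙)
    (h2 : tauF u x₀ (npr u X) ∘L adj (tauF u x₀ (npr u X)) = Ph u (npr u X))
    (h3 : Cy u x₀ (npr u X) ∘L (Cy u x₀ (npr u X)).inverse = 𝟙)
    (h4 : (Cy u x₀ (npr u X)).inverse ∘L Cy u x₀ (npr u X) = 𝟙) :
    PwAlg (tauF u x₀ (npr u X)) (Cy u x₀ (npr u X)) (Cy u x₀ (npr u X)).inverse
      (Jz u X) (Kz u X) (Ph u (npr u X)) := by
  obtain ⟨h5, h6, -, -⟩ := (tube_deriv_of_le hu hh).2.2.2 X hX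
  have h7 := Ph_comp_Jw (y := npr u X) (w := zz u X) hu.c2
  have h8 := Ph_comp_Kw (y := npr u X) (w := zz u X) hu.c2 (hu.norm_Shp_zz_le_half hh hX)
  exact
    { tt := fun a => congrArg (fun T : E m →L[ℝ] E m => T a) h1
      tH := fun x => congrArg (fun T : E (m + n) →L[ℝ] E (m + n) => T x) h2
      CCi := fun a => congrArg (fun T : E m →L[ℝ] E m => T a) h3
      CiC := fun a => congrArg (fun T : E m →L[ℝ] E m => T a) h4
      JK := fun x => congrArg (fun T : E (m + n) →L[ℝ] E (m + n) => T x) h5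
      KJ := fun x => congrArg (fun T : E (m + n) →L[ℝ] E (m + n) => T x) h6
      HJ := fun x => congrArg (fun T : E (m + n) →L[ℝ] E (m + n) => T x) h7
      HK := fun x => congrArg (fun T : E (m + n) →L[ℝ] E (m + n) => T x) h8 }

end reg

section main

variable {m n : ℕ}

theorem pw_fderiv_D1_D2 {G : Type*} [NormedAddCommGroup G] [NormedSpace ℝ G]
    (F : E m × E n → G) (q v : E m × E n) :
    fderiv ℝ F q v = Sx.D1 F q v.1 + Sx.D2 F q v.2 := by
  unfold Sx.D1 Sx.D2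
  rw [comp_apply, comp_apply, ← map_add]
  simp

/-- the operator field of the horizontal test field -/
noncomputable def pwLh (u : E m → E n) (x₀ : E m) (l : ℝ) (X' : E (m + n)) : E m →L[ℝ] E (m + n) :=
  Jz u X' ∘L dF (fderiv ℝ u (npr u X')) ∘L (l • (A0 u x₀).inverse)

theorem pwLh_forced : True := by
  have := @pwLh.eq_1
  have := @pwLh.eq_def
  trivial

theorem pw_contDiffOn_Lh {u : E m → E n} {κ₂ : ℝ} (hu : Geo κ₂ u) {h : ℝ} (hh : h ≤ 2 / 9)
    (x₀ : E m) (l : ℝ) : ContDiffOn ℝ 2 (pwLh u x₀ l) (Tub u h) := by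
  obtain ⟨-, h1, -, -⟩ := tube_deriv_of_le hu hh
  have hu' : ContDiff ℝ ((3 + 1 : ℕ) : ℕ) u := by exact_mod_cast hu.smooth
  have h2 : ContDiff ℝ 3 (fun y => dF (fderiv ℝ u y)) := by
    exact_mod_cast contDiff_dF_Du (k := 3) hu'
  have h3 : ContDiffOn ℝ 2 (fun X' => dF (fderiv ℝ u (npr u X'))) (Tub u h) :=
    (h2.of_le (by norm_num)).comp_contDiffOn (h1.of_le (by norm_num : (2 : WithTop ℕ∞) ≤ 3))
  exact (pw_contDiffOn_Jz hu hh).clm_comp (h3.clm_comp contDiffOn_const)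

/-- the derivative of `F ∘ chart` in operator form -/
theorem pw_fderiv_comp_chart {G : Type*} [NormedAddCommGroup G] [NormedSpace ℝ G]
    {u : E m → E n} {x₀ : E m} {l : ℝ} {X' : E (m + n)} {F : E m × E n → G}
    (hF : DifferentiableAt ℝ F (chart u x₀ l X'))
    (hc : DifferentiableAt ℝ (chart u x₀ l) X')
    (hd : ∀ ξ : E (m + n),
        (fderiv ℝ (chart u x₀ l) X' ξ).1
          = l⁻¹ • A0 u x₀ (dFp (fderiv ℝ u (npr u X')) (Kz u X' (Ph u (npr u X') ξ))) ∧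
        (fderiv ℝ (chart u x₀ l) X' ξ).2
          = l⁻¹ • adj (nuF u x₀ (npr u X')) ξ
            - omgL u x₀ (npr u X') (dFp (fderiv ℝ u (npr u X')) (Kz u X' (Ph u (npr u X') ξ)))
                (chart u x₀ l X').2)
    (hA : A0 u x₀ ∘L dFp (fderiv ℝ u (npr u X'))
      = (Cy u x₀ (npr u X')).inverse ∘L adj (tauF u x₀ (npr u X'))) :
    fderiv ℝ (fun Y => F (chart u x₀ l Y)) X'
      = Sx.D1 F (chart u x₀ l X') ∘L (l⁻¹ • ((Cy u x₀ (npr u X')).inverse ∘L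
            adj (tauF u x₀ (npr u X')) ∘L Kz u X' ∘L Ph u (npr u X')))
        + Sx.D2 F (chart u x₀ l X') ∘L (l⁻¹ • adj (nuF u x₀ (npr u X'))
            - ((ContinuousLinearMap.apply ℝ (E n) (chart u x₀ l X').2) ∘L omgL u x₀ (npr u X')) ∘L
                dFp (fderiv ℝ u (npr u X')) ∘L Kz u X' ∘L Ph u (npr u X')) := by
  have h1 : fderiv ℝ (fun Y => F (chart u x₀ l Y)) X'
      = fderiv ℝ F (chart u x₀ l X') ∘L fderiv ℝ (chart u x₀ l) X' :=
    (hF.hasFDerivAt.comp X' hc.hasFDerivAt).fderiv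
  rw [h1]
  ext1 ξ
  have hA' : ∀ x, A0 u x₀ (dFp (fderiv ℝ u (npr u X')) x)
      = (Cy u x₀ (npr u X')).inverse (adj (tauF u x₀ (npr u X')) x) :=
    fun x => congrArg (fun T : E (m + n) →L[ℝ] E m => T x) hA
  rw [comp_apply, pw_fderiv_D1_D2, (hd ξ).1, (hd ξ).2, hA']
  rfl

theorem pw_inner_sum_single {k : ℕ} (c : Fin k → ℝ) (v : E k) :
    ⟪∑ a : Fin k, c a • EuclideanSpace.single a (1 : ℝ), v⟫_ℝ = ∑ a : Fin k, c a * v a := by
  rw [sum_inner]
  refine Finset.sum_congr rfl fun a _ => ?_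
  rw [inner_smul_left, EuclideanSpace.inner_single_left]
  simp

/-- [P-H] pointwise trace identity for the horizontal test field. -/
theorem pw_horiz (m n : ℕ) : ∃ ε₀ h₀ : ℝ, 0 < ε₀ ∧ 0 < h₀ ∧
    ∀ (N : NCyl m n) (x₀ : E m) (l : ℝ), GeoS 1 ε₀ N.u → 0 < l →
    ∀ X : E m × E n → E m, ContDiff ℝ 1 X →
      ContDiffOn ℝ 1 (fun X' => Jz N.u X' (dF (fderiv ℝ N.u (npr N.u X'))
        (l • (A0 N.u x₀).inverse (X (chart N.u x₀ l X'))))) (Tub N.u h₀) ∧
      ∀ X' ∈ Tub N.u h₀,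
        tdiv (N.W.P X') (fderiv ℝ (fun X' => Jz N.u X' (dF (fderiv ℝ N.u (npr N.u X'))
            (l • (A0 N.u x₀).inverse (X (chart N.u x₀ l X'))))) X')
          = (Sx.tr (Sx.D1 X (chart N.u x₀ l X'))
              + ∑ a : Fin m, divS N.u (N.cfield x₀ l a) (npr N.u X') * (X (chart N.u x₀ l X')) a
              - Sx.tr (N.Bg x₀ l (chart N.u x₀ l X') ∘L Sx.D1 X (chart N.u x₀ l X'))
              + Sx.tr (Sx.D2 X (chart N.u x₀ l X') ∘L N.Pvhg x₀ l (chart N.u x₀ l X')))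
            - (Sx.tr (N.E1g x₀ l (chart N.u x₀ l X') ∘L Sx.D1 X (chart N.u x₀ l X'))
              + ⟪N.E2g x₀ l (chart N.u x₀ l X'), X (chart N.u x₀ l X')⟫_ℝ
              + Sx.tr (Sx.D2 X (chart N.u x₀ l X') ∘L N.E3g x₀ l (chart N.u x₀ l X'))) := by
  obtain ⟨εc, hc, hεc, hhc, Hc⟩ := chart_facts m n
  obtain ⟨εi, hεi, Hi⟩ := frame_iso m n
  obtain ⟨εb, Cb, hεb, -, Hb⟩ := frame_bounds m n
  refine ⟨min εc (min εi εb), min hc (2 / 9), lt_min hεc (lt_min hεi hεb),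
    lt_min hhc (by norm_num), ?_⟩
  intro N x₀ l hG hl X hX
  obtain ⟨u, hu_def⟩ : ∃ u, u = N.u := ⟨_, rfl⟩
  rw [← hu_def] at hG ⊢
  have hgeo : Geo 1 u := hG.toGeo
  have hh : min hc (2 / 9) ≤ 2 / 9 := min_le_right _ _
  obtain ⟨hch1, -, hch3, -, -, hch6⟩ := Hc 1 u (pw_GeoS_mono hG (min_le_left _ _)) x₀ l hl
  have Hi' := (Hi 1 u (pw_GeoS_mono hG ((min_le_right _ _).trans (min_le_left _ _))) x₀).2.2
  have Hb' := Hb 1 u (pw_GeoS_mono hG ((min_le_right _ _).trans (min_le_right _ _))) x₀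
  have hsub : Tub u (min hc (2 / 9)) ⊆ Tub u hc := pw_Tub_mono u (min_le_left _ _)
  have hopen : IsOpen (Tub u (min hc (2 / 9))) := isOpen_Tub u _
  have hL := pw_contDiffOn_Lh hgeo hh x₀ l
  have hch1' : ContDiffOn ℝ 1 (chart u x₀ l) (Tub u (min hc (2 / 9))) :=
    (hch1.of_le (by norm_num)).mono hsub
  have hg : ContDiffOn ℝ 1 (fun Y => X (chart u x₀ l Y)) (Tub u (min hc (2 / 9))) :=
    hX.comp_contDiffOn hch1'
  have hfun : (fun X' => Jz u X' (dF (fderiv ℝ u (npr u X'))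
      (l • (A0 u x₀).inverse (X (chart u x₀ l X'))))) =
      fun X' => pwLh u x₀ l X' (X (chart u x₀ l X')) := by
    funext X'
    simp [pwLh]
  rw [hfun]
  refine ⟨(hL.of_le (by norm_num)).clm_apply hg, fun X' hX' => ?_⟩
  have hLd : DifferentiableAt ℝ (pwLh u x₀ l) X' :=
    (hL.contDiffAt (hopen.mem_nhds hX')).differentiableAt (by norm_num)
  have hgd : DifferentiableAt ℝ (fun Y => X (chart u x₀ l Y)) X' :=
    (hg.contDiffAt (hopen.mem_nhds hX')).differentiableAt (by norm_num)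
  have hcd : DifferentiableAt ℝ (chart u x₀ l) X' :=
    (hch1'.contDiffAt (hopen.mem_nhds hX')).differentiableAt (by norm_num)
  rw [pw_tdiv_clm_apply hLd hgd]
  have hq1 : bpt u x₀ l (chart u x₀ l X').1 = npr u X' := pw_bpt_bco u x₀ hl.ne' _
  have hq2 : unchart u x₀ l (chart u x₀ l X') = X' := hch3 X' (hsub hX')
  obtain ⟨i1, -, i3, -⟩ := Hi' (npr u X')
  obtain ⟨b1, b2, b3, b4, -⟩ := Hb' (npr u X')
  have hA := pw_alg_of hgeo hh hX' x₀ i1 i3 b3 b4
  have hLx : pwLh u x₀ l X' = l • (Jz u X' ∘L tauF u x₀ (npr u X') ∘L Cy u x₀ (npr u X')) := by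
    unfold pwLh
    rw [comp_smul, comp_smul, b1]
  rw [hLx, pw_fderiv_comp_chart (hX.differentiable (by norm_num) _) hcd (hch6 X' (hsub hX')) b2,
    hA.horiz (nuF u x₀ (npr u X')) (N.W.P X') hl.ne']
  have hlift : ∀ a : Fin m, lift u (N.cfield x₀ l a)
      = fun Y => pwLh u x₀ l Y (EuclideanSpace.single a (1 : ℝ)) := by
    intro a
    funext Y
    simp [lift, tanF, pwLh, NCyl.cfield, ← hu_def]
  have hE2 : ⟪N.E2g x₀ l (chart u x₀ l X'), X (chart u x₀ l X')⟫_ℝ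
      = ∑ a : Fin m, divS u (N.cfield x₀ l a) (npr u X') * (X (chart u x₀ l X')) a
        - ∑ a : Fin m, (X (chart u x₀ l X')) a * tdiv (N.W.P X')
            (fderiv ℝ (fun Y => pwLh u x₀ l Y (EuclideanSpace.single a (1 : ℝ))) X') := by
    unfold NCyl.E2g NCyl.Pq
    rw [pw_inner_sum_single, ← hu_def, hq1, hq2, ← Finset.sum_sub_distrib]
    refine Finset.sum_congr rfl fun a _ => ?_
    rw [hlift a]
    ring
  rw [hE2]
  simp only [NCyl.Bg, NCyl.Pvhg, NCyl.E1g, NCyl.E3g, NCyl.jC, NCyl.tq, NCyl.nq, NCyl.Pq, NCyl.omz,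
    NCyl.dyP, ← hu_def, hq1, hq2]
  ring

/-- [P-N] pointwise trace identity for the normal test field. -/
theorem pw_normal (m n : ℕ) : ∃ ε₀ h₀ : ℝ, 0 < ε₀ ∧ 0 < h₀ ∧
    ∀ (N : NCyl m n) (x₀ : E m) (l : ℝ), GeoS 1 ε₀ N.u → 0 < l →
    ∀ v : E m × E n → E n, ContDiff ℝ 1 v →
      ContDiffOn ℝ 1 (fun X' => l • nuF N.u x₀ (npr N.u X') (v (chart N.u x₀ l X')))
        (Tub N.u h₀) ∧
      ∀ X' ∈ Tub N.u h₀,
        tdiv (N.W.P X') (fderiv ℝ
            (fun X' => l • nuF N.u x₀ (npr N.u X') (v (chart N.u x₀ l X'))) X')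
          = (Sx.tr (N.Pvvg x₀ l (chart N.u x₀ l X') ∘L Sx.D2 v (chart N.u x₀ l X'))
              + Sx.tr ((N.Pvhg x₀ l (chart N.u x₀ l X')).adjoint ∘L Sx.D1 v (chart N.u x₀ l X')))
            - (Sx.tr (N.E4g x₀ l (chart N.u x₀ l X') ∘L Sx.D2 v (chart N.u x₀ l X'))
              + ⟪N.E5g x₀ l (chart N.u x₀ l X'), v (chart N.u x₀ l X')⟫_ℝ
              + Sx.tr ((N.E6g x₀ l (chart N.u x₀ l X')).adjoint ∘L Sx.D1 v (chart N.u x₀ l X'))) := by
  obtain ⟨εc, hc, hεc, hhc, Hc⟩ := chart_facts m n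
  obtain ⟨εi, hεi, Hi⟩ := frame_iso m n
  obtain ⟨εb, Cb, hεb, -, Hb⟩ := frame_bounds m n
  refine ⟨min εc (min εi εb), min hc (2 / 9), lt_min hεc (lt_min hεi hεb),
    lt_min hhc (by norm_num), ?_⟩
  intro N x₀ l hG hl v hv
  obtain ⟨u, hu_def⟩ : ∃ u, u = N.u := ⟨_, rfl⟩
  rw [← hu_def] at hG ⊢
  have hgeo : Geo 1 u := hG.toGeo
  have hh : min hc (2 / 9) ≤ 2 / 9 := min_le_right _ _
  obtain ⟨hch1, -, hch3, -, -, hch6⟩ := Hc 1 u (pw_GeoS_mono hG (min_le_left _ _)) x₀ l hl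
  obtain ⟨-, hnu, Hi'⟩ := Hi 1 u (pw_GeoS_mono hG ((min_le_right _ _).trans (min_le_left _ _))) x₀
  have Hb' := Hb 1 u (pw_GeoS_mono hG ((min_le_right _ _).trans (min_le_right _ _))) x₀
  have hsub : Tub u (min hc (2 / 9)) ⊆ Tub u hc := pw_Tub_mono u (min_le_left _ _)
  have hopen : IsOpen (Tub u (min hc (2 / 9))) := isOpen_Tub u _
  obtain ⟨-, hnpr, -, -⟩ := tube_deriv_of_le hgeo hh
  have hN : ContDiffOn ℝ 3 (fun Y => nuF u x₀ (npr u Y)) (Tub u (min hc (2 / 9))) :=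
    hnu.comp_contDiffOn hnpr
  have hL : ContDiffOn ℝ 3 (fun Y => l • nuF u x₀ (npr u Y)) (Tub u (min hc (2 / 9))) :=
    hN.const_smul l
  have hch1' : ContDiffOn ℝ 1 (chart u x₀ l) (Tub u (min hc (2 / 9))) :=
    (hch1.of_le (by norm_num)).mono hsub
  have hg : ContDiffOn ℝ 1 (fun Y => v (chart u x₀ l Y)) (Tub u (min hc (2 / 9))) :=
    hv.comp_contDiffOn hch1'
  have hfun : (fun X' => l • nuF u x₀ (npr u X') (v (chart u x₀ l X'))) =
      fun X' => (l • nuF u x₀ (npr u X')) (v (chart u x₀ l X')) := by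
    funext X'
    simp
  rw [hfun]
  refine ⟨(hL.of_le (by norm_num)).clm_apply hg, fun X' hX' => ?_⟩
  have hNd : DifferentiableAt ℝ (fun Y => nuF u x₀ (npr u Y)) X' :=
    (hN.contDiffAt (hopen.mem_nhds hX')).differentiableAt (by norm_num)
  have hLd : DifferentiableAt ℝ (fun Y => l • nuF u x₀ (npr u Y)) X' :=
    (hL.contDiffAt (hopen.mem_nhds hX')).differentiableAt (by norm_num)
  have hgd : DifferentiableAt ℝ (fun Y => v (chart u x₀ l Y)) X' :=
    (hg.contDiffAt (hopen.mem_nhds hX')).differentiableAt (by norm_num)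
  have hcd : DifferentiableAt ℝ (chart u x₀ l) X' :=
    (hch1'.contDiffAt (hopen.mem_nhds hX')).differentiableAt (by norm_num)
  rw [pw_tdiv_clm_apply hLd hgd]
  have hq1 : bpt u x₀ l (chart u x₀ l X').1 = npr u X' := pw_bpt_bco u x₀ hl.ne' _
  have hq2 : unchart u x₀ l (chart u x₀ l X') = X' := hch3 X' (hsub hX')
  obtain ⟨i1, -, i3, -⟩ := Hi' (npr u X')
  obtain ⟨-, b2, b3, b4, -⟩ := Hb' (npr u X')
  have hA := pw_alg_of hgeo hh hX' x₀ i1 i3 b3 b4
  rw [pw_fderiv_comp_chart (hv.differentiable (by norm_num) _) hcd (hch6 X' (hsub hX')) b2,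
    hA.normal (nuF u x₀ (npr u X')) (N.W.P X') (Base.isProj_adjoint_eq (N.W.P_proj X')) hl.ne']
  have hder : ∀ b : Fin n,
      fderiv ℝ (fun Y => (l • nuF u x₀ (npr u Y)) (EuclideanSpace.single b (1 : ℝ))) X'
        = l • fderiv ℝ (fun Y => nuF u x₀ (npr u Y) (EuclideanSpace.single b (1 : ℝ))) X' := by
    intro b
    have h1 : DifferentiableAt ℝ
        (fun Y => nuF u x₀ (npr u Y) (EuclideanSpace.single b (1 : ℝ))) X' :=
      hNd.clm_apply (differentiableAt_const _)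
    exact fderiv_const_smul h1 l
  have hE5 : ⟪N.E5g x₀ l (chart u x₀ l X'), v (chart u x₀ l X')⟫_ℝ
      = - ∑ b : Fin n, (v (chart u x₀ l X')) b * tdiv (N.W.P X')
            (fderiv ℝ (fun Y => (l • nuF u x₀ (npr u Y)) (EuclideanSpace.single b (1 : ℝ))) X') := by
    unfold NCyl.E5g NCyl.Pq
    rw [pw_inner_sum_single, ← hu_def, hq2, ← Finset.sum_neg_distrib]
    refine Finset.sum_congr rfl fun b _ => ?_
    rw [hder b, tdiv_smul]
    ring
  rw [hE5]
  simp only [NCyl.Pvvg, NCyl.Pvhg, NCyl.E4g, NCyl.E6g, NCyl.jC, NCyl.tq, NCyl.nq, NCyl.Pq,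
    NCyl.omz, NCyl.dyP, ← hu_def, hq1, hq2]
  ring

end main

end Claimed.Agent.R322.Tube
end

/- ===== packed: Claimed.Agent.R322.Tube.Lower ===== -/
section
/-!
# Lower mass bound for height-gap restrictions of the system of a cell (leaf V10)

`W` is restricted to the part of the cylinder over `Ω'`, cut to the chart preimage of the height
region `O` (no support on its frontier, by the gap), extended by zero to the part of the full tube
over `Ω'` (no support at heights `≥ h'`), and `SIV.lower_mass` is applied in the ambient ball of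
radius `c₁ r l`, which the chart maps into `ball q.1 r × ball q.2 r`.
-/

set_option autoImplicit false

open scoped ENNReal NNReal InnerProductSpace
open MeasureTheory ContinuousLinearMap Set Metric

namespace Claimed.Agent.R322.Tube

variable {m n : ℕ}

/-- a closed ball inside an open ball has a smaller radius (`m ≥ 1`) -/
theorem radius_lt_of_closedBall_subset (hm : 1 ≤ m) {p : E m} {r ρ : ℝ} (hr : 0 ≤ r)
    (h : closedBall p r ⊆ ball (0 : E m) ρ) : r < ρ := by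
  set e : E m := EuclideanSpace.single (⟨0, hm⟩ : Fin m) (1 : ℝ) with he
  have hen : ‖e‖ = 1 := by simp [he]
  have h1 : p + r • e ∈ closedBall p r := by
    rw [mem_closedBall, dist_eq_norm, add_sub_cancel_left, norm_smul, hen, mul_one,
      Real.norm_eq_abs, abs_of_nonneg hr]
  have h2 : p - r • e ∈ closedBall p r := by
    rw [mem_closedBall, dist_eq_norm, sub_sub_cancel_left, norm_neg, norm_smul, hen, mul_one,
      Real.norm_eq_abs, abs_of_nonneg hr]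
  have h3 := mem_ball_zero_iff.1 (h h1)
  have h4 := mem_ball_zero_iff.1 (h h2)
  have h5 : ‖(2 * r) • e‖ ≤ ‖p + r • e‖ + ‖p - r • e‖ := by
    have : (2 * r) • e = (p + r • e) - (p - r • e) := by
      rw [two_mul, add_smul]; abel
    rw [this]
    exact norm_sub_le _ _
  rw [norm_smul, hen, mul_one, Real.norm_eq_abs, abs_of_nonneg (by linarith)] at h5
  linarith

namespace ChartOK

variable {N : NCyl m n} {x₀ : E m} {l hT Cω : ℝ}

/-- heights of points of the support of the chart measure -/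
theorem spt_height (H : ChartOK N.u x₀ l hT Cω) (hh : N.h ≤ hT) {ρ Cg : ℝ} {q : E m × E n}
    (hq : q ∈ (N.sysOf x₀ l ρ Cg).spt) : l * ‖q.2‖ ≤ N.h' := by
  by_contra hcon
  push Not at hcon
  have hopen : IsOpen {q' : E m × E n | N.h' < l * ‖q'.2‖} :=
    isOpen_lt continuous_const (by fun_prop)
  obtain ⟨ε, hε, hb⟩ := Metric.isOpen_iff.1 hopen q hcon
  have h1 := hq ε hε
  have h2 : (N.sysOf x₀ l ρ Cg).μ {q' : E m × E n | N.h' < l * ‖q'.2‖} = 0 := by
    rw [H.sysOf_μ_apply hh ρ Cg hopen.measurableSet]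
    have : N.W.μ (chart N.u x₀ l ⁻¹' {q' : E m × E n | N.h' < l * ‖q'.2‖} ∩
        ({X | npr N.u X ∈ N.cellBase x₀ l ρ} ∩ Cyl N.u N.Ω N.h)) = 0 := by
      refine measure_mono_null ?_ (carrier_null N)
      rintro X ⟨h3, -, h4⟩
      refine ⟨?_, h4⟩
      have h5 : N.h' < l * ‖(chart N.u x₀ l X).2‖ := h3
      rw [H.norm_snd X (Cyl_subset_Tub N.u N.Ω hh h4), ← mul_assoc,
        mul_inv_cancel₀ H.l_pos.ne', one_mul] at h5
      exact h5.le
    rw [this, mul_zero]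
  exact absurd (lt_of_lt_of_le h1 (measure_mono hb)) (by rw [h2]; exact lt_irrefl _)

/-- the ambient point of a point of the support of the chart measure -/
theorem spt_unchart (H : ChartOK N.u x₀ l hT Cω) (hh : N.h ≤ hT) {ρ Cg : ℝ}
    (room : ∀ y, ‖bco N.u x₀ l y‖ ≤ ρ → y ∈ N.Ω) {q : E m × E n}
    (hq : q ∈ (N.sysOf x₀ l ρ Cg).spt) (hq1 : q.1 ∈ ball (0 : E m) ρ) :
    unchart N.u x₀ l q ∈ N.W.support ∧ unchart N.u x₀ l q ∈ Cyl N.u N.Ω N.h ∧
      chart N.u x₀ l (unchart N.u x₀ l q) = q ∧ ‖zz N.u (unchart N.u x₀ l q)‖ ≤ N.h' := by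
  have hht := H.spt_height hh hq
  have hlt : l * ‖q.2‖ < hT := hht.trans_lt (N.h'_lt.trans_le hh)
  obtain ⟨d1, d2, d3, d4⟩ := H.right_inv q hlt
  have hz : ‖zz N.u (unchart N.u x₀ l q)‖ = l * ‖q.2‖ := by
    rw [d4, norm_smul, H.norm_nu_apply, Real.norm_eq_abs, abs_of_pos H.l_pos]
  have hC : unchart N.u x₀ l q ∈ Cyl N.u N.Ω N.h := by
    refine ⟨room _ ?_, ?_⟩
    · rw [d3, H.bco_bpt]
      exact (mem_ball_zero_iff.1 hq1).le
    · rw [hz]
      exact hht.trans_lt N.h'_lt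
  refine ⟨⟨N.cyl_sub hC, fun t ht => ?_⟩, hC, d2, hz.le.trans hht⟩
  have hcont : ContinuousAt (unchart N.u x₀ l) q := H.unchart_smooth.continuous.continuousAt
  obtain ⟨ε, hε, hb⟩ := Metric.continuousAt_iff.1 hcont t ht
  have h1 := hq ε hε
  rw [H.sysOf_μ_apply hh ρ Cg isOpen_ball.measurableSet] at h1
  have h2 : 0 < N.W.μ (chart N.u x₀ l ⁻¹' ball q ε ∩
      ({X | npr N.u X ∈ N.cellBase x₀ l ρ} ∩ Cyl N.u N.Ω N.h)) := by
    by_contra h0
    rw [not_lt, nonpos_iff_eq_zero] at h0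
    rw [h0, mul_zero] at h1
    exact lt_irrefl _ h1
  refine lt_of_lt_of_le h2 (measure_mono ?_)
  rintro X ⟨h3, -, h4⟩
  have h5 := hb (mem_ball.1 h3)
  rw [H.left_inv X (Cyl_subset_Tub N.u N.Ω hh h4)] at h5
  exact h5

/-- the chart maps a small ambient ball into a chart cylinder -/
theorem ball_into {u : E m → E n} (H : ChartOK u x₀ l hT Cω) {ρ r c₁ : ℝ} (hl1 : l ≤ 1)
    (hρ : 0 ≤ ρ) (hc₁ : 0 < c₁) (hc₁L : c₁ * (9 / 2 + 3 * Cω * ρ) ≤ 1) (hc₁T : c₁ * ρ ≤ hT / 2)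
    {X₀ : E (m + n)} (hz : ‖zz u X₀‖ < hT / 2) (hr : 0 < r) (hrρ : r ≤ ρ)
    (hb : ball (chart u x₀ l X₀).1 r ⊆ ball (0 : E m) ρ) :
    ball X₀ (c₁ * r * l) ⊆ Tub u hT ∧
      ∀ X ∈ ball X₀ (c₁ * r * l), chart u x₀ l X ∈ ball (chart u x₀ l X₀) r := by
  have hl := H.l_pos
  have hC := H.Cω_pos
  have hli := inv_pos.2 hl
  have hs : c₁ * r * l ≤ hT / 2 := by
    have h1 : c₁ * r * l ≤ c₁ * ρ * 1 :=
      mul_le_mul (mul_le_mul_of_nonneg_left hrρ hc₁.le) hl1 hl.le (by positivity)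
    linarith
  have hT1 : ball X₀ (c₁ * r * l) ⊆ Tub u hT := by
    intro X hX
    refine ⟨npr u X₀, ?_⟩
    have h1 : X - Fg u (npr u X₀) = (X - X₀) + zz u X₀ := by
      unfold zz; abel
    rw [h1]
    have h2 : ‖X - X₀‖ < c₁ * r * l := by rwa [mem_ball, dist_eq_norm] at hX
    calc _ ≤ ‖X - X₀‖ + ‖zz u X₀‖ := norm_add_le _ _
      _ < hT := by linarith
  have hy : ∀ Y ∈ ball X₀ (c₁ * r * l), ‖npr u Y - x₀‖ ≤ l * ρ := by
    intro Y hY
    have h1 := H.fst_lip hT1 hY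
    have h2 : ‖Y - X₀‖ < c₁ * r * l := by rwa [mem_ball, dist_eq_norm] at hY
    have h3 : l⁻¹ * (9 / 2) * ‖Y - X₀‖ < l⁻¹ * (9 / 2) * (c₁ * r * l) :=
      mul_lt_mul_of_pos_left h2 (by positivity)
    have h4 : l⁻¹ * (9 / 2) * (c₁ * r * l) = c₁ * (9 / 2) * r := by
      field_simp
    have h5 : c₁ * (9 / 2) * r ≤ r := by
      have : c₁ * (9 / 2) ≤ 1 := by
        have : 0 ≤ c₁ * (3 * Cω * ρ) := by positivity
        linarith
      nlinarith
    have h6 : (chart u x₀ l Y).1 ∈ ball (chart u x₀ l X₀).1 r := by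
      rw [mem_ball, dist_eq_norm]; linarith
    have h7 := mem_ball_zero_iff.1 (hb h6)
    have h8 := H.norm_sub_le_bco (npr u Y)
    have h9 : ‖bco u x₀ l (npr u Y)‖ < ρ := h7
    exact h8.trans (mul_le_mul_of_nonneg_left h9.le hl.le)
  refine ⟨hT1, fun X hX => ?_⟩
  have h1 := H.chart_lip hρ hT1 hy hX
  have h2 : ‖X - X₀‖ < c₁ * r * l := by rwa [mem_ball, dist_eq_norm] at hX
  have h3 : l⁻¹ * (9 / 2 + 3 * Cω * l * ρ) * ‖X - X₀‖
      < l⁻¹ * (9 / 2 + 3 * Cω * l * ρ) * (c₁ * r * l) :=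
    mul_lt_mul_of_pos_left h2 (by positivity)
  have h4 : l⁻¹ * (9 / 2 + 3 * Cω * l * ρ) * (c₁ * r * l)
      = c₁ * (9 / 2 + 3 * Cω * l * ρ) * r := by
    field_simp
  have h5 : c₁ * (9 / 2 + 3 * Cω * l * ρ) * r ≤ r := by
    have h6 : 3 * Cω * l * ρ ≤ 3 * Cω * ρ := by
      have : 3 * Cω * l * ρ = (3 * Cω * ρ) * l := by ring
      rw [this]
      exact mul_le_of_le_one_right (by positivity) hl1
    have : c₁ * (9 / 2 + 3 * Cω * l * ρ) ≤ 1 :=
      (mul_le_mul_of_nonneg_left (by linarith) hc₁.le).trans hc₁L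
    nlinarith
  rw [mem_ball, dist_eq_norm]
  linarith

/-- **core of V10**: lower bound for the ambient mass of the chart preimage -/
theorem lower_core (hm : 1 ≤ m) (H : ChartOK N.u x₀ l hT Cω) (hh : N.h ≤ hT / 2) (hl1 : l ≤ 1)
    {ρ Cg c₁ : ℝ} (room : ∀ y, ‖bco N.u x₀ l y‖ ≤ ρ → y ∈ N.Ω)
    (hc₁ : 0 < c₁) (hc₁L : c₁ * (9 / 2 + 3 * Cω * ρ) ≤ 1) (hc₁T : c₁ * ρ ≤ hT / 2)
    {Ω' : Set (E m)} {O : Set (E n)} (hΩ' : IsOpen Ω') (hsub : Ω' ⊆ ball (0 : E m) ρ)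
    (hO : IsOpen O) (hgap : (N.sysOf x₀ l ρ Cg).Gap Ω' O) {q : E m × E n} {r : ℝ}
    (hq : q ∈ (N.sysOf x₀ l ρ Cg).spt) (hqO : q.2 ∈ O) (hr : 0 < r)
    (hball : closedBall q.1 r ⊆ Ω') :
    ENNReal.ofReal (kap m * (c₁ * r * l) ^ m) ≤
      N.W.μ (chart N.u x₀ l ⁻¹' (ball q.1 r ×ˢ (ball q.2 r ∩ O)) ∩
        ({X | npr N.u X ∈ N.cellBase x₀ l ρ} ∩ Cyl N.u N.Ω N.h)) := by
  have hhT : N.h ≤ hT := by linarith [H.hT_pos]
  have hq1 : q.1 ∈ Ω' := hball (mem_closedBall_self hr.le)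
  obtain ⟨s1, s2, s3, s4⟩ := H.spt_unchart hhT room hq (hsub hq1)
  set X₀ := unchart N.u x₀ l q with hX₀
  have hrρ : r < ρ := radius_lt_of_closedBall_subset hm hr.le (hball.trans hsub)
  have hTo := isOpen_Tub N.u hT
  have hX₀T : X₀ ∈ Tub N.u hT := Cyl_subset_Tub N.u N.Ω hhT s2
  -- the open sets
  set U1 : Set (E (m + n)) := Tub N.u hT ∩ (fun X => (chart N.u x₀ l X).1) ⁻¹' Ω' with hU1d
  have hU1 : IsOpen U1 := H.continuousOn_chart.fst.isOpen_inter_preimage hTo hΩ'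
  set Ua : Set (E (m + n)) := Cyl N.u N.Ω N.h ∩ U1 with hUad
  have hUa : IsOpen Ua := (H.isOpen_Cyl hhT).inter hU1
  have hUaW : Ua ⊆ N.W.U := fun X hX => N.cyl_sub hX.1
  set A : Set (E (m + n)) := Tub N.u hT ∩ (fun X => (chart N.u x₀ l X).2) ⁻¹' O with hAd
  have hA : IsOpen A := H.continuousOn_chart.snd.isOpen_inter_preimage hTo hO
  have hUaR : Ua ⊆ {X | npr N.u X ∈ N.cellBase x₀ l ρ} ∩ Cyl N.u N.Ω N.h :=
    fun X hX => ⟨hsub hX.2.2, hX.1⟩
  -- no support on the frontier of the height region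
  have hfr : ∀ x ∈ (N.W.restr Ua hUa hUaW).U, x ∈ frontier A →
      x ∉ (N.W.restr Ua hUa hUaW).support := by
    intro x hxU hxf hxs
    have hxU' : x ∈ Ua := hxU
    have hxT : x ∈ Tub N.u hT := hxU'.2.1
    obtain ⟨δ, hδ, hnull⟩ := hgap
    have hcl : (chart N.u x₀ l x).2 ∈ closure O := by
      have h1 : x ∈ closure A := frontier_subset_closure hxf
      have h2 : ContinuousWithinAt (fun X => (chart N.u x₀ l X).2) A x :=
        (H.continuousOn_chart.snd x hxT).mono inter_subset_left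
      have h3 := h2.mem_closure_image h1
      refine closure_mono ?_ h3
      rintro _ ⟨Y, hY, rfl⟩
      exact hY.2
    have hnot : (chart N.u x₀ l x).2 ∉ O := fun h => by
      rw [hA.frontier_eq] at hxf
      exact hxf.2 ⟨hxT, h⟩
    have hfrO : (chart N.u x₀ l x).2 ∈ frontier O := by
      rw [hO.frontier_eq]
      exact ⟨hcl, hnot⟩
    have hV : IsOpen (Tub N.u hT ∩ chart N.u x₀ l ⁻¹' (Ω' ×ˢ thickening δ (frontier O))) :=
      H.continuousOn_chart.isOpen_inter_preimage hTo (hΩ'.prod isOpen_thickening)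
    have hxV : x ∈ Tub N.u hT ∩ chart N.u x₀ l ⁻¹' (Ω' ×ˢ thickening δ (frontier O)) :=
      ⟨hxT, hxU'.2.2, self_subset_thickening hδ _ hfrO⟩
    obtain ⟨t, ht, hb⟩ := Metric.isOpen_iff.1 hV x hxV
    have h0 := hxs.2 t ht
    rw [SIV.restr_μ, Measure.restrict_apply isOpen_ball.measurableSet] at h0
    have h1 : N.W.μ (chart N.u x₀ l ⁻¹' (Ω' ×ˢ thickening δ (frontier O)) ∩
        ({X | npr N.u X ∈ N.cellBase x₀ l ρ} ∩ Cyl N.u N.Ω N.h)) = 0 := by
      rw [H.sysOf_μ_apply hhT ρ Cg (hΩ'.prod isOpen_thickening).measurableSet] at hnull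
      rcases mul_eq_zero.1 hnull with h | h
      · exact absurd h (ENNReal.inv_ne_zero.2 ENNReal.ofReal_ne_top)
      · exact h
    refine absurd (lt_of_lt_of_le h0 (measure_mono ?_)) (by rw [h1]; exact lt_irrefl _)
    exact fun Y hY => ⟨(hb hY.1).2, hUaR hY.2⟩
  -- no mass above the cylinder
  have hgap2 : ∀ x ∈ U1, x ∉ ((N.W.restr Ua hUa hUaW).cut A hA hfr).U →
      ∃ ρ' : ℝ, 0 < ρ' ∧ ((N.W.restr Ua hUa hUaW).cut A hA hfr).μ (ball x ρ') = 0 := by
    intro x hx hxn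
    have hxn' : x ∉ Ua := hxn
    have hxC : x ∉ Cyl N.u N.Ω N.h := fun h => hxn' ⟨h, hx⟩
    have hΩ : npr N.u x ∈ N.Ω := room _ (mem_ball_zero_iff.1 (hsub hx.2)).le
    have hz : N.h ≤ ‖zz N.u x‖ := by
      by_contra h
      exact hxC ⟨hΩ, not_le.1 h⟩
    have hV : IsOpen (Tub N.u hT ∩ (fun X => ‖zz N.u X‖) ⁻¹' Ioi N.h') :=
      H.continuousOn_zz.norm.isOpen_inter_preimage hTo isOpen_Ioi
    have hxV : x ∈ Tub N.u hT ∩ (fun X => ‖zz N.u X‖) ⁻¹' Ioi N.h' :=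
      ⟨hx.1, N.h'_lt.trans_le hz⟩
    obtain ⟨t, ht, hb⟩ := Metric.isOpen_iff.1 hV x hxV
    refine ⟨t, ht, ?_⟩
    rw [SIV.cut_μ, SIV.restr_μ]
    refine le_antisymm ?_ zero_le
    calc _ ≤ (N.W.μ.restrict Ua) (ball x t) := Measure.restrict_apply_le _ _
      _ = N.W.μ (ball x t ∩ Ua) := Measure.restrict_apply isOpen_ball.measurableSet
      _ ≤ N.W.μ ({X | N.h' ≤ ‖zz N.u X‖} ∩ Cyl N.u N.Ω N.h) :=
          measure_mono (fun Y hY =>
            ⟨(show N.h' < ‖zz N.u Y‖ from (hb hY.1).2).le, hY.2.1⟩)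
      _ = 0 := carrier_null N
  have hsubU : ((N.W.restr Ua hUa hUaW).cut A hA hfr).U ⊆ U1 := fun X hX => (show X ∈ Ua from hX).2
  have hsupp : X₀ ∈ (((N.W.restr Ua hUa hUaW).cut A hA hfr).extend U1 hU1 hsubU hgap2).support := by
    rw [SIV.extend_support, SIV.cut_support, SIV.restr_support]
    refine ⟨⟨s1, s2, hX₀T, ?_⟩, hX₀T, ?_⟩
    · show (chart N.u x₀ l X₀).1 ∈ Ω'
      rw [s3]; exact hq1
    · show (chart N.u x₀ l X₀).2 ∈ O
      rw [s3]; exact hqO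
  have hρ0 : 0 ≤ ρ := hr.le.trans hrρ.le
  have hzX : ‖zz N.u X₀‖ < hT / 2 := (s4.trans_lt N.h'_lt).trans_le hh
  obtain ⟨b1, b2⟩ := H.ball_into hl1 hρ0 hc₁ hc₁L hc₁T hzX hr hrρ.le
    (by rw [s3]; exact (ball_subset_closedBall.trans hball).trans hsub)
  rw [s3] at b2
  have b3 : ∀ X ∈ ball X₀ (c₁ * r * l),
      (chart N.u x₀ l X).1 ∈ ball q.1 r ∧ (chart N.u x₀ l X).2 ∈ ball q.2 r := by
    intro X hX
    have := mem_ball.1 (b2 X hX)
    rw [Prod.dist_eq, max_lt_iff] at this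
    exact this
  have hsU : ball X₀ (c₁ * r * l)
      ⊆ (((N.W.restr Ua hUa hUaW).cut A hA hfr).extend U1 hU1 hsubU hgap2).U :=
    fun X hX => ⟨b1 hX, hball (ball_subset_closedBall (b3 X hX).1)⟩
  have hl := H.l_pos
  have key := SIV.lower_mass _ hm hsupp (by positivity) hsU
  refine key.trans ?_
  rw [SIV.extend_μ, SIV.cut_μ, SIV.restr_μ, Measure.restrict_apply isOpen_ball.measurableSet,
    Measure.restrict_apply (isOpen_ball.inter hA).measurableSet]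
  refine measure_mono ?_
  rintro X ⟨⟨hXb, hXA⟩, hXU⟩
  exact ⟨⟨(b3 X hXb).1, (b3 X hXb).2, hXA.2⟩, hUaR hXU⟩

end ChartOK

theorem kap_eq_haarC_mul (m : ℕ) : kap m = haarC m * (volume (ball (0 : E m) 1)).toReal := by
  have h : (volume (ball (0 : E m) 1)).toReal ≠ 0 :=
    (ENNReal.toReal_pos (measure_ball_pos volume (0 : E m) one_pos).ne' measure_ball_lt_top.ne).ne'
  unfold haarC kap
  rw [div_mul_cancel₀ _ h]

/-- **V10** with the hypotheses of `CellHyp` unbundled. -/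
theorem v_lower_aux (m n : ℕ) (hm : 1 ≤ m) (ρm : ℝ) :
    ∃ ε₀ h₀ Cg₀ : ℝ, 0 < ε₀ ∧ 0 < h₀ ∧ 1 ≤ Cg₀ ∧
    ∀ (N : NCyl m n) (x₀ : E m) (l ρ Cg : ℝ), GeoS 1 ε₀ N.u → N.h ≤ h₀ → 0 < l → l ≤ 1 →
      (∀ y, ‖bco N.u x₀ l y‖ ≤ ρ → y ∈ N.Ω) → ρ ≤ ρm → Cg₀ ≤ Cg →
    ∀ S : Sx.Sys m n, S = N.sysOf x₀ l ρ Cg →
    (∀ (Ω' : Set (E m)) (O : Set (E n)), IsOpen Ω' → Ω' ⊆ S.Ω → IsOpen O → S.Gap Ω' O →
      ∀ (q : E m × E n) (r : ℝ), q ∈ S.spt → q.2 ∈ O → 0 < r → closedBall q.1 r ⊆ Ω' →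
        ENNReal.ofReal (r ^ m / S.Cg) ≤ S.μ (ball q.1 r ×ˢ (ball q.2 r ∩ O))) := by
  obtain ⟨ε₀, hT, Cω, hε₀, hhT, hCω, HH⟩ := exists_chartOK m n
  set ρ' : ℝ := max ρm 1 with hρ'
  have hρ'1 : 1 ≤ ρ' := le_max_right _ _
  have hρ'0 : 0 < ρ' := by linarith
  set c₁ : ℝ := min (1 / (9 / 2 + 3 * Cω * ρ')) (hT / (2 * ρ')) with hc₁d
  have hD : 0 < 9 / 2 + 3 * Cω * ρ' := by positivity
  have hc₁ : 0 < c₁ := lt_min (by positivity) (by positivity)
  set ω : ℝ := (volume (ball (0 : E m) 1)).toReal with hω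
  have hω0 : 0 < ω :=
    ENNReal.toReal_pos (measure_ball_pos volume (0 : E m) one_pos).ne' measure_ball_lt_top.ne
  refine ⟨ε₀, hT / 2, max 1 (1 / (ω * c₁ ^ m)), hε₀, by positivity, le_max_left _ _, ?_⟩
  intro N x₀ l ρ Cg hgeo hh hl hl1 room hρ hCg S hS Ω' O hΩ' hsub hO hgap q r hq hqO hr hball
  subst hS
  have H := HH N.u hgeo x₀ l hl
  have hρρ' : ρ ≤ ρ' := hρ.trans (le_max_left _ _)
  have hc₁L : c₁ * (9 / 2 + 3 * Cω * ρ) ≤ 1 := by
    have h1 : c₁ * (9 / 2 + 3 * Cω * ρ) ≤ c₁ * (9 / 2 + 3 * Cω * ρ') := by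
      refine mul_le_mul_of_nonneg_left ?_ hc₁.le
      have : 3 * Cω * ρ ≤ 3 * Cω * ρ' := mul_le_mul_of_nonneg_left hρρ' (by positivity)
      linarith
    have h2 : c₁ * (9 / 2 + 3 * Cω * ρ') ≤ 1 / (9 / 2 + 3 * Cω * ρ') * (9 / 2 + 3 * Cω * ρ') :=
      mul_le_mul_of_nonneg_right (min_le_left _ _) hD.le
    rw [one_div, inv_mul_cancel₀ hD.ne'] at h2
    exact h1.trans h2
  have hc₁T : c₁ * ρ ≤ hT / 2 := by
    have h1 : c₁ * ρ ≤ c₁ * ρ' := mul_le_mul_of_nonneg_left hρρ' hc₁.le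
    have h2 : c₁ * ρ' ≤ hT / (2 * ρ') * ρ' := mul_le_mul_of_nonneg_right (min_le_right _ _) hρ'0.le
    have h3 : hT / (2 * ρ') * ρ' = hT / 2 := by field_simp
    linarith
  have key := H.lower_core hm hh hl1 room hc₁ hc₁L hc₁T hΩ' hsub hO hgap hq hqO hr hball
  have hmeas : MeasurableSet (ball q.1 r ×ˢ (ball q.2 r ∩ O)) :=
    (isOpen_ball.prod (isOpen_ball.inter hO)).measurableSet
  rw [H.sysOf_μ_apply (by linarith) ρ Cg hmeas]
  have hc := H.haar_const_pos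
  have hCg0 : 0 < Cg := lt_of_lt_of_le one_pos ((le_max_left _ _).trans hCg)
  have h1 : ENNReal.ofReal (r ^ m / Cg) ≤ (ENNReal.ofReal (haarC m * l ^ m))⁻¹ *
      ENNReal.ofReal (kap m * (c₁ * r * l) ^ m) := by
    rw [mul_comm, ← div_eq_mul_inv, ← ENNReal.ofReal_div_of_pos hc]
    refine ENNReal.ofReal_le_ofReal ?_
    have h2 : kap m * (c₁ * r * l) ^ m / (haarC m * l ^ m) = ω * c₁ ^ m * r ^ m := by
      rw [kap_eq_haarC_mul, mul_pow, mul_pow, ← hω]
      have := haarC_pos m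
      have := pow_pos hl m
      field_simp
    rw [h2, div_eq_mul_inv, mul_comm]
    refine mul_le_mul_of_nonneg_right ?_ (pow_pos hr m).le
    have h3 : 1 / (ω * c₁ ^ m) ≤ Cg := (le_max_right _ _).trans hCg
    have h4 : 0 < ω * c₁ ^ m := by positivity
    rw [inv_le_comm₀ hCg0 h4, ← one_div]
    exact h3
  exact h1.trans (mul_le_mul_right key _)

end Claimed.Agent.R322.Tube
end

/- ===== packed: Claimed.Agent.R322.Tube.Dil ===== -/
section
/-!
# Dilation rules for normal cylinders  (`X ↦ t X`, `u_t y = t u (y / t)`)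

* pointwise rules for `Fg, fderiv, D2, Ph, Pv, II, HS, DHS, DHSsq, vdens, npr, zz, tilt, lam`;
* `UniqNear u h`: unique nearest points in the tube of radius `h`, and its scale invariant criterion
  `RefGraphU.uniqNear`;
* `NCyl.dil`: the dilated cylinder, and the rules for `μ, nu, volS, Dm, Lm, Mabs, intM, supz`.
-/

set_option autoImplicit false

open scoped ENNReal ContDiff
open MeasureTheory

namespace Claimed.Agent.R322.Tube

variable {m n : ℕ}

/-- the dilated graph function `u_t y = t u (y / t)` -/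
noncomputable def dilU (t : ℝ) (u : E m → E n) (y : E m) : E n := t • u (t⁻¹ • y)

section pointwise

variable (u : E m → E n) {t : ℝ}

theorem mkHV_smul (c : ℝ) (y : E m) (z : E n) : mkHV (c • y) (c • z) = c • mkHV y z := by
  rw [mkHV_eq, mkHV_eq, map_smul, map_smul, smul_add]

theorem Fg_dilU (ht : t ≠ 0) (y : E m) : Fg (dilU t u) y = t • Fg u (t⁻¹ • y) := by
  unfold Fg dilU
  rw [← mkHV_smul, smul_smul, mul_inv_cancel₀ ht, one_smul]

theorem Fg_dilU_smul (ht : t ≠ 0) (y : E m) : Fg (dilU t u) (t • y) = t • Fg u y := by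
  rw [Fg_dilU u ht, smul_smul, inv_mul_cancel₀ ht, one_smul]

theorem fderiv_dilU (ht : t ≠ 0) : fderiv ℝ (dilU t u) = fun y => fderiv ℝ u (t⁻¹ • y) := by
  funext y
  have e : dilU t u = t • fun y => u (t⁻¹ • y) := rfl
  rw [e, fderiv_const_smul_field, Pi.smul_apply, fderiv_comp_smul, smul_smul, mul_inv_cancel₀ ht,
    one_smul]

theorem D2_dilU (ht : t ≠ 0) (y : E m) : D2 (dilU t u) y = t⁻¹ • D2 u (t⁻¹ • y) := by
  unfold D2
  rw [fderiv_dilU u ht, fderiv_comp_smul]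

theorem Ph_dilU (ht : t ≠ 0) (y : E m) : Ph (dilU t u) y = Ph u (t⁻¹ • y) := by
  unfold Ph
  rw [fderiv_dilU u ht]

theorem Pv_dilU (ht : t ≠ 0) (y : E m) : Pv (dilU t u) y = Pv u (t⁻¹ • y) := by
  unfold Pv
  rw [Ph_dilU u ht]

theorem II_dilU (ht : t ≠ 0) (y a b : E m) : II (dilU t u) y a b = t⁻¹ • II u (t⁻¹ • y) a b := by
  unfold II
  rw [Pv_dilU u ht, D2_dilU u ht]
  simp only [smul_apply, map_smul]

theorem HS_dilU (ht : t ≠ 0) : HS (dilU t u) = fun y => t⁻¹ • HS u (t⁻¹ • y) := by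
  funext y
  unfold HS
  rw [Finset.smul_sum]
  refine Finset.sum_congr rfl fun a _ => ?_
  rw [II_dilU u ht, fderiv_dilU u ht]

theorem DHS_dilU (ht : t ≠ 0) (y a : E m) :
    DHS (dilU t u) y a = (t⁻¹ * t⁻¹) • DHS u (t⁻¹ • y) a := by
  unfold DHS
  have e : (fun y => t⁻¹ • HS u (t⁻¹ • y)) = t⁻¹ • fun y => HS u (t⁻¹ • y) := rfl
  rw [Pv_dilU u ht, HS_dilU u ht, e, fderiv_const_smul_field, Pi.smul_apply, fderiv_comp_smul]
  simp only [smul_apply, map_smul, smul_smul]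

theorem DHSsq_dilU (ht : t ≠ 0) (y : E m) :
    DHSsq (dilU t u) y = (t ^ 4)⁻¹ * DHSsq u (t⁻¹ • y) := by
  unfold DHSsq
  rw [Finset.mul_sum]
  refine Finset.sum_congr rfl fun a _ => ?_
  rw [DHS_dilU u ht, DHS_dilU u ht, fderiv_dilU u ht, inner_smul_left, inner_smul_right]
  simp only [conj_trivial]
  field_simp

end pointwise

/-! ### nearest points -/

section near

variable (u : E m → E n) {t : ℝ}

/-- `y` is the graph coordinate of a nearest point of the graph to `X` -/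
def IsNear (u : E m → E n) (X : E (m + n)) (y : E m) : Prop :=
  ∀ y' : E m, ‖X - Fg u y‖ ≤ ‖X - Fg u y'‖

/-- unique nearest points in the tube of radius `h` -/
def UniqNear (u : E m → E n) (h : ℝ) : Prop :=
  ∀ X ∈ Tub u h, IsNear u X (npr u X) ∧ ∀ y, IsNear u X y → y = npr u X

theorem dilU_dilU {s : ℝ} (u : E m → E n) : dilU s (dilU t u) = dilU (s * t) u := by
  funext y
  unfold dilU
  rw [smul_smul, smul_smul, mul_inv, mul_comm t⁻¹ s⁻¹]

theorem dilU_one (u : E m → E n) : dilU 1 u = u := by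
  funext y
  unfold dilU
  rw [inv_one, one_smul, one_smul]

theorem isNear_dilU (ht : 0 < t) (X : E (m + n)) (y : E m) :
    IsNear (dilU t u) (t • X) (t • y) ↔ IsNear u X y := by
  unfold IsNear
  constructor
  · intro h y'
    have := h (t • y')
    rw [Fg_dilU_smul u ht.ne', Fg_dilU_smul u ht.ne', ← smul_sub, ← smul_sub, norm_smul,
      norm_smul] at this
    exact le_of_mul_le_mul_left this (norm_pos_iff.2 ht.ne')
  · intro h y'
    have := h (t⁻¹ • y')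
    rw [Fg_dilU_smul u ht.ne', Fg_dilU u ht.ne' y', ← smul_sub, ← smul_sub, norm_smul, norm_smul]
    exact mul_le_mul_of_nonneg_left this (norm_nonneg _)

theorem smul_mem_Tub_dilU (ht : 0 < t) (X : E (m + n)) (h : ℝ) :
    t • X ∈ Tub (dilU t u) (t * h) ↔ X ∈ Tub u h := by
  unfold Tub
  simp only [Set.mem_ofPred_eq]
  constructor
  · rintro ⟨y, hy⟩
    refine ⟨t⁻¹ • y, ?_⟩
    rw [Fg_dilU u ht.ne', ← smul_sub, norm_smul, Real.norm_of_nonneg ht.le] at hy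
    exact lt_of_mul_lt_mul_left hy ht.le
  · rintro ⟨y, hy⟩
    refine ⟨t • y, ?_⟩
    rw [Fg_dilU_smul u ht.ne', ← smul_sub, norm_smul, Real.norm_of_nonneg ht.le]
    exact mul_lt_mul_of_pos_left hy ht

variable {u}

theorem UniqNear.npr_dilU {h : ℝ} (hU : UniqNear u h) (ht : 0 < t) {X : E (m + n)}
    (hX : X ∈ Tub u h) : npr (dilU t u) (t • X) = t • npr u X := by
  have h1 := (isNear_dilU u ht X (npr u X)).2 (hU X hX).1
  have h2 : IsNear (dilU t u) (t • X) (npr (dilU t u) (t • X)) :=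
    Classical.epsilon_spec (p := IsNear (dilU t u) (t • X)) ⟨_, h1⟩
  have h3 : IsNear u X (t⁻¹ • npr (dilU t u) (t • X)) := by
    rw [← isNear_dilU u ht, smul_smul, mul_inv_cancel₀ ht.ne', one_smul]
    exact h2
  have h4 := (hU X hX).2 _ h3
  rw [← h4, smul_smul, mul_inv_cancel₀ ht.ne', one_smul]

theorem UniqNear.zz_dilU {h : ℝ} (hU : UniqNear u h) (ht : 0 < t) {X : E (m + n)}
    (hX : X ∈ Tub u h) : zz (dilU t u) (t • X) = t • zz u X := by
  unfold zz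
  rw [hU.npr_dilU ht hX, Fg_dilU_smul u ht.ne', smul_sub]

theorem UniqNear.dil {h : ℝ} (hU : UniqNear u h) (ht : 0 < t) :
    UniqNear (dilU t u) (t * h) := by
  intro X' hX'
  obtain ⟨X, rfl⟩ : ∃ X, X' = t • X := ⟨t⁻¹ • X', by rw [smul_smul, mul_inv_cancel₀ ht.ne', one_smul]⟩
  have hX : X ∈ Tub u h := (smul_mem_Tub_dilU u ht X h).1 hX'
  rw [hU.npr_dilU ht hX]
  refine ⟨(isNear_dilU u ht X _).2 (hU X hX).1, fun y hy => ?_⟩
  have h3 : IsNear u X (t⁻¹ • y) := by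
    rw [← isNear_dilU u ht, smul_smul, mul_inv_cancel₀ ht.ne', one_smul]
    exact hy
  rw [← (hU X hX).2 _ h3, smul_smul, mul_inv_cancel₀ ht.ne', one_smul]

theorem UniqNear.of_dil {h : ℝ} (ht : 0 < t) (hU : UniqNear (dilU t u) (t * h)) :
    UniqNear u h := by
  have := hU.dil (inv_pos.2 ht)
  rwa [dilU_dilU, inv_mul_cancel₀ ht.ne', dilU_one, ← mul_assoc, inv_mul_cancel₀ ht.ne',
    one_mul] at this

theorem UniqNear.mono {h h' : ℝ} (hU : UniqNear u h) (hh : h' ≤ h) : UniqNear u h' :=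
  fun X hX => hU X (by obtain ⟨y, hy⟩ := hX; exact ⟨y, hy.trans_le hh⟩)

theorem Geo.uniqNear {κ₂ : ℝ} (hu : Geo κ₂ u) : UniqNear u (1 / 4) := fun _ hX =>
  have h := tube_unique_of_le hu le_rfl hX
  ⟨h.1, h.2.1⟩

end near

/-! ### iterated derivatives -/

theorem contDiff_dilU {u : E m → E n} {k : WithTop ℕ∞} (hu : ContDiff ℝ k u) (t : ℝ) :
    ContDiff ℝ k (dilU t u) :=
  (hu.comp (contDiff_id.const_smul t⁻¹)).const_smul t

theorem norm_iteratedFDeriv_dilU {u : E m → E n} {J : ℕ} (hu : ContDiff ℝ J u) {t : ℝ}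
    (ht : 0 < t) {j : ℕ} (hj : j ≤ J) (y : E m) :
    ‖iteratedFDeriv ℝ j (dilU t u) y‖ = t * (t⁻¹) ^ j * ‖iteratedFDeriv ℝ j u (t⁻¹ • y)‖ := by
  have hj' : (j : WithTop ℕ∞) ≤ (J : WithTop ℕ∞) := by exact_mod_cast hj
  have e : dilU t u = t • (u ∘ (t⁻¹ • ContinuousLinearMap.id ℝ (E m))) := by
    funext y
    simp [dilU]
  have hc : ContDiff ℝ J (u ∘ (t⁻¹ • ContinuousLinearMap.id ℝ (E m))) :=
    hu.comp (t⁻¹ • ContinuousLinearMap.id ℝ (E m)).contDiff
  rw [e, iteratedFDeriv_const_smul_apply (hc.of_le hj').contDiffAt, norm_smul,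
    Real.norm_of_nonneg ht.le, ContinuousLinearMap.iteratedFDeriv_comp_right _ hu y hj', mul_assoc]
  congr 1
  have e2 : (iteratedFDeriv ℝ j u ((t⁻¹ • ContinuousLinearMap.id ℝ (E m)) y)).compContinuousLinearMap
      (fun _ => t⁻¹ • ContinuousLinearMap.id ℝ (E m))
      = (t⁻¹) ^ j • iteratedFDeriv ℝ j u (t⁻¹ • y) := by
    ext v
    simp only [ContinuousMultilinearMap.compContinuousLinearMap_apply,
      smul_apply, ContinuousLinearMap.id_apply]
    rw [ContinuousMultilinearMap.map_smul_univ]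
    simp
  rw [e2, norm_smul, norm_pow, Real.norm_of_nonneg (inv_nonneg.2 ht.le)]

/-- a graph with bounded geometry in the units dilated by `t` becomes a reference graph after the
dilation by `t`. -/
theorem RefGraphU.dil {u : E m → E n} {t K ε : ℝ} {J : ℕ} (h : RefGraphU t J K ε u) (ht : 0 < t)
    {J' : ℕ} (hJ : J' ≤ J) : RefGraph J' K ε (dilU t u) := by
  refine ⟨contDiff_dilU (h.smooth.of_le (by exact_mod_cast hJ)) t, fun y => ?_, fun j h2 hj y => ?_⟩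
  · rw [fderiv_dilU u ht.ne']
    exact h.slope _
  · rw [norm_iteratedFDeriv_dilU h.smooth ht (hj.trans hJ)]
    have h1 := h.bound j h2 (hj.trans hJ) (t⁻¹ • y)
    have e : t * t⁻¹ ^ j * (K * t ^ (j - 1)) = K := by
      obtain ⟨i, rfl⟩ : ∃ i, j = i + 1 := ⟨j - 1, by omega⟩
      rw [Nat.add_sub_cancel, pow_succ, inv_pow]
      field_simp
    calc t * t⁻¹ ^ j * ‖iteratedFDeriv ℝ j u (t⁻¹ • y)‖ ≤ t * t⁻¹ ^ j * (K * t ^ (j - 1)) :=
          mul_le_mul_of_nonneg_left h1 (by positivity)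
      _ = K := e

/-! ### general measure theory: conjugation by measurable equivalences -/

section measure

variable {α α' β β' : Type*} [MeasurableSpace α] [MeasurableSpace α'] [MeasurableSpace β]
  [MeasurableSpace β']

/-- push-forward along two conjugate maps (no measurability assumption on the maps). -/
theorem map_map_conj (e : α ≃ᵐ α') (d : β ≃ᵐ β') {f : α → β} {f' : α' → β'} {μ : Measure α}
    (h : (fun x => f' (e x)) =ᵐ[μ] fun x => d (f x)) : (μ.map e).map f' = (μ.map f).map d := by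
  by_cases hf : AEMeasurable f μ
  · have h1 : AEMeasurable (fun x => d (f x)) μ := d.measurable.comp_aemeasurable hf
    have h2 : AEMeasurable (f' ∘ e) μ := h1.congr h.symm
    have hf' : AEMeasurable f' (μ.map e) := (e.measurableEmbedding.aemeasurable_map_iff).2 h2
    rw [AEMeasurable.map_map_of_aemeasurable hf' e.measurable.aemeasurable,
      AEMeasurable.map_map_of_aemeasurable d.measurable.aemeasurable hf]
    exact Measure.map_congr h
  · have hf' : ¬ AEMeasurable f' (μ.map e) := by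
      intro hf'
      have h2 : AEMeasurable (f' ∘ e) μ := (e.measurableEmbedding.aemeasurable_map_iff).1 hf'
      have h1 : AEMeasurable (fun x => d (f x)) μ := h2.congr h
      have h3 : AEMeasurable (fun x => d.symm (d (f x))) μ := d.symm.measurable.comp_aemeasurable h1
      simp only [MeasurableEquiv.symm_apply_apply] at h3
      exact hf h3
    rw [Measure.map_of_not_aemeasurable hf', Measure.map_of_not_aemeasurable hf, Measure.map_zero]

theorem withDensity_map_equiv (e : α ≃ᵐ α') (μ : Measure α) (g : α' → ℝ≥0∞) :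
    (μ.map e).withDensity g = (μ.withDensity fun x => g (e x)).map e := by
  ext s hs
  rw [withDensity_apply _ hs, Measure.map_apply e.measurable hs,
    withDensity_apply _ (e.measurable hs), e.restrict_map, lintegral_map_equiv]

variable (e : α ≃ᵐ α) {c : ℝ≥0∞} {lam : Measure α}

theorem dil_lam_symm (hc0 : c ≠ 0) (hc : c ≠ ⊤) (hlam : lam = c • lam.map e) :
    lam = c⁻¹ • lam.map e.symm := by
  have h1 : lam.map e.symm = c • lam := by
    conv_lhs => rw [hlam]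
    rw [Measure.map_smul, Measure.map_map e.symm.measurable e.measurable]
    simp
  rw [h1, smul_smul, ENNReal.inv_mul_cancel hc0 hc, one_smul]

theorem withDensity_dil (hlam : lam = c • lam.map e) (G : α → ℝ≥0∞) :
    lam.withDensity (fun y => G (e.symm y)) = c • (lam.withDensity G).map e := by
  conv_lhs => rw [hlam]
  rw [withDensity_smul_measure, withDensity_map_equiv]
  simp

theorem dil_decomp (hlam : lam = c • lam.map e) {ν s : Measure α} {f : α → ℝ≥0∞}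
    (hs : s ⟂ₘ lam) (hadd : ν = s + lam.withDensity f) :
    (c • s.map e) ⟂ₘ lam ∧
      c • ν.map e = c • s.map e + lam.withDensity fun y => f (e.symm y) := by
  constructor
  · obtain ⟨S, hS, h1, h2⟩ := hs
    refine ⟨e.symm ⁻¹' S, e.symm.measurable hS, ?_, ?_⟩
    · rw [Measure.smul_apply, Measure.map_apply e.measurable (e.symm.measurable hS)]
      have : e ⁻¹' (e.symm ⁻¹' S) = S := by
        ext x
        simp
      rw [this, h1, smul_zero]
    · rw [hlam, Measure.smul_apply, Measure.map_apply e.measurable (e.symm.measurable hS).compl]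
      have : e ⁻¹' (e.symm ⁻¹' S)ᶜ = Sᶜ := by
        ext x
        simp
      rw [this, h2, smul_zero]
  · rw [withDensity_dil e hlam f, hadd, Measure.map_add _ _ e.measurable, smul_add]

theorem hld_dil (hlam : lam = c • lam.map e) {ν : Measure α}
    (h : ν.HaveLebesgueDecomposition lam) : (c • ν.map e).HaveLebesgueDecomposition lam := by
  obtain ⟨hm, hs, hadd⟩ := Measure.haveLebesgueDecomposition_spec ν lam
  obtain ⟨h1, h2⟩ := dil_decomp e hlam hs hadd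
  exact ⟨⟨(_, _), hm.comp e.symm.measurable, h1, h2⟩⟩

theorem hld_dil_iff (hc0 : c ≠ 0) (hc : c ≠ ⊤) (hlam : lam = c • lam.map e) {ν : Measure α} :
    (c • ν.map e).HaveLebesgueDecomposition lam ↔ ν.HaveLebesgueDecomposition lam := by
  refine ⟨fun h => ?_, hld_dil e hlam⟩
  have h1 := hld_dil e.symm (dil_lam_symm e hc0 hc hlam) h
  rw [Measure.map_smul, Measure.map_map e.symm.measurable e.measurable, smul_smul,
    ENNReal.inv_mul_cancel hc0 hc, one_smul] at h1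
  simpa using h1

theorem singularPart_dil (hc0 : c ≠ 0) (hc : c ≠ ⊤) (hlam : lam = c • lam.map e)
    (ν : Measure α) : (c • ν.map e).singularPart lam = c • (ν.singularPart lam).map e := by
  by_cases h : ν.HaveLebesgueDecomposition lam
  · obtain ⟨hm, hs, hadd⟩ := Measure.haveLebesgueDecomposition_spec ν lam
    obtain ⟨h1, h2⟩ := dil_decomp e hlam hs hadd
    exact (Measure.eq_singularPart (hm.comp e.symm.measurable) h1 h2).symm
  · rw [Measure.singularPart_of_not_haveLebesgueDecomposition h,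
      Measure.singularPart_of_not_haveLebesgueDecomposition
        (fun h' => h ((hld_dil_iff e hc0 hc hlam).1 h')), Measure.map_zero, smul_zero]

theorem rnDeriv_dil [SigmaFinite lam] (hc0 : c ≠ 0) (hc : c ≠ ⊤) (hlam : lam = c • lam.map e)
    (ν : Measure α) : (c • ν.map e).rnDeriv lam =ᵐ[lam] fun y => ν.rnDeriv lam (e.symm y) := by
  by_cases h : ν.HaveLebesgueDecomposition lam
  · obtain ⟨hm, hs, hadd⟩ := Measure.haveLebesgueDecomposition_spec ν lam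
    obtain ⟨h1, h2⟩ := dil_decomp e hlam hs hadd
    exact (Measure.eq_rnDeriv (hm.comp e.symm.measurable) h1 h2).symm
  · rw [Measure.rnDeriv_of_not_haveLebesgueDecomposition h,
      Measure.rnDeriv_of_not_haveLebesgueDecomposition
        (fun h' => h ((hld_dil_iff e hc0 hc hlam).1 h'))]
    exact Filter.EventuallyEq.rfl

/-- the total variation measure `|ν - q v lam|` on `Ω` under a dilation. -/
theorem absPart_dil [SigmaFinite lam] (hc0 : c ≠ 0) (hc : c ≠ ⊤) (hlam : lam = c • lam.map e)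
    (ν : Measure α) (v : α → ℝ) (Ω : Set α) :
    ((c • ν.map e).singularPart lam + lam.withDensity fun y =>
        ENNReal.ofReal |((c • ν.map e).rnDeriv lam y).toReal - v (e.symm y)|).restrict (e.symm ⁻¹' Ω)
      = c • ((ν.singularPart lam + lam.withDensity fun y =>
        ENNReal.ofReal |(ν.rnDeriv lam y).toReal - v y|).restrict Ω).map e := by
  have h1 : lam.withDensity (fun y =>
      ENNReal.ofReal |((c • ν.map e).rnDeriv lam y).toReal - v (e.symm y)|)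
      = lam.withDensity (fun y =>
        ENNReal.ofReal |(ν.rnDeriv lam (e.symm y)).toReal - v (e.symm y)|) := by
    refine withDensity_congr_ae ?_
    filter_upwards [rnDeriv_dil e hc0 hc hlam ν] with y hy
    rw [hy]
  have h2 : lam.withDensity (fun y =>
        ENNReal.ofReal |(ν.rnDeriv lam (e.symm y)).toReal - v (e.symm y)|)
      = c • (lam.withDensity fun y => ENNReal.ofReal |(ν.rnDeriv lam y).toReal - v y|).map e :=
    withDensity_dil e hlam fun y => ENNReal.ofReal |(ν.rnDeriv lam y).toReal - v y|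
  have h3 : e ⁻¹' (e.symm ⁻¹' Ω) = Ω := by
    ext x
    simp
  rw [h1, h2, singularPart_dil e hc0 hc hlam, ← smul_add, ← Measure.map_add _ _ e.measurable,
    Measure.restrict_smul, e.restrict_map, h3]

end measure

/-! ### the dilation of `E k` -/

/-- the dilation `y ↦ t y` as a measurable equivalence -/
noncomputable def dilE (k : ℕ) (t : ℝ) (ht : t ≠ 0) : E k ≃ᵐ E k :=
  (Homeomorph.smulOfNeZero t ht).toMeasurableEquiv

@[simp] theorem dilE_apply (k : ℕ) (t : ℝ) (ht : t ≠ 0) (y : E k) : dilE k t ht y = t • y := rfl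

@[simp] theorem dilE_symm_apply (k : ℕ) (t : ℝ) (ht : t ≠ 0) (y : E k) :
    (dilE k t ht).symm y = t⁻¹ • y := rfl

theorem continuous_dilE (k : ℕ) (t : ℝ) (ht : t ≠ 0) : Continuous (dilE k t ht) :=
  (Homeomorph.smulOfNeZero t ht).continuous

theorem simMap_dil {k : ℕ} {t : ℝ} :
    simMap (0 : E k) t⁻¹ (LinearIsometryEquiv.refl ℝ (E k)) = fun X => t • X := by
  funext X
  simp [simMap]

theorem simInv_dil {k : ℕ} {t : ℝ} :
    simInv (0 : E k) t⁻¹ (LinearIsometryEquiv.refl ℝ (E k)) = fun X => t⁻¹ • X := by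
  funext X
  simp only [simInv, zero_add]
  rfl

/-- the scaling factor of `m`-dimensional measures -/
noncomputable def cdil (m : ℕ) (t : ℝ) : ℝ≥0∞ := ENNReal.ofReal (t ^ m)

theorem cdil_ne_zero (m : ℕ) {t : ℝ} (ht : 0 < t) : cdil m t ≠ 0 := by
  unfold cdil
  rw [Ne, ENNReal.ofReal_eq_zero, not_le]
  positivity

theorem cdil_ne_top (m : ℕ) (t : ℝ) : cdil m t ≠ ⊤ := ENNReal.ofReal_ne_top

theorem cdil_toReal (m : ℕ) {t : ℝ} (ht : 0 < t) : (cdil m t).toReal = t ^ m :=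
  ENNReal.toReal_ofReal (by positivity)

theorem hausdorff_dil (m k : ℕ) {t : ℝ} (ht : 0 < t) :
    (μH[(m : ℝ)] : Measure (E k)) = cdil m t • (μH[(m : ℝ)] : Measure (E k)).map (dilE k t ht.ne') := by
  have h := Base.map_simMap_hausdorff (0 : E k) (LinearIsometryEquiv.refl ℝ (E k)) m (inv_pos.2 ht)
  rw [simMap_dil] at h
  have e : (dilE k t ht.ne' : E k → E k) = fun X => t • X := rfl
  rw [e, h, smul_smul, cdil, ← ENNReal.ofReal_mul (by positivity), inv_pow,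
    mul_inv_cancel₀ (by positivity), ENNReal.ofReal_one, one_smul]

theorem preimage_inv_smul_ball {k : ℕ} {t : ℝ} (ht : 0 < t) (x : E k) (r : ℝ) :
    (fun y : E k => t⁻¹ • y) ⁻¹' Metric.ball x r = Metric.ball (t • x) (t * r) := by
  ext y
  simp only [Set.mem_preimage, Metric.mem_ball, dist_eq_norm]
  have e : y - t • x = t • (t⁻¹ • y - x) := by
    rw [smul_sub, smul_smul, mul_inv_cancel₀ ht.ne', one_smul]
  rw [e, norm_smul, Real.norm_of_nonneg ht.le]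
  exact (mul_lt_mul_iff_right₀ ht).symm

theorem preimage_inv_smul_closedBall {k : ℕ} {t : ℝ} (ht : 0 < t) (x : E k) (r : ℝ) :
    (fun y : E k => t⁻¹ • y) ⁻¹' Metric.closedBall x r = Metric.closedBall (t • x) (t * r) := by
  ext y
  simp only [Set.mem_preimage, Metric.mem_closedBall, dist_eq_norm]
  have e : y - t • x = t • (t⁻¹ • y - x) := by
    rw [smul_sub, smul_smul, mul_inv_cancel₀ ht.ne', one_smul]
  rw [e, norm_smul, Real.norm_of_nonneg ht.le]
  exact (mul_le_mul_iff_right₀ ht).symm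

/-! ### the dilated cylinder -/

theorem Cyl_sub_Tub (u : E m → E n) (Ω : Set (E m)) (h : ℝ) : Cyl u Ω h ⊆ Tub u h :=
  fun X hX => ⟨npr u X, hX.2⟩

theorem UniqNear.smul_mem_Cyl {u : E m → E n} {h t : ℝ} (hU : UniqNear u h) (ht : 0 < t)
    (Ω : Set (E m)) (X : E (m + n)) :
    t • X ∈ Cyl (dilU t u) ((fun y : E m => t⁻¹ • y) ⁻¹' Ω) (t * h) ↔ X ∈ Cyl u Ω h := by
  have key : X ∈ Tub u h → (t • X ∈ Cyl (dilU t u) ((fun y : E m => t⁻¹ • y) ⁻¹' Ω) (t * h) ↔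
      X ∈ Cyl u Ω h) := by
    intro hX
    unfold Cyl
    simp only [Set.mem_ofPred_eq, Set.mem_preimage]
    rw [hU.npr_dilU ht hX, hU.zz_dilU ht hX, smul_smul, inv_mul_cancel₀ ht.ne', one_smul, norm_smul,
      Real.norm_of_nonneg ht.le, mul_lt_mul_iff_right₀ ht]
  constructor
  · intro h1
    exact (key ((smul_mem_Tub_dilU u ht X h).1 (Cyl_sub_Tub _ _ _ h1))).1 h1
  · intro h1
    exact (key (Cyl_sub_Tub _ _ _ h1)).2 h1

/-- the varifold dilated by `t` -/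
noncomputable def dilW (W : SIV m n) (t : ℝ) (ht : 0 < t) : SIV m n :=
  W.simil 0 t⁻¹ (inv_pos.2 ht) (LinearIsometryEquiv.refl ℝ _)

theorem dilW_U (W : SIV m n) (t : ℝ) (ht : 0 < t) :
    (dilW W t ht).U = (fun X => t⁻¹ • X) ⁻¹' W.U := by
  show simInv _ _ _ ⁻¹' W.U = _
  rw [simInv_dil]

theorem dilW_support (W : SIV m n) (t : ℝ) (ht : 0 < t) :
    (dilW W t ht).support = (fun X => t⁻¹ • X) ⁻¹' W.support := by
  unfold dilW
  rw [SIV.simil_support, simInv_dil]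

theorem dilW_P (W : SIV m n) (t : ℝ) (ht : 0 < t) (X : E (m + n)) :
    (dilW W t ht).P X = W.P (t⁻¹ • X) := by
  show (_ : E (m + n) →L[ℝ] E (m + n)) ∘L W.P (simInv _ _ _ X) ∘L _ = _
  rw [simInv_dil]
  ext v
  simp

theorem dilW_μ (W : SIV m n) (t : ℝ) (ht : 0 < t) :
    (dilW W t ht).μ = cdil m t • W.μ.map (dilE (m + n) t ht.ne') := by
  unfold dilW
  rw [SIV.simil_μ, simMap_dil, cdil, inv_pow, inv_inv]
  rfl

/-- **the cylinder dilated by `t`** -/
noncomputable def NCyl.dil (N : NCyl m n) (t : ℝ) (ht : 0 < t) (hU : UniqNear N.u N.h) :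
    NCyl m n where
  W := dilW N.W t ht
  u := dilU t N.u
  Ω := (fun y : E m => t⁻¹ • y) ⁻¹' N.Ω
  h := t * N.h
  h' := t * N.h'
  Q := N.Q
  isOpen_Ω := N.isOpen_Ω.preimage (continuous_const_smul _)
  h'_pos := mul_pos ht N.h'_pos
  h'_lt := mul_lt_mul_of_pos_left N.h'_lt ht
  Q_pos := N.Q_pos
  cyl_sub := by
    intro X' hX'
    obtain ⟨X, rfl⟩ : ∃ X, X' = t • X :=
      ⟨t⁻¹ • X', by rw [smul_smul, mul_inv_cancel₀ ht.ne', one_smul]⟩
    rw [dilW_U, Set.mem_preimage, smul_smul, inv_mul_cancel₀ ht.ne', one_smul]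
    exact N.cyl_sub ((hU.smul_mem_Cyl ht N.Ω X).1 hX')
  gap := by
    intro X' hs hX'
    obtain ⟨X, rfl⟩ : ∃ X, X' = t • X :=
      ⟨t⁻¹ • X', by rw [smul_smul, mul_inv_cancel₀ ht.ne', one_smul]⟩
    rw [dilW_support, Set.mem_preimage, smul_smul, inv_mul_cancel₀ ht.ne', one_smul] at hs
    have hX := (hU.smul_mem_Cyl ht N.Ω X).1 hX'
    rw [hU.zz_dilU ht (Cyl_sub_Tub _ _ _ hX), norm_smul, Real.norm_of_nonneg ht.le]
    exact mul_lt_mul_of_pos_left (N.gap X hs hX) ht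

section rules

variable (N : NCyl m n) {t : ℝ} (ht : 0 < t) (hU : UniqNear N.u N.h)

theorem NCyl.preimage_dil_Cyl :
    (dilE (m + n) t ht.ne') ⁻¹' Cyl (N.dil t ht hU).u (N.dil t ht hU).Ω (N.dil t ht hU).h
      = Cyl N.u N.Ω N.h := by
  ext X
  exact hU.smul_mem_Cyl ht N.Ω X

theorem NCyl.dil_μ : (N.dil t ht hU).μ = cdil m t • N.μ.map (dilE (m + n) t ht.ne') := by
  unfold NCyl.μ
  show (dilW N.W t ht).μ.restrict _ = _
  rw [dilW_μ, Measure.restrict_smul, (dilE (m + n) t ht.ne').restrict_map, N.preimage_dil_Cyl ht hU]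

/-- weighted push-forwards to the base. -/
theorem NCyl.dil_push (hM : MeasurableSet (Cyl N.u N.Ω N.h)) (g g' : E (m + n) → ℝ≥0∞)
    (hg : ∀ X ∈ Cyl N.u N.Ω N.h, g' (t • X) = g X) :
    ((N.dil t ht hU).μ.withDensity g').map (npr (dilU t N.u))
      = cdil m t • ((N.μ.withDensity g).map (npr N.u)).map (dilE m t ht.ne') := by
  have hae : ∀ᵐ X ∂N.μ, X ∈ Cyl N.u N.Ω N.h := ae_restrict_mem hM
  have h1 : N.μ.withDensity (fun X => g' (dilE (m + n) t ht.ne' X)) = N.μ.withDensity g := by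
    refine withDensity_congr_ae ?_
    filter_upwards [hae] with X hX
    exact hg X hX
  rw [N.dil_μ ht hU, withDensity_smul_measure, withDensity_map_equiv, h1, Measure.map_smul]
  congr 1
  refine map_map_conj _ _ ?_
  have hae' : ∀ᵐ X ∂(N.μ.withDensity g), X ∈ Cyl N.u N.Ω N.h :=
    (withDensity_absolutelyContinuous _ _).ae_le hae
  filter_upwards [hae'] with X hX
  exact hU.npr_dilU ht (Cyl_sub_Tub _ _ _ hX)

theorem NCyl.dil_nu (hM : MeasurableSet (Cyl N.u N.Ω N.h)) :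
    (N.dil t ht hU).nu = cdil m t • N.nu.map (dilE m t ht.ne') := by
  have h := N.dil_push ht hU hM 1 1 (fun _ _ => rfl)
  rw [withDensity_one, withDensity_one] at h
  exact h

theorem NCyl.dil_Dm (hM : MeasurableSet (Cyl N.u N.Ω N.h)) :
    (N.dil t ht hU).Dm = cdil m t • N.Dm.map (dilE m t ht.ne') := by
  refine N.dil_push ht hU hM _ _ fun X hX => ?_
  have hX' := Cyl_sub_Tub _ _ _ hX
  show ENNReal.ofReal (tilt (dilU t N.u) ((dilW N.W t ht).P (t • X)) (t • X)) = _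
  unfold tilt
  rw [dilW_P, hU.npr_dilU ht hX', Pv_dilU N.u ht.ne', smul_smul, inv_mul_cancel₀ ht.ne', one_smul,
    smul_smul, inv_mul_cancel₀ ht.ne', one_smul]

theorem UniqNear.lam_dilU {u : E m → E n} {h : ℝ} (hU : UniqNear u h) (ht : 0 < t)
    {X : E (m + n)} (hX : X ∈ Tub u h) : lam (dilU t u) (t • X) = lamU t u X := by
  unfold lam lamU
  have e : t⁻¹ • t • npr u X = npr u X := by rw [smul_smul, inv_mul_cancel₀ ht.ne', one_smul]
  rw [hU.npr_dilU ht hX, hU.zz_dilU ht hX, HS_dilU u ht.ne', DHSsq_dilU u ht.ne', e,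
    norm_smul, norm_smul, Real.norm_of_nonneg ht.le,
    Real.norm_of_nonneg (inv_nonneg.2 ht.le), mul_pow, mul_pow, inv_pow, e]

theorem NCyl.dil_Lm (hM : MeasurableSet (Cyl N.u N.Ω N.h)) :
    (N.dil t ht hU).Lm = cdil m t • (N.LmU t).map (dilE m t ht.ne') := by
  refine N.dil_push ht hU hM _ _ fun X hX => ?_
  show ENNReal.ofReal (lam (dilU t N.u) (t • X)) = _
  rw [hU.lam_dilU ht (Cyl_sub_Tub _ _ _ hX)]

theorem NCyl.dil_volS : (N.dil t ht hU).volS = cdil m t • N.volS.map (dilE m t ht.ne') := by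
  unfold NCyl.volS
  show ((μH[(m : ℝ)]).restrict ((fun y : E m => t⁻¹ • y) ⁻¹' N.Ω)).withDensity
    (fun y => ENNReal.ofReal (vdens (fderiv ℝ (dilU t N.u) y))) = _
  have h1 : (μH[(m : ℝ)] : Measure (E m)).restrict ((fun y : E m => t⁻¹ • y) ⁻¹' N.Ω)
      = cdil m t • ((μH[(m : ℝ)] : Measure (E m)).restrict N.Ω).map (dilE m t ht.ne') := by
    conv_lhs => rw [hausdorff_dil m m ht]
    rw [Measure.restrict_smul, (dilE m t ht.ne').restrict_map]
    congr 3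
    ext y
    simp [smul_smul, inv_mul_cancel₀ ht.ne']
  rw [h1, withDensity_smul_measure, withDensity_map_equiv, fderiv_dilU N.u ht.ne']
  simp [smul_smul, inv_mul_cancel₀ ht.ne']

theorem NCyl.dil_Mabs (hM : MeasurableSet (Cyl N.u N.Ω N.h)) :
    (N.dil t ht hU).Mabs = cdil m t • N.Mabs.map (dilE m t ht.ne') := by
  have := isAddHaar_hausdorff m
  have h := absPart_dil (dilE m t ht.ne') (cdil_ne_zero m ht) (cdil_ne_top m t)
    (hausdorff_dil m m ht) N.nu (fun y => N.Q * vdens (fderiv ℝ N.u y)) N.Ω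
  unfold NCyl.Mabs
  rw [N.dil_nu ht hU hM]
  show (_ + (μH[(m : ℝ)]).withDensity fun y => ENNReal.ofReal |_ - (N.Q : ℝ) *
    vdens (fderiv ℝ (dilU t N.u) y)|).restrict ((fun y : E m => t⁻¹ • y) ⁻¹' N.Ω) = _
  rw [fderiv_dilU N.u ht.ne']
  exact h

theorem NCyl.dil_intM (hM : MeasurableSet (Cyl N.u N.Ω N.h)) (w : E m → ℝ) :
    (N.dil t ht hU).intM (fun y => w (t⁻¹ • y)) = t ^ m * N.intM w := by
  unfold NCyl.intM
  rw [N.dil_nu ht hU hM, N.dil_volS ht hU, integral_smul_measure, integral_smul_measure,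
    integral_map_equiv, integral_map_equiv, cdil_toReal m ht]
  show _ - (N.Q : ℝ) * _ = _
  simp only [dilE_apply, smul_smul, inv_mul_cancel₀ ht.ne', one_smul, smul_eq_mul]
  ring

open Pointwise in
theorem NCyl.dil_supz (A : Set (E m)) :
    (N.dil t ht hU).supz ((fun y : E m => t⁻¹ • y) ⁻¹' A) = t * N.supz A := by
  unfold NCyl.supz
  rw [← smul_eq_mul, ← Real.sSup_smul_of_nonneg ht.le]
  congr 1
  ext s
  simp only [Set.mem_ofPred_eq, Set.mem_smul_set]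
  constructor
  · rintro ⟨X', hs, hX', hA, rfl⟩
    obtain ⟨X, rfl⟩ : ∃ X, X' = t • X :=
      ⟨t⁻¹ • X', by rw [smul_smul, mul_inv_cancel₀ ht.ne', one_smul]⟩
    have hs' : t • X ∈ (dilW N.W t ht).support := hs
    rw [dilW_support, Set.mem_preimage, smul_smul, inv_mul_cancel₀ ht.ne', one_smul] at hs'
    have hX := (hU.smul_mem_Cyl ht N.Ω X).1 hX'
    have hT := Cyl_sub_Tub _ _ _ hX
    have hA' : t⁻¹ • npr (dilU t N.u) (t • X) ∈ A := hA
    rw [hU.npr_dilU ht hT, smul_smul, inv_mul_cancel₀ ht.ne', one_smul] at hA'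
    refine ⟨‖zz N.u X‖, ⟨X, hs', hX, hA', rfl⟩, ?_⟩
    show _ = ‖zz (dilU t N.u) (t • X)‖
    rw [hU.zz_dilU ht hT, norm_smul, Real.norm_of_nonneg ht.le, smul_eq_mul]
  · rintro ⟨_, ⟨X, hs, hX, hA, rfl⟩, rfl⟩
    have hT := Cyl_sub_Tub _ _ _ hX
    refine ⟨t • X, ?_, (hU.smul_mem_Cyl ht N.Ω X).2 hX, ?_, ?_⟩
    · show t • X ∈ (dilW N.W t ht).support
      rw [dilW_support, Set.mem_preimage, smul_smul, inv_mul_cancel₀ ht.ne', one_smul]
      exact hs
    · show t⁻¹ • npr (dilU t N.u) (t • X) ∈ A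
      rw [hU.npr_dilU ht hT, smul_smul, inv_mul_cancel₀ ht.ne', one_smul]
      exact hA
    · show _ = ‖zz (dilU t N.u) (t • X)‖
      rw [hU.zz_dilU ht hT, norm_smul, Real.norm_of_nonneg ht.le, smul_eq_mul]

end rules

/-! ### qualitative facts in scale invariant form -/

/-- after the dilation by `max K 1 * t` the graph has bounded geometry in the sense of `Geo`. -/
theorem RefGraphU.geo {u : E m → E n} {t K ε : ℝ} {J : ℕ} (hR : RefGraphU t J K ε u)
    (ht : 0 < t) (hJ : 4 ≤ J) (hε : ε ≤ 1 / 2) : Geo 1 (dilU (max K 1 * t) u) := by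
  have hK : 0 < max K 1 := lt_max_of_lt_right one_pos
  have hK1 : (1 : ℝ) ≤ max K 1 := le_max_right _ _
  have hs : 0 < max K 1 * t := by positivity
  refine ⟨contDiff_dilU (hR.smooth.of_le (by exact_mod_cast hJ)) _, fun y => ?_, fun y => ?_,
    fun y => ?_, le_rfl⟩
  · rw [fderiv_dilU u hs.ne']
    exact (hR.slope _).trans hε
  · rw [norm_iteratedFDeriv_dilU hR.smooth hs (by omega : 2 ≤ J)]
    have h1 := hR.bound 2 le_rfl (by omega) ((max K 1 * t)⁻¹ • y)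
    calc max K 1 * t * (max K 1 * t)⁻¹ ^ 2 * ‖iteratedFDeriv ℝ 2 u ((max K 1 * t)⁻¹ • y)‖
        ≤ max K 1 * t * (max K 1 * t)⁻¹ ^ 2 * (K * t ^ (2 - 1)) :=
          mul_le_mul_of_nonneg_left h1 (by positivity)
      _ = K / max K 1 := by
          norm_num
          field_simp
      _ ≤ 1 := (div_le_one hK).2 (le_max_left _ _)
  · rw [norm_iteratedFDeriv_dilU hR.smooth hs (by omega : 3 ≤ J)]
    have h1 := hR.bound 3 (by norm_num) (by omega) ((max K 1 * t)⁻¹ • y)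
    calc max K 1 * t * (max K 1 * t)⁻¹ ^ 3 * ‖iteratedFDeriv ℝ 3 u ((max K 1 * t)⁻¹ • y)‖
        ≤ max K 1 * t * (max K 1 * t)⁻¹ ^ 3 * (K * t ^ (3 - 1)) :=
          mul_le_mul_of_nonneg_left h1 (by positivity)
      _ = K / max K 1 / max K 1 := by
          norm_num
          field_simp
      _ ≤ 1 := by
          rw [div_le_one hK]
          exact ((div_le_one hK).2 (le_max_left _ _)).trans hK1

/-- scale invariant criterion for the uniqueness of nearest points. -/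
theorem RefGraphU.uniqNear {u : E m → E n} {t K ε h : ℝ} {J : ℕ} (hR : RefGraphU t J K ε u)
    (ht : 0 < t) (hJ : 4 ≤ J) (hε : ε ≤ 1 / 2) (hh : t * h ≤ 1 / 4 / max K 1) :
    UniqNear u h := by
  have hK : 0 < max K 1 := lt_max_of_lt_right one_pos
  have hs : 0 < max K 1 * t := by positivity
  refine UniqNear.of_dil hs ((hR.geo ht hJ hε).uniqNear.mono ?_)
  rw [le_div_iff₀ hK] at hh
  linarith

theorem map_apply_le_preimage {α β : Type*} [MeasurableSpace α] [MeasurableSpace β]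
    (μ : Measure α) (f : α → β) {s : Set β} (hs : MeasurableSet s) : μ.map f s ≤ μ (f ⁻¹' s) := by
  by_cases hf : AEMeasurable f μ
  · rw [Measure.map_apply_of_aemeasurable hf hs]
  · rw [Measure.map_of_not_aemeasurable hf]
    exact zero_le

/-- values of the dilated measures on dilated sets -/
theorem smul_map_dilE_apply {k : ℕ} (μ : Measure (E k)) {t : ℝ} (ht : 0 < t) (c : ℝ≥0∞)
    {A : Set (E k)} (hA : MeasurableSet A) :
    (c • μ.map (dilE k t ht.ne')) ((fun y : E k => t⁻¹ • y) ⁻¹' A) = c * μ A := by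
  have hA' : MeasurableSet ((fun y : E k => t⁻¹ • y) ⁻¹' A) :=
    (measurable_const_smul t⁻¹) hA
  rw [Measure.smul_apply, Measure.map_apply (dilE k t ht.ne').measurable hA', smul_eq_mul]
  congr 2
  ext y
  simp [smul_smul, inv_mul_cancel₀ ht.ne']

/-- **qualitative facts on a cylinder with bounded geometry in the units dilated by `t`**:
unique nearest points, the cylinder is open, the projected mass is finite on compact subsets of the base. -/
theorem exists_cyl_facts (m n : ℕ) : ∃ h₁ : ℝ, 0 < h₁ ∧ ∀ (N : NCyl m n) (t K ε : ℝ) (J : ℕ),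
    0 < t → RefGraphU t J K ε N.u → 4 ≤ J → ε ≤ 1 / 2 → t * N.h ≤ h₁ / max K 1 →
    UniqNear N.u N.h ∧ IsOpen (Cyl N.u N.Ω N.h) ∧
      ∀ A : Set (E m), IsCompact A → A ⊆ N.Ω → N.nu A < ⊤ := by
  obtain ⟨h₀, hh₀, H⟩ := cyl_carrier m n
  refine ⟨min (1 / 4) h₀, lt_min (by norm_num) hh₀, fun N t K ε J ht hR hJ hε hh => ?_⟩
  have hK : 0 < max K 1 := lt_max_of_lt_right one_pos
  have hU : UniqNear N.u N.h := hR.uniqNear ht hJ hε
    (hh.trans (div_le_div_of_nonneg_right (min_le_left _ _) hK.le))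
  have hG := hR.geo ht hJ hε
  have h1 := hh.trans (div_le_div_of_nonneg_right (min_le_right _ _) hK.le)
  rw [le_div_iff₀ hK] at h1
  obtain ⟨s, hsd⟩ : ∃ s, s = max K 1 * t := ⟨_, rfl⟩
  have hs : 0 < s := by rw [hsd]; positivity
  rw [← hsd] at hG
  have hh' : s * N.h ≤ h₀ := by
    rw [hsd]
    linarith
  obtain ⟨hopen, -, hfin⟩ := H 1 (N.dil s hs hU) hG hh'
  have hopen' : IsOpen (Cyl N.u N.Ω N.h) := by
    rw [← N.preimage_dil_Cyl hs hU]
    exact hopen.preimage (continuous_dilE _ _ _)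
  refine ⟨hU, hopen', fun A hA hAΩ => ?_⟩
  have hA' : IsCompact ((fun y : E m => s⁻¹ • y) ⁻¹' A) :=
    (Homeomorph.smulOfNeZero s⁻¹ (inv_ne_zero hs.ne')).isCompact_preimage.2 hA
  have h1 := hfin _ hA' (Set.preimage_mono hAΩ)
  have h2 : (N.dil s hs hU).nu ((fun y : E m => s⁻¹ • y) ⁻¹' A) < ⊤ :=
    (map_apply_le_preimage _ _ hA'.measurableSet).trans_lt h1
  rw [N.dil_nu hs hU hopen'.measurableSet, smul_map_dilE_apply _ hs _ hA.measurableSet] at h2
  exact lt_top_iff_ne_top.2 fun h => by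
    rw [h, ENNReal.mul_top (cdil_ne_zero m hs)] at h2
    exact lt_irrefl _ h2

end Claimed.Agent.R322.Tube
end
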