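/- Packed by merge_tool.py (helper293): 3 modules of Claimed.Agent.R322 in one file, same declarations.
   Old modules, in this order: Fit.Defs, Fit.Glue.Abs, Lin.SignAux -/
import Claimed.Agent.R322.Pack046
import Claimed.Agent.R322.Pack044
import Claimed.Agent.R322.Pack048

/- ===== packed: Claimed.Agent.R322.Fit.Defs ===== -/
section
/-!
# AE Section 7 / CO Lemma 4.1: the family of local fits (INTERFACE between the fitting lemma and its two consumers)

Owner of this file: helper224.  `exists_fitFam` (AE Lemma 7.1, package BP-Fit-71, owner helper118) is proved in `Fit/Fits/*`;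
it is consumed by `Fit/Fail/*` (AE Lemma 7.2, failed fit implies separation) and by `Fit/Glue/*` (gluing half of AE Proposition 7.3).

Everything is in START units: `W` is a good varifold (`Freq.IsGood`), centres `x ∈ B_5 ⊂ E m`, scales `ℓ = sc j = 2^{-j}`.
The fit `f x j : E m → E n` at the centre `x` and the scale `sc j` exists for all `j ≤ jf x`, where `jf x ∈ ℕ ∪ {⊤}` is the first index
at which the acceptance test fails.  Exact minimality of the fits is NOT required: mean curvature `O(m₀² ℓ^{2k-3})` is enough.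
All norms are sup norms.  `a = m₀ ℓ^{k-1}` is the height scale in the units of the ball `B_ℓ(x)`.
-/

set_option autoImplicit false

open scoped ENNReal ContDiff
open MeasureTheory Filter Topology

namespace Claimed.Agent.R322.Fit

open Claimed.Agent.R322.Tube Claimed.Agent.R322.Freq

variable {m n : ℕ}

/-- dyadic scale `2^{-j}` -/
noncomputable def sc (j : ℕ) : ℝ := (2 : ℝ)⁻¹ ^ j

/-- the working region (flat cylinder) in start units -/
def Wk (m n : ℕ) : Set (E (m + n)) := {X | ‖prH m n X‖ < 300 ∧ ‖prV m n X‖ < 1}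

/-- constants of the fitting lemma; all of them are fixed BEFORE `hc` (working cylinder of the start), `m₀` and the goodness
threshold -/
structure FitCst where
  /-- number of controlled derivatives -/
  J : ℕ
  /-- fitting exponent -/
  k : ℕ
  /-- order of the test norm of the first-moment estimate -/
  q : ℕ
  /-- the constant -/
  C : ℝ
  /-- height of the SCALED normal cylinders of the fits -/
  h : ℝ

/-- fixed cutoff: `1` on `closedBall 0 76`, support `ball 0 78` -/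
noncomputable def cut7 (m : ℕ) : ContDiffBump (0 : E m) := ⟨76, 78, by norm_num, by norm_num⟩

/-- the fit in the units of `B_ℓ(x)`, recentred at `(x, f x)` and cut off outside `B_78` -/
noncomputable def scl (x : E m) (ℓ : ℝ) (f : E m → E n) (y : E m) : E n :=
  cut7 m y • ℓ⁻¹ • (f (x + ℓ • y) - f x)

/-- **The family of local fits of a good varifold** (conclusions of AE Lemma 7.1 = CO Lemma 4.1 (i)-(iv)). -/
structure FitFam (W : SIV m n) (Q : ℕ) (c : FitCst) (m₀ : ℝ) where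
  /-- first failed index -/
  jf : E m → ℕ∞
  /-- the fits -/
  f : E m → ℕ → E m → E n
  smooth : ∀ (x : E m) (j : ℕ), ‖x‖ < 5 → (j : ℕ∞) ≤ jf x → ContDiff ℝ c.J (f x j)
  /-- derivatives of ALL orders `0..J` -/
  deriv : ∀ (x : E m) (j : ℕ), ‖x‖ < 5 → (j : ℕ∞) ≤ jf x → ∀ i : ℕ, i ≤ c.J →
    ∀ y ∈ Metric.ball x (80 * sc j), ‖iteratedFDeriv ℝ i (f x j) y‖ ≤ c.C * m₀
  /-- acceptance before the first failure -/
  accept : ∀ (x : E m) (j : ℕ), ‖x‖ < 5 → (j : ℕ∞) < jf x → ∀ X ∈ W.support, X ∈ Wk m n →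
    ‖prH m n X - x‖ < 64 * sc j → ‖prV m n X - f x j (prH m n X)‖ ≤ m₀ * sc j ^ c.k
  /-- failure at the index `jf x` -/
  fail : ∀ (x : E m) (j : ℕ), ‖x‖ < 5 → jf x = (j : ℕ∞) → ∃ X ∈ W.support, X ∈ Wk m n ∧
    ‖prH m n X - x‖ < 64 * sc j ∧ m₀ * sc j ^ c.k < ‖prV m n X - f x j (prH m n X)‖
  /-- height bound at all indices (from the acceptance at the previous index) -/
  height : ∀ (x : E m) (j : ℕ), ‖x‖ < 5 → (j : ℕ∞) ≤ jf x → ∀ X ∈ W.support, X ∈ Wk m n →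
    ‖prH m n X - x‖ < 80 * sc j → ‖prV m n X - f x j (prH m n X)‖ ≤ c.C * m₀ * sc j ^ c.k
  /-- almost minimality -/
  curv : ∀ (x : E m) (j : ℕ), ‖x‖ < 5 → (j : ℕ∞) ≤ jf x → ∀ y ∈ Metric.ball x (80 * sc j),
    ‖HS (f x j) y‖ ≤ c.C * m₀ ^ 2 * sc j ^ (2 * c.k - 3) ∧
    Real.sqrt (DHSsq (f x j) y) ≤ c.C * m₀ ^ 2 * sc j ^ (2 * c.k - 4)
  /-- comparison of neighbouring fits -/
  overlap : ∀ (x x' : E m) (j j' : ℕ), ‖x‖ < 5 → ‖x'‖ < 5 → (j : ℕ∞) ≤ jf x → (j' : ℕ∞) ≤ jf x' →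
    j ≤ j' → j' ≤ j + 2 → ‖x - x'‖ ≤ 10 * sc j' → ∀ i : ℕ, i ≤ c.J → ∀ y ∈ Metric.ball x' (20 * sc j'),
    ‖iteratedFDeriv ℝ i (f x j - f x' j') y‖ ≤ c.C * m₀ ^ 2 * sc j' ^ (2 * c.k - 1 - i)
  /-- first height moment (vertical heights, horizontal arguments) -/
  moment : ∀ (x : E m) (j : ℕ), ‖x‖ < 5 → (j : ℕ∞) ≤ jf x → ∀ (η : E m → E n) (A : ℝ), ContDiff ℝ ∞ η →
    tsupport η ⊆ Metric.ball x (70 * sc j) →
    (∀ i : ℕ, i ≤ c.q → ∀ y, sc j ^ i * ‖iteratedFDeriv ℝ i η y‖ ≤ A) →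
    |∫ X in Wk m n, inner ℝ (prV m n X - f x j (prH m n X)) (η (prH m n X)) ∂W.μ|
      ≤ c.C * A * m₀ ^ 2 * sc j ^ (m + 2 * c.k - 1)
  /-- tilt excess and mass defect AE (7.5), in the units of `B_ℓ(x)` -/
  energy : ∀ (x : E m) (j : ℕ), ‖x‖ < 5 → (j : ℕ∞) ≤ jf x → ∃ N : NCyl m n,
    N.W = W.simil (mkHV x (f x j x)) (sc j) (by unfold sc; positivity) (LinearIsometryEquiv.refl ℝ _) ∧
    N.u = scl x (sc j) (f x j) ∧ N.Ω = Metric.ball 0 72 ∧ N.h = c.h ∧ N.Q = Q ∧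
    (N.Dm + N.Mabs) (Metric.ball 0 72) ≤ ENNReal.ofReal (c.C * (m₀ * sc j ^ (c.k - 1)) ^ 2)

/-- the first failed scale (`0` if there is no failure, or outside `B_5`) -/
noncomputable def FitFam.ℓ {W : SIV m n} {Q : ℕ} {c : FitCst} {m₀ : ℝ} (F : FitFam W Q c m₀) (x : E m) : ℝ :=
  if ‖x‖ < 5 ∧ F.jf x ≠ ⊤ then sc (F.jf x).toNat else 0

/-- admissible constants -/
structure FitCst.Adm (m : ℕ) (c : FitCst) : Prop where
  J_lt : c.J + 4 < c.k
  k_gt : 8 + m < 2 * c.k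
  C_ge : 1 ≤ c.C
  h_pos : 0 < c.h

end Claimed.Agent.R322.Fit
end

/- ===== packed: Claimed.Agent.R322.Fit.Glue.Abs ===== -/
section
/-!
# Gluing half of AE Proposition 7.3: the ABSTRACT gluing theorem (paper-free; Mathlib + `Tool/Pou.lean`)

Owner: helper79 (package BP-Fit-glue).  No varifold occurs in this file.

INPUT (`GlIn`): a `1`-Lipschitz scale function `T ≥ 0` on `E m` (in the application `T = max (tent ℓ) (|·| - 22/5)`), functions `f x j`
("fit at the centre `x` and the scale `sc j = 2^{-j}`") which are available (`con x j`) as soon as `T x ≤ sc j / 2`, bounded in `C^J` by `K`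
on `ball x (80 sc j)`, and such that neighbouring fits differ by `δ (sc j)^{2k-1-i}` in the derivative of order `i ≤ J`.

OUTPUT (`gl_main`): ONE function `u ∈ C^J(E m)`, `|D^i u| ≤ C (K + δ)` everywhere, and the comparison
`|D^i (u - f x j)(w)| ≤ C δ (sc j)^{2k-1-i}` whenever `8 T w ≤ sc j`, `|x - w| ≤ sc j / 8`.

CONSTRUCTION (no Whitney covering, no Arzela-Ascoli).  Level `j`: grid points `pt j κ = gpt m (sc j / 8) κ`, cells `ball (pt j κ) (sc j / 8)`,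
partition of unity `(P j).χ κ` (`Tool.grid_pou`).  A grid point is ACTIVE at the level `j` if `T (pt j κ) ≤ sc j / 2` (finitely many, because
`|y| - 5 ≤ T y`).
  `vlev j   = ∑_{κ active at j} χ_{j,κ} f_{pt j κ, j}`,
  `glev j   = ∑_{κ active at j+1} χ_{j+1,κ} (f_{pt (j+1) κ, j+1} - vlev j)`,
  `uglue    = vlev 0 + ∑'_j glev j`.
FACTS.
 (a) [`act_of_cell`] if `κ` is active at the level `j+1` and `y ∈ cell (j+1) κ`, then every cell of the level `j` containing `y` is active: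
     `T p' ≤ T p + |p - y| + |y - p'| ≤ (1/2 + 1/8 + 1/4) sc (j+1) = (7/16) sc j`.
 (b) [`act_of_small`] if `8 T w ≤ sc j`, `|y - w| < sc j / 4`, `i ≤ j`, then every cell of the level `i` containing `y` is active:
     `T p ≤ sc j / 8 + sc j / 4 + sc i / 8 ≤ sc i / 2`.
 (c) where all cells containing `y` are active, `∑_{active} χ = 1`; hence on `cell (j+1) κ` (`κ` active)
     `f_{p,j+1} - vlev j = ∑_{κ' active at j} χ_{j,κ'} (f_{p,j+1} - f_{p',j})`, and every term is controlled by `overlap` and the Leibniz rule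
     (`Bd.smul`, `bd_sum`): `glev_bd`.
 (d) in the situation of (b): `glev i = vlev (i+1) - vlev i` on `ball w (sc j / 4)` for `i < j` (telescoping), so
     `uglue = vlev j + ∑'_i glev (j + i)` there, and `vlev j - f x j = ∑ χ_{j,κ} (f_{p,j} - f x j)`.
All derivative bounds are written in the SCALED form `Bd J l M h S : ∀ r ≤ J, ∀ y ∈ S, l^r |D^r h y| ≤ M`.
-/

set_option autoImplicit false

open scoped ContDiff Topology
open Claimed.Agent.R322.Tool

namespace Claimed.Agent.R322.Fit.Glue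

variable {m n : ℕ}

/-! ### scaled derivative bounds -/

/-- scaled `C^J` bound on a set: `l^r |D^r h| ≤ M` on `S` for `r ≤ J` -/
def Bd {F : Type} [NormedAddCommGroup F] [NormedSpace ℝ F] (J : ℕ) (l M : ℝ) (h : E m → F) (S : Set (E m)) : Prop :=
  ∀ r : ℕ, r ≤ J → ∀ y ∈ S, l ^ r * ‖iteratedFDeriv ℝ r h y‖ ≤ M

/-- a partition of unity of the grid of mesh `l` (the conclusion of `Tool.grid_pou` with `Λ = 1`) -/
structure Pou (m J : ℕ) (C : ℝ) (Nov : ℕ) (l : ℝ) where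
  χ : (Fin m → ℤ) → E m → ℝ
  smooth : ∀ κ, ContDiff ℝ ∞ (χ κ)
  mem01 : ∀ κ y, 0 ≤ χ κ y ∧ χ κ y ≤ 1
  supp : ∀ κ, tsupport (χ κ) ⊆ Metric.ball (gpt m l κ) l
  fin : ∀ y, {κ | χ κ y ≠ 0}.Finite
  sum : ∀ y, ∑ᶠ κ, χ κ y = 1
  bd : ∀ κ, Bd J l C (χ κ) Set.univ
  ov : ∀ y, {κ | y ∈ Metric.ball (gpt m l κ) l}.Finite ∧ {κ | y ∈ Metric.ball (gpt m l κ) l}.ncard ≤ Nov

/-- input of the gluing theorem -/
structure GlIn (m n J k : ℕ) where
  K : ℝ
  δ : ℝ
  T : E m → ℝ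
  con : E m → ℕ → Prop
  f : E m → ℕ → E m → E n
  hJk : J + 1 < 2 * k
  K_nonneg : 0 ≤ K
  δ_nonneg : 0 ≤ δ
  T_nonneg : ∀ y, 0 ≤ T y
  T_lip : ∀ y y', |T y - T y'| ≤ ‖y - y'‖
  T_coer : ∀ y, ‖y‖ - 5 ≤ T y
  con_of : ∀ x j, T x ≤ sc j / 2 → con x j
  smooth : ∀ x j, con x j → ContDiff ℝ J (f x j)
  deriv : ∀ x j, con x j → ∀ i : ℕ, i ≤ J → ∀ y ∈ Metric.ball x (80 * sc j), ‖iteratedFDeriv ℝ i (f x j) y‖ ≤ K
  overlap : ∀ x x' j j', con x j → con x' j' → j ≤ j' → j' ≤ j + 2 → ‖x - x'‖ ≤ 10 * sc j' → ∀ i : ℕ, i ≤ J →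
    ∀ y ∈ Metric.ball x' (20 * sc j'), ‖iteratedFDeriv ℝ i (f x j - f x' j') y‖ ≤ δ * sc j' ^ (2 * k - 1 - i)

/-- grid point of the level `j` -/
noncomputable def pt (m : ℕ) (j : ℕ) (κ : Fin m → ℤ) : E m := gpt m (sc j / 8) κ

/-- cell of the level `j` -/
def cell (m : ℕ) (j : ℕ) (κ : Fin m → ℤ) : Set (E m) := Metric.ball (pt m j κ) (sc j / 8)

/-! ### Leaf `L-Fit-Glue-kit`: calculus of scaled bounds -/

section kit

variable {F : Type} [NormedAddCommGroup F] [NormedSpace ℝ F] {J : ℕ} {l l' M M' : ℝ} {h g : E m → F}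
  {S S' : Set (E m)}

theorem Bd.mono (hb : Bd J l M h S) (hl0 : 0 ≤ l') (hl : l' ≤ l) (hM : M ≤ M') (hS : S' ⊆ S) :
    Bd J l' M' h S' := by
  intro r hr y hy
  calc l' ^ r * ‖iteratedFDeriv ℝ r h y‖ ≤ l ^ r * ‖iteratedFDeriv ℝ r h y‖ :=
        mul_le_mul_of_nonneg_right (pow_le_pow_left₀ hl0 hl r) (norm_nonneg _)
    _ ≤ M := hb r hr y (hS hy)
    _ ≤ M' := hM

/-- change of the scale by a factor `a ≥ 1` -/
theorem Bd.scale (hb : Bd J l M h S) {a : ℝ} (ha : 1 ≤ a) (hl0 : 0 ≤ l) (hM : 0 ≤ M) :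
    Bd J (a * l) (a ^ J * M) h S := by
  intro r hr y hy
  have h1 := hb r hr y hy
  have h2 : a ^ r ≤ a ^ J := pow_le_pow_right₀ ha hr
  have h3 : 0 ≤ a ^ r := by positivity
  calc (a * l) ^ r * ‖iteratedFDeriv ℝ r h y‖ = a ^ r * (l ^ r * ‖iteratedFDeriv ℝ r h y‖) := by
        rw [mul_pow]; ring
    _ ≤ a ^ r * M := mul_le_mul_of_nonneg_left h1 h3
    _ ≤ a ^ J * M := mul_le_mul_of_nonneg_right h2 hM

theorem Bd.neg (hb : Bd J l M h S) : Bd J l M (fun y => - h y) S := by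
  intro r hr y hy
  have e : (fun y => - h y) = - h := rfl
  rw [e, iteratedFDeriv_neg_apply, norm_neg]
  exact hb r hr y hy

/-- the bound only depends on the function on the open set `S` (`Filter.EventuallyEq.iteratedFDeriv`, `.eq_of_nhds`) -/
theorem Bd.congr (hb : Bd J l M h S) (hS : IsOpen S) (he : Set.EqOn g h S) : Bd J l M g S := by
  intro r hr y hy
  have hev : g =ᶠ[𝓝 y] h := by
    filter_upwards [hS.mem_nhds hy] with z hz using he hz
  rw [(Filter.EventuallyEq.iteratedFDeriv (𝕜 := ℝ) hev r).eq_of_nhds]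
  exact hb r hr y hy

theorem Bd.norm_le (hb : Bd J l M h S) (hl : 0 < l) {r : ℕ} (hr : r ≤ J) {y : E m} (hy : y ∈ S) :
    ‖iteratedFDeriv ℝ r h y‖ ≤ M / l ^ r := by
  rw [le_div_iff₀ (pow_pos hl r), mul_comm]
  exact hb r hr y hy

/-- Leibniz rule (`norm_iteratedFDeriv_smul_le`, `Nat.sum_range_choose`) -/
theorem Bd.smul {χ : E m → ℝ} {C₁ : ℝ} (hχ : ContDiff ℝ J χ) (hh : ContDiff ℝ J h) (h1 : Bd J l C₁ χ S)
    (h2 : Bd J l M h S) (hl : 0 ≤ l) (hC : 0 ≤ C₁) (hM : 0 ≤ M) :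
    Bd J l (2 ^ J * C₁ * M) (fun y => χ y • h y) S := by
  intro r hr y hy
  have hrJ : ((r : ℕ) : WithTop ℕ∞) ≤ (J : WithTop ℕ∞) := by exact_mod_cast hr
  have hL := norm_iteratedFDeriv_smul_le hχ hh y hrJ
  have hlr : 0 ≤ l ^ r := pow_nonneg hl r
  calc l ^ r * ‖iteratedFDeriv ℝ r (fun y => χ y • h y) y‖
      ≤ l ^ r * ∑ i ∈ Finset.range (r + 1), (r.choose i : ℝ) * ‖iteratedFDeriv ℝ i χ y‖
          * ‖iteratedFDeriv ℝ (r - i) h y‖ := mul_le_mul_of_nonneg_left hL hlr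
    _ = ∑ i ∈ Finset.range (r + 1), (r.choose i : ℝ) * ((l ^ i * ‖iteratedFDeriv ℝ i χ y‖)
          * (l ^ (r - i) * ‖iteratedFDeriv ℝ (r - i) h y‖)) := by
        rw [Finset.mul_sum]
        refine Finset.sum_congr rfl fun i hi => ?_
        have hi' : i ≤ r := Nat.lt_succ_iff.1 (Finset.mem_range.1 hi)
        have e : l ^ r = l ^ i * l ^ (r - i) := by rw [← pow_add, Nat.add_sub_cancel' hi']
        rw [e]; ring
    _ ≤ ∑ i ∈ Finset.range (r + 1), (r.choose i : ℝ) * (C₁ * M) := by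
        refine Finset.sum_le_sum fun i hi => ?_
        have hi' : i ≤ r := Nat.lt_succ_iff.1 (Finset.mem_range.1 hi)
        refine mul_le_mul_of_nonneg_left ?_ (Nat.cast_nonneg _)
        exact mul_le_mul (h1 i (hi'.trans hr) y hy) (h2 (r - i) ((Nat.sub_le _ _).trans hr) y hy)
          (by positivity) hC
    _ = 2 ^ r * (C₁ * M) := by
        rw [← Finset.sum_mul]
        congr 1
        exact_mod_cast Nat.sum_range_choose r
    _ ≤ 2 ^ J * (C₁ * M) :=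
        mul_le_mul_of_nonneg_right (pow_le_pow_right₀ (by norm_num) hr) (by positivity)
    _ = 2 ^ J * C₁ * M := by ring

/-- `Tool.grid_pou` with `Λ = 1` -/
theorem exists_pou (m J : ℕ) : ∃ (C : ℝ) (Nov : ℕ), 0 < C ∧ ∀ l : ℝ, 0 < l → Nonempty (Pou m J C Nov l) := by
  obtain ⟨C, Nov, hC, H⟩ := grid_pou m J 1 le_rfl
  refine ⟨C, Nov, hC, fun l hl => ?_⟩
  obtain ⟨χ, h1, h2, h3, h4, h5, h6, h7, -⟩ := H l hl
  simp only [one_mul] at h7
  exact ⟨⟨χ, h1, h2, h3, h4, h5, fun κ r hr y _ => h6 κ r hr y, h7⟩⟩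

/-- a term of a partitioned sum has vanishing derivatives off the cell -/
theorem glk_term_zero {C : ℝ} {Nov : ℕ} (P : Pou m J C Nov l) (κ : Fin m → ℤ) (H : E m → F) (r : ℕ) {y : E m}
    (hy : y ∉ Metric.ball (gpt m l κ) l) : iteratedFDeriv ℝ r (fun y => P.χ κ y • H y) y = 0 := by
  have h1 : y ∉ tsupport (P.χ κ) := fun h => hy (P.supp κ h)
  have h2 : P.χ κ =ᶠ[𝓝 y] 0 := notMem_tsupport_iff_eventuallyEq.1 h1
  have h3 : (fun y => P.χ κ y • H y) =ᶠ[𝓝 y] fun _ => (0 : F) := by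
    filter_upwards [h2] with z hz
    rw [hz]; simp
  rw [(Filter.EventuallyEq.iteratedFDeriv (𝕜 := ℝ) h3 r).eq_of_nhds]
  simp

/-- finite partitioned sums: `iteratedFDeriv_sum`; the terms with `y ∉ ball (gpt m l κ) l` vanish (`y ∉ tsupport (χ κ)`, the term is `0`
near `y`); at most `Nov` terms are left (`Finset.sum_le_card_nsmul` on the filtered finset, `Set.ncard_le_ncard`). -/
theorem bd_sum {C : ℝ} {Nov : ℕ} (P : Pou m J C Nov l) (hl : 0 < l) (hC : 0 ≤ C) (A : Finset (Fin m → ℤ))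
    (H : (Fin m → ℤ) → E m → F) (hH : ∀ κ ∈ A, ContDiff ℝ J (H κ)) (hM : 0 ≤ M)
    (hb : ∀ κ ∈ A, Bd J l M (H κ) (Metric.ball (gpt m l κ) l ∩ S)) :
    Bd J l (Nov * (2 ^ J * C * M)) (fun y => ∑ κ ∈ A, P.χ κ y • H κ y) S := by
  classical
  intro r hr y hy
  have hrJ : ((r : ℕ) : WithTop ℕ∞) ≤ (J : WithTop ℕ∞) := by exact_mod_cast hr
  have hχJ : ∀ κ, ContDiff ℝ J (P.χ κ) := fun κ => (P.smooth κ).of_le (by exact_mod_cast le_top)
  have hterm : ∀ κ ∈ A, ContDiff ℝ J (fun y => P.χ κ y • H κ y) := fun κ hκ => (hχJ κ).smul (hH κ hκ)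
  have e1 : iteratedFDeriv ℝ r (fun y => ∑ κ ∈ A, P.χ κ y • H κ y) y
      = ∑ κ ∈ A, iteratedFDeriv ℝ r (fun y => P.χ κ y • H κ y) y :=
    iteratedFDeriv_fun_sum_apply (f := fun κ y => P.χ κ y • H κ y)
      (fun κ hκ => ((hterm κ hκ).of_le hrJ).contDiffAt)
  set B : Finset (Fin m → ℤ) := A.filter (fun κ => y ∈ Metric.ball (gpt m l κ) l) with hB
  have e2 : ∑ κ ∈ A, iteratedFDeriv ℝ r (fun y => P.χ κ y • H κ y) y
      = ∑ κ ∈ B, iteratedFDeriv ℝ r (fun y => P.χ κ y • H κ y) y := by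
    rw [hB, Finset.sum_filter]
    refine Finset.sum_congr rfl fun κ _ => ?_
    split_ifs with hκ
    · rfl
    · exact glk_term_zero P κ (H κ) r hκ
  have hcard : B.card ≤ Nov := by
    have hsub : (B : Set (Fin m → ℤ)) ⊆ {κ | y ∈ Metric.ball (gpt m l κ) l} := by
      intro κ hκ
      rw [Finset.mem_coe, hB, Finset.mem_filter] at hκ
      exact hκ.2
    calc B.card = (B : Set (Fin m → ℤ)).ncard := (Set.ncard_coe_finset B).symm
      _ ≤ {κ | y ∈ Metric.ball (gpt m l κ) l}.ncard := Set.ncard_le_ncard hsub (P.ov y).1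
      _ ≤ Nov := (P.ov y).2
  have hone : ∀ κ ∈ B, l ^ r * ‖iteratedFDeriv ℝ r (fun y => P.χ κ y • H κ y) y‖ ≤ 2 ^ J * C * M := by
    intro κ hκ
    rw [hB, Finset.mem_filter] at hκ
    have hb1 : Bd J l C (P.χ κ) (Metric.ball (gpt m l κ) l ∩ S) :=
      (P.bd κ).mono hl.le le_rfl le_rfl (Set.subset_univ _)
    exact (Bd.smul (hχJ κ) (hH κ hκ.1) hb1 (hb κ hκ.1) hl.le hC hM) r hr y ⟨hκ.2, hy⟩
  have hK : 0 ≤ 2 ^ J * C * M := by positivity
  rw [e1, e2]
  calc l ^ r * ‖∑ κ ∈ B, iteratedFDeriv ℝ r (fun y => P.χ κ y • H κ y) y‖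
      ≤ l ^ r * ∑ κ ∈ B, ‖iteratedFDeriv ℝ r (fun y => P.χ κ y • H κ y) y‖ :=
        mul_le_mul_of_nonneg_left (norm_sum_le _ _) (pow_nonneg hl.le r)
    _ = ∑ κ ∈ B, l ^ r * ‖iteratedFDeriv ℝ r (fun y => P.χ κ y • H κ y) y‖ := Finset.mul_sum _ _ _
    _ ≤ ∑ _κ ∈ B, 2 ^ J * C * M := Finset.sum_le_sum hone
    _ = B.card * (2 ^ J * C * M) := by rw [Finset.sum_const, nsmul_eq_mul]
    _ ≤ Nov * (2 ^ J * C * M) := mul_le_mul_of_nonneg_right (by exact_mod_cast hcard) hK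

end kit

/-! ### Leaf `L-Fit-Glue-cells`: active grid points -/

section cells

variable {J k : ℕ} (G : GlIn m n J k)

theorem sc_pos (j : ℕ) : 0 < sc j := by unfold sc; positivity

theorem sc_succ (j : ℕ) : sc (j + 1) = sc j / 2 := by unfold sc; rw [pow_succ]; ring

theorem sc_le_one (j : ℕ) : sc j ≤ 1 := by
  unfold sc; exact pow_le_one₀ (by norm_num) (by norm_num)

theorem sc_anti {i j : ℕ} (h : i ≤ j) : sc j ≤ sc i := by
  unfold sc; exact pow_le_pow_of_le_one (by norm_num) (by norm_num) h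

/-- active grid points of the level `j` -/
def Act (j : ℕ) : Set (Fin m → ℤ) := {κ | G.T (pt m j κ) ≤ sc j / 2}

/-- `|pt j κ| ≤ 11/2` by `T_coer`; finitely many grid points in a ball (`Tool.gpt_count`, `Tool.gpt_mem_ball_scale`) -/
theorem act_finite (j : ℕ) : (Act G j).Finite := by
  have hs := sc_pos j
  have hs1 := sc_le_one j
  have hl0 : 0 < sc j / 8 := by positivity
  obtain ⟨Nov, hN⟩ := gpt_count m (6 / (sc j / 8))
  refine (hN ((sc j / 8)⁻¹ • (0 : E m))).1.subset fun κ hκ => ?_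
  have h1 : G.T (pt m j κ) ≤ sc j / 2 := hκ
  have h2 := G.T_coer (pt m j κ)
  have h3 : ‖pt m j κ‖ < 6 := by linarith
  have h4 : (0 : E m) ∈ Metric.ball (gpt m (sc j / 8) κ) (6 / (sc j / 8) * (sc j / 8)) := by
    rw [Metric.mem_ball, dist_eq_norm, zero_sub, norm_neg, div_mul_cancel₀ _ hl0.ne']
    exact h3
  exact (gpt_mem_ball_scale m hl0 (6 / (sc j / 8)) κ 0).1 h4

/-- the finset of the active grid points -/
noncomputable def actF (j : ℕ) : Finset (Fin m → ℤ) := (act_finite G j).toFinset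

theorem mem_actF {j : ℕ} {κ : Fin m → ℤ} : κ ∈ actF G j ↔ κ ∈ Act G j := by
  unfold actF; exact Set.Finite.mem_toFinset _

theorem act_con {j : ℕ} {κ : Fin m → ℤ} (h : κ ∈ Act G j) : G.con (pt m j κ) j := G.con_of _ _ h

/-- fact (a) of the header -/
theorem act_of_cell {j : ℕ} {κ κ' : Fin m → ℤ} {y : E m} (hκ : κ ∈ Act G (j + 1)) (hy : y ∈ cell m (j + 1) κ)
    (hy' : y ∈ cell m j κ') : κ' ∈ Act G j := by
  have hs := sc_pos j
  have e := sc_succ j
  have h1 : G.T (pt m (j + 1) κ) ≤ sc (j + 1) / 2 := hκ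
  unfold cell at hy hy'
  rw [Metric.mem_ball, dist_eq_norm] at hy hy'
  have h2 := (abs_le.1 (G.T_lip (pt m j κ') (pt m (j + 1) κ))).2
  have h3 : ‖pt m j κ' - pt m (j + 1) κ‖ ≤ ‖y - pt m (j + 1) κ‖ + ‖y - pt m j κ'‖ := by
    have e1 : pt m j κ' - pt m (j + 1) κ = (y - pt m (j + 1) κ) - (y - pt m j κ') := by abel
    rw [e1]
    exact norm_sub_le _ _
  show G.T (pt m j κ') ≤ sc j / 2
  linarith

/-- fact (b) of the header -/
theorem act_of_small {w y : E m} {i j : ℕ} (hw : 8 * G.T w ≤ sc j) (hy : ‖y - w‖ < sc j / 4) (hij : i ≤ j)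
    {κ : Fin m → ℤ} (hκ : y ∈ cell m i κ) : κ ∈ Act G i := by
  have hs := sc_pos j
  have hsi := sc_anti hij
  unfold cell at hκ
  rw [Metric.mem_ball, dist_eq_norm] at hκ
  have h2 := (abs_le.1 (G.T_lip (pt m i κ) w)).2
  have h3 : ‖pt m i κ - w‖ ≤ ‖y - w‖ + ‖y - pt m i κ‖ := by
    have e1 : pt m i κ - w = (y - w) - (y - pt m i κ) := by abel
    rw [e1]
    exact norm_sub_le _ _
  show G.T (pt m i κ) ≤ sc i / 2
  linarith

/-- `finsum_eq_sum_of_support_subset`: the support of `κ ↦ χ κ y` lies in the active set (`subset_tsupport`, `P.supp`) -/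
theorem sum_chi_eq_one {C : ℝ} {Nov : ℕ} {j : ℕ} (P : Pou m J C Nov (sc j / 8)) {y : E m}
    (hy : ∀ κ, y ∈ cell m j κ → κ ∈ Act G j) : ∑ κ ∈ actF G j, P.χ κ y = 1 := by
  have h := P.sum y
  rw [finsum_eq_sum_of_support_subset (s := actF G j) _ ?_] at h
  · exact h
  · intro κ hκ
    rw [Finset.mem_coe, mem_actF]
    apply hy
    have h1 : y ∈ Function.support (P.χ κ) := hκ
    exact P.supp κ (subset_tsupport _ h1)

end cells

/-! ### the glued function -/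

section levels

variable {J k : ℕ} (G : GlIn m n J k) {C : ℝ} {Nov : ℕ} (P : ∀ j, Pou m J C Nov (sc j / 8))

/-- uniform gluing at the level `j` (active cells only) -/
noncomputable def vlev (j : ℕ) (y : E m) : E n :=
  ∑ κ ∈ actF G j, (P j).χ κ y • G.f (pt m j κ) j y

/-- correction from the level `j` to the level `j+1` (active cells of the level `j+1` only) -/
noncomputable def glev (j : ℕ) (y : E m) : E n :=
  ∑ κ ∈ actF G (j + 1), (P (j + 1)).χ κ y • (G.f (pt m (j + 1) κ) (j + 1) y - vlev G P j y)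

/-- the glued function -/
noncomputable def uglue (y : E m) : E n := vlev G P 0 y + ∑' j, glev G P j y

/-- the constant of one partitioned sum -/
noncomputable def cS (J : ℕ) (C : ℝ) (Nov : ℕ) : ℝ := Nov * (2 ^ J * C)

/-! ### Leaf `L-Fit-Glue-levels`: identities and bounds of the levels -/

theorem vlev_contDiff (j : ℕ) : ContDiff ℝ J (vlev G P j) := by
  show ContDiff ℝ J (fun y => ∑ κ ∈ actF G j, (P j).χ κ y • G.f (pt m j κ) j y)
  refine ContDiff.sum fun κ hκ => ?_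
  exact (((P j).smooth κ).of_le (by exact_mod_cast le_top)).smul
    (G.smooth _ _ (act_con G ((mem_actF G).1 hκ)))

theorem glev_contDiff (j : ℕ) : ContDiff ℝ J (glev G P j) := by
  show ContDiff ℝ J (fun y => ∑ κ ∈ actF G (j + 1),
    (P (j + 1)).χ κ y • (G.f (pt m (j + 1) κ) (j + 1) y - vlev G P j y))
  refine ContDiff.sum fun κ hκ => ?_
  exact (((P (j + 1)).smooth κ).of_le (by exact_mod_cast le_top)).smul
    ((G.smooth _ _ (act_con G ((mem_actF G).1 hκ))).sub (vlev_contDiff G P j))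

/-- fact (c), identity -/
theorem vlev_sub_eq (j : ℕ) {y : E m} (hy : ∀ κ, y ∈ cell m j κ → κ ∈ Act G j) (a : E n) :
    vlev G P j y - a = ∑ κ ∈ actF G j, (P j).χ κ y • (G.f (pt m j κ) j y - a) := by
  have h1 := sum_chi_eq_one G (P j) hy
  simp only [smul_sub, Finset.sum_sub_distrib, ← Finset.sum_smul, h1, one_smul]
  rfl

/-- fact (d), telescoping -/
theorem glev_eq_sub (j : ℕ) {y : E m} (hy : ∀ κ, y ∈ cell m (j + 1) κ → κ ∈ Act G (j + 1)) :
    glev G P j y = vlev G P (j + 1) y - vlev G P j y := by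
  exact (vlev_sub_eq G P (j + 1) hy (vlev G P j y)).symm

/-- `bd_sum` at the level `0` with `M = K`, then `Bd.scale` with `a = 8` -/
theorem vlev_zero_bd (hC : 0 < C) : Bd J 1 (8 ^ J * (cS J C Nov * G.K)) (vlev G P 0) Set.univ := by
  have hs0 : sc 0 = 1 := by unfold sc; simp
  have hl : (0 : ℝ) < sc 0 / 8 := by rw [hs0]; norm_num
  have hK := G.K_nonneg
  have h1 : Bd J (sc 0 / 8) (Nov * (2 ^ J * C * G.K))
      (fun y => ∑ κ ∈ actF G 0, (P 0).χ κ y • G.f (pt m 0 κ) 0 y) Set.univ := by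
    refine bd_sum (P 0) hl hC.le (actF G 0) (fun κ => G.f (pt m 0 κ) 0)
      (fun κ hκ => G.smooth _ _ (act_con G ((mem_actF G).1 hκ))) hK ?_
    intro κ hκ r hr y hy
    have hcon := act_con G ((mem_actF G).1 hκ)
    have hy' : y ∈ Metric.ball (pt m 0 κ) (80 * sc 0) :=
      Metric.ball_subset_ball (by rw [hs0]; norm_num) hy.1
    have h2 := G.deriv _ _ hcon r hr y hy'
    have h3 : (sc 0 / 8) ^ r ≤ 1 := pow_le_one₀ hl.le (by rw [hs0]; norm_num)
    calc _ ≤ 1 * G.K := mul_le_mul h3 h2 (norm_nonneg _) zero_le_one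
      _ = G.K := one_mul _
  have h4 := h1.scale (a := 8) (by norm_num) hl.le (by positivity)
  have e : 8 * (sc 0 / 8) = 1 := by rw [hs0]; norm_num
  have e2 : (Nov : ℝ) * (2 ^ J * C * G.K) = cS J C Nov * G.K := by unfold cS; ring
  rw [e, e2] at h4
  exact h4

/-- `a^r (δ s^(e-r)) ≤ δ s^e` for `0 ≤ a ≤ s`, `r ≤ e` -/
theorem glk_pow_le {a s δ t : ℝ} {r e : ℕ} (ha : 0 ≤ a) (has : a ≤ s) (hre : r ≤ e)
    (ht0 : 0 ≤ t) (ht : t ≤ δ * s ^ (e - r)) : a ^ r * t ≤ δ * s ^ e := by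
  have hs : 0 ≤ s := ha.trans has
  calc a ^ r * t ≤ s ^ r * (δ * s ^ (e - r)) :=
        mul_le_mul (pow_le_pow_left₀ ha has r) ht ht0 (pow_nonneg hs r)
    _ = δ * (s ^ r * s ^ (e - r)) := by ring
    _ = δ * s ^ e := by rw [← pow_add, Nat.add_sub_cancel' hre]

/-- fact (c), estimate.  For `κ` active at `j+1`: on the open set `cell (j+1) κ`,
`f_{p,j+1} - vlev j = ∑_{κ'} χ_{j,κ'} (f_{p,j+1} - f_{p',j})` (`vlev_sub_eq`, `act_of_cell`, `Bd.congr`); `overlap` with `x = p'`, `x' = p`,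
`|p - p'| < 3 sc (j+1) / 8`; `(sc j / 8)^r sc (j+1)^(2k-1-r) ≤ sc (j+1)^(2k-1)`; `bd_sum` twice; `Bd.mono` from `sc j / 8` to `sc (j+1) / 8`. -/
theorem glev_bd (hC : 0 < C) (j : ℕ) :
    Bd J (sc (j + 1) / 8) (cS J C Nov ^ 2 * (G.δ * sc (j + 1) ^ (2 * k - 1))) (glev G P j) Set.univ := by
  have hs := sc_pos j
  have hs1 := sc_pos (j + 1)
  have e := sc_succ j
  have hδ := G.δ_nonneg
  have hJk := G.hJk
  have hl0 : 0 < sc j / 8 := by positivity
  have hl1 : 0 < sc (j + 1) / 8 := by positivity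
  set D : ℝ := G.δ * sc (j + 1) ^ (2 * k - 1) with hD
  have hDn : 0 ≤ D := by positivity
  have hM1 : 0 ≤ (Nov : ℝ) * (2 ^ J * C * D) := by positivity
  have hin : ∀ κ ∈ actF G (j + 1), Bd J (sc (j + 1) / 8) (Nov * (2 ^ J * C * D))
      (fun y => G.f (pt m (j + 1) κ) (j + 1) y - vlev G P j y)
      (Metric.ball (gpt m (sc (j + 1) / 8) κ) (sc (j + 1) / 8) ∩ Set.univ) := by
    intro κ hκ
    have hκA := (mem_actF G).1 hκ
    have hcon := act_con G hκA
    have h1 : Bd J (sc j / 8) (Nov * (2 ^ J * C * D))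
        (fun y => ∑ κ' ∈ actF G j, (P j).χ κ' y •
          (G.f (pt m j κ') j - G.f (pt m (j + 1) κ) (j + 1)) y) (cell m (j + 1) κ) := by
      refine bd_sum (P j) hl0 hC.le (actF G j)
        (fun κ' => G.f (pt m j κ') j - G.f (pt m (j + 1) κ) (j + 1))
        (fun κ' hκ' => (G.smooth _ _ (act_con G ((mem_actF G).1 hκ'))).sub (G.smooth _ _ hcon)) hDn ?_
      intro κ' hκ' r hr y hy
      have hcon' := act_con G ((mem_actF G).1 hκ')
      have hy1 : ‖y - pt m j κ'‖ < sc j / 8 := by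
        have := hy.1
        rwa [Metric.mem_ball, dist_eq_norm] at this
      have hy2 : ‖y - pt m (j + 1) κ‖ < sc (j + 1) / 8 := by
        have := hy.2
        unfold cell at this
        rwa [Metric.mem_ball, dist_eq_norm] at this
      have h3 : ‖pt m j κ' - pt m (j + 1) κ‖ ≤ ‖y - pt m (j + 1) κ‖ + ‖y - pt m j κ'‖ := by
        have e1 : pt m j κ' - pt m (j + 1) κ = (y - pt m (j + 1) κ) - (y - pt m j κ') := by abel
        rw [e1]
        exact norm_sub_le _ _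
      have hy3 : y ∈ Metric.ball (pt m (j + 1) κ) (20 * sc (j + 1)) := by
        rw [Metric.mem_ball, dist_eq_norm]
        linarith
      have h4 := G.overlap (pt m j κ') (pt m (j + 1) κ) j (j + 1) hcon' hcon (Nat.le_succ j)
        (Nat.le_succ (j + 1)) (by linarith) r hr y hy3
      exact glk_pow_le hl0.le (by linarith) (by omega) (norm_nonneg _) h4
    have h2 := (h1.neg).congr (g := fun y => G.f (pt m (j + 1) κ) (j + 1) y - vlev G P j y)
      Metric.isOpen_ball (by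
        intro y hy
        have h5 := vlev_sub_eq G P j (y := y) (fun κ' hκ' => act_of_cell G hκA hy hκ')
          (G.f (pt m (j + 1) κ) (j + 1) y)
        show G.f (pt m (j + 1) κ) (j + 1) y - vlev G P j y
          = - ∑ κ' ∈ actF G j, (P j).χ κ' y • (G.f (pt m j κ') j y - G.f (pt m (j + 1) κ) (j + 1) y)
        rw [← h5, neg_sub])
    exact h2.mono hl1.le (by linarith) le_rfl Set.inter_subset_left
  have hout := bd_sum (S := Set.univ) (P (j + 1)) hl1 hC.le (actF G (j + 1))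
    (fun κ y => G.f (pt m (j + 1) κ) (j + 1) y - vlev G P j y)
    (fun κ hκ => (G.smooth _ _ (act_con G ((mem_actF G).1 hκ))).sub (vlev_contDiff G P j)) hM1 hin
  have e2 : (Nov : ℝ) * (2 ^ J * C * (Nov * (2 ^ J * C * D))) = cS J C Nov ^ 2 * D := by
    unfold cS; ring
  rw [e2] at hout
  exact hout

/-- fact (d), estimate: `vlev_sub_eq`, `act_of_small`, `overlap` with `x = x`, `x' = pt j κ`, `j' = j`, `bd_sum` -/
theorem vlev_sub_bd (hC : 0 < C) {w x : E m} {j : ℕ} (hw : 8 * G.T w ≤ sc j) (hx : ‖x - w‖ ≤ sc j / 8) :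
    Bd J (sc j / 8) (cS J C Nov * (G.δ * sc j ^ (2 * k - 1))) (fun y => vlev G P j y - G.f x j y)
      (Metric.ball w (sc j / 4)) := by
  have hs := sc_pos j
  have hδ := G.δ_nonneg
  have hJk := G.hJk
  have hl0 : 0 < sc j / 8 := by positivity
  have hTx : G.T x ≤ sc j / 2 := by
    have h2 := (abs_le.1 (G.T_lip x w)).2
    linarith
  have hconx := G.con_of x j hTx
  set D : ℝ := G.δ * sc j ^ (2 * k - 1) with hD
  have hDn : 0 ≤ D := by positivity
  have h1 : Bd J (sc j / 8) (Nov * (2 ^ J * C * D))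
      (fun y => ∑ κ ∈ actF G j, (P j).χ κ y • (fun y => - (G.f x j - G.f (pt m j κ) j) y) y)
      (Metric.ball w (sc j / 4)) := by
    refine bd_sum (P j) hl0 hC.le (actF G j)
      (fun κ => fun y => - (G.f x j - G.f (pt m j κ) j) y)
      (fun κ hκ => ((G.smooth _ _ hconx).sub (G.smooth _ _ (act_con G ((mem_actF G).1 hκ)))).neg) hDn ?_
    intro κ hκ
    refine Bd.neg ?_
    intro r hr y hy
    have hcon := act_con G ((mem_actF G).1 hκ)
    have hy1 : ‖y - pt m j κ‖ < sc j / 8 := by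
      have := hy.1
      rwa [Metric.mem_ball, dist_eq_norm] at this
    have hy2 : ‖y - w‖ < sc j / 4 := by
      have := hy.2
      rwa [Metric.mem_ball, dist_eq_norm] at this
    have h3 : ‖x - pt m j κ‖ ≤ ‖x - w‖ + ‖y - w‖ + ‖y - pt m j κ‖ := by
      have e1 : x - pt m j κ = (x - w) - (y - w) + (y - pt m j κ) := by abel
      rw [e1]
      exact (norm_add_le _ _).trans (add_le_add_left (norm_sub_le _ _) _)
    have hy3 : y ∈ Metric.ball (pt m j κ) (20 * sc j) := by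
      rw [Metric.mem_ball, dist_eq_norm]
      linarith
    have h4 := G.overlap x (pt m j κ) j j hconx hcon le_rfl (Nat.le_add_right j 2) (by linarith) r hr y hy3
    exact glk_pow_le hl0.le (by linarith) (by omega) (norm_nonneg _) h4
  have h2 := h1.congr (g := fun y => vlev G P j y - G.f x j y) Metric.isOpen_ball (by
    intro y hy
    rw [Metric.mem_ball, dist_eq_norm] at hy
    have h5 := vlev_sub_eq G P j (y := y) (fun κ hκ => act_of_small G hw hy le_rfl hκ) (G.f x j y)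
    show vlev G P j y - G.f x j y
      = ∑ κ ∈ actF G j, (P j).χ κ y • (- (G.f x j y - G.f (pt m j κ) j y))
    rw [h5]
    refine Finset.sum_congr rfl fun κ _ => ?_
    rw [neg_sub])
  have e2 : (Nov : ℝ) * (2 ^ J * C * D) = cS J C Nov * D := by
    unfold cS; ring
  rw [e2] at h2
  exact h2

/-! ### Leaf `L-Fit-Glue-series`: the series -/

/-- unscaled form of `glev_bd` -/
theorem glev_norm_le (hC : 0 < C) (j r : ℕ) (hr : r ≤ J) (y : E m) :
    ‖iteratedFDeriv ℝ r (glev G P j) y‖ ≤ 8 ^ J * cS J C Nov ^ 2 * G.δ * sc (j + 1) ^ (2 * k - 1 - r) := by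
  have hs1 := sc_pos (j + 1)
  have hδ := G.δ_nonneg
  have hJk := G.hJk
  have hl1 : 0 < sc (j + 1) / 8 := by positivity
  have hc : 0 ≤ cS J C Nov := by unfold cS; positivity
  have b1 := (glev_bd G P hC j).norm_le hl1 hr (Set.mem_univ y)
  refine b1.trans ?_
  have hexp : 2 * k - 1 = (2 * k - 1 - r) + r := by omega
  have h8 : (8 : ℝ) ^ r ≤ 8 ^ J := pow_le_pow_right₀ (by norm_num) hr
  have hp : 0 < sc (j + 1) ^ r := pow_pos hs1 r
  have e : cS J C Nov ^ 2 * (G.δ * sc (j + 1) ^ (2 * k - 1)) / (sc (j + 1) / 8) ^ r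
      = 8 ^ r * (cS J C Nov ^ 2 * G.δ * sc (j + 1) ^ (2 * k - 1 - r)) := by
    rw [div_pow]
    conv_lhs => rw [hexp, pow_add]
    field_simp
  rw [e]
  have hn : 0 ≤ cS J C Nov ^ 2 * G.δ * sc (j + 1) ^ (2 * k - 1 - r) := by positivity
  calc _ ≤ 8 ^ J * (cS J C Nov ^ 2 * G.δ * sc (j + 1) ^ (2 * k - 1 - r)) :=
        mul_le_mul_of_nonneg_right h8 hn
    _ = _ := by ring

/-- geometric majorant of the derivatives of the corrections -/
theorem gls_bound (hC : 0 < C) (j r i : ℕ) (hr : r ≤ J) (y : E m) :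
    ‖iteratedFDeriv ℝ r (glev G P (j + i)) y‖
      ≤ 8 ^ J * cS J C Nov ^ 2 * G.δ * sc j ^ (2 * k - 1 - r) * (1 / 2 * (1 / 2) ^ i) := by
  have hs := sc_pos j
  have hδ := G.δ_nonneg
  have hJk := G.hJk
  have hc : 0 ≤ cS J C Nov := by unfold cS; positivity
  refine (glev_norm_le G P hC (j + i) r hr y).trans ?_
  have e1 : sc (j + i + 1) = sc j * (1 / 2 * (1 / 2) ^ i) := by
    unfold sc
    rw [pow_succ, pow_add]
    norm_num
    ring
  have ht0 : (0 : ℝ) ≤ 1 / 2 * (1 / 2) ^ i := by positivity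
  have ht1 : (1 / 2 * (1 / 2) ^ i : ℝ) ≤ 1 := by
    have : ((1 : ℝ) / 2) ^ i ≤ 1 := pow_le_one₀ (by norm_num) (by norm_num)
    linarith
  have h2 : (1 / 2 * (1 / 2) ^ i : ℝ) ^ (2 * k - 1 - r) ≤ 1 / 2 * (1 / 2) ^ i :=
    pow_le_of_le_one ht0 ht1 (by omega)
  rw [e1, mul_pow, ← mul_assoc]
  exact mul_le_mul_of_nonneg_left h2 (by positivity)

/-- the majorant has the sum `A` -/
theorem gls_hasSum (A : ℝ) : HasSum (fun i : ℕ => A * (1 / 2 * (1 / 2) ^ i)) A := by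
  have h := (hasSum_geometric_two.mul_left (1 / 2 : ℝ)).mul_left A
  have e : A * (1 / 2 * 2) = A := by ring
  rwa [e] at h

/-- `contDiff_tsum` with the bounds `glev_norm_le`; `sc (j+i+1)^e ≤ sc j ^ e * (1/2)^(i+1)` for `e ≥ 1` -/
theorem tail_contDiff (hC : 0 < C) (j : ℕ) : ContDiff ℝ J (fun y => ∑' i, glev G P (j + i) y) := by
  have h := contDiff_tsum (𝕜 := ℝ) (N := (J : ℕ∞)) (f := fun i => glev G P (j + i))
    (v := fun r i => 8 ^ J * cS J C Nov ^ 2 * G.δ * sc j ^ (2 * k - 1 - r) * (1 / 2 * (1 / 2) ^ i))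
    (fun i => glev_contDiff G P (j + i)) (fun r _ => (gls_hasSum _).summable)
    (fun r i x hr => gls_bound G P hC j r i (by exact_mod_cast hr) x)
  exact h

/-- `iteratedFDeriv_tsum`, `norm_tsum_le_tsum_norm`, geometric series -/
theorem tail_norm_le (hC : 0 < C) (j r : ℕ) (hr : r ≤ J) (y : E m) :
    ‖iteratedFDeriv ℝ r (fun y => ∑' i, glev G P (j + i) y) y‖
      ≤ 8 ^ J * cS J C Nov ^ 2 * G.δ * sc j ^ (2 * k - 1 - r) := by
  have h := iteratedFDeriv_tsum_apply (𝕜 := ℝ) (N := (J : ℕ∞)) (f := fun i => glev G P (j + i))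
    (v := fun r i => 8 ^ J * cS J C Nov ^ 2 * G.δ * sc j ^ (2 * k - 1 - r) * (1 / 2 * (1 / 2) ^ i))
    (fun i => glev_contDiff G P (j + i)) (fun r _ => (gls_hasSum _).summable)
    (fun r i x hr => gls_bound G P hC j r i (by exact_mod_cast hr) x) (k := r) (by exact_mod_cast hr) y
  rw [h]
  exact tsum_of_norm_bounded (gls_hasSum _) (fun i => gls_bound G P hC j r i hr y)

/-- fact (d): `Summable.sum_add_tsum_nat_add`, `glev_eq_sub`, `act_of_small`, `Finset.sum_range_sub` -/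
theorem uglue_eq_near (hC : 0 < C) {w y : E m} {j : ℕ} (hw : 8 * G.T w ≤ sc j) (hy : ‖y - w‖ < sc j / 4) :
    uglue G P y = vlev G P j y + ∑' i, glev G P (j + i) y := by
  have hsum : Summable (fun i => glev G P i y) := by
    refine Summable.of_norm_bounded
      (gls_hasSum (8 ^ J * cS J C Nov ^ 2 * G.δ * sc 0 ^ (2 * k - 1 - 0))).summable (fun i => ?_)
    have h := gls_bound G P hC 0 0 i (Nat.zero_le J) y
    rw [norm_iteratedFDeriv_zero, zero_add] at h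
    exact h
  have h1 := hsum.sum_add_tsum_nat_add j
  have h2 : ∑ i ∈ Finset.range j, glev G P i y = vlev G P j y - vlev G P 0 y := by
    rw [← Finset.sum_range_sub (fun i => vlev G P i y) j]
    refine Finset.sum_congr rfl fun i hi => ?_
    have hi' : i + 1 ≤ j := Finset.mem_range.1 hi
    exact glev_eq_sub G P i (fun κ hκ => act_of_small G hw hy hi' hκ)
  unfold uglue
  rw [← h1, h2]
  simp only [add_comm j]
  abel

end levels

/-! ### the gluing theorem (glue, proved from the leaves) -/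

/-- **Abstract gluing theorem.** -/
theorem gl_main (m n J k : ℕ) : ∃ C : ℝ, 1 ≤ C ∧ ∀ G : GlIn m n J k,
    ∃ u : E m → E n, ContDiff ℝ J u ∧
      (∀ i : ℕ, i ≤ J → ∀ w, ‖iteratedFDeriv ℝ i u w‖ ≤ C * (G.K + G.δ)) ∧
      (∀ (w x : E m) (j : ℕ), 8 * G.T w ≤ sc j → ‖x - w‖ ≤ sc j / 8 → ∀ i : ℕ, i ≤ J →
        ‖iteratedFDeriv ℝ i (u - G.f x j) w‖ ≤ C * G.δ * sc j ^ (2 * k - 1 - i)) := by
  obtain ⟨C, Nov, hC, hP⟩ := exists_pou m J
  have hsc8 : ∀ j, 0 < sc j / 8 := fun j => by have := sc_pos j; positivity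
  have P : ∀ j, Pou m J C Nov (sc j / 8) := fun j => Classical.choice (hP (sc j / 8) (hsc8 j))
  set c1 := cS J C Nov with hc1
  have hc1n : 0 ≤ c1 := by rw [hc1]; unfold cS; positivity
  set A : ℝ := 8 ^ J * c1 ^ 2 with hA
  set B : ℝ := 8 ^ J * c1 with hB
  have hAn : 0 ≤ A := by positivity
  have hBn : 0 ≤ B := by positivity
  refine ⟨1 + A + B, by linarith, fun G => ?_⟩
  have hK := G.K_nonneg
  have hδ := G.δ_nonneg
  have e0 : uglue G P = fun y => vlev G P 0 y + ∑' i, glev G P (0 + i) y := by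
    funext y; unfold uglue; simp only [zero_add]
  have hv := vlev_contDiff G P
  have ht := tail_contDiff G P hC
  refine ⟨uglue G P, ?_, ?_, ?_⟩
  · rw [e0]; exact (hv 0).add (ht 0)
  · intro i hi w
    rw [e0]
    have hiJ : ((i : ℕ) : WithTop ℕ∞) ≤ (J : WithTop ℕ∞) := by exact_mod_cast hi
    have e1 : iteratedFDeriv ℝ i (fun y => vlev G P 0 y + ∑' i, glev G P (0 + i) y) w
        = iteratedFDeriv ℝ i (vlev G P 0) w
          + iteratedFDeriv ℝ i (fun y => ∑' i, glev G P (0 + i) y) w :=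
      iteratedFDeriv_add_apply ((hv 0).of_le hiJ).contDiffAt ((ht 0).of_le hiJ).contDiffAt
    rw [e1]
    have b1 := (vlev_zero_bd G P hC).norm_le one_pos hi (Set.mem_univ w)
    have b2 := tail_norm_le G P hC 0 i hi w
    rw [one_pow, div_one] at b1
    have hs : sc 0 ^ (2 * k - 1 - i) ≤ 1 := pow_le_one₀ (sc_pos 0).le (sc_le_one 0)
    have b3 : 8 ^ J * cS J C Nov ^ 2 * G.δ * sc 0 ^ (2 * k - 1 - i) ≤ A * G.δ := by
      calc _ ≤ 8 ^ J * cS J C Nov ^ 2 * G.δ * 1 :=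
            mul_le_mul_of_nonneg_left hs (by positivity)
        _ = A * G.δ := by rw [hA, hc1]; ring
    calc _ ≤ ‖iteratedFDeriv ℝ i (vlev G P 0) w‖
          + ‖iteratedFDeriv ℝ i (fun y => ∑' i, glev G P (0 + i) y) w‖ := norm_add_le _ _
      _ ≤ B * G.K + A * G.δ := by
          refine add_le_add (b1.trans (le_of_eq ?_)) (b2.trans b3)
          rw [hB, hc1]; ring
      _ ≤ (1 + A + B) * (G.K + G.δ) := by nlinarith
  · intro w x j hw hx i hi
    have hiJ : ((i : ℕ) : WithTop ℕ∞) ≤ (J : WithTop ℕ∞) := by exact_mod_cast hi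
    have hsj := sc_pos j
    have hTx : G.T x ≤ sc j / 2 := by
      have h1 := G.T_lip x w
      have h2 := (abs_le.1 h1).2
      linarith
    have hf : ContDiff ℝ J (G.f x j) := G.smooth x j (G.con_of x j hTx)
    have hev : (uglue G P - G.f x j) =ᶠ[𝓝 w]
        fun y => (vlev G P j y - G.f x j y) + ∑' i, glev G P (j + i) y := by
      filter_upwards [Metric.ball_mem_nhds w (show 0 < sc j / 4 by positivity)] with y hy
      rw [Metric.mem_ball, dist_eq_norm] at hy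
      rw [Pi.sub_apply, uglue_eq_near G P hC hw hy]
      abel
    rw [(Filter.EventuallyEq.iteratedFDeriv (𝕜 := ℝ) hev i).eq_of_nhds]
    have e1 : iteratedFDeriv ℝ i
        (fun y => (vlev G P j y - G.f x j y) + ∑' i, glev G P (j + i) y) w
        = iteratedFDeriv ℝ i (fun y => vlev G P j y - G.f x j y) w
          + iteratedFDeriv ℝ i (fun y => ∑' i, glev G P (j + i) y) w :=
      iteratedFDeriv_add_apply (((hv j).sub hf).of_le hiJ).contDiffAt ((ht j).of_le hiJ).contDiffAt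
    rw [e1]
    have b1 := (vlev_sub_bd G P hC hw hx).norm_le (hsc8 j) hi
      (Metric.mem_ball_self (show 0 < sc j / 4 by positivity))
    have b2 := tail_norm_le G P hC j i hi w
    have hexp : 2 * k - 1 = (2 * k - 1 - i) + i := by
      have := G.hJk
      omega
    have b3 : cS J C Nov * (G.δ * sc j ^ (2 * k - 1)) / (sc j / 8) ^ i
        ≤ B * G.δ * sc j ^ (2 * k - 1 - i) := by
      rw [div_pow, hexp, pow_add, Nat.add_sub_cancel]
      have h8 : (8 : ℝ) ^ i ≤ 8 ^ J := pow_le_pow_right₀ (by norm_num) hi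
      have hp : 0 < sc j ^ i := pow_pos hsj i
      have e : cS J C Nov * (G.δ * (sc j ^ (2 * k - 1 - i) * sc j ^ i)) / (sc j ^ i / 8 ^ i)
          = 8 ^ i * (c1 * G.δ * sc j ^ (2 * k - 1 - i)) := by
        rw [hc1]; field_simp
      rw [e, hB]
      have hn : 0 ≤ c1 * G.δ * sc j ^ (2 * k - 1 - i) := by positivity
      calc _ ≤ 8 ^ J * (c1 * G.δ * sc j ^ (2 * k - 1 - i)) := mul_le_mul_of_nonneg_right h8 hn
        _ = _ := by ring
    have hn : 0 ≤ G.δ * sc j ^ (2 * k - 1 - i) := by positivity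
    calc _ ≤ ‖iteratedFDeriv ℝ i (fun y => vlev G P j y - G.f x j y) w‖
          + ‖iteratedFDeriv ℝ i (fun y => ∑' i, glev G P (j + i) y) w‖ := norm_add_le _ _
      _ ≤ B * G.δ * sc j ^ (2 * k - 1 - i) + A * G.δ * sc j ^ (2 * k - 1 - i) := by
          refine add_le_add (b1.trans b3) (b2.trans (le_of_eq ?_))
          rw [hA, hc1]
      _ ≤ (1 + A + B) * G.δ * sc j ^ (2 * k - 1 - i) := by nlinarith

end Claimed.Agent.R322.Fit.Glue
end

/- ===== packed: Claimed.Agent.R322.Lin.SignAux ===== -/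
section
/-!
# CO Proposition 6.1, leaves S2 and S3: summation over cells (helper213)

`sgn_sign_core`, `sgn_abs_core` derive `Lin.s_sign`, `Lin.s_abs` from the conclusions of
`Tube.signed_excess_units` (exponent `κ = 1/(8m)`) and `Tube.scalar_abs_units` (`c = 2`), which are
passed as hypotheses; this file does not depend on the `Sx` chain.

* `SgnKit` : the four measures `ν`, `vol_S`, `D`, `Λ_t` are finite, `D`, `Λ_t` live on `B_R`.
* `sgn_cells`, `sgn_overlap`, `sgn_count` : the cells of `Tool.grid_pou` which meet `spt g`.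
* `sgn_om` : a modulus `om a → 0` from an `ε`-`δ` family of bounds.
* `sgn_cell_bound` : one cell; parametrisation `a = s^{8m}`, `l = s⁴`, budget `b = τ(5B)/l^m + a³`,
  `T = - log b`.
-/

set_option autoImplicit false

open scoped ENNReal ContDiff
open MeasureTheory

namespace Claimed.Agent.R322.Lin

open Claimed.Agent.R322.Tube Claimed.Agent.R322.Fn Claimed.Agent.R322.Tool

variable {m n : ℕ}

/-- all four measures of CO Section 6 are finite and live on the base ball -/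
structure SgnKit (N : NCyl m n) (t R : ℝ) : Prop where
  ok : CylOK N
  Ω_eq : N.Ω = Metric.ball 0 R
  fin_nu : IsFiniteMeasure N.nu
  fin_vol : IsFiniteMeasure N.volS
  fin_D : IsFiniteMeasure N.Dm
  fin_L : IsFiniteMeasure (N.LmU t)
  D_univ : N.Dm Set.univ = N.Dm (Metric.ball 0 R)
  L_univ : (N.LmU t) Set.univ = (N.LmU t) (Metric.ball 0 R)

theorem sgn_geo {t : ℝ} {J : ℕ} {ε₀ : ℝ} {u : E m → E n} (hJ : 4 ≤ J) (hε : ε₀ ≤ 1 / 2)
    (ht : 0 < t) (ht1 : t ≤ 1) (h : RefGraphU t J 1 ε₀ u) : Geo 1 u := by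
  refine ⟨h.smooth.of_le (by exact_mod_cast hJ), fun y => (h.slope y).trans hε, fun y => ?_,
    fun y => ?_, le_rfl⟩
  · refine (h.bound 2 le_rfl (by omega) y).trans ?_
    rw [one_mul]
    exact pow_le_one₀ ht.le ht1
  · refine (h.bound 3 (by norm_num) (by omega) y).trans ?_
    rw [one_mul]
    exact pow_le_one₀ ht.le ht1

theorem sgn_refgraph_mono {t : ℝ} {J J' : ℕ} {K ε₀ ε₀' : ℝ} {u : E m → E n} (hJ : J' ≤ J)
    (hε : ε₀ ≤ ε₀') (h : RefGraphU t J K ε₀ u) : RefGraphU t J' K ε₀' u :=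
  ⟨h.smooth.of_le (by exact_mod_cast hJ), fun y => (h.slope y).trans hε,
    fun j h2 hj y => h.bound j h2 (hj.trans hJ) y⟩

theorem sgn_kit (m n : ℕ) : ∃ h₀ : ℝ, 0 < h₀ ∧ ∀ (N : NCyl m n) (t R ε₀ c : ℝ) (J : ℕ), 0 < R →
    4 ≤ J → ε₀ ≤ 1 / 2 → 0 < t → t ≤ 1 → N.Ω = Metric.ball 0 R → N.h ≤ h₀ →
    RefGraphU t J 1 ε₀ N.u →
    (N.Mabs + N.Dm + N.LmU t) (Metric.ball 0 R) ≤ ENNReal.ofReal c → SgnKit N t R := by
  obtain ⟨h₀, hh₀, H⟩ := exists_cylOK m n
  obtain ⟨Cv, hCv, HCv⟩ := exists_vdens_bound m n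
  refine ⟨h₀, hh₀, fun N t R ε₀ c J hR hJ hε ht ht1 hΩ hh hG hτ => ?_⟩
  have hGeo := sgn_geo hJ hε ht ht1 hG
  have ok : CylOK N := H 1 N hGeo hh
  have hv : ∀ y, vdens (fderiv ℝ N.u y) ≤ Cv := fun y =>
    HCv _ ((hGeo.slope y).trans (by norm_num))
  simp only [Measure.add_apply] at hτ
  have hM : N.Mabs (Metric.ball 0 R) < ⊤ :=
    ((le_self_add.trans le_self_add).trans hτ).trans_lt ENNReal.ofReal_lt_top
  have hD : N.Dm (Metric.ball 0 R) < ⊤ :=
    ((le_add_self.trans le_self_add).trans hτ).trans_lt ENNReal.ofReal_lt_top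
  have hL : (N.LmU t) (Metric.ball 0 R) < ⊤ :=
    (le_add_self.trans hτ).trans_lt ENNReal.ofReal_lt_top
  have hDu : N.Dm Set.univ = N.Dm (Metric.ball 0 R) := by
    rw [← hΩ]; unfold NCyl.Dm; rw [ok.push_univ, ok.push_Ω]
  have hLu : (N.LmU t) Set.univ = (N.LmU t) (Metric.ball 0 R) := by
    rw [← hΩ]; unfold NCyl.LmU; rw [ok.push_univ, ok.push_Ω]
  refine ⟨ok, hΩ, ⟨?_⟩, ⟨?_⟩, ⟨hDu ▸ hD⟩, ⟨hLu ▸ hL⟩, hDu, hLu⟩
  · rw [ok.nu_apply MeasurableSet.univ]
    refine (ok.mass_le hR hΩ hv).trans_lt ?_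
    exact ENNReal.add_lt_top.2 ⟨ENNReal.mul_lt_top (ENNReal.natCast_lt_top _)
      (ENNReal.mul_lt_top ENNReal.ofReal_lt_top ENNReal.ofReal_lt_top), hM⟩
  · refine (volS_le N hv _).trans_lt ?_
    rw [hΩ, hausdorff_ball m 0 hR]
    exact ENNReal.mul_lt_top ENNReal.ofReal_lt_top ENNReal.ofReal_lt_top

/-- a function which is Lipschitz in the elementary sense is continuous -/
theorem sgn_continuous {g : E m → ℝ} {A : ℝ} (hL : ∀ y y', |g y - g y'| ≤ A * ‖y - y'‖) :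
    Continuous g := by
  have : LipschitzWith A.toNNReal g := LipschitzWith.of_dist_le_mul fun y y' => by
    rw [Real.dist_eq, dist_eq_norm]
    refine (hL y y').trans (mul_le_mul_of_nonneg_right ?_ (norm_nonneg _))
    exact Real.le_coe_toNNReal A
  exact this.continuous

theorem sgn_integrable {μ : Measure (E m)} [IsFiniteMeasure μ] {f : E m → ℝ} (hf : Continuous f)
    {B : ℝ} (hB : ∀ y, |f y| ≤ B) : Integrable f μ :=
  Integrable.of_bound hf.aestronglyMeasurable B (Filter.Eventually.of_forall hB)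

/-- the cells of a grid partition of unity which meet the support of `g` -/
theorem sgn_cells (m : ℕ) : ∃ Cp : ℝ, 0 < Cp ∧ ∀ l : ℝ, 0 < l →
    ∃ χ : (Fin m → ℤ) → E m → ℝ, (∀ k, Continuous (χ k)) ∧ (∀ k y, 0 ≤ χ k y ∧ χ k y ≤ 1) ∧
      (∀ k y, χ k y ≠ 0 → y ∈ Metric.ball (gpt m l k) l) ∧
      (∀ k y y', |χ k y - χ k y'| ≤ Cp / l * ‖y - y'‖) ∧
      ∀ (R₁ : ℝ) (g : E m → ℝ), tsupport g ⊆ Metric.closedBall 0 R₁ →
        ∃ F : Finset (Fin m → ℤ), (∀ y, g y = ∑ k ∈ F, χ k y * g y) ∧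
          ∀ k ∈ F, ‖gpt m l k‖ < R₁ + l := by
  obtain ⟨Cp, Nov, hCp, H⟩ := grid_pou m 1 1 le_rfl
  refine ⟨Cp, hCp, fun l hl => ?_⟩
  obtain ⟨χ, hs, h01, hsupp, hfin, hsum, hder, -, hcell⟩ := H l hl
  have hmem : ∀ k y, χ k y ≠ 0 → y ∈ Metric.ball (gpt m l k) l := fun k y hy =>
    hsupp k (subset_tsupport _ hy)
  refine ⟨χ, fun k => (hs k).continuous, h01, hmem, fun k y y' => ?_, fun R₁ g hg => ?_⟩
  · have hd : ∀ x, ‖fderiv ℝ (χ k) x‖ ≤ Cp / l := fun x => by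
      rw [le_div_iff₀ hl, mul_comm, ← norm_iteratedFDeriv_one]
      simpa using hder k 1 le_rfl x
    have := Convex.norm_image_sub_le_of_norm_fderiv_le (𝕜 := ℝ) (f := χ k) (s := Set.univ)
      (fun x _ => ((hs k).differentiable (by simp)).differentiableAt) (fun x _ => hd x)
      convex_univ (Set.mem_univ y') (Set.mem_univ y)
    rwa [Real.norm_eq_abs] at this
  · classical
    have hS := hcell 0 (max R₁ 0 + 1) (by positivity)
    refine ⟨hS.toFinset.filter (fun k => ∃ y, χ k y * g y ≠ 0), fun y => ?_, fun k hk => ?_⟩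
    · have h1 : g y = ∑ᶠ k, χ k y * g y := by
        rw [← finsum_mul, hsum y, one_mul]
      refine h1.trans (finsum_eq_sum_of_support_subset _ fun k hk => ?_)
      rw [Function.mem_support] at hk
      rw [Finset.coe_filter, Set.mem_ofPred_eq, Set.Finite.mem_toFinset]
      refine ⟨⟨y, ?_, ?_⟩, y, hk⟩
      · rw [one_mul]; exact hmem k y (left_ne_zero_of_mul hk)
      · have := hg (subset_tsupport _ (right_ne_zero_of_mul hk))
        rw [Metric.mem_closedBall, dist_zero_right] at this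
        rw [Metric.mem_ball, dist_zero_right]
        have := le_max_left R₁ 0
        linarith
    · obtain ⟨y, hy⟩ := (Finset.mem_filter.1 hk).2
      have h1 := hmem k y (left_ne_zero_of_mul hy)
      have h2 := hg (subset_tsupport _ (right_ne_zero_of_mul hy))
      rw [Metric.mem_closedBall, dist_zero_right] at h2
      rw [Metric.mem_ball, dist_eq_norm] at h1
      have h3 : ‖gpt m l k‖ ≤ ‖y‖ + ‖y - gpt m l k‖ := by
        have := norm_sub_le y (y - gpt m l k)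
        simpa using this
      linarith

/-- bounded overlap of the enlarged cells inside a ball -/
theorem sgn_overlap (m : ℕ) (Λ : ℝ) (hΛ : 1 ≤ Λ) : ∃ Nov : ℕ, ∀ (l : ℝ), 0 < l →
    ∀ (ρ : Measure (E m)) (R : ℝ) (F : Finset (Fin m → ℤ)),
      (∀ k ∈ F, Metric.ball (gpt m l k) (Λ * l) ⊆ Metric.ball 0 R) →
      ∑ k ∈ F, ρ (Metric.ball (gpt m l k) (Λ * l)) ≤ (Nov : ℝ≥0∞) * ρ (Metric.ball 0 R) := by
  obtain ⟨Nov, H⟩ := grid_overlap_sum m Λ hΛ
  refine ⟨Nov, fun l hl ρ R F hF => ?_⟩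
  refine le_trans ?_ (H l hl ρ (Metric.ball 0 R) Metric.isOpen_ball.measurableSet)
  refine le_trans (le_of_eq ?_) (ENNReal.sum_le_tsum F)
  exact Finset.sum_congr rfl fun k hk => by rw [Set.inter_eq_left.2 (hF k hk)]

/-- choice of a modulus from an `ε`-`δ` family of bounds -/
theorem sgn_om (P : ℝ → ℝ → Prop) (hmono : ∀ a c c', c ≤ c' → P a c → P a c') (c₀ : ℝ)
    (h0 : ∀ a, 0 < a → a ≤ 1 → P a c₀)
    (hs : ∀ ε, 0 < ε → ∃ δ, 0 < δ ∧ ∀ a, 0 < a → a < δ → a ≤ 1 → P a ε) :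
    ∃ om : ℝ → ℝ, Filter.Tendsto om (nhdsWithin 0 (Set.Ioi 0)) (nhds 0) ∧
      ∀ a, 0 < a → a ≤ 1 → P a (om a) := by
  refine ⟨fun a => sInf {c | 0 ≤ c ∧ P a c} + a, ?_, fun a ha ha1 => ?_⟩
  · rw [Metric.tendsto_nhdsWithin_nhds]
    intro ε hε
    obtain ⟨δ, hδ, H⟩ := hs (ε / 2) (by positivity)
    refine ⟨min δ (min (ε / 2) 1), by positivity, fun a ha hd => ?_⟩
    rw [Real.dist_eq, sub_zero, abs_of_pos ha] at hd
    have ha' : (0 : ℝ) < a := ha
    have h1 : a < δ := hd.trans_le (min_le_left _ _)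
    have h2 : a < ε / 2 := hd.trans_le ((min_le_right _ _).trans (min_le_left _ _))
    have h3 : a ≤ 1 := (hd.trans_le ((min_le_right _ _).trans (min_le_right _ _))).le
    have h4 : sInf {c | 0 ≤ c ∧ P a c} ≤ ε / 2 :=
      csInf_le ⟨0, fun c hc => hc.1⟩ ⟨by positivity, H a ha' h1 h3⟩
    have h5 : 0 ≤ sInf {c | 0 ≤ c ∧ P a c} := Real.sInf_nonneg fun c hc => hc.1
    rw [Real.dist_eq, sub_zero, abs_of_nonneg (by linarith)]
    linarith
  · have hne : {c | 0 ≤ c ∧ P a c}.Nonempty :=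
      ⟨max c₀ 0, le_max_right _ _, hmono a _ _ (le_max_left _ _) (h0 a ha ha1)⟩
    obtain ⟨c, hc, hlt⟩ := Real.lt_sInf_add_pos hne ha
    exact hmono a _ _ hlt.le hc.2

namespace SgnKit

variable {N : NCyl m n} {t R : ℝ}

theorem intM_sum (K : SgnKit N t R) {ι : Type*} (F : Finset ι) (w : ι → E m → ℝ)
    (hc : ∀ k ∈ F, Continuous (w k)) (B : ℝ) (hB : ∀ k ∈ F, ∀ y, |w k y| ≤ B) :
    N.intM (fun y => ∑ k ∈ F, w k y) = ∑ k ∈ F, N.intM (w k) := by
  have := K.fin_nu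
  have := K.fin_vol
  unfold NCyl.intM
  rw [integral_finsetSum F fun k hk => sgn_integrable (hc k hk) (hB k hk),
    integral_finsetSum F fun k hk => sgn_integrable (hc k hk) (hB k hk), Finset.mul_sum,
    ← Finset.sum_sub_distrib]

theorem intM_const_mul (N : NCyl m n) (c : ℝ) (w : E m → ℝ) :
    N.intM (fun y => c * w y) = c * N.intM w := by
  unfold NCyl.intM
  rw [integral_const_mul, integral_const_mul]
  ring

/-- the crude bound of `∫ g dM` -/
theorem abs_intM_le (K : SgnKit N t R) {g : E m → ℝ} (hg : Continuous g) {B : ℝ}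
    (hB : ∀ y, |g y| ≤ B) {S : Set (E m)} (hS : MeasurableSet S) (hSR : S ⊆ Metric.ball 0 R)
    (hsupp : ∀ y ∉ S, g y = 0) : |N.intM g| ≤ B * (N.Mabs S).toReal := by
  have := K.fin_nu
  have := K.fin_vol
  exact (intM_le N g S B hg.measurable hS (K.Ω_eq ▸ hSR) hsupp hB (measure_lt_top _ _)
    (measure_lt_top _ _)).1

end SgnKit

/-- one cell of radius `l = s⁴`, `a = s^{8m}`, budget `b = τ(5B)/l^m + a³`, `T = - log b`. -/
theorem sgn_cell_bound (hm : 1 ≤ m) {N : NCyl m n} {t R R₁ CQ T₀ Tm C' s ε' : ℝ} {ρ : ℝ → ℝ}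
    (hΩ : N.Ω = Metric.ball 0 R) (ht1 : t ≤ 1)
    (Hcell : ∀ (x : E m) (l T : ℝ), 0 < l → T₀ ≤ T → Metric.closedBall x (5 * l) ⊆ N.Ω →
        (N.Mabs + N.Dm + N.LmU t) (Metric.ball x (5 * l)) ≤ ENNReal.ofReal (Real.exp (-T) * l ^ m) →
        t * (l + N.supz (Metric.ball x (5 * l))) ≤ Real.exp (-((((8 * m : ℕ) : ℝ))⁻¹ * T)) →
        ∀ w : E m → ℝ, (∀ y, 0 ≤ w y ∧ w y ≤ 1) → (∀ y y', |w y - w y'| ≤ l⁻¹ * ‖y - y'‖) →
          Function.support w ⊆ Metric.ball x l →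
          2 * N.intM w - ∫ y, w y ∂N.Dm - CQ * ∫ y, w y ∂(N.LmU t)
            ≤ ρ T * Real.exp (-T) * l ^ m)
    (hs : 0 < s) (hs1 : s ≤ 1) (hC' : 0 ≤ C') (hTm : 0 ≤ Tm) (hT₀ : T₀ ≤ Tm)
    (hρ : ∀ T, Tm ≤ T → ρ T ≤ ε') (hsm : (C' + 1) * s ≤ Real.exp (-Tm)) (hsR : R₁ + 6 * s < R)
    (hτ : (N.Mabs + N.Dm + N.LmU t) (Metric.ball 0 R) ≤ ENNReal.ofReal (C' * (s ^ (8 * m)) ^ 2))
    (hz : ∀ X ∈ N.W.support, X ∈ Cyl N.u N.Ω N.h → ‖zz N.u X‖ ≤ C' * s ^ (8 * m))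
    (x : E m) (hx : ‖x‖ < R₁ + s ^ 4) (w : E m → ℝ) (hw01 : ∀ y, 0 ≤ w y ∧ w y ≤ 1)
    (hwL : ∀ y y', |w y - w y'| ≤ (s ^ 4)⁻¹ * ‖y - y'‖)
    (hws : Function.support w ⊆ Metric.ball x (s ^ 4)) :
    2 * N.intM w - ∫ y, w y ∂N.Dm - CQ * ∫ y, w y ∂(N.LmU t)
      ≤ ε' * (((N.Mabs + N.Dm + N.LmU t) (Metric.ball x (5 * s ^ 4))).toReal
          + (s ^ (8 * m)) ^ 3 * (s ^ 4) ^ m) := by
  set l : ℝ := s ^ 4 with hl_def
  set a : ℝ := s ^ (8 * m) with ha_def
  have hl : 0 < l := by positivity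
  have ha : 0 < a := by positivity
  have hls : l ≤ s := pow_le_of_le_one hs.le hs1 (by norm_num)
  have hlm : 0 < l ^ m := by positivity
  have hsub : Metric.closedBall x (5 * l) ⊆ Metric.ball 0 R := by
    intro y hy
    rw [Metric.mem_closedBall, dist_eq_norm] at hy
    rw [Metric.mem_ball, dist_zero_right]
    have : ‖y‖ ≤ ‖x‖ + ‖y - x‖ := by
      have := norm_add_le x (y - x)
      simpa using this
    linarith
  set τx := (N.Mabs + N.Dm + N.LmU t) (Metric.ball x (5 * l)) with hτx_def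
  have hτx : τx ≤ ENNReal.ofReal (C' * a ^ 2) :=
    (measure_mono (Metric.ball_subset_closedBall.trans hsub)).trans hτ
  have hτtop : τx ≠ ⊤ := (hτx.trans_lt ENNReal.ofReal_lt_top).ne
  have hr : τx.toReal ≤ C' * a ^ 2 := ENNReal.toReal_le_of_le_ofReal (by positivity) hτx
  have hr0 : 0 ≤ τx.toReal := ENNReal.toReal_nonneg
  set b : ℝ := τx.toReal / l ^ m + a ^ 3 with hb_def
  have hb : 0 < b := by positivity
  have hbl : b * l ^ m = τx.toReal + a ^ 3 * l ^ m := by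
    rw [hb_def, add_mul, div_mul_cancel₀ _ hlm.ne']
  have hexp : Real.exp (-(-Real.log b)) = b := by rw [neg_neg, Real.exp_log hb]
  -- powers of `s`
  have ha2 : a ^ 2 = l ^ m * s ^ (12 * m) := by
    rw [ha_def, hl_def, ← pow_mul, ← pow_mul, ← pow_add]
    congr 1
    ring
  have hp12 : s ^ (12 * m) ≤ s := pow_le_of_le_one hs.le hs1 (by omega)
  have ha3 : a ^ 3 ≤ s := by
    rw [ha_def, ← pow_mul]
    exact pow_le_of_le_one hs.le hs1 (by omega)
  have hal : a ≤ l := by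
    rw [ha_def, hl_def]
    exact pow_le_pow_of_le_one hs.le hs1 (by omega)
  have hbs : b ≤ (C' + 1) * s := by
    have h1 : τx.toReal / l ^ m ≤ C' * s := by
      rw [div_le_iff₀ hlm]
      calc τx.toReal ≤ C' * a ^ 2 := hr
        _ = C' * s ^ (12 * m) * l ^ m := by rw [ha2]; ring
        _ ≤ C' * s * l ^ m := by gcongr
    rw [hb_def]
    linarith
  have h1 : τx ≤ ENNReal.ofReal (Real.exp (-(-Real.log b)) * l ^ m) := by
    rw [hexp, hbl, ← ENNReal.ofReal_toReal hτtop]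
    refine ENNReal.ofReal_le_ofReal ?_
    rw [ENNReal.toReal_ofReal hr0]
    have : 0 ≤ a ^ 3 * l ^ m := by positivity
    linarith
  have h2 : Tm ≤ -Real.log b := by
    have : Real.log b ≤ -Tm := (Real.log_le_iff_le_exp hb).2 (hbs.trans hsm)
    linarith
  have hs_le : (C' + 1) * s ≤ 1 := hsm.trans (Real.exp_le_one_iff.2 (by linarith))
  have h3 : t * (l + N.supz (Metric.ball x (5 * l)))
      ≤ Real.exp (-((((8 * m : ℕ) : ℝ))⁻¹ * -Real.log b)) := by
    have hz0 : 0 ≤ N.supz (Metric.ball x (5 * l)) := by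
      unfold NCyl.supz
      refine Real.sSup_nonneg ?_
      rintro _ ⟨X, -, -, -, rfl⟩
      exact norm_nonneg _
    have hz1 : N.supz (Metric.ball x (5 * l)) ≤ C' * a := by
      unfold NCyl.supz
      refine Real.sSup_le ?_ (by positivity)
      rintro _ ⟨X, hX, hXc, -, rfl⟩
      exact hz X hX hXc
    have e1 : t * (l + N.supz (Metric.ball x (5 * l))) ≤ s ^ 3 := by
      calc t * (l + N.supz (Metric.ball x (5 * l))) ≤ 1 * (l + N.supz (Metric.ball x (5 * l))) := by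
            gcongr
        _ ≤ l + C' * l := by
            rw [one_mul]
            have : C' * a ≤ C' * l := by gcongr
            linarith
        _ = ((C' + 1) * s) * s ^ 3 := by rw [hl_def]; ring
        _ ≤ 1 * s ^ 3 := by gcongr
        _ = s ^ 3 := one_mul _
    refine e1.trans ?_
    have hm0 : (0 : ℝ) < ((8 * m : ℕ) : ℝ) := by
      have : 0 < 8 * m := by omega
      exact_mod_cast this
    have e2 : Real.log (a ^ 3) ≤ Real.log b := Real.log_le_log (by positivity) (by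
      rw [hb_def]
      have : 0 ≤ τx.toReal / l ^ m := by positivity
      linarith)
    have e3 : Real.log (a ^ 3) = ((8 * m : ℕ) : ℝ) * (3 * Real.log s) := by
      rw [ha_def, Real.log_pow, Real.log_pow]
      push_cast
      ring
    have e4 : 3 * Real.log s ≤ (((8 * m : ℕ) : ℝ))⁻¹ * Real.log b := by
      rw [e3] at e2
      rw [inv_mul_eq_div, le_div_iff₀ hm0]
      linarith
    have e5 : s ^ 3 = Real.exp (3 * Real.log s) := by
      rw [← Real.exp_log (show (0 : ℝ) < s ^ 3 by positivity), Real.log_pow]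
      push_cast
      ring_nf
    rw [e5]
    refine Real.exp_le_exp.2 ?_
    linarith
  have h4 := Hcell x l (-Real.log b) hl (hT₀.trans h2) (hΩ ▸ hsub) h1 h3 w hw01 hwL hws
  refine h4.trans ?_
  rw [hexp, mul_assoc, hbl]
  exact mul_le_mul_of_nonneg_right (hρ _ h2) (by positivity)

/-- number of cells -/
theorem sgn_count {Nov : ℕ} {l R : ℝ} (hl : 0 < l) (hR : 0 < R) (F : Finset (Fin m → ℤ))
    (h : ∑ k ∈ F, (μH[(m : ℝ)] : Measure (E m)) (Metric.ball (gpt m l k) (5 * l))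
      ≤ (Nov : ℝ≥0∞) * (μH[(m : ℝ)] : Measure (E m)) (Metric.ball 0 R)) :
    (F.card : ℝ) * l ^ m ≤ Nov * R ^ m := by
  have hk := kap_pos m
  simp only [hausdorff_ball m _ (show 0 < 5 * l by positivity), hausdorff_ball m _ hR,
    Finset.sum_const, nsmul_eq_mul] at h
  rw [← ENNReal.ofReal_natCast, ← ENNReal.ofReal_natCast, ← ENNReal.ofReal_mul (Nat.cast_nonneg _),
    ← ENNReal.ofReal_mul (Nat.cast_nonneg _), ENNReal.ofReal_le_ofReal_iff (by positivity)] at h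
  have h5 : l ^ m ≤ (5 * l) ^ m := pow_le_pow_left₀ hl.le (by linarith) m
  have h1 : kap m * ((F.card : ℝ) * l ^ m) ≤ kap m * (Nov * R ^ m) := by
    calc kap m * ((F.card : ℝ) * l ^ m) ≤ kap m * ((F.card : ℝ) * (5 * l) ^ m) := by gcongr
      _ = (F.card : ℝ) * (kap m * (5 * l) ^ m) := by ring
      _ ≤ Nov * (kap m * R ^ m) := h
      _ = _ := by ring
  exact le_of_mul_le_mul_left h1 hk

/-- the product of a cell function and of `g`, normalised -/
theorem sgn_weight {χ g : E m → ℝ} {Cp A l : ℝ} (hCp : 0 < Cp) (hA : 0 < A) (hl : 0 < l)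
    (hl1 : l ≤ 1) (hχ01 : ∀ y, 0 ≤ χ y ∧ χ y ≤ 1)
    (hχL : ∀ y y', |χ y - χ y'| ≤ Cp / l * ‖y - y'‖) (hg01 : ∀ y, 0 ≤ g y ∧ g y ≤ A)
    (hgL : ∀ y y', |g y - g y'| ≤ A * ‖y - y'‖) :
    (∀ y, 0 ≤ ((Cp + 2) * A)⁻¹ * (χ y * g y) ∧ ((Cp + 2) * A)⁻¹ * (χ y * g y) ≤ 1) ∧
    ∀ y y', |((Cp + 2) * A)⁻¹ * (χ y * g y) - ((Cp + 2) * A)⁻¹ * (χ y' * g y')|
      ≤ l⁻¹ * ‖y - y'‖ := by
  have hA' : 0 < (Cp + 2) * A := by positivity
  refine ⟨fun y => ⟨?_, ?_⟩, fun y y' => ?_⟩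
  · have := (hχ01 y).1
    have := (hg01 y).1
    positivity
  · rw [inv_mul_le_iff₀ hA', mul_one]
    calc χ y * g y ≤ 1 * A := mul_le_mul (hχ01 y).2 (hg01 y).2 (hg01 y).1 zero_le_one
      _ ≤ (Cp + 2) * A := by gcongr; linarith
  · rw [← mul_sub, abs_mul, abs_of_pos (inv_pos.2 hA'), inv_mul_le_iff₀ hA']
    have e : χ y * g y - χ y' * g y' = (χ y - χ y') * g y + χ y' * (g y - g y') := by ring
    have hn := norm_nonneg (y - y')
    calc |χ y * g y - χ y' * g y'| ≤ |χ y - χ y'| * |g y| + |χ y'| * |g y - g y'| := by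
          rw [e, ← abs_mul, ← abs_mul]; exact abs_add_le _ _
      _ ≤ (Cp / l * ‖y - y'‖) * A + 1 * (A * ‖y - y'‖) := by
          have h1 : |g y| ≤ A := by rw [abs_of_nonneg (hg01 y).1]; exact (hg01 y).2
          have h2 : |χ y'| ≤ 1 := by rw [abs_of_nonneg (hχ01 y').1]; exact (hχ01 y').2
          exact add_le_add (mul_le_mul (hχL y y') h1 (abs_nonneg _) (by positivity))
            (mul_le_mul h2 (hgL y y') (abs_nonneg _) zero_le_one)
      _ = (Cp + l) * A * (l⁻¹ * ‖y - y'‖) := by field_simp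
      _ ≤ (Cp + 2) * A * (l⁻¹ * ‖y - y'‖) := by gcongr; linarith

theorem SgnKit.phi_sum {N : NCyl m n} {t R : ℝ} (K : SgnKit N t R) (CQ c : ℝ) {ι : Type*}
    (F : Finset ι) (w : ι → E m → ℝ) (hc : ∀ k ∈ F, Continuous (w k)) (B : ℝ)
    (hB : ∀ k ∈ F, ∀ y, |w k y| ≤ B) :
    2 * N.intM (fun y => ∑ k ∈ F, c * w k y) - ∫ y, (∑ k ∈ F, c * w k y) ∂N.Dm
        - CQ * ∫ y, (∑ k ∈ F, c * w k y) ∂(N.LmU t)
      = c * ∑ k ∈ F, (2 * N.intM (w k) - ∫ y, w k y ∂N.Dm - CQ * ∫ y, w k y ∂(N.LmU t)) := by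
  have := K.fin_D
  have := K.fin_L
  have hc' : ∀ k ∈ F, Continuous (fun y => c * w k y) := fun k hk =>
    continuous_const.mul (hc k hk)
  have hB' : ∀ k ∈ F, ∀ y, |c * w k y| ≤ |c| * B := fun k hk y => by
    rw [abs_mul]
    exact mul_le_mul_of_nonneg_left (hB k hk y) (abs_nonneg _)
  rw [K.intM_sum F (fun k y => c * w k y) hc' (|c| * B) hB',
    integral_finsetSum F (fun k hk => sgn_integrable (hc' k hk) (hB' k hk)),
    integral_finsetSum F (fun k hk => sgn_integrable (hc' k hk) (hB' k hk))]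
  simp only [SgnKit.intM_const_mul, integral_const_mul]
  rw [Finset.mul_sum, Finset.mul_sum, Finset.mul_sum, ← Finset.sum_sub_distrib,
    ← Finset.sum_sub_distrib]
  exact Finset.sum_congr rfl fun k _ => by ring

/-- sum over the cells of radius `l = s⁴`, `a = s^{8m}` -/
theorem sgn_sign_small (hm : 1 ≤ m) {N : NCyl m n} {t R R₁ CQ T₀ Tm C' s ε' Cp A : ℝ} {ρ : ℝ → ℝ}
    {Nov : ℕ} (K : SgnKit N t R) (hR : 0 < R) (ht1 : t ≤ 1)
    (Hcell : ∀ (x : E m) (l T : ℝ), 0 < l → T₀ ≤ T → Metric.closedBall x (5 * l) ⊆ N.Ω →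
        (N.Mabs + N.Dm + N.LmU t) (Metric.ball x (5 * l)) ≤ ENNReal.ofReal (Real.exp (-T) * l ^ m) →
        t * (l + N.supz (Metric.ball x (5 * l))) ≤ Real.exp (-((((8 * m : ℕ) : ℝ))⁻¹ * T)) →
        ∀ w : E m → ℝ, (∀ y, 0 ≤ w y ∧ w y ≤ 1) → (∀ y y', |w y - w y'| ≤ l⁻¹ * ‖y - y'‖) →
          Function.support w ⊆ Metric.ball x l →
          2 * N.intM w - ∫ y, w y ∂N.Dm - CQ * ∫ y, w y ∂(N.LmU t)
            ≤ ρ T * Real.exp (-T) * l ^ m)
    (hs : 0 < s) (hs1 : s ≤ 1) (hC' : 0 ≤ C') (hTm : 0 ≤ Tm) (hT₀ : T₀ ≤ Tm)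
    (hρ : ∀ T, Tm ≤ T → ρ T ≤ ε') (hε' : 0 ≤ ε') (hsm : (C' + 1) * s ≤ Real.exp (-Tm))
    (hsR : R₁ + 6 * s < R)
    (hτ : (N.Mabs + N.Dm + N.LmU t) (Metric.ball 0 R) ≤ ENNReal.ofReal (C' * (s ^ (8 * m)) ^ 2))
    (hz : ∀ X ∈ N.W.support, X ∈ Cyl N.u N.Ω N.h → ‖zz N.u X‖ ≤ C' * s ^ (8 * m))
    (hCp : 0 < Cp) (χ : (Fin m → ℤ) → E m → ℝ) (hχc : ∀ k, Continuous (χ k))
    (hχ01 : ∀ k y, 0 ≤ χ k y ∧ χ k y ≤ 1)
    (hχs : ∀ k y, χ k y ≠ 0 → y ∈ Metric.ball (gpt m (s ^ 4) k) (s ^ 4))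
    (hχL : ∀ k y y', |χ k y - χ k y'| ≤ Cp / s ^ 4 * ‖y - y'‖)
    (hNov : ∀ (ρ : Measure (E m)) (R : ℝ) (F : Finset (Fin m → ℤ)),
      (∀ k ∈ F, Metric.ball (gpt m (s ^ 4) k) (5 * s ^ 4) ⊆ Metric.ball 0 R) →
      ∑ k ∈ F, ρ (Metric.ball (gpt m (s ^ 4) k) (5 * s ^ 4)) ≤ (Nov : ℝ≥0∞) * ρ (Metric.ball 0 R))
    (g : E m → ℝ) (F : Finset (Fin m → ℤ)) (hdec : ∀ y, g y = ∑ k ∈ F, χ k y * g y)
    (hF : ∀ k ∈ F, ‖gpt m (s ^ 4) k‖ < R₁ + s ^ 4) (hA : 0 < A) (hg01 : ∀ y, 0 ≤ g y ∧ g y ≤ A)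
    (hgL : ∀ y y', |g y - g y'| ≤ A * ‖y - y'‖) :
    2 * N.intM g - ∫ y, g y ∂N.Dm - CQ * ∫ y, g y ∂(N.LmU t)
      ≤ ((Cp + 2) * ε' * (Nov * (C' + R ^ m))) * (s ^ (8 * m)) ^ 2 * A := by
  have hl : 0 < s ^ 4 := by positivity
  have hl1 : s ^ 4 ≤ 1 := pow_le_one₀ hs.le hs1
  have hls : s ^ 4 ≤ s := pow_le_of_le_one hs.le hs1 (by norm_num)
  have ha : 0 < s ^ (8 * m) := by positivity
  have ha1 : s ^ (8 * m) ≤ 1 := pow_le_one₀ hs.le hs1
  have hA' : 0 < (Cp + 2) * A := by positivity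
  have hgc : Continuous g := sgn_continuous hgL
  set w : (Fin m → ℤ) → E m → ℝ := fun k y => ((Cp + 2) * A)⁻¹ * (χ k y * g y) with hw
  have hW := fun k => sgn_weight hCp hA hl hl1 (hχ01 k) (hχL k) hg01 hgL
  have hg_eq : g = fun y => ∑ k ∈ F, ((Cp + 2) * A) * w k y := by
    funext y
    refine (hdec y).trans (Finset.sum_congr rfl fun k _ => ?_)
    simp only [hw]
    rw [mul_inv_cancel_left₀ hA'.ne']
  have hsum := K.phi_sum CQ ((Cp + 2) * A) F w
    (fun k _ => continuous_const.mul ((hχc k).mul hgc)) 1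
    (fun k _ y => by rw [abs_of_nonneg ((hW k).1 y).1]; exact ((hW k).1 y).2)
  have hball : ∀ k ∈ F, Metric.ball (gpt m (s ^ 4) k) (5 * s ^ 4) ⊆ Metric.ball 0 R := by
    intro k hk y hy
    rw [Metric.mem_ball, dist_eq_norm] at hy
    rw [Metric.mem_ball, dist_zero_right]
    have : ‖y‖ ≤ ‖gpt m (s ^ 4) k‖ + ‖y - gpt m (s ^ 4) k‖ := by
      have := norm_add_le (gpt m (s ^ 4) k) (y - gpt m (s ^ 4) k)
      simpa using this
    have := hF k hk
    linarith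
  have hcell : ∀ k ∈ F, 2 * N.intM (w k) - ∫ y, w k y ∂N.Dm - CQ * ∫ y, w k y ∂(N.LmU t)
      ≤ ε' * (((N.Mabs + N.Dm + N.LmU t) (Metric.ball (gpt m (s ^ 4) k) (5 * s ^ 4))).toReal
          + (s ^ (8 * m)) ^ 3 * (s ^ 4) ^ m) := fun k hk =>
    sgn_cell_bound hm K.Ω_eq ht1 Hcell hs hs1 hC' hTm hT₀ hρ hsm hsR hτ hz _ (hF k hk) (w k)
      (hW k).1 (hW k).2 (fun y hy => hχs k y (fun h0 => hy (by simp [hw, h0])))
  have hτfin : ∀ k ∈ F, (N.Mabs + N.Dm + N.LmU t) (Metric.ball (gpt m (s ^ 4) k) (5 * s ^ 4)) ≠ ⊤ :=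
    fun k hk => (((measure_mono (hball k hk)).trans hτ).trans_lt ENNReal.ofReal_lt_top).ne
  have hS1 : ∑ k ∈ F, ((N.Mabs + N.Dm + N.LmU t) (Metric.ball (gpt m (s ^ 4) k) (5 * s ^ 4))).toReal
      ≤ Nov * (C' * (s ^ (8 * m)) ^ 2) := by
    rw [← ENNReal.toReal_sum hτfin]
    refine ENNReal.toReal_le_of_le_ofReal (by positivity) ?_
    refine (hNov _ R F hball).trans ?_
    rw [ENNReal.ofReal_mul (Nat.cast_nonneg _), ENNReal.ofReal_natCast]
    gcongr
  have hS2 : (F.card : ℝ) * (s ^ 4) ^ m ≤ Nov * R ^ m := sgn_count hl hR F (hNov _ R F hball)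
  have ha3 : (s ^ (8 * m)) ^ 3 ≤ (s ^ (8 * m)) ^ 2 := pow_le_pow_of_le_one ha.le ha1 (by norm_num)
  have hRm : 0 ≤ (Nov : ℝ) * R ^ m := by positivity
  calc 2 * N.intM g - ∫ y, g y ∂N.Dm - CQ * ∫ y, g y ∂(N.LmU t)
      = (Cp + 2) * A * ∑ k ∈ F,
          (2 * N.intM (w k) - ∫ y, w k y ∂N.Dm - CQ * ∫ y, w k y ∂(N.LmU t)) := by
        rw [← hsum, ← hg_eq]
    _ ≤ (Cp + 2) * A * ∑ k ∈ F,
          ε' * (((N.Mabs + N.Dm + N.LmU t) (Metric.ball (gpt m (s ^ 4) k) (5 * s ^ 4))).toReal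
          + (s ^ (8 * m)) ^ 3 * (s ^ 4) ^ m) :=
        mul_le_mul_of_nonneg_left (Finset.sum_le_sum hcell) hA'.le
    _ = (Cp + 2) * A * (ε' * (∑ k ∈ F,
          ((N.Mabs + N.Dm + N.LmU t) (Metric.ball (gpt m (s ^ 4) k) (5 * s ^ 4))).toReal
          + (s ^ (8 * m)) ^ 3 * ((F.card : ℝ) * (s ^ 4) ^ m))) := by
        rw [← Finset.mul_sum, Finset.sum_add_distrib, Finset.sum_const, nsmul_eq_mul]
        ring
    _ ≤ (Cp + 2) * A * (ε' * (Nov * (C' * (s ^ (8 * m)) ^ 2)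
          + (s ^ (8 * m)) ^ 2 * (Nov * R ^ m))) := by
        have : (s ^ (8 * m)) ^ 3 * ((F.card : ℝ) * (s ^ 4) ^ m)
            ≤ (s ^ (8 * m)) ^ 2 * (Nov * R ^ m) :=
          mul_le_mul ha3 hS2 (mul_nonneg (Nat.cast_nonneg _) (pow_nonneg hl.le _)) (sq_nonneg _)
        gcongr
    _ = _ := by ring

/-- `s_sign` from the cell estimate with exponent `κ = 1/(8m)` -/
theorem sgn_sign_core (m n Q : ℕ) (hm : 1 ≤ m) (R R₁ : ℝ) (hR₁ : 0 < R₁) (hR : R₁ < R)
    (J₁ : ℕ) (ε₁ h₁ CQ T₀ : ℝ) (ρ : ℝ → ℝ) (hε₁ : 0 < ε₁) (hh₁ : 0 < h₁) (hCQ : 0 < CQ)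
    (hρ : Filter.Tendsto ρ Filter.atTop (nhds 0))
    (H : ∀ (N : NCyl m n) (t : ℝ), 0 < t → N.Q = Q → RefGraphU t J₁ 1 ε₁ N.u → t * N.h ≤ h₁ →
      ∀ (x : E m) (l T : ℝ), 0 < l → T₀ ≤ T → Metric.closedBall x (5 * l) ⊆ N.Ω →
        (N.Mabs + N.Dm + N.LmU t) (Metric.ball x (5 * l)) ≤ ENNReal.ofReal (Real.exp (-T) * l ^ m) →
        t * (l + N.supz (Metric.ball x (5 * l))) ≤ Real.exp (-((((8 * m : ℕ) : ℝ))⁻¹ * T)) →
        ∀ w : E m → ℝ, (∀ y, 0 ≤ w y ∧ w y ≤ 1) → (∀ y y', |w y - w y'| ≤ l⁻¹ * ‖y - y'‖) →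
          Function.support w ⊆ Metric.ball x l →
          2 * N.intM w - ∫ y, w y ∂N.Dm - CQ * ∫ y, w y ∂(N.LmU t)
            ≤ ρ T * Real.exp (-T) * l ^ m) :
    ∃ (J : ℕ) (ε₀ h₀ : ℝ), 0 < ε₀ ∧ 0 < h₀ ∧ ∀ C : ℝ, ∃ om : ℝ → ℝ,
      Filter.Tendsto om (nhdsWithin 0 (Set.Ioi 0)) (nhds 0) ∧
      ∀ (N : NCyl m n) (a t : ℝ), N.Q = Q → N.Ω = Metric.ball 0 R → N.h ≤ h₀ → 0 < a → a ≤ 1 →
        0 < t → t ≤ 1 → RefGraphU t J 1 ε₀ N.u →
        (N.Mabs + N.Dm + N.LmU t) (Metric.ball 0 R) ≤ ENNReal.ofReal (C * a ^ 2) →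
        (∀ X ∈ N.W.support, X ∈ Cyl N.u N.Ω N.h → ‖zz N.u X‖ ≤ C * a) →
        ∀ (g : E m → ℝ) (A : ℝ), (∀ y, 0 ≤ g y ∧ g y ≤ A) → (∀ y y', |g y - g y'| ≤ A * ‖y - y'‖) →
          tsupport g ⊆ Metric.closedBall 0 R₁ →
          2 * N.intM g - ∫ y, g y ∂N.Dm - CQ * ∫ y, g y ∂(N.LmU t) ≤ om a * a ^ 2 * A := by
  obtain ⟨h₂, hh₂, HK⟩ := sgn_kit m n
  obtain ⟨Cp, hCp, Hχ⟩ := sgn_cells m
  obtain ⟨Nov, HNov⟩ := sgn_overlap m 5 (by norm_num)
  have hR0 : 0 < R := hR₁.trans hR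
  refine ⟨max J₁ 4, min ε₁ (1 / 2), min h₁ h₂, by positivity, by positivity, fun C => ?_⟩
  set C' : ℝ := max C 0 with hC'_def
  have hC' : 0 ≤ C' := le_max_right _ _
  have hCC' : C ≤ C' := le_max_left _ _
  let P : ℝ → ℝ → Prop := fun a c => ∀ (N : NCyl m n) (t : ℝ), N.Q = Q → N.Ω = Metric.ball 0 R →
    N.h ≤ min h₁ h₂ → 0 < t → t ≤ 1 → RefGraphU t (max J₁ 4) 1 (min ε₁ (1 / 2)) N.u →
    (N.Mabs + N.Dm + N.LmU t) (Metric.ball 0 R) ≤ ENNReal.ofReal (C * a ^ 2) →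
    (∀ X ∈ N.W.support, X ∈ Cyl N.u N.Ω N.h → ‖zz N.u X‖ ≤ C * a) →
    ∀ (g : E m → ℝ) (A : ℝ), (∀ y, 0 ≤ g y ∧ g y ≤ A) → (∀ y y', |g y - g y'| ≤ A * ‖y - y'‖) →
      tsupport g ⊆ Metric.closedBall 0 R₁ →
      2 * N.intM g - ∫ y, g y ∂N.Dm - CQ * ∫ y, g y ∂(N.LmU t) ≤ c * a ^ 2 * A
  have hmono : ∀ a c c', c ≤ c' → P a c → P a c' := by
    intro a c c' hcc hP N t hQ hΩ hh ht ht1 hG hτ hz g A hg hgL hgs
    refine (hP N t hQ hΩ hh ht ht1 hG hτ hz g A hg hgL hgs).trans ?_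
    have hA : 0 ≤ A := (hg 0).1.trans (hg 0).2
    gcongr
  have h0 : ∀ a, 0 < a → a ≤ 1 → P a (2 * C') := by
    intro a ha ha1 N t hQ hΩ hh ht ht1 hG hτ hz g A hg hgL hgs
    have K := HK N t R _ _ _ hR0 (le_max_right _ _) (min_le_right _ _) ht ht1 hΩ
      (hh.trans (min_le_right _ _)) hG hτ
    have hA : 0 ≤ A := (hg 0).1.trans (hg 0).2
    have h1 := K.abs_intM_le (sgn_continuous hgL) (B := A)
      (fun y => by rw [abs_of_nonneg (hg y).1]; exact (hg y).2)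
      Metric.isOpen_ball.measurableSet subset_rfl (fun y hy => by
        by_contra hne
        exact hy (Metric.closedBall_subset_ball hR (hgs (subset_tsupport _ hne))))
    have h2 : (N.Mabs (Metric.ball 0 R)).toReal ≤ C' * a ^ 2 := by
      refine ENNReal.toReal_le_of_le_ofReal (by positivity) ?_
      simp only [Measure.add_apply] at hτ
      exact ((le_self_add.trans le_self_add).trans hτ).trans
        (ENNReal.ofReal_le_ofReal (by gcongr))
    have h3 : 0 ≤ ∫ y, g y ∂N.Dm := integral_nonneg fun y => (hg y).1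
    have h4 : 0 ≤ CQ * ∫ y, g y ∂(N.LmU t) :=
      mul_nonneg hCQ.le (integral_nonneg fun y => (hg y).1)
    have h5 : N.intM g ≤ A * (C' * a ^ 2) :=
      (le_abs_self _).trans (h1.trans (mul_le_mul_of_nonneg_left h2 hA))
    nlinarith
  have hs : ∀ ε, 0 < ε → ∃ δ, 0 < δ ∧ ∀ a, 0 < a → a < δ → a ≤ 1 → P a ε := by
    intro ε hε
    have hD : 0 < (Cp + 2) * (Nov * (C' + R ^ m) + 1) := by positivity
    set ε' : ℝ := ε / ((Cp + 2) * (Nov * (C' + R ^ m) + 1)) with hε'_def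
    have hε' : 0 < ε' := by positivity
    obtain ⟨Tε, hTε⟩ := Filter.eventually_atTop.1 (hρ.eventually_le_const hε')
    set Tm : ℝ := max (max T₀ Tε) 0 with hTm_def
    have hTm : 0 ≤ Tm := le_max_right _ _
    have hT₀ : T₀ ≤ Tm := (le_max_left _ _).trans (le_max_left _ _)
    have hTε' : Tε ≤ Tm := (le_max_right _ _).trans (le_max_left _ _)
    set s₀ : ℝ := min (min ((R - R₁) / 6) (Real.exp (-Tm) / (C' + 1))) 1 with hs₀_def
    have hs₀ : 0 < s₀ := by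
      have : 0 < R - R₁ := by linarith
      have := Real.exp_pos (-Tm)
      positivity
    refine ⟨s₀ ^ (8 * m), by positivity, ?_⟩
    intro a ha haδ ha1 N t hQ hΩ hh ht ht1 hG hτ hz g A hg hgL hgs
    have hA0 : 0 ≤ A := (hg 0).1.trans (hg 0).2
    rcases hA0.eq_or_lt with hA | hA
    · have hg0 : g = fun _ => 0 := funext fun y =>
        le_antisymm ((hg y).2.trans_eq hA.symm) (hg y).1
      subst hg0
      simp [NCyl.intM, ← hA]
    have K := HK N t R _ _ _ hR0 (le_max_right _ _) (min_le_right _ _) ht ht1 hΩ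
      (hh.trans (min_le_right _ _)) hG hτ
    set s : ℝ := a ^ ((((8 * m : ℕ) : ℝ))⁻¹) with hs_def
    have hspos : 0 < s := Real.rpow_pos_of_pos ha _
    have hsa : s ^ (8 * m) = a := Real.rpow_inv_natCast_pow ha.le (by omega)
    have hss₀ : s < s₀ := lt_of_pow_lt_pow_left₀ (8 * m) hs₀.le (hsa ▸ haδ)
    have hs1 : s ≤ 1 := hss₀.le.trans (min_le_right _ _)
    have hsm : (C' + 1) * s ≤ Real.exp (-Tm) := by
      have : s ≤ Real.exp (-Tm) / (C' + 1) :=
        hss₀.le.trans ((min_le_left _ _).trans (min_le_right _ _))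
      rw [le_div_iff₀ (by positivity)] at this
      linarith
    have hsR : R₁ + 6 * s < R := by
      have : s < (R - R₁) / 6 := hss₀.trans_le ((min_le_left _ _).trans (min_le_left _ _))
      linarith
    have hl : 0 < s ^ 4 := by positivity
    obtain ⟨χ, hχc, hχ01, hχs, hχL, Hχ'⟩ := Hχ (s ^ 4) hl
    obtain ⟨F, hdec, hF⟩ := Hχ' R₁ g hgs
    have hNh : 0 < N.h := N.h'_pos.trans N.h'_lt
    have hth : t * N.h ≤ h₁ := by
      have : t * N.h ≤ 1 * N.h := by gcongr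
      linarith [hh.trans (min_le_left _ _)]
    have key := sgn_sign_small hm K hR0 ht1
      (H N t ht hQ (sgn_refgraph_mono (le_max_left _ _) (min_le_left _ _) hG) hth)
      hspos hs1 hC' hTm hT₀ (fun T hT => hTε T (hTε'.trans hT)) hε'.le hsm hsR
      (by rw [hsa]; exact hτ.trans (ENNReal.ofReal_le_ofReal (by gcongr)))
      (by rw [hsa]; exact fun X hX hXc => (hz X hX hXc).trans (by gcongr))
      hCp χ hχc hχ01 hχs hχL (HNov (s ^ 4) hl) g F hdec hF hA hg hgL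
    rw [hsa] at key
    refine key.trans ?_
    have : (Cp + 2) * ε' * (Nov * (C' + R ^ m)) ≤ ε := by
      have e : ε = (Cp + 2) * ε' * (Nov * (C' + R ^ m) + 1) := by
        rw [hε'_def]; field_simp
      have : 0 ≤ (Cp + 2) * ε' := by positivity
      nlinarith
    gcongr
  obtain ⟨om, hom, Hom⟩ := sgn_om P hmono (2 * C') h0 hs
  exact ⟨om, hom, fun N a t hQ hΩ hh ha ha1 ht ht1 hG hτ hz g A hg hgL hgs =>
    Hom a ha ha1 N t hQ hΩ hh ht ht1 hG hτ hz g A hg hgL hgs⟩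

/-- one fixed fine cell -/
theorem sgn_abs_cell {N : NCyl m n} {t R Cs A l : ℝ} (K : SgnKit N t R) (hCs : 0 < Cs)
    (hA : 0 ≤ A) (hl : 0 < l) {χ g : E m → ℝ} (x : E m) (hχc : Continuous χ)
    (hχ01 : ∀ y, 0 ≤ χ y ∧ χ y ≤ 1) (hχs : ∀ y, χ y ≠ 0 → y ∈ Metric.ball x l)
    (hg01 : ∀ y, 0 ≤ g y ∧ g y ≤ A) (hgL : ∀ y y', |g y - g y'| ≤ A * ‖y - y'‖)
    (hsub : Metric.ball x (2 * l) ⊆ Metric.ball 0 R)
    (hM : N.Mabs (Metric.ball x l) ≤ ENNReal.ofReal Cs * (N.Dm + N.LmU t) (Metric.ball x (2 * l))) :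
    |N.intM (fun y => χ y * g y)| ≤ Cs * (((N.Dm + N.LmU t).withDensity
      (fun y => ENNReal.ofReal (g y + 3 * A * l))) (Metric.ball x (2 * l))).toReal := by
  have := K.fin_D
  have := K.fin_L
  have hgc : Continuous g := sgn_continuous hgL
  have hint : Integrable (fun y => g y + 3 * A * l) (N.Dm + N.LmU t) :=
    sgn_integrable (hgc.add continuous_const) (B := A + 3 * A * l) fun y => by
      have := (hg01 y).1
      have := (hg01 y).2
      rw [abs_of_nonneg (by positivity)]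
      linarith
  have hfin : IsFiniteMeasure ((N.Dm + N.LmU t).withDensity
      (fun y => ENNReal.ofReal (g y + 3 * A * l))) :=
    isFiniteMeasure_withDensity_ofReal hint.2
  have hB0 : 0 ≤ g x + A * l := by
    have := (hg01 x).1
    positivity
  have hB : ∀ y, |χ y * g y| ≤ g x + A * l := by
    intro y
    by_cases h0 : χ y = 0
    · rw [h0, zero_mul, abs_zero]; exact hB0
    · have hy := hχs y h0
      rw [Metric.mem_ball, dist_eq_norm] at hy
      have h1 := (abs_le.1 (hgL y x)).2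
      have h2 : A * ‖y - x‖ ≤ A * l := by gcongr
      rw [abs_of_nonneg (mul_nonneg (hχ01 y).1 (hg01 y).1)]
      calc χ y * g y ≤ 1 * g y := mul_le_mul_of_nonneg_right (hχ01 y).2 (hg01 y).1
        _ ≤ g x + A * l := by linarith
  have h1 := K.abs_intM_le (hχc.mul hgc) hB (S := Metric.ball x l)
    Metric.isOpen_ball.measurableSet
    ((Metric.ball_subset_ball (by linarith)).trans hsub) (fun y hy => by
      by_contra hne
      exact hy (hχs y (left_ne_zero_of_mul hne)))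
  refine h1.trans ?_
  have h2 : ENNReal.ofReal (g x + A * l) * (N.Dm + N.LmU t) (Metric.ball x (2 * l))
      ≤ ((N.Dm + N.LmU t).withDensity (fun y => ENNReal.ofReal (g y + 3 * A * l)))
        (Metric.ball x (2 * l)) := by
    rw [withDensity_apply _ Metric.isOpen_ball.measurableSet, ← setLIntegral_const]
    refine setLIntegral_mono' Metric.isOpen_ball.measurableSet fun y hy => ?_
    refine ENNReal.ofReal_le_ofReal ?_
    rw [Metric.mem_ball, dist_eq_norm] at hy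
    have h1 := (abs_le.1 (hgL y x)).1
    have h2 : A * ‖y - x‖ ≤ A * (2 * l) := by gcongr
    linarith
  have h3 : (N.Mabs (Metric.ball x l)).toReal
      ≤ Cs * ((N.Dm + N.LmU t) (Metric.ball x (2 * l))).toReal := by
    have := ENNReal.toReal_mono (ENNReal.mul_ne_top ENNReal.ofReal_ne_top
      (measure_ne_top _ _)) hM
    rwa [ENNReal.toReal_mul, ENNReal.toReal_ofReal hCs.le] at this
  have h4 := ENNReal.toReal_mono (measure_ne_top _ _) h2
  rw [ENNReal.toReal_mul, ENNReal.toReal_ofReal hB0] at h4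
  calc (g x + A * l) * (N.Mabs (Metric.ball x l)).toReal
      ≤ (g x + A * l) * (Cs * ((N.Dm + N.LmU t) (Metric.ball x (2 * l))).toReal) := by gcongr
    _ = Cs * ((g x + A * l) * ((N.Dm + N.LmU t) (Metric.ball x (2 * l))).toReal) := by ring
    _ ≤ _ := by gcongr

/-- `s_abs` from the scalar estimate with `c = 2` -/
theorem sgn_abs_core (m n Q : ℕ) (R R₁ : ℝ) (hR₁ : 0 < R₁) (hR : R₁ < R)
    (J₁ : ℕ) (ε₁ h₁ εs Cs : ℝ) (hε₁ : 0 < ε₁) (hh₁ : 0 < h₁) (hεs : 0 < εs) (hCs : 0 < Cs)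
    (H : ∀ (N : NCyl m n) (t : ℝ), 0 < t → N.Q = Q → RefGraphU t J₁ 1 ε₁ N.u → t * N.h ≤ h₁ →
      ∀ (x : E m) (s : ℝ), 0 < s → t * s ≤ 1 / 2 → Metric.closedBall x (2 * s) ⊆ N.Ω →
        (N.Mabs + N.Dm + N.LmU t) (Metric.ball x (2 * s)) ≤ ENNReal.ofReal (εs * s ^ m) →
        N.Mabs (Metric.ball x s) ≤ ENNReal.ofReal Cs * (N.Dm + N.LmU t) (Metric.ball x (2 * s))) :
    ∃ (J : ℕ) (ε₀ h₀ C₂ : ℝ), 0 < ε₀ ∧ 0 < h₀ ∧ 0 < C₂ ∧
      ∀ C lam : ℝ, 0 < lam → ∃ a₀ : ℝ, 0 < a₀ ∧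
      ∀ (N : NCyl m n) (a t : ℝ), N.Q = Q → N.Ω = Metric.ball 0 R → N.h ≤ h₀ → 0 < a → a ≤ a₀ →
        0 < t → t ≤ 1 → RefGraphU t J 1 ε₀ N.u →
        (N.Mabs + N.Dm + N.LmU t) (Metric.ball 0 R) ≤ ENNReal.ofReal (C * a ^ 2) →
        ∀ (g : E m → ℝ) (A : ℝ), (∀ y, 0 ≤ g y ∧ g y ≤ A) → (∀ y y', |g y - g y'| ≤ A * ‖y - y'‖) →
          tsupport g ⊆ Metric.closedBall 0 R₁ →
          |N.intM g| ≤ C₂ * (∫ y, g y ∂N.Dm + ∫ y, g y ∂(N.LmU t) + A * lam * a ^ 2) := by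
  obtain ⟨h₂, hh₂, HK⟩ := sgn_kit m n
  obtain ⟨Cp, hCp, Hχ⟩ := sgn_cells m
  obtain ⟨Nov, HNov⟩ := sgn_overlap m 2 (by norm_num)
  have hR0 : 0 < R := hR₁.trans hR
  refine ⟨max J₁ 4, min ε₁ (1 / 2), min h₁ h₂, Cs * (Nov + 1), by positivity, by positivity,
    by positivity, fun C lam hlam => ?_⟩
  set C' : ℝ := max C 0 with hC'_def
  have hC' : 0 ≤ C' := le_max_right _ _
  have hCC' : C ≤ C' := le_max_left _ _
  set l : ℝ := min (min (lam / (3 * (C' + 1))) ((R - R₁) / 4)) (1 / 2) with hl_def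
  have hl : 0 < l := by
    have : 0 < R - R₁ := by linarith
    positivity
  have hl1 : l ≤ lam / (3 * (C' + 1)) := (min_le_left _ _).trans (min_le_left _ _)
  have hl2 : l ≤ (R - R₁) / 4 := (min_le_left _ _).trans (min_le_right _ _)
  have hl3 : l ≤ 1 / 2 := min_le_right _ _
  refine ⟨min 1 (εs * l ^ m / (C' + 1)), by positivity, ?_⟩
  intro N a t hQ hΩ hh ha haa ht ht1 hG hτ g A hg hgL hgs
  have ha1 : a ≤ 1 := haa.trans (min_le_left _ _)
  have ha2 : a ≤ εs * l ^ m / (C' + 1) := haa.trans (min_le_right _ _)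
  have hA : 0 ≤ A := (hg 0).1.trans (hg 0).2
  have K := HK N t R _ _ _ hR0 (le_max_right _ _) (min_le_right _ _) ht ht1 hΩ
    (hh.trans (min_le_right _ _)) hG hτ
  have := K.fin_D
  have := K.fin_L
  have hgc : Continuous g := sgn_continuous hgL
  obtain ⟨χ, hχc, hχ01, hχs, hχL, Hχ'⟩ := Hχ l hl
  obtain ⟨F, hdec, hF⟩ := Hχ' R₁ g hgs
  have hNh : 0 < N.h := N.h'_pos.trans N.h'_lt
  have hth : t * N.h ≤ h₁ := by
    have : t * N.h ≤ 1 * N.h := by gcongr
    linarith [hh.trans (min_le_left _ _)]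
  have hcb : ∀ k ∈ F, Metric.closedBall (gpt m l k) (2 * l) ⊆ Metric.ball 0 R := by
    intro k hk y hy
    rw [Metric.mem_closedBall, dist_eq_norm] at hy
    rw [Metric.mem_ball, dist_zero_right]
    have : ‖y‖ ≤ ‖gpt m l k‖ + ‖y - gpt m l k‖ := by
      have := norm_add_le (gpt m l k) (y - gpt m l k)
      simpa using this
    have := hF k hk
    linarith
  have hball : ∀ k ∈ F, Metric.ball (gpt m l k) (2 * l) ⊆ Metric.ball 0 R := fun k hk =>
    Metric.ball_subset_closedBall.trans (hcb k hk)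
  have hsmall : C * a ^ 2 ≤ εs * l ^ m := by
    rw [le_div_iff₀ (by positivity)] at ha2
    have h1 : a ^ 2 ≤ a := by nlinarith
    calc C * a ^ 2 ≤ C' * a ^ 2 := by gcongr
      _ ≤ C' * a := by gcongr
      _ ≤ a * (C' + 1) := by nlinarith
      _ ≤ _ := ha2
  set ρ' : Measure (E m) := (N.Dm + N.LmU t).withDensity
    (fun y => ENNReal.ofReal (g y + 3 * A * l)) with hρ'
  have hpos : ∀ y, 0 ≤ g y + 3 * A * l := fun y => by
    have := (hg y).1
    positivity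
  have hint : Integrable (fun y => g y + 3 * A * l) (N.Dm + N.LmU t) :=
    sgn_integrable (hgc.add continuous_const) (B := A + 3 * A * l) fun y => by
      have := (hg y).2
      rw [abs_of_nonneg (hpos y)]
      linarith
  have hfin : IsFiniteMeasure ρ' := isFiniteMeasure_withDensity_ofReal hint.2
  have hcell : ∀ k ∈ F, |N.intM (fun y => χ k y * g y)|
      ≤ Cs * (ρ' (Metric.ball (gpt m l k) (2 * l))).toReal := fun k hk =>
    sgn_abs_cell K hCs hA hl _ (hχc k) (hχ01 k) (hχs k) hg hgL (hball k hk)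
      (H N t ht hQ (sgn_refgraph_mono (le_max_left _ _) (min_le_left _ _) hG) hth _ l hl
        (by nlinarith) (hΩ ▸ hcb k hk)
        (((measure_mono (hball k hk)).trans hτ).trans (ENNReal.ofReal_le_ofReal hsmall)))
  have hgB : ∀ y, |g y| ≤ A := fun y => by rw [abs_of_nonneg (hg y).1]; exact (hg y).2
  have hsum : N.intM g = ∑ k ∈ F, N.intM (fun y => χ k y * g y) := by
    rw [← K.intM_sum F (fun k y => χ k y * g y) (fun k _ => (hχc k).mul hgc) A (fun k _ y => by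
      rw [abs_mul, abs_of_nonneg (hχ01 k y).1]
      calc χ k y * |g y| ≤ 1 * A := mul_le_mul (hχ01 k y).2 (hgB y) (abs_nonneg _) zero_le_one
        _ = A := one_mul _)]
    congr 1
    funext y
    exact hdec y
  have hS : ∑ k ∈ F, (ρ' (Metric.ball (gpt m l k) (2 * l))).toReal
      ≤ Nov * (ρ' Set.univ).toReal := by
    rw [← ENNReal.toReal_sum fun k _ => measure_ne_top _ _]
    have h1 := (HNov l hl ρ' R F hball).trans
      (mul_le_mul_right (measure_mono (Set.subset_univ _)) (Nov : ℝ≥0∞))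
    have h2 := ENNReal.toReal_mono (ENNReal.mul_ne_top (ENNReal.natCast_ne_top _)
      (measure_ne_top _ _)) h1
    rwa [ENNReal.toReal_mul, ENNReal.toReal_natCast] at h2
  have hI : (ρ' Set.univ).toReal
      = ∫ y, g y ∂N.Dm + ∫ y, g y ∂(N.LmU t) + 3 * A * l * ((N.Dm + N.LmU t) Set.univ).toReal := by
    rw [hρ', withDensity_apply _ MeasurableSet.univ, Measure.restrict_univ,
      ← integral_eq_lintegral_of_nonneg_ae (Filter.Eventually.of_forall hpos)
        hint.aestronglyMeasurable,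
      integral_add (sgn_integrable hgc hgB) (integrable_const _), integral_const,
      integral_add_measure (sgn_integrable hgc hgB) (sgn_integrable hgc hgB), smul_eq_mul,
      Measure.real]
    ring
  have hσ : ((N.Dm + N.LmU t) Set.univ).toReal ≤ C' * a ^ 2 := by
    refine ENNReal.toReal_le_of_le_ofReal (by positivity) ?_
    rw [Measure.add_apply, K.D_univ, K.L_univ]
    simp only [Measure.add_apply] at hτ
    refine le_trans ?_ (hτ.trans (ENNReal.ofReal_le_ofReal (by gcongr)))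
    rw [add_assoc]
    exact le_add_self
  have hlast : 3 * A * l * ((N.Dm + N.LmU t) Set.univ).toReal ≤ A * lam * a ^ 2 := by
    rw [le_div_iff₀ (by positivity)] at hl1
    have h1 : 3 * l * C' ≤ lam := by nlinarith
    calc 3 * A * l * ((N.Dm + N.LmU t) Set.univ).toReal ≤ 3 * A * l * (C' * a ^ 2) := by gcongr
      _ = A * (3 * l * C') * a ^ 2 := by ring
      _ ≤ A * lam * a ^ 2 := by gcongr
  have hD0 : 0 ≤ ∫ y, g y ∂N.Dm := integral_nonneg fun y => (hg y).1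
  have hL0 : 0 ≤ ∫ y, g y ∂(N.LmU t) := integral_nonneg fun y => (hg y).1
  calc |N.intM g| ≤ ∑ k ∈ F, |N.intM (fun y => χ k y * g y)| := by
        rw [hsum]; exact Finset.abs_sum_le_sum_abs _ _
    _ ≤ ∑ k ∈ F, Cs * (ρ' (Metric.ball (gpt m l k) (2 * l))).toReal := Finset.sum_le_sum hcell
    _ = Cs * ∑ k ∈ F, (ρ' (Metric.ball (gpt m l k) (2 * l))).toReal := by rw [Finset.mul_sum]
    _ ≤ Cs * (Nov * (ρ' Set.univ).toReal) := by gcongr
    _ ≤ Cs * ((Nov + 1) * (ρ' Set.univ).toReal) := by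
        have : 0 ≤ (ρ' Set.univ).toReal := ENNReal.toReal_nonneg
        gcongr
        linarith
    _ = Cs * (Nov + 1) * (∫ y, g y ∂N.Dm + ∫ y, g y ∂(N.LmU t)
          + 3 * A * l * ((N.Dm + N.LmU t) Set.univ).toReal) := by rw [hI]; ring
    _ ≤ _ := by gcongr

end Claimed.Agent.R322.Lin
end
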