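/- Packed by merge_tool.py (helper293): 5 modules of Claimed.Agent.R322 in one file, same declarations.
   Old modules, in this order: Freq.Par, Base.Exit.Rep, Base.Exit.Const, Fit.Boot, Base.Exit.Main -/
import Claimed.Agent.R322.Pack001
import Claimed.Agent.R322.Basic
import Claimed.Agent.R322.Pack006
import Claimed.Agent.R322.Pack002
import Claimed.Agent.R322.Pack046
import Claimed.Agent.R322.Pack053
import Claimed.Agent.R322.Pack021

/- ===== packed: Claimed.Agent.R322.Freq.Par ===== -/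
section
/-!
# CO Section 4: the parameters and their order of choice

Owner: helper109 (CO4 sub-captain).

All "fix ... sufficiently small/large" of CO Section 4 are organised ONCE:

`B : FitBase` (delivered by the fitting lemma: orders `J k q`, constants independent of `m₀`), then, in this order,
`hc ↓ 0` (height of the working cylinder), `m₀ ↓ 0`, `Ca ↑ ∞` (the constant of CO Lemma 4.2), `C₁ ↑ ∞` (ALL constants `C`, `c = 1/C₁` of
CO Lemmas 4.3-4.4; `Ca ≤ C₁`), `rs = r_* ↓ 0`, `f ↑ ∞` (`F = 2^f`), `C₂ ↑ ∞` (constants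
which may depend on `r_*`, `F`), `lm = ` maximal failure scale `↓ 0`, `eg = ` goodness threshold `↓ 0`.

`Ev B Φ` says: `Φ π` holds for all parameter tuples `π` chosen in this order, each one sufficiently small/large depending on the
previous ones.  Section statements have the form `Ev B (fun π => ∀ starts ..., conclusion with π.C₁ ...)`.
`Ev.and`, `Ev.mono`, `Ev.exists_par` do the bookkeeping.  To PROVE an `Ev` statement: `unfold Ev` and use `filter_upwards` with
`Ioo_mem_nhdsGT`, `eventually_ge_atTop`, or `Ev.of_forall`, `Ev.m₀_lt`, ... below.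
-/

set_option autoImplicit false

open Filter Topology

namespace Claimed.Agent.R322.Freq

/-- parameters delivered by the fitting lemma before the choice of `m₀` (see `FitPar` for their meaning) -/
structure FitBase where
  J : ℕ
  k : ℕ
  q : ℕ
  C : ℝ
  c : ℝ
  c₀ : ℝ
  c₁ : ℝ
  ε₀ : ℝ
  ε₁ : ℝ

/-- all parameters of CO Section 4 -/
structure Par extends FitBase where
  /-- height of the working cylinder of a start -/
  hc : ℝ
  /-- height coefficient of the fits -/
  m₀ : ℝ
  /-- the constant of CO Lemma 4.2 -/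
  Ca : ℝ
  /-- the constant of CO Lemmas 4.3, 4.4 -/
  C₁ : ℝ
  /-- `r_*` -/
  rs : ℝ
  /-- `F = 2 ^ f` -/
  f : ℕ
  /-- constants depending on `r_*` and `F` -/
  C₂ : ℝ
  /-- bound for all failure scales -/
  lm : ℝ
  /-- goodness threshold -/
  eg : ℝ

/-- the parameters of `StartData` -/
def Par.fit (π : Par) : FitPar where
  J := π.J
  k := π.k
  q := π.q
  m₀ := π.m₀
  C := π.C
  c := π.c
  c₀ := π.c₀
  c₁ := π.c₁
  ε₀ := π.ε₀
  ε₁ := π.ε₁
  ℓmax := π.lm
  hc := π.hc

/-- restart factor `F = 2^f` -/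
noncomputable def Par.F (π : Par) : ℝ := 2 ^ π.f

/-- "for all parameters chosen in the order `hc, m₀, Ca, C₁, rs, f, C₂, lm, eg`" -/
def Ev (B : FitBase) (Φ : Par → Prop) : Prop :=
  ∀ᶠ hc in 𝓝[>] (0 : ℝ), ∀ᶠ m₀ in 𝓝[>] (0 : ℝ), ∀ᶠ Ca in (atTop : Filter ℝ), ∀ᶠ C₁ in (atTop : Filter ℝ), ∀ᶠ rs in 𝓝[>] (0 : ℝ), ∀ᶠ f in (atTop : Filter ℕ), ∀ᶠ C₂ in (atTop : Filter ℝ), ∀ᶠ lm in 𝓝[>] (0 : ℝ), ∀ᶠ eg in 𝓝[>] (0 : ℝ),
      Φ ⟨B, hc, m₀, Ca, C₁, rs, f, C₂, lm, eg⟩

namespace Ev

variable {B : FitBase} {Φ Ψ : Par → Prop}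

theorem mono (h : Ev B Φ) (hΦ : ∀ π : Par, π.toFitBase = B → Φ π → Ψ π) : Ev B Ψ := by
  unfold Ev at h ⊢
  filter_upwards [h] with hc h
  filter_upwards [h] with m₀ h
  filter_upwards [h] with Ca h
  filter_upwards [h] with C₁ h
  filter_upwards [h] with rs h
  filter_upwards [h] with f h
  filter_upwards [h] with C₂ h
  filter_upwards [h] with lm h
  filter_upwards [h] with eg h
  exact hΦ _ rfl h

theorem and (h₁ : Ev B Φ) (h₂ : Ev B Ψ) : Ev B (fun π => Φ π ∧ Ψ π) := by
  unfold Ev at h₁ h₂ ⊢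
  filter_upwards [h₁, h₂] with hc h₁ h₂
  filter_upwards [h₁, h₂] with m₀ h₁ h₂
  filter_upwards [h₁, h₂] with Ca h₁ h₂
  filter_upwards [h₁, h₂] with C₁ h₁ h₂
  filter_upwards [h₁, h₂] with rs h₁ h₂
  filter_upwards [h₁, h₂] with f h₁ h₂
  filter_upwards [h₁, h₂] with C₂ h₁ h₂
  filter_upwards [h₁, h₂] with lm h₁ h₂
  filter_upwards [h₁, h₂] with eg h₁ h₂
  exact ⟨h₁, h₂⟩

theorem of_forall (h : ∀ π : Par, π.toFitBase = B → Φ π) : Ev B Φ := by
  unfold Ev
  exact Eventually.of_forall fun hc => Eventually.of_forall fun m₀ => Eventually.of_forall fun Ca => Eventually.of_forall fun C₁ => Eventually.of_forall fun rs => Eventually.of_forall fun f => Eventually.of_forall fun C₂ => Eventually.of_forall fun lm => Eventually.of_forall fun eg => h _ rfl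

theorem mp (h₁ : Ev B Φ) (h₂ : Ev B (fun π => Φ π → Ψ π)) : Ev B Ψ :=
  (h₁.and h₂).mono fun _ _ h => h.2 h.1

theorem exists_par (h : Ev B Φ) : ∃ π : Par, π.toFitBase = B ∧ Φ π := by
  unfold Ev at h
  obtain ⟨hc, h⟩ := h.exists
  obtain ⟨m₀, h⟩ := h.exists
  obtain ⟨Ca, h⟩ := h.exists
  obtain ⟨C₁, h⟩ := h.exists
  obtain ⟨rs, h⟩ := h.exists
  obtain ⟨f, h⟩ := h.exists
  obtain ⟨C₂, h⟩ := h.exists
  obtain ⟨lm, h⟩ := h.exists
  obtain ⟨eg, h⟩ := h.exists
  exact ⟨_, rfl, h⟩

/-- signs and trivial sizes -/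
theorem pos (B : FitBase) : Ev B (fun π => 0 < π.hc ∧ π.hc ≤ 1 ∧ 0 < π.m₀ ∧ π.m₀ ≤ 1 ∧ 1 ≤ π.C₁ ∧ 0 < π.rs ∧ π.rs ≤ 1 ∧
    1 ≤ π.C₂ ∧ π.C₁ ≤ π.C₂ ∧ 0 < π.lm ∧ π.lm ≤ 1 ∧ 0 < π.eg ∧ π.eg ≤ 1) := by
  unfold Ev
  filter_upwards [Ioo_mem_nhdsGT (zero_lt_one' ℝ)] with hc hhc
  filter_upwards [Ioo_mem_nhdsGT (zero_lt_one' ℝ)] with m₀ hm₀
  refine Eventually.of_forall fun Ca => ?_
  filter_upwards [eventually_ge_atTop (1 : ℝ)] with C₁ hC₁
  filter_upwards [Ioo_mem_nhdsGT (zero_lt_one' ℝ)] with rs hrs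
  refine Eventually.of_forall fun f => ?_
  filter_upwards [eventually_ge_atTop (1 : ℝ), eventually_ge_atTop C₁] with C₂ hC₂ hC₂'
  filter_upwards [Ioo_mem_nhdsGT (zero_lt_one' ℝ)] with lm hlm
  filter_upwards [Ioo_mem_nhdsGT (zero_lt_one' ℝ)] with eg heg
  exact ⟨hhc.1, hhc.2.le, hm₀.1, hm₀.2.le, hC₁, hrs.1, hrs.2.le, hC₂, hC₂', hlm.1, hlm.2.le, heg.1, heg.2.le⟩

/-- `1 ≤ Ca ≤ C₁` -/
theorem Ca_le (B : FitBase) : Ev B (fun π => 1 ≤ π.Ca ∧ π.Ca ≤ π.C₁) := by
  unfold Ev
  refine Eventually.of_forall fun hc => Eventually.of_forall fun m₀ => ?_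
  filter_upwards [eventually_ge_atTop (1 : ℝ)] with Ca hCa
  filter_upwards [eventually_ge_atTop Ca] with C₁ hC₁
  exact Eventually.of_forall fun rs => Eventually.of_forall fun f => Eventually.of_forall fun C₂ =>
    Eventually.of_forall fun lm => Eventually.of_forall fun eg => ⟨hCa, hC₁⟩

/-- `hc` is small depending on the base -/
theorem hc_lt (B : FitBase) (a : ℝ) (ha : 0 < a) :
    Ev B (fun π => π.hc < a) := by
  unfold Ev
  filter_upwards [Ioo_mem_nhdsGT ha] with hc h
  exact Eventually.of_forall fun m₀ => Eventually.of_forall fun Ca => Eventually.of_forall fun C₁ => Eventually.of_forall fun rs => Eventually.of_forall fun f => Eventually.of_forall fun C₂ => Eventually.of_forall fun lm => Eventually.of_forall fun eg => h.2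

/-- `m₀` is small depending on `hc` -/
theorem m₀_lt (B : FitBase) (a : ℝ → ℝ) (ha : ∀ x0, 0 < a x0) :
    Ev B (fun π => π.m₀ < a π.hc) := by
  unfold Ev
  refine Eventually.of_forall fun hc => ?_
  filter_upwards [Ioo_mem_nhdsGT (ha hc)] with m₀ h
  exact Eventually.of_forall fun Ca => Eventually.of_forall fun C₁ => Eventually.of_forall fun rs => Eventually.of_forall fun f => Eventually.of_forall fun C₂ => Eventually.of_forall fun lm => Eventually.of_forall fun eg => h.2

/-- `Ca` is large depending on `hc, m₀` -/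
theorem Ca_ge (B : FitBase) (a : ℝ → ℝ → ℝ) :
    Ev B (fun π => a π.hc π.m₀ ≤ π.Ca) := by
  unfold Ev
  refine Eventually.of_forall fun hc => Eventually.of_forall fun m₀ => ?_
  filter_upwards [eventually_ge_atTop (a hc m₀)] with Ca h
  exact Eventually.of_forall fun C₁ => Eventually.of_forall fun rs => Eventually.of_forall fun f => Eventually.of_forall fun C₂ => Eventually.of_forall fun lm => Eventually.of_forall fun eg => h

/-- `C₁` is large depending on `hc, m₀, Ca` -/
theorem C₁_ge (B : FitBase) (a : ℝ → ℝ → ℝ → ℝ) :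
    Ev B (fun π => a π.hc π.m₀ π.Ca ≤ π.C₁) := by
  unfold Ev
  refine Eventually.of_forall fun hc => Eventually.of_forall fun m₀ => Eventually.of_forall fun Ca => ?_
  filter_upwards [eventually_ge_atTop (a hc m₀ Ca)] with C₁ h
  exact Eventually.of_forall fun rs => Eventually.of_forall fun f => Eventually.of_forall fun C₂ => Eventually.of_forall fun lm => Eventually.of_forall fun eg => h

/-- `r_*` is small depending on `hc, m₀, Ca, C₁` -/
theorem rs_lt (B : FitBase) (a : ℝ → ℝ → ℝ → ℝ → ℝ) (ha : ∀ x0 x1 x2 x3, 0 < a x0 x1 x2 x3) :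
    Ev B (fun π => π.rs < a π.hc π.m₀ π.Ca π.C₁) := by
  unfold Ev
  refine Eventually.of_forall fun hc => Eventually.of_forall fun m₀ => Eventually.of_forall fun Ca => Eventually.of_forall fun C₁ => ?_
  filter_upwards [Ioo_mem_nhdsGT (ha hc m₀ Ca C₁)] with rs h
  exact Eventually.of_forall fun f => Eventually.of_forall fun C₂ => Eventually.of_forall fun lm => Eventually.of_forall fun eg => h.2

/-- `F` is large depending on `hc, m₀, Ca, C₁, r_*` -/
theorem F_ge (B : FitBase) (a : ℝ → ℝ → ℝ → ℝ → ℝ → ℝ) :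
    Ev B (fun π => a π.hc π.m₀ π.Ca π.C₁ π.rs ≤ π.F) := by
  unfold Ev
  refine Eventually.of_forall fun hc => Eventually.of_forall fun m₀ => Eventually.of_forall fun Ca => Eventually.of_forall fun C₁ => Eventually.of_forall fun rs => ?_
  have h : Tendsto (fun f : ℕ => (2 : ℝ) ^ f) atTop atTop := tendsto_pow_atTop_atTop_of_one_lt one_lt_two
  filter_upwards [h.eventually (eventually_ge_atTop (a hc m₀ Ca C₁ rs))] with f h
  exact Eventually.of_forall fun C₂ => Eventually.of_forall fun lm => Eventually.of_forall fun eg => h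

/-- `C₂` is large depending on `hc, m₀, Ca, C₁, r_*, f` -/
theorem C₂_ge (B : FitBase) (a : ℝ → ℝ → ℝ → ℝ → ℝ → ℕ → ℝ) :
    Ev B (fun π => a π.hc π.m₀ π.Ca π.C₁ π.rs π.f ≤ π.C₂) := by
  unfold Ev
  refine Eventually.of_forall fun hc => Eventually.of_forall fun m₀ => Eventually.of_forall fun Ca => Eventually.of_forall fun C₁ => Eventually.of_forall fun rs => Eventually.of_forall fun f => ?_
  filter_upwards [eventually_ge_atTop (a hc m₀ Ca C₁ rs f)] with C₂ h
  exact Eventually.of_forall fun lm => Eventually.of_forall fun eg => h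

/-- the maximal failure scale is small depending on `hc, m₀, Ca, C₁, r_*, f, C₂` -/
theorem lm_lt (B : FitBase) (a : ℝ → ℝ → ℝ → ℝ → ℝ → ℕ → ℝ → ℝ) (ha : ∀ x0 x1 x2 x3 x4 x5 x6, 0 < a x0 x1 x2 x3 x4 x5 x6) :
    Ev B (fun π => π.lm < a π.hc π.m₀ π.Ca π.C₁ π.rs π.f π.C₂) := by
  unfold Ev
  refine Eventually.of_forall fun hc => Eventually.of_forall fun m₀ => Eventually.of_forall fun Ca => Eventually.of_forall fun C₁ => Eventually.of_forall fun rs => Eventually.of_forall fun f => Eventually.of_forall fun C₂ => ?_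
  filter_upwards [Ioo_mem_nhdsGT (ha hc m₀ Ca C₁ rs f C₂)] with lm h
  exact Eventually.of_forall fun eg => h.2

/-- the goodness threshold is small depending on everything else -/
theorem eg_lt (B : FitBase) (a : ℝ → ℝ → ℝ → ℝ → ℝ → ℕ → ℝ → ℝ → ℝ) (ha : ∀ x0 x1 x2 x3 x4 x5 x6 x7, 0 < a x0 x1 x2 x3 x4 x5 x6 x7) :
    Ev B (fun π => π.eg < a π.hc π.m₀ π.Ca π.C₁ π.rs π.f π.C₂ π.lm) := by
  unfold Ev
  refine Eventually.of_forall fun hc => Eventually.of_forall fun m₀ => Eventually.of_forall fun Ca => Eventually.of_forall fun C₁ => Eventually.of_forall fun rs => Eventually.of_forall fun f => Eventually.of_forall fun C₂ => Eventually.of_forall fun lm => ?_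
  filter_upwards [Ioo_mem_nhdsGT (ha hc m₀ Ca C₁ rs f C₂ lm)] with eg h
  exact  h.2

end Ev

end Claimed.Agent.R322.Freq
end

/- ===== packed: Claimed.Agent.R322.Base.Exit.Rep ===== -/
section
/-!
# Row 322, Base/Exit: a stationary varifold whose support lies on a `C²` graph, in base coordinates

`GraphBox W u y₀ σ τ` : in the open box `ball y₀ σ × ball (u y₀) τ` the support of `W` lies on the
graph of `u`; the closed box lies in the domain; the graph over `ball y₀ σ` stays in the middle half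
of the box.

* `mulF W u y` : the multiplicity at the graph point over `y` (`0` if the point is not in the carrier);
* `baseμ W u y₀ σ = mulF · √g · μH[m] ⌞ ball y₀ σ`;
* `GraphBox.restrict_eq_map` : `μ ⌞ box = (Fg u)_# baseμ`;
* `GraphBox.base_stat` : the first variation in base coordinates,
  `∫_{ball} mulF √g tr (dFp ∘ DY) = 0` for all `Y ∈ C¹_c(ball y₀ σ; E (m+n))`.

PLANS.
* `ae_P_eq`: `W.locality` for `h X = prV X - u (prH X)` on the box; `h = 0` at the points of the support
  in the box; `W.μ_compl_support`; `fderiv h X = prV - Du ∘ prH`; `eq_PhA_of_comp_eq_zero`.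
* `ae_fibre`: `W.ae_fibre_avoid` for `g = prH`, `Z = supportᶜ`; a point of the support in the box over `y` is
  `mkHV y (u y)` (`mkHV_prH_prV`).
* `restrict_eq_map`: `Measure.ext`; for measurable `B` apply `W.area` with `k = m`, `O = box`, `g = prH`,
  `φ X = indicator B X * ofReal (vdens (Du (prH X)))`.  Right side: `ae_P_eq`, `tanJac_PhA_prH`
  give `μ (B ∩ box)`.  Left side: by `ae_fibre` the fibre sum is, for a.e. `y`,
  `indicator (ball y₀ σ) y * mulF y * φ (Fg u y)` (the fibre is `{Fg u y}` if `y ∈ ball`, `Fg u y ∈ M`, else empty;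
  `graph_in` puts `Fg u y` in the box; `tsum` over a subsingleton: `tsum_eq_single`).
* `base_stat`: test field `X x = η (prV x - u y₀) • Y (prH x)`, `η` a smooth bump, `η = 1` on
  `closedBall 0 (τ/2)`, `tsupport η ⊆ ball 0 τ` (`ContDiffBump`); `tsupport X` is a compact subset of the box;
  `fderiv X (Fg u y) = fderiv Y y ∘L prH` for `y` in the ball (`η = 1` near `u y - u y₀`); `W.stat`;
  the integrand vanishes off the box; `integral_eq`; `ae_P_eq`; `tdiv_PhA`; `prH_comp_dF`.
-/

set_option autoImplicit false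

open scoped ENNReal ContDiff Topology
open MeasureTheory

namespace Claimed.Agent.R322.Base.Exit

open Claimed.Agent.R322.Tube

variable {m n : ℕ}

/-- open box `ball y₀ σ × ball z₀ τ`. -/
def box (y₀ : E m) (z₀ : E n) (σ τ : ℝ) : Set (E (m + n)) :=
  {X | prH m n X ∈ Metric.ball y₀ σ ∧ prV m n X ∈ Metric.ball z₀ τ}

/-- closed box. -/
def cbox (y₀ : E m) (z₀ : E n) (σ τ : ℝ) : Set (E (m + n)) :=
  {X | prH m n X ∈ Metric.closedBall y₀ σ ∧ prV m n X ∈ Metric.closedBall z₀ τ}

theorem isOpen_box (y₀ : E m) (z₀ : E n) (σ τ : ℝ) : IsOpen (box y₀ z₀ σ τ) :=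
  (Metric.isOpen_ball.preimage (prH m n).continuous).inter
    (Metric.isOpen_ball.preimage (prV m n).continuous)

theorem rep_continuous_mkHV : Continuous (fun q : E m × E n => mkHV q.1 q.2) := by
  simp only [mkHV_eq]
  exact ((inH m n).continuous.comp continuous_fst).add ((inV m n).continuous.comp continuous_snd)

theorem rep_continuous_Fg {u : E m → E n} (hu : Continuous u) : Continuous (Fg u) :=
  rep_continuous_mkHV.comp (continuous_id.prodMk hu)

theorem rep_prH_Fg (u : E m → E n) (y : E m) : prH m n (Fg u y) = y := prH_mkHV _ _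

theorem rep_prV_Fg (u : E m → E n) (y : E m) : prV m n (Fg u y) = u y := prV_mkHV _ _

theorem rep_norm_sq (X : E (m + n)) : ‖X‖ ^ 2 = ‖prH m n X‖ ^ 2 + ‖prV m n X‖ ^ 2 := by
  rw [← norm_sq_mkHV, mkHV_prH_prV]

theorem isCompact_cbox (y₀ : E m) (z₀ : E n) (σ τ : ℝ) : IsCompact (cbox y₀ z₀ σ τ) := by
  have e : cbox y₀ z₀ σ τ = (fun q : E m × E n => mkHV q.1 q.2) ''
      (Metric.closedBall y₀ σ ×ˢ Metric.closedBall z₀ τ) := by
    ext X
    constructor
    · intro hX
      exact ⟨(prH m n X, prV m n X), ⟨hX.1, hX.2⟩, mkHV_prH_prV X⟩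
    · rintro ⟨⟨y, z⟩, ⟨hy, hz⟩, rfl⟩
      exact ⟨by rw [prH_mkHV]; exact hy, by rw [prV_mkHV]; exact hz⟩
  rw [e]
  exact ((isCompact_closedBall _ _).prod (isCompact_closedBall _ _)).image rep_continuous_mkHV

theorem box_subset_cbox (y₀ : E m) (z₀ : E n) (σ τ : ℝ) : box y₀ z₀ σ τ ⊆ cbox y₀ z₀ σ τ :=
  fun _ hX => ⟨Metric.ball_subset_closedBall hX.1, Metric.ball_subset_closedBall hX.2⟩

/-- the support of `W` lies on the graph of `u` in a box around `(y₀, u y₀)`. -/
structure GraphBox (W : SIV m n) (u : E m → E n) (y₀ : E m) (σ τ : ℝ) : Prop where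
  σ_pos : 0 < σ
  τ_pos : 0 < τ
  smooth : ContDiff ℝ 2 u
  sub : cbox y₀ (u y₀) σ τ ⊆ W.U
  graph_in : ∀ y ∈ Metric.ball y₀ σ, ‖u y - u y₀‖ < τ / 2
  on_graph : ∀ X ∈ W.support, X ∈ box y₀ (u y₀) σ τ → prV m n X = u (prH m n X)

/-- choice of a box. -/
theorem exists_graphBox (W : SIV m n) {p : E (m + n)} {A : Set (E (m + n))} (hA : IsOpen A)
    (hpA : p ∈ A) (hAU : A ⊆ W.U) {u : E m → E n} (hu : ContDiff ℝ 2 u)
    (hp : prV m n p = u (prH m n p))
    (hsub : ∀ X ∈ W.support, X ∈ A → prV m n X = u (prH m n X)) :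
    ∃ σ τ : ℝ, GraphBox W u (prH m n p) σ τ ∧ box (prH m n p) (u (prH m n p)) σ τ ⊆ A := by
  obtain ⟨ε, hε, hball⟩ := Metric.isOpen_iff.1 hA p hpA
  obtain ⟨δ, hδ, hcont⟩ := Metric.continuous_iff.1 hu.continuous (prH m n p) (ε / 4) (by positivity)
  have hσ : 0 < min (ε / 2) δ := lt_min (by positivity) hδ
  have hcb : cbox (prH m n p) (u (prH m n p)) (min (ε / 2) δ) (ε / 2) ⊆ A := by
    intro X hX
    apply hball
    have h1 : ‖prH m n (X - p)‖ ≤ ε / 2 := by
      rw [map_sub, ← dist_eq_norm]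
      exact (Metric.mem_closedBall.1 hX.1).trans (min_le_left _ _)
    have h2 : ‖prV m n (X - p)‖ ≤ ε / 2 := by
      rw [map_sub, hp, ← dist_eq_norm]
      exact Metric.mem_closedBall.1 hX.2
    have h3 := rep_norm_sq (X - p)
    rw [Metric.mem_ball, dist_eq_norm]
    have h4 : ‖X - p‖ ^ 2 < ε ^ 2 := by
      have a1 : ‖prH m n (X - p)‖ ^ 2 ≤ (ε / 2) ^ 2 := by gcongr
      have a2 : ‖prV m n (X - p)‖ ^ 2 ≤ (ε / 2) ^ 2 := by gcongr
      nlinarith
    exact lt_of_pow_lt_pow_left₀ 2 hε.le h4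
  refine ⟨min (ε / 2) δ, ε / 2, ⟨hσ, by positivity, hu, hcb.trans hAU, ?_, ?_⟩,
    (box_subset_cbox _ _ _ _).trans hcb⟩
  · intro y hy
    have := hcont y ((Metric.mem_ball.1 hy).trans_le (min_le_right _ _))
    rw [dist_eq_norm] at this
    linarith
  · intro X hX hXb
    exact hsub X hX (hcb (box_subset_cbox _ _ _ _ hXb))

open Classical in
/-- multiplicity of `W` at the graph point over `y`. -/
noncomputable def mulF (W : SIV m n) (u : E m → E n) (y : E m) : ℕ :=
  if Fg u y ∈ W.M then W.θ (Fg u y) else 0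

theorem measurable_mulF (W : SIV m n) {u : E m → E n} (hu : Continuous u) :
    Measurable (mulF W u) := by
  have hF : Measurable (Fg u) := (rep_continuous_Fg hu).measurable
  unfold mulF
  exact Measurable.ite (hF W.M_meas) (W.θ_meas.comp hF) measurable_const

/-- the weight in base coordinates. -/
noncomputable def baseμ (W : SIV m n) (u : E m → E n) (y₀ : E m) (σ : ℝ) : Measure (E m) :=
  ((μH[(m : ℝ)]).restrict (Metric.ball y₀ σ)).withDensity
    (fun y => (mulF W u y : ℝ≥0∞) * ENNReal.ofReal (vdens (fderiv ℝ u y)))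

namespace GraphBox

variable {W : SIV m n} {u : E m → E n} {y₀ : E m} {σ τ : ℝ}

theorem Fg_mem_box (h : GraphBox W u y₀ σ τ) {y : E m} (hy : y ∈ Metric.ball y₀ σ) :
    Fg u y ∈ box y₀ (u y₀) σ τ := by
  refine ⟨by rw [rep_prH_Fg]; exact hy, ?_⟩
  rw [rep_prV_Fg, Metric.mem_ball, dist_eq_norm]
  have := h.graph_in y hy
  have := h.τ_pos
  linarith

/-- the tangent planes are the tangent planes of the graph. -/
theorem ae_P_eq (h : GraphBox W u y₀ σ τ) :
    ∀ᵐ X ∂W.μ, X ∈ box y₀ (u y₀) σ τ → W.P X = Ph u (prH m n X) := by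
  have hsubU : box y₀ (u y₀) σ τ ⊆ W.U := (box_subset_cbox _ _ _ _).trans h.sub
  have hu1 : ContDiff ℝ 1 u := h.smooth.of_le (by norm_num)
  have hh : ContDiff ℝ 1 (fun X => prV m n X - u (prH m n X)) :=
    (prV m n).contDiff.sub (hu1.comp (prH m n).contDiff)
  have h1 := W.locality (isOpen_box y₀ (u y₀) σ τ) hsubU hh.contDiffOn
  have h2 : ∀ᵐ X ∂W.μ, X ∈ W.support := by
    have := measure_eq_zero_iff_ae_notMem.1 W.μ_compl_support
    filter_upwards [this] with X hX
    exact not_not.1 hX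
  filter_upwards [h1, h2] with X hX hXs hXb
  have h3 := hX hXb (sub_eq_zero.2 (h.on_graph X hXs hXb))
  have hd : DifferentiableAt ℝ u (prH m n X) := hu1.differentiable one_ne_zero _
  have h4 : fderiv ℝ (fun X => prV m n X - u (prH m n X)) X
      = prV m n - fderiv ℝ u (prH m n X) ∘L prH m n := by
    have : HasFDerivAt (fun X => prV m n X - u (prH m n X))
        (prV m n - fderiv ℝ u (prH m n X) ∘L prH m n) X :=
      (prV m n).hasFDerivAt.sub (hd.hasFDerivAt.comp X (prH m n).hasFDerivAt)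
    exact this.fderiv
  rw [h4] at h3
  exact eq_PhA_of_comp_eq_zero (W.P_proj X) _ h3

/-- almost every vertical fibre of the carrier in the box is contained in the graph. -/
theorem ae_fibre (h : GraphBox W u y₀ σ τ) :
    ∀ᵐ y ∂(μH[(m : ℝ)] : Measure (E m)), ∀ X ∈ W.M ∩ box y₀ (u y₀) σ τ,
      prH m n X = y → X = Fg u y := by
  have hsubU : box y₀ (u y₀) σ τ ⊆ W.U := (box_subset_cbox _ _ _ _).trans h.sub
  have h1 := W.ae_fibre_avoid (isOpen_box y₀ (u y₀) σ τ) hsubU (g := prH m n)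
    (prH m n).contDiff.contDiffOn W.μ_compl_support
  filter_upwards [h1] with y hy X hX hXy
  have hXs : X ∈ W.support := not_not.1 (hy X hX hXy)
  have h2 := h.on_graph X hXs hX.2
  rw [← mkHV_prH_prV X, h2, hXy]
  rfl

theorem rep_vdens_nonneg (A : E m →L[ℝ] E n) : 0 ≤ vdens A := zero_le_one.trans (one_le_vdens A)

theorem rep_measurable_vdens (hu : ContDiff ℝ 2 u) :
    Measurable (fun y => vdens (fderiv ℝ u y)) := (contDiff_vdens hu).continuous.measurable

theorem rep_measurable_dens (W : SIV m n) (hu : ContDiff ℝ 2 u) :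
    Measurable (fun y => (mulF W u y : ℝ≥0∞) * ENNReal.ofReal (vdens (fderiv ℝ u y))) :=
  ((measurable_of_countable (fun k : ℕ => (k : ℝ≥0∞))).comp (measurable_mulF W hu.continuous)).mul
    (ENNReal.measurable_ofReal.comp (rep_measurable_vdens hu))

/-- **representation of the weight on the graph.** -/
theorem restrict_eq_map (h : GraphBox W u y₀ σ τ) :
    W.μ.restrict (box y₀ (u y₀) σ τ) = (baseμ W u y₀ σ).map (Fg u) := by
  have hsubU : box y₀ (u y₀) σ τ ⊆ W.U := (box_subset_cbox _ _ _ _).trans h.sub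
  have hF : Measurable (Fg u) := (rep_continuous_Fg h.smooth.continuous).measurable
  have hbox : MeasurableSet (box y₀ (u y₀) σ τ) := (isOpen_box _ _ _ _).measurableSet
  ext B hB
  rw [Measure.restrict_apply hB, Measure.map_apply hF hB, baseμ, withDensity_apply _ (hF hB)]
  have hφ : Measurable (fun X : E (m + n) => B.indicator (fun _ => (1 : ℝ≥0∞)) X *
      ENNReal.ofReal (vdens (fderiv ℝ u (prH m n X)))) :=
    (measurable_const.indicator hB).mul (ENNReal.measurable_ofReal.comp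
      ((rep_measurable_vdens h.smooth).comp (prH m n).continuous.measurable))
  have harea := W.area m (box y₀ (u y₀) σ τ) (prH m n) _ (isOpen_box _ _ _ _) hsubU
    (prH m n).contDiff.contDiffOn hφ
  -- the right side of the area formula
  have hR : ∫⁻ x in box y₀ (u y₀) σ τ, (B.indicator (fun _ => (1 : ℝ≥0∞)) x *
        ENNReal.ofReal (vdens (fderiv ℝ u (prH m n x)))) *
        ENNReal.ofReal (tanJac (W.P x) (fderiv ℝ (prH m n) x)) ∂(wt m W.M W.θ)
      = W.μ (B ∩ box y₀ (u y₀) σ τ) := by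
    have hae : ∀ᵐ x ∂((wt m W.M W.θ).restrict (box y₀ (u y₀) σ τ)),
        (B.indicator (fun _ => (1 : ℝ≥0∞)) x *
          ENNReal.ofReal (vdens (fderiv ℝ u (prH m n x)))) *
          ENNReal.ofReal (tanJac (W.P x) (fderiv ℝ (prH m n) x))
        = B.indicator (fun _ => (1 : ℝ≥0∞)) x := by
      rw [ae_restrict_iff' hbox]
      filter_upwards [h.ae_P_eq] with x hx hxb
      rw [hx hxb, (prH m n).fderiv, mul_assoc, ← ENNReal.ofReal_mul (rep_vdens_nonneg _),
        mul_comm (vdens _)]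
      show _ * ENNReal.ofReal (tanJac (PhA (fderiv ℝ u (prH m n x))) (prH m n) *
        vdens (fderiv ℝ u (prH m n x))) = _
      rw [tanJac_PhA_prH, ENNReal.ofReal_one, mul_one]
    rw [lintegral_congr_ae hae, lintegral_indicator_const hB, one_mul, Measure.restrict_apply hB]
    rfl
  rw [← hR, ← harea, ← lintegral_indicator (hF hB), ← lintegral_indicator Metric.isOpen_ball.measurableSet]
  refine lintegral_congr_ae ?_
  filter_upwards [h.ae_fibre] with y hy
  by_cases hc : y ∈ Metric.ball y₀ σ ∧ Fg u y ∈ W.M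
  · have hmem : Fg u y ∈ W.M ∩ box y₀ (u y₀) σ τ ∧ prH m n (Fg u y) = y :=
      ⟨⟨hc.2, h.Fg_mem_box hc.1⟩, rep_prH_Fg u y⟩
    rw [tsum_eq_single (⟨Fg u y, hmem⟩ : {x // x ∈ W.M ∩ box y₀ (u y₀) σ τ ∧ prH m n x = y})
      (fun b hb => absurd (Subtype.ext (hy b.1 b.2.1 b.2.2)) hb), Set.indicator_of_mem hc.1]
    simp only [rep_prH_Fg]
    by_cases hB' : Fg u y ∈ B
    · rw [Set.indicator_of_mem hB', Set.indicator_of_mem (show y ∈ Fg u ⁻¹' B from hB'), one_mul,
        mulF, if_pos hc.2]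
    · rw [Set.indicator_of_notMem hB', Set.indicator_of_notMem (show y ∉ Fg u ⁻¹' B from hB'),
        zero_mul, mul_zero]
  · have hemp : IsEmpty {x // x ∈ W.M ∩ box y₀ (u y₀) σ τ ∧ prH m n x = y} :=
      ⟨fun x => hc ⟨by have := x.2.1.2.1; rwa [x.2.2] at this,
        by rw [← hy x.1 x.2.1 x.2.2]; exact x.2.1.1⟩⟩
    rw [tsum_empty]
    by_cases hyb : y ∈ Metric.ball y₀ σ
    · have hM : Fg u y ∉ W.M := fun hM => hc ⟨hyb, hM⟩
      rw [Set.indicator_of_mem hyb]
      by_cases hB' : y ∈ Fg u ⁻¹' B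
      · rw [Set.indicator_of_mem hB', mulF, if_neg hM, Nat.cast_zero, zero_mul]
      · rw [Set.indicator_of_notMem hB']
    · rw [Set.indicator_of_notMem hyb]

theorem integrableOn_mulF_mul (h : GraphBox W u y₀ σ τ) :
    IntegrableOn (fun y => (mulF W u y : ℝ) * vdens (fderiv ℝ u y)) (Metric.ball y₀ σ)
      (μH[(m : ℝ)]) := by
  have hF : Measurable (Fg u) := (rep_continuous_Fg h.smooth.continuous).measurable
  have hmeas : Measurable (fun y => (mulF W u y : ℝ) * vdens (fderiv ℝ u y)) :=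
    ((measurable_of_countable (fun k : ℕ => (k : ℝ))).comp
      (measurable_mulF W h.smooth.continuous)).mul (rep_measurable_vdens h.smooth)
  refine ⟨hmeas.aestronglyMeasurable, ?_⟩
  rw [hasFiniteIntegral_iff_enorm]
  have e : ∫⁻ y in Metric.ball y₀ σ, ‖(mulF W u y : ℝ) * vdens (fderiv ℝ u y)‖ₑ ∂μH[(m : ℝ)]
      = baseμ W u y₀ σ Set.univ := by
    rw [baseμ, withDensity_apply _ MeasurableSet.univ, Measure.restrict_univ]
    refine lintegral_congr fun y => ?_
    rw [Real.enorm_eq_ofReal (mul_nonneg (Nat.cast_nonneg _) (rep_vdens_nonneg _)),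
      ENNReal.ofReal_mul (Nat.cast_nonneg _), ENNReal.ofReal_natCast]
  have e2 : baseμ W u y₀ σ Set.univ = W.μ (box y₀ (u y₀) σ τ) := by
    have := congrArg (fun ν : Measure (E (m + n)) => ν Set.univ) h.restrict_eq_map
    simp only [Measure.map_apply hF MeasurableSet.univ, Set.preimage_univ,
      Measure.restrict_apply MeasurableSet.univ, Set.univ_inter] at this
    exact this.symm
  rw [e, e2]
  exact (measure_mono (box_subset_cbox _ _ _ _)).trans_lt
    (W.locfin _ (isCompact_cbox _ _ _ _) h.sub)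

theorem integrableOn_mulF (h : GraphBox W u y₀ σ τ) :
    IntegrableOn (fun y => (mulF W u y : ℝ)) (Metric.ball y₀ σ) (μH[(m : ℝ)]) := by
  refine h.integrableOn_mulF_mul.mono'
    ((measurable_of_countable (fun k : ℕ => (k : ℝ))).comp
      (measurable_mulF W h.smooth.continuous)).aestronglyMeasurable
    (Filter.Eventually.of_forall fun y => ?_)
  rw [Real.norm_of_nonneg (Nat.cast_nonneg _)]
  exact le_mul_of_one_le_right (Nat.cast_nonneg _) (one_le_vdens _)

theorem integral_eq (h : GraphBox W u y₀ σ τ) {f : E (m + n) → ℝ} (hf : Measurable f) :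
    ∫ X in box y₀ (u y₀) σ τ, f X ∂W.μ
      = ∫ y in Metric.ball y₀ σ, (mulF W u y : ℝ) * vdens (fderiv ℝ u y) * f (Fg u y)
          ∂μH[(m : ℝ)] := by
  have hF : Measurable (Fg u) := (rep_continuous_Fg h.smooth.continuous).measurable
  rw [h.restrict_eq_map, integral_map hF.aemeasurable hf.aestronglyMeasurable, baseμ,
    integral_withDensity_eq_integral_toReal_smul (rep_measurable_dens W h.smooth)
      (Filter.Eventually.of_forall fun y =>
        ENNReal.mul_lt_top (ENNReal.natCast_lt_top _) ENNReal.ofReal_lt_top)]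
  refine integral_congr_ae (Filter.Eventually.of_forall fun y => ?_)
  simp only [ENNReal.toReal_mul, ENNReal.toReal_natCast,
    ENNReal.toReal_ofReal (rep_vdens_nonneg _), smul_eq_mul]

/-- **first variation in base coordinates.** -/
theorem base_stat (h : GraphBox W u y₀ σ τ) {Y : E m → E (m + n)} (hY : ContDiff ℝ 1 Y)
    (hYc : HasCompactSupport Y) (hYs : tsupport Y ⊆ Metric.ball y₀ σ) :
    ∫ y in Metric.ball y₀ σ, (mulF W u y : ℝ) * vdens (fderiv ℝ u y) *
      trc (dFp (fderiv ℝ u y) ∘L fderiv ℝ Y y) ∂μH[(m : ℝ)] = 0 := by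
  have hτ := h.τ_pos
  have hbox : MeasurableSet (box y₀ (u y₀) σ τ) := (isOpen_box _ _ _ _).measurableSet
  let η : ContDiffBump (0 : E n) := ⟨τ / 2, 3 * τ / 4, by positivity, by linarith⟩
  have hηout : η.rOut = 3 * τ / 4 := rfl
  have hηin : η.rIn = τ / 2 := rfl
  set X : E (m + n) → E (m + n) := fun x => η (prV m n x - u y₀) • Y (prH m n x) with hX
  have hXc1 : ContDiff ℝ 1 X :=
    (η.contDiff.comp ((prV m n).contDiff.sub contDiff_const)).smul (hY.comp (prH m n).contDiff)
  set K : Set (E (m + n)) :=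
    {x | prH m n x ∈ tsupport Y ∧ prV m n x ∈ Metric.closedBall (u y₀) (3 * τ / 4)} with hK
  have hKclosed : IsClosed K :=
    ((isClosed_tsupport Y).preimage (prH m n).continuous).inter
      (Metric.isClosed_closedBall.preimage (prV m n).continuous)
  have hKbox : K ⊆ box y₀ (u y₀) σ τ := fun x hx =>
    ⟨hYs hx.1, Metric.closedBall_subset_ball (by linarith) hx.2⟩
  have hKcomp : IsCompact K :=
    (isCompact_cbox y₀ (u y₀) σ τ).of_isClosed_subset hKclosed
      (hKbox.trans (box_subset_cbox _ _ _ _))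
  have hsuppK : tsupport X ⊆ K := by
    refine closure_minimal (fun x hx => ?_) hKclosed
    have hx' : η (prV m n x - u y₀) • Y (prH m n x) ≠ 0 := hx
    rw [smul_ne_zero_iff] at hx'
    refine ⟨subset_tsupport _ hx'.2, ?_⟩
    have h1 : prV m n x - u y₀ ∈ Function.support η := hx'.1
    rw [η.support_eq, Metric.mem_ball, dist_zero_right, hηout] at h1
    rw [Metric.mem_closedBall, dist_eq_norm]
    exact h1.le
  have hXcs : HasCompactSupport X := hKcomp.of_isClosed_subset (isClosed_tsupport X) hsuppK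
  have hstat := W.stat X hXc1 hXcs
    (hsuppK.trans (hKbox.trans ((box_subset_cbox _ _ _ _).trans h.sub)))
  have h1 : ∫ x, tdiv (W.P x) (fderiv ℝ X x) ∂(wt m W.M W.θ)
      = ∫ x in box y₀ (u y₀) σ τ, tdiv (W.P x) (fderiv ℝ X x) ∂W.μ := by
    symm
    refine setIntegral_eq_integral_of_forall_compl_eq_zero fun x hx => ?_
    rw [fderiv_of_notMem_tsupport ℝ (fun hx' => hx (hKbox (hsuppK hx'))), Base.tdiv_zero]
  have h2 : ∫ x in box y₀ (u y₀) σ τ, tdiv (W.P x) (fderiv ℝ X x) ∂W.μ
      = ∫ x in box y₀ (u y₀) σ τ, tdiv (Ph u (prH m n x)) (fderiv ℝ X x) ∂W.μ := by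
    refine integral_congr_ae ?_
    rw [Filter.EventuallyEq, ae_restrict_iff' hbox]
    filter_upwards [h.ae_P_eq] with x hx hxb
    rw [hx hxb]
  have hfm : Measurable (fun x => tdiv (Ph u (prH m n x)) (fderiv ℝ X x)) :=
    (Claimed.Agent.R322.Base.continuous_tdiv (m + n)).measurable.comp
      (((contDiff_Ph h.smooth).continuous.comp (prH m n).continuous).measurable.prodMk
        (hXc1.continuous_fderiv (by simp)).measurable)
  rw [h1, h2, h.integral_eq hfm] at hstat
  rw [← hstat]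
  refine setIntegral_congr_fun Metric.isOpen_ball.measurableSet fun y hy => ?_
  have hfd : fderiv ℝ X (Fg u y) = fderiv ℝ Y y ∘L prH m n := by
    have hev : X =ᶠ[𝓝 (Fg u y)] fun x => Y (prH m n x) := by
      have hopen : IsOpen {x : E (m + n) | prV m n x - u y₀ ∈ Metric.ball (0 : E n) (τ / 2)} :=
        Metric.isOpen_ball.preimage ((prV m n).continuous.sub continuous_const)
      have hmem : Fg u y ∈ {x : E (m + n) | prV m n x - u y₀ ∈ Metric.ball (0 : E n) (τ / 2)} := by
        show prV m n (Fg u y) - u y₀ ∈ Metric.ball (0 : E n) (τ / 2)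
        rw [rep_prV_Fg, mem_ball_zero_iff]
        exact h.graph_in y hy
      filter_upwards [hopen.mem_nhds hmem] with x hx
      show η (prV m n x - u y₀) • Y (prH m n x) = Y (prH m n x)
      rw [η.one_of_mem_closedBall (Metric.ball_subset_closedBall hx), one_smul]
    rw [hev.fderiv_eq]
    have hd : DifferentiableAt ℝ Y (prH m n (Fg u y)) := hY.differentiable one_ne_zero _
    have := (hd.hasFDerivAt.comp (Fg u y) (prH m n).hasFDerivAt).fderiv
    rw [rep_prH_Fg] at this
    exact this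
  show _ * trc _ = _ * tdiv (Ph u (prH m n (Fg u y))) (fderiv ℝ X (Fg u y))
  rw [rep_prH_Fg, hfd]
  show _ = _ * tdiv (PhA (fderiv ℝ u y)) _
  rw [tdiv_PhA, ContinuousLinearMap.comp_assoc, prH_comp_dF, ContinuousLinearMap.comp_id]

end GraphBox

end Claimed.Agent.R322.Base.Exit
end

/- ===== packed: Claimed.Agent.R322.Base.Exit.Const ===== -/
section
/-!
# Row 322, Base/Exit: two lemmas of the calculus of variations on a ball of `E N` (Mathlib only)

* `ae_const_of_weak_grad_zero` : an integrable function on a ball whose distributional gradient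
  vanishes is a.e. constant;
* `eq_zero_of_integral_mul_eq_zero` : fundamental lemma for continuous functions.

PLANS.
* `ae_const_of_weak_grad_zero`.  Let `g = indicator (ball y₀ σ) f` (integrable).  For a bump `φ`
  with `φ.rOut = ε` the convolution `c_φ = φ.normed μ ⋆[lsmul ℝ ℝ, μ] g` is `C¹`
  (`HasCompactSupport.hasFDerivAt_convolution_left`), and for `x ∈ ball y₀ (σ - ε)` its derivative in
  the direction `e` is `∫ D(φ.normed μ)(x - y) e * g y dy = - ∫_{ball} f y * Dξ(y) e dy = 0` with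
  `ξ y = φ.normed μ (x - y)`, `tsupport ξ = closedBall x ε ⊆ ball y₀ σ`.  So `c_φ` is constant on the convex
  open set `ball y₀ (σ - ε)` (`IsOpen.is_const_of_fderiv_eq_zero` / `Convex.is_const_of_fderivWithin_eq_zero`).
  With `φ i`, `rOut = 1/(i+1)`, `rIn = rOut / 2`:
  `ContDiffBump.ae_convolution_tendsto_right_of_locallyIntegrable` gives `c_{φ i} x → g x` for a.e. `x`.
  Two good points `x, x'` of the ball lie in `ball y₀ (σ - 1/(i+1))` for large `i`, hence `g x = g x'`.
* `eq_zero_of_integral_mul_eq_zero`: `IsOpen.ae_eq_zero_of_integral_contDiff_smul_eq_zero`, then a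
  continuous function which vanishes a.e. on an open set vanishes on it (open sets have positive Haar measure).

Proved by helper297.
-/

set_option autoImplicit false

open scoped ENNReal ContDiff Topology Convolution
open MeasureTheory

namespace Claimed.Agent.R322.Base.Exit

/-- the derivative of the mollified function vanishes well inside the ball -/
theorem ae_const_aux_fderiv {N : ℕ} {μ : Measure (E N)} [μ.IsAddHaarMeasure]
    {f : E N → ℝ} {y₀ : E N} {σ : ℝ} (hf : IntegrableOn f (Metric.ball y₀ σ) μ)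
    (h : ∀ ξ : E N → ℝ, ContDiff ℝ ∞ ξ → HasCompactSupport ξ → tsupport ξ ⊆ Metric.ball y₀ σ →
      ∀ e : E N, ∫ y in Metric.ball y₀ σ, f y * fderiv ℝ ξ y e ∂μ = 0)
    (φ : ContDiffBump (0 : E N)) {x : E N} (hx : x ∈ Metric.ball y₀ (σ - φ.rOut)) :
    HasFDerivAt (𝕜 := ℝ)
      (φ.normed μ ⋆[ContinuousLinearMap.lsmul ℝ ℝ, μ] (Metric.ball y₀ σ).indicator f)
      (0 : E N →L[ℝ] ℝ) x := by
  set g : E N → ℝ := (Metric.ball y₀ σ).indicator f with hg
  set ρ : E N → ℝ := φ.normed μ with hρ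
  have hgi : Integrable g μ := (integrable_indicator_iff Metric.isOpen_ball.measurableSet).2 hf
  have hρc : HasCompactSupport ρ := φ.hasCompactSupport_normed
  have hρs : ContDiff ℝ ∞ ρ := φ.contDiff_normed
  have hρ1 : ContDiff ℝ 1 ρ := φ.contDiff_normed
  have hd := hρc.hasFDerivAt_convolution_left (ContinuousLinearMap.lsmul ℝ ℝ) hρ1
    hgi.locallyIntegrable x
  have hz : (fderiv ℝ ρ ⋆[(ContinuousLinearMap.lsmul ℝ ℝ).precompL (E N), μ] g) x = 0 := by
    ext e
    have hex : ConvolutionExistsAt (fderiv ℝ ρ) g x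
        ((ContinuousLinearMap.lsmul ℝ ℝ).precompL (E N)) μ :=
      (hρc.fderiv ℝ).convolutionExists_left _ (hρ1.continuous_fderiv one_ne_zero)
        hgi.locallyIntegrable x
    rw [convolution_def, ContinuousLinearMap.integral_apply hex]
    simp only [ContinuousLinearMap.precompL_apply, ContinuousLinearMap.lsmul_apply, smul_eq_mul,
      _root_.zero_apply]
    -- change of variables
    have e1 : ∫ t, fderiv ℝ ρ t e * g (x - t) ∂μ = ∫ y, fderiv ℝ ρ (x - y) e * g y ∂μ := by
      rw [← integral_sub_left_eq_self (fun y => fderiv ℝ ρ (x - y) e * g y) μ x]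
      simp only [sub_sub_cancel]
    rw [e1]
    -- the test function
    set ξ : E N → ℝ := fun y => ρ (x - y) with hξ
    have hξs : ContDiff ℝ ∞ ξ := hρs.comp (contDiff_const.sub contDiff_id)
    have hsupp : Function.support ξ ⊆ Metric.closedBall x φ.rOut := by
      intro y hy
      have : x - y ∈ Function.support ρ := hy
      rw [hρ, φ.support_normed_eq, Metric.mem_ball, dist_zero_right] at this
      rw [Metric.mem_closedBall, dist_eq_norm, ← norm_neg, neg_sub]
      exact this.le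
    have hξt : tsupport ξ ⊆ Metric.closedBall x φ.rOut :=
      closure_minimal hsupp Metric.isClosed_closedBall
    have hξc : HasCompactSupport ξ :=
      HasCompactSupport.of_support_subset_isCompact (isCompact_closedBall x φ.rOut) hsupp
    have hξb : tsupport ξ ⊆ Metric.ball y₀ σ := by
      refine hξt.trans fun y hy => ?_
      rw [Metric.mem_closedBall] at hy
      rw [Metric.mem_ball] at hx ⊢
      have := dist_triangle y x y₀
      linarith
    have hξd : ∀ y, fderiv ℝ ξ y e = - fderiv ℝ ρ (x - y) e := by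
      intro y
      have h1 : HasFDerivAt ρ (fderiv ℝ ρ (x - y)) (x - y) :=
        (hρ1.differentiable one_ne_zero (x - y)).hasFDerivAt
      have h2 : HasFDerivAt (fun y : E N => x - y) (0 - ContinuousLinearMap.id ℝ (E N)) y :=
        (hasFDerivAt_const x y).sub (hasFDerivAt_id y)
      have h3 := h1.comp y h2
      have h4 : fderiv ℝ ξ y = (fderiv ℝ ρ (x - y)).comp (0 - ContinuousLinearMap.id ℝ (E N)) :=
        h3.fderiv
      rw [h4]
      simp
    have h0 := h ξ hξs hξc hξb e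
    rw [← integral_indicator Metric.isOpen_ball.measurableSet] at h0
    have e2 : ∀ y, fderiv ℝ ρ (x - y) e * g y
        = - (Metric.ball y₀ σ).indicator (fun y => f y * fderiv ℝ ξ y e) y := by
      intro y
      by_cases hy : y ∈ Metric.ball y₀ σ
      · rw [Set.indicator_of_mem hy, hg, Set.indicator_of_mem hy, hξd]
        ring
      · rw [Set.indicator_of_notMem hy, hg, Set.indicator_of_notMem hy]
        simp
    simp_rw [e2]
    rw [integral_neg, h0, neg_zero]
  rw [hz] at hd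
  exact hd

/-- **Constancy lemma.** -/
theorem ae_const_of_weak_grad_zero {N : ℕ} {μ : Measure (E N)} [μ.IsAddHaarMeasure]
    {f : E N → ℝ} {y₀ : E N} {σ : ℝ} (hf : IntegrableOn f (Metric.ball y₀ σ) μ)
    (h : ∀ ξ : E N → ℝ, ContDiff ℝ ∞ ξ → HasCompactSupport ξ → tsupport ξ ⊆ Metric.ball y₀ σ →
      ∀ e : E N, ∫ y in Metric.ball y₀ σ, f y * fderiv ℝ ξ y e ∂μ = 0) :
    ∃ c : ℝ, ∀ᵐ y ∂μ, y ∈ Metric.ball y₀ σ → f y = c := by
  set g : E N → ℝ := (Metric.ball y₀ σ).indicator f with hg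
  have hgi : Integrable g μ := (integrable_indicator_iff Metric.isOpen_ball.measurableSet).2 hf
  -- the mollifiers
  let φ : ℕ → ContDiffBump (0 : E N) := fun i =>
    { rIn := 1 / (2 * ((i : ℝ) + 1))
      rOut := 1 / ((i : ℝ) + 1)
      rIn_pos := by positivity
      rIn_lt_rOut := by
        apply one_div_lt_one_div_of_lt (by positivity)
        have : (0 : ℝ) ≤ i := Nat.cast_nonneg i
        linarith }
  have hφ0 : Filter.Tendsto (fun i => (φ i).rOut) Filter.atTop (𝓝 0) :=
    tendsto_one_div_add_atTop_nhds_zero_nat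
  have hφK : ∀ᶠ i in Filter.atTop, (φ i).rOut ≤ 2 * (φ i).rIn := by
    refine Filter.Eventually.of_forall fun i => ?_
    show 1 / ((i : ℝ) + 1) ≤ 2 * (1 / (2 * ((i : ℝ) + 1)))
    have : (0 : ℝ) < (i : ℝ) + 1 := by positivity
    apply le_of_eq
    field_simp
  have hae := ContDiffBump.ae_convolution_tendsto_right_of_locallyIntegrable (μ := μ) hφ0 hφK
    hgi.locallyIntegrable
  -- constancy of the mollified functions
  have hconst : ∀ i, ∀ x ∈ Metric.ball y₀ (σ - (φ i).rOut), ∀ x' ∈ Metric.ball y₀ (σ - (φ i).rOut),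
      ((φ i).normed μ ⋆[ContinuousLinearMap.lsmul ℝ ℝ, μ] g) x
        = ((φ i).normed μ ⋆[ContinuousLinearMap.lsmul ℝ ℝ, μ] g) x' := by
    intro i x hx x' hx'
    refine Metric.isOpen_ball.is_const_of_fderiv_eq_zero (𝕜 := ℝ)
      (convex_ball y₀ _).isPreconnected ?_ ?_ hx hx'
    · intro z hz
      exact (ae_const_aux_fderiv hf h (φ i) hz).differentiableAt.differentiableWithinAt
    · intro z hz
      exact (ae_const_aux_fderiv hf h (φ i) hz).fderiv
  by_cases hne : ∃ x' ∈ Metric.ball y₀ σ, Filter.Tendsto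
      (fun i => ((φ i).normed μ ⋆[ContinuousLinearMap.lsmul ℝ ℝ, μ] g) x') Filter.atTop (𝓝 (g x'))
  · obtain ⟨x', hx', hlim'⟩ := hne
    refine ⟨g x', ?_⟩
    filter_upwards [hae] with y hlim hy
    have hin : ∀ z ∈ Metric.ball y₀ σ, ∀ᶠ i in Filter.atTop,
        z ∈ Metric.ball y₀ (σ - (φ i).rOut) := by
      intro z hz
      rw [Metric.mem_ball] at hz
      have : ∀ᶠ i in Filter.atTop, (φ i).rOut < σ - dist z y₀ :=
        hφ0.eventually (gt_mem_nhds (by linarith))
      filter_upwards [this] with i hi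
      rw [Metric.mem_ball]
      linarith
    have heq : (fun i => ((φ i).normed μ ⋆[ContinuousLinearMap.lsmul ℝ ℝ, μ] g) y)
        =ᶠ[Filter.atTop] fun i => ((φ i).normed μ ⋆[ContinuousLinearMap.lsmul ℝ ℝ, μ] g) x' := by
      filter_upwards [hin y hy, hin x' hx'] with i h1 h2
      exact hconst i y h1 x' h2
    have h3 := tendsto_nhds_unique (hlim.congr' heq) hlim'
    rw [← h3, hg, Set.indicator_of_mem hy]
  · refine ⟨0, ?_⟩
    filter_upwards [hae] with y hlim hy
    exact absurd ⟨y, hy, hlim⟩ hne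

/-- **Fundamental lemma of the calculus of variations** for continuous functions. -/
theorem eq_zero_of_integral_mul_eq_zero {N : ℕ} {μ : Measure (E N)} [μ.IsAddHaarMeasure]
    {f : E N → ℝ} (hf : Continuous f) {D : Set (E N)} (hD : IsOpen D)
    (h : ∀ ξ : E N → ℝ, ContDiff ℝ ∞ ξ → HasCompactSupport ξ → tsupport ξ ⊆ D →
      ∫ y in D, ξ y * f y ∂μ = 0) :
    ∀ y ∈ D, f y = 0 := by
  have hae : ∀ᵐ x ∂μ, x ∈ D → f x = 0 := by
    refine hD.ae_eq_zero_of_integral_contDiff_smul_eq_zero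
      (hf.locallyIntegrable.locallyIntegrableOn D) ?_
    intro ξ h1 h2 h3
    rw [← h ξ h1 h2 h3]
    symm
    refine setIntegral_eq_integral_of_forall_compl_eq_zero fun y hy => ?_
    have : ξ y = 0 := by
      by_contra hne
      exact hy (h3 (subset_tsupport ξ hne))
    rw [this, zero_mul]
  have hopen : IsOpen (D ∩ {y | f y ≠ 0}) := hD.inter (isOpen_ne_fun hf continuous_const)
  have hnull : μ (D ∩ {y | f y ≠ 0}) = 0 := by
    rw [ae_iff] at hae
    refine measure_mono_null ?_ hae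
    intro y hy
    simp only [Set.mem_ofPred_eq, Classical.not_imp]
    exact ⟨hy.1, hy.2⟩
  have hempty := (hopen.measure_eq_zero_iff μ).1 hnull
  intro y hy
  by_contra hne
  have : y ∈ D ∩ {y | f y ≠ 0} := ⟨hy, hne⟩
  rw [hempty] at this
  exact this

/-- cut-off extension of a vector valued map: a map which is smooth on an open ball coincides on
the ball of half the radius with a globally smooth map. -/
theorem exists_contDiff_eqOn_ball {N k : ℕ} {u : E N → E k} {y₀ : E N} {σ : ℝ} (hσ : 0 < σ)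
    (hu : ContDiffOn ℝ ∞ u (Metric.ball y₀ σ)) :
    ∃ v : E N → E k, ContDiff ℝ ∞ v ∧ Set.EqOn v u (Metric.ball y₀ (σ / 2)) := by
  let χ : ContDiffBump y₀ :=
    { rIn := σ / 2
      rOut := 3 * σ / 4
      rIn_pos := by positivity
      rIn_lt_rOut := by linarith }
  refine ⟨fun y => χ y • u y, ?_, ?_⟩
  · rw [contDiff_iff_contDiffAt]
    intro x
    by_cases hx : x ∈ Metric.ball y₀ σ
    · exact χ.contDiffAt.smul (hu.contDiffAt (Metric.isOpen_ball.mem_nhds hx))
    · have hx' : x ∉ tsupport χ := by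
        rw [χ.tsupport_eq]
        intro hc
        apply hx
        rw [Metric.mem_closedBall] at hc
        rw [Metric.mem_ball]
        have : χ.rOut = 3 * σ / 4 := rfl
        linarith
      have hev : (fun y => χ y • u y) =ᶠ[𝓝 x] fun _ => 0 := by
        have := notMem_tsupport_iff_eventuallyEq.1 hx'
        filter_upwards [this] with y hy
        rw [hy]
        simp
      exact contDiffAt_const.congr_of_eventuallyEq hev
  · intro y hy
    have : χ y = 1 := χ.one_of_mem_closedBall (Metric.ball_subset_closedBall hy)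
    simp only [this, one_smul]

end Claimed.Agent.R322.Base.Exit
end

/- ===== packed: Claimed.Agent.R322.Fit.Boot ===== -/
section
/-!
# Row 322, Fit/Boot: interior smoothness for the minimal surface system (package BP-B6b-bootstrap)

INTERFACE (written by the architect of `Base/Exit`, which is the only consumer).

`mssOp u y = g^{ab}(Du(y)) D_{ab} u(y)`, `g = 1 + Duᵀ Du` (definition in `Fit/Boot/Defs.lean`).  A `C^{J₀}` map of
small slope which solves `mssOp u = 0` on a ball is smooth on the ball.  Proof in `Fit/Boot/*.lean`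
(Wiener scale on `ℝ^m`, adjugate form of the system, truncated weights; `J₀ = m + 3`).
-/

set_option autoImplicit false

open scoped ENNReal ContDiff Topology
open MeasureTheory

namespace Claimed.Agent.R322.Fit

/-- **Elliptic bootstrap.** -/
theorem smooth_of_mss (m n : ℕ) : ∃ (J₀ : ℕ) (ε₀ : ℝ), 2 ≤ J₀ ∧ 0 < ε₀ ∧
    ∀ (u : E m → E n) (y₀ : E m) (σ : ℝ), 0 < σ → ContDiff ℝ J₀ u →
      (∀ y ∈ Metric.ball y₀ σ, ‖fderiv ℝ u y‖ ≤ ε₀) →
      (∀ y ∈ Metric.ball y₀ σ, mssOp u y = 0) →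
      ContDiffOn ℝ ∞ u (Metric.ball y₀ σ) :=
  Boot.smooth_of_mss_pf m n

end Claimed.Agent.R322.Fit
end

/- ===== packed: Claimed.Agent.R322.Base.Exit.Main ===== -/
section
/-!
# Row 322, Base/Exit: regularity when the support lies on a graph
(AE Corollary 7.5; CO Lemma 4.2, case `δ = 0`)

`exists_exit` : there are `J₀, ε₀` (from the elliptic bootstrap `Fit.smooth_of_mss`) such that a point `p` of the
support of `W` is regular as soon as, in a neighbourhood `A` of `p`, the support lies on the graph of a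
`C^{J₀}` map `u : E m → E n` of slope `≤ ε₀`.

Chain: box (`exists_graphBox`) → representation on the base and first variation in base coordinates
(`Rep.lean`) → tangential fields: multiplicity a.e. constant (`exists_const`, `exists_mult`) → normal fields:
`H_S = 0` (`HS_eq_zero`) → bootstrap → `isReg`.

Also: the regular set is open, the singular set is `σ`-compact.

PLANS for the leaves of this file.
* `exists_mult`: the constant `c` of `exists_const` is a value of `mulF` (the ball has positive measure), so `c = q ∈ ℕ`;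
  if `q = 0` then `baseμ = 0`, so `μ (box) = 0` by `restrict_eq_map`, contradicting `Fg u y₀ ∈ support` (the box is a
  neighbourhood of this point).
* `support_inter_box`: `⊆` is `on_graph`.  `⊇`: for `y` in the ball and `r > 0` the set `Fg u ⁻¹' (ball (Fg u y) r ∩ box)` is a
  nonempty open subset of the ball, of positive `baseμ`-measure (`q ≥ 1`, `vdens ≥ 1`, Haar measure).
* `restrict_eq`: `Z₁ = {y ∈ ball | mulF y ≠ q}` is null, `Fg u` is Lipschitz on the ball (bounded derivative on a convex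
  set), so `μH[m] (Fg u '' Z₁) = 0` (`LipschitzOnWith.hausdorffMeasure_image_le`); `Z₂ = (M ∩ box) \ support` has
  `μ Z₂ = 0`, hence `μH[m] Z₂ = 0` because `θ ≥ 1` on `M`.  Off `Z₁' ∪ Z₂` the sets `M ∩ box` and `support ∩ box`
  coincide and `θ = q`.  `Measure.ext`, `withDensity_apply`, `setLIntegral_congr`...
* `isReg`: `O = box y₀ (u y₀) (σ/2) τ`, `f X = prV X - v (prH X)` with `v` from `exists_contDiff_eqOn_ball`;
  `fderiv f X (inV ζ) = ζ`.
-/

set_option autoImplicit false

open scoped ENNReal ContDiff Topology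
open MeasureTheory

namespace Claimed.Agent.R322.Base.Exit

open Claimed.Agent.R322.Tube

variable {m n : ℕ}

namespace GraphBox

variable {W : SIV m n} {u : E m → E n} {y₀ : E m} {σ τ : ℝ}

/-- tangential first variation: the multiplicity is a.e. constant. -/
theorem exists_const (h : GraphBox W u y₀ σ τ) :
    ∃ c : ℝ, ∀ᵐ y ∂(μH[(m : ℝ)] : Measure (E m)), y ∈ Metric.ball y₀ σ →
      (mulF W u y : ℝ) = c := by
  have := isAddHaar_hausdorff m
  refine ae_const_of_weak_grad_zero h.integrableOn_mulF fun ξ hξ hξc hξs e => ?_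
  have hξ1 : ContDiff ℝ 1 ξ := hξ.of_le (by simp)
  have hs : tsupport (tanTest u ξ e) ⊆ tsupport ξ := tsupport_tanTest_subset u ξ e
  have h1 := h.base_stat (contDiff_tanTest h.smooth hξ1 e)
    (hξc.isCompact.of_isClosed_subset (isClosed_tsupport _) hs) (hs.trans hξs)
  rw [← h1]
  refine integral_congr_ae (Filter.Eventually.of_forall fun y => ?_)
  show (mulF W u y : ℝ) * fderiv ℝ ξ y e = _
  rw [← trc_tanTest h.smooth hξ1 e y]
  ring

/-- the constant is a positive integer. -/
theorem exists_mult (h : GraphBox W u y₀ σ τ) (hp : Fg u y₀ ∈ W.support) :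
    ∃ q : ℕ, 1 ≤ q ∧ ∀ᵐ y ∂(μH[(m : ℝ)] : Measure (E m)), y ∈ Metric.ball y₀ σ →
      mulF W u y = q := by
  have := isAddHaar_hausdorff m
  obtain ⟨c, hc⟩ := h.exists_const
  have hpos : 0 < (μH[(m : ℝ)] : Measure (E m)) (Metric.ball y₀ σ) :=
    Metric.isOpen_ball.measure_pos _ ⟨y₀, Metric.mem_ball_self h.σ_pos⟩
  have hex : ∃ y ∈ Metric.ball y₀ σ, (mulF W u y : ℝ) = c := by
    by_contra hcon
    push Not at hcon
    have h0 : (μH[(m : ℝ)] : Measure (E m)) (Metric.ball y₀ σ) = 0 := by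
      refine measure_mono_null ?_ (ae_iff.mp hc)
      intro y hy
      exact fun hy' => hcon y hy (hy' hy)
    exact hpos.ne' h0
  obtain ⟨y₁, -, hc₁⟩ := hex
  have hq : ∀ᵐ y ∂(μH[(m : ℝ)] : Measure (E m)), y ∈ Metric.ball y₀ σ →
      mulF W u y = mulF W u y₁ := by
    filter_upwards [hc] with y hy hyb
    have h1 := hy hyb
    rw [← hc₁] at h1
    exact_mod_cast h1
  refine ⟨mulF W u y₁, ?_, hq⟩
  by_contra hq0
  have hq0' : mulF W u y₁ = 0 := by omega
  have hb : baseμ W u y₀ σ = 0 := by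
    unfold baseμ
    rw [← withDensity_zero]
    refine withDensity_congr_ae ?_
    refine (ae_restrict_iff' Metric.isOpen_ball.measurableSet).mpr ?_
    filter_upwards [hq] with y hy hyb
    simp [hy hyb, hq0']
  have hμ : W.μ (box y₀ (u y₀) σ τ) = 0 := by
    have h1 := h.restrict_eq_map
    rw [hb, Measure.map_zero] at h1
    exact Measure.restrict_eq_zero.mp h1
  obtain ⟨r, hr, hball⟩ := Metric.isOpen_iff.mp (isOpen_box y₀ (u y₀) σ τ) (Fg u y₀)
    (h.Fg_mem_box (Metric.mem_ball_self h.σ_pos))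
  exact ((hp.2 r hr).trans_le (measure_mono hball)).ne' hμ

/-- normal first variation: the graph is minimal. -/
theorem HS_eq_zero (h : GraphBox W u y₀ σ τ) {q : ℕ} (hq : 1 ≤ q)
    (hc : ∀ᵐ y ∂(μH[(m : ℝ)] : Measure (E m)), y ∈ Metric.ball y₀ σ → mulF W u y = q) :
    ∀ y ∈ Metric.ball y₀ σ, HS u y = 0 := by
  have := isAddHaar_hausdorff m
  have hq0 : (0 : ℝ) < q := by exact_mod_cast hq
  have key : ∀ w : E (m + n), ∀ y ∈ Metric.ball y₀ σ,
      vdens (fderiv ℝ u y) * inner ℝ (HS u y) w = 0 := by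
    intro w
    refine eq_zero_of_integral_mul_eq_zero (μ := (μH[(m : ℝ)] : Measure (E m)))
      ((contDiff_vdens h.smooth).continuous.mul ((continuous_HS h.smooth).inner continuous_const))
      Metric.isOpen_ball fun ξ hξ hξc hξs => ?_
    have hξ1 : ContDiff ℝ 1 ξ := hξ.of_le (by simp)
    have hs : tsupport (norTest u ξ w) ⊆ tsupport ξ := tsupport_norTest_subset u ξ w
    have h1 := h.base_stat (contDiff_norTest h.smooth hξ1 w)
      (hξc.isCompact.of_isClosed_subset (isClosed_tsupport _) hs) (hs.trans hξs)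
    have h2 : ∫ y in Metric.ball y₀ σ, (mulF W u y : ℝ) * vdens (fderiv ℝ u y) *
        trc (dFp (fderiv ℝ u y) ∘L fderiv ℝ (norTest u ξ w) y) ∂μH[(m : ℝ)]
        = ∫ y in Metric.ball y₀ σ, (-(q : ℝ)) * (ξ y * (vdens (fderiv ℝ u y) *
            inner ℝ (HS u y) w)) ∂μH[(m : ℝ)] := by
      refine integral_congr_ae ?_
      have hc' := ae_restrict_of_ae (s := Metric.ball y₀ σ) hc
      filter_upwards [hc', ae_restrict_mem Metric.isOpen_ball.measurableSet] with y hy hyb
      rw [hy hyb, trc_norTest h.smooth hξ1 w y]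
      ring
    rw [h2, integral_const_mul] at h1
    rcases mul_eq_zero.1 h1 with h3 | h3
    · exact absurd h3 (by linarith [hq0] : (-(q : ℝ)) ≠ 0)
    · exact h3
  intro y hy
  have h1 : ∀ w : E (m + n), inner ℝ (HS u y) w = 0 := by
    intro w
    rcases mul_eq_zero.1 (key w y hy) with h2 | h2
    · exact absurd h2 (by linarith [one_le_vdens (fderiv ℝ u y)] : vdens (fderiv ℝ u y) ≠ 0)
    · exact h2
  exact inner_self_eq_zero.1 (h1 _)

/-- lower bound of the base weight by the Hausdorff measure. -/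
theorem main_le_baseμ {q : ℕ} (hq : 1 ≤ q)
    (hc : ∀ᵐ y ∂(μH[(m : ℝ)] : Measure (E m)), y ∈ Metric.ball y₀ σ → mulF W u y = q)
    {S : Set (E m)} (hS : MeasurableSet S) :
    (μH[(m : ℝ)] : Measure (E m)) (S ∩ Metric.ball y₀ σ) ≤ baseμ W u y₀ σ S := by
  unfold baseμ
  rw [withDensity_apply _ hS, ← Measure.restrict_apply hS, ← setLIntegral_one]
  refine lintegral_mono_ae (ae_restrict_of_ae ?_)
  refine (ae_restrict_iff' Metric.isOpen_ball.measurableSet).mpr ?_
  filter_upwards [hc] with y hy hyb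
  rw [hy hyb]
  have h1 : (1 : ℝ≥0∞) ≤ (q : ℝ≥0∞) := by exact_mod_cast hq
  have h2 : (1 : ℝ≥0∞) ≤ ENNReal.ofReal (vdens (fderiv ℝ u y)) := by
    rw [← ENNReal.ofReal_one]
    exact ENNReal.ofReal_le_ofReal (one_le_vdens _)
  calc (1 : ℝ≥0∞) = 1 * 1 := (one_mul 1).symm
    _ ≤ _ := mul_le_mul' h1 h2

theorem main_continuous_Fg (hu : ContDiff ℝ 2 u) : Continuous (Fg u) :=
  (contDiff_Fg (k := 2) hu).continuous

/-- the support in the box is the whole graph. -/
theorem support_inter_box (h : GraphBox W u y₀ σ τ) {q : ℕ} (hq : 1 ≤ q)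
    (hc : ∀ᵐ y ∂(μH[(m : ℝ)] : Measure (E m)), y ∈ Metric.ball y₀ σ → mulF W u y = q) :
    W.support ∩ box y₀ (u y₀) σ τ
      = {X | X ∈ box y₀ (u y₀) σ τ ∧ prV m n X = u (prH m n X)} := by
  have := isAddHaar_hausdorff m
  ext X
  constructor
  · rintro ⟨hXs, hXb⟩
    exact ⟨hXb, h.on_graph X hXs hXb⟩
  · rintro ⟨hXb, hXg⟩
    refine ⟨⟨h.sub (box_subset_cbox _ _ _ _ hXb), fun r hr => ?_⟩, hXb⟩
    have hXF : Fg u (prH m n X) = X := by rw [Fg, ← hXg, mkHV_prH_prV]
    have hcont : Continuous (Fg u) := main_continuous_Fg h.smooth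
    have hVo : IsOpen (Fg u ⁻¹' (Metric.ball X r)) := Metric.isOpen_ball.preimage hcont
    have hyV : prH m n X ∈ Fg u ⁻¹' (Metric.ball X r) := by
      show Fg u (prH m n X) ∈ Metric.ball X r
      rw [hXF]
      exact Metric.mem_ball_self hr
    have h1 : 0 < (μH[(m : ℝ)] : Measure (E m))
        (Fg u ⁻¹' (Metric.ball X r) ∩ Metric.ball y₀ σ) :=
      (hVo.inter Metric.isOpen_ball).measure_pos _ ⟨prH m n X, hyV, hXb.1⟩
    have h2 := main_le_baseμ (W := W) (u := u) (y₀ := y₀) (σ := σ) hq hc hVo.measurableSet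
    have h3 : baseμ W u y₀ σ (Fg u ⁻¹' (Metric.ball X r))
        = (W.μ.restrict (box y₀ (u y₀) σ τ)) (Metric.ball X r) := by
      rw [h.restrict_eq_map, Measure.map_apply hcont.measurable measurableSet_ball]
    have h4 : (W.μ.restrict (box y₀ (u y₀) σ τ)) (Metric.ball X r) ≤ W.μ (Metric.ball X r) :=
      Measure.restrict_le_self _
    exact h1.trans_le (h2.trans (h3.le.trans h4))

theorem main_lipschitz (hu : ContDiff ℝ 2 u) (y₀ : E m) (σ : ℝ) :
    ∃ K : NNReal, LipschitzOnWith K (Fg u) (Metric.ball y₀ σ) := by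
  have hF : ContDiff ℝ 2 (Fg u) := contDiff_Fg (k := 2) hu
  have hcf : Continuous (fderiv ℝ (Fg u)) := hF.continuous_fderiv (by norm_num)
  obtain ⟨C, hC⟩ := (isCompact_closedBall y₀ σ).exists_bound_of_continuousOn hcf.continuousOn
  refine ⟨C.toNNReal, (convex_ball y₀ σ).lipschitzOnWith_of_nnnorm_fderiv_le
    (fun x _ => hF.differentiable (by norm_num) x) fun x hx => ?_⟩
  have h1 := hC x (Metric.ball_subset_closedBall hx)
  rw [← NNReal.coe_le_coe, coe_nnnorm]
  exact h1.trans (Real.le_coe_toNNReal C)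

theorem main_measurableSet_support (W : SIV m n) : MeasurableSet W.support := by
  obtain ⟨C, hC, hs⟩ := W.support_eq
  rw [hs]
  exact W.isOpen_U.measurableSet.inter hC.measurableSet

/-- the weight in the box is `q` times the Hausdorff measure of the support. -/
theorem restrict_eq (h : GraphBox W u y₀ σ τ) {q : ℕ} (hq : 1 ≤ q)
    (hc : ∀ᵐ y ∂(μH[(m : ℝ)] : Measure (E m)), y ∈ Metric.ball y₀ σ → mulF W u y = q) :
    W.μ.restrict (box y₀ (u y₀) σ τ)
      = (q : ℝ≥0∞) • (μH[(m : ℝ)]).restrict (W.support ∩ box y₀ (u y₀) σ τ) := by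
  have hbm : MeasurableSet (box y₀ (u y₀) σ τ) := (isOpen_box y₀ (u y₀) σ τ).measurableSet
  have hsm : MeasurableSet W.support := main_measurableSet_support W
  have hG := h.support_inter_box hq hc
  -- the exceptional set in the base and its image
  have hZ1 : (μH[(m : ℝ)] : Measure (E m)) {y | y ∈ Metric.ball y₀ σ ∧ mulF W u y ≠ q} = 0 := by
    refine measure_mono_null ?_ (ae_iff.mp hc)
    rintro y ⟨hy1, hy2⟩
    exact fun hy' => hy2 (hy' hy1)
  obtain ⟨K, hK⟩ := main_lipschitz h.smooth y₀ σ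
  have hZ1' : (μH[(m : ℝ)] : Measure (E (m + n)))
      (Fg u '' {y | y ∈ Metric.ball y₀ σ ∧ mulF W u y ≠ q}) = 0 := by
    have h1 := (hK.mono (fun y hy => hy.1 :
      {y | y ∈ Metric.ball y₀ σ ∧ mulF W u y ≠ q} ⊆ Metric.ball y₀ σ)).hausdorffMeasure_image_le
      (d := (m : ℝ)) (Nat.cast_nonneg m)
    rw [hZ1, mul_zero] at h1
    exact le_antisymm h1 zero_le
  -- off the image, the points of the graph are in the carrier with multiplicity `q`
  have hgood : ∀ X ∈ W.support ∩ box y₀ (u y₀) σ τ,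
      X ∉ Fg u '' {y | y ∈ Metric.ball y₀ σ ∧ mulF W u y ≠ q} → X ∈ W.M ∧ W.θ X = q := by
    intro X hX hXn
    rw [hG] at hX
    obtain ⟨hXb, hXg⟩ := hX
    have hXF : Fg u (prH m n X) = X := by rw [Fg, ← hXg, mkHV_prH_prV]
    have hm : mulF W u (prH m n X) = q := by
      by_contra hne
      exact hXn ⟨prH m n X, ⟨hXb.1, hne⟩, hXF⟩
    unfold mulF at hm
    rw [hXF] at hm
    by_cases hXM : X ∈ W.M
    · rw [if_pos hXM] at hm
      exact ⟨hXM, hm⟩
    · rw [if_neg hXM] at hm
      omega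
  -- the part of the carrier off the support is null
  have hZ2 : (μH[(m : ℝ)] : Measure (E (m + n)))
      ((W.M ∩ box y₀ (u y₀) σ τ) \ (W.support ∩ box y₀ (u y₀) σ τ)) = 0 := by
    have hsub : (W.M ∩ box y₀ (u y₀) σ τ) \ (W.support ∩ box y₀ (u y₀) σ τ)
        ⊆ W.M ∩ W.supportᶜ := by
      rintro X ⟨⟨hXM, hXb⟩, hXn⟩
      exact ⟨hXM, fun hXs => hXn ⟨hXs, hXb⟩⟩
    refine measure_mono_null hsub ?_
    have hm2 : MeasurableSet (W.M ∩ W.supportᶜ) := W.M_meas.inter hsm.compl
    have h1 : W.μ (W.M ∩ W.supportᶜ) = 0 :=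
      measure_mono_null Set.inter_subset_right W.μ_compl_support
    have h2 : W.μ (W.M ∩ W.supportᶜ)
        = ∫⁻ x in W.M ∩ W.supportᶜ, (W.θ x : ℝ≥0∞) ∂((μH[(m : ℝ)]).restrict W.M) :=
      withDensity_apply _ hm2
    have h3 : (μH[(m : ℝ)] : Measure (E (m + n))) (W.M ∩ W.supportᶜ)
        ≤ ∫⁻ x in W.M ∩ W.supportᶜ, (W.θ x : ℝ≥0∞) ∂((μH[(m : ℝ)]).restrict W.M) := by
      have h4 : (μH[(m : ℝ)] : Measure (E (m + n))) (W.M ∩ W.supportᶜ)
          = ∫⁻ _x in W.M ∩ W.supportᶜ, (1 : ℝ≥0∞) ∂((μH[(m : ℝ)]).restrict W.M) := by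
        rw [setLIntegral_one, Measure.restrict_apply hm2]
        congr 1
        ext X
        simp only [Set.mem_inter_iff]
        tauto
      rw [h4]
      refine setLIntegral_mono' hm2 fun X hX => ?_
      have := W.θ_pos X hX.1
      exact_mod_cast this
    rw [← h2, h1] at h3
    exact le_antisymm h3 zero_le
  have hset : (box y₀ (u y₀) σ τ ∩ W.M : Set (E (m + n)))
      =ᵐ[(μH[(m : ℝ)] : Measure (E (m + n)))] (W.support ∩ box y₀ (u y₀) σ τ : Set (E (m + n))) := by
    rw [ae_eq_set]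
    constructor
    · rw [Set.inter_comm]
      exact hZ2
    · refine measure_mono_null ?_ hZ1'
      rintro X ⟨hX, hXn⟩
      by_contra hXi
      exact hXn ⟨hX.2, (hgood X hX hXi).1⟩
  have hθ : (fun X => (W.θ X : ℝ≥0∞))
      =ᵐ[(μH[(m : ℝ)] : Measure (E (m + n))).restrict (W.support ∩ box y₀ (u y₀) σ τ)]
      fun _ => (q : ℝ≥0∞) := by
    refine (ae_restrict_iff' (hsm.inter hbm)).mpr ?_
    have h1 : ∀ᵐ X ∂(μH[(m : ℝ)] : Measure (E (m + n))),
        X ∉ Fg u '' {y | y ∈ Metric.ball y₀ σ ∧ mulF W u y ≠ q} :=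
      measure_eq_zero_iff_ae_notMem.mp hZ1'
    filter_upwards [h1] with X hX hXG
    rw [(hgood X hXG hX).2]
  show (wt m W.M W.θ).restrict (box y₀ (u y₀) σ τ) = _
  unfold wt
  rw [restrict_withDensity hbm, Measure.restrict_restrict hbm, Measure.restrict_congr_set hset,
    withDensity_congr_ae hθ, withDensity_const]

/-- a smooth graph with constant multiplicity is regular. -/
theorem isReg (h : GraphBox W u y₀ σ τ) {q : ℕ} (hq : 1 ≤ q)
    (hc : ∀ᵐ y ∂(μH[(m : ℝ)] : Measure (E m)), y ∈ Metric.ball y₀ σ → mulF W u y = q)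
    (hsm : ContDiffOn ℝ ∞ u (Metric.ball y₀ σ)) : W.IsReg (Fg u y₀) := by
  have hσ2 : 0 < σ / 2 := half_pos h.σ_pos
  have hsubb : Metric.ball y₀ (σ / 2) ⊆ Metric.ball y₀ σ :=
    Metric.ball_subset_ball (by linarith [h.σ_pos])
  have hOsub : box y₀ (u y₀) (σ / 2) τ ⊆ box y₀ (u y₀) σ τ := fun X hX => ⟨hsubb hX.1, hX.2⟩
  have hOm : MeasurableSet (box y₀ (u y₀) (σ / 2) τ) := (isOpen_box _ _ _ _).measurableSet
  have hG := h.support_inter_box hq hc
  have hGO : W.support ∩ box y₀ (u y₀) (σ / 2) τ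
      = {X | X ∈ box y₀ (u y₀) (σ / 2) τ ∧ prV m n X = u (prH m n X)} := by
    ext X
    constructor
    · rintro ⟨hXs, hXO⟩
      exact ⟨hXO, h.on_graph X hXs (hOsub hXO)⟩
    · rintro ⟨hXO, hXg⟩
      have h1 : X ∈ W.support ∩ box y₀ (u y₀) σ τ := by
        rw [hG]
        exact ⟨hOsub hXO, hXg⟩
      exact ⟨h1.1, hXO⟩
  refine ⟨box y₀ (u y₀) (σ / 2) τ, isOpen_box _ _ _ _, ?_, ?_, ?_, q, hq, ?_⟩
  · have h1 := h.Fg_mem_box (Metric.mem_ball_self h.σ_pos)
    refine ⟨?_, h1.2⟩
    rw [Fg, prH_mkHV]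
    exact Metric.mem_ball_self hσ2
  · exact fun X hX => h.sub (box_subset_cbox _ _ _ _ (hOsub hX))
  · obtain ⟨v, hv, hvu⟩ := exists_contDiff_eqOn_ball h.σ_pos hsm
    intro X _
    have hX' : X ∈ W.support ∩ box y₀ (u y₀) (σ / 2) τ := by assumption
    refine ⟨box y₀ (u y₀) (σ / 2) τ, isOpen_box _ _ _ _, hX'.2,
      fun X => prV m n X - v (prH m n X), ?_, ?_, ?_⟩
    · exact (prV m n).contDiff.sub (hv.comp (prH m n).contDiff)
    · intro Y _ ζ
      have hd : HasFDerivAt (fun X => prV m n X - v (prH m n X))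
          (prV m n - (fderiv ℝ v (prH m n Y)) ∘L prH m n) Y := by
        have h1 : HasFDerivAt v (fderiv ℝ v (prH m n Y)) (prH m n Y) :=
          (hv.differentiable (by simp) _).hasFDerivAt
        exact (prV m n).hasFDerivAt.sub (h1.comp Y (prH m n).hasFDerivAt)
      refine ⟨mkHV 0 ζ, ?_⟩
      rw [hd.fderiv]
      simp [prV_mkHV, prH_mkHV]
    · rw [Set.inter_assoc, Set.inter_self, hGO]
      ext Y
      simp only [Set.mem_ofPred_eq, Set.mem_inter_iff, Set.mem_preimage, Set.mem_singleton_iff]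
      constructor
      · rintro ⟨hYO, hYg⟩
        refine ⟨hYO, ?_⟩
        rw [hvu hYO.1, hYg, sub_self]
      · rintro ⟨hYO, hY0⟩
        refine ⟨hYO, ?_⟩
        rw [hvu hYO.1] at hY0
        exact sub_eq_zero.mp hY0
  · have h1 := h.restrict_eq hq hc
    have h2 : W.μ.restrict (box y₀ (u y₀) (σ / 2) τ)
        = (W.μ.restrict (box y₀ (u y₀) σ τ)).restrict (box y₀ (u y₀) (σ / 2) τ) := by
      rw [Measure.restrict_restrict hOm, Set.inter_eq_left.mpr hOsub]
    rw [h2, h1, Measure.restrict_smul, Measure.restrict_restrict hOm]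
    congr 2
    ext Y
    simp only [Set.mem_inter_iff]
    constructor
    · rintro ⟨hYO, hYs, -⟩
      exact ⟨hYs, hYO⟩
    · rintro ⟨hYs, hYO⟩
      exact ⟨hYO, hYs, hOsub hYO⟩

end GraphBox

theorem mss_eq_mssOp (u : E m → E n) (y : E m) : mss u y = Fit.mssOp u y := rfl

/-- **Exit theorem** (AE Corollary 7.5, CO Lemma 4.2 `δ = 0`). -/
theorem exists_exit (m n : ℕ) : ∃ (J₀ : ℕ) (ε₀ : ℝ), 2 ≤ J₀ ∧ 0 < ε₀ ∧
    ∀ (W : SIV m n) (p : E (m + n)) (A : Set (E (m + n))) (u : E m → E n),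
      p ∈ W.support → IsOpen A → p ∈ A → A ⊆ W.U → ContDiff ℝ J₀ u →
      (∀ X ∈ A, ‖fderiv ℝ u (prH m n X)‖ ≤ ε₀) →
      (∀ X ∈ W.support, X ∈ A → prV m n X = u (prH m n X)) →
      W.IsReg p := by
  obtain ⟨J₀, ε₀, hJ, hε, hboot⟩ := Fit.smooth_of_mss m n
  refine ⟨J₀, ε₀, hJ, hε, fun W p A u hp hA hpA hAU hu hslope hsub => ?_⟩
  have hu2 : ContDiff ℝ 2 u := hu.of_le (by exact_mod_cast hJ)
  have hpg : prV m n p = u (prH m n p) := hsub p hp hpA
  obtain ⟨σ, τ, hB, hBA⟩ := exists_graphBox W hA hpA hAU hu2 hpg hsub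
  have hpF : Fg u (prH m n p) = p := by
    rw [Fg, ← hpg, mkHV_prH_prV]
  obtain ⟨q, hq, hc⟩ := hB.exists_mult (by rw [hpF]; exact hp)
  have hH := hB.HS_eq_zero hq hc
  have hsm : ContDiffOn ℝ ∞ u (Metric.ball (prH m n p) σ) := by
    refine hboot u (prH m n p) σ hB.σ_pos hu (fun y hy => ?_) (fun y hy => ?_)
    · have := hslope (Fg u y) (hBA (hB.Fg_mem_box hy))
      rwa [Fg, prH_mkHV] at this
    · rw [← mss_eq_mssOp]
      exact mss_eq_zero_of_HS (hH y hy)
  have := hB.isReg hq hc hsm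
  rwa [hpF] at this

end Claimed.Agent.R322.Base.Exit

namespace Claimed.Agent.R322.SIV

variable {m n : ℕ}

/-- the set of regular points is open. -/
theorem isOpen_setOf_isReg (W : SIV m n) : IsOpen {p | W.IsReg p} := by
  rw [isOpen_iff_forall_mem_open]
  rintro p ⟨O, hO, hpO, h⟩
  exact ⟨O, fun p' hp' => ⟨O, hO, hp', h⟩, hO, hpO⟩

/-- the singular set is relatively closed in the domain. -/
theorem sing_eq_inter (W : SIV m n) : ∃ C : Set (E (m + n)), IsClosed C ∧ W.sing = W.U ∩ C := by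
  obtain ⟨C, hC, hs⟩ := W.support_eq
  refine ⟨C ∩ {p | W.IsReg p}ᶜ, hC.inter W.isOpen_setOf_isReg.isClosed_compl, ?_⟩
  ext p
  simp only [sing, Set.mem_ofPred_eq, hs, Set.mem_inter_iff, Set.mem_compl_iff]
  tauto

/-- the singular set is `σ`-compact. -/
theorem isSigmaCompact_sing (W : SIV m n) : IsSigmaCompact W.sing := by
  obtain ⟨C, hC, hs⟩ := W.sing_eq_inter
  obtain ⟨F, hF, -, hFU, -⟩ := W.isOpen_U.exists_iUnion_isClosed
  rw [hs, ← hFU, Set.iUnion_inter]
  exact isSigmaCompact_iUnion _ fun i =>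
    isSigmaCompact_univ.of_isClosed_subset ((hF i).inter hC) (Set.subset_univ _)

end Claimed.Agent.R322.SIV
end
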