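import Claimed.Agent.R322.Pack047
import Claimed.Agent.R322.Pack039
import Claimed.Agent.R322.Pack007
import Claimed.Agent.R322.Lin.Main
import Claimed.Agent.R322.Dens.Main
import Claimed.Agent.R322.Blow.Main

/-!
# Row 322: the middle chain (CO Sections 4-6b)

`blow` (CO 4 + 5) + `lin` (CO 6) + `dens` (CO 6b) ⟹ `mid`.
-/

set_option autoImplicit false

open scoped ENNReal ContDiff NNReal
open MeasureTheory

namespace Claimed.Agent.R322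

open Claimed.Agent.R322.Fn

/-- **CO Propositions 4.5 and 5.1.**  The derivative order `J ≥ J₀` and the cylinder height `hc ≤ h₁` can be
prescribed. -/
theorem blow {m n : ℕ} (hm : 1 ≤ m) (hn : 1 ≤ n) (s : ℝ) (hs : ((m : ℝ) - 1) < s)
    (D : Flat.FlatData m n s) :
    ∃ (J₀ : ℕ) (h₁ : ℝ), 0 < h₁ ∧ ∀ (J : ℕ) (hc : ℝ), J₀ ≤ J → 0 < hc → hc ≤ h₁ →
      Nonempty (Blow.CenteredData m n s D.Q J hc) :=
  Freq.blow_of hm hn s hs D (Freq.cover_main m n D.Q hm hn D.Q_pos)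
    (Blow.center_main m n D.Q hm hn D.Q_pos)

/-- **CO Proposition 6.1.** -/
theorem lin {m n : ℕ} (hm : 1 ≤ m) (hn : 1 ≤ n) (Q : ℕ) (hQ : 1 ≤ Q) :
    ∃ (J₀ : ℕ) (h₀ : ℝ), 0 < h₀ ∧ ∀ (s : ℝ) (J : ℕ) (hc : ℝ), J₀ ≤ J → 0 < hc → hc ≤ h₀ →
      ∀ D : Blow.CenteredData m n s Q J hc,
        ∃ (φ : ℕ → ℕ) (T : Red.LinTuple m (Metric.ball (0 : E m) 4)), StrictMono φ ∧
          WConv (Metric.ball 0 4) (fun i => D.nuSeq (φ i)) T.nu ∧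
          WConv (Metric.ball 0 4) (fun i => D.mmSeq (φ i)) T.mm :=
  Lin.main hm hn Q hQ

/-- **CO Proposition 6b.1** (with the mass distribution principle for the limit of the centre
measures). -/
theorem dens {m n : ℕ} (hm : 1 ≤ m) (hn : 1 ≤ n) (Q : ℕ) (hQ : 1 ≤ Q) :
    ∃ (J₀ : ℕ) (h₀ : ℝ), 0 < h₀ ∧ ∀ (s : ℝ) (J : ℕ) (hc : ℝ), ((m : ℝ) - 1) < s → J₀ ≤ J →
      0 < hc → hc ≤ h₀ → ∀ (D : Blow.CenteredData m n s Q J hc)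
        (φ : ℕ → ℕ) (nu mm : (E m → ℝ) → ℝ), StrictMono φ →
        IsRadon (Metric.ball (0 : E m) 4) nu → IsRadon (Metric.ball (0 : E m) 4) mm →
        WConv (Metric.ball 0 4) (fun i => D.nuSeq (φ i)) nu →
        WConv (Metric.ball 0 4) (fun i => D.mmSeq (φ i)) mm →
        ∃ (Z : Set (E m)) (l₀ : ℝ), Z ⊆ Metric.closedBall 0 1 ∧ ENNReal.ofReal s ≤ dimH Z ∧
          0 < l₀ ∧ ∀ x ∈ Z, ∀ l : ℝ, 0 < l → l < l₀ →
            nu (Red.psiK m 4 x l) ≤ 2 * l ^ 2 * mm (Red.phiK m 4 x l) :=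
  Dens.main hm hn Q hQ

/-- **CO Sections 3-6b.** -/
theorem mid {m n : ℕ} (hm : 1 ≤ m) (hn : 1 ≤ n) (s : ℝ) (hs : ((m : ℝ) - 1) < s)
    (D : Flat.FlatData m n s) :
    ∃ (T : Red.LinTuple m (Metric.ball (0 : E m) 4)) (Z : Set (E m)) (l₀ : ℝ),
      Z ⊆ Metric.closedBall 0 1 ∧ ENNReal.ofReal s ≤ dimH Z ∧ 0 < l₀ ∧
      ∀ x ∈ Z, ∀ l : ℝ, 0 < l → l < l₀ →
        T.nu (Red.psiK m 4 x l) ≤ 2 * l ^ 2 * T.mm (Red.phiK m 4 x l) := by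
  obtain ⟨J₁, h₁, hh₁, H₁⟩ := lin hm hn D.Q D.Q_pos
  obtain ⟨J₂, h₂, hh₂, H₂⟩ := dens hm hn D.Q D.Q_pos
  obtain ⟨J₃, h₃, hh₃, H₃⟩ := blow hm hn s hs D
  have hpos : 0 < min (min h₁ h₂) h₃ := lt_min (lt_min hh₁ hh₂) hh₃
  obtain ⟨C⟩ := H₃ (max (max J₁ J₂) J₃) (min (min h₁ h₂) h₃) (le_max_right _ _) hpos (min_le_right _ _)
  obtain ⟨φ, T, hφ, hnu, hmm⟩ := H₁ s (max (max J₁ J₂) J₃) _ ((le_max_left _ _).trans (le_max_left _ _)) hpos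
    ((min_le_left _ _).trans (min_le_left _ _)) C
  obtain ⟨Z, l₀, h1, h2, h3, h4⟩ := H₂ s (max (max J₁ J₂) J₃) _ hs ((le_max_right _ _).trans (le_max_left _ _)) hpos
    ((min_le_left _ _).trans (min_le_right _ _)) C φ T.nu T.mm hφ T.radon_nu T.radon_mm hnu hmm
  exact ⟨T, Z, l₀, h1, h2, h3, h4⟩

end Claimed.Agent.R322
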