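/- Packed by merge_tool.py (helper293): 6 modules of Claimed.Agent.R322 in one file, same declarations.
   Old modules, in this order: Tube.Cell.Ctx, Tube.Cell.Basic, Tube.Cell.Dom, Tube.Cell.Blocks, Tube.Cell.MeasGen, Tube.Cell.Meas -/
import Claimed.Agent.R322.Pack017
import Claimed.Agent.R322.Pack019
import Claimed.Agent.R322.Pack039

/- ===== packed: Claimed.Agent.R322.Tube.Cell.Ctx ===== -/
section
/-!
# R322 / Tube / Cell / Ctx   (helper121)

Shared context for the verification of `Sx.Sys.Valid` for `N.sysOf x₀ l ρ Cg` (`Tube/InstValid.lean`, leaves V1-V10) and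
for the transfer lemmas (`Tube/Transfer.lean`).

* `CellHyp` (moved here from `InstValid.lean`): admissible cell.
* `CellCtx N x₀ l ρ h₀`: `CellHyp` + the conclusions of `chart_facts`, `frame_iso`, `cyl_carrier`, `tube_deriv` for THIS cell;
  `exists_cellCtx` merges the constants once and for all.
* consequences: the good region (`CellCtx.good_*`), the cell region `cellO`, a.e. goodness, transfer of integrals between
  `S.μ` and `N.W.μ`.
-/

set_option autoImplicit false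

open scoped ENNReal NNReal InnerProductSpace
open MeasureTheory ContinuousLinearMap Set Metric

namespace Claimed.Agent.R322.Tube

variable {m n : ℕ}

/-- admissible cell: centre `x₀`, chart scale `l`, chart radius `ρ` -/
structure CellHyp (N : NCyl m n) (x₀ : E m) (l ρ ε₀ h₀ : ℝ) : Prop where
  geo : GeoS 1 ε₀ N.u
  h_le : N.h ≤ h₀
  l_pos : 0 < l
  one_le_ρ : 1 ≤ ρ
  room : ∀ y, ‖bco N.u x₀ l y‖ ≤ ρ → y ∈ N.Ω
  gam_le : l + N.cellZ x₀ l ρ ≤ 1

theorem CellHyp.mono {N : NCyl m n} {x₀ : E m} {l ρ ε₀ h₀ ε₀' h₀' : ℝ}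
    (h : CellHyp N x₀ l ρ ε₀ h₀) (hε : ε₀ ≤ ε₀') (hh : h₀ ≤ h₀') : CellHyp N x₀ l ρ ε₀' h₀' :=
  { geo := h.geo.mono hε
    h_le := h.h_le.trans hh
    l_pos := h.l_pos
    one_le_ρ := h.one_le_ρ
    room := h.room
    gam_le := h.gam_le }

/-- ambient horizontal test field `Y_X = J_z dF(y) (l A0⁻¹ X(chart ·))` -/
noncomputable def hfield (N : NCyl m n) (x₀ : E m) (l : ℝ) (X : E m × E n → E m)
    (X' : E (m + n)) : E (m + n) :=
  Jz N.u X' (dF (fderiv ℝ N.u (npr N.u X')) (l • (A0 N.u x₀).inverse (X (chart N.u x₀ l X'))))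

/-- ambient normal test field `V_v = l ν(y) v(chart ·)` -/
noncomputable def vfield (N : NCyl m n) (x₀ : E m) (l : ℝ) (v : E m × E n → E n)
    (X' : E (m + n)) : E (m + n) :=
  l • nuF N.u x₀ (npr N.u X') (v (chart N.u x₀ l X'))

/-- the part of the cylinder over the cell -/
def NCyl.cellO (N : NCyl m n) (x₀ : E m) (l ρ : ℝ) : Set (E (m + n)) :=
  Cyl N.u N.Ω N.h ∩ {X | npr N.u X ∈ N.cellBase x₀ l ρ}

/-- **context of a cell**: all facts on the chart, the frames and the carrier. -/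
structure CellCtx (N : NCyl m n) (x₀ : E m) (l ρ h₀ : ℝ) : Prop where
  geo : Geo 1 N.u
  smooth5 : ContDiff ℝ 5 N.u
  h₀_le : h₀ ≤ 2 / 9
  h_le : N.h ≤ h₀
  l_pos : 0 < l
  one_le_ρ : 1 ≤ ρ
  room : ∀ y, ‖bco N.u x₀ l y‖ ≤ ρ → y ∈ N.Ω
  gam_le : l + N.cellZ x₀ l ρ ≤ 1
  /- chart -/
  chart_cd : ContDiffOn ℝ 3 (chart N.u x₀ l) (Tub N.u h₀)
  unchart_cd : ContDiff ℝ 3 (unchart N.u x₀ l)
  left_inv : ∀ X ∈ Tub N.u h₀, unchart N.u x₀ l (chart N.u x₀ l X) = X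
  right_inv : ∀ q : E m × E n, l * ‖q.2‖ < h₀ → unchart N.u x₀ l q ∈ Tub N.u h₀ ∧
    chart N.u x₀ l (unchart N.u x₀ l q) = q ∧ npr N.u (unchart N.u x₀ l q) = bpt N.u x₀ l q.1 ∧
    zz N.u (unchart N.u x₀ l q) = l • nuF N.u x₀ (bpt N.u x₀ l q.1) q.2
  norm_snd : ∀ X ∈ Tub N.u h₀, ‖(chart N.u x₀ l X).2‖ = l⁻¹ * ‖zz N.u X‖
  dchart : ∀ X ∈ Tub N.u h₀, ∀ ξ : E (m + n),
    (fderiv ℝ (chart N.u x₀ l) X ξ).1
      = l⁻¹ • A0 N.u x₀ (dFp (fderiv ℝ N.u (npr N.u X)) (Kz N.u X (Ph N.u (npr N.u X) ξ))) ∧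
    (fderiv ℝ (chart N.u x₀ l) X ξ).2
      = l⁻¹ • adjoint (nuF N.u x₀ (npr N.u X)) ξ
        - omgL N.u x₀ (npr N.u X) (dFp (fderiv ℝ N.u (npr N.u X)) (Kz N.u X (Ph N.u (npr N.u X) ξ)))
            (chart N.u x₀ l X).2
  /- frames -/
  tauF_cd : ContDiff ℝ 3 (tauF N.u x₀)
  nuF_cd : ContDiff ℝ 3 (nuF N.u x₀)
  tt : ∀ y, adjoint (tauF N.u x₀ y) ∘L tauF N.u x₀ y = ContinuousLinearMap.id ℝ _
  nn : ∀ y, adjoint (nuF N.u x₀ y) ∘L nuF N.u x₀ y = ContinuousLinearMap.id ℝ _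
  tPh : ∀ y, tauF N.u x₀ y ∘L adjoint (tauF N.u x₀ y) = Ph N.u y
  nPv : ∀ y, nuF N.u x₀ y ∘L adjoint (nuF N.u x₀ y) = Pv N.u y
  /- carrier -/
  isOpen_cyl : IsOpen (Cyl N.u N.Ω N.h)
  carrier : N.μ {X | ¬ (X ∈ N.W.support ∧ X ∈ Cyl N.u N.Ω N.h ∧ ‖zz N.u X‖ < N.h')} = 0
  fin : ∀ K : Set (E m), IsCompact K → K ⊆ N.Ω → N.μ {X | npr N.u X ∈ K} < ⊤

/-- the constants are merged once. -/
theorem exists_cellCtx (m n : ℕ) : ∃ ε₀ h₀ : ℝ, 0 < ε₀ ∧ 0 < h₀ ∧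
    ∀ (N : NCyl m n) (x₀ : E m) (l ρ : ℝ), CellHyp N x₀ l ρ ε₀ h₀ → CellCtx N x₀ l ρ h₀ := by
  obtain ⟨e1, h1, he1, hh1, H1⟩ := chart_facts m n
  obtain ⟨e2, he2, H2⟩ := frame_iso m n
  obtain ⟨h3, hh3, H3⟩ := cyl_carrier m n
  refine ⟨min e1 e2, min (min h1 h3) (2 / 9), lt_min he1 he2,
    lt_min (lt_min hh1 hh3) (by norm_num), fun N x₀ l ρ hc => ?_⟩
  have hle1 : min (min h1 h3) (2 / 9) ≤ h1 := (min_le_left _ _).trans (min_le_left _ _)
  have hle3 : min (min h1 h3) (2 / 9) ≤ h3 := (min_le_left _ _).trans (min_le_right _ _)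
  have hT : Tub N.u (min (min h1 h3) (2 / 9)) ⊆ Tub N.u h1 := Tub_mono _ hle1
  obtain ⟨c1, c2, c3, c4, c5, c6⟩ := H1 1 N.u (hc.geo.mono (min_le_left _ _)) x₀ l hc.l_pos
  obtain ⟨f1, f2, f3⟩ := H2 1 N.u (hc.geo.mono (min_le_right _ _)) x₀
  obtain ⟨k1, k2, k3⟩ := H3 1 N hc.geo.toGeo (hc.h_le.trans hle3)
  have hu := hc.geo.toGeo
  exact
    { geo := hu
      smooth5 := hc.geo.smooth5
      h₀_le := min_le_right _ _
      h_le := hc.h_le
      l_pos := hc.l_pos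
      one_le_ρ := hc.one_le_ρ
      room := hc.room
      gam_le := hc.gam_le
      chart_cd := c1.mono hT
      unchart_cd := c2
      left_inv := fun X hX => c3 X (hT hX)
      right_inv := fun q hq => by
        obtain ⟨a1, a2, a3, a4⟩ := c4 q (hq.trans_le hle1)
        refine ⟨⟨bpt N.u x₀ l q.1, ?_⟩, a2, a3, a4⟩
        have e : unchart N.u x₀ l q - Fg N.u (bpt N.u x₀ l q.1) = zz N.u (unchart N.u x₀ l q) := by
          unfold zz
          rw [a3]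
        have hn := c5 _ a1
        rw [a2] at hn
        rw [e]
        have : ‖zz N.u (unchart N.u x₀ l q)‖ = l * ‖q.2‖ := by
          rw [hn, ← mul_assoc, mul_inv_cancel₀ hc.l_pos.ne', one_mul]
        rw [this]
        exact hq
      norm_snd := fun X hX => c5 X (hT hX)
      dchart := fun X hX => c6 X (hT hX)
      tauF_cd := f1
      nuF_cd := f2
      tt := fun y => (f3 y).1
      nn := fun y => (f3 y).2.1
      tPh := fun y => (f3 y).2.2.1
      nPv := fun y => (f3 y).2.2.2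
      isOpen_cyl := k1
      carrier := k2
      fin := k3 }

end Claimed.Agent.R322.Tube
end

/- ===== packed: Claimed.Agent.R322.Tube.Cell.Basic ===== -/
section
/-!
# R322 / Tube / Cell / Basic   (helper121)

Consequences of `CellCtx`: base change `bco / bpt`, heights, the good region, the cell region `cellO`, a.e. goodness,
transfer of measures and integrals between `S.μ` (`S = N.sysOf x₀ l ρ Cg`) and `N.W.μ`.
-/

set_option autoImplicit false

open scoped ENNReal NNReal InnerProductSpace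
open MeasureTheory ContinuousLinearMap Set Metric

namespace Claimed.Agent.R322.Tube

variable {m n : ℕ}

/-! ### base change -/

theorem cl_bco_bpt (u : E m → E n) (x : E m) {l : ℝ} (hl : 0 < l) (p : E m) :
    bco u x l (bpt u x l p) = p := by
  obtain ⟨-, h1, -⟩ := A0_facts m n u x _ le_rfl
  have h1' : A0 u x ((A0 u x).inverse p) = p := by
    have := congrArg (fun f : E m →L[ℝ] E m => f p) h1
    simpa using this
  unfold bco bpt
  rw [add_sub_cancel_left, map_smul, h1', smul_smul, inv_mul_cancel₀ hl.ne', one_smul]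

theorem cl_bpt_bco (u : E m → E n) (x : E m) {l : ℝ} (hl : 0 < l) (y : E m) :
    bpt u x l (bco u x l y) = y := by
  obtain ⟨-, -, h1, -⟩ := A0_facts m n u x _ le_rfl
  have h1' : (A0 u x).inverse (A0 u x (y - x)) = y - x := by
    have := congrArg (fun f : E m →L[ℝ] E m => f (y - x)) h1
    simpa using this
  unfold bco bpt
  rw [map_smul, h1', smul_smul, mul_inv_cancel₀ hl.ne', one_smul, add_sub_cancel]

theorem cl_continuous_bco (u : E m → E n) (x : E m) (l : ℝ) : Continuous (bco u x l) := by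
  unfold bco
  fun_prop

theorem cl_continuous_bpt (u : E m → E n) (x : E m) (l : ℝ) : Continuous (bpt u x l) := by
  unfold bpt
  fun_prop

theorem cl_norm_le_bco (u : E m → E n) (x : E m) {l : ℝ} (hl : 0 < l) (y : E m) :
    ‖y - x‖ ≤ l * ‖bco u x l y‖ := by
  obtain ⟨-, -, -, h1, -⟩ := A0_facts m n u x _ le_rfl
  unfold bco
  rw [norm_smul, norm_inv, Real.norm_of_nonneg hl.le, ← mul_assoc, mul_inv_cancel₀ hl.ne', one_mul]
  exact h1 _

theorem cl_supz_nonneg (N : NCyl m n) (A : Set (E m)) : 0 ≤ N.supz A := by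
  unfold NCyl.supz
  apply Real.sSup_nonneg
  rintro t ⟨X, -, -, -, rfl⟩
  exact norm_nonneg _

namespace CellCtx

variable {N : NCyl m n} {x₀ : E m} {l ρ h₀ : ℝ}

theorem bco_bpt (H : CellCtx N x₀ l ρ h₀) (p : E m) : bco N.u x₀ l (bpt N.u x₀ l p) = p :=
  cl_bco_bpt _ _ H.l_pos p

theorem bpt_bco (H : CellCtx N x₀ l ρ h₀) (y : E m) : bpt N.u x₀ l (bco N.u x₀ l y) = y :=
  cl_bpt_bco _ _ H.l_pos y

theorem isOpen_cellBase (N : NCyl m n) (x₀ : E m) (l ρ : ℝ) : IsOpen (N.cellBase x₀ l ρ) :=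
  isOpen_ball.preimage (cl_continuous_bco N.u x₀ l)

theorem cellBase_sub (H : CellCtx N x₀ l ρ h₀) : N.cellBase x₀ l ρ ⊆ N.Ω := by
  intro y hy
  apply H.room
  have : bco N.u x₀ l y ∈ ball (0 : E m) ρ := hy
  rw [mem_ball_zero_iff] at this
  exact this.le

theorem bpt_mem_cellBase (H : CellCtx N x₀ l ρ h₀) {p : E m} (hp : p ∈ ball (0 : E m) ρ) :
    bpt N.u x₀ l p ∈ N.cellBase x₀ l ρ := by
  change bco N.u x₀ l (bpt N.u x₀ l p) ∈ ball (0 : E m) ρ
  rwa [H.bco_bpt]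

theorem norm_bpt_sub_le (H : CellCtx N x₀ l ρ h₀) (p : E m) : ‖bpt N.u x₀ l p - x₀‖ ≤ l * ‖p‖ := by
  have := cl_norm_le_bco N.u x₀ H.l_pos (bpt N.u x₀ l p)
  rwa [H.bco_bpt] at this

/-! ### heights -/

theorem cellZ_nonneg (N : NCyl m n) (x₀ : E m) (l ρ : ℝ) : 0 ≤ N.cellZ x₀ l ρ := cl_supz_nonneg N _

theorem cellZ_le (N : NCyl m n) (x₀ : E m) (l ρ : ℝ) : N.cellZ x₀ l ρ ≤ N.h' := by
  unfold NCyl.cellZ NCyl.supz
  refine Real.sSup_le ?_ N.h'_pos.le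
  rintro t ⟨X, h1, h2, -, rfl⟩
  exact (N.gap X h1 h2).le

theorem cellZ_lt (H : CellCtx N x₀ l ρ h₀) : N.cellZ x₀ l ρ < h₀ :=
  ((cellZ_le N x₀ l ρ).trans_lt N.h'_lt).trans_le H.h_le

theorem cellZ_le_one (H : CellCtx N x₀ l ρ h₀) : N.cellZ x₀ l ρ ≤ 1 := by
  have := H.gam_le
  have := H.l_pos
  linarith

theorem l_le_one (H : CellCtx N x₀ l ρ h₀) : l ≤ 1 := by
  have := H.gam_le
  have := cellZ_nonneg N x₀ l ρ
  linarith

theorem le_cellZ {X : E (m + n)} (h1 : X ∈ N.W.support) (h2 : X ∈ Cyl N.u N.Ω N.h)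
    (h3 : npr N.u X ∈ N.cellBase x₀ l ρ) : ‖zz N.u X‖ ≤ N.cellZ x₀ l ρ := by
  unfold NCyl.cellZ NCyl.supz
  refine le_csSup ⟨N.h, ?_⟩ ⟨X, h1, h2, h3, rfl⟩
  rintro t ⟨Y, -, hY, -, rfl⟩
  exact hY.2.le

/-! ### the good region -/

theorem good_lt (H : CellCtx N x₀ l ρ h₀) {q : E m × E n} (hq : N.good x₀ l ρ q) :
    l * ‖q.2‖ < h₀ := hq.2.trans_lt H.cellZ_lt

theorem good_tub (H : CellCtx N x₀ l ρ h₀) {q : E m × E n} (hq : N.good x₀ l ρ q) :
    unchart N.u x₀ l q ∈ Tub N.u h₀ := (H.right_inv q (H.good_lt hq)).1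

theorem good_chart (H : CellCtx N x₀ l ρ h₀) {q : E m × E n} (hq : N.good x₀ l ρ q) :
    chart N.u x₀ l (unchart N.u x₀ l q) = q := (H.right_inv q (H.good_lt hq)).2.1

theorem good_npr (H : CellCtx N x₀ l ρ h₀) {q : E m × E n} (hq : N.good x₀ l ρ q) :
    npr N.u (unchart N.u x₀ l q) = bpt N.u x₀ l q.1 := (H.right_inv q (H.good_lt hq)).2.2.1

theorem good_zz (H : CellCtx N x₀ l ρ h₀) {q : E m × E n} (hq : N.good x₀ l ρ q) :
    zz N.u (unchart N.u x₀ l q) = l • nuF N.u x₀ (bpt N.u x₀ l q.1) q.2 :=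
  (H.right_inv q (H.good_lt hq)).2.2.2

theorem norm_nuF (H : CellCtx N x₀ l ρ h₀) (y : E m) (ζ : E n) : ‖nuF N.u x₀ y ζ‖ = ‖ζ‖ := by
  have h1 : ⟪nuF N.u x₀ y ζ, nuF N.u x₀ y ζ⟫_ℝ = ⟪ζ, ζ⟫_ℝ := by
    rw [← adjoint_inner_right, ← ContinuousLinearMap.comp_apply, H.nn]
    rfl
  rw [real_inner_self_eq_norm_sq, real_inner_self_eq_norm_sq] at h1
  exact (pow_left_inj₀ (norm_nonneg _) (norm_nonneg _) two_ne_zero).1 h1

theorem norm_tauF (H : CellCtx N x₀ l ρ h₀) (y : E m) (a : E m) : ‖tauF N.u x₀ y a‖ = ‖a‖ := by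
  have h1 : ⟪tauF N.u x₀ y a, tauF N.u x₀ y a⟫_ℝ = ⟪a, a⟫_ℝ := by
    rw [← adjoint_inner_right, ← ContinuousLinearMap.comp_apply, H.tt]
    rfl
  rw [real_inner_self_eq_norm_sq, real_inner_self_eq_norm_sq] at h1
  exact (pow_left_inj₀ (norm_nonneg _) (norm_nonneg _) two_ne_zero).1 h1

theorem good_norm_zz (H : CellCtx N x₀ l ρ h₀) {q : E m × E n} (hq : N.good x₀ l ρ q) :
    ‖zz N.u (unchart N.u x₀ l q)‖ = l * ‖q.2‖ := by
  rw [H.good_zz hq, norm_smul, Real.norm_of_nonneg H.l_pos.le, H.norm_nuF]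

theorem good_norm_zz_le (H : CellCtx N x₀ l ρ h₀) {q : E m × E n} (hq : N.good x₀ l ρ q) :
    ‖zz N.u (unchart N.u x₀ l q)‖ ≤ N.cellZ x₀ l ρ := by
  rw [H.good_norm_zz hq]
  exact hq.2

theorem measurableSet_good (N : NCyl m n) (x₀ : E m) (l ρ : ℝ) :
    MeasurableSet {q : E m × E n | N.good x₀ l ρ q} := by
  have h1 : MeasurableSet {q : E m × E n | q.1 ∈ ball (0 : E m) ρ} :=
    measurable_fst measurableSet_ball
  have h2 : MeasurableSet {q : E m × E n | l * ‖q.2‖ ≤ N.cellZ x₀ l ρ} :=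
    measurableSet_le (measurable_const.mul measurable_snd.norm) measurable_const
  exact h1.inter h2

/-! ### the cell region -/

theorem cyl_sub_tub (H : CellCtx N x₀ l ρ h₀) : Cyl N.u N.Ω N.h ⊆ Tub N.u h₀ :=
  Cyl_subset_Tub _ _ H.h_le

theorem cellO_sub_tub (H : CellCtx N x₀ l ρ h₀) : N.cellO x₀ l ρ ⊆ Tub N.u h₀ :=
  inter_subset_left.trans H.cyl_sub_tub

theorem npr_cd (H : CellCtx N x₀ l ρ h₀) : ContDiffOn ℝ 3 (npr N.u) (Tub N.u h₀) :=
  (tube_deriv_of_le H.geo H.h₀_le).2.1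

theorem zz_cd (H : CellCtx N x₀ l ρ h₀) : ContDiffOn ℝ 3 (zz N.u) (Tub N.u h₀) :=
  (tube_deriv_of_le H.geo H.h₀_le).2.2.1

theorem isOpen_cellO (H : CellCtx N x₀ l ρ h₀) : IsOpen (N.cellO x₀ l ρ) :=
  (H.npr_cd.continuousOn.mono H.cyl_sub_tub).isOpen_inter_preimage H.isOpen_cyl
    (isOpen_cellBase N x₀ l ρ)

theorem restrict_eq (H : CellCtx N x₀ l ρ h₀) :
    N.μ.restrict {X | npr N.u X ∈ N.cellBase x₀ l ρ} = N.W.μ.restrict (N.cellO x₀ l ρ) := by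
  unfold NCyl.μ NCyl.cellO
  rw [Measure.restrict_restrict' H.isOpen_cyl.measurableSet, inter_comm]

theorem aemeasurable_chart (H : CellCtx N x₀ l ρ h₀) :
    AEMeasurable (chart N.u x₀ l) (N.W.μ.restrict (N.cellO x₀ l ρ)) :=
  (H.chart_cd.continuousOn.mono H.cellO_sub_tub).aemeasurable H.isOpen_cellO.measurableSet

theorem chart_fst (u : E m → E n) (x₀ : E m) (l : ℝ) (X : E (m + n)) :
    (chart u x₀ l X).1 = bco u x₀ l (npr u X) := rfl

/-- a.e. point of the cell region is a good point. -/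
theorem ae_good (H : CellCtx N x₀ l ρ h₀) :
    ∀ᵐ X ∂(N.W.μ.restrict (N.cellO x₀ l ρ)), X ∈ N.W.M ∧ X ∈ N.W.support ∧ X ∈ N.cellO x₀ l ρ ∧
      N.good x₀ l ρ (chart N.u x₀ l X) ∧ unchart N.u x₀ l (chart N.u x₀ l X) = X := by
  have h1 : ∀ᵐ X ∂(N.W.μ.restrict (N.cellO x₀ l ρ)), X ∈ N.W.M :=
    ae_restrict_of_ae (measure_eq_zero_iff_ae_notMem.1 N.W.μ_compl_M |>.mono fun X hX => by
      simpa using hX)
  have h2 : ∀ᵐ X ∂(N.W.μ.restrict (N.cellO x₀ l ρ)), X ∈ N.W.support :=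
    ae_restrict_of_ae (measure_eq_zero_iff_ae_notMem.1 N.W.μ_compl_support |>.mono fun X hX => by
      simpa using hX)
  filter_upwards [h1, h2, ae_restrict_mem H.isOpen_cellO.measurableSet] with X h1 h2 h3
  have hT := H.cellO_sub_tub h3
  refine ⟨h1, h2, h3, ⟨h3.2, ?_⟩, H.left_inv X hT⟩
  rw [H.norm_snd X hT, ← mul_assoc, mul_inv_cancel₀ H.l_pos.ne', one_mul]
  exact le_cellZ h2 h3.1 h3.2

/-! ### transfer of measures and integrals -/

theorem sys_μ (H : CellCtx N x₀ l ρ h₀) (Cg : ℝ) :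
    (N.sysOf x₀ l ρ Cg).μ = (ENNReal.ofReal (haarC m * l ^ m))⁻¹ •
      (N.W.μ.restrict (N.cellO x₀ l ρ)).map (chart N.u x₀ l) := by
  rw [← H.restrict_eq]
  rfl

theorem lintegral_sys (H : CellCtx N x₀ l ρ h₀) (Cg : ℝ) {f : E m × E n → ℝ≥0∞}
    (hf : Measurable f) :
    ∫⁻ q, f q ∂(N.sysOf x₀ l ρ Cg).μ
      = (ENNReal.ofReal (haarC m * l ^ m))⁻¹ *
        ∫⁻ X in N.cellO x₀ l ρ, f (chart N.u x₀ l X) ∂N.W.μ := by
  rw [H.sys_μ, lintegral_smul_measure, lintegral_map' hf.aemeasurable H.aemeasurable_chart,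
    smul_eq_mul]

theorem sys_μ_apply (H : CellCtx N x₀ l ρ h₀) (Cg : ℝ) {A : Set (E m × E n)}
    (hA : MeasurableSet A) :
    (N.sysOf x₀ l ρ Cg).μ A = (ENNReal.ofReal (haarC m * l ^ m))⁻¹ *
      N.W.μ (chart N.u x₀ l ⁻¹' A ∩ N.cellO x₀ l ρ) := by
  rw [H.sys_μ, Measure.smul_apply, Measure.map_apply_of_aemeasurable H.aemeasurable_chart hA,
    Measure.restrict_apply' H.isOpen_cellO.measurableSet, smul_eq_mul]

/-- a property which holds at the chart images of a.e. point holds `S.μ`-a.e. -/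
theorem ae_sys_of (H : CellCtx N x₀ l ρ h₀) (Cg : ℝ) {p : E m × E n → Prop}
    (hp : MeasurableSet {q | p q})
    (h : ∀ᵐ X ∂(N.W.μ.restrict (N.cellO x₀ l ρ)), p (chart N.u x₀ l X)) :
    ∀ᵐ q ∂(N.sysOf x₀ l ρ Cg).μ, p q := by
  rw [H.sys_μ]
  apply Measure.ae_smul_measure
  rwa [ae_map_iff H.aemeasurable_chart hp]

theorem ae_sys_good (H : CellCtx N x₀ l ρ h₀) (Cg : ℝ) :
    ∀ᵐ q ∂(N.sysOf x₀ l ρ Cg).μ, N.good x₀ l ρ q :=
  H.ae_sys_of Cg (measurableSet_good N x₀ l ρ) (H.ae_good.mono fun _ h => h.2.2.2.1)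

theorem integral_sys (H : CellCtx N x₀ l ρ h₀) (Cg : ℝ) {f : E m × E n → ℝ} (hf : Measurable f) :
    ∫ q, f q ∂(N.sysOf x₀ l ρ Cg).μ
      = ((ENNReal.ofReal (haarC m * l ^ m))⁻¹).toReal *
        ∫ X in N.cellO x₀ l ρ, f (chart N.u x₀ l X) ∂N.W.μ := by
  rw [H.sys_μ, integral_smul_measure,
    integral_map H.aemeasurable_chart hf.aestronglyMeasurable, smul_eq_mul]

end CellCtx

end Claimed.Agent.R322.Tube
end

/- ===== packed: Claimed.Agent.R322.Tube.Cell.Dom ===== -/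
section
/-!
# R322 / Tube / Cell / Dom   (helper121)   leaf V1 (`v_dom`) + the Haar constant (T0)
-/

set_option autoImplicit false

open scoped ENNReal NNReal InnerProductSpace
open MeasureTheory ContinuousLinearMap Set Metric

namespace Claimed.Agent.R322.Tube

variable {m n : ℕ}

theorem cl_haarC_pos (m : ℕ) : 0 < haarC m := by
  unfold haarC
  apply div_pos
  · exact ENNReal.toReal_pos (measure_ball_pos _ _ one_pos).ne' measure_ball_lt_top.ne
  · exact ENNReal.toReal_pos (measure_ball_pos _ _ one_pos).ne' measure_ball_lt_top.ne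

theorem cl_haarC_spec (m : ℕ) :
    (μH[(m : ℝ)] : Measure (E m)) = ENNReal.ofReal (haarC m) • volume := by
  have h := Measure.isAddLeftInvariant_eq_smul (μH[(m : ℝ)] : Measure (E m)) (volume : Measure (E m))
  set c := Measure.addHaarScalarFactor (μH[(m : ℝ)] : Measure (E m)) (volume : Measure (E m)) with hc
  have h1 : (μH[(m : ℝ)] : Measure (E m)) (ball 0 1) = c * volume (ball (0 : E m) 1) := by
    conv_lhs => rw [h]
    rfl
  have hv0 : (volume : Measure (E m)) (ball 0 1) ≠ 0 := (measure_ball_pos _ _ one_pos).ne'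
  have hvt : (volume : Measure (E m)) (ball 0 1) ≠ ∞ := measure_ball_lt_top.ne
  have h2 : haarC m = c := by
    unfold haarC
    rw [h1, ENNReal.toReal_mul, ENNReal.coe_toReal, mul_div_assoc, div_self, mul_one]
    exact (ENNReal.toReal_pos hv0 hvt).ne'
  rw [h2, ENNReal.ofReal_coe_nnreal]
  exact h


theorem cl_scale_pos (m : ℕ) {l : ℝ} (hl : 0 < l) : 0 < haarC m * l ^ m :=
  mul_pos (cl_haarC_pos m) (pow_pos hl m)

theorem cl_scale_inv_ne_top (m : ℕ) {l : ℝ} (hl : 0 < l) :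
    (ENNReal.ofReal (haarC m * l ^ m))⁻¹ ≠ ∞ :=
  ENNReal.inv_ne_top.2 (ENNReal.ofReal_pos.2 (cl_scale_pos m hl)).ne'

namespace CellCtx

variable {N : NCyl m n} {x₀ : E m} {l ρ h₀ : ℝ}

theorem conc (H : CellCtx N x₀ l ρ h₀) (Cg : ℝ) :
    (N.sysOf x₀ l ρ Cg).μ ((N.sysOf x₀ l ρ Cg).Ω ×ˢ (univ : Set (E n)))ᶜ = 0 := by
  rw [measure_eq_zero_iff_ae_notMem]
  filter_upwards [H.ae_sys_good Cg] with q hq
  intro hcon
  exact hcon ⟨hq.1, mem_univ _⟩

theorem finite_mass (H : CellCtx N x₀ l ρ h₀) (Cg : ℝ) (K : Set (E m)) (hK : IsCompact K)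
    (hKΩ : K ⊆ (N.sysOf x₀ l ρ Cg).Ω) :
    (N.sysOf x₀ l ρ Cg).μ (K ×ˢ (univ : Set (E n))) < ∞ := by
  rw [H.sys_μ_apply Cg (hK.measurableSet.prod MeasurableSet.univ)]
  refine ENNReal.mul_lt_top (cl_scale_inv_ne_top m H.l_pos).lt_top ?_
  have hK' : IsCompact (bpt N.u x₀ l '' K) := hK.image (cl_continuous_bpt _ _ _)
  have hK'Ω : bpt N.u x₀ l '' K ⊆ N.Ω := by
    rintro _ ⟨p, hp, rfl⟩
    exact H.cellBase_sub (H.bpt_mem_cellBase (hKΩ hp))
  refine lt_of_le_of_lt ?_ (H.fin _ hK' hK'Ω)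
  unfold NCyl.μ
  rw [Measure.restrict_apply' H.isOpen_cyl.measurableSet]
  refine measure_mono ?_
  rintro X ⟨h1, h2⟩
  refine ⟨⟨bco N.u x₀ l (npr N.u X), h1.1, H.bpt_bco _⟩, h2.1⟩

theorem proper (H : CellCtx N x₀ l ρ h₀) (Cg : ℝ) (K : Set (E m)) :
    ∃ Hh : ℝ, (N.sysOf x₀ l ρ Cg).μ (K ×ˢ {ζ : E n | Hh < ‖ζ‖}) = 0 := by
  refine ⟨N.cellZ x₀ l ρ / l, ?_⟩
  rw [measure_eq_zero_iff_ae_notMem]
  filter_upwards [H.ae_sys_good Cg] with q hq
  rintro ⟨-, h2⟩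
  have h3 : N.cellZ x₀ l ρ / l < ‖q.2‖ := h2
  rw [div_lt_iff₀ H.l_pos] at h3
  have := hq.2
  linarith

end CellCtx

end Claimed.Agent.R322.Tube
end

/- ===== packed: Claimed.Agent.R322.Tube.Cell.Blocks ===== -/
section
/-!
# R322 / Tube / Cell / Blocks   (helper121)   leaf V3 (`v_blocks`): blocks of an orthogonal projection in an orthonormal frame
-/

set_option autoImplicit false

open scoped ENNReal NNReal InnerProductSpace
open MeasureTheory ContinuousLinearMap Set Metric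

namespace Claimed.Agent.R322.Tube

variable {m n : ℕ}

/-- an orthonormal frame `(τ, ν)` of `E (m+n)` and an orthogonal projection `P` of rank `m` -/
structure BlockCtx (τ : E m →L[ℝ] E (m + n)) (ν : E n →L[ℝ] E (m + n))
    (P : E (m + n) →L[ℝ] E (m + n)) : Prop where
  tt : ∀ u, adjoint τ (τ u) = u
  nn : ∀ ξ, adjoint ν (ν ξ) = ξ
  sum : ∀ w, τ (adjoint τ w) + ν (adjoint ν w) = w
  idem : ∀ w, P (P w) = P w
  symm : ∀ x y : E (m + n), ⟪P x, y⟫_ℝ = ⟪x, P y⟫_ℝ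
  tr : Sx.tr P = m

namespace BlockCtx

variable {τ : E m →L[ℝ] E (m + n)} {ν : E n →L[ℝ] E (m + n)} {P : E (m + n) →L[ℝ] E (m + n)}

/-- the three blocks -/
noncomputable def bB (τ : E m →L[ℝ] E (m + n)) (P : E (m + n) →L[ℝ] E (m + n)) : E m →L[ℝ] E m :=
  adjoint τ ∘L (ContinuousLinearMap.id ℝ _ - P) ∘L τ

noncomputable def bVH (τ : E m →L[ℝ] E (m + n)) (ν : E n →L[ℝ] E (m + n))
    (P : E (m + n) →L[ℝ] E (m + n)) : E m →L[ℝ] E n :=
  adjoint ν ∘L P ∘L τ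

noncomputable def bVV (ν : E n →L[ℝ] E (m + n)) (P : E (m + n) →L[ℝ] E (m + n)) : E n →L[ℝ] E n :=
  adjoint ν ∘L P ∘L ν

theorem bB_apply (H : BlockCtx τ ν P) (u : E m) : bB τ P u = u - adjoint τ (P (τ u)) := by
  simp [bB, H.tt]

theorem inner_P_P (H : BlockCtx τ ν P) (x y : E (m + n)) : ⟪P x, P y⟫_ℝ = ⟪P x, y⟫_ℝ := by
  rw [← H.symm, H.idem]

theorem inner_tau (H : BlockCtx τ ν P) (u v : E m) : ⟪τ u, τ v⟫_ℝ = ⟪u, v⟫_ℝ := by
  rw [← adjoint_inner_left, H.tt]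

theorem inner_nu (H : BlockCtx τ ν P) (u v : E n) : ⟪ν u, ν v⟫_ℝ = ⟪u, v⟫_ℝ := by
  rw [← adjoint_inner_left, H.nn]

theorem inner_B (H : BlockCtx τ ν P) (u v : E m) :
    ⟪bB τ P u, v⟫_ℝ = ⟪u, v⟫_ℝ - ⟪P (τ u), τ v⟫_ℝ := by
  rw [H.bB_apply, inner_sub_left, adjoint_inner_left]

theorem inner_VV (_H : BlockCtx τ ν P) (ξ η : E n) : ⟪bVV ν P ξ, η⟫_ℝ = ⟪P (ν ξ), ν η⟫_ℝ := by
  simp [bVV, adjoint_inner_left]

theorem norm_P_sq_le (H : BlockCtx τ ν P) (w : E (m + n)) : ⟪P w, w⟫_ℝ ≤ ⟪w, w⟫_ℝ := by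
  have h : 0 ≤ ⟪w - P w, w - P w⟫_ℝ := real_inner_self_nonneg
  have e1 : ⟪w, P w⟫_ℝ = ⟪P w, w⟫_ℝ := (H.symm w w).symm
  have e2 : ⟪P w, P w⟫_ℝ = ⟪P w, w⟫_ℝ := H.inner_P_P w w
  rw [inner_sub_left, inner_sub_right, inner_sub_right, e1, e2] at h
  linarith

theorem inner_P_nonneg (H : BlockCtx τ ν P) (w : E (m + n)) : 0 ≤ ⟪P w, w⟫_ℝ := by
  rw [← H.inner_P_P]
  exact real_inner_self_nonneg

theorem B_symm (H : BlockCtx τ ν P) (u v : E m) : ⟪bB τ P u, v⟫_ℝ = ⟪u, bB τ P v⟫_ℝ := by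
  rw [H.inner_B, real_inner_comm (bB τ P v) u, H.inner_B, real_inner_comm u v, H.symm,
    real_inner_comm (τ u)]

theorem B_nonneg (H : BlockCtx τ ν P) (u : E m) : 0 ≤ ⟪bB τ P u, u⟫_ℝ := by
  rw [H.inner_B, ← H.inner_tau u u]
  linarith [H.norm_P_sq_le (τ u)]

theorem B_le (H : BlockCtx τ ν P) (u : E m) : ⟪bB τ P u, u⟫_ℝ ≤ ‖u‖ ^ 2 := by
  rw [H.inner_B, real_inner_self_eq_norm_sq]
  linarith [H.inner_P_nonneg (τ u)]

theorem VV_symm (H : BlockCtx τ ν P) (ξ η : E n) : ⟪bVV ν P ξ, η⟫_ℝ = ⟪ξ, bVV ν P η⟫_ℝ := by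
  rw [H.inner_VV, real_inner_comm (bVV ν P η) ξ, H.inner_VV, H.symm, real_inner_comm (ν ξ)]

theorem VV_nonneg (H : BlockCtx τ ν P) (ξ : E n) : 0 ≤ ⟪bVV ν P ξ, ξ⟫_ℝ := by
  rw [H.inner_VV]
  exact H.inner_P_nonneg _

theorem VV_le (H : BlockCtx τ ν P) (ξ : E n) : ⟪bVV ν P ξ, ξ⟫_ℝ ≤ ‖ξ‖ ^ 2 := by
  rw [H.inner_VV, ← real_inner_self_eq_norm_sq, ← H.inner_nu ξ ξ]
  exact H.norm_P_sq_le _

/-- Parseval in the frame -/
theorem parseval (H : BlockCtx τ ν P) (x y : E (m + n)) :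
    ⟪x, y⟫_ℝ = ⟪adjoint τ x, adjoint τ y⟫_ℝ + ⟪adjoint ν x, adjoint ν y⟫_ℝ := by
  conv_lhs => rw [← H.sum x]
  rw [inner_add_left, ← adjoint_inner_right τ, ← adjoint_inner_right ν]

theorem tPt (H : BlockCtx τ ν P) (u : E m) : adjoint τ (P (τ u)) = u - bB τ P u := by
  rw [H.bB_apply]; abel

theorem VH_VH (H : BlockCtx τ ν P) (u v : E m) :
    ⟪bVH τ ν P u, bVH τ ν P v⟫_ℝ = ⟪bB τ P u, v⟫_ℝ - ⟪bB τ P u, bB τ P v⟫_ℝ := by
  have h := H.parseval (P (τ u)) (P (τ v))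
  have e1 : ⟪P (τ u), P (τ v)⟫_ℝ = ⟪u, v⟫_ℝ - ⟪bB τ P u, v⟫_ℝ := by
    rw [H.inner_P_P, H.inner_B]; ring
  have e2 : bVH τ ν P u = adjoint ν (P (τ u)) := rfl
  have e3 : bVH τ ν P v = adjoint ν (P (τ v)) := rfl
  rw [e2, e3]
  rw [e1, H.tPt, H.tPt, inner_sub_left, inner_sub_right, inner_sub_right, ← H.B_symm u v] at h
  linarith

theorem adjoint_VH (_H : BlockCtx τ ν P) (hs : adjoint P = P) :
    adjoint (bVH τ ν P) = adjoint τ ∘L P ∘L ν := by
  unfold bVH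
  rw [adjoint_comp, adjoint_comp, adjoint_adjoint, hs, comp_assoc]

theorem adjoint_P (H : BlockCtx τ ν P) : adjoint P = P := by
  refine (eq_adjoint_iff P P).2 (fun x y => H.symm x y) |>.symm

theorem VHa_VHa (H : BlockCtx τ ν P) (ξ η : E n) :
    ⟪adjoint (bVH τ ν P) ξ, adjoint (bVH τ ν P) η⟫_ℝ
      = ⟪bVV ν P ξ, η⟫_ℝ - ⟪bVV ν P ξ, bVV ν P η⟫_ℝ := by
  have h := H.parseval (P (ν ξ)) (P (ν η))
  rw [H.adjoint_VH H.adjoint_P]
  have e1 : ⟪P (ν ξ), P (ν η)⟫_ℝ = ⟪bVV ν P ξ, η⟫_ℝ := by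
    rw [H.inner_P_P, H.inner_VV]
  have e2 : bVV ν P ξ = adjoint ν (P (ν ξ)) := rfl
  have e3 : bVV ν P η = adjoint ν (P (ν η)) := rfl
  have e4 : (adjoint τ ∘L P ∘L ν) ξ = adjoint τ (P (ν ξ)) := rfl
  have e5 : (adjoint τ ∘L P ∘L ν) η = adjoint τ (P (ν η)) := rfl
  rw [e4, e5]
  rw [e1] at h
  rw [h, e2, e3]
  ring

theorem VV_VH (H : BlockCtx τ ν P) (u : E m) :
    bVV ν P (bVH τ ν P u) = bVH τ ν P (bB τ P u) := by
  have e1 : bVV ν P (bVH τ ν P u) = adjoint ν (P (ν (adjoint ν (P (τ u))))) := rfl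
  have e2 : bVH τ ν P (bB τ P u) = adjoint ν (P (τ (bB τ P u))) := rfl
  have e3 : ν (adjoint ν (P (τ u))) = P (τ u) - τ (adjoint τ (P (τ u))) := by
    rw [eq_sub_iff_add_eq]
    exact (add_comm _ _).trans (H.sum _)
  rw [e1, e2, e3, H.tPt, map_sub, H.idem, map_sub, map_sub, map_sub, map_sub]
  abel

theorem tr_VV (_H : BlockCtx τ ν P) : Sx.tr (bVV ν P) = Sx.tr (P ∘L (ν ∘L adjoint ν)) := by
  unfold bVV
  rw [Sx.tr_comp_comm, comp_assoc]

theorem sum_op (H : BlockCtx τ ν P) :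
    ν ∘L adjoint ν = ContinuousLinearMap.id ℝ _ - τ ∘L adjoint τ := by
  ext1 w
  have := H.sum w
  change ν (adjoint ν w) = w - τ (adjoint τ w)
  rw [eq_sub_iff_add_eq]
  exact (add_comm _ _).trans this

theorem tr_B (H : BlockCtx τ ν P) : Sx.tr (bB τ P) = Sx.tr (bVV ν P) := by
  rw [H.tr_VV, H.sum_op]
  have e1 : bB τ P = ContinuousLinearMap.id ℝ _ - adjoint τ ∘L (P ∘L τ) := by
    ext1 u
    rw [H.bB_apply]
    rfl
  have e2 : P ∘L (ContinuousLinearMap.id ℝ _ - τ ∘L adjoint τ) = P - (P ∘L τ) ∘L adjoint τ := by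
    ext1 w
    simp
  rw [e1, e2, Sx.tr_sub, Sx.tr_sub, Sx.tr_id, H.tr, Sx.tr_comp_comm]

end BlockCtx

namespace CellCtx

variable {N : NCyl m n} {x₀ : E m} {l ρ h₀ : ℝ}

theorem block (H : CellCtx N x₀ l ρ h₀) (q : E m × E n) :
    BlockCtx (N.tq x₀ l q) (N.nq x₀ l q) (N.Pq x₀ l q) where
  tt := fun u => by
    have := congrArg (fun A : E m →L[ℝ] E m => A u) (H.tt (bpt N.u x₀ l q.1))
    exact this
  nn := fun u => by
    have := congrArg (fun A : E n →L[ℝ] E n => A u) (H.nn (bpt N.u x₀ l q.1))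
    exact this
  sum := fun w => by
    have h1 := congrArg (fun A : E (m + n) →L[ℝ] E (m + n) => A w) (H.tPh (bpt N.u x₀ l q.1))
    have h2 := congrArg (fun A : E (m + n) →L[ℝ] E (m + n) => A w) (H.nPv (bpt N.u x₀ l q.1))
    have h1' : N.tq x₀ l q (adjoint (N.tq x₀ l q) w) = Ph N.u (bpt N.u x₀ l q.1) w := h1
    have h2' : N.nq x₀ l q (adjoint (N.nq x₀ l q) w) = w - Ph N.u (bpt N.u x₀ l q.1) w := h2
    rw [h1', h2']
    abel
  idem := fun w => by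
    have := congrArg (fun A : E (m + n) →L[ℝ] E (m + n) => A w) (N.W.P_proj (unchart N.u x₀ l q)).idem
    exact this
  symm := (N.W.P_proj (unchart N.u x₀ l q)).symm
  tr := by
    rw [Sx.tr_eq_trace]
    exact (N.W.P_proj (unchart N.u x₀ l q)).tr

theorem good_tub_h (H : CellCtx N x₀ l ρ h₀) {q : E m × E n} (hq : N.good x₀ l ρ q) :
    unchart N.u x₀ l q ∈ Tub N.u N.h :=
  ⟨npr N.u _, ((H.good_norm_zz_le hq).trans_lt ((cellZ_le N x₀ l ρ).trans_lt N.h'_lt))⟩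

/-- the tilt density of the system is the ambient tilt -/
theorem tr_Bg (H : CellCtx N x₀ l ρ h₀) {q : E m × E n} (hq : N.good x₀ l ρ q) :
    Sx.tr (N.Bg x₀ l q) = tilt N.u (N.Pq x₀ l q) (unchart N.u x₀ l q) := by
  have h1 : Sx.tr (N.Bg x₀ l q) = _ := (H.block q).tr_B
  rw [h1, (H.block q).tr_VV, Sx.tr_eq_trace]
  unfold tilt tdiv
  rw [H.good_npr hq, ← H.nPv]
  rfl

theorem tr_Bg_nonneg (H : CellCtx N x₀ l ρ h₀) (q : E m × E n) : 0 ≤ Sx.tr (N.Bg x₀ l q) :=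
  Sx.psd_tr_nonneg (fun u => (H.block q).B_nonneg u)

/-- **V3** -/
theorem blocks (H : CellCtx N x₀ l ρ h₀) (Cg : ℝ) (S : Sx.Sys m n) (hS : S = N.sysOf x₀ l ρ Cg) :
    (∀ q u v, ⟪S.B q u, v⟫_ℝ = ⟪u, S.B q v⟫_ℝ) ∧
    (∀ q u, 0 ≤ ⟪S.B q u, u⟫_ℝ) ∧
    (∀ q u, ⟪S.B q u, u⟫_ℝ ≤ ‖u‖ ^ 2) ∧
    (∀ q ξ η, ⟪S.Pvv q ξ, η⟫_ℝ = ⟪ξ, S.Pvv q η⟫_ℝ) ∧
    (∀ q ξ, 0 ≤ ⟪S.Pvv q ξ, ξ⟫_ℝ) ∧
    (∀ q ξ, ⟪S.Pvv q ξ, ξ⟫_ℝ ≤ ‖ξ‖ ^ 2) ∧
    (∀ q u v, ⟪S.Pvh q u, S.Pvh q v⟫_ℝ = ⟪S.B q u, v⟫_ℝ - ⟪S.B q u, S.B q v⟫_ℝ) ∧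
    (∀ q ξ η, ⟪(S.Pvh q).adjoint ξ, (S.Pvh q).adjoint η⟫_ℝ
        = ⟪S.Pvv q ξ, η⟫_ℝ - ⟪S.Pvv q ξ, S.Pvv q η⟫_ℝ) ∧
    (∀ q u, S.Pvv q (S.Pvh q u) = S.Pvh q (S.B q u)) ∧
    (∀ q, Sx.tr (S.B q) = Sx.tr (S.Pvv q)) := by
  subst hS
  have key : ∀ q : E m × E n,
      ((N.sysOf x₀ l ρ Cg).B q = BlockCtx.bB (N.tq x₀ l q) (N.Pq x₀ l q) ∧
        (N.sysOf x₀ l ρ Cg).Pvh q = BlockCtx.bVH (N.tq x₀ l q) (N.nq x₀ l q) (N.Pq x₀ l q) ∧
        (N.sysOf x₀ l ρ Cg).Pvv q = BlockCtx.bVV (N.nq x₀ l q) (N.Pq x₀ l q)) ∨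
      ((N.sysOf x₀ l ρ Cg).B q = 0 ∧ (N.sysOf x₀ l ρ Cg).Pvh q = 0 ∧
        (N.sysOf x₀ l ρ Cg).Pvv q = 0) := by
    intro q
    by_cases hq : N.good x₀ l ρ q
    · left
      refine ⟨?_, ?_, ?_⟩ <;> simp only [NCyl.sysOf, if_pos hq] <;> rfl
    · right
      refine ⟨?_, ?_, ?_⟩ <;> simp only [NCyl.sysOf, if_neg hq]
  refine ⟨fun q u v => ?_, fun q u => ?_, fun q u => ?_, fun q u v => ?_, fun q u => ?_,
    fun q u => ?_, fun q u v => ?_, fun q u v => ?_, fun q u => ?_, fun q => ?_⟩ <;>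
  rcases key q with ⟨e1, e2, e3⟩ | ⟨e1, e2, e3⟩ <;> simp only [e1, e2, e3]
  · exact (H.block q).B_symm u v
  · simp
  · exact (H.block q).B_nonneg u
  · simp
  · exact (H.block q).B_le u
  · simp
  · exact (H.block q).VV_symm u v
  · simp
  · exact (H.block q).VV_nonneg u
  · simp
  · exact (H.block q).VV_le u
  · simp
  · exact (H.block q).VH_VH u v
  · simp
  · exact (H.block q).VHa_VHa u v
  · simp
  · exact (H.block q).VV_VH u
  · simp
  · exact (H.block q).tr_B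
  · simp

/-- **V5** given the constant of `jacobian_facts` -/
theorem jac (H : CellCtx N x₀ l ρ h₀) {hJ C : ℝ} (hC : 0 < C) (hh : N.h ≤ hJ)
    (HJ : ∀ X ∈ Tub N.u hJ, ∀ P : E (m + n) →L[ℝ] E (m + n), IsProj m P →
      |tanJac P (fderiv ℝ (npr N.u) X) * vdens (fderiv ℝ N.u (npr N.u X)) - 1|
        ≤ C * (tilt N.u P X + ‖zz N.u X‖ ^ 2 + ‖HS N.u (npr N.u X)‖ ^ 2) ∧
      2 * (1 - tanJac P (fderiv ℝ (npr N.u) X) * vdens (fderiv ℝ N.u (npr N.u X))) - tilt N.u P X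
        ≤ C * (tilt N.u P X ^ 2 + ‖zz N.u X‖ ^ 2 + ‖HS N.u (npr N.u X)‖ ^ 2))
    (Cg : ℝ) (hCg : C ≤ Cg) (S : Sx.Sys m n) (hS : S = N.sysOf x₀ l ρ Cg) :
    (∀ q, 0 ≤ S.Jpi q) ∧
    (∀ q, |S.Jpi q - 1| ≤ S.Cg * (S.e q + S.lam q)) ∧
    (∀ q, 2 * (1 - S.Jpi q) - S.e q ≤ S.Cg * (S.e q ^ 2 + S.lam q)) := by
  subst hS
  have key : ∀ q : E m × E n,
      (N.good x₀ l ρ q ∧ (N.sysOf x₀ l ρ Cg).Jpi q = N.Jpig x₀ l q ∧
        (N.sysOf x₀ l ρ Cg).e q = tilt N.u (N.Pq x₀ l q) (unchart N.u x₀ l q) ∧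
        (N.sysOf x₀ l ρ Cg).lam q = lam N.u (unchart N.u x₀ l q)) ∨
      ((N.sysOf x₀ l ρ Cg).Jpi q = 1 ∧ (N.sysOf x₀ l ρ Cg).e q = 0 ∧
        (N.sysOf x₀ l ρ Cg).lam q = 0) := by
    intro q
    by_cases hq : N.good x₀ l ρ q
    · left
      refine ⟨hq, ?_, ?_, ?_⟩
      · simp only [NCyl.sysOf, if_pos hq]
      · rw [← H.tr_Bg hq]
        simp only [Sx.Sys.e, NCyl.sysOf, if_pos hq]
      · simp only [NCyl.sysOf, if_pos hq]
    · right
      refine ⟨?_, ?_, ?_⟩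
      · simp only [NCyl.sysOf, if_neg hq]
      · simp only [Sx.Sys.e, NCyl.sysOf, if_neg hq, Sx.tr_zero]
      · simp only [NCyl.sysOf, if_neg hq]
  have hCg' : (N.sysOf x₀ l ρ Cg).Cg = Cg := rfl
  refine ⟨fun q => ?_, fun q => ?_, fun q => ?_⟩ <;>
  rcases key q with ⟨hq, e1, e2, e3⟩ | ⟨e1, e2, e3⟩ <;> simp only [e1, e2, e3, hCg']
  · exact mul_nonneg (Real.sqrt_nonneg _) (Real.sqrt_nonneg _)
  · norm_num
  · have h1 := (HJ _ (Tub_mono _ hh (H.good_tub_h hq)) _ (N.W.P_proj (unchart N.u x₀ l q))).1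
    rw [H.good_npr hq] at h1
    have h2 : 0 ≤ tilt N.u (N.Pq x₀ l q) (unchart N.u x₀ l q) := by
      rw [← H.tr_Bg hq]; exact H.tr_Bg_nonneg q
    have h3 := DHSsq_nonneg N.u (bpt N.u x₀ l q.1)
    have h4 : lam N.u (unchart N.u x₀ l q) = ‖zz N.u (unchart N.u x₀ l q)‖ ^ 2
        + ‖HS N.u (bpt N.u x₀ l q.1)‖ ^ 2 + DHSsq N.u (bpt N.u x₀ l q.1) := by
      unfold lam; rw [H.good_npr hq]
    refine h1.trans ?_
    rw [h4]
    have h5 : 0 ≤ ‖zz N.u (unchart N.u x₀ l q)‖ ^ 2 + ‖HS N.u (bpt N.u x₀ l q.1)‖ ^ 2 := by positivity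
    calc C * (tilt N.u (N.W.P (unchart N.u x₀ l q)) (unchart N.u x₀ l q)
          + ‖zz N.u (unchart N.u x₀ l q)‖ ^ 2 + ‖HS N.u (bpt N.u x₀ l q.1)‖ ^ 2)
        ≤ C * (tilt N.u (N.Pq x₀ l q) (unchart N.u x₀ l q) + (‖zz N.u (unchart N.u x₀ l q)‖ ^ 2
          + ‖HS N.u (bpt N.u x₀ l q.1)‖ ^ 2 + DHSsq N.u (bpt N.u x₀ l q.1))) := by
          apply mul_le_mul_of_nonneg_left _ hC.le
          change tilt N.u (N.Pq x₀ l q) (unchart N.u x₀ l q) + _ + _ ≤ _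
          linarith
      _ ≤ _ := by
          apply mul_le_mul_of_nonneg_right hCg
          linarith
  · simp
  · have h1 := (HJ _ (Tub_mono _ hh (H.good_tub_h hq)) _ (N.W.P_proj (unchart N.u x₀ l q))).2
    rw [H.good_npr hq] at h1
    have h3 := DHSsq_nonneg N.u (bpt N.u x₀ l q.1)
    have h4 : lam N.u (unchart N.u x₀ l q) = ‖zz N.u (unchart N.u x₀ l q)‖ ^ 2
        + ‖HS N.u (bpt N.u x₀ l q.1)‖ ^ 2 + DHSsq N.u (bpt N.u x₀ l q.1) := by
      unfold lam; rw [H.good_npr hq]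
    refine h1.trans ?_
    rw [h4]
    have h5 : 0 ≤ ‖zz N.u (unchart N.u x₀ l q)‖ ^ 2 + ‖HS N.u (bpt N.u x₀ l q.1)‖ ^ 2 := by positivity
    have h6 : 0 ≤ tilt N.u (N.Pq x₀ l q) (unchart N.u x₀ l q) ^ 2 := sq_nonneg _
    calc C * (tilt N.u (N.W.P (unchart N.u x₀ l q)) (unchart N.u x₀ l q) ^ 2
          + ‖zz N.u (unchart N.u x₀ l q)‖ ^ 2 + ‖HS N.u (bpt N.u x₀ l q.1)‖ ^ 2)
        ≤ C * (tilt N.u (N.Pq x₀ l q) (unchart N.u x₀ l q) ^ 2 + (‖zz N.u (unchart N.u x₀ l q)‖ ^ 2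
          + ‖HS N.u (bpt N.u x₀ l q.1)‖ ^ 2 + DHSsq N.u (bpt N.u x₀ l q.1))) := by
          apply mul_le_mul_of_nonneg_left _ hC.le
          change tilt N.u (N.Pq x₀ l q) (unchart N.u x₀ l q) ^ 2 + _ + _ ≤ _
          linarith
      _ ≤ _ := by
          apply mul_le_mul_of_nonneg_right hCg
          linarith
  · simp

end CellCtx

end Claimed.Agent.R322.Tube
end

/- ===== packed: Claimed.Agent.R322.Tube.Cell.MeasGen ===== -/
section
/-!
# R322 / Tube / Cell / MeasGen   (helper121)   generic measurability lemmas for operator-valued maps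
-/

set_option autoImplicit false

open scoped ENNReal NNReal InnerProductSpace
open MeasureTheory ContinuousLinearMap Set Metric

namespace Claimed.Agent.R322.Tube

section gen

variable {α : Type*} [MeasurableSpace α] {a b c : ℕ}

theorem cl_meas_comp {A : α → E b →L[ℝ] E c} {B : α → E a →L[ℝ] E b} (hA : Measurable A)
    (hB : Measurable B) : Measurable fun x => A x ∘L B x := by
  have h1 : Continuous fun p : (E b →L[ℝ] E c) × (E a →L[ℝ] E b) => p.1 ∘L p.2 :=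
    isBoundedBilinearMap_comp.continuous
  exact h1.measurable2 hA hB

theorem cl_meas_adjoint {A : α → E a →L[ℝ] E b} (hA : Measurable A) :
    Measurable fun x => adjoint (A x) :=
  (adjoint (𝕜 := ℝ) (E := E a) (F := E b)).continuous.measurable.comp hA

theorem cl_measurable_inverse : Measurable (fun A : E a →L[ℝ] E a => A.inverse) := by
  have hU : IsOpen {A : E a →L[ℝ] E a | A.IsInvertible} := ContinuousLinearEquiv.isOpen
  refine measurable_of_restrict_of_restrict_compl hU.measurableSet ?_ ?_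
  · apply Continuous.measurable
    rw [← continuousOn_iff_continuous_domRestrict]
    intro A hA
    exact (IsInvertible.contDiffAt_map_inverse (n := 0) hA).continuousAt.continuousWithinAt
  · have : ({A : E a →L[ℝ] E a | A.IsInvertible}ᶜ).domRestrict (fun A : E a →L[ℝ] E a => A.inverse)
        = fun _ => 0 := by
      funext A
      exact inverse_of_not_isInvertible A.2
    rw [this]
    exact measurable_const

theorem cl_meas_inverse {A : α → E a →L[ℝ] E a} (hA : Measurable A) :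
    Measurable fun x => (A x).inverse := cl_measurable_inverse.comp hA

theorem cl_meas_trace {A : α → E a →L[ℝ] E a} (hA : Measurable A) :
    Measurable fun x => LinearMap.trace ℝ (E a) (A x : E a →ₗ[ℝ] E a) := by
  have : (fun x => LinearMap.trace ℝ (E a) (A x : E a →ₗ[ℝ] E a)) = fun x => Sx.tr (A x) := by
    funext x
    rw [Sx.tr_eq_trace]
  rw [this]
  exact Sx.measurable_tr.comp hA

theorem cl_meas_tdiv {A B : α → E a →L[ℝ] E a} (hA : Measurable A) (hB : Measurable B) :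
    Measurable fun x => tdiv (A x) (B x) := cl_meas_trace (cl_meas_comp hA hB)

theorem cl_meas_det {A : α → E a →L[ℝ] E a} (hA : Measurable A) :
    Measurable fun x => LinearMap.det (A x : E a →ₗ[ℝ] E a) :=
  (ContinuousLinearMap.continuous_det (𝕜 := ℝ) (E := E a)).measurable.comp hA

theorem cl_meas_tanJac {P : α → E a →L[ℝ] E a} {L : α → E a →L[ℝ] E b} (hP : Measurable P)
    (hL : Measurable L) : Measurable fun x => tanJac (P x) (L x) := by
  unfold tanJac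
  apply Measurable.sqrt
  apply cl_meas_det
  exact (cl_meas_comp hP (cl_meas_comp (cl_meas_adjoint hL) (cl_meas_comp hL hP))).add
    (measurable_const.sub hP)

theorem cl_meas_ite {β : Type*} [MeasurableSpace β] {p : α → Prop} [DecidablePred p]
    (hp : MeasurableSet {x | p x}) {f : α → β} (c : β)
    (hf : Measurable fun x : {x // p x} => f x) : Measurable fun x => if p x then f x else c := by
  refine measurable_of_restrict_of_restrict_compl hp ?_ ?_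
  · have : ({x | p x}).domRestrict (fun x => if p x then f x else c) = fun x : {x // p x} => f x := by
      funext x
      exact if_pos x.2
    rw [this]
    exact hf
  · have : ({x | p x}ᶜ).domRestrict (fun x => if p x then f x else c) = fun _ => c := by
      funext x
      exact if_neg x.2
    rw [this]
    exact measurable_const

end gen

end Claimed.Agent.R322.Tube
end

/- ===== packed: Claimed.Agent.R322.Tube.Cell.Meas ===== -/
section
/-!
# R322 / Tube / Cell / Meas   (helper121)   leaf V2 (`v_meas`): measurability of all fields of `N.sysOf`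
-/

set_option autoImplicit false

open scoped ENNReal NNReal InnerProductSpace
open MeasureTheory ContinuousLinearMap Set Metric

namespace Claimed.Agent.R322.Tube

variable {m n : ℕ}

namespace CellCtx

variable {N : NCyl m n} {x₀ : E m} {l ρ h₀ : ℝ}

theorem continuous_y (N : NCyl m n) (x₀ : E m) (l : ℝ) :
    Continuous fun q : E m × E n => bpt N.u x₀ l q.1 :=
  (cl_continuous_bpt _ _ _).comp continuous_fst

theorem meas_tq (H : CellCtx N x₀ l ρ h₀) : Measurable (N.tq x₀ l) :=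
  (H.tauF_cd.continuous.comp (continuous_y N x₀ l)).measurable

theorem meas_nq (H : CellCtx N x₀ l ρ h₀) : Measurable (N.nq x₀ l) :=
  (H.nuF_cd.continuous.comp (continuous_y N x₀ l)).measurable

theorem meas_Pq (H : CellCtx N x₀ l ρ h₀) : Measurable (N.Pq x₀ l) :=
  N.W.P_meas.comp H.unchart_cd.continuous.measurable

theorem meas_Bg (H : CellCtx N x₀ l ρ h₀) : Measurable (N.Bg x₀ l) :=
  cl_meas_comp (cl_meas_adjoint H.meas_tq) (cl_meas_comp (measurable_const.sub H.meas_Pq) H.meas_tq)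

theorem meas_Pvhg (H : CellCtx N x₀ l ρ h₀) : Measurable (N.Pvhg x₀ l) :=
  cl_meas_comp (cl_meas_adjoint H.meas_nq) (cl_meas_comp H.meas_Pq H.meas_tq)

theorem meas_Pvvg (H : CellCtx N x₀ l ρ h₀) : Measurable (N.Pvvg x₀ l) :=
  cl_meas_comp (cl_meas_adjoint H.meas_nq) (cl_meas_comp H.meas_Pq H.meas_nq)

theorem continuous_Du (H : CellCtx N x₀ l ρ h₀) : Continuous (fderiv ℝ N.u) :=
  H.geo.smooth.continuous_fderiv (by norm_num)

theorem meas_Cy (H : CellCtx N x₀ l ρ h₀) :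
    Measurable fun q : E m × E n => Cy N.u x₀ (bpt N.u x₀ l q.1) := by
  unfold Cy
  refine cl_meas_comp (cl_meas_adjoint H.meas_tq) (cl_meas_comp ?_ measurable_const)
  exact ((contDiff_dFA (k := 0)).continuous.comp
    (H.continuous_Du.comp (continuous_y N x₀ l))).measurable

theorem meas_dFp (H : CellCtx N x₀ l ρ h₀) :
    Measurable fun q : E m × E n => dFp (fderiv ℝ N.u (bpt N.u x₀ l q.1)) :=
  ((contDiff_dFpA (k := 0)).continuous.comp (H.continuous_Du.comp (continuous_y N x₀ l))).measurable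

theorem meas_Ph (H : CellCtx N x₀ l ρ h₀) :
    Measurable fun q : E m × E n => Ph N.u (bpt N.u x₀ l q.1) :=
  ((contDiff_PhA (k := 0)).continuous.comp (H.continuous_Du.comp (continuous_y N x₀ l))).measurable

theorem meas_omz (H : CellCtx N x₀ l ρ h₀) : Measurable (N.omz x₀ l) := by
  unfold NCyl.omz omgL
  have h1 : Measurable fun q : E m × E n => (ContinuousLinearMap.apply ℝ (E n) q.2) :=
    ((ContinuousLinearMap.apply ℝ (E n)).continuous.comp continuous_snd).measurable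
  have h2 : Measurable fun q : E m × E n =>
      fderiv ℝ (nuF N.u x₀) (bpt N.u x₀ l q.1) :=
    (H.nuF_cd.continuous_fderiv (by norm_num)).measurable.comp (continuous_y N x₀ l).measurable
  have h3 : Measurable fun q : E m × E n =>
      compL ℝ (E n) (E (m + n)) (E n) (adjoint (nuF N.u x₀ (bpt N.u x₀ l q.1))) :=
    (compL ℝ (E n) (E (m + n)) (E n)).continuous.measurable.comp (cl_meas_adjoint H.meas_nq)
  have c1 : Continuous fun p : ((E n →L[ℝ] E n) →L[ℝ] E n) × (E m →L[ℝ] E n →L[ℝ] E n) =>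
      p.1 ∘L p.2 := isBoundedBilinearMap_comp.continuous
  have c2 : Continuous fun p : ((E n →L[ℝ] E (m + n)) →L[ℝ] (E n →L[ℝ] E n)) ×
      (E m →L[ℝ] E n →L[ℝ] E (m + n)) => p.1 ∘L p.2 := isBoundedBilinearMap_comp.continuous
  exact c1.measurable2 h1 (c2.measurable2 h3 h2)

/-! ### factors which are only controlled on the good region -/

theorem continuous_good_of {Y : Type*} [TopologicalSpace Y] (H : CellCtx N x₀ l ρ h₀)
    {F : E (m + n) → Y} (hF : ContinuousOn F (Tub N.u h₀)) :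
    Continuous fun q : {q // N.good x₀ l ρ q} => F (unchart N.u x₀ l q) :=
  hF.comp_continuous (H.unchart_cd.continuous.comp continuous_subtype_val)
    (fun q => H.good_tub q.2)

theorem meas_Jz (H : CellCtx N x₀ l ρ h₀) :
    Measurable fun q : {q // N.good x₀ l ρ q} => Jz N.u (unchart N.u x₀ l q) :=
  (H.continuous_good_of (contDiffOn_Jz H.geo H.h₀_le).continuousOn).measurable

theorem meas_Kz (H : CellCtx N x₀ l ρ h₀) :
    Measurable fun q : {q // N.good x₀ l ρ q} => Kz N.u (unchart N.u x₀ l q) :=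
  (H.continuous_good_of (contDiffOn_Kz H.geo H.h₀_le).continuousOn).measurable

theorem meas_jC (H : CellCtx N x₀ l ρ h₀) :
    Measurable fun q : {q // N.good x₀ l ρ q} => N.jC x₀ l q :=
  cl_meas_comp (cl_meas_adjoint (H.meas_tq.comp measurable_subtype_coe))
    (cl_meas_comp H.meas_Jz (cl_meas_comp (H.meas_tq.comp measurable_subtype_coe)
      (H.meas_Cy.comp measurable_subtype_coe)))

theorem meas_dyP (H : CellCtx N x₀ l ρ h₀) :
    Measurable fun q : {q // N.good x₀ l ρ q} => N.dyP x₀ l q :=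
  cl_meas_comp (H.meas_dFp.comp measurable_subtype_coe)
    (cl_meas_comp H.meas_Kz (cl_meas_comp (H.meas_Ph.comp measurable_subtype_coe)
      (H.meas_Pq.comp measurable_subtype_coe)))

theorem meas_E1g (H : CellCtx N x₀ l ρ h₀) :
    Measurable fun q : {q // N.good x₀ l ρ q} => N.E1g x₀ l q :=
  (cl_meas_comp (cl_meas_inverse H.meas_jC)
    (cl_meas_comp (H.meas_Bg.comp measurable_subtype_coe) H.meas_jC)).sub
    (H.meas_Bg.comp measurable_subtype_coe)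

theorem meas_E3g (H : CellCtx N x₀ l ρ h₀) :
    Measurable fun q : {q // N.good x₀ l ρ q} => N.E3g x₀ l q :=
  (cl_meas_comp (H.meas_Pvhg.comp measurable_subtype_coe) (measurable_const.sub H.meas_jC)).add
    ((cl_meas_comp (H.meas_omz.comp measurable_subtype_coe) (cl_meas_comp H.meas_dyP
      (cl_meas_comp (H.meas_tq.comp measurable_subtype_coe) H.meas_jC))).const_smul l)

theorem meas_E4g (H : CellCtx N x₀ l ρ h₀) :
    Measurable fun q : {q // N.good x₀ l ρ q} => N.E4g x₀ l q :=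
  (cl_meas_comp (H.meas_omz.comp measurable_subtype_coe) (cl_meas_comp H.meas_dyP
      (H.meas_nq.comp measurable_subtype_coe))).const_smul l

theorem meas_E6g (H : CellCtx N x₀ l ρ h₀) :
    Measurable fun q : {q // N.good x₀ l ρ q} => N.E6g x₀ l q :=
  cl_meas_comp (H.meas_Pvhg.comp measurable_subtype_coe)
    (cl_meas_adjoint (measurable_const.sub (cl_meas_inverse H.meas_jC)))

theorem meas_E2g (H : CellCtx N x₀ l ρ h₀) : Measurable (N.E2g x₀ l) := by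
  unfold NCyl.E2g
  refine Finset.measurable_sum _ fun a _ => Measurable.smul_const ?_ _
  refine Measurable.sub ?_ ?_
  · unfold divS
    refine Measurable.add ?_ ?_
    · exact (cl_meas_trace (measurable_fderiv ℝ _)).comp (continuous_y N x₀ l).measurable
    · exact (measurable_fderiv_apply_const ℝ _ _).comp (continuous_y N x₀ l).measurable
  · exact cl_meas_tdiv H.meas_Pq
      ((measurable_fderiv ℝ _).comp H.unchart_cd.continuous.measurable)

theorem meas_E5g (H : CellCtx N x₀ l ρ h₀) : Measurable (N.E5g x₀ l) := by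
  unfold NCyl.E5g
  refine Finset.measurable_sum _ fun a _ => Measurable.smul_const ?_ _
  refine Measurable.neg (Measurable.const_mul ?_ _)
  exact cl_meas_tdiv H.meas_Pq
      ((measurable_fderiv ℝ _).comp H.unchart_cd.continuous.measurable)

theorem meas_Jpig (H : CellCtx N x₀ l ρ h₀) : Measurable (N.Jpig x₀ l) := by
  unfold NCyl.Jpig
  refine Measurable.mul ?_ ?_
  · exact cl_meas_tanJac H.meas_Pq
      ((measurable_fderiv ℝ _).comp H.unchart_cd.continuous.measurable)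
  · exact (cyla_measurable_vdens N.u).comp (continuous_y N x₀ l).measurable

theorem meas_DHSsq (H : CellCtx N x₀ l ρ h₀) : Measurable (DHSsq N.u) := by
  have h1 : Measurable fun y => DHSop N.u y ∘L dFp (fderiv ℝ N.u y) := by
    unfold DHSop
    refine cl_meas_comp (cl_meas_comp ?_ (measurable_fderiv ℝ _)) ?_
    · exact (contDiff_Pv_of (k := 0) (H.geo.smooth.of_le (by norm_num))).continuous.measurable
    · exact ((contDiff_dFpA (k := 0)).continuous.comp H.continuous_Du).measurable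
  have h2 : DHSsq N.u = fun y => trc (adjoint (DHSop N.u y ∘L dFp (fderiv ℝ N.u y)) ∘L
      (DHSop N.u y ∘L dFp (fderiv ℝ N.u y))) := funext fun y => DHSsq_eq N.u y
  rw [h2]
  exact cl_meas_trace (cl_meas_comp (cl_meas_adjoint h1) h1)

theorem meas_lam (H : CellCtx N x₀ l ρ h₀) :
    Measurable fun q : {q // N.good x₀ l ρ q} => lam N.u (unchart N.u x₀ l q) := by
  unfold lam
  have hn : Measurable fun q : {q // N.good x₀ l ρ q} => npr N.u (unchart N.u x₀ l q) :=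
    (H.continuous_good_of H.npr_cd.continuousOn).measurable
  refine Measurable.add (Measurable.add ?_ ?_) ?_
  · exact ((H.continuous_good_of H.zz_cd.continuousOn).measurable.norm).pow_const 2
  · exact (((contDiff_HS (k := 0) (H.geo.smooth.of_le (by norm_num))).continuous.measurable.comp
      hn).norm).pow_const 2
  · exact H.meas_DHSsq.comp hn

/-- **V2** -/
theorem meas (H : CellCtx N x₀ l ρ h₀) (Cg : ℝ) (S : Sx.Sys m n) (hS : S = N.sysOf x₀ l ρ Cg) :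
    (Measurable S.B) ∧ (Measurable S.Pvh) ∧ (Measurable S.Pvv) ∧ (Measurable S.lam) ∧
    (Measurable S.Jpi) ∧ (Measurable S.E1) ∧ (Measurable S.E2) ∧ (Measurable S.E3) ∧
    (Measurable S.E4) ∧ (Measurable S.E5) ∧ (Measurable S.E6) := by
  classical
  subst hS
  have hG := measurableSet_good N x₀ l ρ
  refine ⟨?_, ?_, ?_, ?_, ?_, ?_, ?_, ?_, ?_, ?_, ?_⟩
  · exact cl_meas_ite hG _ (H.meas_Bg.comp measurable_subtype_coe)
  · exact cl_meas_ite hG _ (H.meas_Pvhg.comp measurable_subtype_coe)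
  · exact cl_meas_ite hG _ (H.meas_Pvvg.comp measurable_subtype_coe)
  · exact cl_meas_ite hG _ H.meas_lam
  · exact cl_meas_ite hG _ (H.meas_Jpig.comp measurable_subtype_coe)
  · exact cl_meas_ite hG _ H.meas_E1g
  · exact cl_meas_ite hG _ (H.meas_E2g.comp measurable_subtype_coe)
  · exact cl_meas_ite hG _ H.meas_E3g
  · exact cl_meas_ite hG _ H.meas_E4g
  · exact cl_meas_ite hG _ (H.meas_E5g.comp measurable_subtype_coe)
  · exact cl_meas_ite hG _ H.meas_E6g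

end CellCtx

end Claimed.Agent.R322.Tube
end
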