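/- Packed by merge_tool.py (helper293): 2 modules of Claimed.Agent.R322 in one file, same declarations.
   Old modules, in this order: Sx.Config.Match, Sx.Config.Supp -/
import Claimed.Agent.R322.Pack023

/- ===== packed: Claimed.Agent.R322.Sx.Config.Match ===== -/
section
/-!
# R322 / Sx / Config / Match   (blueprint: helper234)   LEAVES `L-Cf-MatchA` (everything up to `IsMajority.of_matched`), `L-Cf-MatchB` (rest)

Algebra of `Matched`, `FibMatch`, `distA`, `IsMajority`.  All elementary; no measurability of exceptional sets is ever used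
(only `measure_mono`, `measure_union_le`).

`majority_matching`: if no `y` in the overlap were good for both configurations, the overlap would be contained in the union of the two
exceptional sets, contradicting `hov`; at a common good fibre use `FibMatch.matched`.
`fibMatch_zero_of_forall`: the set of enumerations `L` of `F` is finite (`L = L₀ ∘ σ`): pigeonhole on `σ`, or: the set
`{r | FibMatch F A r}` is closed because it is a finite union of closed half lines `[max_j ‖L₀ (σ j) - A j‖, ∞)`.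
-/

set_option autoImplicit false

namespace Claimed.Agent.R322.Sx

open MeasureTheory Set Metric
open scoped ENNReal NNReal InnerProductSpace

namespace Sys

variable {m n Q : ℕ}

theorem Matched.refl (A : Fin Q → E n) : Matched A A 0 := by
  exact ⟨1, fun j => by simp⟩

theorem Matched.symm {A A' : Fin Q → E n} {r : ℝ} (h : Matched A A' r) : Matched A' A r := by
  obtain ⟨σ, hσ⟩ := h
  refine ⟨σ.symm, fun j => ?_⟩
  have := hσ (σ.symm j)
  rwa [Equiv.apply_symm_apply, norm_sub_rev] at this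

theorem Matched.trans {A A' A'' : Fin Q → E n} {r r' : ℝ} (h : Matched A A' r)
    (h' : Matched A' A'' r') : Matched A A'' (r + r') := by
  obtain ⟨σ, hσ⟩ := h
  obtain ⟨σ', hσ'⟩ := h'
  refine ⟨σ.trans σ', fun j => ?_⟩
  calc ‖A j - A'' ((σ.trans σ') j)‖ = ‖(A j - A' (σ j)) + (A' (σ j) - A'' (σ' (σ j)))‖ := by
        rw [sub_add_sub_cancel]; rfl
    _ ≤ ‖A j - A' (σ j)‖ + ‖A' (σ j) - A'' (σ' (σ j))‖ := norm_add_le _ _
    _ ≤ r + r' := add_le_add (hσ j) (hσ' (σ j))

theorem Matched.mono {A A' : Fin Q → E n} {r r' : ℝ} (h : Matched A A' r) (hr : r ≤ r') :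
    Matched A A' r' := by
  obtain ⟨σ, hσ⟩ := h
  exact ⟨σ, fun j => (hσ j).trans hr⟩

theorem FibMatch.mono {F : Multiset (E n)} {A : Fin Q → E n} {r r' : ℝ} (h : FibMatch F A r)
    (hr : r ≤ r') : FibMatch F A r' := by
  obtain ⟨L, hL, hA⟩ := h
  exact ⟨L, hL, fun j => (hA j).trans hr⟩

theorem FibMatch.card {F : Multiset (E n)} {A : Fin Q → E n} {r : ℝ} (h : FibMatch F A r) :
    Multiset.card F = Q := by
  obtain ⟨L, rfl, -⟩ := h
  simp

/-- every multiset of cardinality `Q` can be enumerated. -/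
theorem exists_enum (F : Multiset (E n)) (h : Multiset.card F = Q) :
    ∃ L : Fin Q → E n, Multiset.ofList (List.ofFn L) = F := by
  obtain ⟨l, rfl⟩ := Quot.exists_rep F
  have hl : l.length = Q := h
  subst hl
  exact ⟨l.get, by rw [List.ofFn_get]; rfl⟩

theorem fibMatch_self (L : Fin Q → E n) : FibMatch (Multiset.ofList (List.ofFn L)) L 0 := by
  exact ⟨L, rfl, fun j => by simp⟩

/-- two enumerations of the same multiset differ by a permutation. -/
theorem exists_perm_of_enum {L L' : Fin Q → E n}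
    (h : Multiset.ofList (List.ofFn L) = Multiset.ofList (List.ofFn L')) :
    ∃ σ : Equiv.Perm (Fin Q), ∀ j, L j = L' (σ j) := by
  classical
  have hcard : ∀ (M : Fin Q → E n) (c : E n),
      Fintype.card {j // M j = c} = (Multiset.ofList (List.ofFn M)).count c := by
    intro M c
    rw [Fintype.card_subtype, List.ofFn_eq_map, ← Multiset.map_coe, Multiset.count_map,
      Finset.card_def, Finset.filter_val]
    congr 1
    refine Multiset.filter_congr fun j _ => ?_
    exact eq_comm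
  have e : ∀ c : E n, Nonempty ({j // L j = c} ≃ {j // L' j = c}) := fun c =>
    Fintype.card_eq.1 (by rw [hcard, hcard, h])
  refine ⟨Equiv.ofFiberEquiv fun c => (e c).some, fun j => ?_⟩
  exact (Equiv.ofFiberEquiv_map (fun c => (e c).some) j).symm

theorem FibMatch.matched {F : Multiset (E n)} {A A' : Fin Q → E n} {r r' : ℝ}
    (h : FibMatch F A r) (h' : FibMatch F A' r') : Matched A A' (r + r') := by
  obtain ⟨L, hL, hA⟩ := h
  obtain ⟨L', hL', hA'⟩ := h'
  obtain ⟨σ, hσ⟩ := exists_perm_of_enum (hL.trans hL'.symm)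
  refine ⟨σ, fun j => ?_⟩
  calc ‖A j - A' (σ j)‖ = ‖(A j - L j) + (L' (σ j) - A' (σ j))‖ := by
        rw [hσ j, sub_add_sub_cancel]
    _ ≤ ‖A j - L j‖ + ‖L' (σ j) - A' (σ j)‖ := norm_add_le _ _
    _ ≤ r + r' := add_le_add (by rw [norm_sub_rev]; exact hA j) (hA' (σ j))

theorem FibMatch.of_matched {F : Multiset (E n)} {A A' : Fin Q → E n} {r r' : ℝ}
    (h : FibMatch F A r) (h' : Matched A A' r') : FibMatch F A' (r + r') := by
  obtain ⟨L, hL, hA⟩ := h
  obtain ⟨σ, hσ⟩ := h'
  refine ⟨L ∘ σ.symm, ?_, fun j => ?_⟩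
  · rw [← hL]
    exact Multiset.coe_eq_coe.2 (Equiv.Perm.ofFn_comp_perm σ.symm L)
  · have h1 := hσ (σ.symm j)
    rw [Equiv.apply_symm_apply] at h1
    calc ‖(L ∘ σ.symm) j - A' j‖ = ‖(L (σ.symm j) - A (σ.symm j)) + (A (σ.symm j) - A' j)‖ := by
          rw [sub_add_sub_cancel]; rfl
      _ ≤ ‖L (σ.symm j) - A (σ.symm j)‖ + ‖A (σ.symm j) - A' j‖ := norm_add_le _ _
      _ ≤ r + r' := add_le_add (hA _) h1

theorem distA_nonneg (A : Fin Q → E n) (ζ : E n) : 0 ≤ distA A ζ := by
  exact infDist_nonneg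

theorem distA_le (A : Fin Q → E n) (ζ : E n) (j : Fin Q) : distA A ζ ≤ ‖ζ - A j‖ := by
  rw [← dist_eq_norm]
  exact infDist_le_dist_of_mem (mem_range_self j)

theorem distA_le_add (A : Fin Q → E n) (ζ ζ' : E n) : distA A ζ ≤ distA A ζ' + ‖ζ - ζ'‖ := by
  rw [← dist_eq_norm]
  exact infDist_le_infDist_add_dist

theorem continuous_distA (A : Fin Q → E n) : Continuous (distA A) := by
  exact continuous_infDist_pt _

/-- the distance is attained. -/
theorem exists_distA_eq (hQ : 1 ≤ Q) (A : Fin Q → E n) (ζ : E n) : ∃ j, distA A ζ = ‖ζ - A j‖ := by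
  have hne : (range A).Nonempty := ⟨A ⟨0, hQ⟩, mem_range_self _⟩
  obtain ⟨_, ⟨j, rfl⟩, hj⟩ := (finite_range A).isCompact.exists_infDist_eq_dist hne ζ
  exact ⟨j, by rw [← dist_eq_norm]; exact hj⟩

theorem FibMatch.distA_le {F : Multiset (E n)} {A : Fin Q → E n} {r : ℝ} (h : FibMatch F A r)
    {ζ : E n} (hζ : ζ ∈ F) : distA A ζ ≤ r := by
  obtain ⟨L, rfl, hA⟩ := h
  obtain ⟨j, rfl⟩ := (List.mem_ofFn' L ζ).1 (Multiset.mem_coe.1 hζ)
  exact (Sys.distA_le A _ j).trans (hA j)

theorem Matched.distA_le {A A' : Fin Q → E n} {r : ℝ} (h : Matched A A' r) (hr : 0 ≤ r) (ζ : E n) :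
    distA A ζ ≤ distA A' ζ + r := by
  rcases Nat.eq_zero_or_pos Q with rfl | hQ
  · have e : ∀ B : Fin 0 → E n, distA B ζ = 0 := fun B => by
      unfold distA
      rw [range_eq_empty, infDist_empty]
    rw [e, e]
    linarith
  · obtain ⟨σ, hσ⟩ := h
    obtain ⟨j, hj⟩ := exists_distA_eq hQ A' ζ
    have h1 := hσ (σ.symm j)
    rw [Equiv.apply_symm_apply] at h1
    calc distA A ζ ≤ ‖ζ - A (σ.symm j)‖ := Sys.distA_le A ζ _
      _ = ‖(ζ - A' j) + (A' j - A (σ.symm j))‖ := by rw [sub_add_sub_cancel]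
      _ ≤ ‖ζ - A' j‖ + ‖A' j - A (σ.symm j)‖ := norm_add_le _ _
      _ ≤ distA A' ζ + r := by
          rw [hj]
          exact add_le_add_right (by rw [norm_sub_rev]; exact h1) _

theorem IsMajority.mono {S : Sys m n} {x : E m} {s δ δ' r r' : ℝ} {A : Fin Q → E n}
    (h : S.IsMajority x s δ r A) (hδ : δ ≤ δ') (hr : r ≤ r') : S.IsMajority x s δ' r' A := by
  unfold IsMajority at h ⊢
  refine (measure_mono ?_).trans (h.trans (mul_le_mul_left (ENNReal.ofReal_le_ofReal hδ) _))
  rintro y ⟨hy, hn⟩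
  exact ⟨hy, fun hh => hn (hh.mono hr)⟩

theorem IsMajority.of_matched {S : Sys m n} {x : E m} {s δ r r' : ℝ} {A A' : Fin Q → E n}
    (h : S.IsMajority x s δ r A) (h' : Matched A A' r') : S.IsMajority x s δ (r + r') A' := by
  unfold IsMajority at h ⊢
  refine (measure_mono ?_).trans h
  rintro y ⟨hy, hn⟩
  exact ⟨hy, fun hh => hn (hh.of_matched h')⟩

/-- closedness of the matching relation in the radius. -/
theorem fibMatch_zero_of_forall {F : Multiset (E n)} {A : Fin Q → E n} {c : ℝ}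
    (h : ∀ k : ℕ, FibMatch F A (c / (k + 1))) : FibMatch F A 0 := by
  obtain ⟨L0, hL0, -⟩ := h 0
  choose L hL hA using h
  have hperm : ∀ k, ∃ σ : Equiv.Perm (Fin Q), ∀ j, L k j = L0 (σ j) := fun k =>
    exists_perm_of_enum ((hL k).trans hL0.symm)
  choose σ hσ using hperm
  obtain ⟨τ, hτ⟩ := Finite.exists_infinite_fiber σ
  have hinf : (σ ⁻¹' {τ}).Infinite := Set.infinite_coe_iff.1 hτ
  refine ⟨L0 ∘ τ, ?_, fun j => ?_⟩
  · rw [← hL0]
    exact Multiset.coe_eq_coe.2 (Equiv.Perm.ofFn_comp_perm τ L0)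
  · have hlim : Filter.Tendsto (fun k : ℕ => c / ((k : ℝ) + 1)) Filter.atTop (nhds 0) := by
      have := (tendsto_one_div_add_atTop_nhds_zero_nat (𝕜 := ℝ)).const_mul c
      simpa [div_eq_mul_inv] using this
    refine ge_of_tendsto_of_frequently hlim ?_
    rw [Nat.frequently_atTop_iff_infinite]
    refine hinf.mono fun k hk => ?_
    have hk' : σ k = τ := hk
    have := hA k j
    rw [hσ k j, hk'] at this
    exact this

end Sys

/-- AE (4.10) in general form: two majority configurations whose exceptional sets cannot fill the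
overlap are matched within the sum of their errors. -/
theorem majority_matching {m n Q : ℕ} {S : Sys m n} (h : S.Valid) {x x' : E m}
    {s s' δ δ' r r' : ℝ} {A A' : Fin Q → E n} (hA : S.IsMajority x s δ r A)
    (hA' : S.IsMajority x' s' δ' r' A')
    (hov : ENNReal.ofReal δ * S.volS (ball x s) + ENNReal.ofReal δ' * S.volS (ball x' s')
      < S.volS (ball x s ∩ ball x' s')) :
    Sys.Matched A A' (r + r') := by
  by_contra hcon
  have hsub : ball x s ∩ ball x' s' ⊆ {y | y ∈ ball x s ∧ ¬ Sys.FibMatch (S.fib y) A r} ∪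
      {y | y ∈ ball x' s' ∧ ¬ Sys.FibMatch (S.fib y) A' r'} := by
    rintro y ⟨hy, hy'⟩
    by_cases h1 : Sys.FibMatch (S.fib y) A r
    · right
      exact ⟨hy', fun h2 => hcon (h1.matched h2)⟩
    · left
      exact ⟨hy, h1⟩
  have := (measure_mono hsub).trans ((measure_union_le _ _).trans (add_le_add hA hA'))
  exact absurd hov (not_lt.2 this)

namespace Cf

/-- the overlap condition of `majority_matching` for two balls of radii `s' ≤ s` containing a common ball of radius `s / 2`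
(`Valid.volS_le`, `Valid.le_volS`, `volume_ball_eq`). -/
theorem overlap_lt {m n : ℕ} {S : Sys m n} (h : S.Valid) {x y z : E m} {s s' δ : ℝ} (hs : 0 < s)
    (hs' : s' ≤ s) (hz : ball z (s / 2) ⊆ ball x s ∩ ball y s') (hΩ : ball x s ⊆ S.Ω)
    (hδ : δ * (8 * 2 ^ m) < 1) :
    ENNReal.ofReal δ * S.volS (ball x s) + ENNReal.ofReal δ * S.volS (ball y s')
      < S.volS (ball x s ∩ ball y s') := by
  set V := volume (ball (0 : E m) 1) with hV
  have hVpos := ENNReal.toReal_pos_iff.1 (volume_unit_ball_pos m)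
  have hV0 : V ≠ 0 := hVpos.1.ne'
  have hVt : V ≠ ⊤ := hVpos.2.ne
  have hsm : 0 < s ^ m := by positivity
  have h1 : S.volS (ball x s) ≤ 2 * (ENNReal.ofReal (s ^ m) * V) := by
    rw [← volume_ball_eq x hs]
    exact h.volS_le _
  have h2 : S.volS (ball y s') ≤ 2 * (ENNReal.ofReal (s ^ m) * V) := by
    rw [← volume_ball_eq y hs]
    exact (h.volS_le _).trans (mul_le_mul_right (measure_mono (ball_subset_ball hs')) _)
  have h3 : ENNReal.ofReal ((s / 2) ^ m) * V ≤ 2 * S.volS (ball x s ∩ ball y s') := by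
    rw [← volume_ball_eq z (by positivity : (0 : ℝ) < s / 2)]
    exact (h.le_volS ((hz.trans inter_subset_left).trans hΩ)).trans
      (mul_le_mul_right (measure_mono hz) _)
  have h4 : 2 * (ENNReal.ofReal δ * S.volS (ball x s) + ENNReal.ofReal δ * S.volS (ball y s'))
      ≤ ENNReal.ofReal (8 * max δ 0 * s ^ m) * V := by
    have e : ENNReal.ofReal (8 * max δ 0 * s ^ m) * V
        = 2 * (ENNReal.ofReal δ * (2 * (ENNReal.ofReal (s ^ m) * V))
          + ENNReal.ofReal δ * (2 * (ENNReal.ofReal (s ^ m) * V))) := by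
      have e1 : ENNReal.ofReal δ = ENNReal.ofReal (max δ 0) := by
        rcases le_total δ 0 with h0 | h0
        · rw [max_eq_right h0, ENNReal.ofReal_of_nonpos h0, ENNReal.ofReal_zero]
        · rw [max_eq_left h0]
      rw [e1, ENNReal.ofReal_mul (by positivity), ENNReal.ofReal_mul (by norm_num)]
      have e8 : ENNReal.ofReal 8 = 8 := by
        rw [show (8 : ℝ) = ((8 : ℕ) : ℝ) by norm_num, ENNReal.ofReal_natCast]
        rfl
      rw [e8]
      ring
    rw [e]
    gcongr
  have h5 : ENNReal.ofReal (8 * max δ 0 * s ^ m) * V < ENNReal.ofReal ((s / 2) ^ m) * V := by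
    refine ENNReal.mul_lt_mul_left hV0 hVt ?_
    rw [ENNReal.ofReal_lt_ofReal_iff (by positivity)]
    have h6 : max δ 0 * (8 * 2 ^ m) < 1 := by
      rcases le_total δ 0 with h0 | h0
      · rw [max_eq_right h0]; norm_num
      · rw [max_eq_left h0]; exact hδ
    rw [div_pow, lt_div_iff₀ (by positivity)]
    nlinarith [h6, hsm]
  have h7 := (h4.trans_lt h5).trans_le h3
  exact (ENNReal.mul_lt_mul_iff_right (by norm_num) (by norm_num)).1 h7

end Cf

end Claimed.Agent.R322.Sx
end

/- ===== packed: Claimed.Agent.R322.Sx.Config.Supp ===== -/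
section
/-!
# R322 / Sx / Config / Supp   (blueprint: helper234)   LEAVES `L-Cf-MassOff` (`mass_off_config`), `L-Cf-Supp` (`support_bound`)

The all-support `O(r)` bound in the proof of AE Lemma 2.6.

`mass_off_config`: `Z = {ζ | ρ < distA A ζ}` is open (`Sys.continuous_distA`).  With `g = indicator (W ×ˢ Z) 1`:
`μ (W ×ˢ Z) = ∫⁻ g dμ ≤ ∫⁻ g ofReal Jπ dμ + ∫⁻_{W × E n} ofReal |1 - Jπ| dμ`  (`1 ≤ ofReal J + ofReal |1 - J|`);
the last integral is `≤ Cg (D+Λ)(W)` (`Jpi_close`, `Valid.lintegral_e_add_lam`);  by `count` the first is `∫⁻_Ω fibSum g · ofReal a`, and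
`fibSum g y = 1_W(y) #{ζ ∈ fib y : ζ ∈ Z}`, which is `0` at good fibres (`FibMatch.distA_le`) and `≤ N y ≤ Q + |N y - Q|` in general.  So
`∫⁻_Ω fibSum g · a ≤ Q ∫⁻ 1_bad a + ∫⁻_W |N - Q| a ≤ Q volS(bad) + |M_Q|(W) + Cg (D+Λ)(W)`  (`Valid.Nsub_lintegral_le`).
The bad set need not be measurable: replace it by `toMeasurable S.volS bad`; split the integral with `lintegral_add_right'`
(`Valid.aemeasurable_N`).

`support_bound`: suppose `ρ + r/2 < distA A q.2`.  `closedBall q.1 (r/2) ⊆ ball x r`.  Axiom `lower` with `Ω' = ball x r`, `O = univ`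
(`Gap`: `frontier univ = ∅`, `thickening _ ∅ = ∅`) and radius `r/2`: `ofReal ((r/2)^m / S.Cg) ≤ μ (ball q.1 (r/2) ×ˢ (ball q.2 (r/2) ∩ univ))`.
This set is contained in `ball x r ×ˢ {ρ < distA A ·}` (`Sys.distA_le_add`).  `mass_off_config`, `IsMajority`, `volS (B_r) ≤ 2 ω r^m`:
`(r/2)^m / Cg ≤ (2 Q δs ω + (1 + 2 Cg) ds) r^m`, false for `δs = 1 / (8 (Q+1) (ω+1) 2^m C)`, `ds = 1 / (8 (1 + 2 C) 2^m C)`, `C = max Cg 1`.
`ν (ball x r) < ⊤` from `Valid.nu_le`.
-/

set_option autoImplicit false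

namespace Claimed.Agent.R322.Sx

open MeasureTheory Set Metric
open scoped ENNReal NNReal InnerProductSpace

/-- the mass outside the height neighbourhoods of a configuration. -/
theorem Sys.Valid.mass_off_config {m n Q : ℕ} {S : Sys m n} (h : S.Valid) {W : Set (E m)}
    (hW : MeasurableSet W) (hWΩ : W ⊆ S.Ω) (hfin : S.nu W < ⊤) (A : Fin Q → E n) (ρ : ℝ) :
    S.μ (W ×ˢ {ζ | ρ < Sys.distA A ζ})
      ≤ (Q : ℝ≥0∞) * S.volS {y | y ∈ W ∧ ¬ Sys.FibMatch (S.fib y) A ρ} + S.absM Q W
        + ENNReal.ofReal (2 * S.Cg) * (S.Dm + S.Lm) W := by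
  classical
  set Z : Set (E n) := {ζ | ρ < Sys.distA A ζ} with hZ
  have hZo : IsOpen Z := isOpen_lt continuous_const (Sys.continuous_distA A)
  have hT : MeasurableSet (W ×ˢ Z) := hW.prod hZo.measurableSet
  set g : E m × E n → ℝ≥0∞ := (W ×ˢ Z).indicator 1 with hg
  have hgm : Measurable g := measurable_one.indicator hT
  have hCg0 : 0 ≤ S.Cg := zero_le_one.trans h.one_le_Cg
  have ham : Measurable fun y => ENNReal.ofReal (S.a y) :=
    h.a_contDiff.continuous.measurable.ennreal_ofReal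
  set bad : Set (E m) := {y | y ∈ W ∧ ¬ Sys.FibMatch (S.fib y) A ρ} with hbad
  -- step 1: insert the Jacobian
  have h1 : S.μ (W ×ˢ Z) ≤ ∫⁻ q, g q * ENNReal.ofReal (S.Jpi q) ∂S.μ
      + ∫⁻ q in W ×ˢ (univ : Set (E n)), ENNReal.ofReal |1 - S.Jpi q| ∂S.μ := by
    have hm1 : Measurable fun q => g q * ENNReal.ofReal (S.Jpi q) :=
      hgm.mul h.meas_Jpi.ennreal_ofReal
    rw [← lintegral_indicator_one hT, ← lintegral_indicator (hW.prod MeasurableSet.univ),
      ← lintegral_add_left hm1]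
    refine lintegral_mono fun q => ?_
    by_cases hq : q ∈ W ×ˢ Z
    · have hq' : q ∈ W ×ˢ (univ : Set (E n)) := ⟨hq.1, mem_univ _⟩
      simp only [hg, indicator_of_mem hq, indicator_of_mem hq', Pi.one_apply, one_mul]
      refine le_trans ?_ ENNReal.ofReal_add_le
      rw [← ENNReal.ofReal_one]
      apply ENNReal.ofReal_le_ofReal
      have := le_abs_self (1 - S.Jpi q)
      linarith
    · rw [indicator_of_notMem hq]
      exact zero_le
  -- step 2: the Jacobian error
  have h2 : ∫⁻ q in W ×ˢ (univ : Set (E n)), ENNReal.ofReal |1 - S.Jpi q| ∂S.μ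
      ≤ ENNReal.ofReal S.Cg * (S.Dm + S.Lm) W := by
    rw [← h.lintegral_e_add_lam hW, ← lintegral_const_mul' _ _ ENNReal.ofReal_ne_top]
    refine lintegral_mono fun q => ?_
    rw [← ENNReal.ofReal_mul hCg0]
    apply ENNReal.ofReal_le_ofReal
    rw [abs_sub_comm]
    exact h.Jpi_close q
  -- step 3: fibre sums
  have h4 : ∀ y, S.fibSum g y ≤ bad.indicator (fun y => (S.N y : ℝ≥0∞)) y := by
    intro y
    unfold Sys.fibSum
    by_cases hy : y ∈ bad
    · rw [indicator_of_mem hy]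
      calc ((S.fib y).map fun ζ => g (y, ζ)).sum ≤ ((S.fib y).map fun _ => (1 : ℝ≥0∞)).sum :=
            Multiset.sum_map_le_sum_map _ _ fun ζ _ => indicator_le_self' (fun _ _ => zero_le) _
        _ = S.N y := by simp [Sys.N]
    · rw [indicator_of_notMem hy]
      apply le_of_eq
      apply Multiset.sum_eq_zero
      intro t ht
      obtain ⟨ζ, hζ, rfl⟩ := Multiset.mem_map.1 ht
      apply indicator_of_notMem
      rintro ⟨hyW, hζZ⟩
      have hfm : Sys.FibMatch (S.fib y) A ρ := by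
        by_contra hh
        exact hy ⟨hyW, hh⟩
      exact absurd (hfm.distA_le hζ) (not_le.2 hζZ)
  set B' : Set (E m) := toMeasurable S.volS bad with hB'
  have hB'm : MeasurableSet B' := measurableSet_toMeasurable _ _
  have h5 : ∀ y, S.fibSum g y * ENNReal.ofReal (S.a y)
      ≤ B'.indicator (fun y => (Q : ℝ≥0∞) * ENNReal.ofReal (S.a y)) y
        + W.indicator (fun y => ENNReal.ofReal (|(S.N y : ℝ) - Q| * S.a y)) y := by
    intro y
    by_cases hy : y ∈ bad
    · have h6 := h4 y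
      rw [indicator_of_mem hy] at h6
      rw [indicator_of_mem (subset_toMeasurable _ _ hy), indicator_of_mem hy.1,
        ENNReal.ofReal_mul (abs_nonneg _), ← add_mul]
      refine mul_le_mul_left (h6.trans ?_) _
      rw [← ENNReal.ofReal_natCast (S.N y), ← ENNReal.ofReal_natCast Q,
        ← ENNReal.ofReal_add (Nat.cast_nonneg _) (abs_nonneg _)]
      apply ENNReal.ofReal_le_ofReal
      have := le_abs_self ((S.N y : ℝ) - Q)
      linarith
    · have h6 := h4 y
      rw [indicator_of_notMem hy] at h6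
      rw [nonpos_iff_eq_zero.1 h6, zero_mul]
      exact zero_le
  have h7 : ∫⁻ y in S.Ω, B'.indicator (fun y => (Q : ℝ≥0∞) * ENNReal.ofReal (S.a y)) y
      = (Q : ℝ≥0∞) * S.volS bad := by
    have hv : S.volS B' = ∫⁻ y in B', ENNReal.ofReal (S.a y) ∂(volume.restrict S.Ω) :=
      withDensity_apply _ hB'm
    rw [lintegral_indicator hB'm, lintegral_const_mul _ ham, ← measure_toMeasurable bad, ← hv]
  have h8 : ∫⁻ y in S.Ω, W.indicator (fun y => ENNReal.ofReal (|(S.N y : ℝ) - Q| * S.a y)) y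
      ≤ S.absM Q W + ENNReal.ofReal S.Cg * (S.Dm + S.Lm) W := by
    rw [lintegral_indicator hW, Measure.restrict_restrict hW, inter_eq_left.2 hWΩ]
    exact h.Nsub_lintegral_le Q hW hWΩ hfin
  have h9 : ∫⁻ q, g q * ENNReal.ofReal (S.Jpi q) ∂S.μ
      ≤ (Q : ℝ≥0∞) * S.volS bad + (S.absM Q W + ENNReal.ofReal S.Cg * (S.Dm + S.Lm) W) := by
    rw [h.count g hgm]
    refine (lintegral_mono h5).trans ?_
    have hm2 : Measurable (B'.indicator fun y => (Q : ℝ≥0∞) * ENNReal.ofReal (S.a y)) :=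
      (measurable_const.mul ham).indicator hB'm
    rw [lintegral_add_left hm2, h7]
    exact add_le_add_right h8 _
  refine h1.trans ((add_le_add h9 h2).trans (le_of_eq ?_))
  rw [ENNReal.ofReal_mul (by norm_num : (0 : ℝ) ≤ 2), ENNReal.ofReal_ofNat]
  ring

namespace Cf

theorem support_bound (m n Q : ℕ) (hm : 1 ≤ m) (Cg : ℝ) :
    ∃ δs ds : ℝ, 0 < δs ∧ 0 < ds ∧ SuppHolds m n Q Cg δs ds := by
  set V := volume (ball (0 : E m) 1) with hV
  have hVpos := ENNReal.toReal_pos_iff.1 (volume_unit_ball_pos m)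
  have hVt : V ≠ ⊤ := hVpos.2.ne
  set ω : ℝ := V.toReal with hω
  have hω0 : 0 < ω := volume_unit_ball_pos m
  have hVω : V = ENNReal.ofReal ω := (ENNReal.ofReal_toReal hVt).symm
  set C : ℝ := max Cg 1 with hC
  have hC1 : 1 ≤ C := le_max_right _ _
  have hC0 : 0 < C := by linarith
  set P : ℝ := 2 ^ m with hP
  have hP0 : 0 < P := by positivity
  set δs : ℝ := 1 / (8 * ((Q : ℝ) + 1) * (ω + 1) * P * C) with hδs
  set ds : ℝ := 1 / (8 * (1 + 2 * C) * P * C) with hds
  have hδs0 : 0 < δs := by positivity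
  have hds0 : 0 < ds := by positivity
  refine ⟨δs, ds, hδs0, hds0, ?_⟩
  intro S hS hSC x r ρ A hr hρ hΩ hτ hmaj q hq hqx
  by_contra hcon
  rw [not_le] at hcon
  have hSC1 : 1 ≤ S.Cg := hS.one_le_Cg
  have hSCC : S.Cg ≤ C := hSC.trans (le_max_left _ _)
  have hrm : 0 < r ^ m := by positivity
  set W : Set (E m) := ball x r with hW
  have hWm : MeasurableSet W := measurableSet_ball
  -- finiteness of the projected mass
  have habs : S.absM Q W ≤ S.tau Q W := by
    unfold Sys.tau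
    rw [Measure.add_apply, Measure.add_apply, add_assoc]
    exact le_self_add
  have hDL : (S.Dm + S.Lm) W ≤ S.tau Q W := by
    unfold Sys.tau
    rw [Measure.add_apply, Measure.add_apply, Measure.add_apply, add_assoc]
    exact le_add_self
  have hvol : S.volS W ≤ 2 * (ENNReal.ofReal (r ^ m) * V) := by
    rw [← volume_ball_eq x hr]
    exact hS.volS_le _
  have hfin : S.nu W < ⊤ := by
    refine lt_of_le_of_lt (hS.nu_le Q W) ?_
    rw [Measure.add_apply, Measure.smul_apply, smul_eq_mul]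
    refine ENNReal.add_lt_top.2 ⟨(habs.trans hτ).trans_lt ENNReal.ofReal_lt_top, ?_⟩
    refine ENNReal.mul_lt_top (ENNReal.natCast_lt_top Q) (hvol.trans_lt ?_)
    exact ENNReal.mul_lt_top (by norm_num) (ENNReal.mul_lt_top ENNReal.ofReal_lt_top hVpos.2)
  -- lower mass bound
  have hcl : closedBall q.1 (r / 2) ⊆ W := by
    intro y hy
    rw [mem_closedBall] at hy
    rw [mem_ball] at hqx
    rw [hW, mem_ball]
    calc dist y x ≤ dist y q.1 + dist q.1 x := dist_triangle _ _ _
      _ < r := by linarith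
  have hgap : S.Gap W (univ : Set (E n)) := ⟨1, one_pos, by simp⟩
  have hlow := hS.lower W univ isOpen_ball hΩ isOpen_univ hgap q (r / 2) hq (mem_univ _)
    (by positivity) hcl
  have hsub : ball q.1 (r / 2) ×ˢ (ball q.2 (r / 2) ∩ univ) ⊆ W ×ˢ {ζ | ρ < Sys.distA A ζ} := by
    rintro ⟨y, ζ⟩ ⟨hy, hζ, -⟩
    refine ⟨hcl (ball_subset_closedBall hy), ?_⟩
    have h1 := Sys.distA_le_add A q.2 ζ
    have h2 : ‖q.2 - ζ‖ < r / 2 := by
      rw [← dist_eq_norm, dist_comm]
      exact hζ
    show ρ < Sys.distA A ζ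
    linarith
  have hmass := hS.mass_off_config hWm hΩ hfin A ρ
  have hmaj' : S.volS {y | y ∈ W ∧ ¬ Sys.FibMatch (S.fib y) A ρ}
      ≤ ENNReal.ofReal δs * S.volS W := hmaj
  have hkey : ENNReal.ofReal ((r / 2) ^ m / S.Cg)
      ≤ ENNReal.ofReal ((Q : ℝ) * (δs * (2 * (r ^ m * ω))) + (1 + 2 * C) * (ds * r ^ m)) := by
    refine hlow.trans ((measure_mono hsub).trans (hmass.trans ?_))
    rw [ENNReal.ofReal_add (by positivity) (by positivity), add_assoc]
    refine add_le_add ?_ ?_
    · rw [ENNReal.ofReal_mul (Nat.cast_nonneg _), ENNReal.ofReal_natCast,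
        ENNReal.ofReal_mul hδs0.le, ENNReal.ofReal_mul (by norm_num : (0 : ℝ) ≤ 2),
        ENNReal.ofReal_ofNat, ENNReal.ofReal_mul hrm.le, ← hVω]
      exact mul_le_mul_right (hmaj'.trans (mul_le_mul_right hvol _)) _
    · have e : ENNReal.ofReal ((1 + 2 * C) * (ds * r ^ m))
          = ENNReal.ofReal (ds * r ^ m) + ENNReal.ofReal (2 * C) * ENNReal.ofReal (ds * r ^ m) := by
        rw [add_mul, one_mul, ENNReal.ofReal_add (by positivity) (by positivity),
          ENNReal.ofReal_mul (p := 2 * C) (by positivity)]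
      rw [e]
      refine add_le_add (habs.trans hτ) ?_
      exact mul_le_mul' (ENNReal.ofReal_le_ofReal (by linarith)) (hDL.trans hτ)
  rw [ENNReal.ofReal_le_ofReal_iff (by positivity)] at hkey
  -- arithmetic
  set Y : ℝ := r ^ m / (P * C) with hY
  have hY0 : 0 < Y := by positivity
  have e1 : Y ≤ (r / 2) ^ m / S.Cg := by
    rw [hY, div_pow, div_div]
    exact div_le_div_of_nonneg_left hrm.le (by positivity) (mul_le_mul_of_nonneg_left hSCC hP0.le)
  have e2 : (Q : ℝ) * (δs * (2 * (r ^ m * ω))) = ((Q : ℝ) * ω / (((Q : ℝ) + 1) * (ω + 1))) * (Y / 4) := by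
    rw [hδs, hY]
    field_simp
    ring
  have e3 : (Q : ℝ) * ω / (((Q : ℝ) + 1) * (ω + 1)) ≤ 1 := by
    rw [div_le_one (by positivity)]
    have : (0 : ℝ) ≤ Q := Nat.cast_nonneg _
    nlinarith
  have e4 : (1 + 2 * C) * (ds * r ^ m) = Y / 8 := by
    rw [hds, hY]
    field_simp
  have e5 : (Q : ℝ) * (δs * (2 * (r ^ m * ω))) ≤ Y / 4 := by
    rw [e2]
    calc _ ≤ 1 * (Y / 4) := mul_le_mul_of_nonneg_right e3 (by positivity)
      _ = Y / 4 := one_mul _
  linarith

end Cf

end Claimed.Agent.R322.Sx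
end
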