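/- Packed by merge_tool.py (helper293): 2 modules of Claimed.Agent.R322 in one file, same declarations.
   Old modules, in this order: Sx.Config.Median, Sx.Gauss.Tail -/
import Claimed.Agent.R322.Pack023
import Claimed.Agent.R322.Pack040

/- ===== packed: Claimed.Agent.R322.Sx.Config.Median ===== -/
section
/-!
# R322 / Sx / Config / Median   (blueprint: helper234)   LEAF `L-Cf-Median`

Medians of rank functions.  Fix a coordinate `i` and a rank `1 ≤ j ≤ Q`.  Put `cnt t y = #{ζ ∈ fib y : ζ i ≤ t}`,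
`g t = μ {y ∈ Y : j ≤ cnt t y}` (outer measure; monotone in `t`) and `t* = sInf {t | μ Y ≤ 2 * g t}`.

* the set is nonempty: for `t = H` it contains `Y` minus the two sets of `hH`, `hQ`, so `μ Y ≤ g H + ε + 0`, and `2 ε < μ Y`;
* it is bounded below by `-H - 1`: for `t < -H`, `{j ≤ cnt t} ∩ Y` is contained in the null set of `hH` (`|ζ i| ≤ ‖ζ‖`,
  `EuclideanSpace.norm_eq`/`PiLp.norm_apply_le`), and `0 < μ Y`;
* hence `μ Y ≤ 2 g t` for `t > t*` and `2 g t < μ Y` for `t < t*`.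

UPPER TEST `f₁` = `hL i (t* + 2 w)`: `f₁ = 1` on `{ζ i ≤ t* + w}`, `f₁ = 0` on `{t* + 2 w ≤ ζ i}`, so
`cnt (t* + w) y ≤ Σ f₁ ≤ #{ζ i < t* + 2 w}`.  Let `c₁` be its constant.  `{j ≤ cnt (t* + w)}` has measure `≥ μ Y / 2 > ε`, so it contains a
point off the exceptional set: `c₁ ≥ j - 1/4`.  Off the exceptional set `#{ζ i < t* + 2 w} ≥ Σ f₁ ≥ j - 1/2`, an integer: `≥ j`.
LOWER TEST `f₂` = `hL i (t* - w)`: `#{ζ i ≤ t* - 2 w} ≤ Σ f₂ ≤ cnt (t* - w)`.  `Y \ {j ≤ cnt (t* - w)}` has outer measure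
`≥ μ Y - g (t* - w) > μ Y / 2 > ε`, so it contains a point off the exceptional set: `c₂ ≤ j - 1 + 1/4`.  Off the exceptional set
`#{ζ i ≤ t* - 2 w} ≤ j - 1/2`, an integer: `< j`.

Sum/count comparison: `Multiset` induction, `sum_map_le_card_filter`, `card_filter_le_sum_map` below.
-/

set_option autoImplicit false

namespace Claimed.Agent.R322.Sx.Cf

open MeasureTheory Set Metric
open scoped ENNReal NNReal InnerProductSpace

/-- `Σ f ≤ #{P}` if `0 ≤ f ≤ 1` and `f = 0` off `P`. -/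
theorem sum_map_le_card_filter {n : ℕ} (F : Multiset (E n)) (f : E n → ℝ) (P : E n → Prop)
    [DecidablePred P] (h1 : ∀ ζ, f ζ ≤ 1) (h0 : ∀ ζ, ¬ P ζ → f ζ = 0) :
    (F.map f).sum ≤ Multiset.card (F.filter P) := by
  induction F using Multiset.induction_on with
  | empty => simp
  | cons a s ih =>
    rw [Multiset.map_cons, Multiset.sum_cons]
    by_cases h : P a
    · rw [Multiset.filter_cons_of_pos _ h, Multiset.card_cons]
      push_cast
      have := h1 a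
      linarith
    · rw [Multiset.filter_cons_of_neg _ h, h0 a h, zero_add]
      exact ih

/-- `#{P} ≤ Σ f` if `0 ≤ f` and `f = 1` on `P`. -/
theorem card_filter_le_sum_map {n : ℕ} (F : Multiset (E n)) (f : E n → ℝ) (P : E n → Prop)
    [DecidablePred P] (h0 : ∀ ζ, 0 ≤ f ζ) (h1 : ∀ ζ, P ζ → f ζ = 1) :
    (Multiset.card (F.filter P) : ℝ) ≤ (F.map f).sum := by
  induction F using Multiset.induction_on with
  | empty => simp
  | cons a s ih =>
    rw [Multiset.map_cons, Multiset.sum_cons]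
    by_cases h : P a
    · rw [Multiset.filter_cons_of_pos _ h, Multiset.card_cons, h1 a h]
      push_cast
      linarith
    · rw [Multiset.filter_cons_of_neg _ h]
      have := h0 a
      linarith

/-- `2 x < a`, `2 e < a` and `a ≤ x + e` are incompatible. -/
theorem median_aux_two (a x e : ℝ≥0∞) (h1 : 2 * x < a) (h2 : 2 * e < a) (h3 : a ≤ x + e) : False := by
  have h4 : a + a ≤ (x + e) + (x + e) := add_le_add h3 h3
  have h5 : (x + e) + (x + e) = 2 * x + 2 * e := by ring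
  have h6 := ENNReal.add_lt_add h1 h2
  rw [h5] at h4
  exact absurd h4 (not_le.2 h6)

/-- a set of larger outer measure is not contained in a set of smaller outer measure. -/
theorem median_aux_point {m : ℕ} (μ : Measure (E m)) {A X : Set (E m)} (h : μ X < μ A) :
    ∃ y ∈ A, y ∉ X := by
  by_contra hc
  push Not at hc
  exact absurd (measure_mono (μ := μ) (fun y hy => hc y hy)) (not_le.2 h)

/-- **median of the `j`-th rank in the coordinate `i`.** -/
theorem median_rank {m n : ℕ} (μ : Measure (E m)) (Y : Set (E m)) (fib : E m → Multiset (E n))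
    (Q : ℕ) (w L : ℝ) (ε : ℝ≥0∞) (hw : 0 < w) (hY : μ Y ≠ ⊤) (hε : 2 * ε < μ Y)
    (hH : ∃ H : ℝ, μ {y | y ∈ Y ∧ ∃ ζ ∈ fib y, H < ‖ζ‖} = 0)
    (hQ : μ {y | y ∈ Y ∧ Multiset.card (fib y) ≠ Q} ≤ ε)
    (hT : ∀ f : E n → ℝ, IsTest f L →
      ∃ c : ℝ, μ {y | y ∈ Y ∧ 1 / 4 < |((fib y).map f).sum - c|} ≤ ε)
    (hL : ∀ (i : Fin n) (t : ℝ), ∃ f : E n → ℝ, IsTest f L ∧ (∀ ζ, ζ i ≤ t - w → f ζ = 1) ∧
      (∀ ζ, t ≤ ζ i → f ζ = 0))
    (i : Fin n) (j : ℕ) (hj1 : 1 ≤ j) (hjQ : j ≤ Q) :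
    ∃ t : ℝ, μ {y | y ∈ Y ∧
      ¬ (j ≤ Multiset.card ((fib y).filter fun ζ => ζ i < t + 2 * w) ∧
          Multiset.card ((fib y).filter fun ζ => ζ i ≤ t - 2 * w) < j)} ≤ 2 * ε := by
  obtain ⟨H, hH⟩ := hH
  have hY0 : 0 < μ Y := lt_of_le_of_lt zero_le hε
  have hcoord : ∀ ζ : E n, |ζ i| ≤ ‖ζ‖ := fun ζ => by simpa using PiLp.norm_apply_le ζ i
  obtain ⟨G, hG⟩ : ∃ G : ℝ → Set (E m), ∀ t, G t =
      {y | y ∈ Y ∧ j ≤ Multiset.card ((fib y).filter fun ζ => ζ i ≤ t)} := ⟨_, fun _ => rfl⟩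
  have hGmono : ∀ t t', t ≤ t' → G t ⊆ G t' := by
    intro t t' htt y hy
    rw [hG] at hy ⊢
    exact ⟨hy.1, le_trans hy.2 (Multiset.card_le_card
      (Multiset.monotone_filter_right _ fun z hz => le_trans hz htt))⟩
  obtain ⟨T, hT'⟩ : ∃ T : Set ℝ, T = {t | μ Y ≤ 2 * μ (G t)} := ⟨_, rfl⟩
  have hTne : T.Nonempty := by
    refine ⟨H, ?_⟩
    rw [hT']
    show μ Y ≤ 2 * μ (G H)
    by_contra hc
    rw [not_le] at hc
    apply median_aux_two (μ Y) (μ (G H)) ε hc hε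
    have hsub : Y ⊆ G H ∪ ({y | y ∈ Y ∧ ∃ ζ ∈ fib y, H < ‖ζ‖} ∪
        {y | y ∈ Y ∧ Multiset.card (fib y) ≠ Q}) := by
      intro y hy
      by_cases h1 : ∃ ζ ∈ fib y, H < ‖ζ‖
      · exact Or.inr (Or.inl ⟨hy, h1⟩)
      by_cases h2 : Multiset.card (fib y) ≠ Q
      · exact Or.inr (Or.inr ⟨hy, h2⟩)
      left
      rw [hG]
      refine ⟨hy, ?_⟩
      push Not at h1 h2
      have h3 : (fib y).filter (fun ζ => ζ i ≤ H) = fib y :=
        Multiset.filter_eq_self.2 fun ζ hζ => le_trans (le_trans (le_abs_self _) (hcoord ζ)) (h1 ζ hζ)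
      rw [h3, h2]
      exact hjQ
    calc μ Y ≤ μ (G H ∪ ({y | y ∈ Y ∧ ∃ ζ ∈ fib y, H < ‖ζ‖} ∪
          {y | y ∈ Y ∧ Multiset.card (fib y) ≠ Q})) := measure_mono hsub
      _ ≤ μ (G H) + (μ {y | y ∈ Y ∧ ∃ ζ ∈ fib y, H < ‖ζ‖} +
          μ {y | y ∈ Y ∧ Multiset.card (fib y) ≠ Q}) :=
        (measure_union_le _ _).trans (add_le_add le_rfl (measure_union_le _ _))
      _ ≤ μ (G H) + (0 + ε) := add_le_add le_rfl (add_le_add hH.le hQ)
      _ = μ (G H) + ε := by rw [zero_add]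
  have hTbdd : BddBelow T := by
    refine ⟨-H, ?_⟩
    intro t ht
    by_contra hc
    rw [not_le] at hc
    have hsub : G t ⊆ {y | y ∈ Y ∧ ∃ ζ ∈ fib y, H < ‖ζ‖} := by
      intro y hy
      rw [hG] at hy
      refine ⟨hy.1, ?_⟩
      have hpos : 0 < Multiset.card ((fib y).filter fun ζ => ζ i ≤ t) := lt_of_lt_of_le hj1 hy.2
      obtain ⟨ζ, hζ⟩ := Multiset.card_pos_iff_exists_mem.1 hpos
      obtain ⟨h1, h2⟩ := Multiset.mem_filter.1 hζ
      refine ⟨ζ, h1, ?_⟩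
      have h3 := hcoord ζ
      have h4 : -(ζ i) ≤ |ζ i| := neg_le_abs _
      linarith
    have h0 : μ (G t) = 0 := measure_mono_null hsub hH
    have h5 : μ Y ≤ 2 * μ (G t) := by
      rw [hT'] at ht
      exact ht
    rw [h0, mul_zero] at h5
    exact absurd h5 (not_le.2 hY0)
  obtain ⟨ts, hts⟩ : ∃ ts, ts = sInf T := ⟨_, rfl⟩
  have hup : ∀ t, ts < t → μ Y ≤ 2 * μ (G t) := by
    intro t ht
    rw [hts] at ht
    obtain ⟨t', ht', htt⟩ := exists_lt_of_csInf_lt hTne ht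
    rw [hT'] at ht'
    exact le_trans ht' (mul_le_mul_right (measure_mono (hGmono _ _ htt.le)) 2)
  have hlow : ∀ t, t < ts → 2 * μ (G t) < μ Y := by
    intro t ht
    rw [hts] at ht
    have h1 := notMem_of_lt_csInf ht hTbdd
    rw [hT'] at h1
    exact not_le.1 h1
  -- the upper test
  obtain ⟨f₁, hf₁, hf₁1, hf₁0⟩ := hL i (ts + 2 * w)
  obtain ⟨c₁, hc₁⟩ := hT f₁ hf₁
  have hc₁j : (j : ℝ) - 1 / 4 ≤ c₁ := by
    have h1 : μ {y | y ∈ Y ∧ 1 / 4 < |((fib y).map f₁).sum - c₁|} < μ (G (ts + w)) := by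
      refine lt_of_le_of_lt hc₁ ?_
      by_contra hc
      rw [not_lt] at hc
      have h2 := hup (ts + w) (by linarith)
      exact absurd (le_trans h2 (mul_le_mul_right hc 2)) (not_le.2 hε)
    obtain ⟨y₀, hy₀, hy₀'⟩ := median_aux_point μ h1
    rw [hG] at hy₀
    have h3 : ¬ (1 / 4 < |((fib y₀).map f₁).sum - c₁|) := fun h => hy₀' ⟨hy₀.1, h⟩
    rw [not_lt] at h3
    have h4 := card_filter_le_sum_map (fib y₀) f₁ (fun ζ => ζ i ≤ ts + w) hf₁.nonneg
      (fun ζ hζ => hf₁1 ζ (by linarith))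
    have h5 : (j : ℝ) ≤ Multiset.card ((fib y₀).filter fun ζ => ζ i ≤ ts + w) := by
      exact_mod_cast hy₀.2
    have h6 := (abs_le.1 h3).2
    linarith
  -- the lower test
  obtain ⟨f₂, hf₂, hf₂1, hf₂0⟩ := hL i (ts - w)
  obtain ⟨c₂, hc₂⟩ := hT f₂ hf₂
  have hc₂j : c₂ ≤ (j : ℝ) - 1 + 1 / 4 := by
    have h1 : μ {y | y ∈ Y ∧ 1 / 4 < |((fib y).map f₂).sum - c₂|} < μ (Y \ G (ts - w)) := by
      refine lt_of_le_of_lt hc₂ ?_
      by_contra hc
      rw [not_lt] at hc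
      apply median_aux_two (μ Y) (μ (G (ts - w))) ε (hlow (ts - w) (by linarith)) hε
      calc μ Y ≤ μ (G (ts - w) ∪ Y \ G (ts - w)) := measure_mono (by
            intro y hy
            by_cases h : y ∈ G (ts - w)
            · exact Or.inl h
            · exact Or.inr ⟨hy, h⟩)
        _ ≤ μ (G (ts - w)) + μ (Y \ G (ts - w)) := measure_union_le _ _
        _ ≤ μ (G (ts - w)) + ε := add_le_add le_rfl hc
    obtain ⟨y₀, hy₀, hy₀'⟩ := median_aux_point μ h1
    have h3 : ¬ (1 / 4 < |((fib y₀).map f₂).sum - c₂|) := fun h => hy₀' ⟨hy₀.1, h⟩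
    rw [not_lt] at h3
    have h4 := sum_map_le_card_filter (fib y₀) f₂ (fun ζ => ζ i ≤ ts - w) hf₂.le_one
      (fun ζ hζ => hf₂0 ζ (le_of_lt (not_le.1 hζ)))
    have h5 : ¬ (j ≤ Multiset.card ((fib y₀).filter fun ζ => ζ i ≤ ts - w)) := by
      intro h
      apply hy₀.2
      rw [hG]
      exact ⟨hy₀.1, h⟩
    have h6 : (Multiset.card ((fib y₀).filter fun ζ => ζ i ≤ ts - w) : ℝ) + 1 ≤ j := by
      exact_mod_cast not_le.1 h5
    have h7 := (abs_le.1 h3).1
    linarith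
  refine ⟨ts, ?_⟩
  have hsub : {y | y ∈ Y ∧
      ¬ (j ≤ Multiset.card ((fib y).filter fun ζ => ζ i < ts + 2 * w) ∧
          Multiset.card ((fib y).filter fun ζ => ζ i ≤ ts - 2 * w) < j)} ⊆
      {y | y ∈ Y ∧ 1 / 4 < |((fib y).map f₁).sum - c₁|} ∪
        {y | y ∈ Y ∧ 1 / 4 < |((fib y).map f₂).sum - c₂|} := by
    rintro y ⟨hy, hn⟩
    by_contra hc
    apply hn
    have h1 : ¬ (1 / 4 < |((fib y).map f₁).sum - c₁|) := fun h => hc (Or.inl ⟨hy, h⟩)
    have h2 : ¬ (1 / 4 < |((fib y).map f₂).sum - c₂|) := fun h => hc (Or.inr ⟨hy, h⟩)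
    rw [not_lt] at h1 h2
    constructor
    · have h3 := sum_map_le_card_filter (fib y) f₁ (fun ζ => ζ i < ts + 2 * w) hf₁.le_one
        (fun ζ hζ => hf₁0 ζ (not_lt.1 hζ))
      have h4 := (abs_le.1 h1).1
      by_contra hlt
      have h5 : (Multiset.card ((fib y).filter fun ζ => ζ i < ts + 2 * w) : ℝ) + 1 ≤ j := by
        exact_mod_cast not_le.1 hlt
      linarith
    · have h3 := card_filter_le_sum_map (fib y) f₂ (fun ζ => ζ i ≤ ts - 2 * w) hf₂.nonneg
        (fun ζ hζ => hf₂1 ζ (by linarith))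
      have h4 := (abs_le.1 h2).2
      by_contra hlt
      have h5 : (j : ℝ) ≤ Multiset.card ((fib y).filter fun ζ => ζ i ≤ ts - 2 * w) := by
        exact_mod_cast not_lt.1 hlt
      linarith
  calc μ _ ≤ μ ({y | y ∈ Y ∧ 1 / 4 < |((fib y).map f₁).sum - c₁|} ∪
        {y | y ∈ Y ∧ 1 / 4 < |((fib y).map f₂).sum - c₂|}) := measure_mono hsub
    _ ≤ μ {y | y ∈ Y ∧ 1 / 4 < |((fib y).map f₁).sum - c₁|} +
        μ {y | y ∈ Y ∧ 1 / 4 < |((fib y).map f₂).sum - c₂|} := measure_union_le _ _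
    _ ≤ ε + ε := add_le_add hc₁ hc₂
    _ = 2 * ε := by ring

end Claimed.Agent.R322.Sx.Cf
end

/- ===== packed: Claimed.Agent.R322.Sx.Gauss.Tail ===== -/
section
/-!
# R322 / Sx / Gauss / Tail : chart facts (T), masses, integrability  (leaf `L-Sx-Gauss`, helper297)
-/

set_option autoImplicit false

namespace Claimed.Agent.R322.Sx

open MeasureTheory Set Metric
open scoped ENNReal NNReal InnerProductSpace ContDiff

variable {m n : ℕ} {S : Sys m n} {χ : E m → ℝ} {x0 x : E m} {R h h1 K0 s : ℝ}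

/-! ### geometry of the chart -/

theorem gs_x_mem (hc : Chart S χ x0 R h x h1 K0) : x ∈ ball x0 R :=
  hc.centre (mem_ball_self hc.h1_pos)

theorem gs_norm_le (hc : Chart S χ x0 R h x h1 K0) {y : E m} (hy : y ∈ closedBall x0 (R + h)) :
    ‖y - x‖ ≤ 8 := by
  have h1 := gs_x_mem hc
  rw [mem_ball, dist_eq_norm] at h1
  rw [mem_closedBall, dist_eq_norm] at hy
  have e : y - x = (y - x0) - (x - x0) := by abel
  rw [e]
  have h2 := norm_sub_le (y - x0) (x - x0)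
  have h3 := hc.le_four
  have h4 := hc.h_pos
  linarith

theorem gs_le_norm (hc : Chart S χ x0 R h x h1 K0) {y : E m} (hy : y ∉ ball x0 R) :
    h1 ≤ ‖y - x‖ := by
  by_contra hlt
  push Not at hlt
  exact hy (hc.centre (by rw [mem_ball, dist_eq_norm]; exact hlt))

theorem gs_chi_zero (hc : Chart S χ x0 R h x h1 K0) {y : E m} (hy : y ∉ closedBall x0 (R + h)) :
    χ y = 0 :=
  image_eq_zero_of_notMem_tsupport fun hh => hy (hc.cut.supp hh)

theorem gs_dchi_zero_out (hc : Chart S χ x0 R h x h1 K0) {y : E m}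
    (hy : y ∉ closedBall x0 (R + h)) : fderiv ℝ χ y = 0 :=
  fderiv_of_notMem_tsupport ℝ fun hh => hy (hc.cut.supp hh)

theorem gs_dchi_zero_in (hc : Chart S χ x0 R h x h1 K0) {y : E m} (hy : y ∈ ball x0 R) :
    fderiv ℝ χ y = 0 := by
  have hev : χ =ᶠ[nhds y] fun _ => (1 : ℝ) := by
    filter_upwards [isOpen_ball.mem_nhds hy] with w hw using hc.cut.eq_one w hw
  rw [hev.fderiv_eq]
  exact fderiv_const_apply 1

theorem gs_chi_diff (hc : Chart S χ x0 R h x h1 K0) (y : E m) : DifferentiableAt ℝ χ y :=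
  hc.cut.smooth.differentiable (by norm_num) y

theorem gs_chi_cont (hc : Chart S χ x0 R h x h1 K0) : Continuous χ := hc.cut.smooth.continuous

theorem gs_dchi_cont (hc : Chart S χ x0 R h x h1 K0) : Continuous (fderiv ℝ χ) :=
  hc.cut.smooth.continuous_fderiv (by norm_num)

theorem gs_ker_zero (hc : Chart S χ x0 R h x h1 K0) (s : ℝ) {y : E m}
    (hy : y ∉ closedBall x0 (R + h)) : Sys.ker χ s x y = 0 := by
  rw [gs_ker_def, gs_chi_zero hc hy, zero_mul]

theorem gs_ker_cont (hc : Chart S χ x0 R h x h1 K0) (s : ℝ) (x : E m) :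
    Continuous (Sys.ker χ s x) :=
  (gs_chi_cont hc).mul ((gs_continuous_gauss m s).comp (continuous_id.sub continuous_const))

theorem gs_ker_nonneg' (hc : Chart S χ x0 R h x h1 K0) (s : ℝ) (x y : E m) :
    0 ≤ Sys.ker χ s x y := gs_ker_nonneg hc.cut.nonneg s x y

/-! ### the tail density -/

theorem gs_gT_nonneg (χ : E m → ℝ) (s : ℝ) (x y : E m) : 0 ≤ gT χ s x y :=
  mul_nonneg (gs_gauss_nonneg m s _) (norm_nonneg _)

theorem gs_gT_zero (hc : Chart S χ x0 R h x h1 K0) (s : ℝ) {y : E m}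
    (hy : y ∉ closedBall x0 (R + h)) : gT χ s x y = 0 := by
  rw [gT_def, gs_dchi_zero_out hc hy, norm_zero, mul_zero]

theorem gs_gT_cont (hc : Chart S χ x0 R h x h1 K0) (s : ℝ) (x : E m) : Continuous (gT χ s x) :=
  ((gs_continuous_gauss m s).comp (continuous_id.sub continuous_const)).mul (gs_dchi_cont hc).norm

theorem gs_gT_le (hc : Chart S χ x0 R h x h1 K0) (hs : 0 < s) (y : E m) :
    gT χ s x y ≤ 4 / h * (s ^ (-(m : ℝ)) * Real.exp (-h1 ^ 2 / (4 * s ^ 2))) := by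
  have hh := hc.h_pos
  have hsm : 0 < s ^ (-(m : ℝ)) := Real.rpow_pos_of_pos hs _
  by_cases h0 : fderiv ℝ χ y = 0
  · rw [gT_def, h0, norm_zero, mul_zero]
    positivity
  · have hy : y ∉ ball x0 R := fun hy => h0 (gs_dchi_zero_in hc hy)
    have h2 := gs_le_norm hc hy
    have h3 : gauss m s (y - x) ≤ s ^ (-(m : ℝ)) * Real.exp (-h1 ^ 2 / (4 * s ^ 2)) := by
      refine (gs_gauss_le_exp m hs _).trans (mul_le_mul_of_nonneg_left ?_ hsm.le)
      rw [Real.exp_le_exp, neg_div, neg_div, neg_le_neg_iff]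
      have h4 : h1 ^ 2 ≤ ‖y - x‖ ^ 2 := pow_le_pow_left₀ hc.h1_pos.le h2 2
      calc h1 ^ 2 / (4 * s ^ 2) ≤ h1 ^ 2 / (2 * s ^ 2) := by
            apply div_le_div_of_nonneg_left (by positivity) (by positivity)
            nlinarith [sq_nonneg s]
        _ ≤ ‖y - x‖ ^ 2 / (2 * s ^ 2) := by
            apply div_le_div_of_nonneg_right h4 (by positivity)
    rw [gT_def, mul_comm]
    exact mul_le_mul (hc.cut.grad y) h3 (gs_gauss_nonneg m s _) (by positivity)

theorem gs_gT_mul_norm_le (hc : Chart S χ x0 R h x h1 K0) (s : ℝ) (y : E m) :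
    gT χ s x y * ‖y - x‖ ≤ 8 * gT χ s x y := by
  by_cases hy : y ∈ closedBall x0 (R + h)
  · rw [mul_comm]
    exact mul_le_mul_of_nonneg_right (gs_norm_le hc hy) (gs_gT_nonneg χ s x y)
  · rw [gs_gT_zero hc s hy]
    simp

/-- `|G Dχ(w)| ≤ gT |w|`. -/
theorem gs_abs_G_dchi_le (χ : E m → ℝ) (s : ℝ) (x y w : E m) :
    |gauss m s (y - x) * fderiv ℝ χ y w| ≤ gT χ s x y * ‖w‖ := by
  rw [abs_mul, abs_of_nonneg (gs_gauss_nonneg m s _), gT_def, mul_assoc]
  exact mul_le_mul_of_nonneg_left ((fderiv ℝ χ y).le_opNorm w) (gs_gauss_nonneg m s _)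

/-- `|G Dχ(A z)| ≤ 8 |A| gT`. -/
theorem gs_abs_G_dchi_clm_le (hc : Chart S χ x0 R h x h1 K0) (s : ℝ) (y : E m)
    (A : E m →L[ℝ] E m) :
    |gauss m s (y - x) * fderiv ℝ χ y (A (y - x))| ≤ 8 * ‖A‖ * gT χ s x y := by
  refine (gs_abs_G_dchi_le χ s x y _).trans ?_
  calc gT χ s x y * ‖A (y - x)‖ ≤ gT χ s x y * (‖A‖ * ‖y - x‖) :=
        mul_le_mul_of_nonneg_left (A.le_opNorm _) (gs_gT_nonneg χ s x y)
    _ = ‖A‖ * (gT χ s x y * ‖y - x‖) := by ring
    _ ≤ ‖A‖ * (8 * gT χ s x y) :=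
        mul_le_mul_of_nonneg_left (gs_gT_mul_norm_le hc s y) (norm_nonneg _)
    _ = 8 * ‖A‖ * gT χ s x y := by ring

/-! ### masses -/

theorem gs_K0_pos (hc : Chart S χ x0 R h x h1 K0) : 0 < K0 := by
  have h1 : 0 < volume (closedBall x0 (R + h)) :=
    measure_closedBall_pos volume x0 (by linarith [hc.h_pos, hc.R_pos])
  have h2 : 0 < ENNReal.ofReal K0 := lt_of_lt_of_le h1 (le_trans le_add_self hc.mass)
  exact ENNReal.ofReal_pos.1 h2

theorem gs_mu_le (hc : Chart S χ x0 R h x h1 K0) :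
    S.μ (Prod.fst ⁻¹' closedBall x0 (R + h)) ≤ ENNReal.ofReal K0 := by
  have h1 : S.nu (closedBall x0 (R + h)) = S.μ (Prod.fst ⁻¹' closedBall x0 (R + h)) :=
    Measure.map_apply measurable_fst isClosed_closedBall.measurableSet
  rw [← h1]
  exact le_trans le_self_add hc.mass

theorem gs_vol_le (hc : Chart S χ x0 R h x h1 K0) :
    volume (closedBall x0 (R + h)) ≤ ENNReal.ofReal K0 :=
  le_trans le_add_self hc.mass

/-- integral of the tail density. -/
theorem gs_tail_integral {α : Type*} [MeasurableSpace α] {ρ : Measure α} {p : α → E m}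
    (hp : Measurable p) (hc : Chart S χ x0 R h x h1 K0) (hs : 0 < s)
    (hρ : ρ (p ⁻¹' closedBall x0 (R + h)) ≤ ENNReal.ofReal K0) :
    Integrable (fun a => gT χ s x (p a)) ρ ∧
      ∫ a, gT χ s x (p a) ∂ρ ≤ 4 * tailG m K0 s h h1 := by
  have hK0 := gs_K0_pos hc
  have hh := hc.h_pos
  have hsm : 0 < s ^ (-(m : ℝ)) := Real.rpow_pos_of_pos hs _
  set tl : ℝ := 4 / h * (s ^ (-(m : ℝ)) * Real.exp (-h1 ^ 2 / (4 * s ^ 2))) with htl
  have htl0 : 0 ≤ tl := by positivity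
  have hmeas : Measurable fun a => gT χ s x (p a) := (gs_gT_cont hc s x).measurable.comp hp
  have hsupp : Function.support (fun a => gT χ s x (p a)) ⊆ p ⁻¹' closedBall x0 (R + h) := by
    intro a ha
    by_contra hcon
    exact ha (gs_gT_zero hc s hcon)
  have hfin : ρ (p ⁻¹' closedBall x0 (R + h)) < (⊤ : ℝ≥0∞) := lt_of_le_of_lt hρ ENNReal.ofReal_lt_top
  have hbd : ∀ a, |gT χ s x (p a)| ≤ tl := fun a => by
    rw [abs_of_nonneg (gs_gT_nonneg χ s x _)]
    exact gs_gT_le hc hs _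
  refine ⟨Sys.integrable_of_bdd_support hmeas hfin hsupp tl hbd, ?_⟩
  rw [← setIntegral_eq_integral_of_forall_compl_eq_zero (s := p ⁻¹' closedBall x0 (R + h))
    (fun a ha => gs_gT_zero hc s ha)]
  have h2 := norm_setIntegral_le_of_norm_le_const (μ := ρ) (s := p ⁻¹' closedBall x0 (R + h))
    (f := fun a => gT χ s x (p a)) (C := tl) hfin (fun a _ => hbd a)
  have h3 : ρ.real (p ⁻¹' closedBall x0 (R + h)) ≤ K0 :=
    ENNReal.toReal_le_of_le_ofReal hK0.le hρ
  calc ∫ a in p ⁻¹' closedBall x0 (R + h), gT χ s x (p a) ∂ρ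
      ≤ ‖∫ a in p ⁻¹' closedBall x0 (R + h), gT χ s x (p a) ∂ρ‖ := le_abs_self _
    _ ≤ tl * ρ.real (p ⁻¹' closedBall x0 (R + h)) := h2
    _ ≤ tl * K0 := mul_le_mul_of_nonneg_left h3 htl0
    _ ≤ 4 * tailG m K0 s h h1 := by
        rw [tailG_def, htl]
        have h4 : 0 < K0 * (s ^ (-(m : ℝ)) * Real.exp (-h1 ^ 2 / (4 * s ^ 2))) := by positivity
        have e1 : 4 / h * (s ^ (-(m : ℝ)) * Real.exp (-h1 ^ 2 / (4 * s ^ 2))) * K0
            = 4 * (h⁻¹ * (K0 * (s ^ (-(m : ℝ)) * Real.exp (-h1 ^ 2 / (4 * s ^ 2))))) := by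
          field_simp
        have e2 : 4 * (K0 * (1 + h⁻¹) * s ^ (-(m : ℝ)) * Real.exp (-h1 ^ 2 / (4 * s ^ 2)))
            = 4 * ((1 + h⁻¹) * (K0 * (s ^ (-(m : ℝ)) * Real.exp (-h1 ^ 2 / (4 * s ^ 2))))) := by
          ring
        rw [e1, e2]
        apply mul_le_mul_of_nonneg_left _ (by norm_num)
        apply mul_le_mul_of_nonneg_right _ h4.le
        linarith

/-! ### integrability with respect to `μ` -/

/-- measurable, vanishing off the chart ball, dominated by a continuous function: integrable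
(properness). -/
theorem gs_integrable (hS : S.Valid) (hc : Chart S χ x0 R h x h1 K0) {g : E m × E n → ℝ}
    (hg : Measurable g) (hz : ∀ q : E m × E n, q.1 ∉ closedBall x0 (R + h) → g q = 0)
    {b : E m × E n → ℝ} (hb : Continuous b) (hle : ∀ q, |g q| ≤ b q) : Integrable g S.μ := by
  have hK : IsCompact (closedBall x0 (R + h)) := isCompact_closedBall _ _
  obtain ⟨H, hH⟩ := hS.proper _ hK hc.sub
  obtain ⟨C, hC⟩ := (hK.prod (isCompact_closedBall (0 : E n) H)).exists_bound_of_continuousOn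
    hb.continuousOn
  refine hS.integrable_of_baseCpt hg ⟨_, hK, hc.sub, hz⟩ (max C 0) ?_
  rw [ae_iff]
  refine measure_mono_null ?_ hH
  intro q hq
  have hq' : ¬ |g q| ≤ max C 0 := hq
  have h1 : q.1 ∈ closedBall x0 (R + h) := by
    by_contra hcon
    apply hq'
    rw [hz q hcon, abs_zero]
    exact le_max_right _ _
  refine ⟨h1, ?_⟩
  by_contra hcon
  apply hq'
  have h2 : q.2 ∈ closedBall (0 : E n) H := by
    rw [mem_closedBall, dist_zero_right]
    exact not_lt.1 hcon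
  exact (hle q).trans (((le_abs_self _).trans (hC q ⟨h1, h2⟩)).trans (le_max_left _ _))

/-! ### measurability of operator valued expressions -/

theorem gs_meas_clm_apply {α : Type*} [MeasurableSpace α] {k l : ℕ} {A : α → E k →L[ℝ] E l}
    {v : α → E k} (hA : Measurable A) (hv : Measurable v) : Measurable fun a => A a (v a) := by
  have hcn : Continuous fun p : (E k →L[ℝ] E l) × E k => p.1 p.2 :=
    continuous_fst.clm_apply continuous_snd
  exact hcn.measurable.comp (hA.prodMk hv)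

theorem gs_meas_clm_apply' {α : Type*} [MeasurableSpace α] {k : ℕ} {A : α → E k →L[ℝ] ℝ}
    {v : α → E k} (hA : Measurable A) (hv : Measurable v) : Measurable fun a => A a (v a) := by
  have hcn : Continuous fun p : (E k →L[ℝ] ℝ) × E k => p.1 p.2 :=
    continuous_fst.clm_apply continuous_snd
  exact hcn.measurable.comp (hA.prodMk hv)

theorem gs_meas_clm_comp {α : Type*} [MeasurableSpace α] {k l j : ℕ} {A : α → E l →L[ℝ] E j}
    {B : α → E k →L[ℝ] E l} (hA : Measurable A) (hB : Measurable B) :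
    Measurable fun a => A a ∘L B a := by
  have hcn : Continuous fun p : (E l →L[ℝ] E j) × (E k →L[ℝ] E l) => p.1 ∘L p.2 :=
    continuous_fst.clm_comp continuous_snd
  exact hcn.measurable.comp (hA.prodMk hB)

theorem gs_meas_adjoint {α : Type*} [MeasurableSpace α] {k l : ℕ} {A : α → E k →L[ℝ] E l}
    (hA : Measurable A) : Measurable fun a => ContinuousLinearMap.adjoint (A a) :=
  (ContinuousLinearMap.adjoint (𝕜 := ℝ) (E := E k) (F := E l)).continuous.measurable.comp hA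

theorem gs_meas_inner {α : Type*} [MeasurableSpace α] {k : ℕ} {u v : α → E k}
    (hu : Measurable u) (hv : Measurable v) : Measurable fun a => ⟪u a, v a⟫_ℝ :=
  hu.inner hv

end Claimed.Agent.R322.Sx
end
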