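/- Packed by merge_tool.py (helper293): 4 modules of Claimed.Agent.R322 in one file, same declarations.
   Old modules, in this order: Sx.Config.Step, Sx.Config.Labels, Sx.Config.SelAbs, Sx.Config.SelSys -/
import Claimed.Agent.R322.Pack023
import Claimed.Agent.R322.Pack025
import Claimed.Agent.R322.Pack028

/- ===== packed: Claimed.Agent.R322.Sx.Config.Step ===== -/
section
/-!
# R322 / Sx / Config / Step   (blueprint: helper234)   LEAF `L-Cf-Step`

Test functions of the height.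

`exists_halfline`: `f ζ = h ((t - ζ i) / w)` with `h = Real.smoothTransition` (`h = 0` on `(-∞, 0]`, `h = 1` on `[1, ∞)`, `0 ≤ h ≤ 1`,
`ContDiff ℝ ∞`).  `Λ` = a bound of `|h'|`: `h'` is continuous and vanishes outside `[0, 1]`, so it is bounded
(`IsCompact.exists_bound_of_continuousOn` on `Icc 0 1`).  `‖fderiv f ζ‖ ≤ |h'| / w` since `ζ ↦ ζ i` is a continuous linear map of norm `≤ 1`
(`EuclideanSpace.proj i`).
`exists_bump`: `f ζ = g (ρ⁻¹ • (ζ - r))`, `g` one fixed `ContDiffBump (0 : E n)` with `rIn = 1`, `rOut = 2`; `fderiv g` is continuous with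
compact support, hence bounded.
-/

set_option autoImplicit false

namespace Claimed.Agent.R322.Sx

open MeasureTheory Set Metric
open scoped ENNReal NNReal InnerProductSpace

theorem IsTest.mono {n : ℕ} {f : E n → ℝ} {L L' : ℝ} (h : IsTest f L) (hL : L ≤ L') : IsTest f L' :=
  ⟨h.smooth, h.nonneg, h.le_one, fun ζ => (h.deriv ζ).trans hL⟩

namespace Cf

/-- the derivative of `Real.smoothTransition` is bounded. -/
theorem exists_deriv_smoothTransition_le :
    ∃ Λ : ℝ, 0 < Λ ∧ ∀ x : ℝ, |deriv Real.smoothTransition x| ≤ Λ := by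
  have hc : Continuous (deriv Real.smoothTransition) :=
    (Real.smoothTransition.contDiff (n := 1)).continuous_deriv le_rfl
  obtain ⟨C, hC⟩ := (isCompact_Icc (a := (0 : ℝ)) (b := 1)).exists_bound_of_continuousOn hc.continuousOn
  refine ⟨max C 1, by positivity, fun x => ?_⟩
  by_cases hx : x ∈ Icc (0 : ℝ) 1
  · exact (hC x hx).trans (le_max_left _ _)
  · have h0 : deriv Real.smoothTransition x = 0 := by
      rw [mem_Icc, not_and_or, not_le, not_le] at hx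
      rcases hx with hx | hx
      · have : Real.smoothTransition =ᶠ[nhds x] fun _ => (0 : ℝ) := by
          filter_upwards [Iio_mem_nhds hx] with z hz
          exact Real.smoothTransition.zero_of_nonpos (le_of_lt hz)
        rw [this.deriv_eq, deriv_const]
      · have : Real.smoothTransition =ᶠ[nhds x] fun _ => (1 : ℝ) := by
          filter_upwards [Ioi_mem_nhds hx] with z hz
          exact Real.smoothTransition.one_of_one_le (le_of_lt hz)
        rw [this.deriv_eq, deriv_const]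
    rw [h0, abs_zero]
    positivity

/-- smoothed half lines in the `i`-th coordinate, transition in `[t - w, t]`. -/
theorem exists_halfline (n : ℕ) :
    ∃ Λ : ℝ, 0 < Λ ∧ ∀ (i : Fin n) (t w : ℝ), 0 < w →
      ∃ f : E n → ℝ, IsTest f (Λ / w) ∧ (∀ ζ, ζ i ≤ t - w → f ζ = 1) ∧ (∀ ζ, t ≤ ζ i → f ζ = 0) := by
  obtain ⟨Λ, hΛ, hb⟩ := exists_deriv_smoothTransition_le
  refine ⟨Λ, hΛ, fun i t w hw => ?_⟩
  set g : E n → ℝ := fun ζ => (t - ζ i) / w with hg
  have hgd : ∀ ζ, HasFDerivAt g ((-(w⁻¹)) • (EuclideanSpace.proj i : E n →L[ℝ] ℝ)) ζ := by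
    intro ζ
    have h1 : HasFDerivAt (fun ζ : E n => ζ i) (EuclideanSpace.proj i : E n →L[ℝ] ℝ) ζ :=
      (EuclideanSpace.proj i : E n →L[ℝ] ℝ).hasFDerivAt
    have h2 := ((hasFDerivAt_const t ζ).sub h1).mul_const w⁻¹
    have e : (-(w⁻¹)) • (EuclideanSpace.proj i : E n →L[ℝ] ℝ)
        = w⁻¹ • (0 - (EuclideanSpace.proj i : E n →L[ℝ] ℝ)) := by
      rw [zero_sub, smul_neg, neg_smul]
    rw [e]
    refine h2.congr_of_eventuallyEq (Filter.Eventually.of_forall fun y => ?_)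
    simp [hg, div_eq_mul_inv]
  have hgc : ContDiff ℝ 1 g := by
    have h1 : ContDiff ℝ 1 (fun ζ : E n => ζ i) := (EuclideanSpace.proj i : E n →L[ℝ] ℝ).contDiff
    exact (contDiff_const.sub h1).div_const w
  refine ⟨fun ζ => Real.smoothTransition (g ζ), ⟨?_, ?_, ?_, ?_⟩, ?_, ?_⟩
  · exact Real.smoothTransition.contDiff.comp hgc
  · exact fun ζ => Real.smoothTransition.nonneg _
  · exact fun ζ => Real.smoothTransition.le_one _
  · intro ζ
    have hd : HasDerivAt Real.smoothTransition (deriv Real.smoothTransition (g ζ)) (g ζ) :=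
      ((Real.smoothTransition.contDiff (n := 1)).differentiable one_ne_zero _).hasDerivAt
    have h3 := hd.comp_hasFDerivAt ζ (hgd ζ)
    have h4 : fderiv ℝ (fun ζ => Real.smoothTransition (g ζ)) ζ
        = deriv Real.smoothTransition (g ζ) • ((-(w⁻¹)) • (EuclideanSpace.proj i : E n →L[ℝ] ℝ)) :=
      h3.fderiv
    rw [h4, norm_smul, norm_smul, Real.norm_eq_abs, Real.norm_eq_abs, abs_neg, abs_of_pos (inv_pos.2 hw)]
    have hproj : ‖(EuclideanSpace.proj i : E n →L[ℝ] ℝ)‖ ≤ 1 :=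
      ContinuousLinearMap.opNorm_le_bound _ zero_le_one fun v => by
        rw [one_mul]
        exact PiLp.norm_apply_le v i
    calc |deriv Real.smoothTransition (g ζ)| * (w⁻¹ * ‖(EuclideanSpace.proj i : E n →L[ℝ] ℝ)‖)
        ≤ Λ * (w⁻¹ * 1) := by
          gcongr
          exact hb _
      _ = Λ / w := by rw [mul_one, div_eq_mul_inv]
  · intro ζ hζ
    apply Real.smoothTransition.one_of_one_le
    rw [hg, le_div_iff₀ hw]
    linarith
  · intro ζ hζ
    apply Real.smoothTransition.zero_of_nonpos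
    rw [hg]
    exact div_nonpos_of_nonpos_of_nonneg (by linarith) hw.le

/-- bumps: `1` on the closed ball of radius `ρ`, `0` outside the ball of radius `2 ρ`. -/
theorem exists_bump (n : ℕ) :
    ∃ Λ : ℝ, 0 < Λ ∧ ∀ (r : E n) (ρ : ℝ), 0 < ρ →
      ∃ f : E n → ℝ, IsTest f (Λ / ρ) ∧ (∀ ζ, ‖ζ - r‖ ≤ ρ → f ζ = 1) ∧
        (∀ ζ, 2 * ρ ≤ ‖ζ - r‖ → f ζ = 0) := by
  let b : ContDiffBump (0 : E n) := ⟨1, 2, one_pos, one_lt_two⟩
  have hbc : ContDiff ℝ 1 (b : E n → ℝ) := b.contDiff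
  have hcont : Continuous (fderiv ℝ (b : E n → ℝ)) := hbc.continuous_fderiv one_ne_zero
  obtain ⟨C, hC⟩ := hcont.bounded_above_of_compact_support (b.hasCompactSupport.fderiv (𝕜 := ℝ))
  refine ⟨max C 1, by positivity, fun r ρ hρ => ?_⟩
  set g : E n → E n := fun ζ => ρ⁻¹ • (ζ - r) with hg
  have hgd : ∀ ζ, HasFDerivAt g (ρ⁻¹ • ContinuousLinearMap.id ℝ (E n)) ζ := by
    intro ζ
    exact ((hasFDerivAt_id ζ).sub_const r).const_smul ρ⁻¹
  have hgc : ContDiff ℝ 1 g := (contDiff_id.sub contDiff_const).const_smul ρ⁻¹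
  refine ⟨fun ζ => b (g ζ), ⟨?_, ?_, ?_, ?_⟩, ?_, ?_⟩
  · exact hbc.comp hgc
  · exact fun ζ => b.nonneg
  · exact fun ζ => b.le_one
  · intro ζ
    have hd : HasFDerivAt (b : E n → ℝ) (fderiv ℝ (b : E n → ℝ) (g ζ)) (g ζ) :=
      (hbc.differentiable one_ne_zero _).hasFDerivAt
    have h4 : fderiv ℝ (fun ζ => b (g ζ)) ζ
        = (fderiv ℝ (b : E n → ℝ) (g ζ)).comp (ρ⁻¹ • ContinuousLinearMap.id ℝ (E n)) :=
      (hd.comp ζ (hgd ζ)).fderiv
    rw [h4]
    refine (ContinuousLinearMap.opNorm_comp_le _ _).trans ?_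
    rw [norm_smul, Real.norm_eq_abs, abs_of_pos (inv_pos.2 hρ)]
    calc ‖fderiv ℝ (b : E n → ℝ) (g ζ)‖ * (ρ⁻¹ * ‖ContinuousLinearMap.id ℝ (E n)‖)
        ≤ max C 1 * (ρ⁻¹ * 1) := by
          gcongr
          · exact (hC _).trans (le_max_left _ _)
          · exact ContinuousLinearMap.norm_id_le
      _ = max C 1 / ρ := by rw [mul_one, div_eq_mul_inv]
  · intro ζ hζ
    apply b.one_of_mem_closedBall
    rw [mem_closedBall, dist_zero_right, hg, norm_smul, Real.norm_eq_abs, abs_of_pos (inv_pos.2 hρ)]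
    show ρ⁻¹ * ‖ζ - r‖ ≤ 1
    rw [inv_mul_le_iff₀ hρ]
    linarith
  · intro ζ hζ
    apply b.zero_of_le_dist
    rw [dist_zero_right, hg, norm_smul, Real.norm_eq_abs, abs_of_pos (inv_pos.2 hρ)]
    show 2 ≤ ρ⁻¹ * ‖ζ - r‖
    rw [le_inv_mul_iff₀ hρ]
    linarith

end Cf

end Claimed.Agent.R322.Sx
end

/- ===== packed: Claimed.Agent.R322.Sx.Config.Labels ===== -/
section
/-!
# R322 / Sx / Config / Labels   (blueprint: helper234)   LEAF `L-Cf-Labels`

Two multisets whose points are distributed in the same numbers over finitely many disjoint clusters of diameter `≤ r` match within `r`.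

Proof (suggestion): induction on `Q` (generalising `F`, `F'`, `A`), removing the last entry `A (Fin.last _)` of `F'`, which lies in a cluster `κ`;
since `#(F ∩ P κ) = #(F' ∩ P κ) ≥ 1` there is `ζ ∈ F` with `P κ ζ`; erase both (`Multiset.erase`, `Multiset.filter_erase`/`countP`), apply the
induction hypothesis and extend the enumeration by `Fin.snoc`.   Alternative: choose a label function `lab : E n → ι`, show
`F.map lab = F'.map lab` (`Multiset.ext`, `count_map`), lift the enumeration through `Multiset.map`.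
-/

set_option autoImplicit false

namespace Claimed.Agent.R322.Sx.Cf

open MeasureTheory Set Metric

open Classical in
theorem fibMatch_of_counts {n Q : ℕ} {ι : Type*} (R : Finset ι) (P : ι → E n → Prop)
    (F F' : Multiset (E n)) (r : ℝ)
    (hcov : ∀ ζ ∈ F, ∃ κ ∈ R, P κ ζ) (hcov' : ∀ ζ ∈ F', ∃ κ ∈ R, P κ ζ)
    (hdisj : ∀ κ ∈ R, ∀ κ' ∈ R, ∀ ζ, P κ ζ → P κ' ζ → κ = κ')
    (hcount : ∀ κ ∈ R, Multiset.card (F.filter (P κ)) = Multiset.card (F'.filter (P κ)))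
    (hclose : ∀ κ ∈ R, ∀ ζ ζ', P κ ζ → P κ ζ' → ‖ζ - ζ'‖ ≤ r)
    (A : Fin Q → E n) (hA : Multiset.ofList (List.ofFn A) = F') : Sys.FibMatch F A r := by
  induction Q generalizing F F' with
  | zero =>
    have hF' : F' = 0 := by
      rw [← hA]
      simp
    have hF : F = 0 := by
      rw [Multiset.eq_zero_iff_forall_notMem]
      intro ζ hζ
      obtain ⟨κ, hκ, hP⟩ := hcov ζ hζ
      have h1 := hcount κ hκ
      rw [hF', Multiset.filter_zero, Multiset.card_zero, Multiset.card_eq_zero] at h1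
      have h2 : ζ ∈ F.filter (P κ) := Multiset.mem_filter.2 ⟨hζ, hP⟩
      rw [h1] at h2
      exact Multiset.notMem_zero _ h2
    exact ⟨A, by rw [hF]; simp, fun j => j.elim0⟩
  | succ Q ih =>
    have hF'eq : F' = A 0 ::ₘ Multiset.ofList (List.ofFn fun i : Fin Q => A i.succ) := by
      rw [← hA, List.ofFn_succ]
      rfl
    have hA0 : A 0 ∈ F' := by
      rw [hF'eq]
      exact Multiset.mem_cons_self _ _
    obtain ⟨κ, hκ, hPκ⟩ := hcov' (A 0) hA0
    have hpos : 0 < Multiset.card (F.filter (P κ)) := by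
      rw [hcount κ hκ, Multiset.card_pos_iff_exists_mem]
      exact ⟨A 0, Multiset.mem_filter.2 ⟨hA0, hPκ⟩⟩
    obtain ⟨ζ, hζ⟩ := Multiset.card_pos_iff_exists_mem.1 hpos
    obtain ⟨hζF, hPζ⟩ := Multiset.mem_filter.1 hζ
    obtain ⟨F₁, hF₁⟩ := Multiset.exists_cons_of_mem hζF
    have hiff : ∀ κ' ∈ R, (P κ' ζ ↔ P κ' (A 0)) := by
      intro κ' hκ'
      constructor
      · intro h
        rw [hdisj κ' hκ' κ hκ ζ h hPζ]
        exact hPκ
      · intro h
        rw [hdisj κ' hκ' κ hκ (A 0) h hPκ]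
        exact hPζ
    obtain ⟨L₁, hL₁, hL₁r⟩ := ih F₁ (Multiset.ofList (List.ofFn fun i : Fin Q => A i.succ))
      (fun z hz => hcov z (by rw [hF₁]; exact Multiset.mem_cons_of_mem hz))
      (fun z hz => hcov' z (by rw [hF'eq]; exact Multiset.mem_cons_of_mem hz))
      (fun κ' hκ' => by
        have h1 := hcount κ' hκ'
        rw [hF₁, hF'eq, Multiset.filter_cons, Multiset.filter_cons, Multiset.card_add,
          Multiset.card_add] at h1
        by_cases h : P κ' ζ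
        · rw [if_pos h, if_pos ((hiff κ' hκ').1 h)] at h1
          simpa using h1
        · rw [if_neg h, if_neg (fun h' => h ((hiff κ' hκ').2 h'))] at h1
          simpa using h1)
      (fun i => A i.succ) rfl
    refine ⟨Fin.cons ζ L₁, ?_, ?_⟩
    · rw [List.ofFn_succ, hF₁, ← hL₁]
      simp only [Fin.cons_zero, Fin.cons_succ]
      rfl
    · intro j
      refine Fin.cases ?_ (fun i => ?_) j
      · rw [Fin.cons_zero]
        exact hclose κ hκ ζ (A 0) hPζ hPκ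
      · rw [Fin.cons_succ]
        exact hL₁r i

end Claimed.Agent.R322.Sx.Cf
end

/- ===== packed: Claimed.Agent.R322.Sx.Config.SelAbs ===== -/
section
/-!
# R322 / Sx / Config / SelAbs   (blueprint: helper234)   `select_abs` is glue

The finite selection of AE Lemma 2.6 for an arbitrary family of multisets.
-/

set_option autoImplicit false

namespace Claimed.Agent.R322.Sx.Cf

open MeasureTheory Set Metric
open scoped ENNReal NNReal InnerProductSpace

/-- `Σ f = #{P}` if `f` is the indicator of `P` on the multiset. -/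
theorem sum_map_eq_card_filter {n : ℕ} (F : Multiset (E n)) (f : E n → ℝ) (P : E n → Prop)
    [DecidablePred P] (h1 : ∀ ζ ∈ F, P ζ → f ζ = 1) (h0 : ∀ ζ ∈ F, ¬ P ζ → f ζ = 0) :
    (F.map f).sum = Multiset.card (F.filter P) := by
  induction F using Multiset.induction_on with
  | empty => simp
  | cons a F ih =>
    have ih' := ih (fun ζ hζ => h1 ζ (Multiset.mem_cons_of_mem hζ))
      (fun ζ hζ => h0 ζ (Multiset.mem_cons_of_mem hζ))
    by_cases ha : P a
    · rw [Multiset.map_cons, Multiset.sum_cons, Multiset.filter_cons_of_pos _ ha,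
        Multiset.card_cons, ih', h1 a (Multiset.mem_cons_self a F) ha]
      push_cast; ring
    · rw [Multiset.map_cons, Multiset.sum_cons, Multiset.filter_cons_of_neg _ ha, ih',
        h0 a (Multiset.mem_cons_self a F) ha]
      ring

/-- **abstract finite selection.** -/
theorem select_abs (n Q : ℕ) :
    ∃ Λ K T : ℝ, 0 < Λ ∧ 0 < K ∧ 0 < T ∧
      ∀ {m : ℕ} (μ : Measure (E m)) (Y : Set (E m)) (fib : E m → Multiset (E n)) (w : ℝ)
        (ε : ℝ≥0∞), 0 < w → μ Y ≠ ⊤ → ENNReal.ofReal T * ε < μ Y →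
        (∃ H : ℝ, μ {y | y ∈ Y ∧ ∃ ζ ∈ fib y, H < ‖ζ‖} = 0) →
        μ {y | y ∈ Y ∧ Multiset.card (fib y) ≠ Q} ≤ ε →
        (∀ f : E n → ℝ, IsTest f (Λ / w) →
          ∃ c : ℝ, μ {y | y ∈ Y ∧ 1 / 4 < |((fib y).map f).sum - c|} ≤ ε) →
        ∃ A : Fin Q → E n, μ {y | y ∈ Y ∧ ¬ Sys.FibMatch (fib y) A (K * w)} ≤ ENNReal.ofReal T * ε := by
  classical
  obtain ⟨Λh, hΛh, Hh⟩ := exists_halfline n
  obtain ⟨Λb, hΛb, Hb⟩ := exists_bump n
  refine ⟨max Λh Λb, 4 * (11 ^ (Q ^ n) * (6 * (n + 1))), ((2 + 2 * (n * Q) + Q ^ n : ℕ) : ℝ),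
    lt_max_of_lt_left hΛh, by positivity, by positivity, ?_⟩
  intro m μ Y fib w ε hw hY hTε hH hQ hT
  rw [ENNReal.ofReal_natCast] at hTε ⊢
  set Λ := max Λh Λb with hΛ
  have hε2 : 2 * ε < μ Y := by
    refine lt_of_le_of_lt ?_ hTε
    gcongr
    have : (2 : ℕ) ≤ 2 + 2 * (n * Q) + Q ^ n := by omega
    exact_mod_cast this
  have hL : ∀ (i : Fin n) (t : ℝ), ∃ f : E n → ℝ, IsTest f (Λ / w) ∧
      (∀ ζ, ζ i ≤ t - w → f ζ = 1) ∧ (∀ ζ, t ≤ ζ i → f ζ = 0) := by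
    intro i t
    obtain ⟨f, hf, h1, h0⟩ := Hh i t w hw
    exact ⟨f, hf.mono (div_le_div_of_nonneg_right (le_max_left _ _) hw.le), h1, h0⟩
  -- medians
  have hmed : ∀ (i : Fin n) (j : ℕ), ∃ t : ℝ, 1 ≤ j → j ≤ Q → μ {y | y ∈ Y ∧
      ¬ (j ≤ Multiset.card ((fib y).filter fun ζ => ζ i < t + 2 * w) ∧
          Multiset.card ((fib y).filter fun ζ => ζ i ≤ t - 2 * w) < j)} ≤ 2 * ε := by
    intro i j
    by_cases hj : 1 ≤ j ∧ j ≤ Q
    · obtain ⟨t, ht⟩ := median_rank μ Y fib Q w (Λ / w) ε hw hY hε2 hH hQ hT hL i j hj.1 hj.2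
      exact ⟨t, fun _ _ => ht⟩
    · exact ⟨0, fun h1 h2 => absurd ⟨h1, h2⟩ hj⟩
  choose t ht using hmed
  -- the net
  set ρ₀ : ℝ := 6 * (n + 1) * w with hρ₀def
  have hρ₀ : 0 < ρ₀ := by positivity
  obtain ⟨ρ, R, hρ1, hρ2, hcovR, hsepR⟩ := exists_net (gridPt (Q := Q) t) ρ₀ hρ₀
  have hρ : 0 < ρ := hρ₀.trans_le hρ1
  have hwρ : w ≤ 2 * ρ := by
    have h1 : w ≤ ρ₀ := by
      have : (0 : ℝ) ≤ n := Nat.cast_nonneg n
      nlinarith
    linarith
  -- the bumps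
  have hbump : ∀ κ : Fin n → Fin Q, ∃ f : E n → ℝ, IsTest f (Λ / w) ∧
      (∀ ζ, ‖ζ - gridPt t κ‖ ≤ 2 * ρ → f ζ = 1) ∧ (∀ ζ, 4 * ρ ≤ ‖ζ - gridPt t κ‖ → f ζ = 0) := by
    intro κ
    obtain ⟨f, hf, h1, h0⟩ := Hb (gridPt t κ) (2 * ρ) (by positivity)
    refine ⟨f, hf.mono ?_, h1, fun ζ hζ => h0 ζ (by linarith)⟩
    calc Λb / (2 * ρ) ≤ Λb / w := div_le_div_of_nonneg_left hΛb.le hw hwρ
      _ ≤ Λ / w := div_le_div_of_nonneg_right (le_max_right _ _) hw.le
  choose f hf hf1 hf0 using hbump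
  choose c hc using fun κ => hT (f κ) (hf κ)
  obtain ⟨P, hP⟩ : ∃ P : (Fin n → Fin Q) → E n → Prop, ∀ κ ζ, P κ ζ ↔ ‖ζ - gridPt t κ‖ ≤ 2 * ρ :=
    ⟨_, fun _ _ => Iff.rfl⟩
  -- the bad set
  set B0 : Set (E m) := {y | y ∈ Y ∧ Multiset.card (fib y) ≠ Q} with hB0
  set B1 : Fin n × ℕ → Set (E m) := fun p => {y | y ∈ Y ∧
      ¬ (p.2 ≤ Multiset.card ((fib y).filter fun ζ => ζ p.1 < t p.1 p.2 + 2 * w) ∧
          Multiset.card ((fib y).filter fun ζ => ζ p.1 ≤ t p.1 p.2 - 2 * w) < p.2)} with hB1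
  set B2 : (Fin n → Fin Q) → Set (E m) :=
    fun κ => {y | y ∈ Y ∧ 1 / 4 < |((fib y).map (f κ)).sum - c κ|} with hB2
  set Bad : Set (E m) := B0 ∪ (⋃ p ∈ (Finset.univ : Finset (Fin n)) ×ˢ Finset.Icc 1 Q, B1 p) ∪
    (⋃ κ ∈ R, B2 κ) with hBaddef
  have hBad : μ Bad ≤ ((2 + 2 * (n * Q) + Q ^ n : ℕ) : ℝ≥0∞) * ε := by
    have h1 : μ (⋃ p ∈ (Finset.univ : Finset (Fin n)) ×ˢ Finset.Icc 1 Q, B1 p)
        ≤ ((n * Q : ℕ) : ℝ≥0∞) * (2 * ε) := by
      refine (measure_biUnion_finset_le _ _).trans ?_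
      calc ∑ p ∈ (Finset.univ : Finset (Fin n)) ×ˢ Finset.Icc 1 Q, μ (B1 p)
          ≤ ∑ _p ∈ (Finset.univ : Finset (Fin n)) ×ˢ Finset.Icc 1 Q, 2 * ε := by
            refine Finset.sum_le_sum fun p hp => ?_
            have hp2 := Finset.mem_Icc.1 (Finset.mem_product.1 hp).2
            exact ht p.1 p.2 hp2.1 hp2.2
        _ = ((n * Q : ℕ) : ℝ≥0∞) * (2 * ε) := by
            rw [Finset.sum_const, Finset.card_product, Finset.card_univ, Fintype.card_fin,
              Nat.card_Icc, nsmul_eq_mul]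
            simp
    have h2 : μ (⋃ κ ∈ R, B2 κ) ≤ ((Q ^ n : ℕ) : ℝ≥0∞) * ε := by
      refine (measure_biUnion_finset_le _ _).trans ?_
      calc ∑ κ ∈ R, μ (B2 κ) ≤ ∑ _κ ∈ R, ε := Finset.sum_le_sum fun κ _ => hc κ
        _ = (R.card : ℝ≥0∞) * ε := by rw [Finset.sum_const, nsmul_eq_mul]
        _ ≤ ((Q ^ n : ℕ) : ℝ≥0∞) * ε := by
            gcongr
            have := Finset.card_le_univ R
            simpa using this
    calc μ Bad ≤ μ B0 + μ (⋃ p ∈ (Finset.univ : Finset (Fin n)) ×ˢ Finset.Icc 1 Q, B1 p)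
          + μ (⋃ κ ∈ R, B2 κ) :=
          (measure_union_le _ _).trans (add_le_add_left (measure_union_le _ _) _)
      _ ≤ ε + ((n * Q : ℕ) : ℝ≥0∞) * (2 * ε) + ((Q ^ n : ℕ) : ℝ≥0∞) * ε :=
          add_le_add (add_le_add hQ h1) h2
      _ ≤ 2 * ε + ((n * Q : ℕ) : ℝ≥0∞) * (2 * ε) + ((Q ^ n : ℕ) : ℝ≥0∞) * ε := by
          gcongr
          calc ε = 1 * ε := (one_mul _).symm
            _ ≤ 2 * ε := by gcongr; norm_num
      _ = ((2 + 2 * (n * Q) + Q ^ n : ℕ) : ℝ≥0∞) * ε := by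
          push_cast
          ring
  -- properties of good fibres
  have g0 : ∀ y ∈ Y, y ∉ Bad → Multiset.card (fib y) = Q := by
    intro y hy hb
    by_contra hcon
    exact hb (Or.inl (Or.inl ⟨hy, hcon⟩))
  have g1 : ∀ y ∈ Y, y ∉ Bad → ∀ i j, 1 ≤ j → j ≤ Q →
      j ≤ Multiset.card ((fib y).filter fun ζ => ζ i < t i j + 2 * w) ∧
        Multiset.card ((fib y).filter fun ζ => ζ i ≤ t i j - 2 * w) < j := by
    intro y hy hb i j hj1 hjQ
    by_contra hcon
    refine hb (Or.inl (Or.inr ?_))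
    refine mem_iUnion₂.2 ⟨(i, j), ?_, ⟨hy, hcon⟩⟩
    exact Finset.mem_product.2 ⟨Finset.mem_univ _, Finset.mem_Icc.2 ⟨hj1, hjQ⟩⟩
  have g2 : ∀ y ∈ Y, y ∉ Bad → ∀ κ ∈ R, |((fib y).map (f κ)).sum - c κ| ≤ 1 / 4 := by
    intro y hy hb κ hκ
    by_contra hcon
    exact hb (Or.inr (mem_iUnion₂.2 ⟨κ, hκ, ⟨hy, not_le.1 hcon⟩⟩))
  have hcov : ∀ y ∈ Y, y ∉ Bad → ∀ ζ ∈ fib y, ∃ κ ∈ R, P κ ζ := by
    intro y hy hb ζ hζ
    obtain ⟨κ₀, h0⟩ := grid_near (fib y) Q (g0 y hy hb) w t (g1 y hy hb) ζ hζ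
    obtain ⟨κ', hκ', h'⟩ := hcovR κ₀
    refine ⟨κ', hκ', (hP κ' ζ).2 ?_⟩
    have h3 : ‖ζ - gridPt t κ'‖ ≤ ‖ζ - gridPt t κ₀‖ + ‖gridPt t κ₀ - gridPt t κ'‖ := by
      have := norm_add_le (ζ - gridPt t κ₀) (gridPt t κ₀ - gridPt t κ')
      simpa using this
    have h4 : 6 * (n : ℝ) * w ≤ ρ₀ := by
      rw [hρ₀def]; nlinarith
    linarith
  have hdisj : ∀ κ ∈ R, ∀ κ' ∈ R, ∀ ζ, P κ ζ → P κ' ζ → κ = κ' := by
    intro κ hκ κ' hκ' ζ h1 h2
    by_contra hne
    have h3 := hsepR κ hκ κ' hκ' hne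
    have h4 : ‖gridPt t κ - gridPt t κ'‖ ≤ ‖ζ - gridPt t κ‖ + ‖ζ - gridPt t κ'‖ := by
      have := norm_sub_le (ζ - gridPt t κ') (ζ - gridPt t κ)
      have e : ζ - gridPt t κ' - (ζ - gridPt t κ) = gridPt t κ - gridPt t κ' := by abel
      rw [e] at this
      linarith
    have := (hP κ ζ).1 h1
    have := (hP κ' ζ).1 h2
    linarith
  have hcnt : ∀ y ∈ Y, y ∉ Bad → ∀ κ ∈ R,
      ((fib y).map (f κ)).sum = Multiset.card ((fib y).filter (P κ)) := by
    intro y hy hb κ hκ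
    refine sum_map_eq_card_filter (fib y) (f κ) (P κ) (fun ζ _ h => hf1 κ ζ ((hP κ ζ).1 h)) ?_
    intro ζ hζ hn
    obtain ⟨κ', hκ', h'⟩ := hcov y hy hb ζ hζ
    have hne : κ ≠ κ' := fun h => hn (h ▸ h')
    have h3 := hsepR κ hκ κ' hκ' hne
    have h4 : ‖gridPt t κ - gridPt t κ'‖ ≤ ‖ζ - gridPt t κ‖ + ‖ζ - gridPt t κ'‖ := by
      have := norm_sub_le (ζ - gridPt t κ') (ζ - gridPt t κ)
      have e : ζ - gridPt t κ' - (ζ - gridPt t κ) = gridPt t κ - gridPt t κ' := by abel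
      rw [e] at this
      linarith
    have := (hP κ' ζ).1 h'
    exact hf0 κ ζ (by linarith)
  -- one good fibre
  obtain ⟨y₀, hy₀, hb₀⟩ : ∃ y₀ ∈ Y, y₀ ∉ Bad := by
    by_contra hcon
    push Not at hcon
    exact absurd ((measure_mono (fun y hy => hcon y hy)).trans hBad) (not_le.2 hTε)
  obtain ⟨A, hA⟩ := Sys.exists_enum (fib y₀) (g0 y₀ hy₀ hb₀)
  refine ⟨A, (measure_mono ?_).trans hBad⟩
  rintro y ⟨hy, hno⟩
  by_contra hb
  apply hno
  have hmatch : Sys.FibMatch (fib y) A (4 * ρ) := by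
    refine fibMatch_of_counts R P (fib y) (fib y₀) (4 * ρ) (hcov y hy hb) (hcov y₀ hy₀ hb₀) hdisj ?_ ?_
      A hA
    · intro κ hκ
      have h1 := g2 y hy hb κ hκ
      have h2 := g2 y₀ hy₀ hb₀ κ hκ
      rw [hcnt y hy hb κ hκ] at h1
      rw [hcnt y₀ hy₀ hb₀ κ hκ] at h2
      have h3 : |((Multiset.card ((fib y).filter (P κ)) : ℤ) : ℝ)
          - ((Multiset.card ((fib y₀).filter (P κ)) : ℤ) : ℝ)| < 1 := by
        push_cast
        rw [abs_le] at h1 h2
        rw [abs_lt]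
        constructor <;> linarith [h1.1, h1.2, h2.1, h2.2]
      have h4 : |(Multiset.card ((fib y).filter (P κ)) : ℤ)
          - (Multiset.card ((fib y₀).filter (P κ)) : ℤ)| < 1 := by
        exact_mod_cast h3
      have h5 := Int.abs_lt_one_iff.1 h4
      omega
    · intro κ _ ζ ζ' h1 h2
      have h3 := (hP κ ζ).1 h1
      have h4 := (hP κ ζ').1 h2
      have h5 : ‖ζ - ζ'‖ ≤ ‖ζ - gridPt t κ‖ + ‖ζ' - gridPt t κ‖ := by
        have := norm_sub_le (ζ - gridPt t κ) (ζ' - gridPt t κ)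
        have e : ζ - gridPt t κ - (ζ' - gridPt t κ) = ζ - ζ' := by abel
        rwa [e] at this
      linarith
  refine hmatch.mono ?_
  have h6 : Fintype.card (Fin n → Fin Q) = Q ^ n := by simp
  rw [h6] at hρ2
  calc 4 * ρ ≤ 4 * (11 ^ (Q ^ n) * ρ₀) := by linarith
    _ = 4 * (11 ^ (Q ^ n) * (6 * (n + 1))) * w := by rw [hρ₀def]; ring

end Claimed.Agent.R322.Sx.Cf
end

/- ===== packed: Claimed.Agent.R322.Sx.Config.SelSys ===== -/
section
/-!
# R322 / Sx / Config / SelSys   (blueprint: helper234)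
LEAVES `L-Cf-FibBdd` (`fib_bounded`), `L-Cf-SelW` (`select_w`), `L-Cf-SelPos` (`select_pos`), `L-Cf-SelZero` (`select_zero`); `select` is glue.

The majority assertion of AE Lemma 2.6 on `B_s(x)`, with the enlargement `B_{2s}(x)`.

`fib_bounded`: `H` from `Valid.proper`; axiom `count` for `g = indicator (K ×ˢ {ζ | H < ‖ζ‖}) 1`: the left side vanishes, so
`fibSum g y * ofReal (a y) = 0` for a.e. `y ∈ Ω` (`lintegral_eq_zero_iff'`, `count_meas`, `a_contDiff.continuous.measurable`), `a ≥ 1/2`, and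
`fibSum g y = 0` means that no entry of the fibre over `y ∈ K` has `H < ‖ζ‖` (`Multiset.sum_eq_zero_iff` in `ℝ≥0∞`).

`select_w`: `(Λ, K, T)` from `select_abs n Q`; `C_o` from `osc m n hm Cg 2 (1/2)`; `(C_s, dτ)` from `scalar_tau m n Q hm Cg 2`; `C = C_s + 8 C_o`.
Apply `select_abs` to `μ = S.volS`, `Y = ball x s`, `fib = S.fib`, `ε = ofReal (C * oscE)`:
 * `volS (ball x s) ≠ ⊤`: `Valid.volS_le`, `measure_ball_lt_top`;
 * heights: `fib_bounded` on `closedBall x s ⊆ ball x (2 s)`, then `Valid.volS_le`;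
 * count: `scalar_tau` and `(D+Λ)(B_{2s}).toReal ≤ oscE` (finite since `D + Λ ≤ τ`);
 * tests: `osc` with `R = 2 s`, `t = 1/4`; `S.Nf f y = ((S.fib y).map f).sum` by definition; `ν (B_{2s}) < ⊤` by `Valid.nu_le`; `volS ≤ 2 vol`.

`select_pos`: `w = K₁ s √d`.  With `ω = vol B_1`: `(D+Λ)(B_{2s}) ≤ d s^m`, `ν (B_{2s}) ≤ (1 + 2 Q ω 2^m) s^m =: Cν s^m` (`d ≤ 1`), so
`oscE x (2s) (Λ / w) ≤ (d + 2 Λ √Cν / K₁) s^m`, while `volS (B_s) ≥ ω s^m / 2`.  Choose `K₁` with `T C 2 Λ √Cν / K₁ ≤ min δ 1 ω / 8`, then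
`dsel ≤ min 1 dτ` with `T C dsel ≤ min δ 1 ω / 8`.  Constant of the statement: `K K₁`.

`select_zero`: `oscE x (2s) L = 0` for every `L`; `select_w` with `w = 1/(k+1)` gives `A_k` with NULL exceptional set `Z_k`.
`volS (B_s) > 0`, so there is `y₀ ∈ B_s \ ⋃ Z_k`; `A` = an enumeration of `fib y₀` (`Sys.exists_enum`, `FibMatch.card`).  For `y ∈ B_s \ ⋃ Z_k`:
`FibMatch (fib y) A_k (K/(k+1))`, `FibMatch (fib y₀) A_k (K/(k+1))`, `fibMatch_self`, so `FibMatch (fib y) A (3K/(k+1))` for all `k`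
(`FibMatch.matched`, `FibMatch.of_matched`); conclude by `Sys.fibMatch_zero_of_forall`.
-/

set_option autoImplicit false

namespace Claimed.Agent.R322.Sx

open MeasureTheory Set Metric
open scoped ENNReal NNReal InnerProductSpace

/-- heights of the fibres are essentially bounded over compact subsets of the base. -/
theorem Sys.Valid.fib_bounded {m n : ℕ} {S : Sys m n} (h : S.Valid) {K : Set (E m)}
    (hK : IsCompact K) (hKΩ : K ⊆ S.Ω) :
    ∃ H : ℝ, volume {y | y ∈ K ∧ ∃ ζ ∈ S.fib y, H < ‖ζ‖} = 0 := by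
  obtain ⟨H, hH⟩ := h.proper K hK hKΩ
  refine ⟨H, ?_⟩
  have hKm : MeasurableSet K := hK.measurableSet
  set T : Set (E m × E n) := {q | H < ‖q.2‖} with hT
  have hTm : MeasurableSet T := measurableSet_lt measurable_const measurable_snd.norm
  set g : E m × E n → ℝ≥0∞ := T.indicator 1 with hg
  have hgm : Measurable g := measurable_one.indicator hTm
  have h1 := h.count_set hKm hKΩ hgm
  have h2 : ∫⁻ q in K ×ˢ (univ : Set (E n)), g q * ENNReal.ofReal (S.Jpi q) ∂S.μ = 0 := by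
    have e1 : (fun q => g q * ENNReal.ofReal (S.Jpi q))
        = T.indicator fun q => ENNReal.ofReal (S.Jpi q) := by
      funext q
      by_cases hq : q ∈ T
      · simp [hg, indicator_of_mem hq]
      · simp [hg, indicator_of_notMem hq]
    rw [e1, lintegral_indicator hTm, Measure.restrict_restrict hTm]
    have e2 : T ∩ K ×ˢ (univ : Set (E n)) = K ×ˢ {ζ : E n | H < ‖ζ‖} := by
      ext q
      simp only [hT, mem_inter_iff, mem_setOf_eq, mem_prod, mem_univ, and_true]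
      tauto
    rw [e2, Measure.restrict_eq_zero.2 hH, lintegral_zero_measure]
  rw [h2] at h1
  have hae : AEMeasurable (fun y => S.fibSum g y * ENNReal.ofReal (S.a y)) (volume.restrict K) := by
    have ha : Measurable fun y => ENNReal.ofReal (S.a y) :=
      h.a_contDiff.continuous.measurable.ennreal_ofReal
    exact ((h.count_meas g hgm).mono_measure (Measure.restrict_mono hKΩ le_rfl)).mul ha.aemeasurable
  have h3 := (lintegral_eq_zero_iff' hae).1 h1.symm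
  have h4 := (ae_restrict_iff' hKm).1 h3
  rw [Filter.Eventually, mem_ae_iff] at h4
  refine measure_mono_null ?_ h4
  rintro y ⟨hyK, ζ, hζ, hHζ⟩ hy
  have h5 : S.fibSum g y * ENNReal.ofReal (S.a y) = 0 := hy hyK
  have ha : ENNReal.ofReal (S.a y) ≠ 0 := by
    have := h.a_lower y
    simp only [ne_eq, ENNReal.ofReal_eq_zero, not_le]
    linarith
  have h6 : S.fibSum g y = 0 := (mul_eq_zero.1 h5).resolve_right ha
  unfold Sys.fibSum at h6
  rw [Multiset.sum_eq_zero_iff] at h6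
  have h7 := h6 (g (y, ζ)) (Multiset.mem_map_of_mem _ hζ)
  have h8 : g (y, ζ) = 1 := by
    rw [hg, indicator_of_mem (show (y, ζ) ∈ T from hHζ)]
    rfl
  rw [h8] at h7
  exact one_ne_zero h7

namespace Cf

theorem DL_le_tau {m n : ℕ} (S : Sys m n) (Q : ℕ) (B : Set (E m)) :
    (S.Dm + S.Lm) B ≤ S.tau Q B := by
  unfold Sys.tau
  simp only [Measure.add_apply]
  rw [add_assoc]
  exact le_add_self

theorem absM_le_tau {m n : ℕ} (S : Sys m n) (Q : ℕ) (B : Set (E m)) :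
    S.absM Q B ≤ S.tau Q B := by
  unfold Sys.tau
  simp only [Measure.add_apply]
  rw [add_assoc]
  exact le_self_add

theorem nu_ball_le {m n : ℕ} {S : Sys m n} (hS : S.Valid) (Q : ℕ) (B : Set (E m)) :
    S.nu B ≤ S.tau Q B + (Q : ℝ≥0∞) * (2 * volume B) := by
  calc S.nu B ≤ (S.absM Q + (Q : ℝ≥0∞) • S.volS) B := hS.nu_le Q B
    _ = S.absM Q B + (Q : ℝ≥0∞) * S.volS B := by
        simp only [Measure.add_apply, Measure.smul_apply, smul_eq_mul]
    _ ≤ _ := add_le_add (absM_le_tau S Q B) (mul_le_mul_right (hS.volS_le B) _)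

/-- selection at an arbitrary width `w`. -/
theorem select_w (m n Q : ℕ) (hm : 1 ≤ m) (Cg : ℝ) :
    ∃ Λ K T C dτ : ℝ, 0 < Λ ∧ 0 < K ∧ 0 < T ∧ 0 < C ∧ 0 < dτ ∧
      ∀ S : Sys m n, S.Valid → S.Cg ≤ Cg → ∀ (x : E m) (s w : ℝ), 0 < s → s ≤ 1 → 0 < w →
        ball x (2 * s) ⊆ S.Ω → S.tau Q (ball x (2 * s)) ≤ ENNReal.ofReal (dτ * s ^ m) →
        ENNReal.ofReal (T * (C * S.oscE x (2 * s) (Λ / w))) < S.volS (ball x s) →
        ∃ A : Fin Q → E n, S.volS {y | y ∈ ball x s ∧ ¬ Sys.FibMatch (S.fib y) A (K * w)}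
          ≤ ENNReal.ofReal (T * (C * S.oscE x (2 * s) (Λ / w))) := by
  obtain ⟨Λ, K, T, hΛ, hK, hT, Habs⟩ := select_abs n Q
  obtain ⟨Co, hCo, Hosc⟩ := osc m n hm Cg 2 (1 / 2) (by norm_num) (by norm_num)
  obtain ⟨Cs, dτ, hCs, hdτ, Hsc⟩ := scalar_tau m n Q hm Cg 2 (by norm_num)
  refine ⟨Λ, K, T, Cs + 8 * Co, dτ, hΛ, hK, hT, by positivity, hdτ, ?_⟩
  intro S hS hCg x s w hs hs1 hw hball hτ hlt
  set Eo : ℝ := S.oscE x (2 * s) (Λ / w) with hEo
  have hEo0 : 0 ≤ Eo := S.oscE_nonneg x (by positivity) (by positivity)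
  have hτfin : S.tau Q (ball x (2 * s)) < ⊤ := lt_of_le_of_lt hτ ENNReal.ofReal_lt_top
  have hDLfin : (S.Dm + S.Lm) (ball x (2 * s)) < ⊤ := lt_of_le_of_lt (DL_le_tau S Q _) hτfin
  have hνfin : S.nu (ball x (2 * s)) < ⊤ := by
    refine lt_of_le_of_lt (nu_ball_le hS Q _) ?_
    refine ENNReal.add_lt_top.2 ⟨hτfin, ENNReal.mul_lt_top (ENNReal.natCast_lt_top Q) ?_⟩
    exact ENNReal.mul_lt_top (by norm_num) measure_ball_lt_top
  have hDL : (S.Dm + S.Lm) (ball x (2 * s)) ≤ ENNReal.ofReal Eo := by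
    rw [← ENNReal.ofReal_toReal hDLfin.ne]
    apply ENNReal.ofReal_le_ofReal
    rw [hEo]
    unfold Sys.oscE
    have : 0 ≤ 2 * s * (Λ / w) * Real.sqrt ((S.nu (ball x (2 * s))).toReal
        * ((S.Dm + S.Lm) (ball x (2 * s))).toReal) := by positivity
    linarith
  have hmul : ENNReal.ofReal T * ENNReal.ofReal ((Cs + 8 * Co) * Eo)
      = ENNReal.ofReal (T * ((Cs + 8 * Co) * Eo)) := (ENNReal.ofReal_mul hT.le).symm
  have key := Habs S.volS (ball x s) S.fib w (ENNReal.ofReal ((Cs + 8 * Co) * Eo)) hw ?_ ?_ ?_ ?_ ?_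
  · rw [hmul] at key
    exact key
  · refine (lt_of_le_of_lt (hS.volS_le _) ?_).ne
    exact ENNReal.mul_lt_top (by norm_num) measure_ball_lt_top
  · rw [hmul]; exact hlt
  · obtain ⟨H, hH⟩ := hS.fib_bounded (isCompact_closedBall x s)
      ((closedBall_subset_ball (by linarith)).trans hball)
    refine ⟨H, ?_⟩
    refine le_antisymm ?_ bot_le
    calc S.volS {y | y ∈ ball x s ∧ ∃ ζ ∈ S.fib y, H < ‖ζ‖}
        ≤ 2 * volume {y | y ∈ ball x s ∧ ∃ ζ ∈ S.fib y, H < ‖ζ‖} := hS.volS_le _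
      _ ≤ 2 * volume {y | y ∈ closedBall x s ∧ ∃ ζ ∈ S.fib y, H < ‖ζ‖} := by
          refine mul_le_mul_right (measure_mono ?_) _
          exact fun y hy => ⟨ball_subset_closedBall hy.1, hy.2⟩
      _ = 0 := by rw [hH, mul_zero]
  · have h1 := Hsc S hS hCg x s hs hs1 hball hτ
    calc S.volS {y | y ∈ ball x s ∧ Multiset.card (S.fib y) ≠ Q}
        ≤ S.absM Q (ball x s) + S.volS {y | y ∈ ball x s ∧ S.N y ≠ Q} := le_add_self
      _ ≤ ENNReal.ofReal Cs * (S.Dm + S.Lm) (ball x (2 * s)) := h1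
      _ ≤ ENNReal.ofReal Cs * ENNReal.ofReal Eo := by gcongr
      _ = ENNReal.ofReal (Cs * Eo) := (ENNReal.ofReal_mul hCs.le).symm
      _ ≤ ENNReal.ofReal ((Cs + 8 * Co) * Eo) := by
          apply ENNReal.ofReal_le_ofReal
          nlinarith
  · intro f hf
    obtain ⟨c, hc, -⟩ := Hosc S hS hCg x (2 * s) (by positivity) (by linarith) hball hνfin f (Λ / w) hf
    refine ⟨c, ?_⟩
    have h1 := hc (1 / 4) (by norm_num)
    have e1 : (1 / 2 : ℝ) * (2 * s) = s := by ring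
    rw [e1] at h1
    calc S.volS {y | y ∈ ball x s ∧ 1 / 4 < |((S.fib y).map f).sum - c|}
        ≤ 2 * volume {y | y ∈ ball x s ∧ 1 / 4 < |((S.fib y).map f).sum - c|} := hS.volS_le _
      _ ≤ 2 * ENNReal.ofReal (Co * Eo / (1 / 4)) := by
          gcongr
          exact h1
      _ = ENNReal.ofReal (8 * Co * Eo) := by
          rw [show (2 : ℝ≥0∞) = ENNReal.ofReal 2 by simp, ← ENNReal.ofReal_mul (by norm_num)]
          congr 1
          ring
      _ ≤ ENNReal.ofReal ((Cs + 8 * Co) * Eo) := by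
          apply ENNReal.ofReal_le_ofReal
          nlinarith

theorem volS_ball_pos {m n : ℕ} {S : Sys m n} (hS : S.Valid) {x : E m} {s : ℝ} (hs : 0 < s)
    (hball : ball x s ⊆ S.Ω) : 0 < S.volS (ball x s) := by
  have h1 : volume (ball x s) ≤ 2 * S.volS (ball x s) := hS.le_volS hball
  have h2 : 0 < volume (ball x s) := measure_ball_pos _ _ hs
  by_contra h
  have h3 : S.volS (ball x s) = 0 := le_antisymm (not_lt.1 h) bot_le
  rw [h3, mul_zero] at h1
  exact absurd h1 (not_le.2 h2)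

/-- `vol B_r(x) = ofReal (ω r^m)`. -/
theorem volume_ball_ofReal {m : ℕ} (x : E m) {r : ℝ} (hr : 0 < r) :
    volume (ball x r) = ENNReal.ofReal ((volume (ball (0 : E m) 1)).toReal * r ^ m) := by
  rw [volume_ball_eq x hr, mul_comm, ENNReal.ofReal_mul ENNReal.toReal_nonneg,
    ENNReal.ofReal_toReal measure_ball_lt_top.ne]

/-- positive energy bound. -/
theorem select_pos (m n Q : ℕ) (hm : 1 ≤ m) (Cg δ : ℝ) (hδ : 0 < δ) :
    ∃ dsel K : ℝ, 0 < dsel ∧ 0 < K ∧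
      ∀ S : Sys m n, S.Valid → S.Cg ≤ Cg → ∀ (x : E m) (s d : ℝ), 0 < s → s ≤ 1 → 0 < d → d ≤ dsel →
        ball x (2 * s) ⊆ S.Ω → S.tau Q (ball x (2 * s)) ≤ ENNReal.ofReal (d * s ^ m) →
        ∃ A : Fin Q → E n, S.IsMajority x s δ (K * s * Real.sqrt d) A := by
  obtain ⟨Λ, K, T, C, dτ, hΛ, hK, hT, hC, hdτ, H⟩ := select_w m n Q hm Cg
  set ω : ℝ := (volume (ball (0 : E m) 1)).toReal with hωdef
  have hω : 0 < ω := volume_unit_ball_pos m
  set Cν : ℝ := 1 + 2 * Q * ω * 2 ^ m with hCνdef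
  have hCν : 0 < Cν := by rw [hCνdef]; positivity
  set δ' : ℝ := min δ 1 with hδ'def
  have hδ' : 0 < δ' := lt_min hδ one_pos
  set K₁ : ℝ := 16 * T * C * Λ * Real.sqrt Cν / (δ' * ω) with hK₁def
  have hsC : 0 < Real.sqrt Cν := Real.sqrt_pos.2 hCν
  have hK₁ : 0 < K₁ := by rw [hK₁def]; positivity
  refine ⟨min (min 1 dτ) (δ' * ω / (8 * T * C)), K * K₁, by positivity, by positivity, ?_⟩
  intro S hS hCg x s d hs hs1 hd hdsel hball hτ
  have hd1 : d ≤ 1 := hdsel.trans ((min_le_left _ _).trans (min_le_left _ _))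
  have hdτ' : d ≤ dτ := hdsel.trans ((min_le_left _ _).trans (min_le_right _ _))
  have hd8 : d ≤ δ' * ω / (8 * T * C) := hdsel.trans (min_le_right _ _)
  have hsm : 0 < s ^ m := by positivity
  have hsd : 0 < Real.sqrt d := Real.sqrt_pos.2 hd
  set w : ℝ := K₁ * s * Real.sqrt d with hwdef
  have hw : 0 < w := by rw [hwdef]; positivity
  have hτ' : S.tau Q (ball x (2 * s)) ≤ ENNReal.ofReal (dτ * s ^ m) :=
    hτ.trans (ENNReal.ofReal_le_ofReal (by gcongr))
  -- the three quantities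
  have hDL : ((S.Dm + S.Lm) (ball x (2 * s))).toReal ≤ d * s ^ m :=
    ENNReal.toReal_le_of_le_ofReal (by positivity) ((DL_le_tau S Q _).trans hτ)
  have hN : (S.nu (ball x (2 * s))).toReal ≤ Cν * s ^ m := by
    apply ENNReal.toReal_le_of_le_ofReal (by positivity)
    calc S.nu (ball x (2 * s)) ≤ S.tau Q (ball x (2 * s)) + (Q : ℝ≥0∞) * (2 * volume (ball x (2 * s))) :=
          nu_ball_le hS Q _
      _ ≤ ENNReal.ofReal (d * s ^ m)
            + ENNReal.ofReal (Q : ℝ) * (ENNReal.ofReal 2 * ENNReal.ofReal (ω * (2 * s) ^ m)) := by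
          rw [volume_ball_ofReal x (by positivity : (0 : ℝ) < 2 * s), ENNReal.ofReal_natCast]
          gcongr
          simp
      _ = ENNReal.ofReal (d * s ^ m + Q * (2 * (ω * (2 * s) ^ m))) := by
          rw [← ENNReal.ofReal_mul (by norm_num), ← ENNReal.ofReal_mul (by positivity),
            ← ENNReal.ofReal_add (by positivity) (by positivity)]
      _ ≤ ENNReal.ofReal (Cν * s ^ m) := by
          apply ENNReal.ofReal_le_ofReal
          rw [hCνdef, mul_pow]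
          nlinarith
  have hosc : S.oscE x (2 * s) (Λ / w) ≤ (d + 2 * Λ * Real.sqrt Cν / K₁) * s ^ m := by
    unfold Sys.oscE
    have h1 : Real.sqrt ((S.nu (ball x (2 * s))).toReal * ((S.Dm + S.Lm) (ball x (2 * s))).toReal)
        ≤ Real.sqrt Cν * Real.sqrt d * s ^ m := by
      calc Real.sqrt ((S.nu (ball x (2 * s))).toReal * ((S.Dm + S.Lm) (ball x (2 * s))).toReal)
          ≤ Real.sqrt ((Cν * s ^ m) * (d * s ^ m)) := by
            apply Real.sqrt_le_sqrt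
            exact mul_le_mul hN hDL ENNReal.toReal_nonneg (by positivity)
        _ = Real.sqrt Cν * Real.sqrt d * s ^ m := by
            rw [show (Cν * s ^ m) * (d * s ^ m) = (Cν * d) * (s ^ m) ^ 2 by ring,
              Real.sqrt_mul (by positivity), Real.sqrt_sq hsm.le, Real.sqrt_mul hCν.le]
    calc ((S.Dm + S.Lm) (ball x (2 * s))).toReal + 2 * s * (Λ / w)
          * Real.sqrt ((S.nu (ball x (2 * s))).toReal * ((S.Dm + S.Lm) (ball x (2 * s))).toReal)
        ≤ d * s ^ m + 2 * s * (Λ / w) * (Real.sqrt Cν * Real.sqrt d * s ^ m) := by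
          gcongr
      _ = (d + 2 * Λ * Real.sqrt Cν / K₁) * s ^ m := by
          rw [hwdef]
          field_simp
  have hTC : T * (C * S.oscE x (2 * s) (Λ / w)) ≤ δ' * ω / 4 * s ^ m := by
    have h1 : T * C * d ≤ δ' * ω / 8 := by
      rw [le_div_iff₀ (by positivity)] at hd8
      linarith
    have h2 : T * C * (2 * Λ * Real.sqrt Cν / K₁) = δ' * ω / 8 := by
      rw [hK₁def]
      field_simp
      ring
    calc T * (C * S.oscE x (2 * s) (Λ / w))
        ≤ T * (C * ((d + 2 * Λ * Real.sqrt Cν / K₁) * s ^ m)) := by gcongr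
      _ = (T * C * d + T * C * (2 * Λ * Real.sqrt Cν / K₁)) * s ^ m := by ring
      _ ≤ (δ' * ω / 8 + δ' * ω / 8) * s ^ m := by rw [h2]; gcongr
      _ = δ' * ω / 4 * s ^ m := by ring
  have hvol : ENNReal.ofReal (ω * s ^ m / 2) ≤ S.volS (ball x s) := by
    have h1 : volume (ball x s) ≤ 2 * S.volS (ball x s) :=
      hS.le_volS ((ball_subset_ball (by linarith)).trans hball)
    rw [volume_ball_ofReal x hs] at h1
    rw [ENNReal.ofReal_div_of_pos (by norm_num), ENNReal.ofReal_ofNat]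
    exact ENNReal.div_le_of_le_mul' h1
  have hlt : ENNReal.ofReal (T * (C * S.oscE x (2 * s) (Λ / w))) < S.volS (ball x s) := by
    refine lt_of_lt_of_le ?_ hvol
    rw [ENNReal.ofReal_lt_ofReal_iff (by positivity)]
    have : δ' ≤ 1 := min_le_right _ _
    nlinarith [mul_pos hω hsm]
  obtain ⟨A, hA⟩ := H S hS hCg x s w hs hs1 hw hball hτ' hlt
  refine ⟨A, ?_⟩
  unfold Sys.IsMajority
  have e1 : K * K₁ * s * Real.sqrt d = K * w := by rw [hwdef]; ring
  rw [e1]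
  calc S.volS {y | y ∈ ball x s ∧ ¬ Sys.FibMatch (S.fib y) A (K * w)}
      ≤ ENNReal.ofReal (T * (C * S.oscE x (2 * s) (Λ / w))) := hA
    _ ≤ ENNReal.ofReal (δ * (ω * s ^ m / 2)) := by
        apply ENNReal.ofReal_le_ofReal
        have : δ' ≤ δ := min_le_left _ _
        nlinarith [mul_pos hω hsm]
    _ = ENNReal.ofReal δ * ENNReal.ofReal (ω * s ^ m / 2) := ENNReal.ofReal_mul hδ.le
    _ ≤ ENNReal.ofReal δ * S.volS (ball x s) := by gcongr

/-- zero energy: exact selection. -/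
theorem select_zero (m n Q : ℕ) (hm : 1 ≤ m) (Cg : ℝ) (S : Sys m n) (hS : S.Valid) (hCg : S.Cg ≤ Cg)
    (x : E m) (s : ℝ) (hs : 0 < s) (hs1 : s ≤ 1) (hball : ball x (2 * s) ⊆ S.Ω)
    (hτ : S.tau Q (ball x (2 * s)) = 0) :
    ∃ A : Fin Q → E n, S.volS {y | y ∈ ball x s ∧ ¬ Sys.FibMatch (S.fib y) A 0} = 0 := by
  obtain ⟨Λ, K, T, C, dτ, hΛ, hK, hT, hC, hdτ, H⟩ := select_w m n Q hm Cg
  have hDL : (S.Dm + S.Lm) (ball x (2 * s)) = 0 :=
    le_antisymm ((DL_le_tau S Q _).trans hτ.le) bot_le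
  have hosc : ∀ L, S.oscE x (2 * s) L = 0 := by
    intro L
    unfold Sys.oscE
    rw [hDL]
    simp
  have hpos : 0 < S.volS (ball x s) :=
    volS_ball_pos hS hs ((ball_subset_ball (by linarith)).trans hball)
  have hk : ∀ k : ℕ, ∃ A : Fin Q → E n,
      S.volS {y | y ∈ ball x s ∧ ¬ Sys.FibMatch (S.fib y) A (K * (1 / ((k : ℝ) + 1)))} = 0 := by
    intro k
    obtain ⟨A, hA⟩ := H S hS hCg x s (1 / ((k : ℝ) + 1)) hs hs1 (by positivity) hball
      (by rw [hτ]; exact bot_le) (by rw [hosc]; simpa using hpos)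
    refine ⟨A, ?_⟩
    rw [hosc] at hA
    simpa using hA
  choose Ak hAk using hk
  set Z : Set (E m) :=
    ⋃ k : ℕ, {y | y ∈ ball x s ∧ ¬ Sys.FibMatch (S.fib y) (Ak k) (K * (1 / ((k : ℝ) + 1)))} with hZdef
  have hZ : S.volS Z = 0 := measure_iUnion_null hAk
  obtain ⟨y0, hy0, hy0Z⟩ : ∃ y0 ∈ ball x s, y0 ∉ Z := by
    by_contra hcon
    push Not at hcon
    have h1 : S.volS (ball x s) ≤ S.volS Z := measure_mono hcon
    rw [hZ] at h1
    exact absurd h1 (not_le.2 hpos)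
  have hgood : ∀ y ∈ ball x s, y ∉ Z →
      ∀ k : ℕ, Sys.FibMatch (S.fib y) (Ak k) (K * (1 / ((k : ℝ) + 1))) := by
    intro y hy hyZ k
    by_contra hcon
    exact hyZ (mem_iUnion.2 ⟨k, hy, hcon⟩)
  obtain ⟨L, hL⟩ := Sys.exists_enum (S.fib y0) (hgood y0 hy0 hy0Z 0).card
  refine ⟨L, ?_⟩
  refine measure_mono_null ?_ hZ
  rintro y ⟨hy, hyn⟩
  by_contra hyZ
  apply hyn
  apply Sys.fibMatch_zero_of_forall (c := 2 * K)
  intro k
  have h1 := hgood y hy hyZ k
  have h2 := hgood y0 hy0 hy0Z k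
  have h3 : Sys.FibMatch (S.fib y0) L 0 := by rw [← hL]; exact Sys.fibMatch_self L
  have h4 := h2.matched h3
  have h5 := h1.of_matched h4
  convert h5 using 1
  ring

/-- **the finite selection of AE Lemma 2.6.** -/
theorem select (m n Q : ℕ) (hm : 1 ≤ m) (Cg δ : ℝ) (hδ : 0 < δ) :
    ∃ dsel K : ℝ, 0 < dsel ∧ 0 < K ∧ SelHolds m n Q Cg δ dsel K := by
  obtain ⟨dsel, K, hd, hK, H⟩ := select_pos m n Q hm Cg δ hδ
  refine ⟨dsel, K, hd, hK, ?_⟩
  intro S hS hCg x s d hs hs1 hd0 hdsel hball hτ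
  rcases hd0.eq_or_lt with h0 | h0
  · subst h0
    have hτ0 : S.tau Q (ball x (2 * s)) = 0 := by
      simpa using hτ
    obtain ⟨A, hA⟩ := select_zero m n Q hm Cg S hS hCg x s hs hs1 hball hτ0
    refine ⟨A, ?_⟩
    unfold Sys.IsMajority
    simp only [Real.sqrt_zero, mul_zero]
    rw [hA]
    exact zero_le
  · exact H S hS hCg x s d hs hs1 h0 hdsel hball hτ

end Cf

end Claimed.Agent.R322.Sx
end
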