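/- Packed by merge_tool.py (helper293): 5 modules of Claimed.Agent.R322 in one file, same declarations.
   Old modules, in this order: Sx.Config.DescBasic, Sx.Config.DescFubini, Sx.Config.DescTerm, Sx.Config.DescMoment, Sx.Config.Chain -/
import Claimed.Agent.R322.Pack023
import Claimed.Agent.R322.Pack025

/- ===== packed: Claimed.Agent.R322.Sx.Config.DescBasic ===== -/
section
/-!
# R322 / Sx / Config / DescBasic   (blueprint: helper234)   LEAVES `L-Cf-DescBasic` (all but the last), `L-Cf-DescChain` (`le_PsiE_of_chain`)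

Elementary facts on the descent data `rr`, `Cont`, `uu`, `bb1`, `bb2`, `PsiE`; measurability.

`measurable_measure_ball`: `{p : E m × E m | dist p.2 p.1 < r}` is open, `measurable_measure_prodMk_left`.
`measurableSet_Cont`: finite intersection (`MeasurableSet.iInter`/`Finset`), `measurableSet_le`.
`le_PsiE_of_chain`: if some generation fails take the first one, `j + 1` (`Nat.find`; generation `0` continues): `Cont j ∧ ¬ Cont (j+1)`;
`ofReal` of the sum `≤` sum of the `ofReal`s (`ENNReal.ofReal_add_le`, `ENNReal.ofReal_sum_of_nonneg`), `bb1 i = ofReal ..` for `i ≤ j` (`Cont.mono`),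
`ENNReal.sum_le_tsum`, `ENNReal.le_tsum`, `r_j / 2 ≤ r_j`.  If all generations continue: `ofReal D ≤ PsiE y + ofReal (r_j / 2)` for all `j` and
`r_j → 0` (`ENNReal.le_of_forall_pos_le_add` or `ge_of_tendsto`).
-/

set_option autoImplicit false

namespace Claimed.Agent.R322.Sx.Cf

open MeasureTheory Set Metric
open scoped ENNReal NNReal InnerProductSpace

theorem rr_pos {s : ℝ} (hs : 0 < s) (j : ℕ) : 0 < rr s j := by
  unfold rr; positivity

theorem rr_zero (s : ℝ) : rr s 0 = s := by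
  simp [rr]

theorem rr_succ (s : ℝ) (j : ℕ) : rr s (j + 1) = rr s j / 2 := by
  unfold rr; rw [pow_succ]; field_simp

theorem rr_le {s : ℝ} (hs : 0 < s) (j : ℕ) : rr s j ≤ s := by
  unfold rr
  exact div_le_self hs.le (one_le_pow₀ (by norm_num))

theorem tendsto_rr (s : ℝ) : Filter.Tendsto (rr s) Filter.atTop (nhds 0) := by
  unfold rr
  exact tendsto_const_nhds.div_atTop (tendsto_pow_atTop_atTop_of_one_lt (by norm_num))

variable {m : ℕ}

theorem Cont.mono {τ : Measure (E m)} {dint s : ℝ} {y : E m} {i j : ℕ} (h : Cont τ dint s y j)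
    (hij : i ≤ j) : Cont τ dint s y i :=
  fun k hk => h k (hk.trans hij)

theorem Cont.apply {τ : Measure (E m)} {dint s : ℝ} {y : E m} {j : ℕ} (h : Cont τ dint s y j) :
    τ (ball y (4 * rr s j)) ≤ ENNReal.ofReal (dint * rr s j ^ m) :=
  h j le_rfl

theorem cont_zero {τ : Measure (E m)} {dint s d : ℝ} (hs : 0 < s) (hd : d ≤ dint)
    (hτ : τ univ ≤ ENNReal.ofReal (d * s ^ m)) (y : E m) : Cont τ dint s y 0 := by
  intro i hi
  obtain rfl : i = 0 := by omega
  rw [rr_zero]
  refine (measure_mono (subset_univ _)).trans (hτ.trans (ENNReal.ofReal_le_ofReal ?_))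
  exact mul_le_mul_of_nonneg_right hd (by positivity)

theorem uu_nonneg (τ : Measure (E m)) {s : ℝ} (hs : 0 < s) (y : E m) (j : ℕ) : 0 ≤ uu τ s y j := by
  unfold uu
  have := rr_pos hs j
  positivity

/-- `u_j ≤ d_int` at continuing generations. -/
theorem Cont.uu_le {τ : Measure (E m)} {dint s : ℝ} {y : E m} {j : ℕ} (h : Cont τ dint s y j)
    (hs : 0 < s) (hd : 0 ≤ dint) : uu τ s y j ≤ dint := by
  have hr := rr_pos hs j
  have h1 : τ (ball y (2 * rr s j)) ≤ ENNReal.ofReal (dint * rr s j ^ m) :=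
    (measure_mono (ball_subset_ball (by linarith))).trans h.apply
  have h2 : (τ (ball y (2 * rr s j))).toReal ≤ dint * rr s j ^ m :=
    ENNReal.toReal_le_of_le_ofReal (by positivity) h1
  unfold uu
  rw [div_le_iff₀ (by positivity)]
  exact h2

/-- `u_j ≤ 2^{jm} d`. -/
theorem uu_le_pow {τ : Measure (E m)} {s d : ℝ} (hs : 0 < s) (hd : 0 ≤ d)
    (hτ : τ univ ≤ ENNReal.ofReal (d * s ^ m)) (y : E m) (j : ℕ) : uu τ s y j ≤ 2 ^ (j * m) * d := by
  have hr := rr_pos hs j
  have h1 : τ (ball y (2 * rr s j)) ≤ ENNReal.ofReal (d * s ^ m) :=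
    (measure_mono (subset_univ _)).trans hτ
  have h2 : (τ (ball y (2 * rr s j))).toReal ≤ d * s ^ m :=
    ENNReal.toReal_le_of_le_ofReal (by positivity) h1
  unfold uu
  rw [div_le_iff₀ (by positivity)]
  refine h2.trans (le_of_eq ?_)
  unfold rr
  rw [div_pow, ← pow_mul]
  field_simp

/-- `τ (B_{2 r_j}(y)) = u_j r_j^m` for finite measures. -/
theorem ofReal_uu_mul {τ : Measure (E m)} [IsFiniteMeasure τ] {s : ℝ} (hs : 0 < s) (y : E m) (j : ℕ) :
    τ (ball y (2 * rr s j)) = ENNReal.ofReal (uu τ s y j * rr s j ^ m) := by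
  have hr := rr_pos hs j
  unfold uu
  rw [div_mul_cancel₀ _ (by positivity), ENNReal.ofReal_toReal (measure_ne_top _ _)]

/-- the stopping condition charges `r_{j+1}^m` to `τ`. -/
theorem stop_lt {τ : Measure (E m)} {dint s : ℝ} {y : E m} {j : ℕ} (h : Cont τ dint s y j)
    (h' : ¬ Cont τ dint s y (j + 1)) :
    ENNReal.ofReal (dint * rr s (j + 1) ^ m) < τ (ball y (2 * rr s j)) := by
  unfold Cont at h'
  push Not at h'
  obtain ⟨i, hi, hlt⟩ := h'
  have hij : i = j + 1 := by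
    by_contra hne
    exact absurd (h i (by omega)) (not_le.2 hlt)
  subst hij
  have e : 4 * rr s (j + 1) = 2 * rr s j := by rw [rr_succ]; ring
  rwa [e] at hlt

/-- at most one generation is the last continuing one. -/
theorem stop_unique {τ : Measure (E m)} {dint s : ℝ} {y : E m} {i j : ℕ}
    (hi : Cont τ dint s y i ∧ ¬ Cont τ dint s y (i + 1))
    (hj : Cont τ dint s y j ∧ ¬ Cont τ dint s y (j + 1)) : i = j := by
  rcases lt_trichotomy i j with h | h | h
  · exact absurd (hj.1.mono (by omega)) hi.2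
  · exact h
  · exact absurd (hi.1.mono (by omega)) hj.2

theorem measurable_measure_ball (τ : Measure (E m)) [SFinite τ] (r : ℝ) :
    Measurable fun y : E m => τ (ball y r) := by
  have hs : MeasurableSet {p : E m × E m | dist p.2 p.1 < r} :=
    (isOpen_lt (continuous_snd.dist continuous_fst) continuous_const).measurableSet
  exact measurable_measure_prodMk_left hs

theorem measurableSet_Cont (τ : Measure (E m)) [SFinite τ] (dint s : ℝ) (j : ℕ) :
    MeasurableSet {y : E m | Cont τ dint s y j} := by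
  have e : {y : E m | Cont τ dint s y j}
      = ⋂ i, ⋂ (_ : i ≤ j), {y | τ (ball y (4 * rr s i)) ≤ ENNReal.ofReal (dint * rr s i ^ m)} := by
    ext y
    simp [Cont]
  rw [e]
  exact MeasurableSet.iInter fun i => MeasurableSet.iInter fun _ =>
    measurableSet_le (measurable_measure_ball τ _) measurable_const

theorem measurable_bb1 (τ : Measure (E m)) [SFinite τ] (dint K s : ℝ) (j : ℕ) :
    Measurable fun y : E m => bb1 τ dint K s y j := by
  unfold bb1
  refine Measurable.ite (measurableSet_Cont τ dint s j) ?_ measurable_const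
  unfold uu
  exact ENNReal.measurable_ofReal.comp (measurable_const.mul
    (((measurable_measure_ball τ _).ennreal_toReal.div_const _).sqrt))

theorem measurable_bb2 (τ : Measure (E m)) [SFinite τ] (dint s : ℝ) (j : ℕ) :
    Measurable fun y : E m => bb2 τ dint s y j := by
  unfold bb2
  exact Measurable.ite ((measurableSet_Cont τ dint s j).inter (measurableSet_Cont τ dint s (j + 1)).compl)
    measurable_const measurable_const

theorem measurable_PsiE (τ : Measure (E m)) [SFinite τ] (dint K s d : ℝ) :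
    Measurable (PsiE τ dint K s d) := by
  unfold PsiE
  exact measurable_const.add ((Measurable.tsum fun j => measurable_bb1 τ dint K s j).add
    (Measurable.tsum fun j => measurable_bb2 τ dint s j))

/-- a number controlled along the whole branch is controlled by the majorant. -/
theorem le_PsiE_of_chain (τ : Measure (E m)) (dint K s d D : ℝ) (hs : 0 < s) (hK : 0 ≤ K) (y : E m)
    (h0 : Cont τ dint s y 0)
    (h : ∀ j, Cont τ dint s y j →
      D ≤ K * s * Real.sqrt d + (∑ i ∈ Finset.range (j + 1), 2 * K * rr s i * Real.sqrt (uu τ s y i))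
        + rr s j / 2) :
    ENNReal.ofReal D ≤ PsiE τ dint K s d y := by
  have hterm : ∀ i, 0 ≤ 2 * K * rr s i * Real.sqrt (uu τ s y i) := fun i => by
    have := rr_pos hs i
    positivity
  have hsum : ∀ j, Cont τ dint s y j →
      ENNReal.ofReal (∑ i ∈ Finset.range (j + 1), 2 * K * rr s i * Real.sqrt (uu τ s y i))
        ≤ ∑' i, bb1 τ dint K s y i := by
    intro j hj
    rw [ENNReal.ofReal_sum_of_nonneg fun i _ => hterm i]
    refine le_trans (le_of_eq ?_) (ENNReal.sum_le_tsum (Finset.range (j + 1)))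
    refine Finset.sum_congr rfl fun i hi => ?_
    unfold bb1
    rw [if_pos (hj.mono (by have := Finset.mem_range.1 hi; omega))]
  have hstep : ∀ j, Cont τ dint s y j → ENNReal.ofReal D ≤ ENNReal.ofReal (K * s * Real.sqrt d)
      + (∑' i, bb1 τ dint K s y i) + ENNReal.ofReal (rr s j / 2) := by
    intro j hj
    refine (ENNReal.ofReal_le_ofReal (h j hj)).trans ?_
    refine ENNReal.ofReal_add_le.trans (add_le_add_left ?_ _)
    exact ENNReal.ofReal_add_le.trans (add_le_add_right (hsum j hj) _)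
  unfold PsiE
  by_cases hall : ∀ j, Cont τ dint s y j
  · have hlim : Filter.Tendsto (fun j => ENNReal.ofReal (K * s * Real.sqrt d)
        + (∑' i, bb1 τ dint K s y i) + ENNReal.ofReal (rr s j / 2)) Filter.atTop
        (nhds (ENNReal.ofReal (K * s * Real.sqrt d) + (∑' i, bb1 τ dint K s y i) + 0)) := by
      refine tendsto_const_nhds.add ?_
      have h1 : Filter.Tendsto (fun j => rr s j / 2) Filter.atTop (nhds 0) := by
        simpa using (tendsto_rr s).div_const 2
      simpa using ENNReal.tendsto_ofReal h1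
    have h2 := ge_of_tendsto' hlim fun j => hstep j (hall j)
    rw [add_zero] at h2
    refine h2.trans ?_
    exact add_le_add_right (le_add_of_nonneg_right zero_le) _
  · push Not at hall
    classical
    have hj1 := Nat.find_spec hall
    have hmin := fun k => Nat.find_min hall (m := k)
    obtain ⟨j, hj⟩ : ∃ j, Nat.find hall = j + 1 := by
      refine Nat.exists_eq_succ_of_ne_zero (n := Nat.find hall) ?_
      intro h00
      rw [h00] at hj1
      exact hj1 h0
    rw [hj] at hj1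
    have hcj : Cont τ dint s y j := by
      have := hmin j (by omega)
      exact not_not.1 this
    refine (hstep j hcj).trans ?_
    rw [add_assoc]
    refine add_le_add_right (add_le_add_right ?_ _) _
    refine le_trans ?_ (ENNReal.le_tsum j)
    unfold bb2
    rw [if_pos ⟨hcj, hj1⟩]
    exact ENNReal.ofReal_le_ofReal (by have := rr_pos hs j; linarith)

end Claimed.Agent.R322.Sx.Cf
end

/- ===== packed: Claimed.Agent.R322.Sx.Config.DescFubini ===== -/
section
/-!
# R322 / Sx / Config / DescFubini   (blueprint: helper234)   LEAVES `L-Cf-Fubini` (`fubini_ball`), `L-Cf-Mink` (`lintegral_rpow_tsum_le`)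

Two general tools.

`fubini_ball` replaces the bounded overlap of the dyadic covering:
`∫⁻_{y ∈ G} τ (B_ρ(y)) dν = ∫⁻_y ∫⁻_z 1_G(y) 1[dist z y < ρ] dτ dν = ∫⁻_z ν (G ∩ B_ρ(z)) dτ(z)` (`lintegral_lintegral_swap`, the integrand is the
indicator of a measurable subset of the product).  If `G ∩ B_ρ(z)` contains a point `y₀`, then `B_ρ(z) ⊆ B_{2ρ}(y₀)`, so `ν (G ∩ B_ρ(z)) ≤ c`.

`lintegral_rpow_tsum_le` (Minkowski for series): for finite sums by induction from `ENNReal.lintegral_Lp_add_le`; then monotone convergence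
(`lintegral_iSup`/`lintegral_tendsto_of_tendsto_of_monotone`, `ENNReal.tsum_eq_iSup_nat`, continuity and monotonicity of `x ↦ x^p`, `x ↦ x^(1/p)`).
-/

set_option autoImplicit false

namespace Claimed.Agent.R322.Sx.Cf

open MeasureTheory Set Metric
open scoped ENNReal NNReal InnerProductSpace

theorem fubini_ball {m : ℕ} (τ ν : Measure (E m)) [SFinite τ] [SFinite ν] (G : Set (E m))
    (hG : MeasurableSet G) (ρ : ℝ) (c : ℝ≥0∞) (h : ∀ y ∈ G, ν (ball y (2 * ρ)) ≤ c) :
    ∫⁻ y in G, τ (ball y ρ) ∂ν ≤ c * τ univ := by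
  set T : Set (E m × E m) := {p | p.1 ∈ G ∧ dist p.2 p.1 < ρ} with hTdef
  have hT : MeasurableSet T :=
    (measurable_fst hG).inter
      (isOpen_lt (continuous_snd.dist continuous_fst) continuous_const).measurableSet
  have hmeas : Measurable (T.indicator (1 : E m × E m → ℝ≥0∞)) := measurable_one.indicator hT
  calc ∫⁻ y in G, τ (ball y ρ) ∂ν
      = ∫⁻ y, ∫⁻ z, T.indicator (1 : E m × E m → ℝ≥0∞) (y, z) ∂τ ∂ν := by
        rw [← lintegral_indicator hG]
        refine lintegral_congr fun y => ?_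
        by_cases hy : y ∈ G
        · rw [indicator_of_mem hy, ← lintegral_indicator_one measurableSet_ball]
          refine lintegral_congr fun z => ?_
          by_cases hz : z ∈ ball y ρ
          · rw [indicator_of_mem hz, indicator_of_mem (show (y, z) ∈ T from ⟨hy, hz⟩)]
            rfl
          · rw [indicator_of_notMem hz, indicator_of_notMem (fun hh : (y, z) ∈ T => hz hh.2)]
        · rw [indicator_of_notMem hy]
          symm
          have : ∀ z, T.indicator (1 : E m × E m → ℝ≥0∞) (y, z) = 0 := fun z =>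
            indicator_of_notMem (fun hh : (y, z) ∈ T => hy hh.1) _
          simp only [this, lintegral_zero]
    _ = ∫⁻ z, ∫⁻ y, T.indicator (1 : E m × E m → ℝ≥0∞) (y, z) ∂ν ∂τ :=
        lintegral_lintegral_swap hmeas.aemeasurable
    _ ≤ ∫⁻ _z, c ∂τ := by
        refine lintegral_mono fun z => ?_
        have hS : MeasurableSet {y : E m | (y, z) ∈ T} := by
          exact (measurable_id.prodMk measurable_const) hT
        have e : ∫⁻ y, T.indicator (1 : E m × E m → ℝ≥0∞) (y, z) ∂ν = ν {y : E m | (y, z) ∈ T} := by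
          rw [← lintegral_indicator_one hS]
          rfl
        rw [e]
        rcases Set.eq_empty_or_nonempty {y : E m | (y, z) ∈ T} with h0 | ⟨y0, hy0⟩
        · rw [h0, measure_empty]
          exact zero_le
        · refine (measure_mono ?_).trans (h y0 hy0.1)
          intro y hy
          have h1 : dist z y < ρ := hy.2
          have h2 : dist z y0 < ρ := hy0.2
          rw [mem_ball]
          calc dist y y0 ≤ dist y z + dist z y0 := dist_triangle _ _ _
            _ < 2 * ρ := by rw [dist_comm y z]; linarith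
    _ = c * τ univ := lintegral_const c

theorem lintegral_rpow_sum_le {α : Type*} [MeasurableSpace α] (μ : Measure α) (f : ℕ → α → ℝ≥0∞)
    (hf : ∀ j, AEMeasurable (f j) μ) (p : ℝ) (hp : 1 ≤ p) (n : ℕ) :
    (∫⁻ a, (∑ j ∈ Finset.range n, f j a) ^ p ∂μ) ^ (1 / p)
      ≤ ∑ j ∈ Finset.range n, (∫⁻ a, f j a ^ p ∂μ) ^ (1 / p) := by
  have hp0 : 0 < p := by linarith
  induction n with
  | zero => simp [ENNReal.zero_rpow_of_pos hp0, hp0]
  | succ n ih =>
    simp only [Finset.sum_range_succ]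
    have h1 := ENNReal.lintegral_Lp_add_le (μ := μ) (f := fun a => ∑ j ∈ Finset.range n, f j a)
      (g := f n) (Finset.aemeasurable_fun_sum _ fun j _ => hf j) (hf n) hp
    exact h1.trans (add_le_add_left ih _)

theorem lintegral_rpow_tsum_le {α : Type*} [MeasurableSpace α] (μ : Measure α) (f : ℕ → α → ℝ≥0∞)
    (hf : ∀ j, AEMeasurable (f j) μ) (p : ℝ) (hp : 1 ≤ p) :
    (∫⁻ a, (∑' j, f j a) ^ p ∂μ) ^ (1 / p) ≤ ∑' j, (∫⁻ a, f j a ^ p ∂μ) ^ (1 / p) := by
  have hp0 : 0 < p := by linarith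
  have hp1 : 0 < 1 / p := by positivity
  have e1 : ∀ a, (∑' j, f j a) ^ p = ⨆ n, (∑ j ∈ Finset.range n, f j a) ^ p := by
    intro a
    rw [ENNReal.tsum_eq_iSup_nat]
    exact (ENNReal.orderIsoRpow p hp0).map_iSup _
  have e2 : ∫⁻ a, (∑' j, f j a) ^ p ∂μ = ⨆ n, ∫⁻ a, (∑ j ∈ Finset.range n, f j a) ^ p ∂μ := by
    simp only [e1]
    apply lintegral_iSup'
    · intro n
      exact (Finset.aemeasurable_fun_sum _ fun j _ => hf j).pow_const p
    · refine Filter.Eventually.of_forall fun a n n' hnn => ?_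
      exact ENNReal.rpow_le_rpow (Finset.sum_le_sum_of_subset (Finset.range_mono hnn)) hp0.le
  rw [e2]
  have e3 : (⨆ n, ∫⁻ a, (∑ j ∈ Finset.range n, f j a) ^ p ∂μ) ^ (1 / p)
      = ⨆ n, (∫⁻ a, (∑ j ∈ Finset.range n, f j a) ^ p ∂μ) ^ (1 / p) :=
    (ENNReal.orderIsoRpow (1 / p) hp1).map_iSup _
  rw [e3]
  exact iSup_le fun n => (lintegral_rpow_sum_le μ f hf p hp n).trans (ENNReal.sum_le_tsum _)

end Claimed.Agent.R322.Sx.Cf
end

/- ===== packed: Claimed.Agent.R322.Sx.Config.DescTerm ===== -/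
section
/-!
# R322 / Sx / Config / DescTerm   (blueprint: helper234)   LEAVES `L-Cf-Energy` (`cont_energy`), `L-Cf-Term1` (`bb1_moment`), `L-Cf-Term2` (`bb2_moment`)

`L^p(ν)` bounds of the single increments, AE (2.18)-(2.19) interpolated.  `θ = thetaP m p = 2^{-(1 - m (1/2 - 1/p))} ∈ (0, 1)`.
Standing hypotheses: `τ univ ≤ d s^m`, `0 ≤ d ≤ dint`, and `NuBound`: a ball `B_{4r}(y)` (`y ∈ B_s(x)`, `r ≤ s`) of normalised energy `≤ dint`
has `ν`-mass `≤ Cν r^m`.

`cont_energy`: `fubini_ball` for `ν.restrict (ball x s)` (finite: `NuBound` at `y = x`, `r = s`), `G = ball x s ∩ {Cont j}` (`measurableSet_Cont`;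
`τ` is finite), `ρ = 2 r_j`, `c = ofReal (Cν r_j^m)`.

`bb1_moment`: on `{Cont j}`: `bb1^p = ofReal ((2 K r_j)^p u_j^{p/2})`, `u_j^{p/2} ≤ u_j (2^{jm} d)^{(p-2)/2}` (`uu_le_pow`), and
`∫⁻_{B_s ∩ Cont j} ofReal u_j dν = r_j^{-m} ∫⁻ τ (B_{2 r_j}(y)) dν ≤ Cν τ univ ≤ Cν d s^m`.  Hence
`∫⁻ bb1^p ≤ (2K)^p Cν s^m s^p d^{p/2} 2^{-j (p - m (p-2)/2)}` and `(θ^j)^p = 2^{-j (p - m (p/2 - 1))}`.   `C = 2 K Cν^{1/p}`.

`bb2_moment`: `E_j = B_s ∩ {Cont j ∧ ¬ Cont (j+1)}`.  On `E_j`, `stop_lt`: `1 ≤ τ (B_{2 r_j}(y)) / (dint r_{j+1}^m)`; so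
`ν E_j ≤ Cν r_j^m d s^m / (dint r_{j+1}^m) = 2^m Cν d s^m / dint`.  If `E_j ≠ ∅` then also `dint < 2^{(j+1) m} d`, so
`d = d^{p/2} d^{-(p-2)/2} ≤ d^{p/2} (2^{(j+1)m} / dint)^{(p-2)/2}`.  Hence
`∫⁻ bb2^p = r_j^p ν E_j ≤ s^m (s √d)^p 2^{-j (p - m (p-2)/2)} · Cν 2^m 2^{m (p-2)/2} dint^{-p/2}`.
-/

set_option autoImplicit false

namespace Claimed.Agent.R322.Sx.Cf

open MeasureTheory Set Metric
open scoped ENNReal NNReal InnerProductSpace

/-- decay rate of the increments in `L^p`. -/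
noncomputable def thetaP (m : ℕ) (p : ℝ) : ℝ := (2 : ℝ) ^ (-(1 - (m : ℝ) * (1 / 2 - 1 / p)))

theorem thetaP_pos (m : ℕ) (p : ℝ) : 0 < thetaP m p := by
  unfold thetaP; positivity

theorem thetaP_lt_one {m : ℕ} {p : ℝ} (hp : AdmP m p) : thetaP m p < 1 := by
  unfold thetaP
  apply Real.rpow_lt_one_of_one_lt_of_neg (by norm_num)
  have := hp.2
  linarith

/-- balls of small normalised energy have bounded normalised mass. -/
def NuBound {m : ℕ} (τ ν : Measure (E m)) (x : E m) (s dint Cν : ℝ) : Prop :=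
  ∀ (y : E m) (r : ℝ), 0 < r → r ≤ s → y ∈ ball x s →
    τ (ball y (4 * r)) ≤ ENNReal.ofReal (dint * r ^ m) → ν (ball y (4 * r)) ≤ ENNReal.ofReal (Cν * r ^ m)

/-- the energy integral over the continuing set. -/
theorem cont_energy {m : ℕ} (τ ν : Measure (E m)) (x : E m) (s d dint Cν : ℝ) (hs : 0 < s)
    (hd : d ≤ dint) (hτ : τ univ ≤ ENNReal.ofReal (d * s ^ m)) (hν : NuBound τ ν x s dint Cν) (j : ℕ) :
    ∫⁻ y in ball x s ∩ {y | Cont τ dint s y j}, τ (ball y (2 * rr s j)) ∂ν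
      ≤ ENNReal.ofReal (Cν * rr s j ^ m) * τ univ := by
  have : IsFiniteMeasure τ := ⟨lt_of_le_of_lt hτ ENNReal.ofReal_lt_top⟩
  have hfin : ν (ball x s) < ⊤ := by
    have h1 : ν (ball x (4 * s)) ≤ ENNReal.ofReal (Cν * s ^ m) := by
      apply hν x s hs le_rfl (mem_ball_self hs)
      calc τ (ball x (4*s)) ≤ τ univ := measure_mono (subset_univ _)
        _ ≤ ENNReal.ofReal (d * s^m) := hτ
        _ ≤ ENNReal.ofReal (dint * s^m) := ENNReal.ofReal_le_ofReal (by gcongr)
    calc ν (ball x s) ≤ ν (ball x (4*s)) := measure_mono (ball_subset_ball (by linarith))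
      _ ≤ _ := h1
      _ < ⊤ := ENNReal.ofReal_lt_top
  have : IsFiniteMeasure (ν.restrict (ball x s)) :=
    ⟨by rw [Measure.restrict_apply_univ]; exact hfin⟩
  have hG : MeasurableSet (ball x s ∩ {y | Cont τ dint s y j}) :=
    measurableSet_ball.inter (measurableSet_Cont τ dint s j)
  have key := fubini_ball τ (ν.restrict (ball x s)) (ball x s ∩ {y | Cont τ dint s y j}) hG
    (2 * rr s j) (ENNReal.ofReal (Cν * rr s j ^ m)) ?_
  · rw [Measure.restrict_restrict hG] at key
    have hset : ball x s ∩ {y | Cont τ dint s y j} ∩ ball x s = ball x s ∩ {y | Cont τ dint s y j} := by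
      ext y; simp only [mem_inter_iff]; tauto
    rw [hset] at key
    exact key
  · intro y hy
    have h4 : 2 * (2 * rr s j) = 4 * rr s j := by ring
    rw [h4]
    calc (ν.restrict (ball x s)) (ball y (4 * rr s j)) ≤ ν (ball y (4 * rr s j)) :=
          Measure.restrict_apply_le _ _
      _ ≤ _ := hν y (rr s j) (rr_pos hs j) (rr_le hs j) hy.1 (Cont.apply hy.2)

theorem thetaP_pow_rpow (m j : ℕ) (p : ℝ) (hp : p ≠ 0) :
    (thetaP m p ^ j) ^ p = (2 : ℝ) ^ (-(j : ℝ) * p) * (2 : ℝ) ^ ((j : ℝ) * m * ((p - 2) / 2)) := by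
  unfold thetaP
  rw [← Real.rpow_natCast, ← Real.rpow_mul (by positivity), ← Real.rpow_mul (by positivity),
    ← Real.rpow_add (by norm_num)]
  congr 1
  field_simp
  ring

theorem rr_rpow {s : ℝ} (hs : 0 < s) (j : ℕ) (p : ℝ) :
    rr s j ^ p = s ^ p * (2 : ℝ) ^ (-(j : ℝ) * p) := by
  unfold rr
  rw [Real.div_rpow hs.le (by positivity), ← Real.rpow_natCast, ← Real.rpow_mul (by norm_num),
    neg_mul, Real.rpow_neg (by norm_num)]
  rfl

theorem sqrt_rpow_split {d : ℝ} (hd : 0 ≤ d) {p : ℝ} (hp : 2 < p) :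
    Real.sqrt d ^ p = d ^ ((p - 2) / 2) * d := by
  rw [Real.sqrt_eq_rpow, ← Real.rpow_mul hd, ← Real.rpow_add_one' hd (by linarith)]
  congr 1
  ring

theorem target_expand (m j : ℕ) {C s d p : ℝ} (hC : 0 ≤ C) (hs : 0 < s) (hd : 0 ≤ d) (hp : 2 < p) :
    (C * s * Real.sqrt d * thetaP m p ^ j) ^ p
      = C ^ p * s ^ p * (d ^ ((p - 2) / 2) * d)
        * ((2 : ℝ) ^ (-(j : ℝ) * p) * (2 : ℝ) ^ ((j : ℝ) * m * ((p - 2) / 2))) := by
  have hθ := thetaP_pos m p
  rw [Real.mul_rpow (by positivity) (by positivity), Real.mul_rpow (by positivity) (by positivity),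
    Real.mul_rpow hC hs.le, thetaP_pow_rpow m j p (by linarith), sqrt_rpow_split hd hp]

/-- integrating a function dominated by `A τ (B_{2 r_j}(y))` on the continuing set and vanishing elsewhere. -/
theorem lintegral_le_of_cont {m : ℕ} (τ ν : Measure (E m)) (x : E m) (s d dint Cν : ℝ) (hs : 0 < s)
    (hd : d ≤ dint) (hτ : τ univ ≤ ENNReal.ofReal (d * s ^ m)) (hν : NuBound τ ν x s dint Cν) (j : ℕ)
    (f : E m → ℝ≥0∞) (A : ℝ) (hA : 0 ≤ A) (hCν : 0 ≤ Cν)
    (h1 : ∀ y, Cont τ dint s y j → f y ≤ ENNReal.ofReal A * τ (ball y (2 * rr s j)))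
    (h0 : ∀ y, ¬ Cont τ dint s y j → f y = 0) :
    ∫⁻ y in ball x s, f y ∂ν ≤ ENNReal.ofReal (A * (Cν * rr s j ^ m) * (d * s ^ m)) := by
  have : IsFiniteMeasure τ := ⟨lt_of_le_of_lt hτ ENNReal.ofReal_lt_top⟩
  have hr := rr_pos hs j
  have hmeas := measurableSet_Cont τ dint s j
  calc ∫⁻ y in ball x s, f y ∂ν
      ≤ ∫⁻ y in ball x s, ({y | Cont τ dint s y j}).indicator
          (fun y => ENNReal.ofReal A * τ (ball y (2 * rr s j))) y ∂ν := by
        apply lintegral_mono
        intro y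
        by_cases hy : Cont τ dint s y j
        · rw [indicator_of_mem (show y ∈ {y | Cont τ dint s y j} from hy)]
          exact h1 y hy
        · rw [h0 y hy]; exact bot_le
    _ = ∫⁻ y in ball x s ∩ {y | Cont τ dint s y j}, ENNReal.ofReal A * τ (ball y (2 * rr s j)) ∂ν := by
        rw [lintegral_indicator hmeas, Measure.restrict_restrict hmeas, inter_comm]
    _ = ENNReal.ofReal A * ∫⁻ y in ball x s ∩ {y | Cont τ dint s y j}, τ (ball y (2 * rr s j)) ∂ν :=
        lintegral_const_mul' _ _ ENNReal.ofReal_ne_top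
    _ ≤ ENNReal.ofReal A * (ENNReal.ofReal (Cν * rr s j ^ m) * ENNReal.ofReal (d * s ^ m)) := by
        gcongr
        exact (cont_energy τ ν x s d dint Cν hs hd hτ hν j).trans (by gcongr)
    _ = ENNReal.ofReal (A * (Cν * rr s j ^ m) * (d * s ^ m)) := by
        rw [← mul_assoc, ← ENNReal.ofReal_mul hA, ← ENNReal.ofReal_mul (by positivity)]

theorem bb1_moment (m : ℕ) (hm : 1 ≤ m) (dint K Cν p : ℝ) (hd : 0 < dint) (hK : 0 < K) (hCν : 0 < Cν)
    (hp : AdmP m p) :
    ∃ C : ℝ, 0 ≤ C ∧ ∀ (τ ν : Measure (E m)) (x : E m) (s d : ℝ), 0 < s → 0 ≤ d → d ≤ dint →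
      τ univ ≤ ENNReal.ofReal (d * s ^ m) → NuBound τ ν x s dint Cν → ∀ j : ℕ,
      ∫⁻ y in ball x s, bb1 τ dint K s y j ^ p ∂ν
        ≤ ENNReal.ofReal (s ^ m * (C * s * Real.sqrt d * thetaP m p ^ j) ^ p) := by
  have hp2 : 2 < p := hp.1
  refine ⟨2 * K * Cν ^ (1 / p), by positivity, ?_⟩
  intro τ ν x s d hs hd0 hdd hτ hν j
  have : IsFiniteMeasure τ := ⟨lt_of_le_of_lt hτ ENNReal.ofReal_lt_top⟩
  have hr := rr_pos hs j
  set q : ℝ := (p - 2) / 2 with hq
  have hq0 : 0 < q := by rw [hq]; linarith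
  set A : ℝ := (2 * K * rr s j) ^ p * ((2 : ℝ) ^ (j * m) * d) ^ q / rr s j ^ m with hA
  have hA0 : 0 ≤ A := by rw [hA]; positivity
  refine (lintegral_le_of_cont τ ν x s d dint Cν hs hdd hτ hν j _ A hA0 hCν.le ?_ ?_).trans ?_
  · intro y hy
    have hu := uu_nonneg τ hs y j
    have hu2 := uu_le_pow hs hd0 hτ y j
    rw [bb1, if_pos hy, ENNReal.ofReal_rpow_of_nonneg (by positivity) (by linarith),
      ofReal_uu_mul hs y j, ← ENNReal.ofReal_mul hA0]
    apply ENNReal.ofReal_le_ofReal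
    rw [Real.mul_rpow (by positivity) (by positivity), sqrt_rpow_split hu hp2, hA]
    have h3 : uu τ s y j ^ q ≤ ((2 : ℝ) ^ (j * m) * d) ^ q := Real.rpow_le_rpow hu hu2 hq0.le
    calc (2 * K * rr s j) ^ p * (uu τ s y j ^ q * uu τ s y j)
        ≤ (2 * K * rr s j) ^ p * (((2 : ℝ) ^ (j * m) * d) ^ q * uu τ s y j) := by gcongr
      _ = _ := by field_simp
  · intro y hy
    rw [bb1, if_neg hy, ENNReal.zero_rpow_of_pos (by linarith)]
  · apply ENNReal.ofReal_le_ofReal
    apply le_of_eq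
    have e1 : (2 * K * rr s j) ^ p = (2 * K) ^ p * (s ^ p * (2 : ℝ) ^ (-(j : ℝ) * p)) := by
      rw [Real.mul_rpow (by positivity) hr.le, rr_rpow hs]
    have e2 : ((2 : ℝ) ^ (j * m) * d) ^ q = (2 : ℝ) ^ ((j : ℝ) * m * q) * d ^ q := by
      rw [Real.mul_rpow (by positivity) hd0, ← Real.rpow_natCast 2 (j * m),
        ← Real.rpow_mul (by norm_num)]
      push_cast
      rfl
    have e3 : (2 * K * Cν ^ (1 / p)) ^ p = (2 * K) ^ p * Cν := by
      rw [Real.mul_rpow (by positivity) (by positivity), ← Real.rpow_mul hCν.le,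
        one_div_mul_cancel (by linarith), Real.rpow_one]
    rw [target_expand m j (by positivity) hs hd0 hp2, ← hq, hA, e1, e2, e3]
    field_simp

theorem bb2_moment (m : ℕ) (hm : 1 ≤ m) (dint Cν p : ℝ) (hd : 0 < dint) (hCν : 0 < Cν)
    (hp : AdmP m p) :
    ∃ C : ℝ, 0 ≤ C ∧ ∀ (τ ν : Measure (E m)) (x : E m) (s d : ℝ), 0 < s → 0 ≤ d → d ≤ dint →
      τ univ ≤ ENNReal.ofReal (d * s ^ m) → NuBound τ ν x s dint Cν → ∀ j : ℕ,
      ∫⁻ y in ball x s, bb2 τ dint s y j ^ p ∂ν
        ≤ ENNReal.ofReal (s ^ m * (C * s * Real.sqrt d * thetaP m p ^ j) ^ p) := by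
  have hp2 : 2 < p := hp.1
  set q : ℝ := (p - 2) / 2 with hq
  have hq0 : 0 < q := by rw [hq]; linarith
  refine ⟨(Cν * 2 ^ m * (2 : ℝ) ^ ((m : ℝ) * q) / (dint ^ q * dint)) ^ (1 / p), by positivity, ?_⟩
  intro τ ν x s d hs hd0 hdd hτ hν j
  have : IsFiniteMeasure τ := ⟨lt_of_le_of_lt hτ ENNReal.ofReal_lt_top⟩
  have hr := rr_pos hs j
  have hr1 := rr_pos hs (j + 1)
  by_cases hE : ∃ y, Cont τ dint s y j ∧ ¬ Cont τ dint s y (j + 1)
  swap
  · have h0 : ∀ y, bb2 τ dint s y j ^ p = 0 := by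
      intro y
      rw [bb2, if_neg (fun h => hE ⟨y, h⟩), ENNReal.zero_rpow_of_pos (by linarith)]
    simp only [h0, lintegral_zero]
    exact bot_le
  obtain ⟨y0, hy0, hy0'⟩ := hE
  have hfact : dint * rr s (j + 1) ^ m < d * s ^ m := by
    have h1 : ENNReal.ofReal (dint * rr s (j + 1) ^ m) < ENNReal.ofReal (d * s ^ m) :=
      lt_of_lt_of_le (stop_lt hy0 hy0') ((measure_mono (subset_univ _)).trans hτ)
    exact (ENNReal.ofReal_lt_ofReal_iff_of_nonneg (by positivity)).1 h1
  set A : ℝ := rr s j ^ p / (dint * rr s (j + 1) ^ m) with hA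
  have hA0 : 0 ≤ A := by rw [hA]; positivity
  refine (lintegral_le_of_cont τ ν x s d dint Cν hs hdd hτ hν j _ A hA0 hCν.le ?_ ?_).trans ?_
  · intro y hy
    by_cases hy' : Cont τ dint s y (j + 1)
    · rw [bb2, if_neg (fun h => h.2 hy'), ENNReal.zero_rpow_of_pos (by linarith)]
      exact bot_le
    · rw [bb2, if_pos ⟨hy, hy'⟩, ENNReal.ofReal_rpow_of_nonneg hr.le (by linarith)]
      calc ENNReal.ofReal (rr s j ^ p)
          = ENNReal.ofReal A * ENNReal.ofReal (dint * rr s (j + 1) ^ m) := by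
            rw [← ENNReal.ofReal_mul hA0, hA]
            congr 1
            field_simp
        _ ≤ ENNReal.ofReal A * τ (ball y (2 * rr s j)) := by
            gcongr
            exact (stop_lt hy hy').le
  · intro y hy
    rw [bb2, if_neg (fun h => hy h.1), ENNReal.zero_rpow_of_pos (by linarith)]
  · apply ENNReal.ofReal_le_ofReal
    have e3 : ((Cν * 2 ^ m * (2 : ℝ) ^ ((m : ℝ) * q) / (dint ^ q * dint)) ^ (1 / p)) ^ p
        = Cν * 2 ^ m * (2 : ℝ) ^ ((m : ℝ) * q) / (dint ^ q * dint) := by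
      rw [← Real.rpow_mul (by positivity), one_div_mul_cancel (by linarith), Real.rpow_one]
    rw [target_expand m j (by positivity) hs hd0 hp2, ← hq, hA, e3, rr_rpow hs, rr_succ]
    -- `w = d 2^{(j+1) m} / dint ≥ 1`
    have hw : 1 ≤ d * (2 : ℝ) ^ ((j : ℝ) * m + m) / dint := by
      rw [one_le_div hd]
      have h2 : rr s (j + 1) ^ m * (2 : ℝ) ^ ((j : ℝ) * m + m) = s ^ m := by
        have : (2 : ℝ) ^ ((j : ℝ) * m + m) = (2 ^ (j + 1)) ^ m := by
          rw [← pow_mul, ← Real.rpow_natCast]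
          congr 1
          push_cast
          ring
        rw [this, ← mul_pow]
        congr 1
        unfold rr
        field_simp
      have h3 : 0 < (2 : ℝ) ^ ((j : ℝ) * m + m) := by positivity
      have h4 : 0 < rr s (j + 1) ^ m := by positivity
      rw [← h2] at hfact
      have : dint * rr s (j + 1) ^ m < d * (2 : ℝ) ^ ((j : ℝ) * m + m) * rr s (j + 1) ^ m := by
        linarith
      exact (lt_of_mul_lt_mul_right this h4.le).le
    have hwq : 1 ≤ (d * (2 : ℝ) ^ ((j : ℝ) * m + m) / dint) ^ q := Real.one_le_rpow hw hq0.le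
    have hwq' : (d * (2 : ℝ) ^ ((j : ℝ) * m + m) / dint) ^ q
        = d ^ q * ((2 : ℝ) ^ ((j : ℝ) * m * q) * (2 : ℝ) ^ ((m : ℝ) * q)) / dint ^ q := by
      rw [Real.div_rpow (by positivity) hd.le, Real.mul_rpow hd0 (by positivity),
        ← Real.rpow_mul (by norm_num), ← Real.rpow_add (by norm_num)]
      congr 3
      ring
    rw [hwq'] at hwq
    have hbase : 0 ≤ s ^ m * (Cν * 2 ^ m) * s ^ p * (2 : ℝ) ^ (-(j : ℝ) * p) * d / dint := by
      positivity
    calc s ^ p * (2 : ℝ) ^ (-(j : ℝ) * p) / (dint * (rr s j / 2) ^ m) * (Cν * rr s j ^ m) * (d * s ^ m)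
        = s ^ m * (Cν * 2 ^ m) * s ^ p * (2 : ℝ) ^ (-(j : ℝ) * p) * d / dint * 1 := by
          rw [div_pow]
          field_simp
      _ ≤ s ^ m * (Cν * 2 ^ m) * s ^ p * (2 : ℝ) ^ (-(j : ℝ) * p) * d / dint
            * (d ^ q * ((2 : ℝ) ^ ((j : ℝ) * m * q) * (2 : ℝ) ^ ((m : ℝ) * q)) / dint ^ q) := by
          gcongr
      _ = _ := by
          field_simp

end Claimed.Agent.R322.Sx.Cf
end

/- ===== packed: Claimed.Agent.R322.Sx.Config.DescMoment ===== -/
section
/-!
# R322 / Sx / Config / DescMoment   (blueprint: helper234)   LEAVES `L-Cf-SeriesLp` (`series_Lp`), `L-Cf-DescMoment` (`desc_moment`)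

`L^p(ν)` bound of the majorant, AE (2.15).

`series_Lp`: `(∫⁻ (Σ' f_j)^p)^{1/p} ≤ Σ' (∫⁻ f_j^p)^{1/p} ≤ Σ' ofReal (M^{1/p} a θ^j) = ofReal (M^{1/p} a / (1 - θ))`; raise to the power `p`
(`ENNReal.rpow_le_rpow`, `ENNReal.ofReal_rpow_of_nonneg`, `Real.mul_rpow`, `← Real.rpow_mul`).

`desc_moment`: `PsiE = c₀ + (Σ' bb1 + Σ' bb2)`; `(a + b + c)^p ≤ 3^{p-1} (a^p + b^p + c^p)` (twice `ENNReal.rpow_add_le_mul_rpow_add_rpow`, or
`lintegral_rpow_tsum_le` for the three-term family).  `∫⁻_{B_s} c₀^p dν = (K s √d)^p ν (B_s) ≤ (K s √d)^p Cν s^m` (`NuBound` at `y = x`, `r = s`).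
`series_Lp` for `bb1`, `bb2` with `M = s^m`, `a = C_i s √d`, `θ = thetaP m p`; measurability: `measurable_bb1`, `measurable_bb2`
(`τ` is finite because `τ univ ≤ ofReal _`).
-/

set_option autoImplicit false

namespace Claimed.Agent.R322.Sx.Cf

open MeasureTheory Set Metric
open scoped ENNReal NNReal InnerProductSpace

theorem rpow_inv_le_of_le {I : ℝ≥0∞} {M b p : ℝ} (hp : 0 < p) (hM : 0 ≤ M) (hb : 0 ≤ b)
    (h : I ≤ ENNReal.ofReal (M * b ^ p)) : I ^ (1 / p) ≤ ENNReal.ofReal (M ^ (1 / p) * b) := by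
  have h1 : 0 ≤ 1 / p := by positivity
  refine (ENNReal.rpow_le_rpow h h1).trans (le_of_eq ?_)
  rw [ENNReal.ofReal_rpow_of_nonneg (mul_nonneg hM (Real.rpow_nonneg hb _)) h1,
    Real.mul_rpow hM (Real.rpow_nonneg hb _), ← Real.rpow_mul hb, mul_one_div_cancel hp.ne',
    Real.rpow_one]

theorem le_of_rpow_inv_le {I : ℝ≥0∞} {M b p : ℝ} (hp : 0 < p) (hM : 0 ≤ M) (hb : 0 ≤ b)
    (h : I ^ (1 / p) ≤ ENNReal.ofReal (M ^ (1 / p) * b)) : I ≤ ENNReal.ofReal (M * b ^ p) := by
  have h1 := ENNReal.rpow_le_rpow h hp.le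
  rw [← ENNReal.rpow_mul, one_div_mul_cancel hp.ne', ENNReal.rpow_one,
    ENNReal.ofReal_rpow_of_nonneg (mul_nonneg (Real.rpow_nonneg hM _) hb) hp.le,
    Real.mul_rpow (Real.rpow_nonneg hM _) hb, ← Real.rpow_mul hM, one_div_mul_cancel hp.ne',
    Real.rpow_one] at h1
  exact h1

/-- geometric series in `L^p`. -/
theorem series_Lp {α : Type*} [MeasurableSpace α] (μ : Measure α) (f : ℕ → α → ℝ≥0∞)
    (hf : ∀ j, AEMeasurable (f j) μ) (p M a θ : ℝ) (hp : 1 ≤ p) (hM : 0 ≤ M) (ha : 0 ≤ a) (hθ0 : 0 < θ)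
    (hθ1 : θ < 1) (h : ∀ j, ∫⁻ x, f j x ^ p ∂μ ≤ ENNReal.ofReal (M * (a * θ ^ j) ^ p)) :
    ∫⁻ x, (∑' j, f j x) ^ p ∂μ ≤ ENNReal.ofReal (M * (a / (1 - θ)) ^ p) := by
  have hp0 : 0 < p := by linarith
  have h1θ : 0 < 1 - θ := by linarith
  apply le_of_rpow_inv_le hp0 hM (div_nonneg ha h1θ.le)
  refine (lintegral_rpow_tsum_le μ f hf p hp).trans ?_
  have hterm : ∀ j, (∫⁻ x, f j x ^ p ∂μ) ^ (1 / p) ≤ ENNReal.ofReal (M ^ (1 / p) * a * θ ^ j) := by
    intro j
    have := rpow_inv_le_of_le hp0 hM (by positivity : 0 ≤ a * θ ^ j) (h j)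
    rwa [← mul_assoc] at this
  have hMp : 0 ≤ M ^ (1 / p) := Real.rpow_nonneg hM _
  have hsummable : Summable fun j : ℕ => M ^ (1 / p) * a * θ ^ j :=
    (summable_geometric_of_lt_one hθ0.le hθ1).mul_left _
  calc ∑' j, (∫⁻ x, f j x ^ p ∂μ) ^ (1 / p) ≤ ∑' j, ENNReal.ofReal (M ^ (1 / p) * a * θ ^ j) :=
        ENNReal.tsum_le_tsum hterm
    _ = ENNReal.ofReal (∑' j : ℕ, M ^ (1 / p) * a * θ ^ j) :=
        (ENNReal.ofReal_tsum_of_nonneg (fun j => by positivity) hsummable).symm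
    _ = ENNReal.ofReal (M ^ (1 / p) * (a / (1 - θ))) := by
        rw [tsum_mul_left, tsum_geometric_of_lt_one hθ0.le hθ1]
        congr 1
        ring

/-- **moment bound of the majorant.** -/
theorem desc_moment (m : ℕ) (hm : 1 ≤ m) (dint K Cν p : ℝ) (hd : 0 < dint) (hK : 0 < K) (hCν : 0 < Cν)
    (hp : AdmP m p) :
    ∃ C : ℝ, 0 ≤ C ∧ ∀ (τ ν : Measure (E m)) (x : E m) (s d : ℝ), 0 < s → 0 ≤ d → d ≤ dint →
      τ univ ≤ ENNReal.ofReal (d * s ^ m) → NuBound τ ν x s dint Cν →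
      ∫⁻ y in ball x s, PsiE τ dint K s d y ^ p ∂ν
        ≤ ENNReal.ofReal (s ^ m * (C * s * Real.sqrt d) ^ p) := by
  obtain ⟨C1, hC1, H1⟩ := bb1_moment m hm dint K Cν p hd hK hCν hp
  obtain ⟨C2, hC2, H2⟩ := bb2_moment m hm dint Cν p hd hCν hp
  have hp2 : 2 < p := hp.1
  have hp0 : 0 < p := by linarith
  have hp1 : 1 ≤ p := by linarith
  have hθ0 := thetaP_pos m p
  have hθ1 := thetaP_lt_one hp
  have h1θ : 0 < 1 - thetaP m p := by linarith
  have hCp : 0 ≤ Cν ^ (1 / p) := Real.rpow_nonneg hCν.le _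
  refine ⟨Cν ^ (1 / p) * K + (C1 / (1 - thetaP m p) + C2 / (1 - thetaP m p)), by positivity, ?_⟩
  intro τ ν x s d hs hd0 hdd hτ hν
  have : IsFiniteMeasure τ := ⟨hτ.trans_lt ENNReal.ofReal_lt_top⟩
  have hsm : 0 ≤ s ^ m := by positivity
  have hsd : 0 ≤ s * Real.sqrt d := by positivity
  set μ := ν.restrict (ball x s) with hμ
  -- the three pieces
  have hS1m : Measurable fun y => ∑' j, bb1 τ dint K s y j :=
    Measurable.tsum fun j => measurable_bb1 τ dint K s j
  have hS2m : Measurable fun y => ∑' j, bb2 τ dint s y j :=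
    Measurable.tsum fun j => measurable_bb2 τ dint s j
  have hB1 : (∫⁻ y, (∑' j, bb1 τ dint K s y j) ^ p ∂μ) ^ (1 / p)
      ≤ ENNReal.ofReal ((s ^ m) ^ (1 / p) * (C1 * s * Real.sqrt d / (1 - thetaP m p))) := by
    apply rpow_inv_le_of_le hp0 hsm (by positivity)
    exact series_Lp μ _ (fun j => (measurable_bb1 τ dint K s j).aemeasurable) p (s ^ m)
      (C1 * s * Real.sqrt d) (thetaP m p) hp1 hsm (by positivity) hθ0 hθ1
      (H1 τ ν x s d hs hd0 hdd hτ hν)
  have hB2 : (∫⁻ y, (∑' j, bb2 τ dint s y j) ^ p ∂μ) ^ (1 / p)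
      ≤ ENNReal.ofReal ((s ^ m) ^ (1 / p) * (C2 * s * Real.sqrt d / (1 - thetaP m p))) := by
    apply rpow_inv_le_of_le hp0 hsm (by positivity)
    exact series_Lp μ _ (fun j => (measurable_bb2 τ dint s j).aemeasurable) p (s ^ m)
      (C2 * s * Real.sqrt d) (thetaP m p) hp1 hsm (by positivity) hθ0 hθ1
      (H2 τ ν x s d hs hd0 hdd hτ hν)
  have hνball : ν (ball x s) ≤ ENNReal.ofReal (Cν * s ^ m) := by
    refine (measure_mono (ball_subset_ball (by linarith))).trans
      (hν x s hs le_rfl (mem_ball_self hs) ?_)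
    refine (measure_mono (subset_univ _)).trans (hτ.trans (ENNReal.ofReal_le_ofReal ?_))
    exact mul_le_mul_of_nonneg_right hdd hsm
  have hB0 : (∫⁻ _y, ENNReal.ofReal (K * s * Real.sqrt d) ^ p ∂μ) ^ (1 / p)
      ≤ ENNReal.ofReal ((s ^ m) ^ (1 / p) * (Cν ^ (1 / p) * K * s * Real.sqrt d)) := by
    apply rpow_inv_le_of_le hp0 hsm (by positivity)
    rw [lintegral_const, hμ, Measure.restrict_apply_univ,
      ENNReal.ofReal_rpow_of_nonneg (by positivity) hp0.le]
    refine (mul_le_mul_right hνball _).trans (le_of_eq ?_)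
    rw [← ENNReal.ofReal_mul (by positivity)]
    congr 1
    have e : Cν ^ (1 / p) * K * s * Real.sqrt d = Cν ^ (1 / p) * (K * s * Real.sqrt d) := by ring
    rw [e, Real.mul_rpow hCp (by positivity), ← Real.rpow_mul hCν.le, one_div_mul_cancel hp0.ne',
      Real.rpow_one]
    ring
  apply le_of_rpow_inv_le hp0 hsm (by positivity)
  unfold PsiE
  have hM1 := ENNReal.lintegral_Lp_add_le (μ := μ) (f := fun _ => ENNReal.ofReal (K * s * Real.sqrt d))
    (g := fun y => (∑' j, bb1 τ dint K s y j) + ∑' j, bb2 τ dint s y j) aemeasurable_const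
    (hS1m.add hS2m).aemeasurable hp1
  have hM2 := ENNReal.lintegral_Lp_add_le (μ := μ) (f := fun y => ∑' j, bb1 τ dint K s y j)
    (g := fun y => ∑' j, bb2 τ dint s y j) hS1m.aemeasurable hS2m.aemeasurable hp1
  refine hM1.trans ((add_le_add hB0 (hM2.trans (add_le_add hB1 hB2))).trans (le_of_eq ?_))
  rw [← ENNReal.ofReal_add (by positivity) (by positivity),
    ← ENNReal.ofReal_add (by positivity) (by positivity)]
  congr 1
  ring

end Claimed.Agent.R322.Sx.Cf
end

/- ===== packed: Claimed.Agent.R322.Sx.Config.Chain ===== -/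
section
/-!
# R322 / Sx / Config / Chain   (blueprint: helper234)   glue (proved from `Match.lean`, `DescBasic.lean`)

The chain of configurations on the concentric balls `B_{r_j}(y)` over a base point `y ∈ B_s(x)`:
`dist(ζ, A) ≤ K s √d + Σ_{i ≤ j} 2 K r_i √u_i + r_j / 2` at every continuing generation `j`, for every support point `(y, ζ)`.
-/

set_option autoImplicit false

namespace Claimed.Agent.R322.Sx.Cf

open MeasureTheory Set Metric
open scoped ENNReal NNReal InnerProductSpace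

variable {m n Q : ℕ}

/-- the energy measure restricted to the enlarged ball. -/
noncomputable abbrev tauR (S : Sys m n) (Q : ℕ) (x : E m) (s : ℝ) : Measure (E m) :=
  (S.tau Q).restrict (ball x (5 * s))

theorem ball_subset_five {x y : E m} {s r : ℝ} (hy : y ∈ ball x s) (hr : r ≤ 4 * s) :
    ball y r ⊆ ball x (5 * s) := by
  apply ball_subset_ball'
  have := mem_ball.1 hy
  linarith

theorem tauR_ball (S : Sys m n) (Q : ℕ) {x y : E m} {s r : ℝ} (hy : y ∈ ball x s) (hr : r ≤ 4 * s) :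
    tauR S Q x s (ball y r) = S.tau Q (ball y r) := by
  rw [Measure.restrict_apply measurableSet_ball, inter_eq_left.2 (ball_subset_five hy hr)]

theorem ball_mid_subset {x y : E m} {s : ℝ} (h : y ∈ ball x s) :
    ball (midpoint ℝ x y) (s / 2) ⊆ ball x s ∩ ball y s := by
  have hd : dist x y < s := by rw [dist_comm]; exact mem_ball.1 h
  intro w hw
  have hw' := mem_ball.1 hw
  constructor
  · rw [mem_ball]
    calc dist w x ≤ dist w (midpoint ℝ x y) + dist (midpoint ℝ x y) x := dist_triangle _ _ _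
      _ < s / 2 + s / 2 := by
          rw [dist_midpoint_left]
          have : ‖(2 : ℝ)‖⁻¹ * dist x y < s / 2 := by
            rw [Real.norm_of_nonneg (by norm_num)]; linarith
          linarith
      _ = s := by ring
  · rw [mem_ball]
    calc dist w y ≤ dist w (midpoint ℝ x y) + dist (midpoint ℝ x y) y := dist_triangle _ _ _
      _ < s / 2 + s / 2 := by
          rw [dist_midpoint_right]
          have : ‖(2 : ℝ)‖⁻¹ * dist x y < s / 2 := by
            rw [Real.norm_of_nonneg (by norm_num)]; linarith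
          linarith
      _ = s := by ring

theorem sum_chain_identity (a : ℕ → ℝ) (j : ℕ) :
    a 0 + (∑ k ∈ Finset.range j, (a k + a (k + 1))) + a j = ∑ k ∈ Finset.range (j + 1), 2 * a k := by
  induction j with
  | zero => simp; ring
  | succ j ih =>
    rw [Finset.sum_range_succ, Finset.sum_range_succ _ (j + 1), ← ih]
    ring

/-- **the chain estimate at a continuing generation.** -/
theorem chain_fin (Cg δint dint K : ℝ) (hδ : δint * (8 * 2 ^ m) < 1) (hd : 0 < dint) (hK : 0 < K)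
    (hsel : SelHolds m n Q Cg δint dint K) (hsup : SuppHolds m n Q Cg δint dint)
    (S : Sys m n) (hS : S.Valid) (hCg : S.Cg ≤ Cg) (x : E m) (s d : ℝ) (hs : 0 < s) (hs1 : s ≤ 1)
    (hd0 : 0 ≤ d) (hball : ball x (5 * s) ⊆ S.Ω) (hfin : S.tau Q (ball x (5 * s)) < ⊤)
    (A : Fin Q → E n) (hA : S.IsMajority x s δint (K * s * Real.sqrt d) A)
    (q : E m × E n) (hq : q ∈ S.spt) (hq1 : q.1 ∈ ball x s) (j : ℕ)
    (hj : Cont (tauR S Q x s) dint s q.1 j) :
    Sys.distA A q.2 ≤ K * s * Real.sqrt d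
      + (∑ i ∈ Finset.range (j + 1), 2 * K * rr s i * Real.sqrt (uu (tauR S Q x s) s q.1 i))
      + rr s j / 2 := by
  classical
  obtain ⟨y, ζ⟩ := q
  simp only at hq1 hj ⊢
  have : IsFiniteMeasure (tauR S Q x s) := ⟨by rw [Measure.restrict_apply_univ]; exact hfin⟩
  set a : ℕ → ℝ := fun i => K * rr s i * Real.sqrt (uu (tauR S Q x s) s y i) with ha
  have ha0 : ∀ i, 0 ≤ a i := fun i => by
    have := rr_pos hs i
    simp only [ha]
    positivity
  have hsubΩ : ∀ (i : ℕ) (c : ℝ), c ≤ 4 → ball y (c * rr s i) ⊆ S.Ω := fun i c hc =>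
    (ball_subset_five hq1 (by
      have h1 := rr_le hs i
      have h2 := rr_pos hs i
      nlinarith)).trans hball
  have hτeq : ∀ (i : ℕ) (c : ℝ), c ≤ 4 →
      tauR S Q x s (ball y (c * rr s i)) = S.tau Q (ball y (c * rr s i)) := fun i c hc =>
    tauR_ball S Q hq1 (by
      have h1 := rr_le hs i
      have h2 := rr_pos hs i
      nlinarith)
  -- the configurations
  have hcfg : ∀ i, Cont (tauR S Q x s) dint s y i →
      ∃ Ai : Fin Q → E n, S.IsMajority y (rr s i) δint (a i) Ai := by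
    intro i hi
    refine hsel S hS hCg y (rr s i) (uu (tauR S Q x s) s y i) (rr_pos hs i) ((rr_le hs i).trans hs1)
      (uu_nonneg _ hs y i) (hi.uu_le hs hd.le) (hsubΩ i 2 (by norm_num)) ?_
    rw [← hτeq i 2 (by norm_num), ofReal_uu_mul hs y i]
  let Ac : ℕ → Fin Q → E n := fun i =>
    if h : Cont (tauR S Q x s) dint s y i then (hcfg i h).choose else A
  have hAc : ∀ i, Cont (tauR S Q x s) dint s y i → S.IsMajority y (rr s i) δint (a i) (Ac i) := by
    intro i hi
    simp only [Ac, dif_pos hi]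
    exact (hcfg i hi).choose_spec
  -- root
  have hroot : Sys.Matched A (Ac 0) (K * s * Real.sqrt d + a 0) := by
    have h0 := hAc 0 (hj.mono (Nat.zero_le _))
    refine majority_matching hS hA h0 ?_
    refine overlap_lt hS (z := midpoint ℝ x y) hs (by rw [rr_zero]) ?_
      ((ball_subset_ball (by linarith)).trans hball) hδ
    rw [rr_zero]
    exact ball_mid_subset hq1
  -- steps
  have hstep : ∀ i, Cont (tauR S Q x s) dint s y (i + 1) →
      Sys.Matched (Ac i) (Ac (i + 1)) (a i + a (i + 1)) := by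
    intro i hi
    refine majority_matching hS (hAc i (hi.mono (Nat.le_succ _))) (hAc (i + 1) hi) ?_
    have hr := rr_pos hs i
    refine overlap_lt hS (z := y) hr (by rw [rr_succ]; linarith) ?_ ?_ hδ
    · rw [rr_succ]
      exact subset_inter (ball_subset_ball (by linarith)) subset_rfl
    · have := hsubΩ i 1 (by norm_num)
      rwa [one_mul] at this
  have hind : ∀ i, Cont (tauR S Q x s) dint s y i →
      Sys.Matched A (Ac i)
        (K * s * Real.sqrt d + a 0 + ∑ k ∈ Finset.range i, (a k + a (k + 1))) := by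
    intro i
    induction i with
    | zero => intro _; simpa using hroot
    | succ i ih =>
      intro hi
      have h1 := (ih (hi.mono (Nat.le_succ _))).trans (hstep i hi)
      rw [Finset.sum_range_succ]
      refine h1.mono (le_of_eq (by ring))
  -- the end
  have hend : Sys.distA (Ac j) ζ ≤ a j + rr s j / 2 := by
    have hr := rr_pos hs j
    refine hsup S hS hCg y (rr s j) (a j) (Ac j) hr (ha0 j) ?_ ?_ (hAc j hj) (y, ζ) hq ?_
    · have := hsubΩ j 1 (by norm_num)
      rwa [one_mul] at this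
    · have h1 : S.tau Q (ball y (rr s j)) ≤ S.tau Q (ball y (4 * rr s j)) :=
        measure_mono (ball_subset_ball (by linarith))
      refine h1.trans ?_
      rw [← hτeq j 4 le_rfl]
      exact hj.apply
    · exact mem_ball_self (by positivity)
  have hsum0 : 0 ≤ K * s * Real.sqrt d + a 0 + ∑ k ∈ Finset.range j, (a k + a (k + 1)) := by
    have h1 : 0 ≤ ∑ k ∈ Finset.range j, (a k + a (k + 1)) :=
      Finset.sum_nonneg fun k _ => add_nonneg (ha0 k) (ha0 (k + 1))
    have h2 := ha0 0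
    have h3 : 0 ≤ K * s * Real.sqrt d := by positivity
    linarith
  have h1 := (hind j hj).distA_le hsum0 ζ
  have h2 := sum_chain_identity a j
  have h3 : ∑ i ∈ Finset.range (j + 1), 2 * K * rr s i * Real.sqrt (uu (tauR S Q x s) s y i)
      = ∑ k ∈ Finset.range (j + 1), 2 * a k :=
    Finset.sum_congr rfl fun k _ => by simp only [ha]; ring
  rw [h3, ← h2]
  linarith

end Claimed.Agent.R322.Sx.Cf
end
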