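/- Packed by merge_tool.py (helper293): 3 modules of Claimed.Agent.R322 in one file, same declarations.
   Old modules, in this order: Sx.Config.DescSup, Sx.Config.Main, Sx.Config -/
import Claimed.Agent.R322.Pack026
import Claimed.Agent.R322.Pack024
import Claimed.Agent.R322.Pack025

/- ===== packed: Claimed.Agent.R322.Sx.Config.DescSup ===== -/
section
/-!
# R322 / Sx / Config / DescSup   (blueprint: helper234)   LEAF `L-Cf-DescSup`

Sup bound of the majorant, AE (2.16).   Let `0 < β < 1/2`, `β m < 1`, `0 ≤ d ≤ dint ≤ 1`, `τ univ ≤ d s^m`.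

* root term: `K s √d ≤ K s d^β` (`d ≤ 1`, `β ≤ 1/2`: `Real.rpow_le_rpow_of_exponent_ge`, `Real.sqrt_eq_rpow`; `d = 0`: both sides vanish, `Real.zero_rpow`).
* `bb1 j ≤ ofReal (2 K s d^β θ^j)`, `θ = 2^{-(1 - m β)} < 1`: at a continuing generation `u_j ≤ min (1, 2^{jm} d)` (`Cont.uu_le`, `uu_le_pow`), and
  `min (1, X) ≤ X^{2β}` for `X ≥ 0`, `0 ≤ 2β ≤ 1`; so `√u_j ≤ (2^{jm} d)^β = 2^{jmβ} d^β`, `r_j √u_j ≤ s d^β 2^{-j(1 - mβ)}`.
  `Σ' ofReal (c θ^j) = ofReal (c / (1 - θ))` (`ENNReal.ofReal_tsum_of_nonneg`, `tsum_geometric_of_lt_one`, `tsum_mul_left`).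
* `Σ' bb2 ≤ ofReal (2 s dint^{-β} d^β)`: at most one term is nonzero (`stop_unique`, `tsum_eq_single`, or bound by `⨆`); for it `stop_lt` and
  `τ univ ≤ d s^m` give `dint r_{j+1}^m < d s^m`, so `r_j = 2 r_{j+1} < 2 s (d/dint)^{1/m} ≤ 2 s (d/dint)^β` (`d/dint ≤ 1`, `β ≤ 1/m`).
`C = K + 2 K / (1 - θ) + 2 dint^{-β}`.
-/

set_option autoImplicit false

namespace Claimed.Agent.R322.Sx.Cf

open MeasureTheory Set Metric
open scoped ENNReal NNReal InnerProductSpace

/-- `min (1, X) ≤ X^θ`. -/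
theorem min_one_le_rpow {X θ : ℝ} (hX : 0 ≤ X) (h0 : 0 ≤ θ) (h1 : θ ≤ 1) : min 1 X ≤ X ^ θ := by
  rcases le_or_gt 1 X with h | h
  · rw [min_eq_left h]
    exact Real.one_le_rpow h h0
  · rw [min_eq_right h.le]
    rcases hX.eq_or_lt with rfl | hpos
    · exact Real.rpow_nonneg le_rfl _
    · calc X = X ^ (1 : ℝ) := (Real.rpow_one X).symm
        _ ≤ X ^ θ := Real.rpow_le_rpow_of_exponent_ge hpos h.le h1

theorem tsum_bb1_le (m : ℕ) (hm : 1 ≤ m) (dint K β : ℝ) (hd : 0 < dint) (hd1 : dint ≤ 1) (hK : 0 < K)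
    (hβ : AdmB m β) :
    ∃ C : ℝ, 0 ≤ C ∧ ∀ (τ : Measure (E m)) (s d : ℝ), 0 < s → 0 ≤ d → d ≤ dint →
      τ univ ≤ ENNReal.ofReal (d * s ^ m) → ∀ y : E m,
      ∑' j, bb1 τ dint K s y j ≤ ENNReal.ofReal (C * s * d ^ β) := by
  obtain ⟨hβ0, hβ2, hβm⟩ := hβ
  set θ : ℝ := 2 ^ (-(1 - β * m)) with hθ
  have hθ0 : 0 < θ := Real.rpow_pos_of_pos (by norm_num) _
  have hθ1 : θ < 1 := Real.rpow_lt_one_of_one_lt_of_neg (by norm_num) (by linarith)
  refine ⟨2 * K / (1 - θ), div_nonneg (by positivity) (by linarith), ?_⟩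
  intro τ s d hs hd0 hdd hτ y
  have hdβ : 0 ≤ d ^ β := Real.rpow_nonneg hd0 β
  have hterm : ∀ j, bb1 τ dint K s y j ≤ ENNReal.ofReal (2 * K * s * d ^ β * θ ^ j) := by
    intro j
    unfold bb1
    split_ifs with hc
    · apply ENNReal.ofReal_le_ofReal
      have hr := rr_pos hs j
      set X : ℝ := 2 ^ (j * m) * d with hX
      have hX0 : 0 ≤ X := by positivity
      have hu0 := uu_nonneg τ hs y j
      have hu : uu τ s y j ≤ X ^ (2 * β) :=
        (le_min ((hc.uu_le hs hd.le).trans hd1) (uu_le_pow hs hd0 hτ y j)).trans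
          (min_one_le_rpow hX0 (by linarith) (by linarith))
      have hsq : Real.sqrt (uu τ s y j) ≤ X ^ β := by
        rw [Real.sqrt_le_left (Real.rpow_nonneg hX0 _), ← Real.rpow_natCast (X ^ β) 2,
          ← Real.rpow_mul hX0]
        refine hu.trans (le_of_eq ?_)
        congr 1
        push_cast
        ring
      have hXβ : X ^ β = (2 : ℝ) ^ (β * m * j) * d ^ β := by
        rw [hX, Real.mul_rpow (by positivity) hd0, ← Real.rpow_natCast (2 : ℝ) (j * m),
          ← Real.rpow_mul (by norm_num)]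
        congr 2
        push_cast
        ring
      have hθj : θ ^ j = (2 : ℝ) ^ (β * m * j) / 2 ^ j := by
        rw [hθ, ← Real.rpow_natCast _ j, ← Real.rpow_mul (by norm_num), ← Real.rpow_natCast (2 : ℝ) j,
          ← Real.rpow_sub (by norm_num)]
        congr 1
        ring
      calc 2 * K * rr s j * Real.sqrt (uu τ s y j) ≤ 2 * K * rr s j * X ^ β :=
            mul_le_mul_of_nonneg_left hsq (by positivity)
        _ = 2 * K * s * d ^ β * θ ^ j := by
            rw [hXβ, hθj]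
            unfold rr
            ring
    · exact zero_le
  have hsummable : Summable fun j : ℕ => 2 * K * s * d ^ β * θ ^ j :=
    (summable_geometric_of_lt_one hθ0.le hθ1).mul_left _
  calc ∑' j, bb1 τ dint K s y j ≤ ∑' j, ENNReal.ofReal (2 * K * s * d ^ β * θ ^ j) :=
        ENNReal.tsum_le_tsum hterm
    _ = ENNReal.ofReal (∑' j : ℕ, 2 * K * s * d ^ β * θ ^ j) :=
        (ENNReal.ofReal_tsum_of_nonneg (fun j => by positivity) hsummable).symm
    _ = ENNReal.ofReal (2 * K / (1 - θ) * s * d ^ β) := by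
        rw [tsum_mul_left, tsum_geometric_of_lt_one hθ0.le hθ1]
        congr 1
        ring

theorem tsum_bb2_le (m : ℕ) (hm : 1 ≤ m) (dint β : ℝ) (hd : 0 < dint) (hd1 : dint ≤ 1)
    (hβ : AdmB m β) :
    ∃ C : ℝ, 0 ≤ C ∧ ∀ (τ : Measure (E m)) (s d : ℝ), 0 < s → 0 ≤ d → d ≤ dint →
      τ univ ≤ ENNReal.ofReal (d * s ^ m) → ∀ y : E m,
      ∑' j, bb2 τ dint s y j ≤ ENNReal.ofReal (C * s * d ^ β) := by
  obtain ⟨hβ0, hβ2, hβm⟩ := hβ
  refine ⟨2 * dint ^ (-β), by positivity, ?_⟩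
  intro τ s d hs hd0 hdd hτ y
  by_cases hex : ∃ j, Cont τ dint s y j ∧ ¬ Cont τ dint s y (j + 1)
  · obtain ⟨j, hj⟩ := hex
    rw [tsum_eq_single j]
    · unfold bb2
      rw [if_pos hj]
      apply ENNReal.ofReal_le_ofReal
      have h1 : ENNReal.ofReal (dint * rr s (j + 1) ^ m) < ENNReal.ofReal (d * s ^ m) :=
        (stop_lt hj.1 hj.2).trans_le ((measure_mono (subset_univ _)).trans hτ)
      have hr := rr_pos hs (j + 1)
      have h2 : dint * rr s (j + 1) ^ m < d * s ^ m :=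
        (ENNReal.ofReal_lt_ofReal_iff_of_nonneg (by positivity)).1 h1
      set ρ : ℝ := rr s (j + 1) / s with hρ
      have hρ0 : 0 < ρ := by positivity
      have hρ1 : ρ ≤ 1 := by
        rw [hρ, div_le_one hs]
        exact rr_le hs _
      have h3 : ρ ^ m ≤ d / dint := by
        rw [hρ, div_pow, div_le_div_iff₀ (by positivity) hd]
        nlinarith [h2]
      have h4 : ρ ≤ (d / dint) ^ β := by
        calc ρ = ρ ^ (1 : ℝ) := (Real.rpow_one ρ).symm
          _ ≤ ρ ^ ((m : ℝ) * β) := Real.rpow_le_rpow_of_exponent_ge hρ0 hρ1 (by linarith)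
          _ = (ρ ^ m) ^ β := by rw [Real.rpow_mul hρ0.le, Real.rpow_natCast]
          _ ≤ (d / dint) ^ β := Real.rpow_le_rpow (by positivity) h3 hβ0.le
      have h5 : rr s j = 2 * s * ρ := by
        rw [hρ, rr_succ]
        field_simp
      rw [h5, Real.rpow_neg hd.le]
      rw [Real.div_rpow hd0 hd.le] at h4
      calc 2 * s * ρ ≤ 2 * s * (d ^ β / dint ^ β) := mul_le_mul_of_nonneg_left h4 (by positivity)
        _ = 2 * (dint ^ β)⁻¹ * s * d ^ β := by ring
    · intro i hi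
      unfold bb2
      rw [if_neg fun hh => hi (stop_unique hh hj)]
  · have : ∀ j, bb2 τ dint s y j = 0 := by
      intro j
      unfold bb2
      rw [if_neg fun hh => hex ⟨j, hh⟩]
    simp [this]

/-- `√d ≤ d^β` for `0 ≤ d ≤ 1`, `0 < β ≤ 1/2`. -/
theorem sqrt_le_rpow {d β : ℝ} (hd : 0 ≤ d) (hd1 : d ≤ 1) (hβ : 0 < β) (hβ2 : β ≤ 1 / 2) :
    Real.sqrt d ≤ d ^ β := by
  rcases hd.eq_or_lt with rfl | hpos
  · rw [Real.sqrt_zero]
    exact Real.rpow_nonneg le_rfl _
  · rw [Real.sqrt_eq_rpow]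
    exact Real.rpow_le_rpow_of_exponent_ge hpos hd1 hβ2

/-- **sup bound of the majorant.** -/
theorem desc_sup (m : ℕ) (hm : 1 ≤ m) (dint K β : ℝ) (hd : 0 < dint) (hd1 : dint ≤ 1) (hK : 0 < K)
    (hβ : AdmB m β) :
    ∃ C : ℝ, 0 ≤ C ∧ ∀ (τ : Measure (E m)) (s d : ℝ), 0 < s → 0 ≤ d → d ≤ dint →
      τ univ ≤ ENNReal.ofReal (d * s ^ m) → ∀ y : E m,
      PsiE τ dint K s d y ≤ ENNReal.ofReal (C * s * d ^ β) := by
  obtain ⟨C1, hC1, H1⟩ := tsum_bb1_le m hm dint K β hd hd1 hK hβ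
  obtain ⟨C2, hC2, H2⟩ := tsum_bb2_le m hm dint β hd hd1 hβ
  refine ⟨K + (C1 + C2), by positivity, ?_⟩
  intro τ s d hs hd0 hdd hτ y
  have hdβ : 0 ≤ d ^ β := Real.rpow_nonneg hd0 β
  have h0 : ENNReal.ofReal (K * s * Real.sqrt d) ≤ ENNReal.ofReal (K * s * d ^ β) := by
    apply ENNReal.ofReal_le_ofReal
    have := sqrt_le_rpow hd0 (hdd.trans hd1) hβ.1 hβ.2.1.le
    exact mul_le_mul_of_nonneg_left this (by positivity)
  unfold PsiE
  calc _ ≤ ENNReal.ofReal (K * s * d ^ β)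
        + (ENNReal.ofReal (C1 * s * d ^ β) + ENNReal.ofReal (C2 * s * d ^ β)) :=
        add_le_add h0 (add_le_add (H1 τ s d hs hd0 hdd hτ y) (H2 τ s d hs hd0 hdd hτ y))
    _ = ENNReal.ofReal ((K + (C1 + C2)) * s * d ^ β) := by
        rw [← ENNReal.ofReal_add (by positivity) (by positivity),
          ← ENNReal.ofReal_add (by positivity) (by positivity)]
        congr 1
        ring

end Claimed.Agent.R322.Sx.Cf
end

/- ===== packed: Claimed.Agent.R322.Sx.Config.Main ===== -/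
section
/-!
# R322 / Sx / Config / Main   (blueprint: helper234)   (all proved: helper234)

Assembly of AE Lemma 2.6 with the enlargement `c = 5`.

`spt_compl_null`: `measure_null_of_locally_null` (every point off the support has a ball of measure zero).
`nuBound_sys`: `Valid.nu_le`, `Valid.volS_le`, `volume_ball_eq`, `tauR_ball`, `absM ≤ tau`: `ν (B_{4r}) ≤ τ (B_{4r}) + 2 Q ω (4 r)^m`.
`moment_of_le`: `integral_eq_lintegral_of_nonneg_ae`; `ofReal (D^p) = (ofReal D)^p`; a.e. point is a support point; `S.nu = μ.map fst`,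
`lintegral_map` (`F` measurable), `Measure.restrict_map`.
-/

set_option autoImplicit false

namespace Claimed.Agent.R322.Sx

open MeasureTheory Set Metric
open scoped ENNReal NNReal InnerProductSpace

theorem Sys.spt_compl_null {m n : ℕ} (S : Sys m n) : S.μ S.sptᶜ = 0 := by
  apply measure_null_of_locally_null
  intro q hq
  simp only [Sys.spt, mem_compl_iff, mem_setOf_eq, not_forall] at hq
  obtain ⟨ε, hε, h0⟩ := hq
  exact ⟨ball q ε, mem_nhdsWithin_of_mem_nhds (ball_mem_nhds q hε), le_antisymm (not_lt.1 h0) zero_le⟩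

namespace Cf

variable {m n Q : ℕ}

theorem SelHolds.mono {Cg δ dsel dsel' K : ℝ} (h : SelHolds m n Q Cg δ dsel K) (hd : dsel' ≤ dsel) :
    SelHolds m n Q Cg δ dsel' K :=
  fun S hS hCg x s d hs hs1 hd0 hdd => h S hS hCg x s d hs hs1 hd0 (hdd.trans hd)

theorem SuppHolds.mono {Cg δs δs' ds ds' : ℝ} (h : SuppHolds m n Q Cg δs ds) (hδ : δs' ≤ δs)
    (hd : ds' ≤ ds) : SuppHolds m n Q Cg δs' ds' := by
  intro S hS hCg x r ρ A hr hρ hball hτ hA
  refine h S hS hCg x r ρ A hr hρ hball (hτ.trans ?_) (hA.mono hδ le_rfl)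
  apply ENNReal.ofReal_le_ofReal
  have : 0 ≤ r ^ m := by positivity
  exact mul_le_mul_of_nonneg_right hd this

/-- the mass bound on balls of small energy. -/
theorem nuBound_sys {S : Sys m n} (hS : S.Valid) (Q : ℕ) (x : E m) (s dint : ℝ) (hs : 0 < s)
    (hd : 0 ≤ dint) (hball : ball x (5 * s) ⊆ S.Ω) :
    NuBound (tauR S Q x s) S.nu x s dint
      (dint + 2 * Q * (volume (ball (0 : E m) 1)).toReal * 4 ^ m + 1) := by
  intro y r hr hrs hy hτ
  rw [tauR_ball S Q hy (by linarith)] at hτ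
  have h1 : S.nu (ball y (4 * r)) ≤ S.absM Q (ball y (4 * r)) + (Q : ℝ≥0∞) * S.volS (ball y (4 * r)) := by
    have := hS.nu_le Q (ball y (4 * r))
    simpa using this
  have h2 : S.absM Q (ball y (4 * r)) ≤ S.tau Q (ball y (4 * r)) := by
    unfold Sys.tau
    simp only [Measure.add_apply]
    exact le_add_right (le_add_right le_rfl)
  have h3 : S.volS (ball y (4 * r)) ≤ 2 * volume (ball y (4 * r)) := hS.volS_le _
  have hω : volume (ball (0 : E m) 1) ≠ ⊤ := measure_ball_lt_top.ne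
  have h4 : volume (ball y (4 * r))
      = ENNReal.ofReal ((4 * r) ^ m * (volume (ball (0 : E m) 1)).toReal) := by
    rw [volume_ball_eq y (by positivity), ENNReal.ofReal_mul (by positivity), ENNReal.ofReal_toReal hω]
  calc S.nu (ball y (4 * r)) ≤ ENNReal.ofReal (dint * r ^ m)
        + (Q : ℝ≥0∞) * (2 * ENNReal.ofReal ((4 * r) ^ m * (volume (ball (0 : E m) 1)).toReal)) := by
        refine h1.trans (add_le_add (h2.trans hτ) ?_)
        gcongr
        rw [← h4]; exact h3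
    _ = ENNReal.ofReal (dint * r ^ m + Q * (2 * ((4 * r) ^ m * (volume (ball (0 : E m) 1)).toReal))) := by
        have gen : ∀ a b : ℝ, 0 ≤ a → 0 ≤ b →
            ENNReal.ofReal a + (Q : ℝ≥0∞) * (2 * ENNReal.ofReal b) = ENNReal.ofReal (a + Q * (2 * b)) := by
          intro a b ha hb
          rw [ENNReal.ofReal_add ha (by positivity), ENNReal.ofReal_mul (Nat.cast_nonneg Q),
            ENNReal.ofReal_mul (by norm_num : (0:ℝ) ≤ 2), ENNReal.ofReal_natCast]
          simp
        exact gen _ _ (mul_nonneg hd (by positivity)) (by positivity)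
    _ ≤ _ := by
        apply ENNReal.ofReal_le_ofReal
        rw [mul_pow]
        have : 0 ≤ r ^ m := by positivity
        nlinarith

/-- from the pointwise majorant on the support to the moment. -/
theorem moment_of_le {S : Sys m n} (A : Fin Q → E n) (x : E m) (s p R : ℝ) (hp : 0 < p) (hR : 0 ≤ R)
    (F : E m → ℝ≥0∞) (hF : Measurable F)
    (h : ∀ q ∈ S.spt, q.1 ∈ ball x s → ENNReal.ofReal (Sys.distA A q.2) ≤ F q.1)
    (hint : ∫⁻ y in ball x s, F y ^ p ∂S.nu ≤ ENNReal.ofReal R) :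
    ∫ q in ball x s ×ˢ (univ : Set (E n)), Sys.distA A q.2 ^ p ∂S.μ ≤ R := by
  have hmeas : Measurable fun q : E m × E n => Sys.distA A q.2 ^ p :=
    (((Sys.continuous_distA A).measurable.comp measurable_snd).pow_const p)
  have hset : MeasurableSet (ball x s ×ˢ (univ : Set (E n))) := measurableSet_ball.prod MeasurableSet.univ
  have hnn : 0 ≤ᵐ[S.μ.restrict (ball x s ×ˢ (univ : Set (E n)))]
      fun q : E m × E n => Sys.distA A q.2 ^ p :=
    Filter.Eventually.of_forall fun q => Real.rpow_nonneg (Sys.distA_nonneg A q.2) p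
  rw [integral_eq_lintegral_of_nonneg_ae hnn hmeas.aestronglyMeasurable]
  apply ENNReal.toReal_le_of_le_ofReal hR
  refine le_trans ?_ hint
  have e0 : (Prod.fst ⁻¹' ball x s : Set (E m × E n)) = ball x s ×ˢ (univ : Set (E n)) := by
    ext q; simp
  have e1 : ∫⁻ y in ball x s, F y ^ p ∂S.nu
      = ∫⁻ q in ball x s ×ˢ (univ : Set (E n)), F q.1 ^ p ∂S.μ := by
    unfold Sys.nu
    rw [Measure.restrict_map measurable_fst measurableSet_ball,
      lintegral_map (hF.pow_const p) measurable_fst, e0]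
  rw [e1]
  apply lintegral_mono_ae
  have h0 : ∀ᵐ q ∂S.μ, q ∈ S.spt := by
    rw [ae_iff]
    exact S.spt_compl_null
  have h1 : ∀ᵐ q ∂(S.μ.restrict (ball x s ×ˢ (univ : Set (E n)))), q ∈ S.spt := ae_restrict_of_ae h0
  have h2 : ∀ᵐ q ∂(S.μ.restrict (ball x s ×ˢ (univ : Set (E n)))),
      q ∈ ball x s ×ˢ (univ : Set (E n)) := ae_restrict_mem hset
  filter_upwards [h1, h2] with q hq1 hq2
  rw [← ENNReal.ofReal_rpow_of_nonneg (Sys.distA_nonneg A q.2) hp.le]
  exact ENNReal.rpow_le_rpow (h q hq1 hq2.1) hp.le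

end Cf

/-- **AE Lemma 2.6** (`config` of `Sx/Config.lean`). -/
theorem config_main (m n Q : ℕ) (hm : 1 ≤ m) (hQ : 1 ≤ Q) (Cg : ℝ) :
    ∃ c : ℝ, 4 < c ∧ ∃ Cp Cβ : ℝ → ℝ, ∀ δ : ℝ, 0 < δ →
      ∃ d0 Cδ : ℝ, 0 < d0 ∧ 0 < Cδ ∧ ConfigHolds m n Q Cg c δ d0 Cδ Cp Cβ := by
  classical
  obtain ⟨δs, ds, hδs, hds, Hsup⟩ := Cf.support_bound m n Q hm Cg
  set δint : ℝ := min δs (1 / (16 * 2 ^ m)) with hδint
  have hδint0 : 0 < δint := lt_min hδs (by positivity)
  have hδint8 : δint * (8 * 2 ^ m) < 1 := by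
    have h1 : δint ≤ 1 / (16 * 2 ^ m) := min_le_right _ _
    calc δint * (8 * 2 ^ m) ≤ 1 / (16 * 2 ^ m) * (8 * 2 ^ m) := by gcongr
      _ = 1 / 2 := by field_simp; norm_num
      _ < 1 := by norm_num
  obtain ⟨dsel, K, hdsel, hK, Hsel⟩ := Cf.select m n Q hm Cg δint hδint0
  set dint : ℝ := min (min dsel ds) 1 with hdint
  have hdint0 : 0 < dint := lt_min (lt_min hdsel hds) one_pos
  have hdint1 : dint ≤ 1 := min_le_right _ _
  have Hsel' : Cf.SelHolds m n Q Cg δint dint K :=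
    Hsel.mono ((min_le_left _ _).trans (min_le_left _ _))
  have Hsup' : Cf.SuppHolds m n Q Cg δint dint :=
    Hsup.mono (min_le_left _ _) ((min_le_left _ _).trans (min_le_right _ _))
  set Cν : ℝ := dint + 2 * Q * (volume (ball (0 : E m) 1)).toReal * 4 ^ m + 1 with hCν
  have hCν0 : 0 < Cν := by positivity
  have Hβ := fun (β : ℝ) (hβ : AdmB m β) => Cf.desc_sup m hm dint K β hdint0 hdint1 hK hβ
  have Hp := fun (p : ℝ) (hp : AdmP m p) => Cf.desc_moment m hm dint K Cν p hdint0 hK hCν0 hp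
  refine ⟨5, by norm_num, fun p => if hp : AdmP m p then (Hp p hp).choose else 0,
    fun β => if hβ : AdmB m β then (Hβ β hβ).choose else 0, ?_⟩
  intro δ hδ
  obtain ⟨dsel', K', hdsel', hK', Hsel2⟩ :=
    Cf.select m n Q hm Cg (min δ δint) (lt_min hδ hδint0)
  refine ⟨min dint dsel', 2 * K' + K, lt_min hdint0 hdsel', by positivity, ?_⟩
  intro S hS hCg x s d hs hs1 hd0 hdd hball hτ
  have hdd' : d ≤ dint := hdd.trans (min_le_left _ _)
  have hb2 : ball x (2 * s) ⊆ ball x (5 * s) := ball_subset_ball (by linarith)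
  have hb1 : ball x s ⊆ ball x (5 * s) := ball_subset_ball (by linarith)
  have hτ2 : S.tau Q (ball x (2 * s)) ≤ ENNReal.ofReal (d * s ^ m) := (measure_mono hb2).trans hτ
  obtain ⟨A, hA⟩ := Hsel' S hS hCg x s d hs hs1 hd0 hdd' (hb2.trans hball) hτ2
  obtain ⟨A', hA'⟩ :=
    Hsel2 S hS hCg x s d hs hs1 hd0 (hdd.trans (min_le_right _ _)) (hb2.trans hball) hτ2
  have hmatch : Sys.Matched A' A (K' * s * Real.sqrt d + K * s * Real.sqrt d) := by
    refine majority_matching hS (hA'.mono (min_le_right _ _) le_rfl) hA ?_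
    refine Cf.overlap_lt hS (z := x) hs le_rfl ?_ (hb1.trans hball) hδint8
    rw [inter_self]
    exact ball_subset_ball (by linarith)
  have hmaj : S.IsMajority x s δ ((2 * K' + K) * s * Real.sqrt d) A :=
    (hA'.of_matched hmatch).mono (min_le_left _ _) (le_of_eq (by ring))
  have hτR : Cf.tauR S Q x s univ ≤ ENNReal.ofReal (d * s ^ m) := by
    rw [Measure.restrict_apply_univ]; exact hτ
  have hfin : S.tau Q (ball x (5 * s)) < ⊤ := hτ.trans_lt ENNReal.ofReal_lt_top
  have : IsFiniteMeasure (Cf.tauR S Q x s) := ⟨by rw [Measure.restrict_apply_univ]; exact hfin⟩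
  have hmajor : ∀ q ∈ S.spt, q.1 ∈ ball x s →
      ENNReal.ofReal (Sys.distA A q.2) ≤ Cf.PsiE (Cf.tauR S Q x s) dint K s d q.1 := by
    intro q hq hq1
    apply Cf.le_PsiE_of_chain (Cf.tauR S Q x s) dint K s d _ hs hK.le q.1
      (Cf.cont_zero hs hdd' hτR q.1)
    intro j hj
    exact Cf.chain_fin Cg δint dint K hδint8 hdint0 hK Hsel' Hsup' S hS hCg x s d hs hs1 hd0 hball
      hfin A hA q hq hq1 j hj
  refine ⟨A, hmaj, ?_, ?_⟩
  · intro p hp
    simp only [dif_pos hp]
    obtain ⟨hC0, HC⟩ := (Hp p hp).choose_spec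
    refine Cf.moment_of_le A x s p _ (by linarith [hp.1]) (by positivity)
      (Cf.PsiE (Cf.tauR S Q x s) dint K s d) (Cf.measurable_PsiE _ _ _ _ _) hmajor ?_
    exact HC (Cf.tauR S Q x s) S.nu x s d hs hd0 hdd' hτR
      (Cf.nuBound_sys hS Q x s dint hs hdint0.le hball)
  · intro β hβ q hq hq1
    simp only [dif_pos hβ]
    obtain ⟨hC0, HC⟩ := (Hβ β hβ).choose_spec
    have h1 := (hmajor q hq hq1).trans (HC (Cf.tauR S Q x s) s d hs hd0 hdd' hτR q.1)
    have h2 : 0 ≤ (Hβ β hβ).choose * s * d ^ β := by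
      have := Real.rpow_nonneg hd0 β
      positivity
    exact (ENNReal.ofReal_le_ofReal_iff h2).1 h1

end Claimed.Agent.R322.Sx
end

/- ===== packed: Claimed.Agent.R322.Sx.Config ===== -/
section
/-!
# R322 / Sx / Config : configurations, higher moments, support heights (AE Lemma 2.6)

`config` is AE Lemma 2.6.  Quantifier structure of the paper: the enlargement `c` and the constants
`C_p`, `C_β` are fixed first (they do not depend on the exceptional proportion `δ`); the threshold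
`d0` and the majority constant `C_δ` depend on `δ`; ONE configuration `A` satisfies the majority
property and all moment and support estimates.  "`Q` is selected on the enlarged ball" follows from
the smallness of `τ_Q` (`scalar_tau`).

`Fix m n Q Cg` bundles the "constants fixed once" of AE Section 4.3 (`r_maj`, `δ_maj`, `C_maj`, …)
together with the property that produces configurations.  All later statements at the count `Q` take
`F : Fix m n Q Cg` as an argument; `exists_fix` provides one.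

`AdmP`, `AdmB`, `IsWitness`, `ConfigHolds` now live in `Sx/Config/Defs.lean`, `majority_matching` in `Sx/Config/Match.lean` (verbatim);
`config` is proved in `Sx/Config/*.lean` (blueprint helper234, plan in `Sx/Config/Defs.lean`).
-/

set_option autoImplicit false

namespace Claimed.Agent.R322.Sx

open MeasureTheory Set Metric
open scoped ENNReal NNReal InnerProductSpace

/-- **AE Lemma 2.6.** -/
theorem config (m n Q : ℕ) (hm : 1 ≤ m) (hQ : 1 ≤ Q) (Cg : ℝ) :
    ∃ c : ℝ, 4 < c ∧ ∃ Cp Cβ : ℝ → ℝ, ∀ δ : ℝ, 0 < δ →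
      ∃ d0 Cδ : ℝ, 0 < d0 ∧ 0 < Cδ ∧ ConfigHolds m n Q Cg c δ d0 Cδ Cp Cβ :=
  config_main m n Q hm hQ Cg

/-- the overlap constant `ϑ_ov` of AE (4.9). -/
noncomputable def thetaOv (m : ℕ) : ℝ := (3 / 4 : ℝ) ^ m / (4 * (1 + 2 ^ m))

/-- adjacent balls of a comparison chain: radii within a factor two, centre step at most one quarter
of the smaller radius. -/
def Adjacent {m : ℕ} (x x' : E m) (s s' : ℝ) : Prop :=
  0 < s ∧ 0 < s' ∧ s ≤ 2 * s' ∧ s' ≤ 2 * s ∧ ‖x - x'‖ ≤ min s s' / 4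

/-- AE (4.9). -/
theorem overlap_of_adjacent {m n : ℕ} {S : Sys m n} (h : S.Valid) {x x' : E m} {s s' : ℝ}
    (hadj : Adjacent x x' s s') (hb : ball x s ⊆ S.Ω) (hb' : ball x' s' ⊆ S.Ω) :
    ENNReal.ofReal (thetaOv m) * (S.volS (ball x s) + S.volS (ball x' s'))
      ≤ S.volS (ball x s ∩ ball x' s') := by
  obtain ⟨hs, hs', h1, h2, hd⟩ := hadj
  obtain ⟨ω, hωdef⟩ : ∃ ω : ℝ, ω = (volume (ball (0 : E m) 1)).toReal := ⟨_, rfl⟩
  have hω : 0 < ω := hωdef ▸ volume_unit_ball_pos m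
  set r := min s s' with hr
  have hr0 : 0 < r := lt_min hs hs'
  have hrs : r ≤ s := min_le_left _ _
  have hrs' : r ≤ s' := min_le_right _ _
  have hs2 : s ≤ 2 * r := by
    rcases le_total s s' with h | h
    · rw [hr, min_eq_left h]; linarith
    · rw [hr, min_eq_right h]; exact h1
  have hs2' : s' ≤ 2 * r := by
    rcases le_total s s' with h | h
    · rw [hr, min_eq_left h]; exact h2
    · rw [hr, min_eq_right h]; linarith
  have hsub : ball x (3 / 4 * r) ⊆ ball x s ∩ ball x' s' := by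
    intro y hy
    have hy' : dist y x < 3 / 4 * r := mem_ball.1 hy
    refine ⟨mem_ball.2 (by linarith), mem_ball.2 ?_⟩
    have h3 : dist y x' ≤ dist y x + dist x x' := dist_triangle _ _ _
    rw [dist_eq_norm x x'] at h3
    linarith
  have hlow := h.sc_volS_ball_ge (x := x) (s := 3 / 4 * r) (by positivity)
    ((hsub.trans inter_subset_left).trans hb)
  rw [← hωdef] at hlow
  have hup := h.sc_volS_ball_le x hs
  have hup' := h.sc_volS_ball_le x' hs'
  rw [← hωdef] at hup hup'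
  have hθ : 0 < thetaOv m := by unfold thetaOv; positivity
  calc ENNReal.ofReal (thetaOv m) * (S.volS (ball x s) + S.volS (ball x' s'))
      ≤ ENNReal.ofReal (thetaOv m) *
        (ENNReal.ofReal (2 * ω * s ^ m) + ENNReal.ofReal (2 * ω * s' ^ m)) := by gcongr
    _ = ENNReal.ofReal (thetaOv m * (2 * ω * s ^ m + 2 * ω * s' ^ m)) := by
        rw [← ENNReal.ofReal_add (by positivity) (by positivity), ← ENNReal.ofReal_mul hθ.le]
    _ ≤ ENNReal.ofReal (ω * (3 / 4 * r) ^ m / 2) := by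
        apply ENNReal.ofReal_le_ofReal
        have e1 : s ^ m + s' ^ m ≤ r ^ m * (1 + 2 ^ m) := by
          rcases le_total s s' with hh | hh
          · have a1 : s = r := by rw [hr, min_eq_left hh]
            have a2 : s' ^ m ≤ (2 * r) ^ m := pow_le_pow_left₀ hs'.le hs2' m
            rw [mul_pow] at a2
            rw [a1]
            nlinarith
          · have a1 : s' = r := by rw [hr, min_eq_right hh]
            have a2 : s ^ m ≤ (2 * r) ^ m := pow_le_pow_left₀ hs.le hs2 m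
            rw [mul_pow] at a2
            rw [a1]
            nlinarith
        have e2 : thetaOv m * (2 * ω * (r ^ m * (1 + 2 ^ m))) = ω * (3 / 4 * r) ^ m / 2 := by
          unfold thetaOv
          rw [mul_pow]
          field_simp
          ring
        rw [← e2]
        have e3 : 2 * ω * s ^ m + 2 * ω * s' ^ m ≤ 2 * ω * (r ^ m * (1 + 2 ^ m)) := by
          have := mul_le_mul_of_nonneg_left e1 (by positivity : 0 ≤ 2 * ω)
          linarith
        exact mul_le_mul_of_nonneg_left e3 hθ.le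
    _ ≤ S.volS (ball x (3 / 4 * r)) := hlow
    _ ≤ _ := measure_mono hsub

/-- The constants fixed once at the count `Q` (AE Section 4.3), with their defining property. -/
structure Fix (m n Q : ℕ) (Cg : ℝ) where
  /-- enlargement of AE Lemma 2.6 -/
  c : ℝ
  /-- exceptional proportion `δ_maj` -/
  δmaj : ℝ
  /-- small-density threshold for `δ_maj` -/
  d0 : ℝ
  /-- majority constant `C_maj` -/
  Cmaj : ℝ
  /-- moment constants -/
  Cp : ℝ → ℝ
  /-- support constants -/
  Cβ : ℝ → ℝ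
  c_gt : 4 < c
  δ_pos : 0 < δmaj
  δ_lt : δmaj < thetaOv m
  d0_pos : 0 < d0
  Cmaj_pos : 0 < Cmaj
  cfg : ConfigHolds m n Q Cg c δmaj d0 Cmaj Cp Cβ

namespace Fix

variable {m n Q : ℕ} {Cg : ℝ}

/-- `r_maj`: the inner ball of a work ball `B_r(y)` (with `B_{4r}(y)` available) is
`B_{r_maj r}(y)`. -/
noncomputable def rmaj (F : Fix m n Q Cg) : ℝ := 4 / F.c

/-- majority configuration on `B_s(x)` with local upper bound `dloc`, AE Section 4.3. -/
def IsMaj (F : Fix m n Q Cg) (S : Sys m n) (x : E m) (s dloc : ℝ) (A : Fin Q → E n) : Prop :=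
  S.IsMajority x s F.δmaj (F.Cmaj * s * Real.sqrt dloc) A

/-- joint witness on `B_s(x)` with local upper bound `dloc`. -/
def IsWit (F : Fix m n Q Cg) (S : Sys m n) (x : E m) (s dloc : ℝ) (A : Fin Q → E n) : Prop :=
  IsWitness S x s dloc F.δmaj F.Cmaj F.Cp F.Cβ A

end Fix

theorem exists_fix (m n Q : ℕ) (hm : 1 ≤ m) (hQ : 1 ≤ Q) (Cg : ℝ) : Nonempty (Fix m n Q Cg) := by
  obtain ⟨c, hc, Cp, Cβ, H⟩ := config m n Q hm hQ Cg
  have hθ : 0 < thetaOv m := by unfold thetaOv; positivity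
  obtain ⟨d0, Cδ, hd0, hCδ, Hc⟩ := H (thetaOv m / 2) (by positivity)
  exact ⟨⟨c, thetaOv m / 2, d0, Cδ, Cp, Cβ, hc, by positivity, by linarith, hd0, hCδ, Hc⟩⟩

/-- AE (4.10) for adjacent balls. -/
theorem Fix.matching {m n Q : ℕ} {Cg : ℝ} (F : Fix m n Q Cg) {S : Sys m n} (h : S.Valid)
    {x x' : E m} {s s' d d' : ℝ} {A A' : Fin Q → E n} (hadj : Adjacent x x' s s')
    (hb : ball x s ⊆ S.Ω) (hb' : ball x' s' ⊆ S.Ω) (hA : F.IsMaj S x s d A)
    (hA' : F.IsMaj S x' s' d' A') :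
    Sys.Matched A A' (F.Cmaj * (s * Real.sqrt d + s' * Real.sqrt d')) := by
  have hov := overlap_of_adjacent h hadj hb hb'
  have hpos : 0 < S.volS (ball x s) := by
    refine lt_of_lt_of_le ?_ (h.sc_volS_ball_ge hadj.1 hb)
    rw [ENNReal.ofReal_pos]
    have := volume_unit_ball_pos m
    have := hadj.1
    positivity
  have hfin : S.volS (ball x s) + S.volS (ball x' s') ≠ ⊤ :=
    ENNReal.add_ne_top.2 ⟨((h.sc_volS_ball_le x hadj.1).trans_lt ENNReal.ofReal_lt_top).ne,
      ((h.sc_volS_ball_le x' hadj.2.1).trans_lt ENNReal.ofReal_lt_top).ne⟩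
  have hlt : ENNReal.ofReal F.δmaj * S.volS (ball x s) + ENNReal.ofReal F.δmaj * S.volS (ball x' s')
      < S.volS (ball x s ∩ ball x' s') := by
    refine lt_of_lt_of_le ?_ hov
    rw [← mul_add]
    refine ENNReal.mul_lt_mul_left (ne_of_gt (lt_of_lt_of_le hpos le_self_add)) hfin ?_
    exact (ENNReal.ofReal_lt_ofReal_iff (F.δ_pos.trans F.δ_lt)).2 F.δ_lt
  exact (majority_matching h hA hA' hlt).mono (le_of_eq (by ring))

end Claimed.Agent.R322.Sx
end
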