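/- Packed by merge_tool.py (helper293): 6 modules of Claimed.Agent.R322 in one file, same declarations.
   Old modules, in this order: Sx.Gauss.Deriv, Sx.Gauss.LB, Sx.Gauss.Bd, Sx.Gauss.Mass, Sx.Gauss.Horiz, Sx.Gauss.Normal -/
import Claimed.Agent.R322.Pack028

/- ===== packed: Claimed.Agent.R322.Sx.Gauss.Deriv ===== -/
section
/-!
# R322 / Sx / Gauss / Deriv : scale derivatives (D)  (leaf `L-Sx-Gauss`, helper297)
-/

set_option autoImplicit false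

namespace Claimed.Agent.R322.Sx

open MeasureTheory Set Metric
open scoped ENNReal NNReal InnerProductSpace

variable {m n : ℕ} {S : Sys m n} {χ : E m → ℝ} {x0 x : E m} {R h h1 K0 s : ℝ}

theorem gs_ker_le (hc : Chart S χ x0 R h x h1 K0) (hs : 0 < s) (x y : E m) :
    Sys.ker χ s x y ≤ s ^ (-(m : ℝ)) := by
  rw [gs_ker_def]
  calc χ y * gauss m s (y - x) ≤ 1 * gauss m s (y - x) :=
        mul_le_mul_of_nonneg_right (hc.cut.le_one y) (gs_gauss_nonneg m s _)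
    _ = gauss m s (y - x) := one_mul _
    _ ≤ _ := gs_gauss_le m hs _

theorem gs_kerDot_zero (hc : Chart S χ x0 R h x h1 K0) (s : ℝ) {y : E m}
    (hy : y ∉ closedBall x0 (R + h)) : kerDot χ s x y = 0 := by
  rw [kerDot_def, gs_ker_zero hc s hy, zero_mul]

theorem gs_kerDot_cont (hc : Chart S χ x0 R h x h1 K0) (s : ℝ) (x : E m) :
    Continuous (kerDot χ s x) :=
  (gs_ker_cont hc s x).mul (((gs_continuous_uu x s).norm.pow 2).sub continuous_const)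

theorem gs_norm_uu (hs : 0 < s) (x y : E m) : ‖uu x s y‖ = ‖y - x‖ / s := by
  rw [uu_def, norm_smul, Real.norm_eq_abs, abs_of_pos (inv_pos.2 hs), div_eq_inv_mul]

theorem gs_norm_uu_le (hc : Chart S χ x0 R h x h1 K0) (hs : 0 < s) {y : E m}
    (hy : y ∈ closedBall x0 (R + h)) : ‖uu x s y‖ ≤ 8 / s := by
  rw [gs_norm_uu hs]
  exact div_le_div_of_nonneg_right (gs_norm_le hc hy) hs.le

/-- differentiation under the integral sign, general form. -/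
theorem gs_hasDerivAt_int {α : Type*} [MeasurableSpace α] {ρ : Measure α} {p : α → E m}
    (hp : Measurable p) (hc : Chart S χ x0 R h x h1 K0) (hs : 0 < s)
    (hρ : ρ (p ⁻¹' closedBall x0 (R + h)) < (⊤ : ℝ≥0∞)) {g : α → ℝ} (hg : Measurable g) (G0 : ℝ)
    (hb : ∀ a, |g a| ≤ G0) :
    HasDerivAt (fun v => ∫ a, Sys.ker χ v x (p a) * g a ∂ρ)
      (s⁻¹ * ∫ a, kerDot χ s x (p a) * g a ∂ρ) s := by
  have hnh : Ioo (s / 2) (2 * s) ∈ nhds s := Ioo_mem_nhds (by linarith) (by linarith)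
  have hm0 : (0 : ℝ) ≤ m := Nat.cast_nonneg m
  have hKm : MeasurableSet (p ⁻¹' closedBall x0 (R + h)) := hp isClosed_closedBall.measurableSet
  set Cb : ℝ := (2 / s) * (((s / 2) ^ (-(m : ℝ)) * ((16 / s) ^ 2 + m)) * G0) with hCb
  have key := hasDerivAt_integral_of_dominated_loc_of_deriv_le (μ := ρ) (x₀ := s)
    (F := fun t a => Sys.ker χ t x (p a) * g a)
    (F' := fun t a => t⁻¹ * (kerDot χ t x (p a) * g a))
    (bound := (p ⁻¹' closedBall x0 (R + h)).indicator fun _ => Cb)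
    hnh
    (Filter.Eventually.of_forall fun t =>
      (((gs_ker_cont hc t x).measurable.comp hp).mul hg).aestronglyMeasurable)
    (by
      refine Sys.integrable_of_bdd_support (((gs_ker_cont hc s x).measurable.comp hp).mul hg) hρ
        ?_ (s ^ (-(m : ℝ)) * G0) ?_
      · intro a ha
        by_contra hcon
        apply ha
        show Sys.ker χ s x (p a) * g a = 0
        rw [gs_ker_zero hc s hcon, zero_mul]
      · intro a
        rw [abs_mul, abs_of_nonneg (gs_ker_nonneg' hc s x _)]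
        exact mul_le_mul (gs_ker_le hc hs x _) (hb a) (abs_nonneg _)
          (Real.rpow_pos_of_pos hs _).le)
    ((((gs_kerDot_cont hc s x).measurable.comp hp).mul hg).const_mul _).aestronglyMeasurable
    (Filter.Eventually.of_forall fun a t ht => by
      have ht0 : 0 < t := by have := ht.1; linarith
      by_cases ha : p a ∈ closedBall x0 (R + h)
      · rw [indicator_of_mem (show a ∈ p ⁻¹' closedBall x0 (R + h) from ha)]
        rw [norm_mul, Real.norm_eq_abs, Real.norm_eq_abs, abs_of_pos (inv_pos.2 ht0), hCb]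
        have e1 : t⁻¹ ≤ 2 / s := by
          rw [inv_le_comm₀ ht0 (by positivity), inv_div]
          exact ht.1.le
        have e2 : Sys.ker χ t x (p a) ≤ (s / 2) ^ (-(m : ℝ)) :=
          (gs_ker_le hc ht0 x _).trans
            (Real.rpow_le_rpow_of_nonpos (by positivity) ht.1.le (by linarith))
        have e3 : ‖uu x t (p a)‖ ≤ 16 / s := by
          refine (gs_norm_uu_le hc ht0 ha).trans ?_
          rw [div_le_div_iff₀ ht0 hs]
          have := ht.1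
          linarith
        have e4 : |‖uu x t (p a)‖ ^ 2 - m| ≤ (16 / s) ^ 2 + m := by
          have h5 : ‖uu x t (p a)‖ ^ 2 ≤ (16 / s) ^ 2 := pow_le_pow_left₀ (norm_nonneg _) e3 2
          have h6 : 0 ≤ ‖uu x t (p a)‖ ^ 2 := by positivity
          rw [abs_le]
          constructor <;> linarith
        have e5 : |kerDot χ t x (p a)| ≤ (s / 2) ^ (-(m : ℝ)) * ((16 / s) ^ 2 + m) := by
          rw [kerDot_def, abs_mul, abs_of_nonneg (gs_ker_nonneg' hc t x _)]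
          exact mul_le_mul e2 e4 (abs_nonneg _) (Real.rpow_pos_of_pos (by positivity) _).le
        have e6 : |kerDot χ t x (p a) * g a|
            ≤ ((s / 2) ^ (-(m : ℝ)) * ((16 / s) ^ 2 + m)) * G0 := by
          rw [abs_mul]
          exact mul_le_mul e5 (hb a) (abs_nonneg _) ((abs_nonneg _).trans e5)
        exact mul_le_mul e1 e6 (abs_nonneg _) (by positivity)
      · rw [indicator_of_notMem (show a ∉ p ⁻¹' closedBall x0 (R + h) from ha),
          gs_kerDot_zero hc t ha]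
        simp)
    ((integrable_indicator_iff hKm).2 (integrableOn_const hρ.ne))
    (Filter.Eventually.of_forall fun a t ht => by
      have ht0 : 0 < t := by have := ht.1; linarith
      have h3 := ((gs_hasDerivAt_gauss m ht0 (p a - x)).const_mul (χ (p a))).mul_const (g a)
      refine h3.congr_deriv ?_
      rw [kerDot_def, gs_ker_def, uu_def]
      ring)
  have h2 := key.2
  rw [integral_const_mul] at h2
  exact h2

/-! ### finiteness of the masses of the chart ball -/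

theorem gs_mu_lt_top (hc : Chart S χ x0 R h x h1 K0) :
    S.μ (Prod.fst ⁻¹' closedBall x0 (R + h)) < (⊤ : ℝ≥0∞) :=
  lt_of_le_of_lt (gs_mu_le hc) ENNReal.ofReal_lt_top

theorem gs_absM_lt_top (hS : S.Valid) (Q : ℕ) (hc : Chart S χ x0 R h x h1 K0) :
    S.absM Q (closedBall x0 (R + h)) < (⊤ : ℝ≥0∞) := by
  have hK : IsCompact (closedBall x0 (R + h)) := isCompact_closedBall _ _
  have hKm : MeasurableSet (closedBall x0 (R + h)) := hK.measurableSet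
  have hw : Measurable ((closedBall x0 (R + h)).indicator fun _ : E m => (1 : ℝ)) :=
    measurable_const.indicator hKm
  have hsup : Function.support ((closedBall x0 (R + h)).indicator fun _ : E m => (1 : ℝ))
      ⊆ closedBall x0 (R + h) := support_indicator_subset
  have hb : ∀ y, |(closedBall x0 (R + h)).indicator (fun _ : E m => (1 : ℝ)) y| ≤ 1 := by
    intro y
    by_cases hy : y ∈ closedBall x0 (R + h)
    · rw [indicator_of_mem hy]; simp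
    · rw [indicator_of_notMem hy]; simp
  have i1 := hS.integrable_Mpos Q hw hK hc.sub hsup 1 hb
  have i2 := hS.integrable_Mneg Q hw hK hc.sub hsup 1 hb
  rw [integrable_indicator_iff hKm, integrableOn_const_iff] at i1 i2
  rw [hS.absM_eq Q, Measure.add_apply]
  have j1 : S.Mpos Q (closedBall x0 (R + h)) < ⊤ := by
    rcases i1 with i1 | i1
    · exact absurd i1 (by simp)
    · exact i1
  have j2 : S.Mneg Q (closedBall x0 (R + h)) < ⊤ := by
    rcases i2 with i2 | i2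
    · exact absurd i2 (by simp)
    · exact i2
  exact ENNReal.add_lt_top.2 ⟨j1, j2⟩

/-- the push-forward of a bounded density. -/
theorem gs_dens_lt_top (hc : Chart S χ x0 R h x h1 K0) {d : E m × E n → ℝ} (C : ℝ)
    (hd : ∀ q, d q ≤ C) :
    ((S.μ.withDensity fun q => ENNReal.ofReal (d q)).map Prod.fst) (closedBall x0 (R + h))
      < (⊤ : ℝ≥0∞) := by
  have hKm : MeasurableSet (closedBall x0 (R + h)) := isClosed_closedBall.measurableSet
  rw [Measure.map_apply measurable_fst hKm, withDensity_apply _ (measurable_fst hKm)]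
  calc ∫⁻ q in Prod.fst ⁻¹' closedBall x0 (R + h), ENNReal.ofReal (d q) ∂S.μ
      ≤ ∫⁻ _q in Prod.fst ⁻¹' closedBall x0 (R + h), ENNReal.ofReal C ∂S.μ :=
        lintegral_mono fun q => ENNReal.ofReal_le_ofReal (hd q)
    _ = ENNReal.ofReal C * S.μ (Prod.fst ⁻¹' closedBall x0 (R + h)) := by
        rw [setLIntegral_const]
    _ < ⊤ := ENNReal.mul_lt_top ENNReal.ofReal_lt_top (gs_mu_lt_top hc)

theorem gs_Dm_lt_top (hS : S.Valid) (hc : Chart S χ x0 R h x h1 K0) :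
    S.Dm (closedBall x0 (R + h)) < (⊤ : ℝ≥0∞) := gs_dens_lt_top hc m hS.e_le

theorem gs_Lm_lt_top (hS : S.Valid) (hc : Chart S χ x0 R h x h1 K0) :
    S.Lm (closedBall x0 (R + h)) < (⊤ : ℝ≥0∞) := gs_dens_lt_top hc S.Cg hS.lam_le

theorem gs_tau_eq (S : Sys m n) (Q : ℕ) : S.tau Q = S.absM Q + S.Dm + S.Lm := rfl

theorem gs_tau_lt_top (hS : S.Valid) (Q : ℕ) (hc : Chart S χ x0 R h x h1 K0) :
    S.tau Q (closedBall x0 (R + h)) < (⊤ : ℝ≥0∞) := by
  rw [gs_tau_eq, Measure.add_apply, Measure.add_apply]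
  exact ENNReal.add_lt_top.2 ⟨ENNReal.add_lt_top.2 ⟨gs_absM_lt_top hS Q hc, gs_Dm_lt_top hS hc⟩,
    gs_Lm_lt_top hS hc⟩

/-! ### the three scale derivatives -/

theorem gs_hasDerivAt_avg (hc : Chart S χ x0 R h x h1 K0) (hs : 0 < s) {g : E m × E n → ℝ}
    (hg : Measurable g) (G0 : ℝ) (hb : ∀ q, |g q| ≤ G0) :
    HasDerivAt (fun v => S.avg χ v x g) (s⁻¹ * ∫ q, kerDot χ s x q.1 * g q ∂S.μ) s :=
  gs_hasDerivAt_int (ρ := S.μ) (p := Prod.fst) measurable_fst hc hs (gs_mu_lt_top hc) hg G0 hb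

theorem gs_hasDerivAt_tauav (hS : S.Valid) (Q : ℕ) (hc : Chart S χ x0 R h x h1 K0) (hs : 0 < s) :
    HasDerivAt (fun v => S.tauav Q χ v x) (s⁻¹ * ∫ y, kerDot χ s x y ∂(S.tau Q)) s := by
  have h := gs_hasDerivAt_int (ρ := S.tau Q) (p := id) measurable_id hc hs
    (by rw [preimage_id]; exact gs_tau_lt_top hS Q hc) (g := fun _ => (1 : ℝ)) measurable_const 1
    (fun _ => by simp)
  simp only [mul_one, id] at h
  exact h

theorem gs_hasDerivAt_Mav (hS : S.Valid) (Q : ℕ) (hc : Chart S χ x0 R h x h1 K0) (hs : 0 < s) :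
    HasDerivAt (fun v => S.Mav Q χ v x) (s⁻¹ * S.intM Q (kerDot χ s x)) s := by
  have h1 := gs_hasDerivAt_int (ρ := S.μ) (p := Prod.fst) measurable_fst hc hs (gs_mu_lt_top hc)
    (g := fun _ => (1 : ℝ)) measurable_const 1 (fun _ => by simp)
  have h2 := gs_hasDerivAt_int (ρ := volume.restrict S.Ω) (p := id) measurable_id hc hs
    (by
      rw [preimage_id]
      exact lt_of_le_of_lt (Measure.restrict_apply_le _ _)
        (isCompact_closedBall x0 (R + h)).measure_lt_top)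
    (g := S.a) hS.measurable_a 2
    (fun y => by rw [abs_of_pos (hS.a_pos y)]; exact hS.a_upper y)
  simp only [mul_one, id] at h1 h2
  have h3 := h1.sub (h2.const_mul (Q : ℝ))
  refine h3.congr_deriv ?_
  show _ = s⁻¹ * ((∫ q, kerDot χ s x q.1 ∂S.μ) - Q * ∫ y in S.Ω, kerDot χ s x y * S.a y)
  ring

end Claimed.Agent.R322.Sx
end

/- ===== packed: Claimed.Agent.R322.Sx.Gauss.LB ===== -/
section
/-!
# R322 / Sx / Gauss / LB : "measurable and dominated by a continuous function", a compositional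
integrability criterion  (leaf `L-Sx-Gauss`, helper297)
-/

set_option autoImplicit false

namespace Claimed.Agent.R322.Sx

open MeasureTheory Set Metric
open scoped ENNReal NNReal InnerProductSpace

variable {m n : ℕ}

/-- measurable and dominated by a continuous function. -/
def GsLB {F : Type*} [NormedAddCommGroup F] [MeasurableSpace F] (g : E m × E n → F) : Prop :=
  Measurable g ∧ ∃ b : E m × E n → ℝ, Continuous b ∧ ∀ q, ‖g q‖ ≤ b q

namespace GsLB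

section general

variable {F : Type*} [NormedAddCommGroup F] [MeasurableSpace F]

theorem of_cont [BorelSpace F] {g : E m × E n → F} (hg : Continuous g) : GsLB g :=
  ⟨hg.measurable, fun q => ‖g q‖, hg.norm, fun _ => le_rfl⟩

theorem of_bdd {g : E m × E n → F} (hg : Measurable g) (C : ℝ) (h : ∀ q, ‖g q‖ ≤ C) : GsLB g :=
  ⟨hg, fun _ => C, continuous_const, h⟩

theorem of_le {g : E m × E n → F} (hg : Measurable g) {b : E m × E n → ℝ} (hb : GsLB b)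
    (h : ∀ q, ‖g q‖ ≤ b q) : GsLB g := by
  obtain ⟨_, c, hc, hle⟩ := hb
  exact ⟨hg, c, hc, fun q => (h q).trans ((le_abs_self _).trans (hle q))⟩

theorem const (c : F) : GsLB (fun _ : E m × E n => c) :=
  ⟨measurable_const, fun _ => ‖c‖, continuous_const, fun _ => le_rfl⟩

theorem add [BorelSpace F] [SecondCountableTopology F] {g₁ g₂ : E m × E n → F} (h₁ : GsLB g₁)
    (h₂ : GsLB g₂) : GsLB fun q => g₁ q + g₂ q := by
  obtain ⟨m₁, b₁, c₁, l₁⟩ := h₁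
  obtain ⟨m₂, b₂, c₂, l₂⟩ := h₂
  exact ⟨m₁.add m₂, fun q => b₁ q + b₂ q, c₁.add c₂,
    fun q => (norm_add_le _ _).trans (add_le_add (l₁ q) (l₂ q))⟩

theorem sub [BorelSpace F] [SecondCountableTopology F] {g₁ g₂ : E m × E n → F} (h₁ : GsLB g₁)
    (h₂ : GsLB g₂) : GsLB fun q => g₁ q - g₂ q := by
  obtain ⟨m₁, b₁, c₁, l₁⟩ := h₁
  obtain ⟨m₂, b₂, c₂, l₂⟩ := h₂
  exact ⟨m₁.sub m₂, fun q => b₁ q + b₂ q, c₁.add c₂,
    fun q => (norm_sub_le _ _).trans (add_le_add (l₁ q) (l₂ q))⟩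

theorem norm [BorelSpace F] {g : E m × E n → F} (h : GsLB g) : GsLB fun q => ‖g q‖ := by
  obtain ⟨m₁, b₁, c₁, l₁⟩ := h
  exact ⟨m₁.norm, b₁, c₁, fun q => by rw [norm_norm]; exact l₁ q⟩

end general

section scalar

variable {g g₁ g₂ : E m × E n → ℝ}

theorem neg (h : GsLB g) : GsLB fun q => - g q := by
  obtain ⟨m₁, b₁, c₁, l₁⟩ := h
  exact ⟨m₁.neg, b₁, c₁, fun q => by rw [norm_neg]; exact l₁ q⟩

theorem abs (h : GsLB g) : GsLB fun q => |g q| := h.norm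

theorem mul (h₁ : GsLB g₁) (h₂ : GsLB g₂) : GsLB fun q => g₁ q * g₂ q := by
  obtain ⟨m₁, b₁, c₁, l₁⟩ := h₁
  obtain ⟨m₂, b₂, c₂, l₂⟩ := h₂
  refine ⟨m₁.mul m₂, fun q => b₁ q * b₂ q, c₁.mul c₂, fun q => ?_⟩
  rw [norm_mul]
  exact mul_le_mul (l₁ q) (l₂ q) (norm_nonneg _) ((norm_nonneg _).trans (l₁ q))

theorem pow (h : GsLB g) (k : ℕ) : GsLB fun q => g q ^ k := by
  obtain ⟨m₁, b₁, c₁, l₁⟩ := h
  refine ⟨m₁.pow_const k, fun q => b₁ q ^ k, c₁.pow k, fun q => ?_⟩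
  rw [norm_pow]
  exact pow_le_pow_left₀ (norm_nonneg _) (l₁ q) k

theorem sqrt (h : GsLB g) : GsLB fun q => Real.sqrt (g q) := by
  obtain ⟨m₁, b₁, c₁, l₁⟩ := h
  refine ⟨m₁.sqrt, fun q => 1 + b₁ q, continuous_const.add c₁, fun q => ?_⟩
  rw [Real.norm_of_nonneg (Real.sqrt_nonneg _)]
  have h1 : g q ≤ b₁ q := (le_abs_self _).trans (l₁ q)
  have h2 : 0 ≤ b₁ q := (norm_nonneg _).trans (l₁ q)
  rw [Real.sqrt_le_iff]
  constructor
  · linarith
  · nlinarith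

end scalar

section vector

variable {k l j : ℕ}

theorem smul {c : E m × E n → ℝ} {v : E m × E n → E k} (h₁ : GsLB c) (h₂ : GsLB v) :
    GsLB fun q => c q • v q := by
  obtain ⟨m₁, b₁, c₁, l₁⟩ := h₁
  obtain ⟨m₂, b₂, c₂, l₂⟩ := h₂
  refine ⟨m₁.smul m₂, fun q => b₁ q * b₂ q, c₁.mul c₂, fun q => ?_⟩
  rw [norm_smul]
  exact mul_le_mul (l₁ q) (l₂ q) (norm_nonneg _) ((norm_nonneg _).trans (l₁ q))

theorem inner {u v : E m × E n → E k} (h₁ : GsLB u) (h₂ : GsLB v) :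
    GsLB fun q => ⟪u q, v q⟫_ℝ := by
  obtain ⟨m₁, b₁, c₁, l₁⟩ := h₁
  obtain ⟨m₂, b₂, c₂, l₂⟩ := h₂
  refine ⟨gs_meas_inner m₁ m₂, fun q => b₁ q * b₂ q, c₁.mul c₂, fun q => ?_⟩
  exact (norm_inner_le_norm _ _).trans
    (mul_le_mul (l₁ q) (l₂ q) (norm_nonneg _) ((norm_nonneg _).trans (l₁ q)))

theorem clm_apply {A : E m × E n → E k →L[ℝ] E l} {v : E m × E n → E k} (h₁ : GsLB A)
    (h₂ : GsLB v) : GsLB fun q => A q (v q) := by
  obtain ⟨m₁, b₁, c₁, l₁⟩ := h₁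
  obtain ⟨m₂, b₂, c₂, l₂⟩ := h₂
  refine ⟨gs_meas_clm_apply m₁ m₂, fun q => b₁ q * b₂ q, c₁.mul c₂, fun q => ?_⟩
  exact ((A q).le_opNorm _).trans
    (mul_le_mul (l₁ q) (l₂ q) (norm_nonneg _) ((norm_nonneg _).trans (l₁ q)))

theorem clm_apply' {A : E m × E n → E k →L[ℝ] ℝ} {v : E m × E n → E k} (h₁ : GsLB A)
    (h₂ : GsLB v) : GsLB fun q => A q (v q) := by
  obtain ⟨m₁, b₁, c₁, l₁⟩ := h₁
  obtain ⟨m₂, b₂, c₂, l₂⟩ := h₂
  refine ⟨gs_meas_clm_apply' m₁ m₂, fun q => b₁ q * b₂ q, c₁.mul c₂, fun q => ?_⟩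
  exact ((A q).le_opNorm _).trans
    (mul_le_mul (l₁ q) (l₂ q) (norm_nonneg _) ((norm_nonneg _).trans (l₁ q)))

theorem clm_comp {A : E m × E n → E l →L[ℝ] E j} {B : E m × E n → E k →L[ℝ] E l} (h₁ : GsLB A)
    (h₂ : GsLB B) : GsLB fun q => A q ∘L B q := by
  obtain ⟨m₁, b₁, c₁, l₁⟩ := h₁
  obtain ⟨m₂, b₂, c₂, l₂⟩ := h₂
  refine ⟨gs_meas_clm_comp m₁ m₂, fun q => b₁ q * b₂ q, c₁.mul c₂, fun q => ?_⟩
  exact ((A q).opNorm_comp_le _).trans
    (mul_le_mul (l₁ q) (l₂ q) (norm_nonneg _) ((norm_nonneg _).trans (l₁ q)))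

theorem adjoint {A : E m × E n → E k →L[ℝ] E l} (h : GsLB A) :
    GsLB fun q => ContinuousLinearMap.adjoint (A q) := by
  obtain ⟨m₁, b₁, c₁, l₁⟩ := h
  refine ⟨gs_meas_adjoint m₁, b₁, c₁, fun q => ?_⟩
  rw [LinearIsometryEquiv.norm_map]
  exact l₁ q

theorem tr {A : E m × E n → E k →L[ℝ] E k} (h : GsLB A) : GsLB fun q => tr (A q) := by
  obtain ⟨m₁, b₁, c₁, l₁⟩ := h
  refine ⟨measurable_tr.comp m₁, fun q => k * b₁ q, continuous_const.mul c₁, fun q => ?_⟩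
  exact (abs_tr_le _).trans (mul_le_mul_of_nonneg_left (l₁ q) (Nat.cast_nonneg k))

end vector

/-- functions of the base point. -/
theorem fst {F : Type*} [NormedAddCommGroup F] [MeasurableSpace F] [BorelSpace F] {w : E m → F}
    (hw : Continuous w) : GsLB fun q : E m × E n => w q.1 :=
  of_cont (hw.comp continuous_fst)

/-- functions of the height. -/
theorem snd {F : Type*} [NormedAddCommGroup F] [MeasurableSpace F] [BorelSpace F] {w : E n → F}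
    (hw : Continuous w) : GsLB fun q : E m × E n => w q.2 :=
  of_cont (hw.comp continuous_snd)

variable {S : Sys m n} {χ : E m → ℝ} {x0 x : E m} {R h h1 K0 s : ℝ}

/-- the integrability criterion. -/
theorem integrable {g : E m × E n → ℝ} (hg : GsLB g) (hS : S.Valid)
    (hc : Chart S χ x0 R h x h1 K0)
    (hz : ∀ q : E m × E n, q.1 ∉ closedBall x0 (R + h) → g q = 0) : Integrable g S.μ := by
  obtain ⟨m₁, b₁, c₁, l₁⟩ := hg
  exact gs_integrable hS hc m₁ hz c₁ l₁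

end GsLB

/-! ### the coefficient fields of a valid system -/

section fields

variable {S : Sys m n}

theorem gs_lb_e (hS : S.Valid) : GsLB S.e :=
  GsLB.of_bdd hS.meas_e m fun q => by
    rw [Real.norm_of_nonneg (hS.e_nonneg q)]; exact hS.e_le q

theorem gs_lb_lam (hS : S.Valid) : GsLB S.lam :=
  GsLB.of_bdd hS.meas_lam S.Cg fun q => by
    rw [Real.norm_of_nonneg (hS.lam_nonneg q)]; exact hS.lam_le q

theorem gs_lb_B (hS : S.Valid) : GsLB S.B :=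
  GsLB.of_le hS.meas_B (gs_lb_e hS) hS.norm_B_le

theorem gs_lb_Pvv (hS : S.Valid) : GsLB S.Pvv :=
  GsLB.of_le hS.meas_Pvv (gs_lb_e hS) hS.norm_Pvv_le

theorem gs_lb_Pvh (hS : S.Valid) : GsLB S.Pvh :=
  GsLB.of_le hS.meas_Pvh (gs_lb_e hS).sqrt hS.norm_Pvh_le

theorem gs_lb_E1 (hS : S.Valid) : GsLB S.E1 :=
  GsLB.of_le hS.meas_E1 ((GsLB.const (S.Cg * S.γ)).mul ((gs_lb_e hS).add (gs_lb_lam hS))) hS.E1_le

theorem gs_lb_E2 (hS : S.Valid) : GsLB S.E2 :=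
  GsLB.of_le hS.meas_E2 ((GsLB.const (S.Cg * S.γ)).mul ((gs_lb_e hS).add (gs_lb_lam hS))) hS.E2_le

theorem gs_lb_E3 (hS : S.Valid) : GsLB S.E3 :=
  GsLB.of_le hS.meas_E3
    ((GsLB.const (S.Cg * S.γ)).mul ((gs_lb_e hS).sqrt.add (gs_lb_lam hS).sqrt)) hS.E3_le

theorem gs_lb_E4 (hS : S.Valid) : GsLB S.E4 :=
  GsLB.of_le hS.meas_E4
    ((GsLB.const (S.Cg * S.γ)).mul ((gs_lb_e hS).mul (gs_lb_lam hS)).sqrt) hS.E4_le

theorem gs_lb_E5 (hS : S.Valid) : GsLB S.E5 :=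
  GsLB.of_le hS.meas_E5
    ((GsLB.const (S.Cg * S.γ)).mul ((gs_lb_e hS).sqrt.add (gs_lb_lam hS).sqrt)) hS.E5_le

theorem gs_lb_E6 (hS : S.Valid) : GsLB S.E6 :=
  GsLB.of_le hS.meas_E6 ((GsLB.const (S.Cg * S.γ)).mul (gs_lb_e hS).sqrt) hS.E6_le

end fields

end Claimed.Agent.R322.Sx
end

/- ===== packed: Claimed.Agent.R322.Sx.Gauss.Bd ===== -/
section
/-!
# R322 / Sx / Gauss / Bd : common pointwise bounds and integrability facts
(leaf `L-Sx-Gauss`, helper297)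
-/

set_option autoImplicit false

namespace Claimed.Agent.R322.Sx

open MeasureTheory Set Metric
open scoped ENNReal NNReal InnerProductSpace

variable {m n : ℕ} {S : Sys m n} {χ : E m → ℝ} {x0 x : E m} {R h h1 K0 s : ℝ}

/-! ### the field `gX` -/

theorem gs_gX_zero (hc : Chart S χ x0 R h x h1 K0) (s : ℝ) {y : E m}
    (hy : y ∉ closedBall x0 (R + h)) : gX χ s x y = 0 := by
  rw [gX_def, gs_ker_zero hc s hy, zero_smul]

theorem gs_gX_contDiff (hc : Chart S χ x0 R h x h1 K0) (s : ℝ) (x : E m) :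
    ContDiff ℝ 1 (gX χ s x) :=
  gs_contDiff_gX (by exact_mod_cast le_top) (hc.cut.smooth.of_le (by norm_num)) s x

theorem gs_gX_cont (hc : Chart S χ x0 R h x h1 K0) (s : ℝ) (x : E m) : Continuous (gX χ s x) :=
  (gs_gX_contDiff hc s x).continuous

theorem gs_tsupport_gX (hc : Chart S χ x0 R h x h1 K0) (s : ℝ) :
    tsupport (gX χ s x) ⊆ closedBall x0 (R + h) := by
  refine closure_minimal ?_ isClosed_closedBall
  intro y hy
  by_contra hcon
  exact hy (gs_gX_zero hc s hcon)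

theorem gs_gX_cpt (hc : Chart S χ x0 R h x h1 K0) (s : ℝ) : HasCompactSupport (gX χ s x) :=
  HasCompactSupport.intro (isCompact_closedBall x0 (R + h)) fun _ hy => gs_gX_zero hc s hy

theorem gs_ker_contDiff (hc : Chart S χ x0 R h x h1 K0) (s : ℝ) (x : E m) :
    ContDiff ℝ 1 (Sys.ker χ s x) :=
  gs_contDiff_ker (by exact_mod_cast le_top) (hc.cut.smooth.of_le (by norm_num)) s x

theorem gs_tsupport_ker (hc : Chart S χ x0 R h x h1 K0) (s : ℝ) :
    tsupport (Sys.ker χ s x) ⊆ closedBall x0 (R + h) := by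
  refine closure_minimal ?_ isClosed_closedBall
  intro y hy
  by_contra hcon
  exact hy (gs_ker_zero hc s hcon)

theorem gs_ker_cpt (hc : Chart S χ x0 R h x h1 K0) (s : ℝ) : HasCompactSupport (Sys.ker χ s x) :=
  HasCompactSupport.intro (isCompact_closedBall x0 (R + h)) fun _ hy => gs_ker_zero hc s hy

theorem gs_norm_gX (hc : Chart S χ x0 R h x h1 K0) (hs : 0 < s) (y : E m) :
    ‖gX χ s x y‖ = Sys.ker χ s x y * (s * ‖uu x s y‖) := by
  rw [gs_gX_eq hs, norm_smul, Real.norm_of_nonneg (mul_nonneg (gs_ker_nonneg' hc s x y) hs.le)]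
  ring

/-! ### elementary inequalities -/

theorem gs_t_le (t : ℝ) : t ≤ 1 + t ^ 2 := by nlinarith [sq_nonneg (t - 1)]

theorem gs_st_le {s : ℝ} (hs : 0 < s) (hs1 : s ≤ 1) {t : ℝ} (_ht : 0 ≤ t) : s * t ≤ 1 + t ^ 2 := by
  nlinarith [sq_nonneg (t - 1)]

theorem gs_abs_tr_sub_le {k : ℕ} (A : E k →L[ℝ] E k) (u : E k) :
    |tr A - ⟪A u, u⟫_ℝ| ≤ ‖A‖ * ((k + 1) * (1 + ‖u‖ ^ 2)) := by
  have h1 := abs_tr_le A
  have h2 : |⟪A u, u⟫_ℝ| ≤ ‖A‖ * ‖u‖ ^ 2 := by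
    refine (abs_real_inner_le_norm _ _).trans ?_
    calc ‖A u‖ * ‖u‖ ≤ (‖A‖ * ‖u‖) * ‖u‖ :=
          mul_le_mul_of_nonneg_right (A.le_opNorm u) (norm_nonneg _)
      _ = _ := by ring
  have h3 : 0 ≤ ‖A‖ * ((k : ℝ) * ‖u‖ ^ 2 + 1) := by positivity
  calc |tr A - ⟪A u, u⟫_ℝ| ≤ |tr A| + |⟪A u, u⟫_ℝ| := abs_sub _ _
    _ ≤ k * ‖A‖ + ‖A‖ * ‖u‖ ^ 2 := add_le_add h1 h2
    _ ≤ _ := by nlinarith

/-! ### sizes -/

theorem gs_Cg_pos (hS : S.Valid) : 0 < S.Cg := lt_of_lt_of_le one_pos hS.one_le_Cg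

theorem gs_Cgγ_nonneg (hS : S.Valid) : 0 ≤ S.Cg * S.γ := mul_nonneg (gs_Cg_pos hS).le hS.γ_nonneg

theorem gs_Cgγ_le (hS : S.Valid) : S.Cg * S.γ ≤ S.Cg := by
  have := mul_le_mul_of_nonneg_left hS.γ_le_one (gs_Cg_pos hS).le
  linarith

theorem gs_norm_E1_le (hS : S.Valid) (q : E m × E n) : ‖S.E1 q‖ ≤ S.Cg * (m + S.Cg) := by
  refine (hS.E1_le q).trans ?_
  have h1 := hS.e_le q
  have h2 := hS.lam_le q
  have h3 := hS.e_nonneg q
  have h4 := hS.lam_nonneg q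
  exact mul_le_mul (gs_Cgγ_le hS) (by linarith) (by linarith) (gs_Cg_pos hS).le

theorem gs_sqrt_e_le (hS : S.Valid) (q : E m × E n) : Real.sqrt (S.e q) ≤ m + 1 := by
  have hm : (0 : ℝ) ≤ m := Nat.cast_nonneg m
  rw [Real.sqrt_le_iff]
  refine ⟨by linarith, ?_⟩
  have := hS.e_le q
  nlinarith

theorem gs_norm_Da_le (hS : S.Valid) (y : E m) : ‖fderiv ℝ S.a y‖ ≤ S.Cg * S.γ := by
  have := hS.a_deriv 1 le_rfl (by norm_num) y
  rwa [norm_iteratedFDeriv_one] at this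

theorem gs_abs_aDa_le (hS : S.Valid) (y w : E m) :
    |(S.a y)⁻¹ * fderiv ℝ S.a y w| ≤ 2 * (S.Cg * S.γ) * ‖w‖ := by
  have ha := hS.a_pos y
  have h1 : (S.a y)⁻¹ ≤ 2 := by
    rw [inv_le_comm₀ ha (by norm_num)]
    have := hS.a_lower y
    linarith
  rw [abs_mul, abs_of_pos (inv_pos.2 ha), mul_assoc]
  refine mul_le_mul h1 ?_ (abs_nonneg _) (by norm_num)
  exact ((fderiv ℝ S.a y).le_opNorm w).trans
    (mul_le_mul_of_nonneg_right (gs_norm_Da_le hS y) (norm_nonneg _))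

theorem gs_aDa_cont (hS : S.Valid) {X : E m → E m} (hX : Continuous X) :
    Continuous fun y => (S.a y)⁻¹ * fderiv ℝ S.a y (X y) := by
  have h1 : Continuous S.a := hS.a_contDiff.continuous
  have h2 : Continuous (fderiv ℝ S.a) := hS.a_contDiff.continuous_fderiv (by norm_num)
  exact (h1.inv₀ fun y => (hS.a_pos y).ne').mul (h2.clm_apply hX)

/-! ### integrability on the base -/

theorem gs_abs_integral_le {α : Type*} [MeasurableSpace α] {μ : Measure α} {f g : α → ℝ}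
    (hg : Integrable g μ) (h : ∀ a, |f a| ≤ g a) : |∫ a, f a ∂μ| ≤ ∫ a, g a ∂μ := by
  rw [← Real.norm_eq_abs]
  exact norm_integral_le_of_norm_le hg (Filter.Eventually.of_forall h)

theorem gs_abs_integral_le3 {α : Type*} [MeasurableSpace α] {μ : Measure α}
    {f d₁ d₂ d₃ : α → ℝ} {c₁ c₂ c₃ : ℝ} (h₁ : Integrable d₁ μ) (h₂ : Integrable d₂ μ)
    (h₃ : Integrable d₃ μ) (h : ∀ a, |f a| ≤ c₁ * d₁ a + c₂ * d₂ a + c₃ * d₃ a) :
    |∫ a, f a ∂μ| ≤ c₁ * ∫ a, d₁ a ∂μ + c₂ * ∫ a, d₂ a ∂μ + c₃ * ∫ a, d₃ a ∂μ := by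
  have h4 := gs_abs_integral_le (((h₁.const_mul c₁).add (h₂.const_mul c₂)).add (h₃.const_mul c₃)) h
  have e : ∫ a, ((fun a => c₁ * d₁ a) + (fun a => c₂ * d₂ a) + fun a => c₃ * d₃ a) a ∂μ
      = c₁ * ∫ a, d₁ a ∂μ + c₂ * ∫ a, d₂ a ∂μ + c₃ * ∫ a, d₃ a ∂μ := by
    rw [integral_add' ((h₁.const_mul c₁).add (h₂.const_mul c₂)) (h₃.const_mul c₃),
      integral_add' (h₁.const_mul c₁) (h₂.const_mul c₂), integral_const_mul, integral_const_mul,
      integral_const_mul]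
  rw [← e]
  exact h4

theorem gs_abs_integral_le4 {α : Type*} [MeasurableSpace α] {μ : Measure α}
    {f d₁ d₂ d₃ d₄ : α → ℝ} {c₁ c₂ c₃ c₄ : ℝ} (h₁ : Integrable d₁ μ) (h₂ : Integrable d₂ μ)
    (h₃ : Integrable d₃ μ) (h₄ : Integrable d₄ μ)
    (h : ∀ a, |f a| ≤ c₁ * d₁ a + c₂ * d₂ a + c₃ * d₃ a + c₄ * d₄ a) :
    |∫ a, f a ∂μ|
      ≤ c₁ * ∫ a, d₁ a ∂μ + c₂ * ∫ a, d₂ a ∂μ + c₃ * ∫ a, d₃ a ∂μ + c₄ * ∫ a, d₄ a ∂μ := by
  have h5 := gs_abs_integral_le ((((h₁.const_mul c₁).add (h₂.const_mul c₂)).add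
    (h₃.const_mul c₃)).add (h₄.const_mul c₄)) h
  have e : ∫ a, ((fun a => c₁ * d₁ a) + (fun a => c₂ * d₂ a) + (fun a => c₃ * d₃ a)
        + fun a => c₄ * d₄ a) a ∂μ
      = c₁ * ∫ a, d₁ a ∂μ + c₂ * ∫ a, d₂ a ∂μ + c₃ * ∫ a, d₃ a ∂μ + c₄ * ∫ a, d₄ a ∂μ := by
    rw [integral_add' (((h₁.const_mul c₁).add (h₂.const_mul c₂)).add (h₃.const_mul c₃))
        (h₄.const_mul c₄),
      integral_add' ((h₁.const_mul c₁).add (h₂.const_mul c₂)) (h₃.const_mul c₃),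
      integral_add' (h₁.const_mul c₁) (h₂.const_mul c₂), integral_const_mul, integral_const_mul,
      integral_const_mul, integral_const_mul]
  rw [← e]
  exact h5

theorem gs_integral_sub_add {α : Type*} [MeasurableSpace α] {μ : Measure α} {p₁ p₂ e : α → ℝ}
    (h₁ : Integrable p₁ μ) (h₂ : Integrable p₂ μ) (he : Integrable e μ) :
    ∫ a, (p₁ a - p₂ a + e a) ∂μ = (∫ a, p₁ a ∂μ) - (∫ a, p₂ a ∂μ) + ∫ a, e a ∂μ := by
  have h3 : Integrable (fun a => p₁ a - p₂ a) μ := h₁.sub h₂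
  rw [integral_add h3 he, integral_sub h₁ h₂]

theorem gs_integrable_add4 {α : Type*} [MeasurableSpace α] {μ : Measure α} {e₁ e₂ e₃ e₄ : α → ℝ}
    (h₁ : Integrable e₁ μ) (h₂ : Integrable e₂ μ) (h₃ : Integrable e₃ μ) (h₄ : Integrable e₄ μ) :
    Integrable (fun a => e₁ a + e₂ a + e₃ a + e₄ a) μ := ((h₁.add h₂).add h₃).add h₄

theorem gs_exists_bound {x0 : E m} {r : ℝ} {w : E m → ℝ} (hw : Continuous w)
    (hz : ∀ y, y ∉ closedBall x0 r → w y = 0) : ∃ C, ∀ y, |w y| ≤ C := by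
  obtain ⟨C, hC⟩ := (isCompact_closedBall x0 r).exists_bound_of_continuousOn hw.continuousOn
  refine ⟨max C 0, fun y => ?_⟩
  by_cases hy : y ∈ closedBall x0 r
  · exact (hC y hy).trans (le_max_left _ _)
  · rw [hz y hy, abs_zero]
    exact le_max_right _ _

theorem gs_integrable_base {x0 : E m} {r : ℝ} {ρ : Measure (E m)}
    (hρ : ρ (closedBall x0 r) < (⊤ : ℝ≥0∞)) {w : E m → ℝ} (hw : Continuous w)
    (hz : ∀ y, y ∉ closedBall x0 r → w y = 0) : Integrable w ρ := by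
  obtain ⟨C, hC⟩ := gs_exists_bound hw hz
  refine Sys.integrable_of_bdd_support hw.measurable hρ ?_ C hC
  intro y hy
  by_contra hcon
  exact hy (hz y hcon)

theorem gs_volΩ_le (hc : Chart S χ x0 R h x h1 K0) :
    (volume.restrict S.Ω) (id ⁻¹' closedBall x0 (R + h)) ≤ ENNReal.ofReal K0 := by
  rw [preimage_id]
  exact (Measure.restrict_apply_le _ _).trans (gs_vol_le hc)

theorem gs_tailG_nonneg (hc : Chart S χ x0 R h x h1 K0) (hs : 0 < s) :
    0 ≤ tailG m K0 s h h1 := by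
  rw [tailG_def]
  have h1 := gs_K0_pos hc
  have h2 := hc.h_pos
  have h3 : 0 < s ^ (-(m : ℝ)) := Real.rpow_pos_of_pos hs _
  positivity

/-- linearity of `intM` on continuous functions vanishing off the chart ball. -/
theorem gs_intM_lin (hS : S.Valid) (Q : ℕ) (hc : Chart S χ x0 R h x h1 K0) {w₁ w₂ : E m → ℝ}
    (c₁ : Continuous w₁) (z₁ : ∀ y, y ∉ closedBall x0 (R + h) → w₁ y = 0)
    (c₂ : Continuous w₂) (z₂ : ∀ y, y ∉ closedBall x0 (R + h) → w₂ y = 0) (a b : ℝ) :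
    S.intM Q (fun y => a * w₁ y + b * w₂ y) = a * S.intM Q w₁ + b * S.intM Q w₂ := by
  have i₁ : Integrable (fun q : E m × E n => w₁ q.1) S.μ :=
    (GsLB.fst c₁).integrable hS hc fun q hq => z₁ q.1 hq
  have i₂ : Integrable (fun q : E m × E n => w₂ q.1) S.μ :=
    (GsLB.fst c₂).integrable hS hc fun q hq => z₂ q.1 hq
  have hv : (volume.restrict S.Ω) (closedBall x0 (R + h)) < (⊤ : ℝ≥0∞) :=
    lt_of_le_of_lt (Measure.restrict_apply_le _ _) (isCompact_closedBall x0 (R + h)).measure_lt_top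
  have ca : Continuous S.a := hS.a_contDiff.continuous
  have j₁ : Integrable (fun y => w₁ y * S.a y) (volume.restrict S.Ω) :=
    gs_integrable_base hv (c₁.mul ca) fun y hy => by rw [z₁ y hy, zero_mul]
  have j₂ : Integrable (fun y => w₂ y * S.a y) (volume.restrict S.Ω) :=
    gs_integrable_base hv (c₂.mul ca) fun y hy => by rw [z₂ y hy, zero_mul]
  show (∫ q, (a * w₁ q.1 + b * w₂ q.1) ∂S.μ) - Q * ∫ y in S.Ω, (a * w₁ y + b * w₂ y) * S.a y
    = a * ((∫ q, w₁ q.1 ∂S.μ) - Q * ∫ y in S.Ω, w₁ y * S.a y)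
      + b * ((∫ q, w₂ q.1 ∂S.μ) - Q * ∫ y in S.Ω, w₂ y * S.a y)
  rw [integral_add (i₁.const_mul a) (i₂.const_mul b), integral_const_mul, integral_const_mul]
  have e : ∀ y, (a * w₁ y + b * w₂ y) * S.a y = a * (w₁ y * S.a y) + b * (w₂ y * S.a y) :=
    fun y => by ring
  simp only [e]
  rw [integral_add (j₁.const_mul a) (j₂.const_mul b), integral_const_mul, integral_const_mul]
  ring

end Claimed.Agent.R322.Sx
end

/- ===== packed: Claimed.Agent.R322.Sx.Gauss.Mass ===== -/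
section
/-!
# R322 / Sx / Gauss / Mass : the Gaussian mass identity (M)  (leaf `L-Sx-Gauss`, helper297)
-/

set_option autoImplicit false

namespace Claimed.Agent.R322.Sx

open MeasureTheory Set Metric
open scoped ENNReal NNReal InnerProductSpace

variable {m n : ℕ} {S : Sys m n} {χ : E m → ℝ} {x0 x : E m} {R h h1 K0 s : ℝ}

/-- the weight `W = k (1 + |u|²)`. -/
noncomputable def gW {m : ℕ} (χ : E m → ℝ) (s : ℝ) (x : E m) : E m → ℝ :=
  fun y => Sys.ker χ s x y * (1 + ‖uu x s y‖ ^ 2)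

theorem gW_def (χ : E m → ℝ) (s : ℝ) (x y : E m) :
    gW χ s x y = Sys.ker χ s x y * (1 + ‖uu x s y‖ ^ 2) := rfl

theorem gs_gW_cont (hc : Chart S χ x0 R h x h1 K0) (s : ℝ) (x : E m) : Continuous (gW χ s x) :=
  (gs_ker_cont hc s x).mul (continuous_const.add ((gs_continuous_uu x s).norm.pow 2))

theorem gs_gW_zero (hc : Chart S χ x0 R h x h1 K0) (s : ℝ) {y : E m}
    (hy : y ∉ closedBall x0 (R + h)) : gW χ s x y = 0 := by
  rw [gW_def, gs_ker_zero hc s hy, zero_mul]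

theorem gs_gW_nonneg (hc : Chart S χ x0 R h x h1 K0) (s : ℝ) (x y : E m) : 0 ≤ gW χ s x y :=
  mul_nonneg (gs_ker_nonneg' hc s x y) (by positivity)

/-- `|X| ≤ W` for `s ≤ 1`. -/
theorem gs_norm_gX_le (hc : Chart S χ x0 R h x h1 K0) (hs : 0 < s) (hs1 : s ≤ 1) (y : E m) :
    ‖gX χ s x y‖ ≤ gW χ s x y := by
  rw [gs_norm_gX hc hs, gW_def]
  exact mul_le_mul_of_nonneg_left (gs_st_le hs hs1 (norm_nonneg _)) (gs_ker_nonneg' hc s x y)

/-- the base tail `T1 = G Dχ(z)`. -/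
theorem gs_T1_cont (hc : Chart S χ x0 R h x h1 K0) (s : ℝ) (x : E m) :
    Continuous fun y => gauss m s (y - x) * fderiv ℝ χ y (y - x) :=
  ((gs_continuous_gauss m s).comp (continuous_id.sub continuous_const)).mul
    ((gs_dchi_cont hc).clm_apply (continuous_id.sub continuous_const))

theorem gs_T1_zero (hc : Chart S χ x0 R h x h1 K0) (s : ℝ) {y : E m}
    (hy : y ∉ closedBall x0 (R + h)) : gauss m s (y - x) * fderiv ℝ χ y (y - x) = 0 := by
  rw [gs_dchi_zero_out hc hy, _root_.zero_apply, mul_zero]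

theorem gs_T1_le (hc : Chart S χ x0 R h x h1 K0) (s : ℝ) (y : E m) :
    |gauss m s (y - x) * fderiv ℝ χ y (y - x)| ≤ 8 * gT χ s x y :=
  (gs_abs_G_dchi_le χ s x y _).trans (gs_gT_mul_norm_le hc s y)

/-- `|∫ T1 dM| ≤ (32 + 64 Q) tail`. -/
theorem gs_abs_intM_T1_le (hS : S.Valid) (Q : ℕ) (hc : Chart S χ x0 R h x h1 K0) (hs : 0 < s) :
    |S.intM Q fun y => gauss m s (y - x) * fderiv ℝ χ y (y - x)|
      ≤ (32 + 64 * Q) * tailG m K0 s h h1 := by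
  obtain ⟨i1, l1⟩ := gs_tail_integral (ρ := S.μ) (p := Prod.fst) measurable_fst hc hs (gs_mu_le hc)
  obtain ⟨i2, l2⟩ := gs_tail_integral (ρ := volume.restrict S.Ω) (p := id) measurable_id hc hs
    (gs_volΩ_le hc)
  simp only [id] at i2 l2
  have b1 : |∫ q : E m × E n, gauss m s (q.1 - x) * fderiv ℝ χ q.1 (q.1 - x) ∂S.μ|
      ≤ ∫ q : E m × E n, 8 * gT χ s x q.1 ∂S.μ :=
    gs_abs_integral_le (i1.const_mul 8) fun q => gs_T1_le hc s q.1
  have b2 : |∫ y in S.Ω, gauss m s (y - x) * fderiv ℝ χ y (y - x) * S.a y|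
      ≤ ∫ y in S.Ω, 16 * gT χ s x y :=
    gs_abs_integral_le (i2.const_mul 16) (fun y => by
      rw [abs_mul, abs_of_pos (hS.a_pos y)]
      have h3 := gs_T1_le hc s (x := x) y
      have h4 := hS.a_upper y
      have h5 := gs_gT_nonneg χ s x y
      calc _ ≤ (8 * gT χ s x y) * 2 := mul_le_mul h3 h4 (hS.a_pos y).le (by positivity)
        _ = _ := by ring)
  rw [integral_const_mul] at b1 b2
  have hQ : (0 : ℝ) ≤ Q := Nat.cast_nonneg Q
  show |(∫ q : E m × E n, gauss m s (q.1 - x) * fderiv ℝ χ q.1 (q.1 - x) ∂S.μ)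
      - Q * ∫ y in S.Ω, gauss m s (y - x) * fderiv ℝ χ y (y - x) * S.a y| ≤ _
  refine (abs_sub _ _).trans ?_
  rw [abs_mul, abs_of_nonneg hQ]
  have h6 : (Q : ℝ) * |∫ y in S.Ω, gauss m s (y - x) * fderiv ℝ χ y (y - x) * S.a y|
      ≤ Q * (16 * (4 * tailG m K0 s h h1)) :=
    mul_le_mul_of_nonneg_left (b2.trans (by linarith)) hQ
  nlinarith

/-- `|∫ a⁻¹ Da(X) dM| ≤ 2 Cg γ ∫ W d|M|`. -/
theorem gs_abs_intM_A1_le (hS : S.Valid) (Q : ℕ) (hc : Chart S χ x0 R h x h1 K0) (hs : 0 < s)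
    (hs1 : s ≤ 1) :
    |S.intM Q fun y => (S.a y)⁻¹ * fderiv ℝ S.a y (gX χ s x y)|
      ≤ 2 * (S.Cg * S.γ) * ∫ y, gW χ s x y ∂(S.absM Q) := by
  have hcont := gs_aDa_cont hS (gs_gX_cont hc s x)
  have hz : ∀ y, y ∉ closedBall x0 (R + h) → (S.a y)⁻¹ * fderiv ℝ S.a y (gX χ s x y) = 0 :=
    fun y hy => by rw [gs_gX_zero hc s hy, map_zero, mul_zero]
  obtain ⟨C, hC⟩ := gs_exists_bound hcont hz
  have hsup : Function.support (fun y => (S.a y)⁻¹ * fderiv ℝ S.a y (gX χ s x y))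
      ⊆ closedBall x0 (R + h) := by
    intro y hy
    by_contra hcon
    exact hy (hz y hcon)
  refine (hS.abs_intM_le Q hcont.measurable (isCompact_closedBall _ _) hc.sub hsup C hC).trans ?_
  rw [← integral_const_mul]
  have hfin := gs_absM_lt_top hS Q hc
  refine integral_mono (gs_integrable_base hfin hcont.abs fun y hy => by rw [hz y hy, abs_zero])
    ((gs_integrable_base hfin (gs_gW_cont hc s x) fun y hy => gs_gW_zero hc s hy).const_mul _)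
    fun y => ?_
  exact (gs_abs_aDa_le hS y _).trans
    (mul_le_mul_of_nonneg_left (gs_norm_gX_le hc hs hs1 y)
      (mul_nonneg (by norm_num) (gs_Cgγ_nonneg hS)))

/-- `∫ W dτ` splits. -/
theorem gs_integral_tau (hS : S.Valid) (Q : ℕ) (hc : Chart S χ x0 R h x h1 K0) {w : E m → ℝ}
    (hw : Continuous w) (hz : ∀ y, y ∉ closedBall x0 (R + h) → w y = 0) :
    ∫ y, w y ∂(S.tau Q) = (∫ y, w y ∂(S.absM Q)) + S.intD w + S.intLam w := by
  have i1 := gs_integrable_base (gs_absM_lt_top hS Q hc) hw hz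
  have i2 := gs_integrable_base (gs_Dm_lt_top hS hc) hw hz
  have i3 := gs_integrable_base (gs_Lm_lt_top hS hc) hw hz
  rw [gs_tau_eq, integral_add_measure (i1.add_measure i2) i3, integral_add_measure i1 i2,
    hS.intD_eq hw.measurable, hS.intLam_eq hw.measurable]

/-! ### pointwise bounds of the error terms -/

theorem gs_abs_kE1_le (hS : S.Valid) (hc : Chart S χ x0 R h x h1 K0) (s : ℝ) (q : E m × E n) :
    |Sys.ker χ s x q.1 * (tr (S.E1 q) - ⟪S.E1 q (uu x s q.1), uu x s q.1⟫_ℝ)|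
      ≤ (m + 1) * (S.Cg * S.γ) * (gW χ s x q.1 * (S.e q + S.lam q)) := by
  have hk := gs_ker_nonneg' hc s x q.1
  rw [abs_mul, abs_of_nonneg hk, gW_def]
  have h2 := gs_abs_tr_sub_le (S.E1 q) (uu x s q.1)
  have h3 : ‖S.E1 q‖ * ((m + 1) * (1 + ‖uu x s q.1‖ ^ 2))
      ≤ (S.Cg * S.γ * (S.e q + S.lam q)) * ((m + 1) * (1 + ‖uu x s q.1‖ ^ 2)) :=
    mul_le_mul_of_nonneg_right (hS.E1_le q) (by positivity)
  calc _ ≤ Sys.ker χ s x q.1 * ((S.Cg * S.γ * (S.e q + S.lam q))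
          * ((m + 1) * (1 + ‖uu x s q.1‖ ^ 2))) := mul_le_mul_of_nonneg_left (h2.trans h3) hk
    _ = _ := by ring

theorem gs_abs_E2X_le (hS : S.Valid) (hc : Chart S χ x0 R h x h1 K0) (hs : 0 < s) (hs1 : s ≤ 1)
    (q : E m × E n) :
    |⟪S.E2 q, gX χ s x q.1⟫_ℝ| ≤ (S.Cg * S.γ) * (gW χ s x q.1 * (S.e q + S.lam q)) := by
  refine (abs_real_inner_le_norm _ _).trans ?_
  have h2 := hS.E2_le q
  have h3 := gs_norm_gX_le hc hs hs1 q.1
  calc ‖S.E2 q‖ * ‖gX χ s x q.1‖ ≤ (S.Cg * S.γ * (S.e q + S.lam q)) * gW χ s x q.1 :=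
        mul_le_mul h2 h3 (norm_nonneg _) ((norm_nonneg _).trans h2)
    _ = _ := by ring

theorem gs_abs_tailB_le (hS : S.Valid) (hc : Chart S χ x0 R h x h1 K0) (s : ℝ) (q : E m × E n) :
    |gauss m s (q.1 - x) * fderiv ℝ χ q.1 (S.B q (q.1 - x))| ≤ 8 * m * gT χ s x q.1 := by
  refine (gs_abs_G_dchi_clm_le hc s q.1 (S.B q)).trans ?_
  refine mul_le_mul_of_nonneg_right ?_ (gs_gT_nonneg χ s x q.1)
  exact mul_le_mul_of_nonneg_left ((hS.norm_B_le q).trans (hS.e_le q)) (by norm_num)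

theorem gs_abs_tailE1_le (hS : S.Valid) (hc : Chart S χ x0 R h x h1 K0) (s : ℝ) (q : E m × E n) :
    |gauss m s (q.1 - x) * fderiv ℝ χ q.1 (S.E1 q (q.1 - x))|
      ≤ 8 * (S.Cg * (m + S.Cg)) * gT χ s x q.1 := by
  refine (gs_abs_G_dchi_clm_le hc s q.1 (S.E1 q)).trans ?_
  refine mul_le_mul_of_nonneg_right ?_ (gs_gT_nonneg χ s x q.1)
  exact mul_le_mul_of_nonneg_left (gs_norm_E1_le hS q) (by norm_num)

/-! ### `GsLB` building blocks -/

theorem gs_lb_ker (hc : Chart S χ x0 R h x h1 K0) (s : ℝ) (x : E m) :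
    GsLB fun q : E m × E n => Sys.ker χ s x q.1 := GsLB.fst (gs_ker_cont hc s x)

theorem gs_lb_uu (x : E m) (s : ℝ) : GsLB fun q : E m × E n => uu x s q.1 :=
  GsLB.fst (gs_continuous_uu x s)

theorem gs_lb_z (x : E m) : GsLB fun q : E m × E n => q.1 - x :=
  GsLB.fst (continuous_id.sub continuous_const)

theorem gs_lb_G (s : ℝ) (x : E m) : GsLB fun q : E m × E n => gauss m s (q.1 - x) :=
  GsLB.fst ((gs_continuous_gauss m s).comp (continuous_id.sub continuous_const))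

theorem gs_lb_dchi (hc : Chart S χ x0 R h x h1 K0) : GsLB fun q : E m × E n => fderiv ℝ χ q.1 :=
  GsLB.fst (gs_dchi_cont hc)

theorem gs_lb_gX (hc : Chart S χ x0 R h x h1 K0) (s : ℝ) (x : E m) :
    GsLB fun q : E m × E n => gX χ s x q.1 := GsLB.fst (gs_gX_cont hc s x)

theorem gs_lb_gW (hc : Chart S χ x0 R h x h1 K0) (s : ℝ) (x : E m) :
    GsLB fun q : E m × E n => gW χ s x q.1 := GsLB.fst (gs_gW_cont hc s x)

/-- tail pieces `G Dχ(V)`. -/
theorem gs_int_tail (hS : S.Valid) (hc : Chart S χ x0 R h x h1 K0) (s : ℝ) {V : E m × E n → E m}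
    (hV : GsLB V) :
    Integrable (fun q => gauss m s (q.1 - x) * fderiv ℝ χ q.1 (V q)) S.μ :=
  ((gs_lb_G s x).mul ((gs_lb_dchi hc).clm_apply' hV)).integrable hS hc fun q hq => by
    rw [gs_dchi_zero_out hc hq, _root_.zero_apply, mul_zero]

/-- kernel pieces `k g`. -/
theorem gs_int_ker (hS : S.Valid) (hc : Chart S χ x0 R h x h1 K0) (s : ℝ) {g : E m × E n → ℝ}
    (hg : GsLB g) : Integrable (fun q => Sys.ker χ s x q.1 * g q) S.μ :=
  ((gs_lb_ker hc s x).mul hg).integrable hS hc fun q hq => by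
    rw [gs_ker_zero hc s hq, zero_mul]

theorem gs_int_gW (hS : S.Valid) (hc : Chart S χ x0 R h x h1 K0) (s : ℝ) {g : E m × E n → ℝ}
    (hg : GsLB g) : Integrable (fun q => gW χ s x q.1 * g q) S.μ :=
  ((gs_lb_gW hc s x).mul hg).integrable hS hc fun q hq => by
    rw [gs_gW_zero hc s hq, zero_mul]

/-! ### the mass identity -/

theorem gs_mass_core (hS : S.Valid) (Q : ℕ) (hc : Chart S χ x0 R h x h1 K0) (hs : 0 < s)
    (hs1 : s ≤ 1) :
    |S.intM Q (kerDot χ s x) + S.Dav χ s x - S.Rav χ s x|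
      ≤ (m + 2) * (S.Cg * S.γ) * (∫ y, gW χ s x y ∂(S.tau Q))
        + (32 + 64 * Q + 32 * m + 32 * (S.Cg * (m + S.Cg))) * tailG m K0 s h h1 := by
  have hχ := gs_chi_diff hc
  have hM := hS.horiz_M Q (gX χ s x) (gs_gX_contDiff hc s x) (gs_gX_cpt hc s)
    ((gs_tsupport_gX hc s).trans hc.sub)
  -- the left side
  have cA := gs_aDa_cont hS (gs_gX_cont hc s x)
  have zA : ∀ y, y ∉ closedBall x0 (R + h) → (S.a y)⁻¹ * fderiv ℝ S.a y (gX χ s x y) = 0 :=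
    fun y hy => by rw [gs_gX_zero hc s hy, map_zero, mul_zero]
  have cT := gs_T1_cont hc s x
  have zT : ∀ y, y ∉ closedBall x0 (R + h) → gauss m s (y - x) * fderiv ℝ χ y (y - x) = 0 :=
    fun y hy => gs_T1_zero hc s hy
  have eL : (fun y => dvg (gX χ s x) y + (S.a y)⁻¹ * fderiv ℝ S.a y (gX χ s x y))
      = fun y => (-1) * kerDot χ s x y + 1 * (1 * (gauss m s (y - x) * fderiv ℝ χ y (y - x))
          + 1 * ((S.a y)⁻¹ * fderiv ℝ S.a y (gX χ s x y))) := by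
    funext y
    rw [gs_dvg_gX hs x (hχ y)]
    ring
  have cTA : Continuous fun y => 1 * (gauss m s (y - x) * fderiv ℝ χ y (y - x))
      + 1 * ((S.a y)⁻¹ * fderiv ℝ S.a y (gX χ s x y)) :=
    (continuous_const.mul cT).add (continuous_const.mul cA)
  rw [eL, gs_intM_lin hS Q hc (gs_kerDot_cont hc s x) (fun y hy => gs_kerDot_zero hc s hy)
    cTA (fun y hy => by rw [zT y hy, zA y hy]; ring), gs_intM_lin hS Q hc cT zT cA zA] at hM
  -- the right side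
  have iP1 : Integrable (fun q => Sys.ker χ s x q.1 * S.e q) S.μ := gs_int_ker hS hc s (gs_lb_e hS)
  have iP2 : Integrable (fun q => Sys.ker χ s x q.1
      * ⟪S.B q (uu x s q.1), uu x s q.1⟫_ℝ) S.μ :=
    gs_int_ker hS hc s (((gs_lb_B hS).clm_apply (gs_lb_uu x s)).inner (gs_lb_uu x s))
  have iE1 : Integrable (fun q => gauss m s (q.1 - x) * fderiv ℝ χ q.1 (S.B q (q.1 - x))) S.μ :=
    gs_int_tail hS hc s ((gs_lb_B hS).clm_apply (gs_lb_z x))
  have iE2 : Integrable (fun q => Sys.ker χ s x q.1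
      * (tr (S.E1 q) - ⟪S.E1 q (uu x s q.1), uu x s q.1⟫_ℝ)) S.μ :=
    gs_int_ker hS hc s ((gs_lb_E1 hS).tr.sub
      (((gs_lb_E1 hS).clm_apply (gs_lb_uu x s)).inner (gs_lb_uu x s)))
  have iE3 : Integrable (fun q => gauss m s (q.1 - x) * fderiv ℝ χ q.1 (S.E1 q (q.1 - x))) S.μ :=
    gs_int_tail hS hc s ((gs_lb_E1 hS).clm_apply (gs_lb_z x))
  have iE4 : Integrable (fun q => ⟪S.E2 q, gX χ s x q.1⟫_ℝ) S.μ :=
    ((gs_lb_E2 hS).inner (gs_lb_gX hc s x)).integrable hS hc fun q hq => by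
      rw [gs_gX_zero hc s hq, inner_zero_right]
  have eR : ∀ q : E m × E n, tr (S.B q ∘L fderiv ℝ (gX χ s x) q.1)
        + tr (S.E1 q ∘L fderiv ℝ (gX χ s x) q.1) + ⟪S.E2 q, gX χ s x q.1⟫_ℝ
      = Sys.ker χ s x q.1 * S.e q - Sys.ker χ s x q.1 * ⟪S.B q (uu x s q.1), uu x s q.1⟫_ℝ
        + (gauss m s (q.1 - x) * fderiv ℝ χ q.1 (S.B q (q.1 - x))
          + Sys.ker χ s x q.1 * (tr (S.E1 q) - ⟪S.E1 q (uu x s q.1), uu x s q.1⟫_ℝ)
          + gauss m s (q.1 - x) * fderiv ℝ χ q.1 (S.E1 q (q.1 - x))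
          + ⟪S.E2 q, gX χ s x q.1⟫_ℝ) := by
    intro q
    rw [gs_tr_comp_fderiv_gX hs x (hχ q.1), gs_tr_comp_fderiv_gX hs x (hχ q.1)]
    show _ = Sys.ker χ s x q.1 * tr (S.B q) - _ + _
    ring
  simp only [eR] at hM
  rw [gs_integral_sub_add iP1 iP2 (gs_integrable_add4 iE1 iE2 iE3 iE4)] at hM
  -- bound of the error integral
  obtain ⟨iT, lT⟩ := gs_tail_integral (ρ := S.μ) (p := Prod.fst) measurable_fst hc hs (gs_mu_le hc)
  have iWe : Integrable (fun q => gW χ s x q.1 * S.e q) S.μ := gs_int_gW hS hc s (gs_lb_e hS)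
  have iWl : Integrable (fun q => gW χ s x q.1 * S.lam q) S.μ := gs_int_gW hS hc s (gs_lb_lam hS)
  have bE : |∫ q, (gauss m s (q.1 - x) * fderiv ℝ χ q.1 (S.B q (q.1 - x))
          + Sys.ker χ s x q.1 * (tr (S.E1 q) - ⟪S.E1 q (uu x s q.1), uu x s q.1⟫_ℝ)
          + gauss m s (q.1 - x) * fderiv ℝ χ q.1 (S.E1 q (q.1 - x))
          + ⟪S.E2 q, gX χ s x q.1⟫_ℝ) ∂S.μ|
      ≤ (m + 2) * (S.Cg * S.γ) * ∫ q, gW χ s x q.1 * S.e q ∂S.μ
          + (m + 2) * (S.Cg * S.γ) * ∫ q, gW χ s x q.1 * S.lam q ∂S.μ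
          + (8 * m + 8 * (S.Cg * (m + S.Cg))) * ∫ q, gT χ s x q.1 ∂S.μ := by
    refine gs_abs_integral_le3 iWe iWl iT fun q => ?_
    have b1 := gs_abs_tailB_le hS hc s q
    have b2 := gs_abs_kE1_le hS hc s q
    have b3 := gs_abs_tailE1_le hS hc s q
    have b4 := gs_abs_E2X_le hS hc hs hs1 q
    refine (abs_add_le _ _).trans ?_
    refine (add_le_add ((abs_add_le _ _).trans (add_le_add (abs_add_le _ _) le_rfl)) le_rfl).trans ?_
    linarith
  have bT := gs_abs_intM_T1_le hS Q hc hs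
  have bA := gs_abs_intM_A1_le hS Q hc hs hs1
  have eτ := gs_integral_tau hS Q hc (gs_gW_cont hc s x) fun y hy => gs_gW_zero hc s hy
  have hW0 : 0 ≤ ∫ y, gW χ s x y ∂(S.absM Q) := integral_nonneg fun y => gs_gW_nonneg hc s x y
  have hcg := gs_Cgγ_nonneg hS
  have hm0 : (0 : ℝ) ≤ m := Nat.cast_nonneg m
  have hCm : 0 ≤ 8 * (m : ℝ) + 8 * (S.Cg * (m + S.Cg)) := by
    have := gs_Cg_pos hS
    positivity
  have eD : S.Dav χ s x = ∫ q, Sys.ker χ s x q.1 * S.e q ∂S.μ := rfl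
  have eRv : S.Rav χ s x
      = ∫ q, Sys.ker χ s x q.1 * ⟪S.B q (uu x s q.1), uu x s q.1⟫_ℝ ∂S.μ := rfl
  have eWD : S.intD (gW χ s x) = ∫ q, gW χ s x q.1 * S.e q ∂S.μ := rfl
  have eWL : S.intLam (gW χ s x) = ∫ q, gW χ s x q.1 * S.lam q ∂S.μ := rfl
  rw [eτ, eD, eRv, eWD, eWL]
  rw [abs_le] at bE bT bA ⊢
  have k1 : (8 * (m : ℝ) + 8 * (S.Cg * (m + S.Cg))) * ∫ q, gT χ s x q.1 ∂S.μ
      ≤ (8 * (m : ℝ) + 8 * (S.Cg * (m + S.Cg))) * (4 * tailG m K0 s h h1) :=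
    mul_le_mul_of_nonneg_left lT hCm
  have k2 : 2 * (S.Cg * S.γ) * ∫ y, gW χ s x y ∂(S.absM Q)
      ≤ (m + 2) * (S.Cg * S.γ) * ∫ y, gW χ s x y ∂(S.absM Q) := by
    refine mul_le_mul_of_nonneg_right ?_ hW0
    exact mul_le_mul_of_nonneg_right (by linarith) hcg
  constructor <;> nlinarith [bE.1, bE.2, bT.1, bT.2, bA.1, bA.2]

theorem gs_gauss_mass (m n Q : ℕ) (Cg : ℝ) :
    ∃ C : ℝ, 0 < C ∧ ∀ S : Sys m n, S.Valid → S.Cg ≤ Cg →
      ∀ (χ : E m → ℝ) (x0 x : E m) (R h h1 K0 s : ℝ), Chart S χ x0 R h x h1 K0 → 0 < s → s ≤ 1 →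
      |S.intM Q (kerDot χ s x) + S.Dav χ s x - S.Rav χ s x|
        ≤ C * S.γ * (∫ y, Sys.ker χ s x y * (1 + ‖uu x s y‖ ^ 2) ∂(S.tau Q))
          + C * tailG m K0 s h h1 := by
  have hm0 : (0 : ℝ) ≤ m := Nat.cast_nonneg m
  have hQ0 : (0 : ℝ) ≤ Q := Nat.cast_nonneg Q
  have hC0 : 0 ≤ |Cg| := abs_nonneg Cg
  refine ⟨(m + 2) * |Cg| + (32 + 64 * Q + 32 * m + 32 * (|Cg| * (m + |Cg|))) + 1, by positivity,
    fun S hS hCg χ x0 x R h h1 K0 s hc hs hs1 => ?_⟩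
  refine (gs_mass_core hS Q hc hs hs1).trans ?_
  have hpos := gs_Cg_pos hS
  have hle : S.Cg ≤ |Cg| := hCg.trans (le_abs_self _)
  have hI : 0 ≤ ∫ y, gW χ s x y ∂(S.tau Q) := integral_nonneg fun y => gs_gW_nonneg hc s x y
  have ht := gs_tailG_nonneg hc hs
  have hγ := hS.γ_nonneg
  have hprod : S.Cg * (m + S.Cg) ≤ |Cg| * (m + |Cg|) :=
    mul_le_mul hle (by linarith) (by linarith) hC0
  have hpp : 0 ≤ |Cg| * (m + |Cg|) := by positivity
  have hmc : 0 ≤ (m + 2) * |Cg| := by positivity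
  refine add_le_add ?_ ?_
  · show _ ≤ _ * S.γ * ∫ y, gW χ s x y ∂(S.tau Q)
    refine mul_le_mul_of_nonneg_right ?_ hI
    rw [← mul_assoc]
    refine mul_le_mul_of_nonneg_right ?_ hγ
    have : ((m : ℝ) + 2) * S.Cg ≤ (m + 2) * |Cg| := mul_le_mul_of_nonneg_left hle (by linarith)
    linarith
  · refine mul_le_mul_of_nonneg_right ?_ ht
    linarith

end Claimed.Agent.R322.Sx
end

/- ===== packed: Claimed.Agent.R322.Sx.Gauss.Horiz ===== -/
section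
/-!
# R322 / Sx / Gauss / Horiz : the horizontal Gaussian height test (H)
(leaf `L-Sx-Gauss`, helper297)
-/

set_option autoImplicit false

namespace Claimed.Agent.R322.Sx

open MeasureTheory Set Metric
open scoped ENNReal NNReal InnerProductSpace

/-- the abstract form of the argument. -/
theorem gs_abs_id3 {α : Type*} [MeasurableSpace α] {μ : Measure α}
    {p₁ p₂ p₃ L Rr R' T d₁ d₂ d₃ d₄ : α → ℝ} {s c₁ c₂ c₃ c₄ : ℝ}
    (i₁ : Integrable p₁ μ) (i₂ : Integrable p₂ μ) (i₃ : Integrable p₃ μ) (iT : Integrable T μ)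
    (iR : Integrable R' μ) (j₁ : Integrable d₁ μ) (j₂ : Integrable d₂ μ) (j₃ : Integrable d₃ μ)
    (j₄ : Integrable d₄ μ)
    (hL : ∀ a, L a = - p₁ a + p₂ a + s * p₃ a + T a) (hR : ∀ a, Rr a = R' a)
    (hid : ∫ a, L a ∂μ = ∫ a, Rr a ∂μ)
    (hle : ∀ a, |T a - R' a| ≤ c₁ * d₁ a + c₂ * d₂ a + c₃ * d₃ a + c₄ * d₄ a) :
    |(∫ a, p₁ a ∂μ) - (∫ a, p₂ a ∂μ) - s * ∫ a, p₃ a ∂μ|
      ≤ c₁ * ∫ a, d₁ a ∂μ + c₂ * ∫ a, d₂ a ∂μ + c₃ * ∫ a, d₃ a ∂μ + c₄ * ∫ a, d₄ a ∂μ := by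
  have e1 : ∫ a, L a ∂μ
      = - (∫ a, p₁ a ∂μ) + (∫ a, p₂ a ∂μ) + s * (∫ a, p₃ a ∂μ) + ∫ a, T a ∂μ := by
    simp only [hL]
    have k1 : Integrable (fun a => - p₁ a) μ := i₁.neg
    have k2 : Integrable (fun a => - p₁ a + p₂ a) μ := k1.add i₂
    have k3 : Integrable (fun a => - p₁ a + p₂ a + s * p₃ a) μ := k2.add (i₃.const_mul s)
    rw [integral_add k3 iT, integral_add k2 (i₃.const_mul s), integral_add k1 i₂, integral_neg,
      integral_const_mul]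
  have e2 : ∫ a, Rr a ∂μ = ∫ a, R' a ∂μ := by simp only [hR]
  have e3 : (∫ a, p₁ a ∂μ) - (∫ a, p₂ a ∂μ) - s * ∫ a, p₃ a ∂μ = ∫ a, (T a - R' a) ∂μ := by
    rw [integral_sub iT iR]
    linarith
  rw [e3]
  exact gs_abs_integral_le4 j₁ j₂ j₃ j₄ hle

variable {m n : ℕ} {S : Sys m n} {χ : E m → ℝ} {x0 x : E m} {R h h1 K0 s : ℝ}

theorem gs_avg_def (S : Sys m n) (χ : E m → ℝ) (s : ℝ) (x : E m) (g : E m × E n → ℝ) :
    S.avg χ s x g = ∫ q, Sys.ker χ s x q.1 * g q ∂S.μ := rfl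

theorem gs_avg_nonneg (hc : Chart S χ x0 R h x h1 K0) (s : ℝ) (x : E m) {g : E m × E n → ℝ}
    (hg : ∀ q, 0 ≤ g q) : 0 ≤ S.avg χ s x g :=
  integral_nonneg fun q => mul_nonneg (gs_ker_nonneg' hc s x q.1) (hg q)

theorem gs_horiz_core (hS : S.Valid) (hc : Chart S χ x0 R h x h1 K0) (hs : 0 < s) (hs1 : s ≤ 1)
    {f : E n → ℝ} {F0 : ℝ} (hf : ContDiff ℝ 1 f) (hF : ∀ ζ, |f ζ| ≤ F0) :
    |(∫ q, kerDot χ s x q.1 * f q.2 ∂S.μ)
        - S.avg χ s x (fun q => f q.2 * (⟪S.B q (uu x s q.1), uu x s q.1⟫_ℝ - S.e q))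
        - s * S.avg χ s x (fun q => fderiv ℝ f q.2 (S.Pvh q (uu x s q.1)))|
      ≤ (m + 2) * (S.Cg * S.γ)
            * S.avg χ s x (fun q => |f q.2| * (S.e q + S.lam q) * (1 + ‖uu x s q.1‖ ^ 2))
          + 2 * (S.Cg * S.γ) * s * S.avg χ s x (fun q => |f q.2| * ‖uu x s q.1‖)
          + (S.Cg * S.γ) * s * S.avg χ s x (fun q => ‖fderiv ℝ f q.2‖ * ‖uu x s q.1‖
                * (Real.sqrt (S.e q) + Real.sqrt (S.lam q)))
          + F0 * (8 + 8 * m + 8 * (S.Cg * (m + S.Cg))) * ∫ q, gT χ s x q.1 ∂S.μ := by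
  have hχ := gs_chi_diff hc
  have hH := hS.horiz_prod f (gX χ s x) hf (gs_gX_contDiff hc s x) (gs_gX_cpt hc s)
    ((gs_tsupport_gX hc s).trans hc.sub)
  have lf : GsLB fun q : E m × E n => f q.2 := GsLB.snd hf.continuous
  have lDf : GsLB fun q : E m × E n => fderiv ℝ f q.2 := GsLB.snd (hf.continuous_fderiv one_ne_zero)
  have lu := gs_lb_uu (n := n) x s
  have lz := gs_lb_z (n := n) x
  have lG := gs_lb_G (n := n) s x
  have lχ := gs_lb_dchi (n := n) hc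
  have lX := gs_lb_gX (n := n) hc s x
  have lk := gs_lb_ker (n := n) hc s x
  have lA : GsLB fun q : E m × E n => (S.a q.1)⁻¹ * fderiv ℝ S.a q.1 (gX χ s x q.1) :=
    GsLB.fst (gs_aDa_cont hS (gs_gX_cont hc s x))
  obtain ⟨iT4, -⟩ := gs_tail_integral (ρ := S.μ) (p := Prod.fst) measurable_fst hc hs (gs_mu_le hc)
  have hF0 : 0 ≤ F0 := (abs_nonneg _).trans (hF 0)
  have hcg := gs_Cgγ_nonneg hS
  refine gs_abs_id3 (μ := S.μ)
    (p₁ := fun q => kerDot χ s x q.1 * f q.2)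
    (T := fun q => f q.2 * (gauss m s (q.1 - x) * fderiv ℝ χ q.1 (q.1 - x))
      + f q.2 * ((S.a q.1)⁻¹ * fderiv ℝ S.a q.1 (gX χ s x q.1))
      - f q.2 * (gauss m s (q.1 - x) * fderiv ℝ χ q.1 (S.B q (q.1 - x))))
    (R' := fun q => f q.2 * (Sys.ker χ s x q.1
          * (tr (S.E1 q) - ⟪S.E1 q (uu x s q.1), uu x s q.1⟫_ℝ)
        + gauss m s (q.1 - x) * fderiv ℝ χ q.1 (S.E1 q (q.1 - x)))
      + f q.2 * ⟪S.E2 q, gX χ s x q.1⟫_ℝ + fderiv ℝ f q.2 (S.E3 q (gX χ s x q.1)))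
    ?_ ?_ ?_ ?_ ?_ ?_ ?_ ?_ iT4 ?_ ?_ hH ?_
  · exact ((GsLB.fst (gs_kerDot_cont hc s x)).mul lf).integrable hS hc fun q hq => by
      rw [gs_kerDot_zero hc s hq, zero_mul]
  · exact gs_int_ker hS hc s (lf.mul ((((gs_lb_B hS).clm_apply lu).inner lu).sub (gs_lb_e hS)))
  · exact gs_int_ker hS hc s (lDf.clm_apply' ((gs_lb_Pvh hS).clm_apply lu))
  · refine (((lf.mul (lG.mul (lχ.clm_apply' lz))).add (lf.mul lA)).sub
      (lf.mul (lG.mul (lχ.clm_apply' ((gs_lb_B hS).clm_apply lz))))).integrable hS hc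
      fun q hq => ?_
    rw [gs_dchi_zero_out hc hq, gs_gX_zero hc s hq]
    simp
  · refine (((lf.mul ((lk.mul ((gs_lb_E1 hS).tr.sub (((gs_lb_E1 hS).clm_apply lu).inner lu))).add
      (lG.mul (lχ.clm_apply' ((gs_lb_E1 hS).clm_apply lz))))).add
      (lf.mul ((gs_lb_E2 hS).inner lX))).add
      (lDf.clm_apply' ((gs_lb_E3 hS).clm_apply lX))).integrable hS hc fun q hq => ?_
    rw [gs_dchi_zero_out hc hq, gs_gX_zero hc s hq, gs_ker_zero hc s hq]
    simp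
  · exact gs_int_ker hS hc s ((lf.abs.mul ((gs_lb_e hS).add (gs_lb_lam hS))).mul
      ((GsLB.const 1).add (lu.norm.pow 2)))
  · exact gs_int_ker hS hc s (lf.abs.mul lu.norm)
  · exact gs_int_ker hS hc s ((lDf.norm.mul lu.norm).mul
      ((gs_lb_e hS).sqrt.add (gs_lb_lam hS).sqrt))
  · intro q
    have e3 : fderiv ℝ f q.2 (S.Pvh q (gX χ s x q.1))
        = Sys.ker χ s x q.1 * s * fderiv ℝ f q.2 (S.Pvh q (uu x s q.1)) := by
      rw [gs_gX_eq hs x q.1, map_smul, map_smul, smul_eq_mul]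
    rw [gs_dvg_gX hs x (hχ q.1), gs_tr_comp_fderiv_gX hs x (hχ q.1), e3]
    show _ = _ + Sys.ker χ s x q.1 * (f q.2 * (_ - tr (S.B q))) + _ + _
    ring
  · intro q
    rw [gs_tr_comp_fderiv_gX hs x (hχ q.1)]
  · intro q
    have hk := gs_ker_nonneg' hc s x q.1
    have hT := gs_gT_nonneg χ s x q.1
    have hfq := hF q.2
    have hf0 := abs_nonneg (f q.2)
    have t1 : |f q.2 * (gauss m s (q.1 - x) * fderiv ℝ χ q.1 (q.1 - x))|
        ≤ F0 * (8 * gT χ s x q.1) := by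
      rw [abs_mul]
      exact mul_le_mul hfq (gs_T1_le hc s q.1) (abs_nonneg _) hF0
    have t2 : |f q.2 * ((S.a q.1)⁻¹ * fderiv ℝ S.a q.1 (gX χ s x q.1))|
        ≤ 2 * (S.Cg * S.γ) * s * (Sys.ker χ s x q.1 * (|f q.2| * ‖uu x s q.1‖)) := by
      rw [abs_mul]
      have := gs_abs_aDa_le hS q.1 (gX χ s x q.1)
      rw [gs_norm_gX hc hs] at this
      calc _ ≤ |f q.2| * (2 * (S.Cg * S.γ) * (Sys.ker χ s x q.1 * (s * ‖uu x s q.1‖))) :=
            mul_le_mul_of_nonneg_left this hf0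
        _ = _ := by ring
    have t3 : |f q.2 * (gauss m s (q.1 - x) * fderiv ℝ χ q.1 (S.B q (q.1 - x)))|
        ≤ F0 * (8 * m * gT χ s x q.1) := by
      rw [abs_mul]
      exact mul_le_mul hfq (gs_abs_tailB_le hS hc s q) (abs_nonneg _) hF0
    have t4 : |f q.2 * (Sys.ker χ s x q.1
          * (tr (S.E1 q) - ⟪S.E1 q (uu x s q.1), uu x s q.1⟫_ℝ)
        + gauss m s (q.1 - x) * fderiv ℝ χ q.1 (S.E1 q (q.1 - x)))|
        ≤ (m + 1) * (S.Cg * S.γ) * (Sys.ker χ s x q.1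
            * (|f q.2| * (S.e q + S.lam q) * (1 + ‖uu x s q.1‖ ^ 2)))
          + F0 * (8 * (S.Cg * (m + S.Cg)) * gT χ s x q.1) := by
      rw [abs_mul]
      have a1 := gs_abs_kE1_le hS hc s q
      have a2 := gs_abs_tailE1_le hS hc s q
      rw [gW_def] at a1
      calc _ ≤ |f q.2| * (|Sys.ker χ s x q.1
              * (tr (S.E1 q) - ⟪S.E1 q (uu x s q.1), uu x s q.1⟫_ℝ)|
            + |gauss m s (q.1 - x) * fderiv ℝ χ q.1 (S.E1 q (q.1 - x))|) :=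
            mul_le_mul_of_nonneg_left (abs_add_le _ _) hf0
        _ = |f q.2| * |Sys.ker χ s x q.1
              * (tr (S.E1 q) - ⟪S.E1 q (uu x s q.1), uu x s q.1⟫_ℝ)|
            + |f q.2| * |gauss m s (q.1 - x) * fderiv ℝ χ q.1 (S.E1 q (q.1 - x))| := by ring
        _ ≤ |f q.2| * ((m + 1) * (S.Cg * S.γ) * (Sys.ker χ s x q.1 * (1 + ‖uu x s q.1‖ ^ 2)
              * (S.e q + S.lam q)))
            + F0 * (8 * (S.Cg * (m + S.Cg)) * gT χ s x q.1) :=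
            add_le_add (mul_le_mul_of_nonneg_left a1 hf0)
              (mul_le_mul hfq a2 (abs_nonneg _) hF0)
        _ = _ := by ring
    have t5 : |f q.2 * ⟪S.E2 q, gX χ s x q.1⟫_ℝ|
        ≤ (S.Cg * S.γ) * (Sys.ker χ s x q.1
            * (|f q.2| * (S.e q + S.lam q) * (1 + ‖uu x s q.1‖ ^ 2))) := by
      rw [abs_mul]
      have a1 := gs_abs_E2X_le hS hc hs hs1 q
      rw [gW_def] at a1
      calc _ ≤ |f q.2| * ((S.Cg * S.γ) * (Sys.ker χ s x q.1 * (1 + ‖uu x s q.1‖ ^ 2)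
              * (S.e q + S.lam q))) := mul_le_mul_of_nonneg_left a1 hf0
        _ = _ := by ring
    have t6 : |fderiv ℝ f q.2 (S.E3 q (gX χ s x q.1))|
        ≤ (S.Cg * S.γ) * s * (Sys.ker χ s x q.1 * (‖fderiv ℝ f q.2‖ * ‖uu x s q.1‖
            * (Real.sqrt (S.e q) + Real.sqrt (S.lam q)))) := by
      have a1 : ‖S.E3 q (gX χ s x q.1)‖
          ≤ (S.Cg * S.γ * (Real.sqrt (S.e q) + Real.sqrt (S.lam q)))
            * (Sys.ker χ s x q.1 * (s * ‖uu x s q.1‖)) := by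
        rw [← gs_norm_gX hc hs]
        exact ((S.E3 q).le_opNorm _).trans
          (mul_le_mul_of_nonneg_right (hS.E3_le q) (norm_nonneg _))
      calc _ ≤ ‖fderiv ℝ f q.2‖ * ‖S.E3 q (gX χ s x q.1)‖ := (fderiv ℝ f q.2).le_opNorm _
        _ ≤ ‖fderiv ℝ f q.2‖ * ((S.Cg * S.γ * (Real.sqrt (S.e q) + Real.sqrt (S.lam q)))
            * (Sys.ker χ s x q.1 * (s * ‖uu x s q.1‖))) :=
            mul_le_mul_of_nonneg_left a1 (norm_nonneg _)
        _ = _ := by ring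
    rw [abs_le] at t1 t2 t3 t4 t5 t6 ⊢
    constructor <;> linarith [t1.1, t1.2, t2.1, t2.2, t3.1, t3.2, t4.1, t4.2, t5.1, t5.2, t6.1, t6.2]

theorem gs_gauss_horiz (m n : ℕ) (Cg : ℝ) :
    ∃ C : ℝ, 0 < C ∧ ∀ S : Sys m n, S.Valid → S.Cg ≤ Cg →
      ∀ (χ : E m → ℝ) (x0 x : E m) (R h h1 K0 s : ℝ), Chart S χ x0 R h x h1 K0 → 0 < s → s ≤ 1 →
      ∀ (f : E n → ℝ) (F0 : ℝ), ContDiff ℝ 1 f → (∀ ζ, |f ζ| ≤ F0) →
      |(∫ q, kerDot χ s x q.1 * f q.2 ∂S.μ)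
          - S.avg χ s x (fun q => f q.2 * (⟪S.B q (uu x s q.1), uu x s q.1⟫_ℝ - S.e q))
          - s * S.avg χ s x (fun q => fderiv ℝ f q.2 (S.Pvh q (uu x s q.1)))|
        ≤ C * S.γ * (S.avg χ s x (fun q => |f q.2| * (S.e q + S.lam q) * (1 + ‖uu x s q.1‖ ^ 2))
            + s * S.avg χ s x (fun q => |f q.2| * ‖uu x s q.1‖)
            + s * S.avg χ s x (fun q => ‖fderiv ℝ f q.2‖ * ‖uu x s q.1‖
                * (Real.sqrt (S.e q) + Real.sqrt (S.lam q))))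
          + C * F0 * tailG m K0 s h h1 := by
  have hm0 : (0 : ℝ) ≤ m := Nat.cast_nonneg m
  have hC0 : 0 ≤ |Cg| := abs_nonneg Cg
  refine ⟨(m + 2) * |Cg| + 4 * (8 + 8 * m + 8 * (|Cg| * (m + |Cg|))) + 1, by positivity,
    fun S hS hCg χ x0 x R h h1 K0 s hc hs hs1 f F0 hf hF => ?_⟩
  refine (gs_horiz_core hS hc hs hs1 hf hF).trans ?_
  obtain ⟨-, lT⟩ := gs_tail_integral (ρ := S.μ) (p := Prod.fst) measurable_fst hc hs (gs_mu_le hc)
  have hpos := gs_Cg_pos hS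
  have hle : S.Cg ≤ |Cg| := hCg.trans (le_abs_self _)
  have ht := gs_tailG_nonneg hc hs
  have hγ := hS.γ_nonneg
  have hF0 : 0 ≤ F0 := (abs_nonneg _).trans (hF 0)
  have hprod : S.Cg * (m + S.Cg) ≤ |Cg| * (m + |Cg|) :=
    mul_le_mul hle (by linarith) (by linarith) hC0
  have hpp : 0 ≤ S.Cg * (m + S.Cg) := by positivity
  have hmc : 0 ≤ (m + 2) * |Cg| := by positivity
  have hD1 : 0 ≤ S.avg χ s x (fun q => |f q.2| * (S.e q + S.lam q) * (1 + ‖uu x s q.1‖ ^ 2)) :=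
    gs_avg_nonneg hc s x fun q => by
      have := hS.e_nonneg q
      have := hS.lam_nonneg q
      positivity
  have hD2 : 0 ≤ S.avg χ s x (fun q => |f q.2| * ‖uu x s q.1‖) :=
    gs_avg_nonneg hc s x fun q => by positivity
  have hD3 : 0 ≤ S.avg χ s x (fun q => ‖fderiv ℝ f q.2‖ * ‖uu x s q.1‖
      * (Real.sqrt (S.e q) + Real.sqrt (S.lam q))) :=
    gs_avg_nonneg hc s x fun q => by positivity
  set D1 := S.avg χ s x (fun q => |f q.2| * (S.e q + S.lam q) * (1 + ‖uu x s q.1‖ ^ 2))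
  set D2 := S.avg χ s x (fun q => |f q.2| * ‖uu x s q.1‖)
  set D3 := S.avg χ s x (fun q => ‖fderiv ℝ f q.2‖ * ‖uu x s q.1‖
      * (Real.sqrt (S.e q) + Real.sqrt (S.lam q)))
  set C := (m + 2) * |Cg| + 4 * (8 + 8 * m + 8 * (|Cg| * (m + |Cg|))) + 1 with hC
  have hA0 := gs_Cgγ_nonneg hS
  have hB : (m + 2) * (S.Cg * S.γ) ≤ C * S.γ := by
    rw [← mul_assoc]
    refine mul_le_mul_of_nonneg_right ?_ hγ
    have : ((m : ℝ) + 2) * S.Cg ≤ (m + 2) * |Cg| := mul_le_mul_of_nonneg_left hle (by linarith)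
    have h3 : 0 ≤ |Cg| * (m + |Cg|) := by positivity
    rw [hC]
    linarith
  have hB2 : 2 * (S.Cg * S.γ) ≤ C * S.γ := by nlinarith
  have hB3 : S.Cg * S.γ ≤ C * S.γ := by nlinarith
  have k1 : (m + 2) * (S.Cg * S.γ) * D1 ≤ C * S.γ * D1 := mul_le_mul_of_nonneg_right hB hD1
  have k2 : 2 * (S.Cg * S.γ) * s * D2 ≤ C * S.γ * (s * D2) := by
    rw [mul_assoc]
    exact mul_le_mul_of_nonneg_right hB2 (by positivity)
  have k3 : (S.Cg * S.γ) * s * D3 ≤ C * S.γ * (s * D3) := by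
    rw [mul_assoc]
    exact mul_le_mul_of_nonneg_right hB3 (by positivity)
  have k4 : F0 * (8 + 8 * m + 8 * (S.Cg * (m + S.Cg))) * ∫ q, gT χ s x q.1 ∂S.μ
      ≤ C * F0 * tailG m K0 s h h1 := by
    calc _ ≤ F0 * (8 + 8 * m + 8 * (S.Cg * (m + S.Cg))) * (4 * tailG m K0 s h h1) :=
          mul_le_mul_of_nonneg_left lT (by positivity)
      _ = (4 * (8 + 8 * m + 8 * (S.Cg * (m + S.Cg)))) * (F0 * tailG m K0 s h h1) := by ring
      _ ≤ C * (F0 * tailG m K0 s h h1) := by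
          refine mul_le_mul_of_nonneg_right ?_ (by positivity)
          rw [hC]
          linarith
      _ = _ := by ring
  linarith

end Claimed.Agent.R322.Sx
end

/- ===== packed: Claimed.Agent.R322.Sx.Gauss.Normal ===== -/
section
/-!
# R322 / Sx / Gauss / Normal : the normal Gaussian height test (N)
(leaf `L-Sx-Gauss`, helper297)
-/

set_option autoImplicit false

namespace Claimed.Agent.R322.Sx

open MeasureTheory Set Metric
open scoped ENNReal NNReal InnerProductSpace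

/-- the abstract form of the argument. -/
theorem gs_abs_id2 {α : Type*} [MeasurableSpace α] {μ : Measure α}
    {p₁ p₂ L Rr R' T d₁ d₂ d₃ d₄ : α → ℝ} {s c₁ c₂ c₃ c₄ : ℝ} (hs : 0 < s)
    (i₁ : Integrable p₁ μ) (i₂ : Integrable p₂ μ) (iT : Integrable T μ)
    (iR : Integrable R' μ) (j₁ : Integrable d₁ μ) (j₂ : Integrable d₂ μ) (j₃ : Integrable d₃ μ)
    (j₄ : Integrable d₄ μ)
    (hL : ∀ a, L a = p₂ a - s⁻¹ * p₁ a + T a) (hR : ∀ a, Rr a = R' a)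
    (hid : ∫ a, L a ∂μ = ∫ a, Rr a ∂μ)
    (hle : ∀ a, |T a - R' a| ≤ c₁ * d₁ a + c₂ * d₂ a + c₃ * d₃ a + c₄ * d₄ a) :
    |s * (∫ a, p₁ a ∂μ) - s ^ 2 * ∫ a, p₂ a ∂μ|
      ≤ s ^ 2 * (c₁ * ∫ a, d₁ a ∂μ + c₂ * ∫ a, d₂ a ∂μ + c₃ * ∫ a, d₃ a ∂μ
          + c₄ * ∫ a, d₄ a ∂μ) := by
  have e1 : ∫ a, L a ∂μ = (∫ a, p₂ a ∂μ) - s⁻¹ * (∫ a, p₁ a ∂μ) + ∫ a, T a ∂μ := by
    simp only [hL]
    have k2 : Integrable (fun a => p₂ a - s⁻¹ * p₁ a) μ := i₂.sub (i₁.const_mul s⁻¹)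
    rw [integral_add k2 iT, integral_sub i₂ (i₁.const_mul s⁻¹), integral_const_mul]
  have e2 : ∫ a, Rr a ∂μ = ∫ a, R' a ∂μ := by simp only [hR]
  have e3 : s * (∫ a, p₁ a ∂μ) - s ^ 2 * ∫ a, p₂ a ∂μ = s ^ 2 * ∫ a, (T a - R' a) ∂μ := by
    rw [integral_sub iT iR]
    have e4 : (∫ a, T a ∂μ) - ∫ a, R' a ∂μ = s⁻¹ * (∫ a, p₁ a ∂μ) - ∫ a, p₂ a ∂μ := by linarith
    rw [e4]
    field_simp
  rw [e3, abs_mul, abs_of_pos (by positivity : 0 < s ^ 2)]
  exact mul_le_mul_of_nonneg_left (gs_abs_integral_le4 j₁ j₂ j₃ j₄ hle) (by positivity)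

variable {m n : ℕ} {S : Sys m n} {χ : E m → ℝ} {x0 x : E m} {R h h1 K0 s : ℝ}

theorem gs_norm_adjoint_apply_le {k l : ℕ} (A : E k →L[ℝ] E l) (w : E l) :
    ‖ContinuousLinearMap.adjoint A w‖ ≤ ‖A‖ * ‖w‖ := by
  have := (ContinuousLinearMap.adjoint A).le_opNorm w
  rwa [LinearIsometryEquiv.norm_map] at this

theorem gs_normal_core (hS : S.Valid) (hc : Chart S χ x0 R h x h1 K0) (hs : 0 < s)
    {v : E n → E n} {V0 : ℝ} (hv : ContDiff ℝ 1 v) (hV : ∀ ζ, ‖v ζ‖ ≤ V0) :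
    |s * S.avg χ s x (fun q => ⟪v q.2, S.Pvh q (uu x s q.1)⟫_ℝ)
        - s ^ 2 * S.avg χ s x (fun q => tr (S.Pvv q ∘L fderiv ℝ v q.2))|
      ≤ s ^ 2 * (n * (S.Cg * S.γ)
            * S.avg χ s x (fun q => ‖fderiv ℝ v q.2‖ * Real.sqrt (S.e q * S.lam q))
          + (S.Cg * S.γ)
            * S.avg χ s x (fun q => ‖v q.2‖ * (Real.sqrt (S.e q) + Real.sqrt (S.lam q)))
          + s⁻¹ * (S.Cg * S.γ)
            * S.avg χ s x (fun q => ‖v q.2‖ * ‖uu x s q.1‖ * Real.sqrt (S.e q))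
          + V0 * ((m + 1) * (1 + S.Cg)) * ∫ q, gT χ s x q.1 ∂S.μ) := by
  have hχ := gs_chi_diff hc
  have hN := hS.normal_prod (Sys.ker χ s x) v (gs_ker_contDiff hc s x) hv (gs_ker_cpt hc s)
    ((gs_tsupport_ker hc s).trans hc.sub)
  have lv : GsLB fun q : E m × E n => v q.2 := GsLB.snd hv.continuous
  have lDv : GsLB fun q : E m × E n => fderiv ℝ v q.2 :=
    GsLB.snd (hv.continuous_fderiv one_ne_zero)
  have lu := gs_lb_uu (n := n) x s
  have lG := gs_lb_G (n := n) s x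
  have lχ := gs_lb_dchi (n := n) hc
  have lk := gs_lb_ker (n := n) hc s x
  obtain ⟨iT4, -⟩ := gs_tail_integral (ρ := S.μ) (p := Prod.fst) measurable_fst hc hs (gs_mu_le hc)
  have hV0 : 0 ≤ V0 := (norm_nonneg _).trans (hV 0)
  have hcg := gs_Cgγ_nonneg hS
  have hm0 : (0 : ℝ) ≤ m := Nat.cast_nonneg m
  refine gs_abs_id2 (μ := S.μ) hs
    (T := fun q => gauss m s (q.1 - x)
      * fderiv ℝ χ q.1 (ContinuousLinearMap.adjoint (S.Pvh q) (v q.2)))
    (R' := fun q => Sys.ker χ s x q.1 * tr (S.E4 q ∘L fderiv ℝ v q.2)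
      + Sys.ker χ s x q.1 * ⟪S.E5 q, v q.2⟫_ℝ
      + (gauss m s (q.1 - x) * fderiv ℝ χ q.1 (ContinuousLinearMap.adjoint (S.E6 q) (v q.2))
        - s⁻¹ * (Sys.ker χ s x q.1 * ⟪S.E6 q (uu x s q.1), v q.2⟫_ℝ)))
    ?_ ?_ ?_ ?_ ?_ ?_ ?_ iT4 ?_ ?_ hN ?_
  · exact gs_int_ker hS hc s (lv.inner ((gs_lb_Pvh hS).clm_apply lu))
  · exact gs_int_ker hS hc s ((gs_lb_Pvv hS).clm_comp lDv).tr
  · exact gs_int_tail hS hc s ((gs_lb_Pvh hS).adjoint.clm_apply lv)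
  · refine (((lk.mul ((gs_lb_E4 hS).clm_comp lDv).tr).add (lk.mul ((gs_lb_E5 hS).inner lv))).add
      ((lG.mul (lχ.clm_apply' ((gs_lb_E6 hS).adjoint.clm_apply lv))).sub
        ((GsLB.const s⁻¹).mul (lk.mul (((gs_lb_E6 hS).clm_apply lu).inner lv))))).integrable hS hc
      fun q hq => ?_
    rw [gs_dchi_zero_out hc hq, gs_ker_zero hc s hq]
    simp
  · exact gs_int_ker hS hc s (lDv.norm.mul ((gs_lb_e hS).mul (gs_lb_lam hS)).sqrt)
  · exact gs_int_ker hS hc s (lv.norm.mul ((gs_lb_e hS).sqrt.add (gs_lb_lam hS).sqrt))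
  · exact gs_int_ker hS hc s ((lv.norm.mul lu.norm).mul (gs_lb_e hS).sqrt)
  · intro q
    rw [gs_fderiv_ker_apply hs x (hχ q.1), ContinuousLinearMap.adjoint_inner_right,
      real_inner_comm]
    ring
  · intro q
    rw [gs_fderiv_ker_apply hs x (hχ q.1), ContinuousLinearMap.adjoint_inner_right]
    ring
  · intro q
    have hk := gs_ker_nonneg' hc s x q.1
    have hT := gs_gT_nonneg χ s x q.1
    have hvq := hV q.2
    have hse := gs_sqrt_e_le hS q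
    have hse0 := Real.sqrt_nonneg (S.e q)
    have t1 : |gauss m s (q.1 - x)
        * fderiv ℝ χ q.1 (ContinuousLinearMap.adjoint (S.Pvh q) (v q.2))|
        ≤ V0 * (m + 1) * gT χ s x q.1 := by
      refine (gs_abs_G_dchi_le χ s x q.1 _).trans ?_
      rw [mul_comm]
      refine mul_le_mul_of_nonneg_right ?_ hT
      refine (gs_norm_adjoint_apply_le _ _).trans ?_
      rw [mul_comm]
      exact mul_le_mul hvq ((hS.norm_Pvh_le q).trans hse) (norm_nonneg _) hV0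
    have t2 : |Sys.ker χ s x q.1 * tr (S.E4 q ∘L fderiv ℝ v q.2)|
        ≤ n * (S.Cg * S.γ) * (Sys.ker χ s x q.1
            * (‖fderiv ℝ v q.2‖ * Real.sqrt (S.e q * S.lam q))) := by
      rw [abs_mul, abs_of_nonneg hk]
      have a1 : |tr (S.E4 q ∘L fderiv ℝ v q.2)|
          ≤ n * ((S.Cg * S.γ * Real.sqrt (S.e q * S.lam q)) * ‖fderiv ℝ v q.2‖) := by
        refine (abs_tr_le _).trans (mul_le_mul_of_nonneg_left ?_ (Nat.cast_nonneg n))
        exact ((S.E4 q).opNorm_comp_le _).trans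
          (mul_le_mul_of_nonneg_right (hS.E4_le q) (norm_nonneg _))
      calc _ ≤ Sys.ker χ s x q.1
            * (n * ((S.Cg * S.γ * Real.sqrt (S.e q * S.lam q)) * ‖fderiv ℝ v q.2‖)) :=
            mul_le_mul_of_nonneg_left a1 hk
        _ = _ := by ring
    have t3 : |Sys.ker χ s x q.1 * ⟪S.E5 q, v q.2⟫_ℝ|
        ≤ (S.Cg * S.γ) * (Sys.ker χ s x q.1
            * (‖v q.2‖ * (Real.sqrt (S.e q) + Real.sqrt (S.lam q)))) := by
      rw [abs_mul, abs_of_nonneg hk]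
      have a1 : |⟪S.E5 q, v q.2⟫_ℝ|
          ≤ (S.Cg * S.γ * (Real.sqrt (S.e q) + Real.sqrt (S.lam q))) * ‖v q.2‖ :=
        (abs_real_inner_le_norm _ _).trans
          (mul_le_mul_of_nonneg_right (hS.E5_le q) (norm_nonneg _))
      calc _ ≤ Sys.ker χ s x q.1
            * ((S.Cg * S.γ * (Real.sqrt (S.e q) + Real.sqrt (S.lam q))) * ‖v q.2‖) :=
            mul_le_mul_of_nonneg_left a1 hk
        _ = _ := by ring
    have t4 : |gauss m s (q.1 - x)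
        * fderiv ℝ χ q.1 (ContinuousLinearMap.adjoint (S.E6 q) (v q.2))|
        ≤ V0 * ((m + 1) * S.Cg) * gT χ s x q.1 := by
      refine (gs_abs_G_dchi_le χ s x q.1 _).trans ?_
      rw [mul_comm]
      refine mul_le_mul_of_nonneg_right ?_ hT
      refine (gs_norm_adjoint_apply_le _ _).trans ?_
      rw [mul_comm]
      refine mul_le_mul hvq ?_ (norm_nonneg _) hV0
      refine (hS.E6_le q).trans ?_
      rw [mul_comm]
      exact mul_le_mul hse (gs_Cgγ_le hS) hcg (by linarith)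
    have t5 : |s⁻¹ * (Sys.ker χ s x q.1 * ⟪S.E6 q (uu x s q.1), v q.2⟫_ℝ)|
        ≤ s⁻¹ * (S.Cg * S.γ) * (Sys.ker χ s x q.1
            * (‖v q.2‖ * ‖uu x s q.1‖ * Real.sqrt (S.e q))) := by
      rw [abs_mul, abs_mul, abs_of_nonneg hk, abs_of_pos (inv_pos.2 hs)]
      have a1 : |⟪S.E6 q (uu x s q.1), v q.2⟫_ℝ|
          ≤ ((S.Cg * S.γ * Real.sqrt (S.e q)) * ‖uu x s q.1‖) * ‖v q.2‖ := by
        refine (abs_real_inner_le_norm _ _).trans
          (mul_le_mul_of_nonneg_right ?_ (norm_nonneg _))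
        exact ((S.E6 q).le_opNorm _).trans
          (mul_le_mul_of_nonneg_right (hS.E6_le q) (norm_nonneg _))
      calc _ ≤ s⁻¹ * (Sys.ker χ s x q.1
            * (((S.Cg * S.γ * Real.sqrt (S.e q)) * ‖uu x s q.1‖) * ‖v q.2‖)) :=
            mul_le_mul_of_nonneg_left (mul_le_mul_of_nonneg_left a1 hk) (inv_pos.2 hs).le
        _ = _ := by ring
    rw [abs_le] at t1 t2 t3 t4 t5 ⊢
    constructor <;> linarith [t1.1, t1.2, t2.1, t2.2, t3.1, t3.2, t4.1, t4.2, t5.1, t5.2]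

theorem gs_gauss_normal (m n : ℕ) (Cg : ℝ) :
    ∃ C : ℝ, 0 < C ∧ ∀ S : Sys m n, S.Valid → S.Cg ≤ Cg →
      ∀ (χ : E m → ℝ) (x0 x : E m) (R h h1 K0 s : ℝ), Chart S χ x0 R h x h1 K0 → 0 < s → s ≤ 1 →
      ∀ (v : E n → E n) (V0 : ℝ), ContDiff ℝ 1 v → (∀ ζ, ‖v ζ‖ ≤ V0) →
      |s * S.avg χ s x (fun q => ⟪v q.2, S.Pvh q (uu x s q.1)⟫_ℝ)
          - s ^ 2 * S.avg χ s x (fun q => tr (S.Pvv q ∘L fderiv ℝ v q.2))|
        ≤ C * S.γ * (s ^ 2 * S.avg χ s x (fun q => ‖fderiv ℝ v q.2‖ * Real.sqrt (S.e q * S.lam q))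
            + s ^ 2 * S.avg χ s x (fun q => ‖v q.2‖ * (Real.sqrt (S.e q) + Real.sqrt (S.lam q)))
            + s * S.avg χ s x (fun q => ‖v q.2‖ * ‖uu x s q.1‖ * Real.sqrt (S.e q)))
          + C * V0 * s ^ 2 * tailG m K0 s h h1 := by
  have hm0 : (0 : ℝ) ≤ m := Nat.cast_nonneg m
  have hn0 : (0 : ℝ) ≤ n := Nat.cast_nonneg n
  have hC0 : 0 ≤ |Cg| := abs_nonneg Cg
  refine ⟨(n + 1) * |Cg| + 4 * ((m + 1) * (1 + |Cg|)) + 1, by positivity,
    fun S hS hCg χ x0 x R h h1 K0 s hc hs _ v V0 hv hV => ?_⟩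
  refine (gs_normal_core hS hc hs hv hV).trans ?_
  obtain ⟨-, lT⟩ := gs_tail_integral (ρ := S.μ) (p := Prod.fst) measurable_fst hc hs (gs_mu_le hc)
  have hpos := gs_Cg_pos hS
  have hle : S.Cg ≤ |Cg| := hCg.trans (le_abs_self _)
  have ht := gs_tailG_nonneg hc hs
  have hγ := hS.γ_nonneg
  have hV0 : 0 ≤ V0 := (norm_nonneg _).trans (hV 0)
  have hN1 : 0 ≤ S.avg χ s x (fun q => ‖fderiv ℝ v q.2‖ * Real.sqrt (S.e q * S.lam q)) :=
    gs_avg_nonneg hc s x fun q => by positivity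
  have hN2 : 0 ≤ S.avg χ s x (fun q => ‖v q.2‖ * (Real.sqrt (S.e q) + Real.sqrt (S.lam q))) :=
    gs_avg_nonneg hc s x fun q => by positivity
  have hN3 : 0 ≤ S.avg χ s x (fun q => ‖v q.2‖ * ‖uu x s q.1‖ * Real.sqrt (S.e q)) :=
    gs_avg_nonneg hc s x fun q => by positivity
  set N1 := S.avg χ s x (fun q => ‖fderiv ℝ v q.2‖ * Real.sqrt (S.e q * S.lam q))
  set N2 := S.avg χ s x (fun q => ‖v q.2‖ * (Real.sqrt (S.e q) + Real.sqrt (S.lam q)))
  set N3 := S.avg χ s x (fun q => ‖v q.2‖ * ‖uu x s q.1‖ * Real.sqrt (S.e q))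
  set C := (n + 1) * |Cg| + 4 * ((m + 1) * (1 + |Cg|)) + 1 with hC
  have hA0 := gs_Cgγ_nonneg hS
  have hB : (n + 1) * (S.Cg * S.γ) ≤ C * S.γ := by
    rw [← mul_assoc]
    refine mul_le_mul_of_nonneg_right ?_ hγ
    have : ((n : ℝ) + 1) * S.Cg ≤ (n + 1) * |Cg| := mul_le_mul_of_nonneg_left hle (by linarith)
    have h3 : 0 ≤ ((m : ℝ) + 1) * (1 + |Cg|) := by positivity
    rw [hC]
    linarith
  have hB1 : n * (S.Cg * S.γ) ≤ C * S.γ := by nlinarith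
  have hB2 : S.Cg * S.γ ≤ C * S.γ := by nlinarith
  have k1 : s ^ 2 * (n * (S.Cg * S.γ) * N1) ≤ C * S.γ * (s ^ 2 * N1) := by
    calc _ = n * (S.Cg * S.γ) * (s ^ 2 * N1) := by ring
      _ ≤ _ := mul_le_mul_of_nonneg_right hB1 (by positivity)
  have k2 : s ^ 2 * ((S.Cg * S.γ) * N2) ≤ C * S.γ * (s ^ 2 * N2) := by
    calc _ = (S.Cg * S.γ) * (s ^ 2 * N2) := by ring
      _ ≤ _ := mul_le_mul_of_nonneg_right hB2 (by positivity)
  have k3 : s ^ 2 * (s⁻¹ * (S.Cg * S.γ) * N3) ≤ C * S.γ * (s * N3) := by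
    calc _ = (S.Cg * S.γ) * (s * N3) := by field_simp
      _ ≤ _ := mul_le_mul_of_nonneg_right hB2 (by positivity)
  have k4 : s ^ 2 * (V0 * ((m + 1) * (1 + S.Cg)) * ∫ q, gT χ s x q.1 ∂S.μ)
      ≤ C * V0 * s ^ 2 * tailG m K0 s h h1 := by
    calc _ ≤ s ^ 2 * (V0 * ((m + 1) * (1 + S.Cg)) * (4 * tailG m K0 s h h1)) :=
          mul_le_mul_of_nonneg_left (mul_le_mul_of_nonneg_left lT (by positivity)) (by positivity)
      _ = (4 * ((m + 1) * (1 + S.Cg))) * (V0 * s ^ 2 * tailG m K0 s h h1) := by ring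
      _ ≤ C * (V0 * s ^ 2 * tailG m K0 s h h1) := by
          refine mul_le_mul_of_nonneg_right ?_ (by positivity)
          have : ((m : ℝ) + 1) * (1 + S.Cg) ≤ (m + 1) * (1 + |Cg|) :=
            mul_le_mul_of_nonneg_left (by linarith) (by linarith)
          have h3 : 0 ≤ ((n : ℝ) + 1) * |Cg| := by positivity
          rw [hC]
          linarith
      _ = _ := by ring
  linarith

end Claimed.Agent.R322.Sx
end
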