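/- Packed by merge_tool.py (helper293): 5 modules of Claimed.Agent.R322 in one file, same declarations.
   Old modules, in this order: Sx.Gauss, Sx.Weighted.Dil, Sx.Weighted.Moment, Sx.Weighted, Sx.Sep.Defs -/
import Claimed.Agent.R322.Pack027
import Claimed.Agent.R322.Pack029
import Claimed.Agent.R322.Pack044
import Claimed.Agent.R322.Pack031

/- ===== packed: Claimed.Agent.R322.Sx.Gauss ===== -/
section
/-!
# R322 / Sx / Gauss : Gaussian mass identity, Gaussian height tests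
(AE cutoff convention (2.20), Lemma 2.8, Lemma 2.9 and (2.23); Corollary 2.7 is in `Weighted.lean`)

Convention.  `χ` is a smooth chart cutoff (`IsCutoff χ x0 R h`, `closedBall x0 (R + h) ⊆ Ω`,
`R + h ≤ 4`), the centre `x` satisfies `ball x h1 ⊆ ball x0 R`, `0 < s ≤ 1`, `u = (y - x)/s`, and
`K0` bounds the mass `(ν + volume)(closedBall x0 (R + h))`.  "Apart from chart tails" means: up to
`C · (sup of the multiplier) · tailG m K0 s h h1`.  Logarithmic scale derivatives are written through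
the explicit kernel `ker χ s x · (|u|² - m)` (`hasDerivAt_*`).

TRUTH CHECK + PROOF PLAN (helper121, 07:45Z; all six statements re-derived from `Sys.Valid`: TRUE as
stated, constants `C = C(m, n, Q, Cg)`).  Notation `z = y - x`, `u = z/s`, `G = gauss m s z`,
`k = ker χ s x y = χ(y) G`, `cB = closedBall x0 (R + h)` (compact, `⊆ Ω`).
(K) kernel calculus (Mathlib only):
  `∂_s G = s⁻¹ G (|u|² - m)`;  `D_y G (w) = - s⁻¹ G ⟨u, w⟩`;
  field `X(y) = k • z` is `C¹`, `tsupport X ⊆ cB`;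
  `DX(w) = k (w - ⟨u,w⟩ u) + G Dχ(w) • z`;   `dvg X = - kerDot χ s x y + G Dχ(z)`;
  for every `A : E m →L E m`:  `tr (A ∘L DX) = k (tr A - ⟨A u, u⟩) + G Dχ(A z)`;
  `φ = ker χ s x`: `Dφ(w) = G Dχ(w) - s⁻¹ k ⟨u, w⟩`.
(T) tails: `Dχ y ≠ 0 ⇒ y ∈ cB \ ball x0 R ⇒ |z| ≥ h1` (`hc.centre`), `|z| ≤ 8`, `|Dχ| ≤ 4/h`, and
  `G ≤ (2π)^{-m/2} s^{-m} exp(-h1²/(2s²)) ≤ s^{-m} exp(-h1²/(4s²))`.  Hence every integrand containing `Dχ` is
  bounded by `(multiplier) · 32 h⁻¹ s^{-m} exp(-h1²/(4s²))` on `cB`, `0` outside, and `ν(cB) + vol(cB) ≤ K0`.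
(D) `hasDerivAt_*`: `hasDerivAt_integral_of_dominated_loc_of_deriv_le` on `v ∈ (s/2, 2s)`; the `v`-derivative of
  `χ(y) gauss m v z` is bounded by a constant `C(m,s)` times the indicator of `cB`, which has finite `μ`-, `vol`-,
  `τ`-mass (`Valid.finite_mass`; `τ(cB) < ∞` because `|M| ≤ ν + 2Q vol`, `D ≤ m ν`, `Λ ≤ Cg ν` on `cB`).
(M) `gauss_mass`: `Valid.horiz_M` with `X`:
  `- intM (kerDot) + intM (G Dχ(z)) + intM (a⁻¹ Da(X)) = Dav - Rav + ∫ G Dχ(B z) dμ + ∫ tr(E1 DX) + ⟨E2, X⟩ dμ`.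
  Errors: `|tr(E1 (1 - u⊗u))| ≤ |E1| (m + |u|²)`, `|⟨E2,X⟩| ≤ |E2| k s |u|`, `|E_i| ≤ Cg γ (e+λ)` give
  `C γ ∫ k (1+|u|²) d(D+Λ)` (`Valid.intD_eq`, `intLam_eq`); `|a⁻¹ Da(X)| ≤ 2 Cg γ k s |u|` and `Valid.abs_intM_le` give
  `C γ ∫ k (1+|u|²) d|M|`; `∫ · dτ = ∫ · d|M| + ∫ · dD + ∫ · dΛ` (`integral_add_measure`, integrability as in (D)).
(H) `gauss_horiz`: `Valid.horiz_prod f X`:  `∫ kerDot f dμ = avg (f (B[u,u] - e)) + s avg (Df(P_vh u)) + ∫ f a⁻¹ Da(X) dμ`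
  `- ∫ (f tr(E1 DX) + f ⟨E2,X⟩ + Df(E3 X)) dμ + ∫ f G (Dχ(z) - Dχ(B z)) dμ`.
  `Df` is NOT assumed bounded: integrability of the terms with `Df` from `Valid.proper` (heights bounded a.e. over `cB`,
  `Df` continuous) through `Valid.integrable_of_baseCpt` (its bound is only required a.e.).
(N) `gauss_normal`: `Valid.normal_prod φ v`, multiplied by `s²`:
  `s² avg tr(P_vv Dv) - s avg ⟨v, P_vh u⟩ + s² ∫ G Dχ(P_vh† v) dμ`
  `= s² avg tr(E4 Dv) + s² avg ⟨E5, v⟩ - s avg ⟨E6 u, v⟩ + s² ∫ G Dχ(E6† v) dμ`;  `|tr(E4 Dv)| ≤ n |E4| |Dv|`.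
-/

set_option autoImplicit false

namespace Claimed.Agent.R322.Sx

open MeasureTheory Set Metric
open scoped ENNReal NNReal InnerProductSpace

/- the definitions `tailG`, `Chart`, `uu`, `kerDot` are (verbatim) in `Sx/Gauss/Defs.lean`. -/

namespace Sys

variable {m n : ℕ} {S : Sys m n}

/-! ## Scale derivatives -/

theorem Valid.hasDerivAt_Mav (hS : S.Valid) (Q : ℕ) {χ : E m → ℝ} {x0 x : E m} {R h h1 K0 s : ℝ}
    (hc : Chart S χ x0 R h x h1 K0) (hs : 0 < s) :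
    HasDerivAt (fun v => S.Mav Q χ v x) (s⁻¹ * S.intM Q (kerDot χ s x)) s :=
  gs_hasDerivAt_Mav hS Q hc hs

theorem Valid.hasDerivAt_avg (hS : S.Valid) {χ : E m → ℝ} {x0 x : E m} {R h h1 K0 s : ℝ}
    (hc : Chart S χ x0 R h x h1 K0) (hs : 0 < s) {g : E m × E n → ℝ} (hg : Measurable g)
    (G0 : ℝ) (hb : ∀ q, |g q| ≤ G0) :
    HasDerivAt (fun v => S.avg χ v x g) (s⁻¹ * ∫ q, kerDot χ s x q.1 * g q ∂S.μ) s :=
  gs_hasDerivAt_avg hc hs hg G0 hb

theorem Valid.hasDerivAt_tauav (hS : S.Valid) (Q : ℕ) {χ : E m → ℝ} {x0 x : E m}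
    {R h h1 K0 s : ℝ} (hc : Chart S χ x0 R h x h1 K0) (hs : 0 < s) :
    HasDerivAt (fun v => S.tauav Q χ v x) (s⁻¹ * ∫ y, kerDot χ s x y ∂(S.tau Q)) s :=
  gs_hasDerivAt_tauav hS Q hc hs

end Sys

/-! ## AE Lemma 2.8 : Gaussian mass identity -/

/-- `d M_s / d log s = - D_s + R_s + E_s + T_s`; hence, with `A = s² M_s`,
`dA / d log s = s² L_s + s² R_s + s² (E_s + T_s)`, AE (2.21)-(2.22). -/
theorem gauss_mass (m n Q : ℕ) (Cg : ℝ) :
    ∃ C : ℝ, 0 < C ∧ ∀ S : Sys m n, S.Valid → S.Cg ≤ Cg →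
      ∀ (χ : E m → ℝ) (x0 x : E m) (R h h1 K0 s : ℝ), Chart S χ x0 R h x h1 K0 → 0 < s → s ≤ 1 →
      |S.intM Q (kerDot χ s x) + S.Dav χ s x - S.Rav χ s x|
        ≤ C * S.γ * (∫ y, Sys.ker χ s x y * (1 + ‖uu x s y‖ ^ 2) ∂(S.tau Q))
          + C * tailG m K0 s h h1 :=
  gs_gauss_mass m n Q Cg

/-! ## AE Lemma 2.9 : Gaussian height tests -/

/-- Horizontal Gaussian test with a height multiplier `f`:
`∫ Ġ_s f dμ = ∫ G_s f (B[u,u] - e) dμ + s ∫ G_s Df · P_vh u dμ + errors`. -/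
theorem gauss_horiz (m n : ℕ) (Cg : ℝ) :
    ∃ C : ℝ, 0 < C ∧ ∀ S : Sys m n, S.Valid → S.Cg ≤ Cg →
      ∀ (χ : E m → ℝ) (x0 x : E m) (R h h1 K0 s : ℝ), Chart S χ x0 R h x h1 K0 → 0 < s → s ≤ 1 →
      ∀ (f : E n → ℝ) (F0 : ℝ), ContDiff ℝ 1 f → (∀ ζ, |f ζ| ≤ F0) →
      |(∫ q, kerDot χ s x q.1 * f q.2 ∂S.μ)
          - S.avg χ s x (fun q => f q.2 * (⟪S.B q (uu x s q.1), uu x s q.1⟫_ℝ - S.e q))
          - s * S.avg χ s x (fun q => fderiv ℝ f q.2 (S.Pvh q (uu x s q.1)))|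
        ≤ C * S.γ * (S.avg χ s x (fun q => |f q.2| * (S.e q + S.lam q) * (1 + ‖uu x s q.1‖ ^ 2))
            + s * S.avg χ s x (fun q => |f q.2| * ‖uu x s q.1‖)
            + s * S.avg χ s x (fun q => ‖fderiv ℝ f q.2‖ * ‖uu x s q.1‖
                * (Real.sqrt (S.e q) + Real.sqrt (S.lam q))))
          + C * F0 * tailG m K0 s h h1 :=
  gs_gauss_horiz m n Cg

/-- Normal Gaussian test with a vector multiplier `v`:
`s ∫ G_s v · P_vh u dμ = s² ∫ G_s Dv : P_vv dμ + errors`. -/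
theorem gauss_normal (m n : ℕ) (Cg : ℝ) :
    ∃ C : ℝ, 0 < C ∧ ∀ S : Sys m n, S.Valid → S.Cg ≤ Cg →
      ∀ (χ : E m → ℝ) (x0 x : E m) (R h h1 K0 s : ℝ), Chart S χ x0 R h x h1 K0 → 0 < s → s ≤ 1 →
      ∀ (v : E n → E n) (V0 : ℝ), ContDiff ℝ 1 v → (∀ ζ, ‖v ζ‖ ≤ V0) →
      |s * S.avg χ s x (fun q => ⟪v q.2, S.Pvh q (uu x s q.1)⟫_ℝ)
          - s ^ 2 * S.avg χ s x (fun q => tr (S.Pvv q ∘L fderiv ℝ v q.2))|
        ≤ C * S.γ * (s ^ 2 * S.avg χ s x (fun q => ‖fderiv ℝ v q.2‖ * Real.sqrt (S.e q * S.lam q))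
            + s ^ 2 * S.avg χ s x (fun q => ‖v q.2‖ * (Real.sqrt (S.e q) + Real.sqrt (S.lam q)))
            + s * S.avg χ s x (fun q => ‖v q.2‖ * ‖uu x s q.1‖ * Real.sqrt (S.e q)))
          + C * V0 * s ^ 2 * tailG m K0 s h h1 :=
  gs_gauss_normal m n Cg

end Claimed.Agent.R322.Sx
end

/- ===== packed: Claimed.Agent.R322.Sx.Weighted.Dil ===== -/
section
/-!
# R322 / Sx / Weighted / Dil : polynomial dilations of a witness (AE (2.17))   (helper43)

`Wt.Dil F S K1 J x s d Rs` bundles the hypotheses.  `Dil.chain`: concentric chain of witnesses (`F.cfg`) at the scales `max (t/2) 1`,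
matched by `Fix.matching`; `⌈t⌉₊ + 1 ≤ 3 t` steps, each `≤ 2 Cmaj t s √(K1 t^J d)`; so the given majority list at scale `s` is matched with
the witness at scale `t s` within `6 Cmaj √K1 t^{2 + J/2} s √d` (`Dil.matched`).  `Dil.moment`, `Dil.sup` transfer the estimates
(`J' = 2 + J/2`); integrability from properness (`Dil.integrableOn_distA`), mass bound `Dil.mass_le`.
-/

set_option autoImplicit false

namespace Claimed.Agent.R322.Sx

open MeasureTheory Set Metric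
open scoped ENNReal NNReal InnerProductSpace

namespace Wt

variable {m n Q : ℕ} {Cg : ℝ}

/-- the standing hypotheses of AE (2.17): polynomial dilation bound on `t ∈ [1, Rs]`. -/
structure Dil (F : Fix m n Q Cg) (S : Sys m n) (K1 J : ℝ) (x : E m) (s d Rs : ℝ) : Prop where
  valid : S.Valid
  cg : S.Cg ≤ Cg
  one_le_K1 : 1 ≤ K1
  J_nonneg : 0 ≤ J
  s_pos : 0 < s
  d_nonneg : 0 ≤ d
  one_le_Rs : 1 ≤ Rs
  Rs_le : Rs * s ≤ 1
  hyp : ∀ t : ℝ, 1 ≤ t → t ≤ Rs → ball x (F.c * (t * s)) ⊆ S.Ω ∧ K1 * t ^ J * d ≤ F.d0 ∧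
        S.tau Q (ball x (F.c * (t * s))) ≤ ENNReal.ofReal (K1 * t ^ J * d * (t * s) ^ m)

namespace Dil

variable {F : Fix m n Q Cg} {S : Sys m n} {K1 J : ℝ} {x : E m} {s d Rs : ℝ}

theorem dd_nonneg (D : Dil F S K1 J x s d Rs) {t : ℝ} (ht : 1 ≤ t) : 0 ≤ K1 * t ^ J * d := by
  have := D.one_le_K1
  have := D.d_nonneg
  have : 0 ≤ t ^ J := Real.rpow_nonneg (by linarith) _
  positivity

theorem dd_mono (D : Dil F S K1 J x s d Rs) {t t' : ℝ} (ht' : 1 ≤ t') (h : t' ≤ t) :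
    K1 * t' ^ J * d ≤ K1 * t ^ J * d := by
  have := D.one_le_K1
  have h1 : t' ^ J ≤ t ^ J := Real.rpow_le_rpow (by linarith) h D.J_nonneg
  apply mul_le_mul_of_nonneg_right _ D.d_nonneg
  apply mul_le_mul_of_nonneg_left h1 (by linarith)

theorem ball_sub (D : Dil F S K1 J x s d Rs) {t : ℝ} (ht : 1 ≤ t) (htR : t ≤ Rs) :
    closedBall x (t * s) ⊆ ball x (F.c * (t * s)) := by
  have hts : 0 < t * s := mul_pos (by linarith) D.s_pos
  apply closedBall_subset_ball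
  nlinarith [F.c_gt]

theorem closedBall_sub_Ω (D : Dil F S K1 J x s d Rs) {t : ℝ} (ht : 1 ≤ t) (htR : t ≤ Rs) :
    closedBall x (t * s) ⊆ S.Ω := (D.ball_sub ht htR).trans (D.hyp t ht htR).1

theorem ball_sub_Ω (D : Dil F S K1 J x s d Rs) {t : ℝ} (ht : 1 ≤ t) (htR : t ≤ Rs) :
    ball x (t * s) ⊆ S.Ω := ball_subset_closedBall.trans (D.closedBall_sub_Ω ht htR)

/-- a joint witness at every dilation. -/
theorem exists_wit (D : Dil F S K1 J x s d Rs) {t : ℝ} (ht : 1 ≤ t) (htR : t ≤ Rs) :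
    ∃ A : Fin Q → E n, F.IsWit S x (t * s) (K1 * t ^ J * d) A := by
  have hts : 0 < t * s := mul_pos (by linarith) D.s_pos
  have hts1 : t * s ≤ 1 := le_trans (mul_le_mul_of_nonneg_right htR D.s_pos.le) D.Rs_le
  obtain ⟨h1, h2, h3⟩ := D.hyp t ht htR
  exact F.cfg S D.valid D.cg x (t * s) (K1 * t ^ J * d) hts hts1 (D.dd_nonneg ht) h2 h1 h3

/-- one step of the concentric chain. -/
theorem step (D : Dil F S K1 J x s d Rs) {t t' : ℝ} (ht' : 1 ≤ t') (h : t' ≤ t) (h2 : t ≤ 2 * t')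
    (htR : t ≤ Rs) {A' A : Fin Q → E n} (hA' : F.IsMaj S x (t' * s) (K1 * t' ^ J * d) A')
    (hA : F.IsMaj S x (t * s) (K1 * t ^ J * d) A) :
    Sys.Matched A' A (2 * F.Cmaj * (t * s) * Real.sqrt (K1 * t ^ J * d)) := by
  have ht : 1 ≤ t := ht'.trans h
  have hs := D.s_pos
  have hts : 0 < t * s := mul_pos (by linarith) hs
  have hts' : 0 < t' * s := mul_pos (by linarith) hs
  have hle : t' * s ≤ t * s := mul_le_mul_of_nonneg_right h hs.le
  have hadj : Adjacent x x (t' * s) (t * s) := by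
    refine ⟨hts', hts, by linarith, by nlinarith, ?_⟩
    rw [sub_self, norm_zero]
    have : 0 < min (t' * s) (t * s) := lt_min hts' hts
    positivity
  have := F.matching D.valid hadj (D.ball_sub_Ω ht' (h.trans htR)) (D.ball_sub_Ω ht htR) hA' hA
  refine this.mono ?_
  have hsq : Real.sqrt (K1 * t' ^ J * d) ≤ Real.sqrt (K1 * t ^ J * d) :=
    Real.sqrt_le_sqrt (D.dd_mono ht' h)
  have h3 : t' * s * Real.sqrt (K1 * t' ^ J * d) ≤ t * s * Real.sqrt (K1 * t ^ J * d) :=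
    mul_le_mul hle hsq (Real.sqrt_nonneg _) hts.le
  have hC := F.Cmaj_pos
  calc F.Cmaj * (t' * s * Real.sqrt (K1 * t' ^ J * d) + t * s * Real.sqrt (K1 * t ^ J * d))
      ≤ F.Cmaj * (t * s * Real.sqrt (K1 * t ^ J * d) + t * s * Real.sqrt (K1 * t ^ J * d)) := by
        apply mul_le_mul_of_nonneg_left _ hC.le
        linarith
    _ = _ := by ring

/-- the concentric dyadic chain. -/
theorem chain (D : Dil F S K1 J x s d Rs) {A : Fin Q → E n} (hA : F.IsMaj S x s (K1 * d) A) :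
    ∀ (N : ℕ) (t : ℝ), 1 ≤ t → t ≤ Rs → t ≤ 2 ^ N → ∀ A' : Fin Q → E n,
      F.IsMaj S x (t * s) (K1 * t ^ J * d) A' →
      Sys.Matched A A' ((N + 1) * (2 * F.Cmaj * (t * s) * Real.sqrt (K1 * t ^ J * d))) := by
  have hA1 : F.IsMaj S x (1 * s) (K1 * (1 : ℝ) ^ J * d) A := by
    rw [one_mul, Real.one_rpow, mul_one]; exact hA
  intro N
  induction N with
  | zero =>
    intro t ht htR ht2 A' hA'
    have := D.step le_rfl ht (by simpa using ht2.trans (by norm_num)) htR hA1 hA'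
    simpa using this
  | succ N ih =>
    intro t ht htR ht2 A' hA'
    have hs := D.s_pos
    obtain ⟨t', ht'def⟩ : ∃ t' : ℝ, t' = max (t / 2) 1 := ⟨_, rfl⟩
    have h1 : 1 ≤ t' := by rw [ht'def]; exact le_max_right _ _
    have h2 : t' ≤ t := by rw [ht'def]; exact max_le (by linarith) ht
    have h3 : t ≤ 2 * t' := by
      have : t / 2 ≤ t' := by rw [ht'def]; exact le_max_left _ _
      linarith
    have h4 : t' ≤ 2 ^ N := by
      rw [ht'def]
      refine max_le ?_ (one_le_pow₀ (by norm_num))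
      rw [pow_succ] at ht2
      linarith
    obtain ⟨A'', hA''⟩ := D.exists_wit h1 (h2.trans htR)
    have m1 := ih t' h1 (h2.trans htR) h4 A'' hA''.maj
    have m2 := D.step h1 h2 h3 htR hA''.maj hA'
    refine (m1.trans m2).mono ?_
    have hsq : Real.sqrt (K1 * t' ^ J * d) ≤ Real.sqrt (K1 * t ^ J * d) :=
      Real.sqrt_le_sqrt (D.dd_mono h1 h2)
    have hts : 0 < t * s := mul_pos (by linarith) hs
    have hle : t' * s ≤ t * s := mul_le_mul_of_nonneg_right h2 hs.le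
    have h5 : t' * s * Real.sqrt (K1 * t' ^ J * d) ≤ t * s * Real.sqrt (K1 * t ^ J * d) :=
      mul_le_mul hle hsq (Real.sqrt_nonneg _) hts.le
    have hC := F.Cmaj_pos
    have h6 : 2 * F.Cmaj * (t' * s) * Real.sqrt (K1 * t' ^ J * d)
        ≤ 2 * F.Cmaj * (t * s) * Real.sqrt (K1 * t ^ J * d) := by
      calc 2 * F.Cmaj * (t' * s) * Real.sqrt (K1 * t' ^ J * d)
          = 2 * F.Cmaj * (t' * s * Real.sqrt (K1 * t' ^ J * d)) := by ring
        _ ≤ 2 * F.Cmaj * (t * s * Real.sqrt (K1 * t ^ J * d)) := by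
            apply mul_le_mul_of_nonneg_left h5 (by positivity)
        _ = _ := by ring
    have hN : (0 : ℝ) ≤ (N : ℝ) + 1 := by positivity
    push_cast
    calc ((N : ℝ) + 1) * (2 * F.Cmaj * (t' * s) * Real.sqrt (K1 * t' ^ J * d))
          + 2 * F.Cmaj * (t * s) * Real.sqrt (K1 * t ^ J * d)
        ≤ ((N : ℝ) + 1) * (2 * F.Cmaj * (t * s) * Real.sqrt (K1 * t ^ J * d))
          + 2 * F.Cmaj * (t * s) * Real.sqrt (K1 * t ^ J * d) := by
          have := mul_le_mul_of_nonneg_left h6 hN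
          linarith
      _ = _ := by ring

/-- `√(K1 t^J d) = √K1 t^{J/2} √d`. -/
theorem sqrt_dd (D : Dil F S K1 J x s d Rs) {t : ℝ} (ht : 1 ≤ t) :
    Real.sqrt (K1 * t ^ J * d) = Real.sqrt K1 * t ^ (J / 2) * Real.sqrt d := by
  have h0 : 0 ≤ t := by linarith
  have hK := D.one_le_K1
  have h1 : 0 ≤ t ^ J := Real.rpow_nonneg h0 _
  rw [Real.sqrt_mul (by positivity), Real.sqrt_mul (by linarith)]
  congr 2
  rw [Real.sqrt_eq_rpow, ← Real.rpow_mul h0]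
  congr 1
  ring

/-- the total matching error of the chain. -/
theorem matched (D : Dil F S K1 J x s d Rs) {A : Fin Q → E n} (hA : F.IsMaj S x s (K1 * d) A)
    {t : ℝ} (ht : 1 ≤ t) (htR : t ≤ Rs) {A' : Fin Q → E n}
    (hA' : F.IsMaj S x (t * s) (K1 * t ^ J * d) A') :
    Sys.Matched A A' (6 * F.Cmaj * Real.sqrt K1 * (t ^ (2 + J / 2) * s * Real.sqrt d)) := by
  have h0 : 0 < t := by linarith
  have hN : t ≤ 2 ^ ⌈t⌉₊ := by
    calc t ≤ (⌈t⌉₊ : ℝ) := Nat.le_ceil t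
      _ ≤ ((2 ^ ⌈t⌉₊ : ℕ) : ℝ) := by exact_mod_cast Nat.lt_two_pow_self.le
      _ = 2 ^ ⌈t⌉₊ := by push_cast; rfl
  refine (D.chain hA ⌈t⌉₊ t ht htR hN A' hA').mono ?_
  rw [D.sqrt_dd ht]
  have hc : ((⌈t⌉₊ : ℝ) + 1) ≤ 3 * t := by
    have := Nat.ceil_lt_add_one h0.le
    linarith
  have e : t ^ (2 + J / 2) = t * t * t ^ (J / 2) := by
    rw [Real.rpow_add h0, Real.rpow_two]; ring
  rw [e]
  have hC := F.Cmaj_pos
  have hs := D.s_pos
  have h1 : 0 ≤ t ^ (J / 2) := Real.rpow_nonneg h0.le _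
  have hX : 0 ≤ 2 * F.Cmaj * (t * s) * (Real.sqrt K1 * t ^ (J / 2) * Real.sqrt d) := by positivity
  calc ((⌈t⌉₊ : ℝ) + 1) * (2 * F.Cmaj * (t * s) * (Real.sqrt K1 * t ^ (J / 2) * Real.sqrt d))
      ≤ (3 * t) * (2 * F.Cmaj * (t * s) * (Real.sqrt K1 * t ^ (J / 2) * Real.sqrt d)) :=
        mul_le_mul_of_nonneg_right hc hX
    _ = _ := by ring

/-- the mass constant. -/
noncomputable def Cnu (F : Fix m n Q Cg) : ℝ :=
  F.d0 + 2 * Q * (volume (ball (0 : E m) 1)).toReal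

theorem Cnu_nonneg (F : Fix m n Q Cg) : 0 ≤ Cnu F := by
  unfold Cnu
  have := F.d0_pos
  positivity

theorem prod_univ_eq (B : Set (E m)) :
    (B ×ˢ (univ : Set (E n))) = Prod.fst ⁻¹' B := by
  ext q; simp

theorem mass_le (D : Dil F S K1 J x s d Rs) {t : ℝ} (ht : 1 ≤ t) (htR : t ≤ Rs) :
    S.μ (ball x (t * s) ×ˢ (univ : Set (E n))) ≤ ENNReal.ofReal (Cnu F * (t * s) ^ m) := by
  have hts : 0 < t * s := mul_pos (by linarith) D.s_pos
  obtain ⟨h1, h2, h3⟩ := D.hyp t ht htR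
  have e1 : S.μ (ball x (t * s) ×ˢ (univ : Set (E n))) = S.nu (ball x (t * s)) := by
    unfold Sys.nu
    rw [Measure.map_apply measurable_fst isOpen_ball.measurableSet, prod_univ_eq]
  have e2 : S.nu (ball x (t * s))
      ≤ S.absM Q (ball x (t * s)) + (Q : ℝ≥0∞) * S.volS (ball x (t * s)) := by
    have := D.valid.nu_le Q (ball x (t * s))
    simpa using this
  have e3 : S.absM Q (ball x (t * s)) ≤ ENNReal.ofReal (F.d0 * (t * s) ^ m) := by
    calc S.absM Q (ball x (t * s)) ≤ S.tau Q (ball x (t * s)) := by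
          unfold Sys.tau
          rw [Measure.add_apply, Measure.add_apply, add_assoc]
          exact le_add_right le_rfl
      _ ≤ S.tau Q (ball x (F.c * (t * s))) :=
          measure_mono (ball_subset_closedBall.trans (D.ball_sub ht htR))
      _ ≤ ENNReal.ofReal (K1 * t ^ J * d * (t * s) ^ m) := h3
      _ ≤ _ := ENNReal.ofReal_le_ofReal (mul_le_mul_of_nonneg_right h2 (by positivity))
  have hfin : volume (ball (0 : E m) 1) ≠ ∞ := measure_ball_lt_top.ne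
  have e4 : S.volS (ball x (t * s))
      ≤ ENNReal.ofReal (2 * (volume (ball (0 : E m) 1)).toReal * (t * s) ^ m) := by
    calc S.volS (ball x (t * s)) ≤ 2 * volume (ball x (t * s)) := D.valid.volS_le _
      _ = 2 * (ENNReal.ofReal ((t * s) ^ m) * volume (ball (0 : E m) 1)) := by
          rw [volume_ball_eq x hts]
      _ = _ := by
          conv_lhs => rw [← ENNReal.ofReal_toReal hfin]
          rw [← ENNReal.ofReal_mul (by positivity)]
          have h2 : (2 : ℝ≥0∞) = ENNReal.ofReal 2 := by simp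
          generalize (volume (ball (0 : E m) 1)).toReal = ω
          rw [h2, ← ENNReal.ofReal_mul (by norm_num)]
          congr 1
          ring
  rw [e1]
  calc S.nu (ball x (t * s))
      ≤ S.absM Q (ball x (t * s)) + (Q : ℝ≥0∞) * S.volS (ball x (t * s)) := e2
    _ ≤ ENNReal.ofReal (F.d0 * (t * s) ^ m) + (Q : ℝ≥0∞)
          * ENNReal.ofReal (2 * (volume (ball (0 : E m) 1)).toReal * (t * s) ^ m) := by
        gcongr
    _ = _ := by
        have hd0 := F.d0_pos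
        rw [← ENNReal.ofReal_natCast (Q : ℕ), ← ENNReal.ofReal_mul (by positivity),
          ← ENNReal.ofReal_add (by positivity) (by positivity)]
        congr 1
        unfold Cnu
        ring

theorem mass_lt_top (D : Dil F S K1 J x s d Rs) {t : ℝ} (ht : 1 ≤ t) (htR : t ≤ Rs) :
    S.μ (ball x (t * s) ×ˢ (univ : Set (E n))) < ∞ :=
  lt_of_le_of_lt (D.mass_le ht htR) ENNReal.ofReal_lt_top

theorem mass_toReal_le (D : Dil F S K1 J x s d Rs) {t : ℝ} (ht : 1 ≤ t) (htR : t ≤ Rs) :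
    (S.μ (ball x (t * s) ×ˢ (univ : Set (E n)))).toReal ≤ Cnu F * (t * s) ^ m := by
  have hts : 0 < t * s := mul_pos (by linarith) D.s_pos
  have := Cnu_nonneg F
  exact ENNReal.toReal_le_of_le_ofReal (by positivity) (D.mass_le ht htR)

theorem measurableSet_cyl (x : E m) (r : ℝ) :
    MeasurableSet (ball x r ×ˢ (univ : Set (E n))) :=
  isOpen_ball.measurableSet.prod MeasurableSet.univ

/-- powers of the distance to a list are integrable over the cylinders (properness). -/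
theorem integrableOn_distA (D : Dil F S K1 J x s d Rs) (hQ : 1 ≤ Q) {t : ℝ} (ht : 1 ≤ t)
    (htR : t ≤ Rs) (A' : Fin Q → E n) {p : ℝ} (hp : 0 ≤ p) :
    IntegrableOn (fun q : E m × E n => Sys.distA A' q.2 ^ p)
      (ball x (t * s) ×ˢ (univ : Set (E n))) S.μ := by
  obtain ⟨H, hH⟩ := D.valid.proper (closedBall x (t * s)) (isCompact_closedBall _ _)
    (D.closedBall_sub_Ω ht htR)
  have hmeas : Measurable fun q : E m × E n => Sys.distA A' q.2 ^ p :=
    ((Sys.continuous_distA A').measurable.comp measurable_snd).pow_const p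
  refine IntegrableOn.of_bound (D.mass_lt_top ht htR) hmeas.aestronglyMeasurable
    ((|H| + ‖A' ⟨0, hQ⟩‖) ^ p) ?_
  rw [ae_restrict_iff' (measurableSet_cyl x _)]
  have hnull : S.μ {q : E m × E n | ¬ (q ∈ ball x (t * s) ×ˢ (univ : Set (E n)) → ‖q.2‖ ≤ H)} = 0 := by
    refine measure_mono_null ?_ hH
    intro q hq
    simp only [Set.mem_ofPred_eq, Classical.not_imp, not_le] at hq
    exact ⟨ball_subset_closedBall hq.1.1, hq.2⟩
  filter_upwards [(show ∀ᵐ q ∂S.μ, (q ∈ ball x (t * s) ×ˢ (univ : Set (E n)) → ‖q.2‖ ≤ H) from hnull)]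
    with q hq hqB
  have h1 : Sys.distA A' q.2 ≤ |H| + ‖A' ⟨0, hQ⟩‖ := by
    calc Sys.distA A' q.2 ≤ ‖q.2 - A' ⟨0, hQ⟩‖ := Sys.distA_le _ _ _
      _ ≤ ‖q.2‖ + ‖A' ⟨0, hQ⟩‖ := norm_sub_le _ _
      _ ≤ _ := by linarith [hq hqB, le_abs_self H]
  have h0 := Sys.distA_nonneg A' q.2
  rw [Real.norm_eq_abs, abs_of_nonneg (Real.rpow_nonneg h0 _)]
  exact Real.rpow_le_rpow h0 h1 hp

theorem add_rpow_le_two {a b p : ℝ} (ha : 0 ≤ a) (hb : 0 ≤ b) (hp : 0 ≤ p) :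
    (a + b) ^ p ≤ 2 ^ p * (a ^ p + b ^ p) := by
  have h2 : (0 : ℝ) ≤ 2 ^ p := Real.rpow_nonneg (by norm_num) _
  have hap := Real.rpow_nonneg ha p
  have hbp := Real.rpow_nonneg hb p
  rcases le_total a b with h | h
  · calc (a + b) ^ p ≤ (2 * b) ^ p := Real.rpow_le_rpow (by positivity) (by linarith) hp
      _ = 2 ^ p * b ^ p := Real.mul_rpow (by norm_num) hb
      _ ≤ _ := mul_le_mul_of_nonneg_left (by linarith) h2
  · calc (a + b) ^ p ≤ (2 * a) ^ p := Real.rpow_le_rpow (by positivity) (by linarith) hp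
      _ = 2 ^ p * a ^ p := Real.mul_rpow (by norm_num) ha
      _ ≤ _ := mul_le_mul_of_nonneg_left (by linarith) h2

/-- the new moment constant. -/
noncomputable def CpD (F : Fix m n Q Cg) (K1 p : ℝ) : ℝ :=
  2 * (|F.Cp p| * Real.sqrt K1 + (Cnu F + 1) * (6 * F.Cmaj * Real.sqrt K1))

theorem CpD_nonneg (F : Fix m n Q Cg) (K1 p : ℝ) : 0 ≤ CpD F K1 p := by
  unfold CpD
  have := Cnu_nonneg F
  have := F.Cmaj_pos
  positivity

/-- pure arithmetic of the moment transfer. -/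
theorem moment_arith {a b c Y V p : ℝ} (ha : 0 ≤ a) (hb : 0 ≤ b) (hc : 0 ≤ c) (hY : 0 ≤ Y)
    (hV : 0 ≤ V) (hp : 1 ≤ p) :
    2 ^ p * (V * (a * Y) ^ p + (b * Y) ^ p * (c * V)) ≤ V * (2 * (a + (c + 1) * b) * Y) ^ p := by
  have hp0 : 0 ≤ p := by linarith
  have h1 : c * (b * Y) ^ p ≤ ((c + 1) * b * Y) ^ p := by
    have e : ((c + 1) * b * Y) ^ p = (c + 1) ^ p * (b * Y) ^ p := by
      rw [mul_assoc, Real.mul_rpow (by linarith) (by positivity)]
    rw [e]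
    apply mul_le_mul_of_nonneg_right _ (Real.rpow_nonneg (by positivity) _)
    calc c ≤ c + 1 := by linarith
      _ ≤ (c + 1) ^ p := Real.self_le_rpow_of_one_le (by linarith) hp
  have h2 : (a * Y) ^ p + ((c + 1) * b * Y) ^ p ≤ ((a + (c + 1) * b) * Y) ^ p := by
    have := Real.add_rpow_le_rpow_add (a := a * Y) (b := (c + 1) * b * Y) (by positivity)
      (by positivity) hp
    calc _ ≤ (a * Y + (c + 1) * b * Y) ^ p := this
      _ = _ := by congr 1; ring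
  have e2 : (2 * (a + (c + 1) * b) * Y) ^ p = 2 ^ p * ((a + (c + 1) * b) * Y) ^ p := by
    rw [mul_assoc, Real.mul_rpow (by norm_num) (by positivity)]
  rw [e2]
  have h2p : (0 : ℝ) ≤ 2 ^ p := Real.rpow_nonneg (by norm_num) _
  calc 2 ^ p * (V * (a * Y) ^ p + (b * Y) ^ p * (c * V))
      = 2 ^ p * (V * ((a * Y) ^ p + c * (b * Y) ^ p)) := by ring
    _ ≤ 2 ^ p * (V * ((a + (c + 1) * b) * Y) ^ p) := by
        apply mul_le_mul_of_nonneg_left _ h2p
        apply mul_le_mul_of_nonneg_left _ hV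
        linarith
    _ = _ := by ring

/-- `t s √(K1 t^J d) ≤ √K1 Y`. -/
theorem ts_sqrt_le (D : Dil F S K1 J x s d Rs) {t : ℝ} (ht : 1 ≤ t) :
    t * s * Real.sqrt (K1 * t ^ J * d)
      ≤ Real.sqrt K1 * (t ^ (2 + J / 2) * s * Real.sqrt d) := by
  have h0 : 0 < t := by linarith
  have e : t ^ (2 + J / 2) = t * t * t ^ (J / 2) := by
    rw [Real.rpow_add h0, Real.rpow_two]; ring
  have hs := D.s_pos
  have h1 : 0 ≤ t ^ (J / 2) := Real.rpow_nonneg h0.le _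
  rw [D.sqrt_dd ht, e]
  have hX : 0 ≤ t * s * (Real.sqrt K1 * t ^ (J / 2) * Real.sqrt d) := by positivity
  calc t * s * (Real.sqrt K1 * t ^ (J / 2) * Real.sqrt d)
      = 1 * (t * s * (Real.sqrt K1 * t ^ (J / 2) * Real.sqrt d)) := by ring
    _ ≤ t * (t * s * (Real.sqrt K1 * t ^ (J / 2) * Real.sqrt d)) :=
        mul_le_mul_of_nonneg_right ht hX
    _ = _ := by ring

/-- AE (2.17): moments on the dilations. -/
theorem moment (D : Dil F S K1 J x s d Rs) (hQ : 1 ≤ Q) {A : Fin Q → E n}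
    (hA : F.IsMaj S x s (K1 * d) A) {t : ℝ} (ht : 1 ≤ t) (htR : t ≤ Rs) {p : ℝ}
    (hp : AdmP m p) :
    ∫ q in ball x (t * s) ×ˢ (univ : Set (E n)), Sys.distA A q.2 ^ p ∂S.μ
      ≤ (t * s) ^ m * (CpD F K1 p * (t ^ (2 + J / 2) * s * Real.sqrt d)) ^ p := by
  have hp0 : 0 ≤ p := by linarith [hp.1]
  have h0 : 0 < t := by linarith
  have hs := D.s_pos
  obtain ⟨A', hW⟩ := D.exists_wit ht htR
  have hM := D.matched hA ht htR hW.maj
  obtain ⟨Y, hYdef⟩ : ∃ Y : ℝ, Y = t ^ (2 + J / 2) * s * Real.sqrt d := ⟨_, rfl⟩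
  have hY : 0 ≤ Y := by
    rw [hYdef]
    have : 0 ≤ t ^ (2 + J / 2) := Real.rpow_nonneg h0.le _
    positivity
  obtain ⟨b, hbdef⟩ : ∃ b : ℝ, b = 6 * F.Cmaj * Real.sqrt K1 := ⟨_, rfl⟩
  have hb : 0 ≤ b := by
    rw [hbdef]
    have := F.Cmaj_pos
    positivity
  rw [← hYdef] at hM ⊢
  rw [← hbdef] at hM
  have pt : ∀ q : E m × E n,
      Sys.distA A q.2 ^ p ≤ 2 ^ p * (Sys.distA A' q.2 ^ p + (b * Y) ^ p) := fun q =>
    (Real.rpow_le_rpow (Sys.distA_nonneg _ _) (hM.distA_le (by positivity) q.2) hp0).trans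
      (add_rpow_le_two (Sys.distA_nonneg _ _) (by positivity) hp0)
  have I1 := D.integrableOn_distA hQ ht htR A' hp0
  have I2 : IntegrableOn (fun _ : E m × E n => (b * Y) ^ p)
      (ball x (t * s) ×ˢ (univ : Set (E n))) S.μ :=
    integrableOn_const (D.mass_lt_top ht htR).ne
  have hint : IntegrableOn (fun q : E m × E n => 2 ^ p * (Sys.distA A' q.2 ^ p + (b * Y) ^ p))
      (ball x (t * s) ×ˢ (univ : Set (E n))) S.μ := (I1.add I2).const_mul _
  have hV : 0 ≤ (t * s) ^ m := by positivity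
  have w1 : (F.Cp p * (t * s) * Real.sqrt (K1 * t ^ J * d)) ^ p
      ≤ (|F.Cp p| * Real.sqrt K1 * Y) ^ p := by
    calc (F.Cp p * (t * s) * Real.sqrt (K1 * t ^ J * d)) ^ p
        ≤ |(F.Cp p * (t * s) * Real.sqrt (K1 * t ^ J * d)) ^ p| := le_abs_self _
      _ ≤ |F.Cp p * (t * s) * Real.sqrt (K1 * t ^ J * d)| ^ p := Real.abs_rpow_le_abs_rpow _ _
      _ ≤ _ := by
          apply Real.rpow_le_rpow (abs_nonneg _) _ hp0
          have e1 : |F.Cp p * (t * s) * Real.sqrt (K1 * t ^ J * d)|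
              = |F.Cp p| * (t * s * Real.sqrt (K1 * t ^ J * d)) := by
            rw [mul_assoc, abs_mul, abs_of_nonneg (a := t * s * Real.sqrt (K1 * t ^ J * d))
              (by positivity)]
          rw [e1, mul_assoc |F.Cp p|]
          apply mul_le_mul_of_nonneg_left _ (abs_nonneg _)
          rw [hYdef]
          exact D.ts_sqrt_le ht
  calc ∫ q in ball x (t * s) ×ˢ (univ : Set (E n)), Sys.distA A q.2 ^ p ∂S.μ
      ≤ ∫ q in ball x (t * s) ×ˢ (univ : Set (E n)),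
          2 ^ p * (Sys.distA A' q.2 ^ p + (b * Y) ^ p) ∂S.μ :=
        integral_mono_of_nonneg
          (Filter.Eventually.of_forall fun q => Real.rpow_nonneg (Sys.distA_nonneg _ _) _) hint
          (Filter.Eventually.of_forall pt)
    _ = 2 ^ p * ((∫ q in ball x (t * s) ×ˢ (univ : Set (E n)), Sys.distA A' q.2 ^ p ∂S.μ)
          + (b * Y) ^ p * (S.μ (ball x (t * s) ×ˢ (univ : Set (E n)))).toReal) := by
        rw [integral_const_mul, integral_add I1 I2, setIntegral_const, measureReal_def,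
          smul_eq_mul, mul_comm (ENNReal.toReal _)]
    _ ≤ 2 ^ p * ((t * s) ^ m * (|F.Cp p| * Real.sqrt K1 * Y) ^ p
          + (b * Y) ^ p * (Cnu F * (t * s) ^ m)) := by
        apply mul_le_mul_of_nonneg_left _ (Real.rpow_nonneg (by norm_num) _)
        apply add_le_add
        · exact (hW.moment p hp).trans (mul_le_mul_of_nonneg_left w1 hV)
        · exact mul_le_mul_of_nonneg_left (D.mass_toReal_le ht htR)
            (Real.rpow_nonneg (by positivity) _)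
    _ ≤ (t * s) ^ m * (2 * (|F.Cp p| * Real.sqrt K1 + (Cnu F + 1) * b) * Y) ^ p :=
        moment_arith (by positivity) hb (Cnu_nonneg F) hY hV (by linarith [hp.1])
    _ = _ := by rw [hbdef]; rfl

/-- the new support constant. -/
noncomputable def CbD (F : Fix m n Q Cg) (K1 β : ℝ) : ℝ :=
  |F.Cβ β| * K1 ^ β + 6 * F.Cmaj * Real.sqrt K1 * F.d0 ^ (1 / 2 - β)

theorem d_le (D : Dil F S K1 J x s d Rs) : d ≤ F.d0 := by
  have h := (D.hyp 1 le_rfl D.one_le_Rs).2.1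
  rw [Real.one_rpow, mul_one] at h
  have := D.one_le_K1
  have := D.d_nonneg
  nlinarith

theorem sqrt_d_le (D : Dil F S K1 J x s d Rs) {β : ℝ} (hβ : β < 1 / 2) :
    Real.sqrt d ≤ F.d0 ^ (1 / 2 - β) * d ^ β := by
  rcases D.d_nonneg.eq_or_lt with h | h
  · rw [← h, Real.sqrt_zero]
    have := F.d0_pos
    exact mul_nonneg (Real.rpow_nonneg this.le _) (Real.rpow_nonneg le_rfl _)
  · have e : Real.sqrt d = d ^ (1 / 2 - β) * d ^ β := by
      rw [Real.sqrt_eq_rpow, ← Real.rpow_add h]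
      congr 1
      ring
    rw [e]
    apply mul_le_mul_of_nonneg_right _ (Real.rpow_nonneg h.le _)
    exact Real.rpow_le_rpow h.le D.d_le (by linarith)

/-- support heights on the dilations. -/
theorem sup (D : Dil F S K1 J x s d Rs) {A : Fin Q → E n}
    (hA : F.IsMaj S x s (K1 * d) A) {t : ℝ} (ht : 1 ≤ t) (htR : t ≤ Rs) {β : ℝ}
    (hβ : AdmB m β) {q : E m × E n} (hq : q ∈ S.spt) (hqB : q.1 ∈ ball x (t * s)) :
    Sys.distA A q.2 ≤ CbD F K1 β * (t ^ (2 + J / 2) * s * d ^ β) := by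
  have h0 : 0 < t := by linarith
  have hs := D.s_pos
  have hK := D.one_le_K1
  have hd := D.d_nonneg
  have hJ := D.J_nonneg
  obtain ⟨A', hW⟩ := D.exists_wit ht htR
  have hM := D.matched hA ht htR hW.maj
  have hC := F.Cmaj_pos
  have hT : 0 ≤ t ^ (2 + J / 2) := Real.rpow_nonneg h0.le _
  have hdb : 0 ≤ d ^ β := Real.rpow_nonneg hd _
  have h1 := hM.distA_le (by positivity) q.2
  have h2 := hW.sup β hβ q hq hqB
  have e1 : (K1 * t ^ J * d) ^ β = K1 ^ β * t ^ (J * β) * d ^ β := by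
    rw [Real.mul_rpow (by positivity) hd, Real.mul_rpow (by linarith) (Real.rpow_nonneg h0.le _),
      ← Real.rpow_mul h0.le]
  have e2 : t * t ^ (J * β) ≤ t ^ (2 + J / 2) := by
    calc t * t ^ (J * β) = t ^ (1 + J * β) := by rw [Real.rpow_add h0, Real.rpow_one]
      _ ≤ _ := Real.rpow_le_rpow_of_exponent_le ht (by nlinarith [hβ.2.1])
  have hKb : 0 ≤ K1 ^ β := Real.rpow_nonneg (by linarith) _
  have h3 : F.Cβ β * (t * s) * (K1 * t ^ J * d) ^ β
      ≤ |F.Cβ β| * K1 ^ β * (t ^ (2 + J / 2) * s * d ^ β) := by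
    rw [e1]
    have hX : 0 ≤ (t * s) * (K1 ^ β * t ^ (J * β) * d ^ β) := by
      have : 0 ≤ t ^ (J * β) := Real.rpow_nonneg h0.le _
      positivity
    calc F.Cβ β * (t * s) * (K1 ^ β * t ^ (J * β) * d ^ β)
        = F.Cβ β * ((t * s) * (K1 ^ β * t ^ (J * β) * d ^ β)) := by ring
      _ ≤ |F.Cβ β| * ((t * s) * (K1 ^ β * t ^ (J * β) * d ^ β)) :=
          mul_le_mul_of_nonneg_right (le_abs_self _) hX
      _ = |F.Cβ β| * K1 ^ β * s * d ^ β * (t * t ^ (J * β)) := by ring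
      _ ≤ |F.Cβ β| * K1 ^ β * s * d ^ β * t ^ (2 + J / 2) :=
          mul_le_mul_of_nonneg_left e2 (by positivity)
      _ = _ := by ring
  have h4 : 6 * F.Cmaj * Real.sqrt K1 * (t ^ (2 + J / 2) * s * Real.sqrt d)
      ≤ 6 * F.Cmaj * Real.sqrt K1 * F.d0 ^ (1 / 2 - β) * (t ^ (2 + J / 2) * s * d ^ β) := by
    calc 6 * F.Cmaj * Real.sqrt K1 * (t ^ (2 + J / 2) * s * Real.sqrt d)
        ≤ 6 * F.Cmaj * Real.sqrt K1 * (t ^ (2 + J / 2) * s * (F.d0 ^ (1 / 2 - β) * d ^ β)) := by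
          apply mul_le_mul_of_nonneg_left _ (by positivity)
          apply mul_le_mul_of_nonneg_left (D.sqrt_d_le hβ.2.1) (by positivity)
      _ = _ := by ring
  unfold CbD
  calc Sys.distA A q.2 ≤ Sys.distA A' q.2
        + 6 * F.Cmaj * Real.sqrt K1 * (t ^ (2 + J / 2) * s * Real.sqrt d) := h1
    _ ≤ |F.Cβ β| * K1 ^ β * (t ^ (2 + J / 2) * s * d ^ β)
        + 6 * F.Cmaj * Real.sqrt K1 * F.d0 ^ (1 / 2 - β) * (t ^ (2 + J / 2) * s * d ^ β) := by
        linarith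
    _ = _ := by ring

end Dil

/-- AE (2.17) and the sentence after it. -/
theorem dilation_witness_core (m n Q : ℕ) (_hm : 1 ≤ m) (hQ : 1 ≤ Q) (Cg : ℝ) (F : Fix m n Q Cg)
    (K1 J : ℝ) (hK1 : 1 ≤ K1) (hJ : 0 ≤ J) :
    ∃ (J' : ℝ) (Cp' Cβ' : ℝ → ℝ), 0 ≤ J' ∧
      ∀ S : Sys m n, S.Valid → S.Cg ≤ Cg → ∀ (x : E m) (s d Rs : ℝ), 0 < s → 0 ≤ d → 1 ≤ Rs →
      Rs * s ≤ 1 →
      (∀ t : ℝ, 1 ≤ t → t ≤ Rs → ball x (F.c * (t * s)) ⊆ S.Ω ∧ K1 * t ^ J * d ≤ F.d0 ∧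
        S.tau Q (ball x (F.c * (t * s))) ≤ ENNReal.ofReal (K1 * t ^ J * d * (t * s) ^ m)) →
      ∀ A : Fin Q → E n, F.IsMaj S x s (K1 * d) A →
      ∀ t : ℝ, 1 ≤ t → t ≤ Rs →
        (∀ p : ℝ, AdmP m p →
          ∫ q in ball x (t * s) ×ˢ (univ : Set (E n)), Sys.distA A q.2 ^ p ∂S.μ
            ≤ (t * s) ^ m * (Cp' p * t ^ J' * s * Real.sqrt d) ^ p) ∧
        (∀ β : ℝ, AdmB m β → ∀ q ∈ S.spt, q.1 ∈ ball x (t * s) →
          Sys.distA A q.2 ≤ Cβ' β * t ^ J' * s * d ^ β) := by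
  refine ⟨2 + J / 2, Dil.CpD F K1, Dil.CbD F K1, by positivity, ?_⟩
  intro S hS hCg x s d Rs hs hd hRs hRs1 hyp A hA t ht htR
  have D : Dil F S K1 J x s d Rs := ⟨hS, hCg, hK1, hJ, hs, hd, hRs, hRs1, hyp⟩
  refine ⟨fun p hp => ?_, fun β hβ q hq hqB => ?_⟩
  · have := D.moment hQ hA ht htR hp
    rwa [show Dil.CpD F K1 p * (t ^ (2 + J / 2) * s * Real.sqrt d)
      = Dil.CpD F K1 p * t ^ (2 + J / 2) * s * Real.sqrt d by ring] at this
  · have := D.sup hA ht htR hβ hq hqB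
    rwa [show Dil.CbD F K1 β * (t ^ (2 + J / 2) * s * d ^ β)
      = Dil.CbD F K1 β * t ^ (2 + J / 2) * s * d ^ β by ring] at this

end Wt

end Claimed.Agent.R322.Sx
end

/- ===== packed: Claimed.Agent.R322.Sx.Weighted.Moment ===== -/
section
/-!
# R322 / Sx / Weighted / Moment : Gaussian summation of the moment estimates (AE Corollary 2.7, last part)   (helper43)

`Dil.moment_two`: exponent `2` from the admissible exponent `p0 = 2 + 2/m` by Young's inequality `a² ≤ Y² + Y^{2-p0} a^{p0}` (no Hölder).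
`gauss_le_sum`: on the body the Gaussian is `≤ Σ_{i ≤ ⌈Rs⌉} c e^{-i²/2} 1_{B_{t_i s}}`, `t_i = min (i+1) Rs`.
`Dil.gauss_sum`: summation with the summable weights `wG a i = e^{-i²/2} (i+1)^a`, `a = m + (2 + J/2) p`.
-/

set_option autoImplicit false

namespace Claimed.Agent.R322.Sx

open MeasureTheory Set Metric
open scoped ENNReal NNReal InnerProductSpace

namespace Wt

variable {m n Q : ℕ} {Cg : ℝ}

/-- an admissible exponent. -/
noncomputable def p0 (m : ℕ) : ℝ := 2 + 2 / m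

theorem admP_p0 {m : ℕ} (hm : 1 ≤ m) : AdmP m (p0 m) := by
  have hm' : (1 : ℝ) ≤ m := by exact_mod_cast hm
  have hm0 : (0 : ℝ) < m := by linarith
  have h2 : 0 < 2 / (m : ℝ) := by positivity
  refine ⟨by unfold p0; linarith, ?_⟩
  have hp : 0 < p0 m := by unfold p0; linarith
  have e : (m : ℝ) * (1 / 2 - 1 / p0 m) = 1 / p0 m := by
    unfold p0
    field_simp
    ring
  rw [e, div_lt_one hp]
  unfold p0
  linarith

/-- `a² ≤ Y² + Y^{2-p} a^p`. -/
theorem sq_le_young {a Y p : ℝ} (ha : 0 ≤ a) (hY : 0 < Y) (hp : 2 ≤ p) :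
    a ^ (2 : ℝ) ≤ Y ^ (2 : ℝ) + Y ^ (2 - p) * a ^ p := by
  rcases le_total a Y with h | h
  · have h1 : a ^ (2 : ℝ) ≤ Y ^ (2 : ℝ) := Real.rpow_le_rpow ha h (by norm_num)
    have h2 : 0 ≤ Y ^ (2 - p) * a ^ p :=
      mul_nonneg (Real.rpow_nonneg hY.le _) (Real.rpow_nonneg ha _)
    linarith
  · have ha' : 0 < a := lt_of_lt_of_le hY h
    have e : a ^ (2 : ℝ) = a ^ (2 - p) * a ^ p := by
      rw [← Real.rpow_add ha']; congr 1; ring
    have h1 : a ^ (2 - p) ≤ Y ^ (2 - p) := Real.rpow_le_rpow_of_nonpos hY h (by linarith)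
    have h2 : 0 ≤ Y ^ (2 : ℝ) := Real.rpow_nonneg hY.le _
    rw [e]
    have := mul_le_mul_of_nonneg_right h1 (Real.rpow_nonneg ha p)
    linarith

namespace Dil

variable {F : Fix m n Q Cg} {S : Sys m n} {K1 J : ℝ} {x : E m} {s d Rs : ℝ}

/-- the constant for the exponent `2`. -/
noncomputable def C2D (F : Fix m n Q Cg) (K1 : ℝ) : ℝ :=
  1 + Cnu F + CpD F K1 (p0 m) ^ p0 m

theorem one_le_C2D (F : Fix m n Q Cg) (K1 : ℝ) : 1 ≤ C2D F K1 := by
  unfold C2D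
  have := Cnu_nonneg F
  have := Real.rpow_nonneg (CpD_nonneg F K1 (p0 m)) (p0 m)
  linarith

/-- second moments on the dilations (Young instead of Hölder). -/
theorem moment_two (D : Dil F S K1 J x s d Rs) (hm : 1 ≤ m) (hQ : 1 ≤ Q) {A : Fin Q → E n}
    (hA : F.IsMaj S x s (K1 * d) A) {t : ℝ} (ht : 1 ≤ t) (htR : t ≤ Rs) :
    ∫ q in ball x (t * s) ×ˢ (univ : Set (E n)), Sys.distA A q.2 ^ (2 : ℝ) ∂S.μ
      ≤ (t * s) ^ m * (C2D F K1 * (t ^ (2 + J / 2) * s * Real.sqrt d)) ^ (2 : ℝ) := by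
  have hp := admP_p0 hm
  have hp2 : 2 < p0 m := hp.1
  have hp0 : 0 ≤ p0 m := by linarith
  have h0 : 0 < t := by linarith
  have hs := D.s_pos
  have hmom := D.moment hQ hA ht htR hp
  obtain ⟨Y, hYdef⟩ : ∃ Y : ℝ, Y = t ^ (2 + J / 2) * s * Real.sqrt d := ⟨_, rfl⟩
  have hY : 0 ≤ Y := by
    rw [hYdef]
    have : 0 ≤ t ^ (2 + J / 2) := Real.rpow_nonneg h0.le _
    positivity
  rw [← hYdef] at hmom ⊢
  obtain ⟨V, hVdef⟩ : ∃ V : ℝ, V = (t * s) ^ m := ⟨_, rfl⟩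
  have hV : 0 ≤ V := by rw [hVdef]; positivity
  rw [← hVdef] at hmom ⊢
  have hC := CpD_nonneg F K1 (p0 m)
  have hC2 := one_le_C2D F K1
  have I1 := D.integrableOn_distA hQ ht htR A hp0
  have hrhs : 0 ≤ V * (C2D F K1 * Y) ^ (2 : ℝ) :=
    mul_nonneg hV (Real.rpow_nonneg (by positivity) _)
  rcases hY.eq_or_lt with hY0 | hYpos
  · -- zero energy
    rw [← hY0, mul_zero, Real.zero_rpow (by linarith), mul_zero] at hmom
    have hz : ∫ q in ball x (t * s) ×ˢ (univ : Set (E n)), Sys.distA A q.2 ^ p0 m ∂S.μ = 0 :=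
      le_antisymm hmom (integral_nonneg fun q => Real.rpow_nonneg (Sys.distA_nonneg _ _) _)
    rw [integral_eq_zero_iff_of_nonneg (fun q => Real.rpow_nonneg (Sys.distA_nonneg _ _) _) I1] at hz
    have : (fun q : E m × E n => Sys.distA A q.2 ^ (2 : ℝ))
        =ᵐ[S.μ.restrict (ball x (t * s) ×ˢ (univ : Set (E n)))] 0 := by
      filter_upwards [hz] with q hq
      have : Sys.distA A q.2 = 0 := by
        have hq' : Sys.distA A q.2 ^ p0 m = 0 := hq
        exact ((Real.rpow_eq_zero_iff_of_nonneg (Sys.distA_nonneg _ _)).1 hq').1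
      simp [this]
    rw [integral_congr_ae this]
    simpa using hrhs
  · have I2 : IntegrableOn (fun _ : E m × E n => Y ^ (2 : ℝ))
        (ball x (t * s) ×ˢ (univ : Set (E n))) S.μ :=
      integrableOn_const (D.mass_lt_top ht htR).ne
    have hint : IntegrableOn
        (fun q : E m × E n => Y ^ (2 : ℝ) + Y ^ (2 - p0 m) * Sys.distA A q.2 ^ p0 m)
        (ball x (t * s) ×ˢ (univ : Set (E n))) S.μ := I2.add (I1.const_mul _)
    have hYa : 0 ≤ Y ^ (2 - p0 m) := Real.rpow_nonneg hY _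
    have hY2 : 0 ≤ Y ^ (2 : ℝ) := Real.rpow_nonneg hY _
    have e1 : Y ^ (2 - p0 m) * (CpD F K1 (p0 m) * Y) ^ p0 m
        = CpD F K1 (p0 m) ^ p0 m * Y ^ (2 : ℝ) := by
      rw [Real.mul_rpow hC hY]
      have : Y ^ (2 - p0 m) * Y ^ p0 m = Y ^ (2 : ℝ) := by
        rw [← Real.rpow_add hYpos]; congr 1; ring
      calc Y ^ (2 - p0 m) * (CpD F K1 (p0 m) ^ p0 m * Y ^ p0 m)
          = CpD F K1 (p0 m) ^ p0 m * (Y ^ (2 - p0 m) * Y ^ p0 m) := by ring
        _ = _ := by rw [this]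
    calc ∫ q in ball x (t * s) ×ˢ (univ : Set (E n)), Sys.distA A q.2 ^ (2 : ℝ) ∂S.μ
        ≤ ∫ q in ball x (t * s) ×ˢ (univ : Set (E n)),
            (Y ^ (2 : ℝ) + Y ^ (2 - p0 m) * Sys.distA A q.2 ^ p0 m) ∂S.μ :=
          integral_mono_of_nonneg
            (Filter.Eventually.of_forall fun q => Real.rpow_nonneg (Sys.distA_nonneg _ _) _) hint
            (Filter.Eventually.of_forall fun q =>
              sq_le_young (Sys.distA_nonneg _ _) hYpos hp2.le)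
      _ = Y ^ (2 : ℝ) * (S.μ (ball x (t * s) ×ˢ (univ : Set (E n)))).toReal + Y ^ (2 - p0 m)
            * ∫ q in ball x (t * s) ×ˢ (univ : Set (E n)), Sys.distA A q.2 ^ p0 m ∂S.μ := by
          rw [integral_add I2 (I1.const_mul _), integral_const_mul, setIntegral_const,
            measureReal_def, smul_eq_mul, mul_comm (ENNReal.toReal _)]
      _ ≤ Y ^ (2 : ℝ) * (Cnu F * V) + Y ^ (2 - p0 m) * (V * (CpD F K1 (p0 m) * Y) ^ p0 m) := by
          apply add_le_add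
          · rw [hVdef]; exact mul_le_mul_of_nonneg_left (D.mass_toReal_le ht htR) hY2
          · exact mul_le_mul_of_nonneg_left hmom hYa
      _ = V * ((Cnu F + CpD F K1 (p0 m) ^ p0 m) * Y ^ (2 : ℝ)) := by
          have : Y ^ (2 - p0 m) * (V * (CpD F K1 (p0 m) * Y) ^ p0 m)
              = V * (Y ^ (2 - p0 m) * (CpD F K1 (p0 m) * Y) ^ p0 m) := by ring
          rw [this, e1]; ring
      _ ≤ V * (C2D F K1 * Y) ^ (2 : ℝ) := by
          apply mul_le_mul_of_nonneg_left _ hV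
          rw [Real.mul_rpow (by linarith) hY]
          apply mul_le_mul_of_nonneg_right _ hY2
          calc Cnu F + CpD F K1 (p0 m) ^ p0 m ≤ C2D F K1 := by unfold C2D; linarith
            _ ≤ C2D F K1 ^ (2 : ℝ) := Real.self_le_rpow_of_one_le hC2 (by norm_num)

open Classical in
/-- the moment constant for `p = 2` or `p` admissible. -/
noncomputable def CpG (F : Fix m n Q Cg) (K1 p : ℝ) : ℝ :=
  if p = 2 then C2D F K1 else CpD F K1 p

theorem CpG_nonneg (F : Fix m n Q Cg) (K1 p : ℝ) : 0 ≤ CpG F K1 p := by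
  unfold CpG
  split_ifs
  · linarith [one_le_C2D F K1]
  · exact CpD_nonneg F K1 p

theorem moment_any (D : Dil F S K1 J x s d Rs) (hm : 1 ≤ m) (hQ : 1 ≤ Q) {A : Fin Q → E n}
    (hA : F.IsMaj S x s (K1 * d) A) {t : ℝ} (ht : 1 ≤ t) (htR : t ≤ Rs) {p : ℝ}
    (hp : p = 2 ∨ AdmP m p) :
    ∫ q in ball x (t * s) ×ˢ (univ : Set (E n)), Sys.distA A q.2 ^ p ∂S.μ
      ≤ (t * s) ^ m * (CpG F K1 p * (t ^ (2 + J / 2) * s * Real.sqrt d)) ^ p := by
  by_cases h2 : p = 2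
  · subst h2
    unfold CpG
    rw [if_pos rfl]
    exact D.moment_two hm hQ hA ht htR
  · unfold CpG
    rw [if_neg h2]
    exact D.moment hQ hA ht htR (hp.resolve_left h2)

end Dil

/-- the weights of the annular summation. -/
noncomputable def wG (a : ℝ) (i : ℕ) : ℝ := Real.exp (-(i : ℝ) ^ 2 / 2) * ((i : ℝ) + 1) ^ a

theorem wG_nonneg (a : ℝ) (i : ℕ) : 0 ≤ wG a i := by
  unfold wG
  have : 0 ≤ ((i : ℝ) + 1) ^ a := Real.rpow_nonneg (by positivity) _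
  positivity

theorem summable_wG (a : ℝ) : Summable (wG a) := by
  have h1 := Real.summable_pow_mul_exp_neg_nat_mul ⌈a⌉₊ (r := 1 / 2) (by norm_num)
  have h2 := ((summable_nat_add_iff 1).2 h1).mul_left (Real.exp (1 / 2))
  refine Summable.of_nonneg_of_le (wG_nonneg a) (fun i => ?_) h2
  unfold wG
  have hi : (1 : ℝ) ≤ (i : ℝ) + 1 := by
    have : (0 : ℝ) ≤ i := Nat.cast_nonneg i
    linarith
  have e1 : ((i : ℝ) + 1) ^ a ≤ ((i : ℝ) + 1) ^ ⌈a⌉₊ := by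
    rw [← Real.rpow_natCast]
    exact Real.rpow_le_rpow_of_exponent_le hi (Nat.le_ceil a)
  have e2 : Real.exp (-(i : ℝ) ^ 2 / 2)
      ≤ Real.exp (1 / 2) * Real.exp (-(1 / 2) * ((i + 1 : ℕ) : ℝ)) := by
    rw [← Real.exp_add]
    apply Real.exp_le_exp.2
    push_cast
    have : (i : ℝ) ≤ (i : ℝ) ^ 2 := by
      rcases Nat.eq_zero_or_pos i with h | h
      · simp [h]
      · have : (1 : ℝ) ≤ i := by exact_mod_cast h
        nlinarith
    linarith
  calc Real.exp (-(i : ℝ) ^ 2 / 2) * ((i : ℝ) + 1) ^ a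
      ≤ (Real.exp (1 / 2) * Real.exp (-(1 / 2) * ((i + 1 : ℕ) : ℝ))) * ((i : ℝ) + 1) ^ ⌈a⌉₊ :=
        mul_le_mul e2 e1 (Real.rpow_nonneg (by linarith) _) (by positivity)
    _ = Real.exp (1 / 2) * (((i + 1 : ℕ) : ℝ) ^ ⌈a⌉₊ * Real.exp (-(1 / 2) * ((i + 1 : ℕ) : ℝ))) := by
        push_cast; ring

/-- `(2 π s²)^{-m/2} s^m ≤ 1`. -/
theorem gauss_const_mul_le {m : ℕ} {s : ℝ} (hs : 0 < s) :
    (2 * Real.pi * s ^ 2) ^ (-(m : ℝ) / 2) * s ^ m ≤ 1 := by
  have h1 : s ^ 2 ≤ 2 * Real.pi * s ^ 2 := by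
    have : 1 ≤ 2 * Real.pi := by linarith [Real.pi_gt_three]
    nlinarith [sq_nonneg s]
  have h2 : (2 * Real.pi * s ^ 2) ^ (-(m : ℝ) / 2) ≤ (s ^ 2) ^ (-(m : ℝ) / 2) :=
    Real.rpow_le_rpow_of_nonpos (by positivity) h1
      (by have : (0 : ℝ) ≤ m := Nat.cast_nonneg m
          linarith)
  have e : (s ^ 2) ^ (-(m : ℝ) / 2) = (s ^ m)⁻¹ := by
    rw [← Real.rpow_natCast s 2, ← Real.rpow_mul hs.le, ← Real.rpow_natCast s m,
      ← Real.rpow_neg hs.le]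
    congr 1
    push_cast
    ring
  calc (2 * Real.pi * s ^ 2) ^ (-(m : ℝ) / 2) * s ^ m ≤ (s ^ m)⁻¹ * s ^ m := by
        rw [← e]; exact mul_le_mul_of_nonneg_right h2 (by positivity)
    _ = 1 := inv_mul_cancel₀ (by positivity)

/-- the radii of the annular decomposition. -/
noncomputable def tG (Rs : ℝ) (i : ℕ) : ℝ := min ((i : ℝ) + 1) Rs

theorem one_le_tG {Rs : ℝ} (h : 1 ≤ Rs) (i : ℕ) : 1 ≤ tG Rs i := by
  unfold tG
  have : (0 : ℝ) ≤ i := Nat.cast_nonneg i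
  exact le_min (by linarith) h

theorem tG_le (Rs : ℝ) (i : ℕ) : tG Rs i ≤ Rs := min_le_right _ _

theorem tG_le' (Rs : ℝ) (i : ℕ) : tG Rs i ≤ (i : ℝ) + 1 := min_le_left _ _

/-- pointwise annular majorant of the Gaussian on the body. -/
theorem gauss_le_sum {m n : ℕ} {x : E m} {s Rs : ℝ} (hs : 0 < s) (g : E m × E n → ℝ)
    (hg : ∀ q, 0 ≤ g q) (q : E m × E n) :
    (ball x (Rs * s) ×ˢ (univ : Set (E n))).indicator (fun q => gauss m s (q.1 - x) * g q) q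
      ≤ ∑ i ∈ Finset.range (⌈Rs⌉₊ + 1),
          (2 * Real.pi * s ^ 2) ^ (-(m : ℝ) / 2) * Real.exp (-(i : ℝ) ^ 2 / 2)
            * (ball x (tG Rs i * s) ×ˢ (univ : Set (E n))).indicator g q := by
  have hc : 0 ≤ (2 * Real.pi * s ^ 2) ^ (-(m : ℝ) / 2) := by positivity
  have hnn : ∀ i ∈ Finset.range (⌈Rs⌉₊ + 1),
      0 ≤ (2 * Real.pi * s ^ 2) ^ (-(m : ℝ) / 2) * Real.exp (-(i : ℝ) ^ 2 / 2)
            * (ball x (tG Rs i * s) ×ˢ (univ : Set (E n))).indicator g q := by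
    intro i _
    exact mul_nonneg (by positivity) (indicator_nonneg (fun q _ => hg q) q)
  by_cases hq : q ∈ ball x (Rs * s) ×ˢ (univ : Set (E n))
  · rw [indicator_of_mem hq]
    have hq1 : ‖q.1 - x‖ < Rs * s := by
      have := hq.1
      rwa [mem_ball, dist_eq_norm] at this
    obtain ⟨ρ, hρ⟩ : ∃ ρ : ℝ, ρ = ‖q.1 - x‖ / s := ⟨_, rfl⟩
    have hρ0 : 0 ≤ ρ := by rw [hρ]; positivity
    have hρs : ‖q.1 - x‖ = ρ * s := by rw [hρ]; field_simp
    have hρR : ρ < Rs := by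
      rw [hρs] at hq1
      exact lt_of_mul_lt_mul_right hq1 hs.le
    have hfl : (⌊ρ⌋₊ : ℝ) ≤ ρ := Nat.floor_le hρ0
    have hfl' : ρ < (⌊ρ⌋₊ : ℝ) + 1 := Nat.lt_floor_add_one ρ
    have hmem : ⌊ρ⌋₊ ∈ Finset.range (⌈Rs⌉₊ + 1) := by
      rw [Finset.mem_range]
      have : (⌊ρ⌋₊ : ℝ) < (⌈Rs⌉₊ : ℝ) + 1 := by
        have := Nat.le_ceil Rs
        linarith
      exact_mod_cast this
    refine le_trans ?_ (Finset.single_le_sum hnn hmem)
    have hin : q ∈ ball x (tG Rs ⌊ρ⌋₊ * s) ×ˢ (univ : Set (E n)) := by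
      refine ⟨?_, mem_univ _⟩
      rw [mem_ball, dist_eq_norm, hρs]
      apply mul_lt_mul_of_pos_right _ hs
      exact lt_min hfl' hρR
    rw [indicator_of_mem hin]
    apply mul_le_mul_of_nonneg_right _ (hg q)
    unfold gauss
    apply mul_le_mul_of_nonneg_left _ hc
    apply Real.exp_le_exp.2
    have e : -‖q.1 - x‖ ^ 2 / (2 * s ^ 2) = -ρ ^ 2 / 2 := by
      rw [hρs]; field_simp
    rw [e]
    have : (⌊ρ⌋₊ : ℝ) ^ 2 ≤ ρ ^ 2 := pow_le_pow_left₀ (Nat.cast_nonneg _) hfl 2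
    linarith
  · rw [indicator_of_notMem hq]
    exact Finset.sum_nonneg hnn

namespace Dil

variable {F : Fix m n Q Cg} {S : Sys m n} {K1 J : ℝ} {x : E m} {s d Rs : ℝ}

/-- one annulus. -/
theorem annulus_le (D : Dil F S K1 J x s d Rs) (hm : 1 ≤ m) (hQ : 1 ≤ Q) {A : Fin Q → E n}
    (hA : F.IsMaj S x s (K1 * d) A) {p : ℝ} (hp : p = 2 ∨ AdmP m p) (i : ℕ) :
    (2 * Real.pi * s ^ 2) ^ (-(m : ℝ) / 2) * Real.exp (-(i : ℝ) ^ 2 / 2)
        * ∫ q in ball x (tG Rs i * s) ×ˢ (univ : Set (E n)), Sys.distA A q.2 ^ p ∂S.μ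
      ≤ wG (m + (2 + J / 2) * p) i * (CpG F K1 p * s * Real.sqrt d) ^ p := by
  have hp0 : 0 ≤ p := by
    rcases hp with h | h
    · rw [h]; norm_num
    · linarith [h.1]
  have hs := D.s_pos
  have hJ := D.J_nonneg
  obtain ⟨t, htdef⟩ : ∃ t : ℝ, t = tG Rs i := ⟨_, rfl⟩
  have ht : 1 ≤ t := htdef ▸ one_le_tG D.one_le_Rs i
  have htR : t ≤ Rs := htdef ▸ tG_le Rs i
  have hti : t ≤ (i : ℝ) + 1 := htdef ▸ tG_le' Rs i
  have h0 : 0 < t := by linarith
  rw [← htdef]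
  have hmom := D.moment_any hm hQ hA ht htR hp
  have hc : 0 ≤ (2 * Real.pi * s ^ 2) ^ (-(m : ℝ) / 2) := by positivity
  have hC := CpG_nonneg F K1 p
  obtain ⟨W, hWdef⟩ : ∃ W : ℝ, W = (CpG F K1 p * s * Real.sqrt d) ^ p := ⟨_, rfl⟩
  have hW : 0 ≤ W := by rw [hWdef]; exact Real.rpow_nonneg (by positivity) _
  have e1 : (CpG F K1 p * (t ^ (2 + J / 2) * s * Real.sqrt d)) ^ p
      = t ^ ((2 + J / 2) * p) * W := by
    rw [hWdef, show CpG F K1 p * (t ^ (2 + J / 2) * s * Real.sqrt d)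
      = t ^ (2 + J / 2) * (CpG F K1 p * s * Real.sqrt d) by ring,
      Real.mul_rpow (Real.rpow_nonneg h0.le _) (by positivity), ← Real.rpow_mul h0.le]
  have e2 : t ^ m * t ^ ((2 + J / 2) * p) ≤ ((i : ℝ) + 1) ^ ((m : ℝ) + (2 + J / 2) * p) := by
    rw [← Real.rpow_natCast t m, ← Real.rpow_add h0]
    exact Real.rpow_le_rpow h0.le hti (by positivity)
  rw [← hWdef]
  unfold wG
  have hE : 0 ≤ Real.exp (-(i : ℝ) ^ 2 / 2) := (Real.exp_pos _).le
  calc (2 * Real.pi * s ^ 2) ^ (-(m : ℝ) / 2) * Real.exp (-(i : ℝ) ^ 2 / 2)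
        * ∫ q in ball x (t * s) ×ˢ (univ : Set (E n)), Sys.distA A q.2 ^ p ∂S.μ
      ≤ (2 * Real.pi * s ^ 2) ^ (-(m : ℝ) / 2) * Real.exp (-(i : ℝ) ^ 2 / 2)
        * ((t * s) ^ m * (t ^ ((2 + J / 2) * p) * W)) := by
        rw [← e1]; exact mul_le_mul_of_nonneg_left hmom (by positivity)
    _ = ((2 * Real.pi * s ^ 2) ^ (-(m : ℝ) / 2) * s ^ m)
        * (Real.exp (-(i : ℝ) ^ 2 / 2) * (t ^ m * t ^ ((2 + J / 2) * p)) * W) := by
        rw [mul_pow]; ring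
    _ ≤ 1 * (Real.exp (-(i : ℝ) ^ 2 / 2) * (t ^ m * t ^ ((2 + J / 2) * p)) * W) := by
        apply mul_le_mul_of_nonneg_right (gauss_const_mul_le hs)
        have : 0 ≤ t ^ ((2 + J / 2) * p) := Real.rpow_nonneg h0.le _
        positivity
    _ ≤ Real.exp (-(i : ℝ) ^ 2 / 2) * ((i : ℝ) + 1) ^ ((m : ℝ) + (2 + J / 2) * p) * W := by
        rw [one_mul]
        apply mul_le_mul_of_nonneg_right _ hW
        exact mul_le_mul_of_nonneg_left e2 hE

/-- Gaussian summation of the moments. -/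
theorem gauss_sum (D : Dil F S K1 J x s d Rs) (hm : 1 ≤ m) (hQ : 1 ≤ Q) {A : Fin Q → E n}
    (hA : F.IsMaj S x s (K1 * d) A) {p : ℝ} (hp : p = 2 ∨ AdmP m p) :
    ∫ q in ball x (Rs * s) ×ˢ (univ : Set (E n)),
        gauss m s (q.1 - x) * Sys.distA A q.2 ^ p ∂S.μ
      ≤ ((1 + ∑' i, wG (m + (2 + J / 2) * p) i) * CpG F K1 p * s * Real.sqrt d) ^ p := by
  have hp1 : 1 ≤ p := by
    rcases hp with h | h
    · rw [h]; norm_num
    · linarith [h.1]
  have hp0 : 0 ≤ p := by linarith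
  have hs := D.s_pos
  have hgn : ∀ q : E m × E n, 0 ≤ Sys.distA A q.2 ^ p := fun q =>
    Real.rpow_nonneg (Sys.distA_nonneg _ _) _
  have hInt : ∀ i : ℕ, Integrable
      ((ball x (tG Rs i * s) ×ˢ (univ : Set (E n))).indicator
        fun q : E m × E n => Sys.distA A q.2 ^ p) S.μ := fun i =>
    (D.integrableOn_distA hQ (one_le_tG D.one_le_Rs i) (tG_le Rs i) A hp0).integrable_indicator
      (measurableSet_cyl x _)
  obtain ⟨W, hWdef⟩ : ∃ W : ℝ, W = (CpG F K1 p * s * Real.sqrt d) ^ p := ⟨_, rfl⟩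
  have hC := CpG_nonneg F K1 p
  have hW : 0 ≤ W := by rw [hWdef]; exact Real.rpow_nonneg (by positivity) _
  obtain ⟨Sg, hSg⟩ : ∃ Sg : ℝ, Sg = ∑' i, wG (m + (2 + J / 2) * p) i := ⟨_, rfl⟩
  have hSg0 : 0 ≤ Sg := by rw [hSg]; exact tsum_nonneg (wG_nonneg _)
  rw [← hSg, ← integral_indicator (measurableSet_cyl x _)]
  calc ∫ q, (ball x (Rs * s) ×ˢ (univ : Set (E n))).indicator
          (fun q => gauss m s (q.1 - x) * Sys.distA A q.2 ^ p) q ∂S.μ
      ≤ ∫ q, ∑ i ∈ Finset.range (⌈Rs⌉₊ + 1),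
          (2 * Real.pi * s ^ 2) ^ (-(m : ℝ) / 2) * Real.exp (-(i : ℝ) ^ 2 / 2)
            * (ball x (tG Rs i * s) ×ˢ (univ : Set (E n))).indicator
                (fun q : E m × E n => Sys.distA A q.2 ^ p) q ∂S.μ := by
        refine integral_mono_of_nonneg (Filter.Eventually.of_forall fun q => ?_)
          (integrable_finsetSum _ fun i _ => (hInt i).const_mul _)
          (Filter.Eventually.of_forall fun q => gauss_le_sum hs _ hgn q)
        refine indicator_nonneg (fun q _ => mul_nonneg ?_ (hgn q)) q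
        unfold gauss
        positivity
    _ = ∑ i ∈ Finset.range (⌈Rs⌉₊ + 1),
          (2 * Real.pi * s ^ 2) ^ (-(m : ℝ) / 2) * Real.exp (-(i : ℝ) ^ 2 / 2)
            * ∫ q in ball x (tG Rs i * s) ×ˢ (univ : Set (E n)), Sys.distA A q.2 ^ p ∂S.μ := by
        rw [integral_finsetSum _ fun i _ => (hInt i).const_mul _]
        refine Finset.sum_congr rfl fun i _ => ?_
        rw [integral_const_mul, integral_indicator (measurableSet_cyl x _)]
    _ ≤ ∑ i ∈ Finset.range (⌈Rs⌉₊ + 1), wG (m + (2 + J / 2) * p) i * W := by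
        rw [hWdef]
        exact Finset.sum_le_sum fun i _ => D.annulus_le hm hQ hA hp i
    _ = (∑ i ∈ Finset.range (⌈Rs⌉₊ + 1), wG (m + (2 + J / 2) * p) i) * W := by
        rw [Finset.sum_mul]
    _ ≤ Sg * W := by
        apply mul_le_mul_of_nonneg_right _ hW
        rw [hSg]
        exact (summable_wG _).sum_le_tsum _ fun i _ => wG_nonneg _ i
    _ ≤ (1 + Sg) ^ p * W := by
        apply mul_le_mul_of_nonneg_right _ hW
        calc Sg ≤ 1 + Sg := by linarith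
          _ ≤ (1 + Sg) ^ p := Real.self_le_rpow_of_one_le (by linarith) hp1
    _ = ((1 + Sg) * CpG F K1 p * s * Real.sqrt d) ^ p := by
        rw [hWdef, ← Real.mul_rpow (by linarith) (by positivity)]
        congr 1
        ring

end Dil

/-- Gaussian summation of the moment estimates on the body `|y - x| ≤ Rs s`. -/
theorem gauss_moment_core (m n Q : ℕ) (hm : 1 ≤ m) (hQ : 1 ≤ Q) (Cg : ℝ) (F : Fix m n Q Cg)
    (K1 J : ℝ) (hK1 : 1 ≤ K1) (hJ : 0 ≤ J) :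
    ∃ Cp' : ℝ → ℝ,
      ∀ S : Sys m n, S.Valid → S.Cg ≤ Cg → ∀ (x : E m) (s d Rs : ℝ), 0 < s → 0 ≤ d → 1 ≤ Rs →
      Rs * s ≤ 1 →
      (∀ t : ℝ, 1 ≤ t → t ≤ Rs → ball x (F.c * (t * s)) ⊆ S.Ω ∧ K1 * t ^ J * d ≤ F.d0 ∧
        S.tau Q (ball x (F.c * (t * s))) ≤ ENNReal.ofReal (K1 * t ^ J * d * (t * s) ^ m)) →
      ∀ A : Fin Q → E n, F.IsMaj S x s (K1 * d) A →
      ∀ p : ℝ, (p = 2 ∨ AdmP m p) →
        ∫ q in ball x (Rs * s) ×ˢ (univ : Set (E n)),
            gauss m s (q.1 - x) * Sys.distA A q.2 ^ p ∂S.μ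
          ≤ (Cp' p * s * Real.sqrt d) ^ p := by
  refine ⟨fun p => (1 + ∑' i, wG (m + (2 + J / 2) * p) i) * Dil.CpG F K1 p, ?_⟩
  intro S hS hCg x s d Rs hs hd hRs hRs1 hyp A hA p hp
  have D : Dil F S K1 J x s d Rs := ⟨hS, hCg, hK1, hJ, hs, hd, hRs, hRs1, hyp⟩
  exact D.gauss_sum hm hQ hA hp

end Wt

end Claimed.Agent.R322.Sx
end

/- ===== packed: Claimed.Agent.R322.Sx.Weighted ===== -/
section
/-!
# R322 / Sx / Weighted : Gaussian weights and polynomial dilations (AE Corollary 2.7)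

All three statements are PROVED (helper43) in `Sx/Weighted/{Cells,Dil,Moment}.lean`.
CHANGE (helper43, 09:40Z): `weighted_scalar` has the extra hypothesis `closedBall x ((R + 2) * s) ⊆ S.Ω` (integrability of the right side;
without it the Bochner integral on the right may be `0` by convention and the statement fails).
-/

set_option autoImplicit false

namespace Claimed.Agent.R322.Sx

open MeasureTheory Set Metric
open scoped ENNReal NNReal InnerProductSpace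

/-! ## AE Corollary 2.7 : Gaussian weights and polynomial dilations -/

/-- AE (2.16): weighted scalar estimate on the Gaussian body `|y - x| ≤ R s`.
UNIFORM cells: `B_r(y)`, `r = c1 s / (1 + R)`, with enlargements `B_{L r}(y)`, `L c1 ≤ 1`
(in all applications the densities are exponentially small and `R` is polynomial, so nothing is lost;
proof: grid `Tool.gpt m r k`, `scalar_tau` on every cell, the Gaussian has bounded ratio on `B_{L r}`,
`Tool.grid_overlap_sum`). -/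
theorem weighted_scalar (m n Q : ℕ) (hm : 1 ≤ m) (Cg : ℝ) :
    ∃ C c1 L d1 : ℝ, 0 < C ∧ 0 < c1 ∧ 1 < L ∧ L * c1 ≤ 1 ∧ 0 < d1 ∧
      ∀ S : Sys m n, S.Valid → S.Cg ≤ Cg → ∀ (x : E m) (s R : ℝ), 0 < s → s ≤ 1 → 0 ≤ R →
      closedBall x ((R + 2) * s) ⊆ S.Ω →
      (∀ y : E m, ‖y - x‖ ≤ (R + 1) * s →
        ball y (L * (c1 * s / (1 + R))) ⊆ S.Ω ∧
        S.tau Q (ball y (L * (c1 * s / (1 + R))))
          ≤ ENNReal.ofReal (d1 * (c1 * s / (1 + R)) ^ m)) →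
      ∫ y in closedBall x (R * s), gauss m s (y - x) ∂(S.absM Q)
        ≤ C * ∫ y in closedBall x ((R + 2) * s), gauss m s (y - x) ∂(S.Dm + S.Lm) :=
  Wt.weighted_scalar_core m n Q hm Cg

/-- AE (2.17) and the sentence after it: under a polynomial dilation bound, a witness at the scale
`s` keeps its moment and support estimates on the dilations `t ∈ [1, Rs]`, with a fixed power of
`t`. -/
theorem dilation_witness (m n Q : ℕ) (hm : 1 ≤ m) (hQ : 1 ≤ Q) (Cg : ℝ) (F : Fix m n Q Cg)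
    (K1 J : ℝ) (hK1 : 1 ≤ K1) (hJ : 0 ≤ J) :
    ∃ (J' : ℝ) (Cp' Cβ' : ℝ → ℝ), 0 ≤ J' ∧
      ∀ S : Sys m n, S.Valid → S.Cg ≤ Cg → ∀ (x : E m) (s d Rs : ℝ), 0 < s → 0 ≤ d → 1 ≤ Rs →
      Rs * s ≤ 1 →
      (∀ t : ℝ, 1 ≤ t → t ≤ Rs → ball x (F.c * (t * s)) ⊆ S.Ω ∧ K1 * t ^ J * d ≤ F.d0 ∧
        S.tau Q (ball x (F.c * (t * s))) ≤ ENNReal.ofReal (K1 * t ^ J * d * (t * s) ^ m)) →
      ∀ A : Fin Q → E n, F.IsMaj S x s (K1 * d) A →
      ∀ t : ℝ, 1 ≤ t → t ≤ Rs →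
        (∀ p : ℝ, AdmP m p →
          ∫ q in ball x (t * s) ×ˢ (univ : Set (E n)), Sys.distA A q.2 ^ p ∂S.μ
            ≤ (t * s) ^ m * (Cp' p * t ^ J' * s * Real.sqrt d) ^ p) ∧
        (∀ β : ℝ, AdmB m β → ∀ q ∈ S.spt, q.1 ∈ ball x (t * s) →
          Sys.distA A q.2 ≤ Cβ' β * t ^ J' * s * d ^ β) :=
  Wt.dilation_witness_core m n Q hm hQ Cg F K1 J hK1 hJ

/-- Gaussian summation of the moment estimates on the body `|y - x| ≤ Rs s`
(exponent `2` and every admissible exponent). -/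
theorem gauss_moment (m n Q : ℕ) (hm : 1 ≤ m) (hQ : 1 ≤ Q) (Cg : ℝ) (F : Fix m n Q Cg)
    (K1 J : ℝ) (hK1 : 1 ≤ K1) (hJ : 0 ≤ J) :
    ∃ Cp' : ℝ → ℝ,
      ∀ S : Sys m n, S.Valid → S.Cg ≤ Cg → ∀ (x : E m) (s d Rs : ℝ), 0 < s → 0 ≤ d → 1 ≤ Rs →
      Rs * s ≤ 1 →
      (∀ t : ℝ, 1 ≤ t → t ≤ Rs → ball x (F.c * (t * s)) ⊆ S.Ω ∧ K1 * t ^ J * d ≤ F.d0 ∧
        S.tau Q (ball x (F.c * (t * s))) ≤ ENNReal.ofReal (K1 * t ^ J * d * (t * s) ^ m)) →
      ∀ A : Fin Q → E n, F.IsMaj S x s (K1 * d) A →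
      ∀ p : ℝ, (p = 2 ∨ AdmP m p) →
        ∫ q in ball x (Rs * s) ×ˢ (univ : Set (E n)),
            gauss m s (q.1 - x) * Sys.distA A q.2 ^ p ∂S.μ
          ≤ (Cp' p * s * Real.sqrt d) ^ p :=
  Wt.gauss_moment_core m n Q hm hQ Cg F K1 J hK1 hJ

end Claimed.Agent.R322.Sx
end

/- ===== packed: Claimed.Agent.R322.Sx.Sep.Defs ===== -/
section
/-!
# R322 / Sx / Sep / Defs : vocabulary of the proof of AE Proposition 4.3 (separated configurations)

Source: AE `sections/contact.tex`, lines 285-1033.  Architect: helper189.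

The proof is a finite recursion over *nodes* (working balls) of generations `i = 0, …, n0`.
Everything below is relative to

* constants fixed before `T`: `p : Prm` (`N`, `J0`, `C_Q`, `C_S`), `p.Ok m`;
* the root data `Root F κ p S T A grp` (hypotheses of `separated`).

Parameters AE (4.14): `η = T^{-N}`, `ε = (log T)^60 / T`, `r_b = √d e^{3b}`, `n0 = ⌈10 N log T⌉`,
`E_j(t) = T^{J0 (j+1)} d t^{-2-ε}`, `d = e^{-T}`, `b = b_Q(T)`, `ρ = T^{-4N} R`.

DEVIATIONS FROM THE PAPER (all harmless, see the headers of the files):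
* all node constants are `1` (the factor `T^{J0}` between consecutive envelopes absorbs them);
* the Gaussian body has radius `T s` instead of `C √T s`;
* the contact envelope AE (4.19) is used on `[s0, R]`, not only on `[s0, ρ]`;
* the thresholds are chosen by a deterministic greedy argument (`Thresh.lean`);
* the node measures are truncated by a smooth cutoff `χ` (`= 1` on `B_{2R}`, support in `B̄_{3R}`).
-/

set_option autoImplicit false

namespace Claimed.Agent.R322.Sx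

open MeasureTheory Set Metric
open scoped ENNReal NNReal InnerProductSpace

/-- `F_q^{-1}(u) = exp_{2q}((log_{2q} u)²)`, AE (5.20). -/
noncomputable def FQinv (q : ℕ) (u : ℝ) : ℝ := Real.exp^[2 * q] ((Real.log^[2 * q] u) ^ 2)

/-- the function `b_Q` of AE (3.4), (4.11). -/
noncomputable def bQ (Q : ℕ) (T : ℝ) : ℝ :=
  1 + Real.log T ^ 201 + 4 * FQinv (Q - 1) (Real.log T ^ 3)

/-- `∫ w dD_far`: tilt restricted to `{dist(ζ, 𝒜) > r}`. -/
noncomputable def Sys.intDfar {m n Q : ℕ} (S : Sys m n) (A : Fin Q → E n) (r : ℝ) (w : E m → ℝ) : ℝ :=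
  ∫ q, w q.1 * ({q : E m × E n | r < Sys.distA A q.2}.indicator S.e q) ∂S.μ

namespace Sep

/-- the constants fixed before `T`. -/
structure Prm where
  /-- `η = T^{-N}` -/
  N : ℕ
  /-- exponent of the envelopes -/
  J0 : ℕ
  /-- the constant `C_Q` -/
  CQ : ℝ
  /-- the constant `C_S` of `S(T) = e^{C_S b}` -/
  CS : ℝ

/-- admissible constants, AE (4.13). -/
structure Prm.Ok (p : Prm) (m : ℕ) : Prop where
  N_ge : 10 ≤ p.N
  J0_ge : 4 * p.N * (m + 2) + 100 ≤ p.J0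
  CQ_ge : 1 ≤ p.CQ
  CS_ge : 15 ≤ p.CS

/-- `d = e^{-T}`. -/
noncomputable def dT (T : ℝ) : ℝ := Real.exp (-T)

/-- `η = T^{-N}`. -/
noncomputable def eta (p : Prm) (T : ℝ) : ℝ := T ^ (-(p.N : ℝ))

/-- `ε = (log T)^60 / T`. -/
noncomputable def eps (T : ℝ) : ℝ := Real.log T ^ 60 / T

/-- `r_b = √d e^{3b}`. -/
noncomputable def rb (Q : ℕ) (T : ℝ) : ℝ := Real.sqrt (dT T) * Real.exp (3 * bQ Q T)

/-- `n0 = ⌈10 N log T⌉`. -/
noncomputable def n0 (p : Prm) (T : ℝ) : ℕ := ⌈10 * (p.N : ℝ) * Real.log T⌉₊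

/-- `E_j(t) = T^{J0 (j+1)} d t^{-2-ε}`. -/
noncomputable def Env (p : Prm) (T : ℝ) (j : ℕ) (t : ℝ) : ℝ :=
  T ^ ((p.J0 : ℝ) * ((j : ℝ) + 1)) * dT T * t ^ (-(2 + eps T))

/-- `c(T) = (log T)² / T`. -/
noncomputable def cT (T : ℝ) : ℝ := Real.log T ^ 2 / T

/-- the far radius `S(T) √d = e^{C_S b} √d`. -/
noncomputable def far (p : Prm) (Q : ℕ) (T : ℝ) : ℝ :=
  Real.exp (p.CS * bQ Q T) * Real.sqrt (Real.exp (-T))

/-- the motion allowance `e^b √d` of one generation. -/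
noncomputable def mot (Q : ℕ) (T : ℝ) : ℝ := Real.exp (bQ Q T) * Real.sqrt (dT T)

/-- the outer contact scale `ρ = T^{-4N} R` of a node of radius `R`. -/
noncomputable def rho (p : Prm) (T R : ℝ) : ℝ := T ^ (-(4 * (p.N : ℝ))) * R

/-- small nodes have radius at most `T^{10N} r_b`. -/
noncomputable def smallR (p : Prm) (Q : ℕ) (T : ℝ) : ℝ := T ^ (10 * (p.N : ℝ)) * rb Q T

variable {m n Q : ℕ} {Cg : ℝ}

/-- `∫ w dL'`, `L' = L - C_Q Λ + c(T) D_far`; the root configuration and its far region are fixed. -/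
noncomputable def Lfun (S : Sys m n) (p : Prm) (T : ℝ) (A : Fin Q → E n) (w : E m → ℝ) : ℝ :=
  S.intL Q w - p.CQ * S.intLam w + cT T * S.intDfar A (far p Q T) w

/-- `𝒩_R = τ(B_{4R}(x)) + d R^m`. -/
noncomputable def NR (S : Sys m n) (Q : ℕ) (T : ℝ) (x : E m) (R : ℝ) : ℝ :=
  (S.tau Q (ball x (4 * R))).toReal + dT T * R ^ m

/-- the root data = hypotheses of AE Proposition 4.3. -/
structure Root (F : Fix m n Q Cg) (κ : ℝ) (p : Prm) (S : Sys m n) (T : ℝ) (A : Fin Q → E n)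
    (grp : Fin Q → Fin Q) : Prop where
  hyp : SignedHyp S Q κ Cg T
  maj : F.IsMaj S 0 F.rmaj (F.rmaj ^ (-(m : ℝ)) * Real.exp (-T)) A
  two : ∃ i j, grp i ≠ grp j
  sep : Sys.Separated A grp (10 * far p Q T)

/-- a node of generation `i`, AE (4.17). -/
structure IsNode (F : Fix m n Q Cg) (S : Sys m n) (p : Prm) (T : ℝ) (A : Fin Q → E n) (i : ℕ)
    (xs : E m) (R : ℝ) : Prop where
  R_ge : rb Q T / T ^ 2 ≤ R
  R_le : R ≤ 1
  sub : ball xs (4 * R) ⊆ ball (0 : E m) 4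
  dens : S.tau Q (ball xs (4 * R)) ≤ ENNReal.ofReal (R ^ m * Env p T (2 * i) R)
  cfg : ∃ AR : Fin Q → E n,
    F.IsMaj S xs (F.rmaj * R) (F.rmaj ^ (-(m : ℝ)) * Env p T (2 * i) R) AR ∧
      Sys.Matched AR A (((i : ℝ) + 1) * mot Q T)

/-- AE (4.18) at generation `i` with the constant `pb`. -/
def NodeBound (F : Fix m n Q Cg) (S : Sys m n) (p : Prm) (T : ℝ) (A : Fin Q → E n) (i : ℕ)
    (pb : ℝ) : Prop :=
  ∀ (xs : E m) (R : ℝ), IsNode F S p T A i xs R → ∀ w : E m → ℝ, IsWeight w xs R →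
    Lfun S p T A w ≤ pb * NR S Q T xs R

/-! ### Node measures (truncated by a chart cutoff `χ`) -/

/-- the measure `D_far` on the base. -/
noncomputable def DfarM (S : Sys m n) (A : Fin Q → E n) (r : ℝ) : Measure (E m) :=
  (S.μ.withDensity fun q =>
    ENNReal.ofReal ({q : E m × E n | r < Sys.distA A q.2}.indicator S.e q)).map Prod.fst

/-- `τ' = χ τ`. -/
noncomputable def tauC (S : Sys m n) (Q : ℕ) (χ : E m → ℝ) : Measure (E m) :=
  (S.tau Q).withDensity fun y => ENNReal.ofReal (χ y)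

/-- positive part of the source: `χ (2 M⁺ + c(T) D_far)`. -/
noncomputable def LpC (S : Sys m n) (p : Prm) (T : ℝ) (A : Fin Q → E n) (χ : E m → ℝ) :
    Measure (E m) :=
  ((2 : ℝ≥0∞) • S.Mpos Q + ENNReal.ofReal (cT T) • DfarM S A (far p Q T)).withDensity
    fun y => ENNReal.ofReal (χ y)

/-- negative part of the source: `χ (2 M⁻ + D + C_Q Λ)`. -/
noncomputable def LmC (S : Sys m n) (Q : ℕ) (p : Prm) (χ : E m → ℝ) : Measure (E m) :=
  ((2 : ℝ≥0∞) • S.Mneg Q + S.Dm + ENNReal.ofReal p.CQ • S.Lm).withDensity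
    fun y => ENNReal.ofReal (χ y)

/-- `L'_v(x)`. -/
noncomputable def LavC (S : Sys m n) (p : Prm) (T : ℝ) (A : Fin Q → E n) (χ : E m → ℝ) (v : ℝ)
    (x : E m) : ℝ :=
  gav (LpC S p T A χ) v x - gav (LmC S Q p χ) v x

/-- mesh scales `t_j = 2^j r_b`. -/
noncomputable def tm (Q : ℕ) (T : ℝ) (j : ℕ) : ℝ := 2 ^ j * rb Q T

/-- number of mesh scales below `ρ`. -/
noncomputable def Kmesh (p : Prm) (Q : ℕ) (T R : ℝ) : ℕ := ⌈Real.logb 2 (rho p T R / rb Q T)⌉₊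

/-- the stopping tests AE (4.20): `q_t(y) = τ'_t(y) / E_{2i+1}(t)` at the mesh scale `t = t_j`. -/
noncomputable def qtest (S : Sys m n) (Q : ℕ) (p : Prm) (T : ℝ) (χ : E m → ℝ) (i j : ℕ) (y : E m) :
    ℝ :=
  gav (tauC S Q χ) (tm Q T j) y / Env p T (2 * i + 1) (tm Q T j)

/-- radius of the Gaussian cell centred at `y`, AE (4.31): `c1 s / (1 + |y - x|/s)`. -/
noncomputable def cellR (c1 : ℝ) (x : E m) (s : ℝ) (y : E m) : ℝ := c1 * s / (1 + ‖y - x‖ / s)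

/-- One outward vertical `{x} × [s0, R]` in a large node, with the contact envelope AE (4.19). -/
structure Vert (F : Fix m n Q Cg) (S : Sys m n) (p : Prm) (T : ℝ) (A : Fin Q → E n) (i : ℕ)
    (xs : E m) (R : ℝ) (χ : E m → ℝ) (x : E m) (s0 : ℝ) : Prop where
  node : IsNode F S p T A i xs R
  large : smallR p Q T < R
  cut : IsCutoff χ xs (2 * R) R
  x_mem : x ∈ ball xs R
  s0_ge : rb Q T ≤ s0
  s0_le : s0 ≤ rho p T R
  env : ∀ v, s0 ≤ v → v ≤ R → gav (tauC S Q χ) v x ≤ 2 ^ (m + 1) * Env p T (2 * i + 1) v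

end Sep

end Claimed.Agent.R322.Sx
end
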