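/- Packed by merge_tool.py (helper293): 2 modules of Claimed.Agent.R322 in one file, same declarations.
   Old modules, in this order: Sx.Sep.Extra, Sx.Sep.NodeMeas -/
import Claimed.Agent.R322.Sx.Sep.GaussK
import Claimed.Agent.R322.Pack030
import Claimed.Agent.R322.Pack031

/- ===== packed: Claimed.Agent.R322.Sx.Sep.Extra ===== -/
section
/-!
# R322 / Sx / Sep / Extra : small additions to `Sx/Ops.lean` (leaf `L-Sep-Extra`)

Elementary facts on `Sys.spt`, chart cutoffs and height restrictions.  No paper needed.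
-/

set_option autoImplicit false

namespace Claimed.Agent.R322.Sx.Sep

open MeasureTheory Set Metric
open scoped ENNReal NNReal InnerProductSpace

variable {m n : ℕ}

/-- the complement of the support is a null set (`E m × E n` is second countable: cover `sptᶜ` by
countably many null balls). -/
theorem measure_compl_spt (S : Sys m n) : S.μ S.sptᶜ = 0 := by
  refine measure_null_of_locally_null _ fun q hq => ?_
  have hq' : ¬ ∀ ε : ℝ, 0 < ε → 0 < S.μ (ball q ε) := hq
  push Not at hq'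
  obtain ⟨ε, hε, h0⟩ := hq'
  exact ⟨ball q ε, mem_nhdsWithin_of_mem_nhds (ball_mem_nhds q hε), nonpos_iff_eq_zero.1 h0⟩

/-- consequence: a closed condition which holds on the support over `Ω'` holds a.e. over `Ω'`. -/
theorem measure_prod_eq_zero_of_spt (S : Sys m n) (Ω' : Set (E m)) (Z : Set (E n))
    (h : ∀ q ∈ S.spt, q.1 ∈ Ω' → q.2 ∉ Z) : S.μ (Ω' ×ˢ Z) = 0 := by
  refine measure_mono_null ?_ (measure_compl_spt S)
  rintro q ⟨h1, h2⟩ hq
  exact h q hq h1 h2

/-- chart cutoffs exist.  (Mollify the `2/h`-Lipschitz function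
`y ↦ clamp ((R + 3h/4 - |y - x0|)/(h/2))` with a normed bump of radius `h/4`: the Lipschitz constant
survives the convolution.) -/
theorem exists_cutoff (x0 : E m) {R h : ℝ} (hR : 0 < R) (hh : 0 < h) :
    ∃ χ : E m → ℝ, IsCutoff χ x0 R h := by
  obtain ⟨χ, -, hχ⟩ := exists_isCutoff m x0 R h hh
  exact ⟨χ, hχ⟩

theorem IsCutoff.measurable {χ : E m → ℝ} {x0 : E m} {R h : ℝ} (hc : IsCutoff χ x0 R h) :
    Measurable χ := by
  exact hc.smooth.continuous.measurable

theorem IsCutoff.eq_zero {χ : E m → ℝ} {x0 : E m} {R h : ℝ} (hc : IsCutoff χ x0 R h) {y : E m}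
    (hy : y ∉ closedBall x0 (R + h)) : χ y = 0 := by
  exact image_eq_zero_of_notMem_tsupport fun h' => hy (hc.supp h')

/-! ### height restrictions -/

theorem restr_nu_le (S : Sys m n) (Ω' : Set (E m)) (O : Set (E n)) : (S.restr Ω' O).nu ≤ S.nu := by
  exact Measure.map_mono Measure.restrict_le_self measurable_fst

theorem restr_Dm_le (S : Sys m n) (Ω' : Set (E m)) (O : Set (E n)) : (S.restr Ω' O).Dm ≤ S.Dm := by
  refine Measure.map_mono ?_ measurable_fst
  refine Measure.le_iff.2 fun s hs => ?_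
  rw [withDensity_apply _ hs, withDensity_apply _ hs]
  exact lintegral_mono' (Measure.restrict_mono le_rfl Measure.restrict_le_self) le_rfl

theorem restr_Lm_le (S : Sys m n) (Ω' : Set (E m)) (O : Set (E n)) : (S.restr Ω' O).Lm ≤ S.Lm := by
  refine Measure.map_mono ?_ measurable_fst
  refine Measure.le_iff.2 fun s hs => ?_
  rw [withDensity_apply _ hs, withDensity_apply _ hs]
  exact lintegral_mono' (Measure.restrict_mono le_rfl Measure.restrict_le_self) le_rfl

theorem restr_volS (S : Sys m n) {Ω' : Set (E m)} (O : Set (E n)) (hΩ' : MeasurableSet Ω')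
    (hsub : Ω' ⊆ S.Ω) : (S.restr Ω' O).volS = S.volS.restrict Ω' := by
  unfold Sys.volS
  rw [restrict_withDensity hΩ', Measure.restrict_restrict hΩ', inter_eq_left.2 hsub]
  rfl

open Classical in
theorem restr_N (S : Sys m n) (Ω' : Set (E m)) (O : Set (E n)) (y : E m) :
    (S.restr Ω' O).N y = Multiset.card ((S.fib y).filter fun ζ => ζ ∈ O) := by
  rfl

/-- the restriction to the empty height region is trivial. -/
theorem restr_empty_intL (S : Sys m n) (Ω' : Set (E m)) (w : E m → ℝ) :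
    (S.restr Ω' ∅).intL 0 w = 0 ∧ (S.restr Ω' ∅).intLam w = 0 := by
  have h0 : (S.restr Ω' ∅).μ = 0 := by
    show S.μ.restrict (Ω' ×ˢ (∅ : Set (E n))) = 0
    rw [prod_empty, Measure.restrict_empty]
  constructor
  · unfold Sys.intL Sys.intM Sys.intD
    rw [h0]
    simp
  · unfold Sys.intLam
    rw [h0]
    simp

theorem intLam_nonneg {S : Sys m n} (h : S.Valid) {w : E m → ℝ} (hw : ∀ y, 0 ≤ w y) :
    0 ≤ S.intLam w := by
  exact integral_nonneg fun q => mul_nonneg (hw _) (h.lam_nonneg q)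

/-- `vol_S` of a ball inside `Ω` is comparable with `r^m`. -/
theorem volS_ball {S : Sys m n} (h : S.Valid) {x : E m} {r : ℝ} (hr : 0 < r)
    (hb : ball x r ⊆ S.Ω) :
    (1 / 2 : ℝ≥0∞) * volume (ball x r) ≤ S.volS (ball x r) ∧
      S.volS (ball x r) ≤ 2 * volume (ball x r) := by
  refine ⟨?_, h.volS_le _⟩
  calc (1 / 2 : ℝ≥0∞) * volume (ball x r) ≤ (1 / 2 : ℝ≥0∞) * (2 * S.volS (ball x r)) :=
        mul_le_mul_right (h.le_volS hb) _
    _ = S.volS (ball x r) := by
        rw [← mul_assoc, one_div, ENNReal.inv_mul_cancel (by norm_num) (by norm_num), one_mul]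

/-- `ν(B) ≤ τ_Q(B) + 2 Q |B|`. -/
theorem nu_le_tau {S : Sys m n} (h : S.Valid) (Q : ℕ) (B : Set (E m)) :
    S.nu B ≤ S.tau Q B + 2 * (Q : ℝ≥0∞) * volume B := by
  refine (h.nu_le Q B).trans ?_
  rw [Measure.add_apply, Measure.smul_apply, smul_eq_mul]
  refine add_le_add ?_ ?_
  · unfold Sys.tau
    rw [Measure.add_apply, Measure.add_apply, add_assoc]
    exact le_self_add
  · calc (Q : ℝ≥0∞) * S.volS B ≤ (Q : ℝ≥0∞) * (2 * volume B) := mul_le_mul_right (h.volS_le B) _
      _ = 2 * (Q : ℝ≥0∞) * volume B := by ring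

end Claimed.Agent.R322.Sx.Sep
end

/- ===== packed: Claimed.Agent.R322.Sx.Sep.NodeMeas ===== -/
section
/-!
# R322 / Sx / Sep / NodeMeas : the truncated node measures (leaves `L-Sep-MeasA`, `L-Sep-MeasB`, `L-Sep-MeasC`)

Bridges between the two languages of `Sx`:
* functionals `S.intM Q w`, `S.intD w`, `S.intLam w`, `S.intDfar A r w`, `Lfun S p T A w` (integrals against `S.μ`);
* finite measures on the base: `tauC = χ τ`, `LpC = χ (2 M⁺ + c(T) D_far)`, `LmC = χ (2 M⁻ + D + C_Q Λ)`.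

`Trunc S Q χ xs R` = standing assumptions (`χ = 1` on `B_{2R}(xs)`, support in `closedBall xs (3R)`, `B_{4R}(xs) ⊆ Ω`,
`τ(B_{4R}) < ∞`).  Tools: `Valid.intM_eq`, `Valid.absM_eq`, `Valid.intD_eq`, `Valid.intLam_eq`, `Valid.abs_intM_le` (`Sx/Ops.lean`),
`integral_withDensity_eq_integral_toReal_smul`, `integral_add_measure`, `integral_smul_measure`, `integral_map`.
No paper needed.  Proofs: helper116 (helper lemmas prefix `nm_`).
-/

set_option autoImplicit false

namespace Claimed.Agent.R322.Sx.Sep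

open MeasureTheory Set Metric
open scoped ENNReal NNReal InnerProductSpace

variable {m n Q : ℕ}

/-- standing assumptions on a truncation. -/
structure Trunc (S : Sys m n) (Q : ℕ) (χ : E m → ℝ) (xs : E m) (R : ℝ) : Prop where
  valid : S.Valid
  R_pos : 0 < R
  cut : IsCutoff χ xs (2 * R) R
  sub : ball xs (4 * R) ⊆ S.Ω
  fin : S.tau Q (ball xs (4 * R)) < ∞

/-! ## general tools -/

theorem nm_withDensity_mono {α : Type*} [MeasurableSpace α] {μ ν : Measure α} (h : μ ≤ ν)
    (f : α → ℝ≥0∞) : μ.withDensity f ≤ ν.withDensity f := by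
  refine Measure.le_iff.2 fun s hs => ?_
  rw [withDensity_apply _ hs, withDensity_apply _ hs]
  exact lintegral_mono' (Measure.restrict_mono le_rfl h) le_rfl

theorem nm_integral_withDensity {α : Type*} [MeasurableSpace α] (ρ : Measure α) {χ : α → ℝ}
    (hχ : Measurable χ) (h0 : ∀ y, 0 ≤ χ y) (f : α → ℝ) :
    ∫ y, f y ∂(ρ.withDensity fun y => ENNReal.ofReal (χ y)) = ∫ y, f y * χ y ∂ρ := by
  rw [integral_withDensity_eq_integral_toReal_smul hχ.ennreal_ofReal
    (Filter.Eventually.of_forall fun _ => ENNReal.ofReal_lt_top)]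
  refine integral_congr_ae (Filter.Eventually.of_forall fun y => ?_)
  simp only [smul_eq_mul, ENNReal.toReal_ofReal (h0 y)]
  ring

theorem nm_Mpos_le {S : Sys m n} (hS : S.Valid) (Q : ℕ) : S.Mpos Q ≤ S.tau Q := by
  unfold Sys.tau
  rw [hS.absM_eq Q, add_assoc, add_assoc]
  exact Measure.le_add_right le_rfl

theorem nm_Mneg_le {S : Sys m n} (hS : S.Valid) (Q : ℕ) : S.Mneg Q ≤ S.tau Q := by
  unfold Sys.tau
  rw [hS.absM_eq Q, add_comm (S.Mpos Q), add_assoc, add_assoc]
  exact Measure.le_add_right le_rfl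

theorem nm_absM_le (S : Sys m n) (Q : ℕ) : S.absM Q ≤ S.tau Q := by
  unfold Sys.tau
  rw [add_assoc]
  exact Measure.le_add_right le_rfl

theorem nm_Dm_le (S : Sys m n) (Q : ℕ) : S.Dm ≤ S.tau Q := by
  unfold Sys.tau
  rw [add_comm (S.absM Q), add_assoc]
  exact Measure.le_add_right le_rfl

theorem nm_Lm_le (S : Sys m n) (Q : ℕ) : S.Lm ≤ S.tau Q := by
  unfold Sys.tau
  exact Measure.le_add_left le_rfl

theorem nm_measurableSet_far (A : Fin Q → E n) (r : ℝ) :
    MeasurableSet {q : E m × E n | r < Sys.distA A q.2} := by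
  have : Continuous fun q : E m × E n => Sys.distA A q.2 := by
    unfold Sys.distA
    exact (continuous_infDist_pt _).comp continuous_snd
  exact (isOpen_lt continuous_const this).measurableSet

/-! ## Part A : the measures -/

section A

variable {S : Sys m n} {χ : E m → ℝ} {xs : E m} {R : ℝ}

theorem Trunc.nm_cont (h : Trunc S Q χ xs R) : Continuous χ := h.cut.smooth.continuous

theorem Trunc.nm_meas (h : Trunc S Q χ xs R) : Measurable χ := h.nm_cont.measurable

theorem Trunc.nm_zero (h : Trunc S Q χ xs R) {y : E m} (hy : y ∉ closedBall xs (3 * R)) : χ y = 0 := by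
  apply image_eq_zero_of_notMem_tsupport
  intro hh
  have := h.cut.supp hh
  apply hy
  have e : 2 * R + R = 3 * R := by ring
  rwa [e] at this

theorem Trunc.nm_K_ball (h : Trunc S Q χ xs R) : closedBall xs (3 * R) ⊆ ball xs (4 * R) :=
  closedBall_subset_ball (by have := h.R_pos; linarith)

theorem Trunc.nm_K_sub (h : Trunc S Q χ xs R) : closedBall xs (3 * R) ⊆ S.Ω :=
  h.nm_K_ball.trans h.sub

theorem Trunc.nm_tau_K (h : Trunc S Q χ xs R) : S.tau Q (closedBall xs (3 * R)) < ∞ :=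
  lt_of_le_of_lt (measure_mono h.nm_K_ball) h.fin

theorem Trunc.tauC_le (h : Trunc S Q χ xs R) : tauC S Q χ ≤ S.tau Q := by
  unfold tauC
  refine Measure.le_iff.2 fun s hs => ?_
  rw [withDensity_apply _ hs]
  calc ∫⁻ y in s, ENNReal.ofReal (χ y) ∂(S.tau Q) ≤ ∫⁻ _y in s, 1 ∂(S.tau Q) :=
        lintegral_mono fun y => ENNReal.ofReal_le_one.2 (h.cut.le_one y)
    _ = S.tau Q s := by rw [lintegral_one, Measure.restrict_apply_univ]

/-- truncation of a measure dominated by `τ` -/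
theorem Trunc.nm_univ_le (h : Trunc S Q χ xs R) (ρ : Measure (E m)) :
    (ρ.withDensity fun y => ENNReal.ofReal (χ y)) univ ≤ ρ (closedBall xs (3 * R)) := by
  rw [withDensity_apply _ MeasurableSet.univ, Measure.restrict_univ]
  calc ∫⁻ y, ENNReal.ofReal (χ y) ∂ρ
      ≤ ∫⁻ y, (closedBall xs (3 * R)).indicator (fun _ => (1 : ℝ≥0∞)) y ∂ρ := by
        apply lintegral_mono
        intro y
        by_cases hy : y ∈ closedBall xs (3 * R)
        · rw [indicator_of_mem hy]
          exact ENNReal.ofReal_le_one.2 (h.cut.le_one y)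
        · simp [h.nm_zero hy]
    _ = ρ (closedBall xs (3 * R)) := by
        rw [lintegral_indicator isClosed_closedBall.measurableSet, lintegral_one,
          Measure.restrict_apply_univ]

theorem Trunc.tauC_univ_le (h : Trunc S Q χ xs R) :
    tauC S Q χ univ ≤ S.tau Q (ball xs (4 * R)) :=
  (h.nm_univ_le (S.tau Q)).trans (measure_mono h.nm_K_ball)

theorem Trunc.finite_tauC (h : Trunc S Q χ xs R) : IsFiniteMeasure (tauC S Q χ) :=
  ⟨lt_of_le_of_lt h.tauC_univ_le h.fin⟩

theorem Trunc.tauC_compl (h : Trunc S Q χ xs R) : tauC S Q χ (closedBall xs (4 * R))ᶜ = 0 := by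
  unfold tauC
  rw [withDensity_apply _ isClosed_closedBall.measurableSet.compl]
  apply setLIntegral_eq_zero isClosed_closedBall.measurableSet.compl
  intro y hy
  have : y ∉ closedBall xs (3 * R) := fun hh =>
    hy (closedBall_subset_closedBall (by have := h.R_pos; linarith) hh)
  simp [h.nm_zero this]

/-- `τ' = τ` inside `B_{2R}`. -/
theorem Trunc.tauC_eq (h : Trunc S Q χ xs R) {B : Set (E m)} (hB : MeasurableSet B)
    (hsub : B ⊆ ball xs (2 * R)) : tauC S Q χ B = S.tau Q B := by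
  unfold tauC
  rw [withDensity_apply _ hB]
  calc ∫⁻ y in B, ENNReal.ofReal (χ y) ∂(S.tau Q) = ∫⁻ _y in B, 1 ∂(S.tau Q) := by
        refine setLIntegral_congr_fun hB fun y hy => ?_
        simp [h.cut.eq_one y (hsub hy)]
    _ = S.tau Q B := by rw [lintegral_one, Measure.restrict_apply_univ]

theorem DfarM_le {S : Sys m n} (hS : S.Valid) (A : Fin Q → E n) (r : ℝ) : DfarM S A r ≤ S.Dm := by
  unfold DfarM Sys.Dm
  refine Measure.map_mono ?_ measurable_fst
  refine withDensity_mono (Filter.Eventually.of_forall fun q => ?_)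
  apply ENNReal.ofReal_le_ofReal
  exact indicator_le_self' (fun _ _ => hS.e_nonneg q) q

/-- the sum of all the pieces is dominated by `τ` -/
theorem nm_source_le {S : Sys m n} (hS : S.Valid) (Q : ℕ) (A : Fin Q → E n) (r : ℝ) (c q : ℝ≥0∞) :
    ((2 : ℝ≥0∞) • S.Mpos Q + c • DfarM S A r) + ((2 : ℝ≥0∞) • S.Mneg Q + S.Dm + q • S.Lm) ≤
      (q + 2 + c + 1) • S.tau Q := by
  unfold Sys.tau
  rw [hS.absM_eq Q]
  refine Measure.le_iff.2 fun s _ => ?_
  have hD := DfarM_le hS A r s
  simp only [Measure.coe_add, Measure.coe_smul, Pi.add_apply, Pi.smul_apply, smul_eq_mul]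
  generalize S.Mpos Q s = a at *
  generalize S.Mneg Q s = b at *
  generalize S.Dm s = d at *
  generalize S.Lm s = l at *
  generalize DfarM S A r s = f at *
  calc 2 * a + c * f + (2 * b + d + q * l) ≤ 2 * a + c * d + (2 * b + d + q * l) := by gcongr
    _ ≤ (2 * a + c * d + (2 * b + d + q * l)) +
          ((q + c + 1) * a + (q + c + 1) * b + (q + 2) * d + (2 + c + 1) * l) := le_self_add
    _ = (q + 2 + c + 1) * (a + b + d + l) := by ring

/-- `|L'| ≤ (C_Q + 3) τ'`. -/
theorem Trunc.source_le (h : Trunc S Q χ xs R) (p : Prm) (T : ℝ) (A : Fin Q → E n)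
    (hc0 : 0 ≤ cT T) (hc : cT T ≤ 1) (hCQ : 0 ≤ p.CQ) :
    LpC S p T A χ + LmC S Q p χ ≤ ENNReal.ofReal (p.CQ + 3) • tauC S Q χ := by
  unfold LpC LmC tauC
  rw [← withDensity_add_measure, ← withDensity_smul_measure]
  apply nm_withDensity_mono
  have hS := h.valid
  unfold Sys.tau
  rw [hS.absM_eq Q]
  refine Measure.le_iff.2 fun s _ => ?_
  have hD := DfarM_le hS A (far p Q T) s
  have e3 : ENNReal.ofReal (p.CQ + 3) = ENNReal.ofReal p.CQ + 3 := by
    rw [ENNReal.ofReal_add hCQ (by norm_num)]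
    simp
  have hc1 : ENNReal.ofReal (cT T) ≤ 1 := ENNReal.ofReal_le_one.2 hc
  rw [e3]
  simp only [Measure.coe_add, Measure.coe_smul, Pi.add_apply, Pi.smul_apply, smul_eq_mul]
  generalize S.Mpos Q s = a at *
  generalize S.Mneg Q s = b at *
  generalize S.Dm s = d at *
  generalize S.Lm s = l at *
  generalize DfarM S A (far p Q T) s = f at *
  generalize ENNReal.ofReal p.CQ = q at *
  generalize ENNReal.ofReal (cT T) = c at *
  calc 2 * a + c * f + (2 * b + d + q * l) ≤ 2 * a + 1 * d + (2 * b + d + q * l) := by gcongr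
    _ ≤ (2 * a + 1 * d + (2 * b + d + q * l)) + ((q + 1) * a + (q + 1) * b + (q + 1) * d + 3 * l) :=
        le_self_add
    _ = (q + 3) * (a + b + d + l) := by ring

/-- a truncated measure dominated by a multiple of `τ` is finite -/
theorem Trunc.nm_finite (h : Trunc S Q χ xs R) {ρ : Measure (E m)} {c : ℝ≥0∞} (hc : c ≠ ∞)
    (hρ : ρ ≤ c • S.tau Q) : IsFiniteMeasure (ρ.withDensity fun y => ENNReal.ofReal (χ y)) := by
  refine ⟨lt_of_le_of_lt (h.nm_univ_le ρ) (lt_of_le_of_lt (hρ _) ?_)⟩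
  rw [Measure.smul_apply, smul_eq_mul]
  exact ENNReal.mul_lt_top hc.lt_top h.nm_tau_K

theorem Trunc.finite_LpC (h : Trunc S Q χ xs R) (p : Prm) (T : ℝ) (A : Fin Q → E n) :
    IsFiniteMeasure (LpC S p T A χ) := by
  unfold LpC
  refine h.nm_finite (c := 0 + 2 + ENNReal.ofReal (cT T) + 1) (by simp) ?_
  exact (Measure.le_add_right le_rfl).trans (nm_source_le h.valid Q A (far p Q T) _ 0)

theorem Trunc.finite_LmC (h : Trunc S Q χ xs R) (p : Prm) : IsFiniteMeasure (LmC S Q p χ) := by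
  unfold LmC
  refine h.nm_finite (c := ENNReal.ofReal p.CQ + 2 + 0 + 1) (by simp) ?_
  exact (Measure.le_add_left le_rfl).trans
    (nm_source_le h.valid Q (fun _ => (0 : E n)) 0 0 (ENNReal.ofReal p.CQ))

end A


/-! ## Part B : functionals against measures -/

section B

variable {S : Sys m n} {χ : E m → ℝ} {xs : E m} {R : ℝ}

theorem nm_meas_far {S : Sys m n} (hS : S.Valid) (A : Fin Q → E n) (r : ℝ) :
    Measurable ({q : E m × E n | r < Sys.distA A q.2}.indicator S.e) :=
  hS.meas_e.indicator (nm_measurableSet_far A r)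

theorem nm_far_nonneg {S : Sys m n} (hS : S.Valid) (A : Fin Q → E n) (r : ℝ) (q : E m × E n) :
    0 ≤ {q : E m × E n | r < Sys.distA A q.2}.indicator S.e q :=
  indicator_nonneg (fun q _ => hS.e_nonneg q) q

theorem nm_far_le {S : Sys m n} (hS : S.Valid) (A : Fin Q → E n) (r : ℝ) (q : E m × E n) :
    {q : E m × E n | r < Sys.distA A q.2}.indicator S.e q ≤ S.e q :=
  indicator_le_self' (fun _ _ => hS.e_nonneg q) q

theorem intDfar_eq {S : Sys m n} (hS : S.Valid) (A : Fin Q → E n) (r : ℝ) {w : E m → ℝ}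
    (hw : Measurable w) : S.intDfar A r w = ∫ y, w y ∂(DfarM S A r) := by
  unfold Sys.intDfar DfarM
  rw [integral_map measurable_fst.aemeasurable hw.aestronglyMeasurable,
    nm_integral_withDensity _ (nm_meas_far hS A r) (nm_far_nonneg hS A r)]

/-- bounded measurable functions times `χ` are `τ`-integrable. -/
theorem Trunc.nm_integrable (h : Trunc S Q χ xs R) {f : E m → ℝ} (hf : Measurable f) (C : ℝ)
    (hb : ∀ y, |f y| ≤ C) : Integrable (fun y => f y * χ y) (S.tau Q) := by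
  have hsupp : Function.support (fun y => f y * χ y) ⊆ closedBall xs (3 * R) := by
    intro y hy
    by_contra hh
    exact hy (by simp [h.nm_zero hh])
  refine Sys.integrable_of_bdd_support (hf.mul h.nm_meas) h.nm_tau_K hsupp C fun y => ?_
  rw [abs_mul, abs_of_nonneg (h.cut.nonneg y)]
  calc |f y| * χ y ≤ C * 1 :=
        mul_le_mul (hb y) (h.cut.le_one y) (h.cut.nonneg y) ((abs_nonneg _).trans (hb y))
    _ = C := mul_one _

theorem Trunc.nm_supp (h : Trunc S Q χ xs R) (f : E m → ℝ) :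
    Function.support (fun y => f y * χ y) ⊆ closedBall xs (3 * R) := by
  intro y hy
  by_contra hh
  exact hy (by simp [h.nm_zero hh])

theorem Trunc.nm_bdd (h : Trunc S Q χ xs R) {f : E m → ℝ} {C : ℝ} (hb : ∀ y, |f y| ≤ C) (y : E m) :
    |f y * χ y| ≤ C := by
  rw [abs_mul, abs_of_nonneg (h.cut.nonneg y)]
  calc |f y| * χ y ≤ C * 1 :=
        mul_le_mul (hb y) (h.cut.le_one y) (h.cut.nonneg y) ((abs_nonneg _).trans (hb y))
    _ = C := mul_one _

/-- the basic bridge: `∫ f dL' = Lfun (f χ)` for bounded measurable `f`. -/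
theorem Trunc.Lfun_eq (h : Trunc S Q χ xs R) (p : Prm) (T : ℝ) (A : Fin Q → E n) (hc0 : 0 ≤ cT T)
    (hCQ : 0 ≤ p.CQ) {f : E m → ℝ} (hf : Measurable f) (C : ℝ) (hb : ∀ y, |f y| ≤ C) :
    (∫ y, f y ∂(LpC S p T A χ)) - ∫ y, f y ∂(LmC S Q p χ) = Lfun S p T A fun y => f y * χ y := by
  have hV := h.valid
  have hg : Measurable (fun y => f y * χ y) := hf.mul h.nm_meas
  have hint := h.nm_integrable hf C hb
  have hsupp := h.nm_supp f
  have hgb := h.nm_bdd hb
  unfold LpC LmC
  rw [nm_integral_withDensity _ h.nm_meas h.cut.nonneg, nm_integral_withDensity _ h.nm_meas h.cut.nonneg]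
  have i0 : Integrable (fun y => f y * χ y) (S.Mpos Q) := hint.mono_measure (nm_Mpos_le hV Q)
  have i1 : Integrable (fun y => f y * χ y) (S.Mneg Q) := hint.mono_measure (nm_Mneg_le hV Q)
  have i2 : Integrable (fun y => f y * χ y) S.Dm := hint.mono_measure (nm_Dm_le S Q)
  have i3 : Integrable (fun y => f y * χ y) S.Lm := hint.mono_measure (nm_Lm_le S Q)
  have i4 : Integrable (fun y => f y * χ y) (DfarM S A (far p Q T)) :=
    i2.mono_measure (DfarM_le hV A _)
  rw [integral_add_measure ((i1.smul_measure (by simp)).add_measure i2)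
      (i3.smul_measure ENNReal.ofReal_ne_top),
    integral_add_measure (i1.smul_measure (by simp)) i2,
    integral_add_measure (i0.smul_measure (by simp)) (i4.smul_measure ENNReal.ofReal_ne_top),
    integral_smul_measure, integral_smul_measure, integral_smul_measure, integral_smul_measure]
  unfold Lfun Sys.intL
  rw [hV.intM_eq Q hg (isCompact_closedBall _ _) h.nm_K_sub hsupp C hgb, hV.intD_eq hg,
    hV.intLam_eq hg, intDfar_eq hV A _ hg, ENNReal.toReal_ofReal hCQ, ENNReal.toReal_ofReal hc0]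
  simp only [smul_eq_mul, ENNReal.toReal_ofNat]
  ring

/-- functions supported in `B_{2R}` do not see the cutoff. -/
theorem Trunc.Lfun_local (h : Trunc S Q χ xs R) (p : Prm) (T : ℝ) (A : Fin Q → E n)
    (hc0 : 0 ≤ cT T) (hCQ : 0 ≤ p.CQ) {f : E m → ℝ} (hf : Measurable f) (C : ℝ)
    (hb : ∀ y, |f y| ≤ C) (hs : Function.support f ⊆ ball xs (2 * R)) :
    (∫ y, f y ∂(LpC S p T A χ)) - ∫ y, f y ∂(LmC S Q p χ) = Lfun S p T A f := by
  rw [h.Lfun_eq p T A hc0 hCQ hf C hb]
  congr 1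
  funext y
  by_cases hy : f y = 0
  · rw [hy, zero_mul]
  · rw [h.cut.eq_one y (hs hy), mul_one]

theorem IsWeight.continuous {w : E m → ℝ} {x : E m} {r : ℝ} (hw : IsWeight w x r) :
    Continuous w := by
  have : LipschitzWith (Real.toNNReal r⁻¹) w := by
    apply LipschitzWith.of_dist_le_mul
    intro y y'
    have h1 := hw.lip y y'
    rw [Real.dist_eq, dist_eq_norm]
    refine h1.trans ?_
    exact mul_le_mul_of_nonneg_right (Real.le_coe_toNNReal _) (norm_nonneg _)
  exact this.continuous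

theorem Trunc.abs_source_le (h : Trunc S Q χ xs R) (p : Prm) (T : ℝ) (A : Fin Q → E n)
    (hc0 : 0 ≤ cT T) (hc : cT T ≤ 1) (hCQ : 0 ≤ p.CQ) {f : E m → ℝ} (hf : Measurable f) (C : ℝ)
    (hb : ∀ y, |f y| ≤ C) :
    |(∫ y, f y ∂(LpC S p T A χ)) - ∫ y, f y ∂(LmC S Q p χ)|
      ≤ (p.CQ + 3) * ∫ y, |f y| ∂(tauC S Q χ) := by
  have := h.finite_tauC
  have := h.finite_LpC p T A
  have := h.finite_LmC p
  have hi : ∀ (ρ : Measure (E m)) [IsFiniteMeasure ρ], Integrable (fun y => |f y|) ρ := fun ρ _ =>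
    Integrable.of_bound (C := C) hf.abs.aestronglyMeasurable
      (Filter.Eventually.of_forall fun y => by rw [Real.norm_eq_abs, abs_abs]; exact hb y)
  have h1 : |∫ y, f y ∂(LpC S p T A χ)| ≤ ∫ y, |f y| ∂(LpC S p T A χ) := abs_integral_le_integral_abs
  have h2 : |∫ y, f y ∂(LmC S Q p χ)| ≤ ∫ y, |f y| ∂(LmC S Q p χ) := abs_integral_le_integral_abs
  have h3 : (∫ y, |f y| ∂(LpC S p T A χ)) + ∫ y, |f y| ∂(LmC S Q p χ) =
      ∫ y, |f y| ∂(LpC S p T A χ + LmC S Q p χ) := (integral_add_measure (hi _) (hi _)).symm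
  have h4 : ∫ y, |f y| ∂(LpC S p T A χ + LmC S Q p χ) ≤
      ∫ y, |f y| ∂(ENNReal.ofReal (p.CQ + 3) • tauC S Q χ) :=
    integral_mono_measure (h.source_le p T A hc0 hc hCQ)
      (Filter.Eventually.of_forall fun y => abs_nonneg _)
      ((hi (tauC S Q χ)).smul_measure ENNReal.ofReal_ne_top)
  rw [integral_smul_measure, ENNReal.toReal_ofReal (by linarith), smul_eq_mul] at h4
  calc |(∫ y, f y ∂(LpC S p T A χ)) - ∫ y, f y ∂(LmC S Q p χ)|
      ≤ |∫ y, f y ∂(LpC S p T A χ)| + |∫ y, f y ∂(LmC S Q p χ)| := abs_sub _ _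
    _ ≤ _ := by linarith

theorem nm_gauss_meas (v : ℝ) (x : E m) : Measurable fun y : E m => gauss m v (y - x) :=
  ((gauss_continuous m v).comp (continuous_id.sub continuous_const)).measurable

theorem nm_gauss_bdd {v : ℝ} (hv : 0 < v) (x y : E m) : |gauss m v (y - x)| ≤ v ^ (-(m : ℝ)) := by
  rw [abs_of_pos (gauss_pos m hv _)]
  exact gauss_le' m hv _

theorem nm_ker_eq (χ : E m → ℝ) (v : ℝ) (x : E m) :
    Sys.ker χ v x = fun y => gauss m v (y - x) * χ y := by
  funext y
  unfold Sys.ker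
  ring

/-- `L'_v(x) = 2 M_v - D_v - C_Q Λ_v + c(T) D^{far}_v`. -/
theorem Trunc.LavC_eq (h : Trunc S Q χ xs R) (p : Prm) (T : ℝ) (A : Fin Q → E n) (hc0 : 0 ≤ cT T)
    (hCQ : 0 ≤ p.CQ) {v : ℝ} (hv : 0 < v) (x : E m) :
    LavC S p T A χ v x = 2 * S.Mav Q χ v x - S.Dav χ v x - p.CQ * S.Lamav χ v x
      + cT T * S.intDfar A (far p Q T) (Sys.ker χ v x) := by
  have := h.Lfun_eq p T A hc0 hCQ (nm_gauss_meas v x) _ (nm_gauss_bdd hv x)
  unfold LavC gav
  rw [this, ← nm_ker_eq]
  rfl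

theorem Trunc.tauav_eq (h : Trunc S Q χ xs R) (v : ℝ) (x : E m) :
    S.tauav Q χ v x = gav (tauC S Q χ) v x := by
  unfold gav tauC Sys.tauav
  rw [nm_integral_withDensity _ h.nm_meas h.cut.nonneg, nm_ker_eq]

theorem Trunc.nm_ker_integrable (h : Trunc S Q χ xs R) {v : ℝ} (hv : 0 < v) (x : E m) :
    Integrable (Sys.ker χ v x) (S.tau Q) := by
  rw [nm_ker_eq]
  exact h.nm_integrable (nm_gauss_meas v x) _ (nm_gauss_bdd hv x)

theorem Trunc.nm_ker_meas (h : Trunc S Q χ xs R) (v : ℝ) (x : E m) : Measurable (Sys.ker χ v x) := by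
  rw [nm_ker_eq]
  exact (nm_gauss_meas v x).mul h.nm_meas

theorem Trunc.nm_ker_nonneg (h : Trunc S Q χ xs R) {v : ℝ} (hv : 0 < v) (x y : E m) :
    0 ≤ Sys.ker χ v x y :=
  mul_nonneg (h.cut.nonneg y) (gauss_pos m hv _).le

theorem Trunc.tauav_split (h : Trunc S Q χ xs R) {v : ℝ} (hv : 0 < v) (x : E m) :
    S.tauav Q χ v x = S.absMav Q χ v x + S.Dav χ v x + S.Lamav χ v x := by
  have hint := h.nm_ker_integrable hv x
  have i1 := hint.mono_measure (nm_absM_le S Q)
  have i2 := hint.mono_measure (nm_Dm_le S Q)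
  have i3 := hint.mono_measure (nm_Lm_le S Q)
  unfold Sys.tauav Sys.absMav Sys.Dav Sys.Lamav Sys.tau
  rw [integral_add_measure (i1.add_measure i2) i3, integral_add_measure i1 i2,
    h.valid.intD_eq (h.nm_ker_meas v x), h.valid.intLam_eq (h.nm_ker_meas v x)]

theorem Trunc.abs_Mav_le (h : Trunc S Q χ xs R) {v : ℝ} (hv : 0 < v) (x : E m) :
    |S.Mav Q χ v x| ≤ S.absMav Q χ v x := by
  have h1 := h.valid.abs_intM_le Q (h.nm_ker_meas v x) (isCompact_closedBall xs (3 * R)) h.nm_K_sub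
    (by rw [nm_ker_eq]; exact h.nm_supp _) (v ^ (-(m : ℝ)))
    (by rw [nm_ker_eq]; exact h.nm_bdd (nm_gauss_bdd hv x))
  refine h1.trans (le_of_eq ?_)
  unfold Sys.absMav
  congr 1
  funext y
  exact abs_of_nonneg (h.nm_ker_nonneg hv x y)

theorem Trunc.absMav_nonneg (h : Trunc S Q χ xs R) {v : ℝ} (hv : 0 < v) (x : E m) :
    0 ≤ S.absMav Q χ v x :=
  integral_nonneg fun y => h.nm_ker_nonneg hv x y

theorem Trunc.Dav_nonneg (h : Trunc S Q χ xs R) {v : ℝ} (hv : 0 < v) (x : E m) :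
    0 ≤ S.Dav χ v x :=
  integral_nonneg fun q => mul_nonneg (h.nm_ker_nonneg hv x q.1) (h.valid.e_nonneg q)

theorem Trunc.Lamav_nonneg (h : Trunc S Q χ xs R) {v : ℝ} (hv : 0 < v) (x : E m) :
    0 ≤ S.Lamav χ v x :=
  integral_nonneg fun q => mul_nonneg (h.nm_ker_nonneg hv x q.1) (h.valid.lam_nonneg q)

theorem Trunc.Rav_nonneg (h : Trunc S Q χ xs R) {v : ℝ} (hv : 0 < v) (x : E m) :
    0 ≤ S.Rav χ v x :=
  integral_nonneg fun q => mul_nonneg (h.nm_ker_nonneg hv x q.1) (h.valid.B_nonneg q _)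

theorem Trunc.Dfar_nonneg (h : Trunc S Q χ xs R) (A : Fin Q → E n) (r : ℝ) {v : ℝ} (hv : 0 < v)
    (x : E m) : 0 ≤ S.intDfar A r (Sys.ker χ v x) :=
  integral_nonneg fun q => mul_nonneg (h.nm_ker_nonneg hv x q.1) (nm_far_nonneg h.valid A r q)

theorem Trunc.Dfar_le (h : Trunc S Q χ xs R) (A : Fin Q → E n) (r : ℝ) {v : ℝ} (hv : 0 < v)
    (x : E m) : S.intDfar A r (Sys.ker χ v x) ≤ S.Dav χ v x := by
  unfold Sys.Dav
  rw [intDfar_eq h.valid A r (h.nm_ker_meas v x), h.valid.intD_eq (h.nm_ker_meas v x)]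
  exact integral_mono_measure (DfarM_le h.valid A r)
    (Filter.Eventually.of_forall fun y => h.nm_ker_nonneg hv x y)
    ((h.nm_ker_integrable hv x).mono_measure (nm_Dm_le S Q))

theorem Trunc.Dav_continuousOn (h : Trunc S Q χ xs R) (x : E m) :
    ContinuousOn (fun v => S.Dav χ v x) (Ioi 0) := by
  have hfin : IsFiniteMeasure (S.Dm.withDensity fun y => ENNReal.ofReal (χ y)) :=
    h.nm_finite (c := 1) (by simp) (by rw [one_smul]; exact nm_Dm_le S Q)
  have e : (fun v => S.Dav χ v x) = fun v => gav (S.Dm.withDensity fun y => ENNReal.ofReal (χ y)) v x := by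
    funext v
    unfold Sys.Dav gav
    rw [h.valid.intD_eq (h.nm_ker_meas v x), nm_integral_withDensity _ h.nm_meas h.cut.nonneg, nm_ker_eq]
  rw [e]
  exact gav_continuousOn_scale _ x

theorem Trunc.LavC_continuousOn (h : Trunc S Q χ xs R) (p : Prm) (T : ℝ) (A : Fin Q → E n)
    (x : E m) : ContinuousOn (fun v => LavC S p T A χ v x) (Ioi 0) := by
  have := h.finite_LpC p T A
  have := h.finite_LmC p
  unfold LavC
  exact (gav_continuousOn_scale _ x).sub (gav_continuousOn_scale _ x)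

end B

/-! ## Part C : linearity of the functionals (for all valid systems, in particular height restrictions) -/

/-- bounded measurable functions supported in a compact subset of `Ω`. -/
def Adm (S : Sys m n) (f : E m → ℝ) : Prop :=
  Measurable f ∧ (∃ C : ℝ, ∀ y, |f y| ≤ C) ∧
    ∃ K : Set (E m), IsCompact K ∧ K ⊆ S.Ω ∧ Function.support f ⊆ K

section C

variable {S : Sys m n}

theorem intL_smul (S : Sys m n) (Q : ℕ) (c : ℝ) (f : E m → ℝ) :
    S.intL Q (fun y => c * f y) = c * S.intL Q f := by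
  unfold Sys.intL Sys.intM Sys.intD
  simp only [mul_assoc, integral_const_mul]
  ring

theorem intLam_smul (S : Sys m n) (c : ℝ) (f : E m → ℝ) :
    S.intLam (fun y => c * f y) = c * S.intLam f := by
  unfold Sys.intLam
  simp only [mul_assoc, integral_const_mul]

theorem nm_intDfar_smul (S : Sys m n) (A : Fin Q → E n) (r c : ℝ) (f : E m → ℝ) :
    S.intDfar A r (fun y => c * f y) = c * S.intDfar A r f := by
  unfold Sys.intDfar
  simp only [mul_assoc, integral_const_mul]

theorem Lfun_smul (S : Sys m n) (p : Prm) (T : ℝ) (A : Fin Q → E n) (c : ℝ) (f : E m → ℝ) :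
    Lfun S p T A (fun y => c * f y) = c * Lfun S p T A f := by
  unfold Lfun
  rw [intL_smul, intLam_smul, nm_intDfar_smul]
  ring

/-- integrability of `f(y) g(y, ζ)` for admissible `f` and bounded `g` -/
theorem Adm.nm_integrable_mul (hS : S.Valid) {f : E m → ℝ} (hf : Adm S f) {g : E m × E n → ℝ}
    (hg : Measurable g) (D : ℝ) (hD : ∀ q, |g q| ≤ D) : Integrable (fun q => f q.1 * g q) S.μ := by
  obtain ⟨hm, ⟨C, hC⟩, K, hK, hKΩ, hs⟩ := hf
  refine hS.integrable_of_baseCpt ((hm.comp measurable_fst).mul hg) ⟨K, hK, hKΩ, fun q hq => ?_⟩ (C * D)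
    (Filter.Eventually.of_forall fun q => ?_)
  · have : f q.1 = 0 := by
      by_contra hne
      exact hq (hs hne)
    show f q.1 * g q = 0
    rw [this, zero_mul]
  · rw [abs_mul]
    exact mul_le_mul (hC _) (hD q) (abs_nonneg _) ((abs_nonneg _).trans (hC q.1))

theorem Adm.nm_integrable_fst (hS : S.Valid) {f : E m → ℝ} (hf : Adm S f) :
    Integrable (fun q : E m × E n => f q.1) S.μ := by
  have := hf.nm_integrable_mul hS (g := fun _ => 1) measurable_const 1 (fun _ => by simp)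
  simpa using this

theorem Adm.nm_integrable_a (hS : S.Valid) {f : E m → ℝ} (hf : Adm S f) :
    Integrable (fun y => f y * S.a y) (volume.restrict S.Ω) := by
  obtain ⟨hm, ⟨C, hC⟩, K, hK, hKΩ, hs⟩ := hf
  have := (hS.integrable_a_mul hm hK hKΩ hs C hC).restrict (s := S.Ω)
  refine this.congr (Filter.Eventually.of_forall fun y => ?_)
  simp only
  ring

theorem nm_abs_e_le (hS : S.Valid) (q : E m × E n) : |S.e q| ≤ m := by
  rw [abs_of_nonneg (hS.e_nonneg q)]
  exact hS.e_le q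

theorem nm_abs_lam_le (hS : S.Valid) (q : E m × E n) : |S.lam q| ≤ S.Cg := by
  rw [abs_of_nonneg (hS.lam_nonneg q)]
  exact hS.lam_le q

theorem intL_sum (hS : S.Valid) (Q : ℕ) {ι : Type*} (s : Finset ι) (f : ι → E m → ℝ)
    (hf : ∀ a ∈ s, Adm S (f a)) :
    S.intL Q (fun y => ∑ a ∈ s, f a y) = ∑ a ∈ s, S.intL Q (f a) := by
  unfold Sys.intL Sys.intM Sys.intD
  simp only [Finset.sum_mul]
  rw [integral_finsetSum s fun a ha => (hf a ha).nm_integrable_fst hS,
    integral_finsetSum s fun a ha => (hf a ha).nm_integrable_a hS,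
    integral_finsetSum s fun a ha => (hf a ha).nm_integrable_mul hS hS.meas_e m (nm_abs_e_le hS)]
  rw [Finset.sum_sub_distrib, ← Finset.mul_sum, Finset.sum_sub_distrib, ← Finset.mul_sum]

theorem intLam_sum (hS : S.Valid) {ι : Type*} (s : Finset ι) (f : ι → E m → ℝ)
    (hf : ∀ a ∈ s, Adm S (f a)) :
    S.intLam (fun y => ∑ a ∈ s, f a y) = ∑ a ∈ s, S.intLam (f a) := by
  unfold Sys.intLam
  simp only [Finset.sum_mul]
  rw [integral_finsetSum s fun a ha =>
    (hf a ha).nm_integrable_mul hS hS.meas_lam S.Cg (nm_abs_lam_le hS)]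

theorem IsWeight.adm {w : E m → ℝ} {x : E m} {r : ℝ} (hw : IsWeight w x r)
    (hsub : closedBall x r ⊆ S.Ω) : Adm S w := by
  refine ⟨(IsWeight.continuous hw).measurable, ⟨1, fun y => ?_⟩, closedBall x r, isCompact_closedBall _ _, hsub,
    hw.supp.trans ball_subset_closedBall⟩
  rw [abs_of_nonneg (hw.nonneg y)]
  exact hw.le_one y

end C

end Claimed.Agent.R322.Sx.Sep
end
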