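/- Packed by merge_tool.py (helper293): 3 modules of Claimed.Agent.R322 in one file, same declarations.
   Old modules, in this order: Sx.Rates, Sx.Sep.Rate, Sx.Sep.Num -/
import Claimed.Agent.R322.Pack030

/- ===== packed: Claimed.Agent.R322.Sx.Rates ===== -/
section
/-!
# R322 / Sx / Rates : the rate calculus of AE (3.1), (5.1), Lemma 5.5 (first half of its proof)

Pure real analysis of the iterated exponentials `F_Q(T) = exp_{2Q}(√(log_{2Q} T))`,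
`F_q^{-1}(u) = exp_{2q}((log_{2q} u)²)`, `b_Q(x) = 1 + (log x)^201 + 4 F_{Q-1}^{-1}((log x)³)`.

Method for everything: put `j = 2Q - 2`, `x = exp_{j+2}(w)`.  Then `F_Q(x) = exp_{j+2}(√w)`,
`b_Q(2x) ≤ exp_{j+1}(202 w)` and `exp(C (1 + b_Q(2 x))) ≤ exp_{j+2}(203 w)` for `w ≥ w0(C)`;
elementary absorption rules `C · exp_i(w) ≤ exp_i(w + 1)`, `exp_i(w)^C ≤ exp_i(w + 1)` (`i ≥ 2`,
`w ≥ w0(C)`), monotonicity of `exp_i`, `log_i`.
-/

set_option autoImplicit false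

namespace Claimed.Agent.R322.Sx

open Filter Topology Set

/-! ### iterated exponentials and logarithms -/

theorem rt_E_succ (k : ℕ) (w : ℝ) : Real.exp^[k + 1] w = Real.exp (Real.exp^[k] w) :=
  Function.iterate_succ_apply' _ _ _

theorem rt_E_succ' (k : ℕ) (w : ℝ) : Real.exp^[k + 1] w = Real.exp^[k] (Real.exp w) :=
  Function.iterate_succ_apply _ _ _

theorem rt_E_strictMono (k : ℕ) : StrictMono (Real.exp^[k]) := Real.exp_strictMono.iterate k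

theorem rt_E_mono (k : ℕ) : Monotone (Real.exp^[k]) := (rt_E_strictMono k).monotone

theorem rt_E_ge (k : ℕ) (w : ℝ) : w ≤ Real.exp^[k] w := by
  induction k with
  | zero => exact le_rfl
  | succ k ih =>
    rw [rt_E_succ]
    have := Real.add_one_le_exp (Real.exp^[k] w)
    linarith

theorem rt_E_pos (k : ℕ) (w : ℝ) : 0 < Real.exp^[k + 1] w := by
  rw [rt_E_succ]
  exact Real.exp_pos _

theorem rt_E_tendsto (k : ℕ) : Tendsto (Real.exp^[k]) atTop atTop :=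
  Real.tendsto_exp_atTop.iterate k

theorem rt_L_tendsto (k : ℕ) : Tendsto (Real.log^[k]) atTop atTop :=
  Real.tendsto_log_atTop.iterate k

theorem rt_L_E (k : ℕ) (w : ℝ) : Real.log^[k] (Real.exp^[k] w) = w :=
  (Function.LeftInverse.iterate Real.log_exp k) w

theorem rt_E_L (k : ℕ) {a T : ℝ} (hT : Real.exp^[k] a ≤ T) :
    a ≤ Real.log^[k] T ∧ Real.exp^[k] (Real.log^[k] T) = T := by
  induction k generalizing T with
  | zero => exact ⟨hT, rfl⟩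
  | succ k ih =>
    rw [rt_E_succ] at hT
    have hT0 : 0 < T := lt_of_lt_of_le (Real.exp_pos _) hT
    have h1 : Real.exp^[k] a ≤ Real.log T := (Real.le_log_iff_exp_le hT0).2 hT
    obtain ⟨h2, h3⟩ := ih h1
    rw [Function.iterate_succ_apply, rt_E_succ, h3, Real.exp_log hT0]
    exact ⟨h2, rfl⟩

theorem rt_L_mono (k : ℕ) {a S T : ℝ} (hS : Real.exp^[k] a ≤ S) (hST : S ≤ T) :
    Real.log^[k] S ≤ Real.log^[k] T := by
  have h1 := (rt_E_L k hS).2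
  have h2 := (rt_E_L k (le_trans hS hST)).2
  rw [← (rt_E_strictMono k).le_iff_le, h1, h2]
  exact hST

theorem rt_ev_E_L (k : ℕ) : ∀ᶠ T : ℝ in atTop, Real.exp^[k] (Real.log^[k] T) = T := by
  filter_upwards [eventually_ge_atTop (Real.exp^[k] 0)] with T hT
  exact (rt_E_L k hT).2

/-- absorption of constants. -/
theorem rt_D1 (i : ℕ) (C : ℝ) :
    ∃ w0 : ℝ, 0 ≤ w0 ∧ ∀ w, w0 ≤ w → C * Real.exp^[i + 1] w ≤ Real.exp^[i + 1] (2 * w) := by
  induction i generalizing C with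
  | zero =>
    refine ⟨|C|, abs_nonneg _, fun w hw => ?_⟩
    simp only [zero_add, Function.iterate_one]
    have h1 : C ≤ Real.exp w := by
      have := Real.add_one_le_exp w
      have := le_abs_self C
      linarith
    have h2 : Real.exp (2 * w) = Real.exp w * Real.exp w := by
      rw [← Real.exp_add]
      congr 1
      ring
    rw [h2]
    exact mul_le_mul_of_nonneg_right h1 (Real.exp_pos _).le
  | succ i ih =>
    obtain ⟨w1, hw1, h1⟩ := ih 2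
    refine ⟨max w1 |C|, le_max_of_le_left hw1, fun w hw => ?_⟩
    have hw1' : w1 ≤ w := le_trans (le_max_left _ _) hw
    have hwC : |C| ≤ w := le_trans (le_max_right _ _) hw
    rw [rt_E_succ (i + 1) w, rt_E_succ (i + 1) (2 * w)]
    have h2 := h1 w hw1'
    have h3 : C ≤ Real.exp (Real.exp^[i + 1] w) := by
      have := Real.add_one_le_exp (Real.exp^[i + 1] w)
      have := rt_E_ge (i + 1) w
      have := le_abs_self C
      linarith
    calc C * Real.exp (Real.exp^[i + 1] w)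
        ≤ Real.exp (Real.exp^[i + 1] w) * Real.exp (Real.exp^[i + 1] w) :=
          mul_le_mul_of_nonneg_right h3 (Real.exp_pos _).le
      _ = Real.exp (2 * Real.exp^[i + 1] w) := by
          rw [← Real.exp_add]
          congr 1
          ring
      _ ≤ _ := Real.exp_le_exp.2 h2

/-- absorption of powers. -/
theorem rt_D2 (i N : ℕ) :
    ∃ w0 : ℝ, 0 ≤ w0 ∧ ∀ w, w0 ≤ w →
      Real.exp^[i + 1] w ^ N ≤ Real.exp^[i + 1] (((N : ℝ) + 2) * w) := by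
  have key : ∃ w0 : ℝ, 0 ≤ w0 ∧ ∀ w, w0 ≤ w →
      (N : ℝ) * Real.exp^[i] w ≤ Real.exp^[i] (((N : ℝ) + 2) * w) := by
    cases i with
    | zero =>
      refine ⟨0, le_rfl, fun w hw => ?_⟩
      simp only [Function.iterate_zero, id_eq]
      nlinarith
    | succ i =>
      obtain ⟨w1, hw1, h1⟩ := rt_D1 i N
      refine ⟨w1, hw1, fun w hw => le_trans (h1 w hw) (rt_E_mono _ ?_)⟩
      have : 0 ≤ w := le_trans hw1 hw
      have hN : (0 : ℝ) ≤ N := Nat.cast_nonneg _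
      nlinarith
  obtain ⟨w0, hw0, h⟩ := key
  refine ⟨w0, hw0, fun w hw => ?_⟩
  rw [rt_E_succ, rt_E_succ, ← Real.exp_nat_mul]
  exact Real.exp_le_exp.2 (h w hw)

/-- ratio lemma. -/
theorem rt_ratio (i : ℕ) (a b : ℝ → ℝ) (ha : Tendsto a atTop atTop)
    (hab : ∀ᶠ w in atTop, 4 * a w ≤ b w) :
    Tendsto (fun w => Real.exp^[i + 1] (a w) / Real.exp^[i + 1] (b w)) atTop (𝓝 0) := by
  obtain ⟨w0, _, h⟩ := rt_D2 i 2
  have h1 : Tendsto (fun w => (Real.exp^[i + 1] (a w))⁻¹) atTop (𝓝 0) :=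
    tendsto_inv_atTop_zero.comp ((rt_E_tendsto (i + 1)).comp ha)
  refine squeeze_zero' ?_ ?_ h1
  · exact Eventually.of_forall fun w => div_nonneg (rt_E_pos i _).le (rt_E_pos i _).le
  · filter_upwards [hab, ha.eventually_ge_atTop w0] with w h2 h3
    have h4 := h (a w) h3
    have h5 : Real.exp^[i + 1] (a w) ^ 2 ≤ Real.exp^[i + 1] (b w) := by
      refine le_trans h4 (rt_E_mono _ ?_)
      norm_num
      linarith
    have hp := rt_E_pos i (a w)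
    rw [div_le_iff₀ (rt_E_pos i _), inv_mul_eq_div, le_div_iff₀ hp]
    nlinarith

theorem FQ_tendsto (Q : ℕ) : Tendsto (FQ Q) atTop atTop :=
  (rt_E_tendsto (2 * Q)).comp (Real.tendsto_sqrt_atTop.comp (rt_L_tendsto (2 * Q)))

theorem FQ_monotoneOn (Q : ℕ) : ∃ T0 : ℝ, MonotoneOn (FQ Q) (Ici T0) := by
  refine ⟨Real.exp^[2 * Q] 0, fun S hS T _ hST => ?_⟩
  exact rt_E_mono _ (Real.sqrt_le_sqrt (rt_L_mono (2 * Q) hS hST))

/-- `F_Q(T) = T^{o(1)}`. -/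
theorem FQ_pow_div (Q : ℕ) (hQ : 1 ≤ Q) (N : ℕ) :
    Tendsto (fun T => FQ Q T ^ N / T) atTop (𝓝 0) := by
  obtain ⟨i, hi⟩ : ∃ i, 2 * Q = i + 1 := ⟨2 * Q - 1, by omega⟩
  obtain ⟨w0, _, h⟩ := rt_D2 i N
  have hL := rt_L_tendsto (2 * Q)
  have hs : Tendsto (fun T => Real.sqrt (Real.log^[2 * Q] T)) atTop atTop :=
    Real.tendsto_sqrt_atTop.comp hL
  have ha : Tendsto (fun T => ((N : ℝ) + 2) * Real.sqrt (Real.log^[2 * Q] T)) atTop atTop :=
    hs.const_mul_atTop (by positivity)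
  have hab : ∀ᶠ T in atTop,
      4 * (((N : ℝ) + 2) * Real.sqrt (Real.log^[2 * Q] T)) ≤ Real.log^[2 * Q] T := by
    filter_upwards [hs.eventually_ge_atTop (4 * ((N : ℝ) + 2)), hL.eventually_ge_atTop 0] with T h1 h2
    have h3 : Real.sqrt (Real.log^[2 * Q] T) * Real.sqrt (Real.log^[2 * Q] T) = Real.log^[2 * Q] T :=
      Real.mul_self_sqrt h2
    have h4 := Real.sqrt_nonneg (Real.log^[2 * Q] T)
    nlinarith
  have hr := rt_ratio i _ _ ha hab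
  refine squeeze_zero' ?_ ?_ hr
  · filter_upwards [eventually_ge_atTop 0] with T hT
    refine div_nonneg (pow_nonneg ?_ _) hT
    unfold FQ
    rw [hi]
    exact (rt_E_pos i _).le
  · filter_upwards [rt_ev_E_L (2 * Q), hs.eventually_ge_atTop w0, eventually_gt_atTop 0] with T h1 h2 h3
    rw [← hi, h1]
    refine div_le_div_of_nonneg_right ?_ h3.le
    unfold FQ
    rw [hi]
    rw [hi] at h2
    exact h _ h2

/-- `F_Q(T)` dominates every power of `log T`. -/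
theorem log_pow_div_FQ (Q N : ℕ) : Tendsto (fun T => Real.log T ^ N / FQ Q T) atTop (𝓝 0) := by
  rcases Nat.eq_zero_or_pos Q with rfl | hQ
  · have h := (isLittleO_log_rpow_rpow_atTop (N : ℝ) (show (0 : ℝ) < 1 / 2 by norm_num)).tendsto_div_nhds_zero
    refine h.congr fun T => ?_
    unfold FQ
    simp only [Nat.mul_zero, Function.iterate_zero, id_eq, Real.rpow_natCast, Real.sqrt_eq_rpow]
  obtain ⟨i, hi⟩ : ∃ i, 2 * Q = i + 1 + 1 := ⟨2 * Q - 2, by omega⟩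
  obtain ⟨w0, _, h⟩ := rt_D2 i N
  have hL := rt_L_tendsto (2 * Q)
  have hs : Tendsto (fun T => Real.sqrt (Real.log^[2 * Q] T)) atTop atTop :=
    Real.tendsto_sqrt_atTop.comp hL
  have ha : Tendsto (fun T => ((N : ℝ) + 2) * Real.log^[2 * Q] T) atTop atTop :=
    hL.const_mul_atTop (by positivity)
  have hab : ∀ᶠ T in atTop,
      4 * (((N : ℝ) + 2) * Real.log^[2 * Q] T) ≤ Real.exp (Real.sqrt (Real.log^[2 * Q] T)) := by
    have h1 : ∀ᶠ u : ℝ in atTop, 4 * ((N : ℝ) + 2) * u ^ 2 ≤ Real.exp u := by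
      have := (Real.tendsto_pow_mul_exp_neg_atTop_nhds_zero 2).const_mul (4 * ((N : ℝ) + 2))
      rw [mul_zero] at this
      filter_upwards [this.eventually (ge_mem_nhds (show (0 : ℝ) < 1 by norm_num))] with u hu
      rw [Real.exp_neg, ← mul_assoc, ← div_eq_mul_inv, div_le_one (Real.exp_pos _)] at hu
      exact hu
    filter_upwards [hs.eventually h1, hL.eventually_ge_atTop 0] with T h2 h3
    rw [Real.sq_sqrt h3] at h2
    linarith
  have hr := rt_ratio i _ _ ha hab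
  refine squeeze_zero' ?_ ?_ hr
  · filter_upwards [eventually_ge_atTop 1] with T hT
    refine div_nonneg (pow_nonneg (Real.log_nonneg hT) _) ?_
    unfold FQ
    rw [hi]
    exact (rt_E_pos (i + 1) _).le
  · filter_upwards [rt_ev_E_L (2 * Q), hL.eventually_ge_atTop w0] with T h1 h2
    have e2 : FQ Q T = Real.exp^[2 * Q] (Real.sqrt (Real.log^[2 * Q] T)) := rfl
    generalize Real.log^[2 * Q] T = w at h1 h2 e2 ⊢
    rw [hi, rt_E_succ'] at e2
    rw [hi, rt_E_succ] at h1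
    have e1 : Real.log T = Real.exp^[i + 1] w := by
      rw [← h1, Real.log_exp]
    rw [e1, e2]
    exact div_le_div_of_nonneg_right (h _ h2) (rt_E_pos i _).le

theorem rt_FQinv_nonneg (q : ℕ) (u : ℝ) : 0 ≤ FQinv q u :=
  le_trans (sq_nonneg _) (rt_E_ge _ _)

theorem bQ_monotoneOn (Q : ℕ) : ∃ x0 : ℝ, MonotoneOn (bQ Q) (Ici x0) := by
  refine ⟨Real.exp (max 1 (Real.exp^[2 * (Q - 1)] 0)), fun S hS T _ hST => ?_⟩
  have hS' : Real.exp (max 1 (Real.exp^[2 * (Q - 1)] 0)) ≤ S := hS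
  have hS0 : 0 < S := lt_of_lt_of_le (Real.exp_pos _) hS'
  have h1 : max 1 (Real.exp^[2 * (Q - 1)] 0) ≤ Real.log S := (Real.le_log_iff_exp_le hS0).2 hS'
  have h2 : 1 ≤ Real.log S := le_trans (le_max_left _ _) h1
  have h3 : Real.exp^[2 * (Q - 1)] 0 ≤ Real.log S := le_trans (le_max_right _ _) h1
  have h4 : Real.log S ≤ Real.log T := Real.log_le_log hS0 hST
  have h5 : Real.log S ≤ Real.log S ^ 3 := by
    have := pow_le_pow_right₀ h2 (show 1 ≤ 3 by norm_num)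
    simpa using this
  have h6 : Real.log S ^ 3 ≤ Real.log T ^ 3 := pow_le_pow_left₀ (by linarith) h4 3
  have h7 := rt_L_mono (2 * (Q - 1)) (le_trans h3 h5) h6
  have h8 := (rt_E_L (2 * (Q - 1)) (le_trans h3 h5)).1
  unfold bQ FQinv
  have h9 : Real.log S ^ 201 ≤ Real.log T ^ 201 := pow_le_pow_left₀ (by linarith) h4 201
  have h10 : Real.exp^[2 * (Q - 1)] (Real.log^[2 * (Q - 1)] (Real.log S ^ 3) ^ 2) ≤
      Real.exp^[2 * (Q - 1)] (Real.log^[2 * (Q - 1)] (Real.log T ^ 3) ^ 2) :=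
    rt_E_mono _ (pow_le_pow_left₀ h8 h7 2)
  linarith

theorem bQ_ge (Q : ℕ) : ∃ x0 : ℝ, ∀ x, x0 ≤ x → 1 + Real.log x ^ 201 ≤ bQ Q x := by
  refine ⟨0, fun x _ => ?_⟩
  unfold bQ
  have := rt_FQinv_nonneg (Q - 1) (Real.log x ^ 3)
  linarith

theorem rt_ev_sq_le_exp (c : ℝ) : ∀ᶠ u : ℝ in atTop, c * u ^ 2 ≤ Real.exp u := by
  have := (Real.tendsto_pow_mul_exp_neg_atTop_nhds_zero 2).const_mul c
  rw [mul_zero] at this
  filter_upwards [this.eventually (ge_mem_nhds (show (0 : ℝ) < 1 by norm_num))] with u hu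
  rw [Real.exp_neg, ← mul_assoc, ← div_eq_mul_inv, div_le_one (Real.exp_pos _)] at hu
  exact hu

theorem rt_FQ_eq (q : ℕ) (T : ℝ) :
    FQ (q + 1) T = Real.exp^[2 * q + 1 + 1] (Real.sqrt (Real.log^[2 * q + 1 + 1] T)) := by
  unfold FQ
  rw [show 2 * (q + 1) = 2 * q + 1 + 1 by ring]

theorem rt_bQ_eq (q : ℕ) (T : ℝ) :
    bQ (q + 1) T = 1 + Real.log T ^ 201 +
      4 * Real.exp^[2 * q] ((Real.log^[2 * q] (Real.log T ^ 3)) ^ 2) := by
  unfold bQ FQinv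
  simp only [Nat.add_sub_cancel]

theorem rt_one_le_E (i : ℕ) {w : ℝ} (hw : 0 ≤ w) : 1 ≤ Real.exp^[i + 1] w := by
  rw [rt_E_succ]
  exact Real.one_le_exp (le_trans hw (rt_E_ge i w))

/-- the size of `b_Q` in the variable `w`. -/
theorem rt_bQ_le (q : ℕ) : ∃ w0 : ℝ, 0 ≤ w0 ∧ ∀ w, w0 ≤ w →
    bQ (q + 1) (Real.exp^[2 * q + 1 + 1] w) ≤ Real.exp^[2 * q + 1] (406 * w) := by
  obtain ⟨w1, hw1, h1⟩ := rt_D2 (2 * q) 201
  obtain ⟨w2, hw2, h2⟩ := rt_D2 (2 * q) 3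
  obtain ⟨w3, hw3, h3⟩ := rt_D1 (2 * q) 6
  refine ⟨max w1 (max w2 w3), le_max_of_le_left hw1, fun w hw => ?_⟩
  have a1 : w1 ≤ w := le_trans (le_max_left _ _) hw
  have a2 : w2 ≤ w := le_trans (le_trans (le_max_left _ _) (le_max_right _ _)) hw
  have a3 : w3 ≤ w := le_trans (le_trans (le_max_right _ _) (le_max_right _ _)) hw
  have hw0 : 0 ≤ w := le_trans hw1 a1
  rw [rt_bQ_eq, rt_E_succ (2 * q + 1), Real.log_exp]
  have b1 := h1 w a1
  have b2 := h2 w a2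
  have hy1 : 1 ≤ Real.exp^[2 * q + 1] w := rt_one_le_E _ hw0
  generalize hy : Real.exp^[2 * q + 1] w = y at b1 b2 hy1 ⊢
  have hy3 : y ≤ y ^ 3 := by
    have := pow_le_pow_right₀ hy1 (show 1 ≤ 3 by norm_num)
    simpa using this
  have hyE : Real.exp^[2 * q] 0 ≤ y := by
    rw [← hy, rt_E_succ']
    exact rt_E_mono _ (Real.exp_pos _).le
  have c1 := (rt_E_L (2 * q) (le_trans hyE hy3)).1
  have c2 : Real.log^[2 * q] (y ^ 3) ≤ Real.exp (((3 : ℕ) + 2 : ℝ) * w) := by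
    have := rt_L_mono (2 * q) (le_trans hyE hy3) b2
    rwa [rt_E_succ', rt_L_E] at this
  have c3 : Real.log^[2 * q] (y ^ 3) ^ 2 ≤ Real.exp (10 * w) := by
    have := pow_le_pow_left₀ c1 c2 2
    refine le_trans this (le_of_eq ?_)
    rw [← Real.exp_nat_mul]
    congr 1
    push_cast
    ring
  have c4 : Real.exp^[2 * q] (Real.log^[2 * q] (y ^ 3) ^ 2) ≤ Real.exp^[2 * q + 1] (10 * w) := by
    rw [rt_E_succ']
    exact rt_E_mono _ c3
  have c5 : Real.exp^[2 * q + 1] (10 * w) ≤ Real.exp^[2 * q + 1] (203 * w) :=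
    rt_E_mono _ (by linarith)
  have c6 : (1 : ℝ) ≤ Real.exp^[2 * q + 1] (203 * w) := rt_one_le_E _ (by linarith)
  have c7 := h3 (203 * w) (by linarith)
  have c8 : y ^ 201 ≤ Real.exp^[2 * q + 1] (203 * w) := by
    refine le_trans b1 (le_of_eq ?_)
    norm_num
  have c9 : 2 * (203 * w) = 406 * w := by ring
  rw [c9] at c7
  linarith

theorem rt_bQ_nonneg (Q : ℕ) {x : ℝ} (hx : 1 ≤ x) : 1 ≤ bQ Q x := by
  unfold bQ
  have := rt_FQinv_nonneg (Q - 1) (Real.log x ^ 3)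
  have := pow_nonneg (Real.log_nonneg hx) 201
  linarith

/-- `b_Q(T) = o(F_Q(T))`. -/
theorem bQ_div_FQ (Q : ℕ) (hQ : 1 ≤ Q) : Tendsto (fun T => bQ Q T / FQ Q T) atTop (𝓝 0) := by
  obtain ⟨q, rfl⟩ : ∃ q, Q = q + 1 := ⟨Q - 1, by omega⟩
  obtain ⟨w0, _, h⟩ := rt_bQ_le q
  have hL := rt_L_tendsto (2 * q + 1 + 1)
  have hs : Tendsto (fun T => Real.sqrt (Real.log^[2 * q + 1 + 1] T)) atTop atTop :=
    Real.tendsto_sqrt_atTop.comp hL
  have ha : Tendsto (fun T => 406 * Real.log^[2 * q + 1 + 1] T) atTop atTop :=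
    hL.const_mul_atTop (by norm_num)
  have hab : ∀ᶠ T in atTop,
      4 * (406 * Real.log^[2 * q + 1 + 1] T) ≤ Real.exp (Real.sqrt (Real.log^[2 * q + 1 + 1] T)) := by
    filter_upwards [hs.eventually (rt_ev_sq_le_exp (4 * 406)), hL.eventually_ge_atTop 0] with T h2 h3
    rw [Real.sq_sqrt h3] at h2
    linarith
  have hr := rt_ratio (2 * q) _ _ ha hab
  refine squeeze_zero' ?_ ?_ hr
  · filter_upwards [eventually_ge_atTop 1] with T hT
    refine div_nonneg (le_trans zero_le_one (rt_bQ_nonneg _ hT)) ?_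
    rw [rt_FQ_eq]
    exact (rt_E_pos _ _).le
  · filter_upwards [rt_ev_E_L (2 * q + 1 + 1), hL.eventually_ge_atTop w0] with T h1 h2
    rw [rt_FQ_eq, rt_E_succ' (2 * q + 1)]
    refine div_le_div_of_nonneg_right ?_ (rt_E_pos _ _).le
    have := h _ h2
    rwa [h1] at this

/-- `b_Q(x) = o(x)`. -/
theorem bQ_div_id (Q : ℕ) (hQ : 1 ≤ Q) : Tendsto (fun x => bQ Q x / x) atTop (𝓝 0) := by
  obtain ⟨q, rfl⟩ : ∃ q, Q = q + 1 := ⟨Q - 1, by omega⟩
  obtain ⟨w0, _, h⟩ := rt_bQ_le q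
  have hL := rt_L_tendsto (2 * q + 1 + 1)
  have ha : Tendsto (fun T => 406 * Real.log^[2 * q + 1 + 1] T) atTop atTop :=
    hL.const_mul_atTop (by norm_num)
  have hab : ∀ᶠ T in atTop,
      4 * (406 * Real.log^[2 * q + 1 + 1] T) ≤ Real.exp (Real.log^[2 * q + 1 + 1] T) := by
    filter_upwards [hL.eventually (rt_ev_sq_le_exp (4 * 406)), hL.eventually_ge_atTop 1] with T h2 h3
    nlinarith
  have hr := rt_ratio (2 * q) _ _ ha hab
  refine squeeze_zero' ?_ ?_ hr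
  · filter_upwards [eventually_ge_atTop 1] with T hT
    exact div_nonneg (le_trans zero_le_one (rt_bQ_nonneg _ hT)) (by linarith)
  · filter_upwards [rt_ev_E_L (2 * q + 1 + 1), hL.eventually_ge_atTop w0] with T h1 h2
    have e : Real.exp^[2 * q + 1] (Real.exp (Real.log^[2 * q + 1 + 1] T)) = T := by
      rw [← rt_E_succ', h1]
    rw [e]
    have hT : 0 < T := by
      rw [← h1]
      exact rt_E_pos _ _
    refine div_le_div_of_nonneg_right ?_ hT.le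
    have := h _ h2
    rwa [h1] at this

/-- one step of the band recursion in the variable `v`. -/
theorem rt_band_step (q : ℕ) (Cb ε0 : ℝ) (hε : 0 < ε0) : ∃ S0 : ℝ, 0 ≤ S0 ∧ ∀ v, S0 ≤ v →
    2 * Real.exp^[2 * q + 1 + 1] v < Real.exp^[2 * q + 1 + 1] (1624 * v) ∧
      Cb * (1 + bQ (q + 1) (2 * Real.exp^[2 * q + 1 + 1] v)) ≤
        ε0 * Real.log (Real.exp^[2 * q + 1 + 1] (1624 * v)) := by
  obtain ⟨u1, hu1, d2⟩ := rt_D1 (2 * q + 1) 2
  obtain ⟨u2, hu2, d3⟩ := rt_D1 (2 * q + 1) 3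
  obtain ⟨u4, hu4, dC⟩ := rt_D1 (2 * q) (2 * |Cb| / ε0)
  obtain ⟨u7, hu7, hb⟩ := rt_bQ_le q
  obtain ⟨x0, hmono⟩ := bQ_monotoneOn (q + 1)
  refine ⟨u1 + u2 + u4 + u7 + |x0| + 1, by positivity, fun v hv => ?_⟩
  have hx0 := abs_nonneg x0
  have hv0 : 1 ≤ v := by linarith
  have hEv : v ≤ Real.exp^[2 * q + 1 + 1] v := rt_E_ge _ _
  have hEpos : 0 < Real.exp^[2 * q + 1 + 1] v := rt_E_pos _ _
  constructor
  · have h1 := d3 v (by linarith)
    have h2 : Real.exp^[2 * q + 1 + 1] (2 * v) ≤ Real.exp^[2 * q + 1 + 1] (1624 * v) :=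
      rt_E_mono _ (by linarith)
    linarith
  · rw [rt_E_succ (2 * q + 1) (1624 * v), Real.log_exp]
    have h1 := d2 v (by linarith)
    have h2 : bQ (q + 1) (2 * Real.exp^[2 * q + 1 + 1] v) ≤ bQ (q + 1) (Real.exp^[2 * q + 1 + 1] (2 * v)) := by
      refine hmono ?_ ?_ h1
      · have := le_abs_self x0
        show x0 ≤ _
        linarith
      · have := le_abs_self x0
        show x0 ≤ _
        linarith
    have h3 := hb (2 * v) (by linarith)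
    have h4 : 1 ≤ bQ (q + 1) (2 * Real.exp^[2 * q + 1 + 1] v) := rt_bQ_nonneg _ (by linarith)
    have h5 := dC (406 * (2 * v)) (by linarith)
    have h6 : (1 : ℝ) ≤ Real.exp^[2 * q + 1] (406 * (2 * v)) := rt_one_le_E _ (by linarith)
    have h7 : 2 * (406 * (2 * v)) = 1624 * v := by ring
    rw [h7] at h5
    generalize Real.exp^[2 * q + 1] (406 * (2 * v)) = z at h3 h5 h6
    generalize Real.exp^[2 * q + 1] (1624 * v) = z' at h5 ⊢
    generalize bQ (q + 1) (2 * Real.exp^[2 * q + 1 + 1] v) = β at h2 h4 ⊢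
    generalize bQ (q + 1) (Real.exp^[2 * q + 1 + 1] (2 * v)) = β' at h2 h3
    have h8 : 2 * |Cb| * z ≤ ε0 * z' := by
      have := mul_le_mul_of_nonneg_left h5 hε.le
      have e : ε0 * (2 * |Cb| / ε0 * z) = 2 * |Cb| * z := by
        field_simp
      rwa [e] at this
    have h9 : Cb * (1 + β) ≤ |Cb| * (1 + β) :=
      mul_le_mul_of_nonneg_right (le_abs_self _) (by linarith)
    have h10 : |Cb| * (1 + β) ≤ |Cb| * (2 * z) :=
      mul_le_mul_of_nonneg_left (by linarith) (abs_nonneg _)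
    linarith

/-- **AE (5.19), choice of the bands.**  `Bd 0 = a0 = F_Q(T)²`; the bands are `[Bd i, 2 Bd i]`,
`1 ≤ i ≤ Q`. -/
theorem bands (Q : ℕ) (hQ : 1 ≤ Q) (Cb ε0 : ℝ) (hε : 0 < ε0) :
    ∃ T0 : ℝ, ∀ T : ℝ, T0 ≤ T → ∃ Bd : ℕ → ℝ, Bd 0 = FQ Q T ^ 2 ∧
      (∀ i, i < Q → 2 * Bd i < Bd (i + 1) ∧
        Cb * (1 + bQ Q (2 * Bd i)) ≤ ε0 * Real.log (Bd (i + 1))) ∧
      FQ Q T ^ 30 ≤ Bd 1 ∧ 2 * Bd Q < T / 2 := by
  obtain ⟨q, rfl⟩ : ∃ q, Q = q + 1 := ⟨Q - 1, by omega⟩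
  obtain ⟨S1, hS1, step⟩ := rt_band_step q Cb ε0 hε
  obtain ⟨u3, hu3, d5⟩ := rt_D1 (2 * q + 1) 5
  obtain ⟨u5, hu5, p2⟩ := rt_D2 (2 * q + 1) 2
  obtain ⟨u6, hu6, p30⟩ := rt_D2 (2 * q + 1) 30
  have hM : (0 : ℝ) ≤ 8 * 1624 ^ (q + 1) := by positivity
  refine ⟨Real.exp^[2 * q + 1 + 1] ((S1 + u3 + u5 + u6 + 1 + 8 * 1624 ^ (q + 1)) ^ 2), fun T hT => ?_⟩
  obtain ⟨hw, hTw⟩ := rt_E_L _ hT
  have hF := rt_FQ_eq q T
  generalize Real.log^[2 * q + 1 + 1] T = w at hw hTw hF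
  have hs : S1 + u3 + u5 + u6 + 1 + 8 * 1624 ^ (q + 1) ≤ Real.sqrt w :=
    le_trans (le_abs_self _) (Real.abs_le_sqrt hw)
  have hw0 : 0 ≤ w := le_trans (sq_nonneg _) hw
  have hss : Real.sqrt w * Real.sqrt w = w := Real.mul_self_sqrt hw0
  generalize Real.sqrt w = s at hs hss hF
  have hF1 : 1 ≤ FQ (q + 1) T := by
    rw [hF]
    exact rt_one_le_E _ (by linarith)
  have hF2 : Real.exp^[2 * q + 1 + 1] s ≤ FQ (q + 1) T ^ 2 := by
    rw [← hF]
    nlinarith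
  obtain ⟨hw0s, hEw0⟩ := rt_E_L _ hF2
  have hw04 : Real.log^[2 * q + 1 + 1] (FQ (q + 1) T ^ 2) ≤ 4 * s := by
    rw [← (rt_E_strictMono (2 * q + 1 + 1)).le_iff_le, hEw0, hF]
    refine le_trans (p2 s (by linarith)) (le_of_eq ?_)
    norm_num
  generalize Real.log^[2 * q + 1 + 1] (FQ (q + 1) T ^ 2) = w0 at hw0s hEw0 hw04
  have hv : ∀ i : ℕ, s ≤ 1624 ^ i * w0 := by
    intro i
    have h1 : (1 : ℝ) ≤ 1624 ^ i := one_le_pow₀ (by norm_num)
    have h2 : 0 ≤ w0 := by linarith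
    nlinarith
  refine ⟨fun i => Real.exp^[2 * q + 1 + 1] (1624 ^ i * w0), ?_, ?_, ?_, ?_⟩
  · simp only [pow_zero, one_mul]
    exact hEw0
  · intro i _
    have := step (1624 ^ i * w0) (by have := hv i; linarith)
    have e : (1624 : ℝ) ^ (i + 1) * w0 = 1624 * (1624 ^ i * w0) := by ring
    simp only [e]
    exact this
  · simp only [pow_one]
    rw [hF]
    refine le_trans (p30 s (by linarith)) (rt_E_mono _ ?_)
    norm_num
    linarith
  · simp only []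
    have h1 := d5 (1624 ^ (q + 1) * w0) (by have := hv (q + 1); linarith)
    have h2 : Real.exp^[2 * q + 1 + 1] (2 * (1624 ^ (q + 1) * w0)) ≤ T := by
      rw [← hTw]
      refine rt_E_mono _ ?_
      have h3 : (0 : ℝ) ≤ 1624 ^ (q + 1) := by positivity
      have h4 : 2 * (1624 ^ (q + 1) * w0) ≤ (8 * 1624 ^ (q + 1)) * s := by nlinarith
      have h5 : (8 * 1624 ^ (q + 1)) * s ≤ s * s :=
        mul_le_mul_of_nonneg_right (by linarith) (by linarith)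
      linarith
    have h6 : 0 < Real.exp^[2 * q + 1 + 1] (1624 ^ (q + 1) * w0) := rt_E_pos _ _
    linarith

/-- the rate `exp(-F_Q(T - c))` beats every power of `T`. -/
theorem rt_FQ_rate (Q : ℕ) (c : ℝ) (a : ℕ) :
    Tendsto (fun T : ℝ => T ^ a * Real.exp (-(FQ Q (T - c)))) atTop (𝓝 0) := by
  have hS : Tendsto (fun T : ℝ => T - c) atTop atTop := tendsto_atTop_add_const_right _ (-c) tendsto_id
  have h1 : ∀ᶠ S : ℝ in atTop, Real.log S ^ 2 ≤ FQ Q S := by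
    filter_upwards [(log_pow_div_FQ Q 2).eventually (ge_mem_nhds (show (0 : ℝ) < 1 by norm_num)),
      (FQ_tendsto Q).eventually_gt_atTop 0] with S h2 h3
    rwa [div_le_one h3] at h2
  have h4 : Tendsto (fun T : ℝ => (T - c)⁻¹) atTop (𝓝 0) := tendsto_inv_atTop_zero.comp hS
  have hlog : Tendsto (fun T : ℝ => Real.log (T - c)) atTop atTop := Real.tendsto_log_atTop.comp hS
  refine squeeze_zero' ?_ ?_ h4
  · filter_upwards [eventually_ge_atTop 0] with T hT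
    exact mul_nonneg (pow_nonneg hT _) (Real.exp_pos _).le
  · filter_upwards [hS.eventually h1, eventually_ge_atTop (2 * c), eventually_gt_atTop 0,
      hS.eventually_gt_atTop 0,
      hlog.eventually_ge_atTop ((a : ℝ) + 1 + (a : ℝ) * Real.log 2 + 1)] with T b1 b2 b3 b4 b5
    have hT2 : T ≤ 2 * (T - c) := by linarith
    have e1 : T ^ a ≤ Real.exp ((a : ℝ) * (Real.log 2 + Real.log (T - c))) := by
      rw [← Real.log_mul (by norm_num) b4.ne', Real.exp_nat_mul, Real.exp_log (by linarith)]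
      exact pow_le_pow_left₀ b3.le hT2 a
    have e2 : Real.exp (-(FQ Q (T - c))) ≤ Real.exp (-(Real.log (T - c) ^ 2)) :=
      Real.exp_le_exp.2 (by linarith)
    have e3 : (T - c)⁻¹ = Real.exp (-(Real.log (T - c))) := by
      rw [Real.exp_neg, Real.exp_log b4]
    rw [e3]
    calc T ^ a * Real.exp (-(FQ Q (T - c)))
        ≤ Real.exp ((a : ℝ) * (Real.log 2 + Real.log (T - c))) * Real.exp (-(Real.log (T - c) ^ 2)) :=
          mul_le_mul e1 e2 (Real.exp_pos _).le (Real.exp_pos _).le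
      _ = Real.exp ((a : ℝ) * (Real.log 2 + Real.log (T - c)) + -(Real.log (T - c) ^ 2)) :=
          (Real.exp_add _ _).symm
      _ ≤ _ := by
          refine Real.exp_le_exp.2 ?_
          generalize Real.log (T - c) = u at b5
          have ha : (0 : ℝ) ≤ a := Nat.cast_nonneg _
          have hl : 0 ≤ Real.log 2 := Real.log_nonneg (by norm_num)
          have hal : 0 ≤ (a : ℝ) * Real.log 2 := mul_nonneg ha hl
          have hu1 : 1 ≤ u := by linarith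
          nlinarith

end Claimed.Agent.R322.Sx
end

/- ===== packed: Claimed.Agent.R322.Sx.Sep.Rate ===== -/
section
/-!
# R322 / Sx / Sep / Rate : the function `b_Q`, AE (4.11) (leaf `L-Sep-Rate`; real analysis only)

`FQ q T = exp_{2q} (√(log_{2q} T))`, `FQinv q u = exp_{2q} ((log_{2q} u)²)`,
`bQ Q T = 1 + (log T)^201 + 4 FQinv (Q-1) ((log T)^3)`.  The toolbox is `Sx/Rates.lean` (`rt_*`, sorry-free).

Only `rate_lower` is open.  Plan:
* `FQ q (FQinv q u) = u` for `u ≥ exp_{2q} 0` (`rt_L_E`, `rt_E_L`, `Real.sqrt_sq`);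
* `FQ q` is monotone on `[exp_{2q} 0, ∞)` (`FQ_monotoneOn`, look at its proof for the explicit half line);
* `FQinv q u ≤ FQinv (q+1) u` eventually: with `x = log_{2q} u` the claim is `x² ≤ exp exp ((log log x)²)`,
  i.e. `log 2 + z ≤ z²` for `z = log log x`; hence `FQinv q u ≤ FQinv (Q-1) u` for `q ≤ Q - 1`, `u ≥ u0(Q)`;
* `T' ≥ b/2 ≥ 2 FQinv (Q-1) ℓ³ ≥ FQinv q ℓ³ ≥ ℓ³ ≥ exp_{2q} 0` (`rt_E_ge`-type bound `u ≤ FQinv q u` for large `u`).
-/

set_option autoImplicit false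

namespace Claimed.Agent.R322.Sx.Sep

open Filter Topology

/-- AE (4.11), first part. -/
theorem b_ge (Q : ℕ) (T : ℝ) : 1 + Real.log T ^ 201 ≤ bQ Q T := by
  unfold bQ
  have := rt_FQinv_nonneg (Q - 1) (Real.log T ^ 3)
  linarith

/-- AE (4.11), second part (`b = T^{o(1)}`; only `b ≤ T/100` is used). -/
theorem b_le (Q : ℕ) (hQ : 2 ≤ Q) : ∃ T0 : ℝ, ∀ T : ℝ, T0 ≤ T → bQ Q T ≤ T / 100 := by
  have h := bQ_div_id Q (by omega)
  have h1 := (h.eventually (ge_mem_nhds (show (0 : ℝ) < 1 / 100 by norm_num))).and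
    (eventually_gt_atTop (0 : ℝ))
  obtain ⟨T0, hT0⟩ := eventually_atTop.1 h1
  refine ⟨T0, fun T hT => ?_⟩
  obtain ⟨h2, h3⟩ := hT0 T hT
  rw [div_le_iff₀ h3] at h2
  linarith

/-- iterated exponentials increase with the number of iterations. -/
theorem rl_E_le {k k' : ℕ} (h : k ≤ k') (w : ℝ) : Real.exp^[k] w ≤ Real.exp^[k'] w := by
  obtain ⟨d, rfl⟩ := Nat.exists_eq_add_of_le h
  rw [Nat.add_comm, Function.iterate_add_apply]
  exact rt_E_ge d _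

/-- `F_q^{-1}(u) ≤ F_{q+1}^{-1}(u)` for `u ≥ exp_{2q+2}(2)`. -/
theorem rl_FQinv_succ (q : ℕ) {u : ℝ} (hu : Real.exp^[2 * q + 2] 2 ≤ u) :
    FQinv q u ≤ FQinv (q + 1) u := by
  obtain ⟨hz, hE⟩ := rt_E_L (2 * q + 2) hu
  obtain ⟨z, hzdef⟩ : ∃ z, z = Real.log^[2 * q + 2] u := ⟨_, rfl⟩
  rw [← hzdef] at hz hE
  have hx : Real.log^[2 * q] u = Real.exp (Real.exp z) := by
    rw [← hE, Function.iterate_add_apply, rt_L_E]
    rfl
  unfold FQinv
  rw [hx, show 2 * (q + 1) = 2 * q + 2 from rfl, ← hzdef, Function.iterate_add_apply]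
  refine rt_E_mono _ ?_
  show Real.exp (Real.exp z) ^ 2 ≤ Real.exp (Real.exp (z ^ 2))
  rw [← Real.exp_nat_mul]
  refine Real.exp_le_exp.2 ?_
  have h1 : (2 : ℝ) ≤ Real.exp 1 := by
    have := Real.add_one_le_exp (1 : ℝ)
    linarith
  calc ((2 : ℕ) : ℝ) * Real.exp z ≤ Real.exp 1 * Real.exp z :=
        mul_le_mul_of_nonneg_right (by exact_mod_cast h1) (Real.exp_pos _).le
    _ = Real.exp (1 + z) := (Real.exp_add _ _).symm
    _ ≤ Real.exp (z ^ 2) := Real.exp_le_exp.2 (by nlinarith)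

/-- `F_q^{-1}(u) ≤ F_{q'}^{-1}(u)` for `q ≤ q'`, `u ≥ exp_{2q'}(2)`. -/
theorem rl_FQinv_le {q q' : ℕ} (h : q ≤ q') {u : ℝ} (hu : Real.exp^[2 * q'] 2 ≤ u) :
    FQinv q u ≤ FQinv q' u := by
  induction q', h using Nat.le_induction with
  | base => exact le_rfl
  | succ r hr ih =>
    have h1 : Real.exp^[2 * r] 2 ≤ u := (rl_E_le (by omega) 2).trans hu
    exact (ih h1).trans (rl_FQinv_succ r hu)

/-- `F_q (F_q^{-1}(u)) = u` for `u ≥ exp_{2q}(0)`. -/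
theorem rl_FQ_FQinv (q : ℕ) {u : ℝ} (hu : Real.exp^[2 * q] 0 ≤ u) : FQ q (FQinv q u) = u := by
  obtain ⟨hx, hE⟩ := rt_E_L (2 * q) hu
  unfold FQ FQinv
  rw [rt_L_E, Real.sqrt_sq hx, hE]

/-- `F_q` is monotone on `[exp_{2q}(0), ∞)`. -/
theorem rl_FQ_mono (q : ℕ) {S T : ℝ} (hS : Real.exp^[2 * q] 0 ≤ S) (hST : S ≤ T) :
    FQ q S ≤ FQ q T :=
  rt_E_mono _ (Real.sqrt_le_sqrt (rt_L_mono (2 * q) hS hST))

/-- AE (4.11), third part, for all lower counts at once: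
`F_q(T') ≥ (log T)^3` for `1 ≤ q < Q` and `T' ≥ b_Q(T)/2`. -/
theorem rate_lower (Q : ℕ) (hQ : 2 ≤ Q) : ∃ T0 : ℝ, ∀ T : ℝ, T0 ≤ T → ∀ q : ℕ, 1 ≤ q → q < Q →
    ∀ T' : ℝ, bQ Q T / 2 ≤ T' → Real.log T ^ 3 ≤ FQ q T' := by
  refine ⟨Real.exp (max 1 (Real.exp^[2 * Q] 2)), fun T hT q _ hq T' hT' => ?_⟩
  have hT0 : 0 < T := lt_of_lt_of_le (Real.exp_pos _) hT
  have hl : max 1 (Real.exp^[2 * Q] 2) ≤ Real.log T := (Real.le_log_iff_exp_le hT0).2 hT
  have hl1 : 1 ≤ Real.log T := (le_max_left _ _).trans hl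
  have hlU : Real.exp^[2 * Q] 2 ≤ Real.log T := (le_max_right _ _).trans hl
  have hu : Real.exp^[2 * Q] 2 ≤ Real.log T ^ 3 := by
    refine hlU.trans ?_
    calc Real.log T = Real.log T ^ 1 := (pow_one _).symm
      _ ≤ Real.log T ^ 3 := pow_le_pow_right₀ hl1 (by norm_num)
  have hu1 : Real.exp^[2 * (Q - 1)] 2 ≤ Real.log T ^ 3 := (rl_E_le (by omega) 2).trans hu
  have hu0 : Real.exp^[2 * q] 0 ≤ Real.log T ^ 3 :=
    ((rt_E_mono _ (by norm_num : (0 : ℝ) ≤ 2)).trans (rl_E_le (by omega) 2)).trans hu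
  have h1 : FQinv q (Real.log T ^ 3) ≤ FQinv (Q - 1) (Real.log T ^ 3) := rl_FQinv_le (by omega) hu1
  have h2 : FQinv (Q - 1) (Real.log T ^ 3) ≤ bQ Q T / 2 := by
    unfold bQ
    have h3 := rt_FQinv_nonneg (Q - 1) (Real.log T ^ 3)
    have h4 : 0 ≤ Real.log T ^ 201 := pow_nonneg (by linarith) _
    linarith
  have h5 : Real.exp^[2 * q] 0 ≤ FQinv q (Real.log T ^ 3) := rt_E_mono _ (sq_nonneg _)
  calc Real.log T ^ 3 = FQ q (FQinv q (Real.log T ^ 3)) := (rl_FQ_FQinv q hu0).symm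
    _ ≤ FQ q T' := rl_FQ_mono q h5 ((h1.trans h2).trans hT')

end Claimed.Agent.R322.Sx.Sep
end

/- ===== packed: Claimed.Agent.R322.Sx.Sep.Num ===== -/
section
/-!
# R322 / Sx / Sep / Num : parameter arithmetic of AE (4.13)-(4.16) (leaves `L-Sep-NumA`, `L-Sep-NumB`)

Real analysis only.  `ℓ = log T`, `d = e^{-T}`, `b = b_Q(T)`, `ℓ^201 ≤ b ≤ T/100`, `ε = ℓ^60/T`,
`r_b = √d e^{3b}`, `n0 = ⌈10 N ℓ⌉`, `E_j(t) = T^{J0 (j+1)} d t^{-2-ε}`, `mot = e^b √d`.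

Part A: algebra of the envelopes (`Real.rpow` calculus, valid for every `T ≥ 1`).
Part B: `exists_big`: all "for `T` large" facts, bundled in the structure `Big p Q Cpow T`
(`Cpow` = an arbitrary fixed exponent/constant to be absorbed).  Take logarithms:
* AE (4.15): for `t ≥ r_b/T⁴`, `j ≤ 2 n0 + 4`:
  `log E_j(t) ≤ J0 (2 n0 + 5) ℓ - T + (2 + ε)(T/2 - 3 b + 4 ℓ) ≤ - 6 b + ℓ^60/2 + O(ℓ²) ≤ - 2 b - Cpow ℓ`;
* AE (4.16): `t √(E_j(t)) = √d T^{J0 (j+1)/2} t^{-ε/2}`, and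
  `J0 (j+1) ℓ/2 + (ε/2)(T/2 + 4 ℓ) = O(ℓ²) + ℓ^60/4 + … ≤ b - Cpow ℓ`.
-/

set_option autoImplicit false

namespace Claimed.Agent.R322.Sx.Sep

open Filter Topology

variable {p : Prm} {Q : ℕ}

/-! ## Part A -/

theorem dT_pos (T : ℝ) : 0 < dT T := Real.exp_pos _

theorem eta_pos {T : ℝ} (hT : 0 < T) : 0 < eta p T := Real.rpow_pos_of_pos hT _

theorem eps_nonneg {T : ℝ} (hT : 1 ≤ T) : 0 ≤ eps T := by
  exact div_nonneg (pow_nonneg (Real.log_nonneg hT) _) (by linarith)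

theorem rb_pos (Q : ℕ) (T : ℝ) : 0 < rb Q T := by
  exact mul_pos (Real.sqrt_pos.2 (dT_pos T)) (Real.exp_pos _)

theorem mot_pos (Q : ℕ) (T : ℝ) : 0 < mot Q T := by
  exact mul_pos (Real.exp_pos _) (Real.sqrt_pos.2 (dT_pos T))

theorem far_pos (p : Prm) (Q : ℕ) (T : ℝ) : 0 < far p Q T := by
  exact mul_pos (Real.exp_pos _) (Real.sqrt_pos.2 (Real.exp_pos _))

theorem Env_pos {T t : ℝ} (hT : 0 < T) (ht : 0 < t) (j : ℕ) : 0 < Env p T j t := by
  exact mul_pos (mul_pos (Real.rpow_pos_of_pos hT _) (dT_pos T)) (Real.rpow_pos_of_pos ht _)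

/-- `E_{j+1} = T^{J0} E_j`. -/
theorem Env_succ {T : ℝ} (hT : 0 < T) (j : ℕ) (t : ℝ) :
    Env p T (j + 1) t = T ^ p.J0 * Env p T j t := by
  unfold Env
  have e : (p.J0 : ℝ) * (((j + 1 : ℕ) : ℝ) + 1) = (p.J0 : ℝ) + (p.J0 : ℝ) * ((j : ℝ) + 1) := by
    push_cast
    ring
  rw [e, Real.rpow_add hT, Real.rpow_natCast]
  ring

theorem Env_anti {T t t' : ℝ} (hT : 1 ≤ T) (ht : 0 < t) (htt : t ≤ t') (j : ℕ) :
    Env p T j t' ≤ Env p T j t := by
  unfold Env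
  have h1 : t' ^ (-(2 + eps T)) ≤ t ^ (-(2 + eps T)) :=
    Real.rpow_le_rpow_of_nonpos ht htt (by linarith [eps_nonneg hT])
  exact mul_le_mul_of_nonneg_left h1
    (mul_pos (Real.rpow_pos_of_pos (by linarith) _) (dT_pos T)).le

theorem Env_mono {T t : ℝ} (hT : 1 ≤ T) (ht : 0 < t) {j j' : ℕ} (hj : j ≤ j') :
    Env p T j t ≤ Env p T j' t := by
  unfold Env
  have h0 : (j : ℝ) ≤ (j' : ℝ) := by exact_mod_cast hj
  have h1 : T ^ ((p.J0 : ℝ) * ((j : ℝ) + 1)) ≤ T ^ ((p.J0 : ℝ) * ((j' : ℝ) + 1)) :=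
    Real.rpow_le_rpow_of_exponent_le hT
      (mul_le_mul_of_nonneg_left (by linarith) (Nat.cast_nonneg _))
  exact mul_le_mul_of_nonneg_right (mul_le_mul_of_nonneg_right h1 (dT_pos T).le)
    (Real.rpow_pos_of_pos ht _).le

/-- `E_j(a t) = a^{-2-ε} E_j(t)`. -/
theorem Env_scale {T t a : ℝ} (ht : 0 < t) (ha : 0 < a) (j : ℕ) :
    Env p T j (a * t) = a ^ (-(2 + eps T)) * Env p T j t := by
  unfold Env
  rw [Real.mul_rpow ha.le ht.le]
  ring

/-- `t² E_j(t) = T^{J0 (j+1)} d t^{-ε}`. -/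
theorem sq_mul_Env {T t : ℝ} (ht : 0 < t) (j : ℕ) :
    t ^ 2 * Env p T j t = T ^ ((p.J0 : ℝ) * ((j : ℝ) + 1)) * dT T * t ^ (-eps T) := by
  unfold Env
  have e : t ^ 2 * t ^ (-(2 + eps T)) = t ^ (-eps T) := by
    rw [← Real.rpow_natCast t 2, ← Real.rpow_add ht]
    congr 1
    push_cast
    ring
  calc t ^ 2 * (T ^ ((p.J0 : ℝ) * ((j : ℝ) + 1)) * dT T * t ^ (-(2 + eps T)))
      = T ^ ((p.J0 : ℝ) * ((j : ℝ) + 1)) * dT T * (t ^ 2 * t ^ (-(2 + eps T))) := by ring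
    _ = _ := by rw [e]

/-- the form used for dilations by a bounded or polynomial factor `a ≥ 1`:
`E_j(t) ≤ a³ E_j(a t)` (`ε ≤ 1`). -/
theorem Env_le_dilate {T t a : ℝ} (hT : 1 ≤ T) (hε : eps T ≤ 1) (ht : 0 < t) (ha : 1 ≤ a) (j : ℕ) :
    Env p T j t ≤ a ^ 3 * Env p T j (a * t) := by
  have ha0 : 0 < a := by linarith
  have hT0 : 0 < T := by linarith
  rw [Env_scale ht ha0]
  have e : a ^ 3 * a ^ (-(2 + eps T)) = a ^ (1 - eps T) := by
    rw [← Real.rpow_natCast a 3, ← Real.rpow_add ha0]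
    congr 1
    push_cast
    ring
  have h1 : 1 ≤ a ^ (1 - eps T) := Real.one_le_rpow ha (by linarith)
  have h2 := (Env_pos (p := p) hT0 ht j).le
  calc Env p T j t = 1 * Env p T j t := (one_mul _).symm
    _ ≤ a ^ (1 - eps T) * Env p T j t := mul_le_mul_of_nonneg_right h1 h2
    _ = a ^ 3 * (a ^ (-(2 + eps T)) * Env p T j t) := by rw [← e]; ring

/-! ## Part B -/

/-- everything that holds for `T` large; `Cpow` is an arbitrary constant fixed before `T`. -/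
structure Big (p : Prm) (Q : ℕ) (Cpow T : ℝ) : Prop where
  log_ge : 100 ≤ Real.log T
  log_ge' : Cpow ≤ Real.log T
  b_ge : Real.log T ^ 201 ≤ bQ Q T
  b_le : bQ Q T ≤ T / 100
  eps_le : eps T * Real.log T ≤ 1 / 100
  cT_le : cT T ≤ 1 / 2
  n0_le : (n0 p T : ℝ) + 5 ≤ Real.log T ^ 2
  rb_le : rb Q T ≤ Real.exp (-T / 4)
  rb_ge : Real.exp (-T / 2) ≤ rb Q T
  /-- AE (4.15) -/
  env_small : ∀ j : ℕ, j ≤ 2 * n0 p T + 4 → ∀ t : ℝ, rb Q T / T ^ 4 ≤ t →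
    T ^ Cpow * Env p T j t ≤ Real.exp (-2 * bQ Q T)
  /-- AE (4.16) -/
  motion : ∀ j : ℕ, j ≤ 2 * n0 p T + 4 → ∀ t : ℝ, rb Q T / T ^ 4 ≤ t →
    T ^ Cpow * (t * Real.sqrt (Env p T j t)) ≤ mot Q T
  /-- growth condition of AE Lemma 4.2 -/
  env_total : ∀ j : ℕ, j ≤ 2 * n0 p T + 4 → ∀ t : ℝ, rb Q T / T ^ 4 ≤ t →
    Env p T j t ≤ Real.exp (2 * T) * dT T
  /-- Gaussian tails beyond the radius `T s` -/
  tail_kill : Real.exp (Cpow * T) * Real.exp (-T ^ 2 / 2) ≤ T ^ (-Cpow)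
  /-- `e^{-J²/2}`, `J = log T` -/
  log_kill : T ^ Cpow * Real.exp (-Real.log T ^ 2 / 2) ≤ 1
  /-- the lower-integer rate -/
  cube_kill : T ^ Cpow * Real.exp (-Real.log T ^ 3) ≤ 1
  /-- heights over small nodes: `(n0 + 3) e^b √d + T^{Cpow} T^{10N} r_b ≤ e^{5b} √d` -/
  hgt : ((n0 p T : ℝ) + 3) * mot Q T + T ^ Cpow * smallR p Q T
    ≤ Real.exp (5 * bQ Q T) * Real.sqrt (dT T)
  /-- number of mesh scales -/
  mesh : ∀ R : ℝ, 0 < R → R ≤ 1 →
    (Kmesh p Q T R : ℝ) ≤ T ∧ 1 + Real.logb 2 (rho p T R / rb Q T) ≤ T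
  /-- the numerical hypothesis of `exists_thresholds` with `δ = ℓ^{-15}`, `θ = ℓ^{-13}`, `ε0 = T^{-3}` -/
  thr : 1 < T ^ (-(3 : ℝ)) * (1 + Real.log T ^ (-(13 : ℝ))) ^ (⌊1 / (3 * Real.log T ^ (-(15 : ℝ)))⌋₊ - 2)

/-! ### auxiliary lemmas of `L-Sep-NumB` (prefix `nb_`, `NbH`) -/

/-- the master inequality: everything polynomial in `ℓ` of degree `≤ 60` is below `b`. -/
theorem nb_master (C J N ℓ b : ℝ) (hC : 0 ≤ C) (hJ : 0 ≤ J) (hN : 0 ≤ N)
    (hℓ : C + N + J + 100 ≤ ℓ) (hb : 1 + ℓ ^ 201 ≤ b) :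
    C * ℓ + 2 * J * ℓ ^ 3 + N * ℓ + 8 * ℓ + ℓ ^ 60 + 2 ≤ b := by
  have h1 : (1 : ℝ) ≤ ℓ := by linarith
  have h0 : (0 : ℝ) ≤ ℓ := by linarith
  have p1 : ℓ ≤ ℓ ^ 60 := by
    calc ℓ = ℓ ^ 1 := (pow_one ℓ).symm
      _ ≤ ℓ ^ 60 := pow_le_pow_right₀ h1 (by norm_num)
  have p2 : ℓ ^ 2 ≤ ℓ ^ 60 := pow_le_pow_right₀ h1 (by norm_num)
  have p4 : ℓ ^ 4 ≤ ℓ ^ 60 := pow_le_pow_right₀ h1 (by norm_num)
  have p0 : (1 : ℝ) ≤ ℓ ^ 60 := one_le_pow₀ h1
  have p61 : ℓ ^ 61 ≤ ℓ ^ 201 := pow_le_pow_right₀ h1 (by norm_num)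
  have a1 : C * ℓ ≤ ℓ ^ 2 := by
    calc C * ℓ ≤ ℓ * ℓ := mul_le_mul_of_nonneg_right (by linarith) h0
      _ = ℓ ^ 2 := by ring
  have a2 : N * ℓ ≤ ℓ ^ 2 := by
    calc N * ℓ ≤ ℓ * ℓ := mul_le_mul_of_nonneg_right (by linarith) h0
      _ = ℓ ^ 2 := by ring
  have a3 : 2 * J * ℓ ^ 3 ≤ 2 * ℓ ^ 4 := by
    calc 2 * J * ℓ ^ 3 = 2 * (J * ℓ ^ 3) := by ring
      _ ≤ 2 * (ℓ * ℓ ^ 3) := by
          have : J * ℓ ^ 3 ≤ ℓ * ℓ ^ 3 := mul_le_mul_of_nonneg_right (by linarith) (by positivity)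
          linarith
      _ = 2 * ℓ ^ 4 := by ring
  have a4 : 15 * ℓ ^ 60 ≤ ℓ ^ 61 := by
    calc 15 * ℓ ^ 60 ≤ ℓ * ℓ ^ 60 := mul_le_mul_of_nonneg_right (by linarith) (by positivity)
      _ = ℓ ^ 61 := by ring
  linarith

/-- `- ε log t ≤ ℓ^60/2 + 1/25` for `t ≥ r_b/T⁴`. -/
theorem nb_eps_u (T ℓ b ε u : ℝ) (hε0 : 0 ≤ ε) (hεT : ε * T = ℓ ^ 60) (hεℓ : ε * ℓ ≤ 1 / 100)
    (hb0 : 0 ≤ b) (hu : -T / 2 + 3 * b - 4 * ℓ ≤ u) : -(ε * u) ≤ ℓ ^ 60 / 2 + 1 / 25 := by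
  have h1 := mul_le_mul_of_nonneg_left hu hε0
  have e : ε * (-T / 2 + 3 * b - 4 * ℓ) = -(ε * T) / 2 + 3 * (ε * b) - 4 * (ε * ℓ) := by ring
  have h2 : 0 ≤ ε * b := mul_nonneg hε0 hb0
  rw [e, hεT] at h1
  linarith

/-- the logarithm of the envelope `E_j(t)`, `t ≥ r_b/T⁴`, `j + 1 ≤ 2 ℓ²`. -/
theorem nb_logEnv (T ℓ b ε u J jj : ℝ) (hε0 : 0 ≤ ε) (hεT : ε * T = ℓ ^ 60)
    (hεℓ : ε * ℓ ≤ 1 / 100) (hb0 : 0 ≤ b) (hu : -T / 2 + 3 * b - 4 * ℓ ≤ u) (hℓ : 0 ≤ ℓ)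
    (hJ : 0 ≤ J) (hjj : jj ≤ 2 * ℓ ^ 2) :
    ℓ * (J * jj) - T - (2 + ε) * u ≤ 2 * J * ℓ ^ 3 + 8 * ℓ + ℓ ^ 60 / 2 + 1 - 6 * b := by
  have h1 := nb_eps_u T ℓ b ε u hε0 hεT hεℓ hb0 hu
  have h2 : ℓ * (J * jj) ≤ 2 * J * ℓ ^ 3 := by
    calc ℓ * (J * jj) ≤ ℓ * (J * (2 * ℓ ^ 2)) :=
          mul_le_mul_of_nonneg_left (mul_le_mul_of_nonneg_left hjj hJ) hℓ
      _ = 2 * J * ℓ ^ 3 := by ring
  have e : (2 + ε) * u = 2 * u + ε * u := by ring
  rw [e]
  linarith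

/-- `(n + 3) e^b + e^{x + 3b} ≤ e^{5b}`. -/
theorem nb_hgt (n b x : ℝ) (hn : n + 3 ≤ b) (hx : x ≤ b) (hb : 1 ≤ b) :
    (n + 3) * Real.exp b + Real.exp (x + 3 * b) ≤ Real.exp (5 * b) := by
  have h1 : b + 1 ≤ Real.exp b := Real.add_one_le_exp b
  have hpos := Real.exp_pos b
  have t1 : (n + 3) * Real.exp b ≤ Real.exp (4 * b) := by
    calc (n + 3) * Real.exp b ≤ Real.exp b * Real.exp b :=
          mul_le_mul_of_nonneg_right (by linarith) hpos.le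
      _ = Real.exp (2 * b) := by rw [← Real.exp_add]; congr 1; ring
      _ ≤ Real.exp (4 * b) := Real.exp_le_exp.2 (by linarith)
  have t2 : Real.exp (x + 3 * b) ≤ Real.exp (4 * b) := Real.exp_le_exp.2 (by linarith)
  have t3 : 2 * Real.exp (4 * b) ≤ Real.exp (5 * b) := by
    calc 2 * Real.exp (4 * b) ≤ Real.exp b * Real.exp (4 * b) :=
          mul_le_mul_of_nonneg_right (by linarith) (Real.exp_pos _).le
      _ = Real.exp (5 * b) := by rw [← Real.exp_add]; congr 1; ring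
  linarith

/-- `e^{x/2} ≤ 1 + x` on `[0, 1]`. -/
theorem nb_exp_half_le (x : ℝ) (h0 : 0 ≤ x) (h1 : x ≤ 1) : Real.exp (x / 2) ≤ 1 + x := by
  have h2 := Real.exp_bound_div_one_sub_of_interval (x := x / 2) (by linarith) (by linarith)
  refine h2.trans ?_
  rw [div_le_iff₀ (by linarith)]
  nlinarith

/-- the numerical hypothesis of the thresholds. -/
theorem nb_thr (ℓ : ℝ) (hℓ : 100 ≤ ℓ) :
    1 < Real.exp (-(3 * ℓ)) *
      (1 + ℓ ^ (-(13 : ℝ))) ^ (⌊1 / (3 * ℓ ^ (-(15 : ℝ)))⌋₊ - 2) := by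
  have h0 : (0 : ℝ) < ℓ := by linarith
  have e13 : ℓ ^ (-(13 : ℝ)) = (ℓ ^ 13)⁻¹ := by
    rw [Real.rpow_neg h0.le]
    norm_cast
  have e15 : ℓ ^ (-(15 : ℝ)) = (ℓ ^ 15)⁻¹ := by
    rw [Real.rpow_neg h0.le]
    norm_cast
  obtain ⟨x, hx⟩ : ∃ x : ℝ, x = (ℓ ^ 13)⁻¹ := ⟨_, rfl⟩
  have hx0 : 0 < x := by rw [hx]; positivity
  have hx1 : x ≤ 1 := by
    rw [hx]
    exact inv_le_one_of_one_le₀ (one_le_pow₀ (by linarith))
  obtain ⟨k, hk⟩ : ∃ k : ℕ, k = ⌊1 / (3 * ℓ ^ (-(15 : ℝ)))⌋₊ - 2 := ⟨_, rfl⟩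
  have hfl : ℓ ^ 15 / 3 - 3 ≤ (k : ℝ) := by
    have e : 1 / (3 * ℓ ^ (-(15 : ℝ))) = ℓ ^ 15 / 3 := by
      rw [e15]
      field_simp
    have h1 : ℓ ^ 15 / 3 < (⌊1 / (3 * ℓ ^ (-(15 : ℝ)))⌋₊ : ℝ) + 1 := by
      rw [← e]
      exact Nat.lt_floor_add_one _
    have h2 : (⌊1 / (3 * ℓ ^ (-(15 : ℝ)))⌋₊ : ℝ) ≤ (k : ℝ) + 2 := by
      have : ⌊1 / (3 * ℓ ^ (-(15 : ℝ)))⌋₊ ≤ k + 2 := by omega
      exact_mod_cast this
    linarith
  rw [e13, ← hx, ← hk]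
  have h3 : Real.exp (x / 2) ^ k ≤ (1 + x) ^ k :=
    pow_le_pow_left₀ (Real.exp_pos _).le (nb_exp_half_le x hx0.le hx1) k
  have h4 : Real.exp (x / 2) ^ k = Real.exp ((k : ℝ) * (x / 2)) := by
    rw [← Real.exp_nat_mul]
  have h5 : 3 * ℓ < (k : ℝ) * (x / 2) := by
    have h6 : (ℓ ^ 15 / 3 - 3) * (x / 2) ≤ (k : ℝ) * (x / 2) :=
      mul_le_mul_of_nonneg_right hfl (by linarith)
    have h7 : ℓ ^ 15 * x = ℓ ^ 2 := by
      rw [hx]
      field_simp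
    have h8 : (ℓ ^ 15 / 3 - 3) * (x / 2) = ℓ ^ 2 / 6 - 3 * x / 2 := by
      calc (ℓ ^ 15 / 3 - 3) * (x / 2) = (ℓ ^ 15 * x) / 6 - 3 * x / 2 := by ring
        _ = _ := by rw [h7]
    have h9 : 100 * ℓ ≤ ℓ ^ 2 := by nlinarith
    linarith
  calc (1 : ℝ) = Real.exp (-(3 * ℓ)) * Real.exp (3 * ℓ) := by
        rw [← Real.exp_add]; simp
    _ < Real.exp (-(3 * ℓ)) * Real.exp ((k : ℝ) * (x / 2)) :=
        mul_lt_mul_of_pos_left (Real.exp_lt_exp.2 h5) (Real.exp_pos _)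
    _ ≤ Real.exp (-(3 * ℓ)) * (1 + x) ^ k := by
        rw [← h4]
        exact mul_le_mul_of_nonneg_left h3 (Real.exp_pos _).le

/-- `(log T)^61 / T ≤ 1/100` eventually. -/
theorem nb_log61 : ∃ T0 : ℝ, ∀ T : ℝ, T0 ≤ T → Real.log T ^ 61 / T ≤ 1 / 100 := by
  have h := Real.tendsto_pow_log_div_mul_add_atTop 1 0 61 one_ne_zero
  have h1 := h.eventually (ge_mem_nhds (show (0 : ℝ) < 1 / 100 by norm_num))
  obtain ⟨T0, hT0⟩ := eventually_atTop.1 h1
  refine ⟨T0, fun T hT => ?_⟩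
  have := hT0 T hT
  simpa using this

/-- `ℓ J (j+1) ≤ 2 J ℓ³`. -/
theorem nb_Jjj (ℓ J jj : ℝ) (hℓ : 0 ≤ ℓ) (hJ : 0 ≤ J) (hjj : jj ≤ 2 * ℓ ^ 2) :
    ℓ * (J * jj) ≤ 2 * J * ℓ ^ 3 := by
  calc ℓ * (J * jj) ≤ ℓ * (J * (2 * ℓ ^ 2)) :=
        mul_le_mul_of_nonneg_left (mul_le_mul_of_nonneg_left hjj hJ) hℓ
    _ = 2 * J * ℓ ^ 3 := by ring

theorem nb_sqrt_dT (T : ℝ) : Real.sqrt (dT T) = Real.exp (-T / 2) := by
  unfold dT
  rw [Real.exp_half]

theorem nb_rb_eq (Q : ℕ) (T : ℝ) : rb Q T = Real.exp (-T / 2 + 3 * bQ Q T) := by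
  unfold rb
  rw [nb_sqrt_dT, ← Real.exp_add]

theorem nb_mot_eq (Q : ℕ) (T : ℝ) : mot Q T = Real.exp (bQ Q T - T / 2) := by
  unfold mot
  rw [nb_sqrt_dT, ← Real.exp_add]
  congr 1
  ring

theorem nb_Env_eq (p : Prm) {T : ℝ} (hT : 0 < T) (j : ℕ) (u : ℝ) :
    Env p T j (Real.exp u) =
      Real.exp (Real.log T * ((p.J0 : ℝ) * ((j : ℝ) + 1)) - T - (2 + eps T) * u) := by
  unfold Env dT
  rw [Real.rpow_def_of_pos hT, Real.rpow_def_of_pos (Real.exp_pos u), Real.log_exp, ← Real.exp_add,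
    ← Real.exp_add]
  congr 1
  ring

/-- the hypotheses from which all fields of `Big` follow. -/
structure NbH (p : Prm) (Q : ℕ) (Cpow T : ℝ) : Prop where
  Tpos : 0 < T
  lC : 2 * |Cpow| + 10 * (p.N : ℝ) + (p.J0 : ℝ) + 100 ≤ Real.log T
  h61 : Real.log T ^ 61 / T ≤ 1 / 100
  bT : bQ Q T ≤ T / 100

namespace NbH

variable {Cpow T : ℝ}

theorem l100 (h : NbH p Q Cpow T) : 100 ≤ Real.log T := by
  have h1 := h.lC
  have h2 := abs_nonneg Cpow
  have h3 : (0 : ℝ) ≤ p.N := Nat.cast_nonneg _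
  have h4 : (0 : ℝ) ≤ p.J0 := Nat.cast_nonneg _
  linarith

theorem lCabs (h : NbH p Q Cpow T) : 2 * |Cpow| ≤ Real.log T := by
  have h1 := h.lC
  have h3 : (0 : ℝ) ≤ p.N := Nat.cast_nonneg _
  have h4 : (0 : ℝ) ≤ p.J0 := Nat.cast_nonneg _
  linarith

theorem b1 (_h : NbH p Q Cpow T) : 1 + Real.log T ^ 201 ≤ bQ Q T := b_ge Q T

theorem b_one (h : NbH p Q Cpow T) : 1 ≤ bQ Q T := by
  have h1 := h.b1
  have h2 : 0 ≤ Real.log T ^ 201 := pow_nonneg (by linarith [h.l100]) _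
  linarith

theorem master (h : NbH p Q Cpow T) :
    |Cpow| * Real.log T + 2 * (p.J0 : ℝ) * Real.log T ^ 3 + 10 * (p.N : ℝ) * Real.log T
      + 8 * Real.log T + Real.log T ^ 60 + 2 ≤ bQ Q T := by
  refine nb_master |Cpow| (p.J0 : ℝ) (10 * (p.N : ℝ)) (Real.log T) (bQ Q T) (abs_nonneg _)
    (Nat.cast_nonneg _) (by positivity) ?_ h.b1
  have h1 := h.lC
  have h2 := abs_nonneg Cpow
  linarith

theorem eps0 (h : NbH p Q Cpow T) : 0 ≤ eps T :=
  div_nonneg (pow_nonneg (by linarith [h.l100]) _) h.Tpos.le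

theorem epsT (h : NbH p Q Cpow T) : eps T * T = Real.log T ^ 60 :=
  div_mul_cancel₀ _ h.Tpos.ne'

theorem epsl (h : NbH p Q Cpow T) : eps T * Real.log T ≤ 1 / 100 := by
  have e : eps T * Real.log T = Real.log T ^ 61 / T := by
    unfold eps
    ring
  rw [e]
  exact h.h61

theorem l61 (h : NbH p Q Cpow T) : Real.log T ^ 61 ≤ T / 100 := by
  have h1 := h.h61
  rw [div_le_iff₀ h.Tpos] at h1
  linarith

theorem l_le_T (h : NbH p Q Cpow T) : 100 * Real.log T ≤ T := by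
  have h1 := h.l61
  have h2 : Real.log T ≤ Real.log T ^ 61 := by
    calc Real.log T = Real.log T ^ 1 := (pow_one _).symm
      _ ≤ Real.log T ^ 61 := pow_le_pow_right₀ (by linarith [h.l100]) (by norm_num)
  linarith

theorem n0_le (h : NbH p Q Cpow T) : (n0 p T : ℝ) + 5 ≤ Real.log T ^ 2 := by
  have hl := h.l100
  have h3 : (0 : ℝ) ≤ p.N := Nat.cast_nonneg _
  have h4 : (0 : ℝ) ≤ p.J0 := Nat.cast_nonneg _
  have h1 : (n0 p T : ℝ) < 10 * (p.N : ℝ) * Real.log T + 1 :=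
    Nat.ceil_lt_add_one (mul_nonneg (by positivity) (by linarith))
  have h2 : (10 * (p.N : ℝ) + 6) * Real.log T ≤ Real.log T * Real.log T :=
    mul_le_mul_of_nonneg_right (by linarith [h.lC, abs_nonneg Cpow]) (by linarith)
  have h5 : (10 * (p.N : ℝ) + 6) * Real.log T = 10 * (p.N : ℝ) * Real.log T + 6 * Real.log T := by
    ring
  have h6 : Real.log T * Real.log T = Real.log T ^ 2 := by ring
  linarith

theorem jj (h : NbH p Q Cpow T) {j : ℕ} (hj : j ≤ 2 * n0 p T + 4) :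
    (j : ℝ) + 1 ≤ 2 * Real.log T ^ 2 := by
  have h1 : (j : ℝ) ≤ 2 * (n0 p T : ℝ) + 4 := by exact_mod_cast hj
  have h2 := h.n0_le
  linarith

theorem T4 (h : NbH p Q Cpow T) : T ^ 4 = Real.exp (4 * Real.log T) := by
  rw [show (4 : ℝ) * Real.log T = ((4 : ℕ) : ℝ) * Real.log T by norm_num, Real.exp_nat_mul,
    Real.exp_log h.Tpos]

theorem logt (h : NbH p Q Cpow T) {t : ℝ} (ht : rb Q T / T ^ 4 ≤ t) :
    ∃ u : ℝ, t = Real.exp u ∧ -T / 2 + 3 * bQ Q T - 4 * Real.log T ≤ u := by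
  have e : rb Q T / T ^ 4 = Real.exp (-T / 2 + 3 * bQ Q T - 4 * Real.log T) := by
    rw [nb_rb_eq, h.T4, ← Real.exp_sub]
  rw [e] at ht
  have t0 : 0 < t := lt_of_lt_of_le (Real.exp_pos _) ht
  exact ⟨Real.log t, (Real.exp_log t0).symm, (Real.le_log_iff_exp_le t0).2 ht⟩

theorem lCpow (h : NbH p Q Cpow T) : Real.log T * Cpow ≤ |Cpow| * Real.log T := by
  rw [mul_comm]
  exact mul_le_mul_of_nonneg_right (le_abs_self _) (by linarith [h.l100])

theorem env_small (h : NbH p Q Cpow T) (j : ℕ) (hj : j ≤ 2 * n0 p T + 4) (t : ℝ)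
    (ht : rb Q T / T ^ 4 ≤ t) : T ^ Cpow * Env p T j t ≤ Real.exp (-2 * bQ Q T) := by
  obtain ⟨u, rfl, hu⟩ := h.logt ht
  rw [Real.rpow_def_of_pos h.Tpos, nb_Env_eq p h.Tpos, ← Real.exp_add]
  refine Real.exp_le_exp.2 ?_
  have hl := h.l100
  have hb := h.b_one
  have h1 := nb_logEnv T (Real.log T) (bQ Q T) (eps T) u (p.J0 : ℝ) ((j : ℝ) + 1) h.eps0 h.epsT
    h.epsl (by linarith) hu (by linarith) (Nat.cast_nonneg _) (h.jj hj)
  have h2 := h.master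
  have h3 := h.lCpow
  have h4 : 0 ≤ 10 * (p.N : ℝ) * Real.log T := mul_nonneg (by positivity) (by linarith)
  have h5 : 0 ≤ Real.log T ^ 60 := pow_nonneg (by linarith) _
  linarith

theorem motion (h : NbH p Q Cpow T) (j : ℕ) (hj : j ≤ 2 * n0 p T + 4) (t : ℝ)
    (ht : rb Q T / T ^ 4 ≤ t) : T ^ Cpow * (t * Real.sqrt (Env p T j t)) ≤ mot Q T := by
  obtain ⟨u, rfl, hu⟩ := h.logt ht
  rw [Real.rpow_def_of_pos h.Tpos, nb_Env_eq p h.Tpos, ← Real.exp_half, ← Real.exp_add,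
    ← Real.exp_add, nb_mot_eq]
  refine Real.exp_le_exp.2 ?_
  have hl := h.l100
  have hb := h.b_one
  have h1 := nb_eps_u T (Real.log T) (bQ Q T) (eps T) u h.eps0 h.epsT h.epsl (by linarith) hu
  have h6 := nb_Jjj (Real.log T) (p.J0 : ℝ) ((j : ℝ) + 1) (by linarith) (Nat.cast_nonneg _) (h.jj hj)
  have h2 := h.master
  have h3 := h.lCpow
  have h4 : 0 ≤ 10 * (p.N : ℝ) * Real.log T := mul_nonneg (by positivity) (by linarith)
  have h5 : 0 ≤ Real.log T ^ 60 := pow_nonneg (by linarith) _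
  have h7 : 0 ≤ 2 * (p.J0 : ℝ) * Real.log T ^ 3 :=
    mul_nonneg (by positivity) (pow_nonneg (by linarith) _)
  have e : Real.log T * Cpow + (u + (Real.log T * ((p.J0 : ℝ) * ((j : ℝ) + 1)) - T
      - (2 + eps T) * u) / 2) = Real.log T * Cpow + Real.log T * ((p.J0 : ℝ) * ((j : ℝ) + 1)) / 2
      - T / 2 + -(eps T * u) / 2 := by ring
  rw [e]
  linarith

theorem env_total (h : NbH p Q Cpow T) (j : ℕ) (hj : j ≤ 2 * n0 p T + 4) (t : ℝ)
    (ht : rb Q T / T ^ 4 ≤ t) : Env p T j t ≤ Real.exp (2 * T) * dT T := by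
  obtain ⟨u, rfl, hu⟩ := h.logt ht
  unfold dT
  rw [nb_Env_eq p h.Tpos, ← Real.exp_add]
  refine Real.exp_le_exp.2 ?_
  have hl := h.l100
  have hb := h.b_one
  have h1 := nb_logEnv T (Real.log T) (bQ Q T) (eps T) u (p.J0 : ℝ) ((j : ℝ) + 1) h.eps0 h.epsT
    h.epsl (by linarith) hu (by linarith) (Nat.cast_nonneg _) (h.jj hj)
  have h2 := h.master
  have h3 : 0 ≤ |Cpow| * Real.log T := mul_nonneg (abs_nonneg _) (by linarith)
  have h4 : 0 ≤ 10 * (p.N : ℝ) * Real.log T := mul_nonneg (by positivity) (by linarith)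
  have h5 : 0 ≤ Real.log T ^ 60 := pow_nonneg (by linarith) _
  have h6 := h.Tpos
  linarith

theorem tail_kill (h : NbH p Q Cpow T) :
    Real.exp (Cpow * T) * Real.exp (-T ^ 2 / 2) ≤ T ^ (-Cpow) := by
  rw [Real.rpow_def_of_pos h.Tpos, ← Real.exp_add]
  refine Real.exp_le_exp.2 ?_
  have hl := h.l100
  have hT := h.Tpos
  have h1 := h.l_le_T
  have h2 := h.lCabs
  have h3 : Cpow * (T + Real.log T) ≤ Real.log T * (T + Real.log T) :=
    mul_le_mul_of_nonneg_right (by linarith [le_abs_self Cpow, abs_nonneg Cpow]) (by linarith)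
  have h4 : Real.log T * (T + Real.log T) ≤ T / 100 * (T + T) :=
    mul_le_mul (by linarith) (by linarith) (by linarith) (by linarith)
  have h5 : T / 100 * (T + T) = T ^ 2 / 50 := by ring
  have h6 : 0 ≤ T ^ 2 := by positivity
  have e : Cpow * (T + Real.log T) = Cpow * T + Real.log T * Cpow := by ring
  have e2 : Real.log T * -Cpow = -(Real.log T * Cpow) := by ring
  rw [e2]
  linarith

theorem log_kill (h : NbH p Q Cpow T) : T ^ Cpow * Real.exp (-Real.log T ^ 2 / 2) ≤ 1 := by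
  rw [Real.rpow_def_of_pos h.Tpos, ← Real.exp_add, ← Real.exp_zero]
  refine Real.exp_le_exp.2 ?_
  have hl := h.l100
  have h2 := h.lCabs
  have h3 : Real.log T * Cpow ≤ Real.log T * (Real.log T / 2) :=
    mul_le_mul_of_nonneg_left (by linarith [le_abs_self Cpow]) (by linarith)
  have e : Real.log T * (Real.log T / 2) = Real.log T ^ 2 / 2 := by ring
  linarith

theorem cube_kill (h : NbH p Q Cpow T) : T ^ Cpow * Real.exp (-Real.log T ^ 3) ≤ 1 := by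
  rw [Real.rpow_def_of_pos h.Tpos, ← Real.exp_add, ← Real.exp_zero]
  refine Real.exp_le_exp.2 ?_
  have hl := h.l100
  have h2 := h.lCabs
  have h3 : Real.log T * Cpow ≤ Real.log T * Real.log T :=
    mul_le_mul_of_nonneg_left (by linarith [le_abs_self Cpow, abs_nonneg Cpow]) (by linarith)
  have h4 : Real.log T ^ 2 ≤ Real.log T ^ 3 := pow_le_pow_right₀ (by linarith) (by norm_num)
  have e : Real.log T * Real.log T = Real.log T ^ 2 := by ring
  linarith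

theorem hgt (h : NbH p Q Cpow T) :
    ((n0 p T : ℝ) + 3) * mot Q T + T ^ Cpow * smallR p Q T
      ≤ Real.exp (5 * bQ Q T) * Real.sqrt (dT T) := by
  have hl := h.l100
  have h2 := h.master
  have h3 := h.lCpow
  have h4 : 0 ≤ 2 * (p.J0 : ℝ) * Real.log T ^ 3 :=
    mul_nonneg (by positivity) (pow_nonneg (by linarith) _)
  have h5 : Real.log T ^ 2 ≤ Real.log T ^ 60 := pow_le_pow_right₀ (by linarith) (by norm_num)
  have h6 : 0 ≤ |Cpow| * Real.log T := mul_nonneg (abs_nonneg _) (by linarith)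
  have h7 : 0 ≤ 10 * (p.N : ℝ) * Real.log T := mul_nonneg (by positivity) (by linarith)
  have h8 : 0 ≤ Real.log T ^ 60 := pow_nonneg (by linarith) _
  have key := nb_hgt (n0 p T : ℝ) (bQ Q T) (Real.log T * Cpow + Real.log T * (10 * (p.N : ℝ)))
    (by linarith [h.n0_le]) (by linarith) h.b_one
  have e : ((n0 p T : ℝ) + 3) * mot Q T + T ^ Cpow * smallR p Q T =
      (((n0 p T : ℝ) + 3) * Real.exp (bQ Q T) + Real.exp (Real.log T * Cpow
        + Real.log T * (10 * (p.N : ℝ)) + 3 * bQ Q T)) * Real.sqrt (dT T) := by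
    unfold mot smallR rb
    rw [Real.rpow_def_of_pos h.Tpos, Real.rpow_def_of_pos h.Tpos, Real.exp_add, Real.exp_add]
    ring
  rw [e]
  exact mul_le_mul_of_nonneg_right key (Real.sqrt_nonneg _)

theorem mesh (h : NbH p Q Cpow T) (R : ℝ) (hR : 0 < R) (hR1 : R ≤ 1) :
    (Kmesh p Q T R : ℝ) ≤ T ∧ 1 + Real.logb 2 (rho p T R / rb Q T) ≤ T := by
  have hl := h.l100
  have hT := h.Tpos
  have hlT := h.l_le_T
  have hb := h.b_one
  have hlog2 : (0.69 : ℝ) < Real.log 2 := by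
    have := Real.log_two_gt_d9
    linarith
  have hrho : 0 < rho p T R := mul_pos (Real.rpow_pos_of_pos hT _) hR
  have hrb : 0 < rb Q T := by rw [nb_rb_eq]; exact Real.exp_pos _
  have h1 : Real.log (rho p T R / rb Q T) ≤ T / 2 := by
    rw [Real.log_div hrho.ne' hrb.ne', nb_rb_eq, Real.log_exp]
    unfold rho
    rw [Real.log_mul (Real.rpow_pos_of_pos hT _).ne' hR.ne', Real.log_rpow hT]
    have h2 : Real.log R ≤ 0 := Real.log_nonpos hR.le hR1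
    have h3 : 0 ≤ 4 * (p.N : ℝ) * Real.log T := mul_nonneg (by positivity) (by linarith)
    linarith
  have h2 : Real.logb 2 (rho p T R / rb Q T) ≤ 3 * T / 4 := by
    unfold Real.logb
    rw [div_le_iff₀ (by linarith)]
    have : 3 * T / 4 * 0.69 ≤ 3 * T / 4 * Real.log 2 :=
      mul_le_mul_of_nonneg_left hlog2.le (by linarith)
    linarith
  have h3 : 1 + Real.logb 2 (rho p T R / rb Q T) ≤ T := by linarith
  refine ⟨?_, h3⟩
  unfold Kmesh
  rcases le_total (Real.logb 2 (rho p T R / rb Q T)) 0 with h0 | h0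
  · rw [Nat.ceil_eq_zero.2 h0]
    simpa using hT.le
  · have := Nat.ceil_lt_add_one h0
    linarith

theorem thr (h : NbH p Q Cpow T) :
    1 < T ^ (-(3 : ℝ)) * (1 + Real.log T ^ (-(13 : ℝ))) ^
      (⌊1 / (3 * Real.log T ^ (-(15 : ℝ)))⌋₊ - 2) := by
  have h1 := nb_thr (Real.log T) h.l100
  rw [Real.rpow_def_of_pos h.Tpos]
  rwa [show Real.log T * -(3 : ℝ) = -(3 * Real.log T) by ring]

theorem big (h : NbH p Q Cpow T) : Big p Q Cpow T where
  log_ge := h.l100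
  log_ge' := by linarith [h.lCabs, le_abs_self Cpow, abs_nonneg Cpow]
  b_ge := by linarith [h.b1]
  b_le := h.bT
  eps_le := h.epsl
  cT_le := by
    have hl := h.l100
    have h1 : Real.log T ^ 2 ≤ Real.log T ^ 61 := pow_le_pow_right₀ (by linarith) (by norm_num)
    unfold cT
    rw [div_le_iff₀ h.Tpos]
    linarith [h.l61, h.Tpos]
  n0_le := h.n0_le
  rb_le := by
    rw [nb_rb_eq]
    refine Real.exp_le_exp.2 ?_
    linarith [h.bT, h.Tpos]
  rb_ge := by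
    rw [nb_rb_eq]
    refine Real.exp_le_exp.2 ?_
    linarith [h.b_one]
  env_small := h.env_small
  motion := h.motion
  env_total := h.env_total
  tail_kill := h.tail_kill
  log_kill := h.log_kill
  cube_kill := h.cube_kill
  hgt := h.hgt
  mesh := h.mesh
  thr := h.thr

end NbH

theorem exists_big (p : Prm) (Q : ℕ) (hQ : 2 ≤ Q) (Cpow : ℝ) :
    ∃ T0 : ℝ, ∀ T : ℝ, T0 ≤ T → Big p Q Cpow T := by
  obtain ⟨T1, h1⟩ := nb_log61
  obtain ⟨T2, h2⟩ := b_le Q hQ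
  refine ⟨max (Real.exp (2 * |Cpow| + 10 * (p.N : ℝ) + (p.J0 : ℝ) + 100)) (max T1 T2),
    fun T hT => ?_⟩
  have hT0 : Real.exp (2 * |Cpow| + 10 * (p.N : ℝ) + (p.J0 : ℝ) + 100) ≤ T :=
    (le_max_left _ _).trans hT
  have hT1 : T1 ≤ T := ((le_max_left _ _).trans (le_max_right _ _)).trans hT
  have hT2 : T2 ≤ T := ((le_max_right _ _).trans (le_max_right _ _)).trans hT
  have hpos : 0 < T := lt_of_lt_of_le (Real.exp_pos _) hT0
  exact NbH.big ⟨hpos, (Real.le_log_iff_exp_le hpos).2 hT0, h1 T hT1, h2 T hT2⟩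

/-- geometric errors: `γ ≤ e^{-κ T}` beats every power of `T`. -/
theorem kappa_kill (κ : ℝ) (hκ : 0 < κ) (Cpow : ℝ) :
    ∃ T0 : ℝ, ∀ T : ℝ, T0 ≤ T → T ^ Cpow * Real.exp (-κ * T) ≤ 1 := by
  have h := Real.tendsto_pow_log_div_mul_add_atTop 1 0 1 one_ne_zero
  have hc : 0 < κ / (|Cpow| + 1) := div_pos hκ (by linarith [abs_nonneg Cpow])
  obtain ⟨T0, hT0⟩ := eventually_atTop.1 (h.eventually (ge_mem_nhds hc))
  refine ⟨max 1 T0, fun T hT => ?_⟩
  have hT1 : 1 ≤ T := (le_max_left _ _).trans hT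
  have hpos : 0 < T := by linarith
  have h1 := hT0 T ((le_max_right _ _).trans hT)
  have h2 : Real.log T / T ≤ κ / (|Cpow| + 1) := by simpa using h1
  have hl : 0 ≤ Real.log T := Real.log_nonneg hT1
  have hC : 0 < |Cpow| + 1 := by linarith [abs_nonneg Cpow]
  rw [div_le_div_iff₀ hpos hC] at h2
  rw [Real.rpow_def_of_pos hpos, ← Real.exp_add, ← Real.exp_zero]
  refine Real.exp_le_exp.2 ?_
  have h3 : Real.log T * Cpow ≤ Real.log T * (|Cpow| + 1) :=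
    mul_le_mul_of_nonneg_left (by linarith [le_abs_self Cpow]) hl
  linarith

namespace Big

variable {Cpow T : ℝ}

theorem T_ge (h : Big p Q Cpow T) : Real.exp 100 ≤ T := by
  have h1 := h.log_ge
  have h2 : 0 ≤ Real.log T ^ 201 := pow_nonneg (by linarith) _
  have h3 : 0 ≤ T := by linarith [h.b_ge, h.b_le]
  have h4 : T ≠ 0 := by
    rintro rfl
    rw [Real.log_zero] at h1
    linarith
  exact (Real.le_log_iff_exp_le (lt_of_le_of_ne h3 h4.symm)).1 h1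

theorem one_le (h : Big p Q Cpow T) : 1 ≤ T := by
  exact (Real.one_le_exp (by norm_num)).trans h.T_ge

theorem pos (h : Big p Q Cpow T) : 0 < T := by
  exact lt_of_lt_of_le one_pos h.one_le

theorem mono {C' : ℝ} (h : Big p Q Cpow T) (hC : C' ≤ Cpow) (hC' : 0 ≤ C') : Big p Q C' T := by
  have hT := h.one_le
  have hpow : T ^ C' ≤ T ^ Cpow := Real.rpow_le_rpow_of_exponent_le hT hC
  have hsm : 0 ≤ smallR p Q T := (mul_pos (Real.rpow_pos_of_pos h.pos _) (rb_pos Q T)).le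
  have htpos : ∀ t : ℝ, rb Q T / T ^ 4 ≤ t → 0 < t := fun t ht =>
    lt_of_lt_of_le (div_pos (rb_pos Q T) (pow_pos h.pos _)) ht
  exact
    { log_ge := h.log_ge
      log_ge' := hC.trans h.log_ge'
      b_ge := h.b_ge
      b_le := h.b_le
      eps_le := h.eps_le
      cT_le := h.cT_le
      n0_le := h.n0_le
      rb_le := h.rb_le
      rb_ge := h.rb_ge
      env_small := fun j hj t ht =>
        (mul_le_mul_of_nonneg_right hpow (Env_pos h.pos (htpos t ht) j).le).trans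
          (h.env_small j hj t ht)
      motion := fun j hj t ht =>
        (mul_le_mul_of_nonneg_right hpow
          (mul_nonneg (htpos t ht).le (Real.sqrt_nonneg _))).trans (h.motion j hj t ht)
      env_total := h.env_total
      tail_kill := by
        have h1 : Real.exp (C' * T) ≤ Real.exp (Cpow * T) :=
          Real.exp_le_exp.2 (mul_le_mul_of_nonneg_right hC h.pos.le)
        have h2 : T ^ (-Cpow) ≤ T ^ (-C') := Real.rpow_le_rpow_of_exponent_le hT (by linarith)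
        exact ((mul_le_mul_of_nonneg_right h1 (Real.exp_pos _).le).trans h.tail_kill).trans h2
      log_kill := (mul_le_mul_of_nonneg_right hpow (Real.exp_pos _).le).trans h.log_kill
      cube_kill := (mul_le_mul_of_nonneg_right hpow (Real.exp_pos _).le).trans h.cube_kill
      hgt := by
        have h1 := mul_le_mul_of_nonneg_right hpow hsm
        linarith [h.hgt]
      mesh := h.mesh
      thr := h.thr }

theorem eps_le_one (h : Big p Q Cpow T) : eps T ≤ 1 := by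
  have h1 := h.eps_le
  have h2 := h.log_ge
  by_contra hc
  have h3 : 1 < eps T := not_le.1 hc
  have h4 : 1 * Real.log T ≤ eps T * Real.log T :=
    mul_le_mul_of_nonneg_right h3.le (by linarith)
  linarith

theorem eta_lt_one (h : Big p Q Cpow T) (hN : 1 ≤ p.N) : eta p T < 1 := by
  have h1 : (1 : ℝ) < T := lt_of_lt_of_le (Real.one_lt_exp_iff.2 (by norm_num)) h.T_ge
  have h2 : (1 : ℝ) ≤ p.N := by exact_mod_cast hN
  exact Real.rpow_lt_one_of_one_lt_of_neg h1 (by linarith)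

/-- a constant below `log T` is absorbed by one power of `T`. -/
theorem const_le (h : Big p Q Cpow T) {C : ℝ} (hC : C ≤ Cpow) : C ≤ T := by
  have h1 := Real.log_le_sub_one_of_pos h.pos
  linarith [h.log_ge']

end Big

end Claimed.Agent.R322.Sx.Sep
end
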