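/- Packed by merge_tool.py (helper293): 2 modules of Claimed.Agent.R322 in one file, same declarations.
   Old modules, in this order: Sx.Sep.Num2, Sx.Sep.Num3 -/
import Claimed.Agent.R322.Pack033

/- ===== packed: Claimed.Agent.R322.Sx.Sep.Num2 ===== -/
section
/-!
# R322 / Sx / Sep / Num2 : further "T large" numerics used by the glue proofs (leaf `L-Sep-Num2`)

Real analysis only (`Real.rpow`, `Real.exp`); use `exists_big` / the fields of `Big` (`Num.lean`, sorry-free).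
-/

set_option autoImplicit false

namespace Claimed.Agent.R322.Sx.Sep

/-- `ρ = T^{-4N} R` absorbs `C T³` (`N ≥ 1`). -/
theorem rho_absorb (p : Prm) (hN : 1 ≤ p.N) (C : ℝ) :
    ∃ T0 : ℝ, ∀ T : ℝ, T0 ≤ T → ∀ R : ℝ, 0 < R → C * T ^ 3 * rho p T R ≤ R := by
  refine ⟨max 1 C, fun T hT R hR => ?_⟩
  have hT1 : 1 ≤ T := (le_max_left _ _).trans hT
  have hTC : C ≤ T := (le_max_right _ _).trans hT
  have hT0 : 0 < T := by linarith
  have hNR : (1 : ℝ) ≤ p.N := by exact_mod_cast hN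
  unfold rho
  have hpos : 0 < T ^ (-(4 * (p.N : ℝ))) := Real.rpow_pos_of_pos hT0 _
  have h1 : T ^ 4 * T ^ (-(4 * (p.N : ℝ))) ≤ 1 := by
    rw [← Real.rpow_natCast T 4, ← Real.rpow_add hT0]
    apply Real.rpow_le_one_of_one_le_of_nonpos hT1
    push_cast
    linarith
  calc C * T ^ 3 * (T ^ (-(4 * (p.N : ℝ))) * R)
      ≤ T * T ^ 3 * (T ^ (-(4 * (p.N : ℝ))) * R) := by
        apply mul_le_mul_of_nonneg_right _ (by positivity)
        exact mul_le_mul_of_nonneg_right hTC (by positivity)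
    _ = (T ^ 4 * T ^ (-(4 * (p.N : ℝ)))) * R := by ring
    _ ≤ 1 * R := mul_le_mul_of_nonneg_right h1 hR.le
    _ = R := one_mul R

theorem rho_pos {p : Prm} {T R : ℝ} (hT : 0 < T) (hR : 0 < R) : 0 < rho p T R := by
  unfold rho
  have := Real.rpow_pos_of_pos hT (-(4 * (p.N : ℝ)))
  positivity

theorem rho_le_self {p : Prm} {T R : ℝ} (hT : 1 ≤ T) (hR : 0 ≤ R) : rho p T R ≤ R := by
  unfold rho
  have : T ^ (-(4 * (p.N : ℝ))) ≤ 1 :=
    Real.rpow_le_one_of_one_le_of_nonpos hT (by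
      have : (0 : ℝ) ≤ p.N := Nat.cast_nonneg _
      linarith)
  nlinarith

/-- Gaussian tail beyond `T s0` against the node total:
`s0^{-m} ≤ e^{mT/2}`, `exp (-(T s0)²/(2 s0²)) = e^{-T²/2}`, `Big.tail_kill` with `Cpow = N + m + 3`, `T ≥ 4 C`. -/
theorem tail_num (p : Prm) (Q m : ℕ) (hQ : 2 ≤ Q) (C : ℝ) :
    ∃ T0 : ℝ, ∀ T : ℝ, T0 ≤ T → ∀ s0 tU : ℝ, rb Q T ≤ s0 → 0 ≤ tU →
      tU ≤ Real.exp (2 * T) * dT T →
      C * (s0 ^ (-(m : ℝ)) * Real.exp (-(T * s0) ^ 2 / (2 * s0 ^ 2)) * tU)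
        ≤ eta p T / 4 * dT T := by
  obtain ⟨T1, hbig⟩ := exists_big p Q hQ ((p.N : ℝ) + m + 3)
  refine ⟨max T1 (max 1 (4 * |C|)), fun T hT s0 tU hs0 htU0 htU => ?_⟩
  have hB := hbig T ((le_max_left _ _).trans hT)
  have hT1 : 1 ≤ T := ((le_max_left _ _).trans (le_max_right _ _)).trans hT
  have hTC : 4 * |C| ≤ T := ((le_max_right _ _).trans (le_max_right _ _)).trans hT
  have hT0 : 0 < T := by linarith
  have hm0 : (0 : ℝ) ≤ m := Nat.cast_nonneg _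
  have hN0 : (0 : ℝ) ≤ p.N := Nat.cast_nonneg _
  have hrb : 0 < rb Q T := rb_pos Q T
  have hs0pos : 0 < s0 := lt_of_lt_of_le hrb hs0
  have hd : 0 < dT T := dT_pos T
  -- the Gaussian factor
  have e1 : -(T * s0) ^ 2 / (2 * s0 ^ 2) = -T ^ 2 / 2 := by
    field_simp
  rw [e1]
  -- the power of `s0`
  have h1 : s0 ^ (-(m : ℝ)) ≤ Real.exp (m * T / 2) := by
    calc s0 ^ (-(m : ℝ)) ≤ (Real.exp (-T / 2)) ^ (-(m : ℝ)) :=
          Real.rpow_le_rpow_of_nonpos (Real.exp_pos _) (hB.rb_ge.trans hs0) (by linarith)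
      _ = Real.exp (m * T / 2) := by
          rw [← Real.exp_mul]
          congr 1
          ring
  have hs0m : 0 < s0 ^ (-(m : ℝ)) := Real.rpow_pos_of_pos hs0pos _
  set G : ℝ := Real.exp (-T ^ 2 / 2) with hG
  have hGpos : 0 < G := Real.exp_pos _
  have hX : s0 ^ (-(m : ℝ)) * G * tU ≤ T ^ (-((p.N : ℝ) + m + 3)) * dT T := by
    calc s0 ^ (-(m : ℝ)) * G * tU
        ≤ Real.exp (m * T / 2) * G * (Real.exp (2 * T) * dT T) := by
          apply mul_le_mul _ htU htU0 (by positivity)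
          exact mul_le_mul_of_nonneg_right h1 hGpos.le
      _ = (Real.exp (m * T / 2 + 2 * T) * G) * dT T := by
          rw [Real.exp_add]; ring
      _ ≤ (Real.exp (((p.N : ℝ) + m + 3) * T) * G) * dT T := by
          apply mul_le_mul_of_nonneg_right _ hd.le
          apply mul_le_mul_of_nonneg_right _ hGpos.le
          apply Real.exp_le_exp.2
          nlinarith
      _ ≤ _ := mul_le_mul_of_nonneg_right hB.tail_kill hd.le
  have hX0 : 0 ≤ s0 ^ (-(m : ℝ)) * G * tU := by positivity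
  have h2 : |C| * T ^ (-((p.N : ℝ) + m + 3)) ≤ eta p T / 4 := by
    unfold eta
    have e2 : T ^ (-((p.N : ℝ) + m + 3)) = T ^ (-(p.N : ℝ)) * T ^ (-((m : ℝ) + 3)) := by
      rw [← Real.rpow_add hT0]
      congr 1
      ring
    have h3 : T ^ (-((m : ℝ) + 3)) ≤ T⁻¹ := by
      rw [← Real.rpow_neg_one]
      exact Real.rpow_le_rpow_of_exponent_le hT1 (by linarith)
    have h4 : 4 * |C| * T⁻¹ ≤ 1 := by
      rw [← div_eq_mul_inv, div_le_one hT0]
      exact hTC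
    have hpN : 0 < T ^ (-(p.N : ℝ)) := Real.rpow_pos_of_pos hT0 _
    have h5 : 4 * |C| * T ^ (-((m : ℝ) + 3)) ≤ 1 :=
      (mul_le_mul_of_nonneg_left h3 (by positivity)).trans h4
    rw [e2]
    nlinarith
  calc C * (s0 ^ (-(m : ℝ)) * G * tU) ≤ |C| * (s0 ^ (-(m : ℝ)) * G * tU) :=
        mul_le_mul_of_nonneg_right (le_abs_self C) hX0
    _ ≤ |C| * (T ^ (-((p.N : ℝ) + m + 3)) * dT T) := mul_le_mul_of_nonneg_left hX (abs_nonneg C)
    _ = (|C| * T ^ (-((p.N : ℝ) + m + 3))) * dT T := by ring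
    _ ≤ eta p T / 4 * dT T := mul_le_mul_of_nonneg_right h2 hd.le

end Claimed.Agent.R322.Sx.Sep
end

/- ===== packed: Claimed.Agent.R322.Sx.Sep.Num3 ===== -/
section
/-!
# R322 / Sx / Sep / Num3 : numerics of the comparison chains (leaf `L-Sep-Num3`)

Real analysis only; use `exists_big` and the fields of `Big` (`Num.lean`, sorry-free).  All constants `C`, `ε`, `Cb` are fixed before `T`.
-/

set_option autoImplicit false

namespace Claimed.Agent.R322.Sx.Sep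

/-- `log₂ (C T³ / r_b) = (log C + 3 log T + T/2 - 3b)/log 2 ≤ T` (`1/(2 log 2) < 0.73`, `Big.rb_ge`). -/
theorem logb_le_T (Q : ℕ) (hQ : 2 ≤ Q) (C : ℝ) :
    ∃ T0 : ℝ, ∀ T : ℝ, T0 ≤ T → ∀ z : ℝ, 0 < z → z ≤ C * T ^ 3 / rb Q T → Real.logb 2 z ≤ T := by
  obtain ⟨T1, hT1⟩ := exists_big ⟨0, 0, 0, 0⟩ Q hQ 1
  refine ⟨max T1 (max C 1), fun T hT z hz hzle => ?_⟩
  have hB := hT1 T ((le_max_left _ _).trans hT)
  have hTC : C ≤ T := ((le_max_left _ _).trans (le_max_right _ _)).trans hT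
  have hT1' : 1 ≤ T := ((le_max_right _ _).trans (le_max_right _ _)).trans hT
  have hT0 : 0 < T := by linarith
  obtain ⟨ℓ, hℓ⟩ : ∃ ℓ : ℝ, ℓ = Real.log T := ⟨_, rfl⟩
  have hTe : T = Real.exp ℓ := by rw [hℓ, Real.exp_log hT0]
  have hℓ100 : 100 ≤ ℓ := hℓ ▸ hB.log_ge
  -- `ℓ ≤ T / 100`
  have hℓT : ℓ ≤ T / 100 := by
    have h1 := hB.eps_le
    unfold eps at h1
    rw [← hℓ, div_mul_eq_mul_div, div_le_iff₀ hT0] at h1
    have h2 : ℓ ≤ ℓ ^ 60 * ℓ := by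
      have : (1 : ℝ) ≤ ℓ ^ 60 := one_le_pow₀ (by linarith)
      nlinarith
    linarith
  have hrb := hB.rb_ge
  have h1 : z ≤ Real.exp (4 * ℓ + T / 2) := by
    refine hzle.trans ?_
    rw [div_le_iff₀ (rb_pos Q T)]
    have h2 : C * T ^ 3 ≤ T * T ^ 3 := mul_le_mul_of_nonneg_right hTC (by positivity)
    have h3 : T * T ^ 3 = Real.exp (4 * ℓ) := by
      rw [hTe, ← Real.exp_nat_mul, ← Real.exp_add]
      congr 1
      push_cast
      ring
    have h4 : Real.exp (4 * ℓ) = Real.exp (4 * ℓ + T / 2) * Real.exp (-T / 2) := by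
      rw [← Real.exp_add]
      congr 1
      ring
    calc C * T ^ 3 ≤ Real.exp (4 * ℓ) := h3 ▸ h2
      _ = Real.exp (4 * ℓ + T / 2) * Real.exp (-T / 2) := h4
      _ ≤ Real.exp (4 * ℓ + T / 2) * rb Q T := mul_le_mul_of_nonneg_left hrb (Real.exp_pos _).le
  have h2 : Real.log z ≤ 4 * ℓ + T / 2 := (Real.log_le_iff_le_exp hz).2 h1
  have hl2 : (0.6931471803 : ℝ) < Real.log 2 := Real.log_two_gt_d9
  unfold Real.logb
  rw [div_le_iff₀ (by linarith)]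
  nlinarith

/-- `C (e^b √d / T³) T ≤ e^b √d` for `T² ≥ C`. -/
theorem chain_total (Q : ℕ) (C : ℝ) :
    ∃ T0 : ℝ, ∀ T : ℝ, T0 ≤ T → C * (mot Q T / T ^ 3) * T ≤ mot Q T := by
  refine ⟨max C 1, fun T hT => ?_⟩
  have hTC : C ≤ T := (le_max_left _ _).trans hT
  have hT1 : 1 ≤ T := (le_max_right _ _).trans hT
  have hT0 : 0 < T := by linarith
  have hm := mot_pos Q T
  have e : C * (mot Q T / T ^ 3) * T = C * mot Q T / T ^ 2 := by
    field_simp
  rw [e, div_le_iff₀ (by positivity)]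
  have h1 : C ≤ T ^ 2 := by nlinarith
  calc C * mot Q T ≤ T ^ 2 * mot Q T := mul_le_mul_of_nonneg_right h1 hm.le
    _ = mot Q T * T ^ 2 := by ring

/-- `Big.motion` with `Cpow = 4` and `T ≥ C`. -/
theorem const_motion (p : Prm) (Q : ℕ) (hQ : 2 ≤ Q) (C : ℝ) :
    ∃ T0 : ℝ, ∀ T : ℝ, T0 ≤ T → ∀ j : ℕ, j ≤ 2 * n0 p T + 4 → ∀ t : ℝ, rb Q T / T ^ 4 ≤ t →
      C * (t * Real.sqrt (Env p T j t)) ≤ mot Q T / T ^ 3 := by
  obtain ⟨T1, hT1⟩ := exists_big p Q hQ 4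
  refine ⟨max T1 (max C 1), fun T hT j hj t ht => ?_⟩
  have hB := hT1 T ((le_max_left _ _).trans hT)
  have hTC : C ≤ T := ((le_max_left _ _).trans (le_max_right _ _)).trans hT
  have hT1' : 1 ≤ T := ((le_max_right _ _).trans (le_max_right _ _)).trans hT
  have hT0 : 0 < T := by linarith
  have ht0 : 0 < t := lt_of_lt_of_le (div_pos (rb_pos Q T) (by positivity)) ht
  have h1 := hB.motion j hj t ht
  have e4 : T ^ (4 : ℝ) = T ^ (4 : ℕ) := by
    rw [← Real.rpow_natCast]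
    norm_num
  rw [e4] at h1
  have hX : 0 ≤ t * Real.sqrt (Env p T j t) := mul_nonneg ht0.le (Real.sqrt_nonneg _)
  rw [le_div_iff₀ (by positivity)]
  calc C * (t * Real.sqrt (Env p T j t)) * T ^ 3
      ≤ T * (t * Real.sqrt (Env p T j t)) * T ^ 3 := by
        apply mul_le_mul_of_nonneg_right _ (by positivity)
        exact mul_le_mul_of_nonneg_right hTC hX
    _ = T ^ 4 * (t * Real.sqrt (Env p T j t)) := by ring
    _ ≤ mot Q T := h1

/-- `Big.env_small` with `Cpow = 1`: `E_j(t) ≤ T^{-1}`, and `T ≥ C/ε`. -/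
theorem const_env (p : Prm) (Q : ℕ) (hQ : 2 ≤ Q) (C ε : ℝ) (hε : 0 < ε) :
    ∃ T0 : ℝ, ∀ T : ℝ, T0 ≤ T → ∀ j : ℕ, j ≤ 2 * n0 p T + 4 → ∀ t : ℝ, rb Q T / T ^ 4 ≤ t →
      C * Env p T j t ≤ ε := by
  obtain ⟨T1, hT1⟩ := exists_big p Q hQ 1
  refine ⟨max T1 (max (C / ε) 1), fun T hT j hj t ht => ?_⟩
  have hB := hT1 T ((le_max_left _ _).trans hT)
  have hTC : C / ε ≤ T := ((le_max_left _ _).trans (le_max_right _ _)).trans hT
  have hT1' : 1 ≤ T := ((le_max_right _ _).trans (le_max_right _ _)).trans hT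
  have hT0 : 0 < T := by linarith
  have ht0 : 0 < t := lt_of_lt_of_le (div_pos (rb_pos Q T) (by positivity)) ht
  have hb0 : 0 ≤ bQ Q T := le_trans (by have := hB.log_ge; positivity) hB.b_ge
  have hE0 : 0 ≤ Env p T j t := (Env_pos hT0 ht0 j).le
  have h1 : T * Env p T j t ≤ 1 := by
    have h2 := hB.env_small j hj t ht
    rw [Real.rpow_one] at h2
    refine h2.trans ?_
    rw [Real.exp_le_one_iff]
    linarith
  rw [div_le_iff₀ hε] at hTC
  calc C * Env p T j t ≤ T * ε * Env p T j t := mul_le_mul_of_nonneg_right hTC hE0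
    _ = ε * (T * Env p T j t) := by ring
    _ ≤ ε * 1 := mul_le_mul_of_nonneg_left h1 hε.le
    _ = ε := mul_one ε

/-- polynomial density loss of the cells: `Cb (16 U²)^m ≤ Cb (64 T²)^m ≤ T^{3m+1} ≤ T^{J0}`. -/
theorem child_dens_num (p : Prm) (m : ℕ) (hp : p.Ok m) (Cb : ℝ) :
    ∃ T0 : ℝ, ∀ T : ℝ, T0 ≤ T → ∀ U : ℝ, 1 ≤ U → U ≤ T + 1 →
      Cb * (16 * U ^ 2) ^ m ≤ T ^ p.J0 := by
  refine ⟨max (|Cb| * 64 ^ m) 1, fun T hT U hU1 hU => ?_⟩
  have hTC : |Cb| * 64 ^ m ≤ T := (le_max_left _ _).trans hT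
  have hT1 : 1 ≤ T := (le_max_right _ _).trans hT
  have hT0 : 0 < T := by linarith
  have h1 : 16 * U ^ 2 ≤ 64 * T ^ 2 := by nlinarith
  have h2 : (16 * U ^ 2) ^ m ≤ (64 * T ^ 2) ^ m := pow_le_pow_left₀ (by positivity) h1 m
  have hJ : 2 * m + 1 ≤ p.J0 := by
    have h3 := hp.J0_ge
    have h4 := hp.N_ge
    nlinarith
  calc Cb * (16 * U ^ 2) ^ m ≤ |Cb| * (16 * U ^ 2) ^ m :=
        mul_le_mul_of_nonneg_right (le_abs_self _) (by positivity)
    _ ≤ |Cb| * (64 * T ^ 2) ^ m := mul_le_mul_of_nonneg_left h2 (abs_nonneg _)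
    _ = (|Cb| * 64 ^ m) * T ^ (2 * m) := by rw [mul_pow, ← pow_mul]; ring
    _ ≤ T * T ^ (2 * m) := mul_le_mul_of_nonneg_right hTC (by positivity)
    _ = T ^ (2 * m + 1) := by ring
    _ ≤ T ^ p.J0 := pow_le_pow_right₀ hT1 hJ

end Claimed.Agent.R322.Sx.Sep
end
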