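/- Packed by merge_tool.py (helper293): 4 modules of Claimed.Agent.R322 in one file, same declarations.
   Old modules, in this order: Sx.Sep.Mesh, Sx.Sep.Match, Sx.Sep.NearHitOde, Sx.Sep.Thresh -/
import Mathlib
import Claimed.Agent.R322.Pack030

/- ===== packed: Claimed.Agent.R322.Sx.Sep.Mesh ===== -/
section
/-!
# R322 / Sx / Sep / Mesh : the mesh continuation set AE (4.3) and its entrance boundary (leaf `L-Sep-Mesh`)

Topology only.  Mesh scales `t_j = 2^j a`, `j < K`, continuous tests `q j`, thresholds `lam j`.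
At `s = t_j` the current test is omitted.
-/

set_option autoImplicit false

namespace Claimed.Agent.R322.Sx.Sep

open MeasureTheory Set Metric
open scoped ENNReal NNReal

variable {m : ℕ}

/-- AE (4.3). -/
def meshD (a : ℝ) (K : ℕ) (q : ℕ → E m → ℝ) (lam : ℕ → ℝ) : Set (E m × ℝ) :=
  {z | a ≤ z.2 ∧ ∀ j, j < K → 2 ^ j * a ≤ z.2 ∨ q j z.1 ≤ lam j}

theorem meshD_isContinuation {a ρ : ℝ} {K : ℕ} {q : ℕ → E m → ℝ} (lam : ℕ → ℝ) (ha : 0 < a)
    (hρ : a < ρ) (hK : ∀ j, j < K → 2 ^ j * a ≤ ρ) (hq : ∀ j, Continuous (q j)) :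
    IsContinuation a ρ (meshD a K q lam) := by
  refine ⟨ha, hρ, ?_, fun z hz => hz.1, ?_, ?_⟩
  · have e : meshD a K q lam = {z : E m × ℝ | a ≤ z.2} ∩
        ⋂ j : ℕ, ⋂ _ : j < K, ({z : E m × ℝ | 2 ^ j * a ≤ z.2} ∪ {z : E m × ℝ | q j z.1 ≤ lam j}) := by
      ext z
      simp only [meshD, mem_ofPred_eq, mem_inter_iff, mem_iInter, mem_union]
    rw [e]
    refine (isClosed_le continuous_const continuous_snd).inter
      (isClosed_iInter fun j => isClosed_iInter fun _ => IsClosed.union ?_ ?_)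
    · exact isClosed_le continuous_const continuous_snd
    · exact isClosed_le ((hq j).comp continuous_fst) continuous_const
  · intro x s v hs hsv
    refine ⟨hs.1.trans hsv, fun j hj => ?_⟩
    rcases hs.2 j hj with h | h
    · exact Or.inl (h.trans hsv)
    · exact Or.inr h
  · intro x s hs
    exact ⟨hρ.le.trans hs, fun j hj => Or.inl ((hK j hj).trans hs)⟩

/-- points of the entrance boundary lie below the top. -/
theorem entrance_le_stop {a ρ : ℝ} {D : Set (E m × ℝ)} (hD : IsContinuation a ρ D) {z : E m × ℝ}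
    (hz : z ∈ entrance D) : a ≤ z.2 ∧ z.2 ≤ ρ := by
  refine ⟨hD.above z hz.1, ?_⟩
  by_contra hc
  have hc' : ρ < z.2 := not_le.1 hc
  refine hz.2 (mem_interior.2 ⟨{w : E m × ℝ | ρ < w.2}, ?_, isOpen_lt continuous_const continuous_snd,
    hc'⟩)
  rintro ⟨x, s⟩ hw
  exact hD.top x s (le_of_lt hw)

/-- Away from the bottom, a point of the entrance boundary has a current hit or a side equality:
otherwise all relevant tests are strict and a space-scale neighbourhood belongs to the set. -/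
theorem meshD_entrance {a : ℝ} {K : ℕ} {q : ℕ → E m → ℝ} {lam : ℕ → ℝ} (ha : 0 < a)
    (hq : ∀ j, Continuous (q j)) {z : E m × ℝ} (hz : z ∈ entrance (meshD a K q lam))
    (hz2 : a < z.2) : ∃ j, j < K ∧ z.2 ≤ 2 ^ j * a ∧ lam j ≤ q j z.1 := by
  by_contra hcon
  have hc : ∀ j, j < K → 2 ^ j * a < z.2 ∨ q j z.1 < lam j := by
    intro j hj
    by_contra h
    rw [not_or, not_lt, not_lt] at h
    exact hcon ⟨j, hj, h.1, h.2⟩
  have hopen : IsOpen ({w : E m × ℝ | a < w.2} ∩ ⋂ j ∈ Finset.range K,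
      ({w : E m × ℝ | 2 ^ j * a < w.2} ∪ {w : E m × ℝ | q j w.1 < lam j})) := by
    refine (isOpen_lt continuous_const continuous_snd).inter
      (isOpen_biInter_finset fun j _ => IsOpen.union ?_ ?_)
    · exact isOpen_lt continuous_const continuous_snd
    · exact isOpen_lt ((hq j).comp continuous_fst) continuous_const
  refine hz.2 (mem_interior.2 ⟨_, ?_, hopen, ?_⟩)
  · rintro w ⟨hw1, hw2⟩
    refine ⟨le_of_lt hw1, fun j hj => ?_⟩
    have h := mem_iInter₂.1 hw2 j (Finset.mem_range.2 hj)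
    rcases h with h | h
    · exact Or.inl (le_of_lt h)
    · exact Or.inr (le_of_lt h)
  · exact ⟨hz2, mem_iInter₂.2 fun j hj => hc j (Finset.mem_range.1 hj)⟩

end Claimed.Agent.R322.Sx.Sep
end

/- ===== packed: Claimed.Agent.R322.Sx.Sep.Match ===== -/
section
/-!
# R322 / Sx / Sep / Match : calculus of `d_∞` and comparison chains (leaves `L-Sep-MatchA`, `L-Sep-MatchB`)

Part A: `Sys.Matched` is a (pseudo)metric relation on lists; monotonicity of `FibMatch`, `IsMajority`.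
Part B: comparison chains of AE Section 4.3.  A ball `B_t(z)` is `Quiet` with quantum `q0` if AE Lemma 2.6
(`F.cfg`) applies on it with a local bound `δ` such that `t √δ ≤ q0`.  Then majority configurations with error
`C_maj q0` exist on it (`Quiet.exists_qmaj`), two of them on adjacent balls match within
`2 C_maj q0` (`qmaj_adjacent` = AE (4.10)), and the two primitive chains `shrink`, `slide` follow by
induction on the number of steps (radii `s 2^{-k}`; centre steps `≤ s/4`).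
-/

set_option autoImplicit false

namespace Claimed.Agent.R322.Sx.Sep

open MeasureTheory Set Metric
open scoped ENNReal NNReal InnerProductSpace

variable {m n Q : ℕ} {Cg : ℝ}

/-! ## Part A -/

theorem matched_refl (A : Fin Q → E n) : Sys.Matched A A 0 := by
  exact ⟨Equiv.refl _, fun j => by simp⟩

theorem matched_symm {A A' : Fin Q → E n} {r : ℝ} (h : Sys.Matched A A' r) :
    Sys.Matched A' A r := by
  obtain ⟨σ, hσ⟩ := h
  refine ⟨σ.symm, fun j => ?_⟩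
  have h1 := hσ (σ.symm j)
  rw [Equiv.apply_symm_apply] at h1
  rwa [norm_sub_rev]

theorem matched_trans {A A' A'' : Fin Q → E n} {r r' : ℝ} (h : Sys.Matched A A' r)
    (h' : Sys.Matched A' A'' r') : Sys.Matched A A'' (r + r') := by
  obtain ⟨σ, hσ⟩ := h
  obtain ⟨σ', hσ'⟩ := h'
  refine ⟨σ.trans σ', fun j => ?_⟩
  have e : A j - A'' ((σ.trans σ') j) = (A j - A' (σ j)) + (A' (σ j) - A'' (σ' (σ j))) := by
    rw [Equiv.trans_apply]
    abel
  rw [e]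
  exact (norm_add_le _ _).trans (add_le_add (hσ j) (hσ' (σ j)))

theorem matched_mono {A A' : Fin Q → E n} {r r' : ℝ} (h : Sys.Matched A A' r) (hr : r ≤ r') :
    Sys.Matched A A' r' := by
  obtain ⟨σ, hσ⟩ := h
  exact ⟨σ, fun j => (hσ j).trans hr⟩

theorem distA_le_of_matched (hQ : 1 ≤ Q) {A A' : Fin Q → E n} {r : ℝ} (h : Sys.Matched A A' r)
    (ζ : E n) : Sys.distA A' ζ ≤ Sys.distA A ζ + r := by
  obtain ⟨σ, hσ⟩ := h
  have hne : (range A).Nonempty := ⟨A ⟨0, hQ⟩, mem_range_self _⟩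
  have h1 : Sys.distA A' ζ - r ≤ Sys.distA A ζ := by
    unfold Sys.distA
    rw [Metric.le_infDist hne]
    rintro _ ⟨j, rfl⟩
    have h2 : infDist ζ (range A') ≤ dist ζ (A' (σ j)) :=
      Metric.infDist_le_dist_of_mem (mem_range_self _)
    have h3 : dist ζ (A' (σ j)) ≤ dist ζ (A j) + dist (A j) (A' (σ j)) := dist_triangle _ _ _
    have h4 : dist (A j) (A' (σ j)) ≤ r := by
      rw [dist_eq_norm]
      exact hσ j
    linarith
  linarith

/-- `dist(ζ, 𝒜) < r` iff some entry is within `r`. -/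
theorem distA_lt_iff (hQ : 1 ≤ Q) (A : Fin Q → E n) (ζ : E n) (r : ℝ) :
    Sys.distA A ζ < r ↔ ∃ j, ‖ζ - A j‖ < r := by
  have hne : (range A).Nonempty := ⟨A ⟨0, hQ⟩, mem_range_self _⟩
  unfold Sys.distA
  rw [Metric.infDist_lt_iff hne]
  constructor
  · rintro ⟨_, ⟨j, rfl⟩, h⟩
    exact ⟨j, by rwa [← dist_eq_norm]⟩
  · rintro ⟨j, h⟩
    exact ⟨A j, mem_range_self _, by rwa [dist_eq_norm]⟩

theorem fibMatch_mono {Fb : Multiset (E n)} {A : Fin Q → E n} {r r' : ℝ}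
    (h : Sys.FibMatch Fb A r) (hr : r ≤ r') : Sys.FibMatch Fb A r' := by
  obtain ⟨L, hL, h1⟩ := h
  exact ⟨L, hL, fun j => (h1 j).trans hr⟩

/-- a fibre matched to `A'` is matched to a reordering of every list matched to `A'`. -/
theorem fibMatch_of_matched {Fb : Multiset (E n)} {A A' : Fin Q → E n} {r r' : ℝ}
    (h : Sys.FibMatch Fb A' r) (h' : Sys.Matched A' A r') :
    ∃ σ : Equiv.Perm (Fin Q), Sys.FibMatch Fb (A ∘ σ) (r + r') := by
  obtain ⟨L, hL, h1⟩ := h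
  obtain ⟨σ, hσ⟩ := h'
  refine ⟨σ, L, hL, fun j => ?_⟩
  have e : L j - (A ∘ σ) j = (L j - A' j) + (A' j - A (σ j)) := by
    rw [Function.comp_apply]
    abel
  rw [e]
  exact (norm_add_le _ _).trans (add_le_add (h1 j) (hσ j))

theorem isMajority_mono {S : Sys m n} {x : E m} {s δ r r' : ℝ} {A : Fin Q → E n}
    (h : S.IsMajority x s δ r A) (hr : r ≤ r') : S.IsMajority x s δ r' A := by
  refine le_trans (measure_mono ?_) h
  rintro y ⟨hy1, hy2⟩
  exact ⟨hy1, fun h3 => hy2 (fibMatch_mono h3 hr)⟩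

/-! ## Part B -/

/-- AE Lemma 2.6 applies on `B_t(z)` with a matching error at most `C_maj q0`. -/
def Quiet (F : Fix m n Q Cg) (S : Sys m n) (q0 : ℝ) (z : E m) (t : ℝ) : Prop :=
  0 < t ∧ t ≤ 1 ∧ ball z (F.c * t) ⊆ S.Ω ∧ ∃ δ : ℝ, 0 ≤ δ ∧ δ ≤ F.d0 ∧
    S.tau Q (ball z (F.c * t)) ≤ ENNReal.ofReal (δ * t ^ m) ∧ t * Real.sqrt δ ≤ q0

/-- majority configuration on `B_t(z)` with error `C_maj q0`. -/
def QMaj (F : Fix m n Q Cg) (S : Sys m n) (q0 : ℝ) (z : E m) (t : ℝ) (A : Fin Q → E n) : Prop :=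
  S.IsMajority z t F.δmaj (F.Cmaj * q0) A

theorem Quiet.q0_nonneg {F : Fix m n Q Cg} {S : Sys m n} {q0 : ℝ} {z : E m} {t : ℝ}
    (h : Quiet F S q0 z t) : 0 ≤ q0 := by
  obtain ⟨ht, -, -, δ, -, -, -, hq⟩ := h
  exact (mul_nonneg ht.le (Real.sqrt_nonneg _)).trans hq

theorem Quiet.ball_subset {F : Fix m n Q Cg} {S : Sys m n} {q0 : ℝ} {z : E m} {t : ℝ}
    (h : Quiet F S q0 z t) : ball z t ⊆ S.Ω := by
  obtain ⟨ht, -, hb, -⟩ := h
  refine (ball_subset_ball ?_).trans hb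
  have := F.c_gt
  nlinarith

theorem Quiet.exists_qmaj {F : Fix m n Q Cg} {S : Sys m n} (hS : S.Valid) (hCg : S.Cg ≤ Cg)
    {q0 : ℝ} {z : E m} {t : ℝ} (h : Quiet F S q0 z t) : ∃ A : Fin Q → E n, QMaj F S q0 z t A := by
  obtain ⟨ht, ht1, hb, δ, hδ0, hδ1, hτ, hq⟩ := h
  obtain ⟨A, hA⟩ := F.cfg S hS hCg z t δ ht ht1 hδ0 hδ1 hb hτ
  refine ⟨A, isMajority_mono hA.maj ?_⟩
  calc F.Cmaj * t * Real.sqrt δ = F.Cmaj * (t * Real.sqrt δ) := by ring
    _ ≤ F.Cmaj * q0 := mul_le_mul_of_nonneg_left hq F.Cmaj_pos.le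

/-- `F.IsMaj` with `s √dloc ≤ q0` is a `QMaj`. -/
theorem qmaj_of_isMaj {F : Fix m n Q Cg} {S : Sys m n} {q0 : ℝ} {z : E m} {t dloc : ℝ}
    {A : Fin Q → E n} (h : F.IsMaj S z t dloc A) (hq : t * Real.sqrt dloc ≤ q0) :
    QMaj F S q0 z t A := by
  refine isMajority_mono h ?_
  calc F.Cmaj * t * Real.sqrt dloc = F.Cmaj * (t * Real.sqrt dloc) := by ring
    _ ≤ F.Cmaj * q0 := mul_le_mul_of_nonneg_left hq F.Cmaj_pos.le

/-- AE (4.10). -/
theorem qmaj_adjacent {F : Fix m n Q Cg} {S : Sys m n} (hS : S.Valid) {q0 : ℝ} {z z' : E m}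
    {t t' : ℝ} {A A' : Fin Q → E n} (hadj : Adjacent z z' t t') (hb : ball z t ⊆ S.Ω)
    (hb' : ball z' t' ⊆ S.Ω) (hA : QMaj F S q0 z t A) (hA' : QMaj F S q0 z' t' A') :
    Sys.Matched A A' (2 * F.Cmaj * q0) := by
  have ht : 0 < t := hadj.1
  have hV0 : S.volS (ball z t) ≠ 0 := by
    intro h0
    have h1 := hS.le_volS hb
    rw [h0, mul_zero] at h1
    exact absurd (le_antisymm h1 zero_le) (measure_ball_pos volume z ht).ne'
  have hVt : S.volS (ball z t) ≠ ∞ :=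
    ne_top_of_le_ne_top (ENNReal.mul_ne_top (by norm_num) measure_ball_lt_top.ne)
      (hS.volS_le (ball z t))
  have hVt' : S.volS (ball z' t') ≠ ∞ :=
    ne_top_of_le_ne_top (ENNReal.mul_ne_top (by norm_num) measure_ball_lt_top.ne)
      (hS.volS_le (ball z' t'))
  have hsum0 : S.volS (ball z t) + S.volS (ball z' t') ≠ 0 := by
    intro h0
    exact hV0 (add_eq_zero.1 h0).1
  have hsumt : S.volS (ball z t) + S.volS (ball z' t') ≠ ∞ := ENNReal.add_ne_top.2 ⟨hVt, hVt'⟩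
  have hθ : 0 < thetaOv m := lt_trans F.δ_pos F.δ_lt
  have hlt : ENNReal.ofReal F.δmaj < ENNReal.ofReal (thetaOv m) :=
    (ENNReal.ofReal_lt_ofReal_iff hθ).2 F.δ_lt
  have hov : ENNReal.ofReal F.δmaj * S.volS (ball z t) + ENNReal.ofReal F.δmaj * S.volS (ball z' t')
      < S.volS (ball z t ∩ ball z' t') := by
    rw [← mul_add]
    exact lt_of_lt_of_le ((ENNReal.mul_lt_mul_iff_left hsum0 hsumt).2 hlt)
      (overlap_of_adjacent hS hadj hb hb')
  have h := majority_matching hS hA hA' hov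
  rwa [show F.Cmaj * q0 + F.Cmaj * q0 = 2 * F.Cmaj * q0 by ring] at h

/-- concentric chain, induction on the number of halvings. -/
theorem shrink_aux {F : Fix m n Q Cg} {S : Sys m n} (hS : S.Valid) (hCg : S.Cg ≤ Cg) {q0 : ℝ}
    {x : E m} {s' : ℝ} {A' : Fin Q → E n} (hs' : 0 < s') (hA' : QMaj F S q0 x s' A') (N : ℕ) :
    ∀ (s : ℝ) (A : Fin Q → E n), s' ≤ s → s ≤ 2 ^ N * s' →
      (∀ t, s' ≤ t → t ≤ s → Quiet F S q0 x t) → QMaj F S q0 x s A →
      Sys.Matched A A' (2 * F.Cmaj * q0 * ((N : ℝ) + 1)) := by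
  induction N with
  | zero =>
    intro s A hss hs2 hq hA
    have hadj : Adjacent x x s s' := by
      refine ⟨lt_of_lt_of_le hs' hss, hs', ?_, by linarith, ?_⟩
      · rw [pow_zero, one_mul] at hs2
        linarith
      · rw [sub_self, norm_zero]
        exact div_nonneg (le_min (hs'.le.trans hss) hs'.le) (by norm_num)
    have h := qmaj_adjacent hS hadj (hq s hss le_rfl).ball_subset (hq s' le_rfl hss).ball_subset
      hA hA'
    simpa using h
  | succ N ih =>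
    intro s A hss hs2 hq hA
    have hq0 : 0 ≤ q0 := (hq s hss le_rfl).q0_nonneg
    have hc0 : 0 ≤ 2 * F.Cmaj * q0 := mul_nonneg (mul_nonneg (by norm_num) F.Cmaj_pos.le) hq0
    have hs : 0 < s := lt_of_lt_of_le hs' hss
    by_cases h2 : s ≤ 2 * s'
    · have hadj : Adjacent x x s s' := by
        refine ⟨hs, hs', h2, by linarith, ?_⟩
        rw [sub_self, norm_zero]
        exact div_nonneg (le_min hs.le hs'.le) (by norm_num)
      have h := qmaj_adjacent hS hadj (hq s hss le_rfl).ball_subset (hq s' le_rfl hss).ball_subset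
        hA hA'
      refine matched_mono h ?_
      have hN : (0 : ℝ) ≤ ((N + 1 : ℕ) : ℝ) := Nat.cast_nonneg _
      nlinarith
    · have h2' : 2 * s' < s := not_le.1 h2
      have hhalf : s' ≤ s / 2 := by linarith
      obtain ⟨A1, hA1⟩ := (hq (s / 2) hhalf (by linarith)).exists_qmaj hS hCg
      have hadj : Adjacent x x s (s / 2) := by
        refine ⟨hs, by linarith, by linarith, by linarith, ?_⟩
        rw [sub_self, norm_zero]
        exact div_nonneg (le_min hs.le (by linarith)) (by norm_num)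
      have h := qmaj_adjacent hS hadj (hq s hss le_rfl).ball_subset
        (hq (s / 2) hhalf (by linarith)).ball_subset hA hA1
      have h3 := ih (s / 2) A1 hhalf (by rw [pow_succ] at hs2; linarith)
        (fun t ht1 ht2 => hq t ht1 (by linarith)) hA1
      have h4 := matched_trans h h3
      refine matched_mono h4 (le_of_eq ?_)
      push_cast
      ring

/-- concentric chain. -/
theorem shrink {F : Fix m n Q Cg} {S : Sys m n} (hS : S.Valid) (hCg : S.Cg ≤ Cg) {q0 : ℝ}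
    {x : E m} {s s' : ℝ} {A A' : Fin Q → E n} (hs' : 0 < s') (hss : s' ≤ s)
    (hq : ∀ t, s' ≤ t → t ≤ s → Quiet F S q0 x t) (hA : QMaj F S q0 x s A)
    (hA' : QMaj F S q0 x s' A') :
    Sys.Matched A A' (2 * F.Cmaj * q0 * (Real.logb 2 (s / s') + 2)) := by
  have hq0 : 0 ≤ q0 := (hq s hss le_rfl).q0_nonneg
  have hc0 : 0 ≤ 2 * F.Cmaj * q0 := mul_nonneg (mul_nonneg (by norm_num) F.Cmaj_pos.le) hq0
  have hs : 0 < s := lt_of_lt_of_le hs' hss
  have h1 := shrink_aux hS hCg hs' hA' ⌈Real.logb 2 (s / s')⌉₊ s A hss ?_ hq hA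
  · refine matched_mono h1 (mul_le_mul_of_nonneg_left ?_ hc0)
    have h2 : 0 ≤ Real.logb 2 (s / s') :=
      Real.logb_nonneg (by norm_num) ((one_le_div hs').2 hss)
    have h3 := Nat.ceil_lt_add_one h2
    linarith
  · have h2 : Real.logb 2 (s / s') ≤ (⌈Real.logb 2 (s / s')⌉₊ : ℝ) := Nat.le_ceil _
    rw [Real.logb_le_iff_le_rpow (by norm_num) (div_pos hs hs'), Real.rpow_natCast,
      div_le_iff₀ hs'] at h2
    exact h2

/-- chain of equal radii, induction on the number of steps. -/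
theorem slide_aux {F : Fix m n Q Cg} {S : Sys m n} (hS : S.Valid) (hCg : S.Cg ≤ Cg) {q0 : ℝ}
    {x' : E m} {s : ℝ} {A' : Fin Q → E n} (hs : 0 < s) (hA' : QMaj F S q0 x' s A') (N : ℕ) :
    ∀ (x : E m) (A : Fin Q → E n), ‖x - x'‖ ≤ (N : ℝ) * (s / 4) →
      (∀ z ∈ segment ℝ x x', Quiet F S q0 z s) → QMaj F S q0 x s A →
      Sys.Matched A A' (2 * F.Cmaj * q0 * ((N : ℝ) + 1)) := by
  have hmin : min s s / 4 = s / 4 := by rw [min_self]
  induction N with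
  | zero =>
    intro x A hx hq hA
    have hadj : Adjacent x x' s s := by
      refine ⟨hs, hs, by linarith, by linarith, ?_⟩
      rw [hmin]
      simp only [Nat.cast_zero, zero_mul] at hx
      linarith
    have h := qmaj_adjacent hS hadj (hq x (left_mem_segment ℝ x x')).ball_subset
      (hq x' (right_mem_segment ℝ x x')).ball_subset hA hA'
    simpa using h
  | succ N ih =>
    intro x A hx hq hA
    have hq0 : 0 ≤ q0 := (hq x (left_mem_segment ℝ x x')).q0_nonneg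
    have hc0 : 0 ≤ 2 * F.Cmaj * q0 := mul_nonneg (mul_nonneg (by norm_num) F.Cmaj_pos.le) hq0
    by_cases h2 : ‖x - x'‖ ≤ s / 4
    · have hadj : Adjacent x x' s s := ⟨hs, hs, by linarith, by linarith, by rw [hmin]; exact h2⟩
      have h := qmaj_adjacent hS hadj (hq x (left_mem_segment ℝ x x')).ball_subset
        (hq x' (right_mem_segment ℝ x x')).ball_subset hA hA'
      refine matched_mono h ?_
      have hN : (0 : ℝ) ≤ ((N + 1 : ℕ) : ℝ) := Nat.cast_nonneg _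
      nlinarith
    · have h2' : s / 4 < ‖x - x'‖ := not_le.1 h2
      have hd : 0 < ‖x - x'‖ := lt_trans (by linarith) h2'
      obtain ⟨θ, hθ⟩ : ∃ θ : ℝ, θ = s / 4 / ‖x - x'‖ := ⟨_, rfl⟩
      have hθ0 : 0 < θ := by rw [hθ]; positivity
      have hθ1 : θ < 1 := by rw [hθ, div_lt_one hd]; exact h2'
      have hθd : θ * ‖x - x'‖ = s / 4 := by rw [hθ]; field_simp
      obtain ⟨z, hz⟩ : ∃ z : E m, z = (1 - θ) • x + θ • x' := ⟨_, rfl⟩
      have hzmem : z ∈ segment ℝ x x' :=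
        ⟨1 - θ, θ, by linarith, hθ0.le, by ring, hz.symm⟩
      have e1 : x - z = θ • (x - x') := by
        rw [hz, smul_sub, sub_smul, one_smul]
        abel
      have e2 : z - x' = (1 - θ) • (x - x') := by
        rw [hz, smul_sub, sub_smul, sub_smul, one_smul, one_smul]
        abel
      have n1 : ‖x - z‖ = s / 4 := by
        rw [e1, norm_smul, Real.norm_of_nonneg hθ0.le, hθd]
      have n2 : ‖z - x'‖ = ‖x - x'‖ - s / 4 := by
        rw [e2, norm_smul, Real.norm_of_nonneg (by linarith), sub_mul, one_mul, hθd]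
      obtain ⟨A1, hA1⟩ := (hq z hzmem).exists_qmaj hS hCg
      have hadj : Adjacent x z s s := ⟨hs, hs, by linarith, by linarith, by rw [hmin, n1]⟩
      have h := qmaj_adjacent hS hadj (hq x (left_mem_segment ℝ x x')).ball_subset
        (hq z hzmem).ball_subset hA hA1
      have hsub : segment ℝ z x' ⊆ segment ℝ x x' :=
        (convex_segment x x').segment_subset hzmem (right_mem_segment ℝ x x')
      have h3 := ih z A1 (by rw [n2]; push_cast at hx; linarith) (fun w hw => hq w (hsub hw)) hA1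
      have h4 := matched_trans h h3
      refine matched_mono h4 (le_of_eq ?_)
      push_cast
      ring

/-- chain of equal radii along a segment. -/
theorem slide {F : Fix m n Q Cg} {S : Sys m n} (hS : S.Valid) (hCg : S.Cg ≤ Cg) {q0 : ℝ}
    {x x' : E m} {s : ℝ} {A A' : Fin Q → E n}
    (hq : ∀ z ∈ segment ℝ x x', Quiet F S q0 z s) (hA : QMaj F S q0 x s A)
    (hA' : QMaj F S q0 x' s A') :
    Sys.Matched A A' (2 * F.Cmaj * q0 * (4 * ‖x - x'‖ / s + 2)) := by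
  have hqx := hq x (left_mem_segment ℝ x x')
  have hq0 : 0 ≤ q0 := hqx.q0_nonneg
  have hc0 : 0 ≤ 2 * F.Cmaj * q0 := mul_nonneg (mul_nonneg (by norm_num) F.Cmaj_pos.le) hq0
  have hs : 0 < s := hqx.1
  have h1 := slide_aux hS hCg hs hA' ⌈4 * ‖x - x'‖ / s⌉₊ x A ?_ hq hA
  · refine matched_mono h1 (mul_le_mul_of_nonneg_left ?_ hc0)
    have h2 : 0 ≤ 4 * ‖x - x'‖ / s := by positivity
    have h3 := Nat.ceil_lt_add_one h2
    linarith
  · have h2 : 4 * ‖x - x'‖ / s ≤ (⌈4 * ‖x - x'‖ / s⌉₊ : ℝ) := Nat.le_ceil _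
    rw [div_le_iff₀ hs] at h2
    linarith

end Claimed.Agent.R322.Sx.Sep
end

/- ===== packed: Claimed.Agent.R322.Sx.Sep.NearHitOde ===== -/
section
/-!
# R322 / Sx / Sep / NearHitOde : proof of `nearhit_ode` (leaf `L-Sep-NH-ode`), pure real analysis

Notation `E v = K v^{-(2+ε)}`, `W v = K (s0^{-ε} - v^{-ε})/ε` (`W' = v E`, `W s0 = 0`, `0 ≤ W ≤ 2 I₁/ε`), `Z s = ∫_{s0}^s u L'(u) du ≥ 0`,
`Φ v = v² M v - Z v`.  Instead of `B` of the blueprint we use `Φ` (no integral of `M` is needed):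
* `Φ + (δe + c Ce) W` is nondecreasing (`nho_bank`);
* `M - s0^{-2} (Φ + (2 δe + c Ce) W)` is nonincreasing (`nho_upper`);
* `v₁² M v₁ ≥ c₁ I₁` (`nho_lower`).
-/

set_option autoImplicit false

namespace Claimed.Agent.R322.Sx.Sep

open MeasureTheory Set

theorem nho_mono {f f' : ℝ → ℝ} {a b : ℝ} (hab : a ≤ b)
    (h : ∀ x ∈ Icc a b, HasDerivAt f (f' x) x) (h0 : ∀ x ∈ Icc a b, 0 ≤ f' x) : f a ≤ f b := by
  refine monotoneOn_of_deriv_nonneg (convex_Icc a b)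
    (fun x hx => (h x hx).continuousAt.continuousWithinAt)
    (fun x hx => (h x (interior_subset hx)).differentiableAt.differentiableWithinAt)
    (fun x hx => ?_) (left_mem_Icc.2 hab) (right_mem_Icc.2 hab) hab
  rw [(h x (interior_subset hx)).deriv]
  exact h0 x (interior_subset hx)

theorem nho_Z_deriv {Lp : ℝ → ℝ} (hLp : ContinuousOn Lp (Ioi 0)) {s0 v : ℝ} (hs0 : 0 < s0)
    (hv : 0 < v) : HasDerivAt (fun s => ∫ u in s0..s, u * Lp u) (v * Lp v) v := by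
  have hf : ContinuousOn (fun u => u * Lp u) (Ioi 0) := continuousOn_id.mul hLp
  refine intervalIntegral.integral_hasDerivAt_right ?_ ?_ ?_
  · apply ContinuousOn.intervalIntegrable
    apply hf.mono
    intro x hx
    exact lt_of_lt_of_le (lt_min hs0 hv) hx.1
  · exact hf.stronglyMeasurableAtFilter isOpen_Ioi v hv
  · exact hf.continuousAt (Ioi_mem_nhds hv)

theorem nho_Z_nonneg {Lp g : ℝ → ℝ} (hLp : ContinuousOn Lp (Ioi 0)) (hg : ContinuousOn g (Ioi 0))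
    {s0 s : ℝ} (hs0 : 0 < s0) (hs : s0 ≤ s) (hg0 : ∀ v ∈ Icc s0 s, 0 ≤ g v)
    (h : 0 ≤ ∫ v in s0..s, v * (Lp v - g v)) : 0 ≤ ∫ u in s0..s, u * Lp u := by
  have hsub : uIcc s0 s ⊆ Ioi 0 := by
    intro x hx
    exact lt_of_lt_of_le (lt_min hs0 (hs0.trans_le hs)) hx.1
  have i1 : IntervalIntegrable (fun v => v * (Lp v - g v)) volume s0 s :=
    ((continuousOn_id.mul (hLp.sub hg)).mono hsub).intervalIntegrable
  have i2 : IntervalIntegrable (fun v => v * g v) volume s0 s :=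
    ((continuousOn_id.mul hg).mono hsub).intervalIntegrable
  have e : ∫ u in s0..s, u * Lp u
      = (∫ v in s0..s, v * (Lp v - g v)) + ∫ v in s0..s, v * g v := by
    rw [← intervalIntegral.integral_add i1 i2]
    refine intervalIntegral.integral_congr fun u _ => ?_
    ring
  rw [e]
  have : 0 ≤ ∫ v in s0..s, v * g v :=
    intervalIntegral.integral_nonneg hs fun u hu => mul_nonneg (hs0.le.trans hu.1) (hg0 u hu)
  linarith

theorem nho_W_deriv {K ε s0 v : ℝ} (hε : 0 < ε) (hv : 0 < v) :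
    HasDerivAt (fun v : ℝ => K * (s0 ^ (-ε) - v ^ (-ε)) / ε) (v * (K * v ^ (-(2 + ε)))) v := by
  have h1 : HasDerivAt (fun v : ℝ => v ^ (-ε)) (-ε * v ^ (-ε - 1)) v :=
    Real.hasDerivAt_rpow_const (Or.inl hv.ne')
  have h2 := ((h1.const_sub (s0 ^ (-ε))).const_mul K).div_const ε
  have e : v ^ (-ε - 1) = v * v ^ (-(2 + ε)) := by
    rw [show -ε - 1 = 1 + -(2 + ε) by ring, Real.rpow_add hv, Real.rpow_one]
  have e2 : v * (K * v ^ (-(2 + ε))) = K * -(-ε * v ^ (-ε - 1)) / ε := by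
    rw [e]
    field_simp
  rw [e2]
  exact h2

section abstract

variable {s0 ρ c δe Ce : ℝ} {M Md D Rr Lp E W Z : ℝ → ℝ}

theorem nho_bank (hs0 : 0 < s0) (hc0 : 0 ≤ c)
    (hM : ∀ v ∈ Icc s0 ρ, HasDerivAt M (v⁻¹ * Md v) v)
    (hW : ∀ v ∈ Icc s0 ρ, HasDerivAt W (v * E v) v)
    (hZ : ∀ v ∈ Icc s0 ρ, HasDerivAt Z (v * Lp v) v)
    (herr : ∀ v ∈ Icc s0 ρ, |Md v + D v - Rr v| ≤ δe * E v)
    (hD : ∀ v ∈ Icc s0 ρ, 0 ≤ D v ∧ D v ≤ Ce * E v ∧ 0 ≤ Rr v)
    (hL : ∀ v ∈ Icc s0 ρ, Lp v ≤ 2 * M v - (1 - c) * D v)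
    {a b : ℝ} (ha : s0 ≤ a) (hab : a ≤ b) (hb : b ≤ ρ) :
    a ^ 2 * M a - Z a + (δe + c * Ce) * W a ≤ b ^ 2 * M b - Z b + (δe + c * Ce) * W b := by
  refine nho_mono (f := fun v => v ^ 2 * M v - Z v + (δe + c * Ce) * W v)
    (f' := fun v => (2 * v * M v + v ^ 2 * (v⁻¹ * Md v)) - v * Lp v + (δe + c * Ce) * (v * E v))
    hab ?_ ?_
  · intro x hx
    have hx' : x ∈ Icc s0 ρ := ⟨ha.trans hx.1, hx.2.trans hb⟩
    have h1 : HasDerivAt (fun v : ℝ => v ^ 2) (2 * x) x := by simpa using hasDerivAt_pow 2 x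
    exact ((h1.mul (hM x hx')).sub (hZ x hx')).add ((hW x hx').const_mul _)
  · intro x hx
    have hx' : x ∈ Icc s0 ρ := ⟨ha.trans hx.1, hx.2.trans hb⟩
    have hx0 : 0 < x := hs0.trans_le hx'.1
    obtain ⟨hD0, hD1, hR⟩ := hD x hx'
    have he := abs_le.1 (herr x hx')
    have hl := hL x hx'
    have e : (2 * x * M x + x ^ 2 * (x⁻¹ * Md x)) - x * Lp x + (δe + c * Ce) * (x * E x)
        = x * (2 * M x + Md x - Lp x + (δe + c * Ce) * E x) := by
      field_simp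
    rw [e]
    apply mul_nonneg hx0.le
    have hcD := mul_le_mul_of_nonneg_left hD1 hc0
    nlinarith [he.1, he.2]

theorem nho_upper (hs0 : 0 < s0) (hc0 : 0 ≤ c) (hc1 : c ≤ 1)
    (hM : ∀ v ∈ Icc s0 ρ, HasDerivAt M (v⁻¹ * Md v) v)
    (hW : ∀ v ∈ Icc s0 ρ, HasDerivAt W (v * E v) v)
    (hZ : ∀ v ∈ Icc s0 ρ, HasDerivAt Z (v * Lp v) v)
    (herr : ∀ v ∈ Icc s0 ρ, |Md v + D v - Rr v| ≤ δe * E v)
    (hD : ∀ v ∈ Icc s0 ρ, 0 ≤ D v ∧ D v ≤ Ce * E v ∧ 0 ≤ Rr v)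
    (hL : ∀ v ∈ Icc s0 ρ, Lp v ≤ 2 * M v - (1 - c) * D v)
    {b : ℝ} (hab : s0 ≤ b) (hb : b ≤ ρ) :
    (s0 ^ 2)⁻¹ * (s0 ^ 2 * M s0 - Z s0 + (2 * δe + c * Ce) * W s0) - M s0
      ≤ (s0 ^ 2)⁻¹ * (b ^ 2 * M b - Z b + (2 * δe + c * Ce) * W b) - M b := by
  refine nho_mono (f := fun v => (s0 ^ 2)⁻¹ * (v ^ 2 * M v - Z v + (2 * δe + c * Ce) * W v) - M v)
    (f' := fun v => (s0 ^ 2)⁻¹ * ((2 * v * M v + v ^ 2 * (v⁻¹ * Md v)) - v * Lp v
      + (2 * δe + c * Ce) * (v * E v)) - v⁻¹ * Md v) hab ?_ ?_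
  · intro x hx
    have hx' : x ∈ Icc s0 ρ := ⟨hx.1, hx.2.trans hb⟩
    have h1 : HasDerivAt (fun v : ℝ => v ^ 2) (2 * x) x := by simpa using hasDerivAt_pow 2 x
    exact ((((h1.mul (hM x hx')).sub (hZ x hx')).add ((hW x hx').const_mul _)).const_mul _).sub
      (hM x hx')
  · intro x hx
    have hx' : x ∈ Icc s0 ρ := ⟨hx.1, hx.2.trans hb⟩
    have hx0 : 0 < x := hs0.trans_le hx'.1
    obtain ⟨hD0, hD1, hR⟩ := hD x hx'
    have he := abs_le.1 (herr x hx')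
    have hl := hL x hx'
    have hcD := mul_le_mul_of_nonneg_left hD1 hc0
    have hcD' : c * D x ≤ D x := by nlinarith
    set X : ℝ := 2 * M x + Md x - Lp x + (2 * δe + c * Ce) * E x with hX
    have hX0 : 0 ≤ X := by rw [hX]; nlinarith [he.1, he.2]
    have hXM : Md x ≤ X := by rw [hX]; nlinarith [he.1, he.2]
    have e : (s0 ^ 2)⁻¹ * ((2 * x * M x + x ^ 2 * (x⁻¹ * Md x)) - x * Lp x
        + (2 * δe + c * Ce) * (x * E x)) - x⁻¹ * Md x = (s0 ^ 2)⁻¹ * x * X - x⁻¹ * Md x := by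
      rw [hX]; field_simp
    rw [e]
    have h3 : x⁻¹ ≤ (s0 ^ 2)⁻¹ * x := by
      rw [inv_mul_eq_div, le_div_iff₀ (by positivity), inv_mul_eq_div, div_le_iff₀ hx0]
      nlinarith [hx.1]
    have h4 : x⁻¹ * Md x ≤ x⁻¹ * X := mul_le_mul_of_nonneg_left hXM (by positivity)
    have h5 : x⁻¹ * X ≤ (s0 ^ 2)⁻¹ * x * X := mul_le_mul_of_nonneg_right h3 hX0
    linarith

end abstract

/-- the decrease of `Z` on `[v1, e^θ v1]` -/
theorem nho_Zdrop {Lp Z : ℝ → ℝ} {v1 θ q : ℝ} (hv1 : 0 < v1) (hθ : 0 ≤ θ) (hq : 0 ≤ q)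
    (hZ : ∀ v ∈ Icc v1 (Real.exp θ * v1), HasDerivAt Z (v * Lp v) v)
    (hL : ∀ v ∈ Icc v1 (Real.exp θ * v1), Lp v ≤ -q) :
    Z (Real.exp θ * v1) + q * θ * v1 ^ 2 ≤ Z v1 := by
  have h1 : (1 : ℝ) ≤ Real.exp θ := Real.one_le_exp hθ
  have hab : v1 ≤ Real.exp θ * v1 := by nlinarith
  have key := nho_mono (f := fun v => -Z v - q / 2 * v ^ 2)
    (f' := fun v => -(v * Lp v) - q / 2 * (2 * v)) hab ?_ ?_
  · have h2 : 1 + θ ≤ Real.exp θ := by linarith [Real.add_one_le_exp θ]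
    have h3 : 1 + 2 * θ ≤ Real.exp θ ^ 2 := by nlinarith
    have h4 : q * θ * v1 ^ 2 ≤ q / 2 * ((Real.exp θ * v1) ^ 2 - v1 ^ 2) := by
      have e : (Real.exp θ * v1) ^ 2 - v1 ^ 2 = v1 ^ 2 * (Real.exp θ ^ 2 - 1) := by ring
      rw [e]
      have h5 : 0 ≤ q * v1 ^ 2 := by positivity
      nlinarith
    linarith
  · intro x hx
    have h1 : HasDerivAt (fun v : ℝ => v ^ 2) (2 * x) x := by simpa using hasDerivAt_pow 2 x
    exact (hZ x hx).neg.sub (h1.const_mul _)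
  · intro x hx
    have hx0 : 0 < x := hv1.trans_le hx.1
    have := hL x hx
    have e : -(x * Lp x) - q / 2 * (2 * x) = x * (-Lp x - q) := by ring
    rw [e]
    exact mul_nonneg hx0.le (by linarith)

/-- **The ODE argument of AE (4.26)-(4.30)**, abstract form (= `nearhit_ode` of `NearHit.lean`). -/
theorem nearhit_ode_core (a0 K1 Ce : ℝ) (ha0 : 0 < a0) (hK1 : 0 < K1) (hCe : 0 < Ce) :
    ∃ ℓ0 : ℝ, ∀ ℓ : ℝ, ℓ0 ≤ ℓ → ∀ (ε c δe K s0 v1 ρ : ℝ) (M Md D Rr Lp g : ℝ → ℝ),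
      0 < K → 0 < ε → ε ≤ 1 → 0 ≤ c → c ≤ 1 / 2 → 0 ≤ δe → c ≤ ε / ℓ ^ 58 → δe ≤ ε / ℓ ^ 58 →
      ε * (20 * Real.log ℓ) ≤ Real.log 2 →
      0 < s0 → s0 ≤ v1 → v1 ≤ ℓ ^ 20 * s0 → 16 * v1 ≤ ρ →
      (∀ v ∈ Icc s0 ρ, HasDerivAt M (v⁻¹ * Md v) v) →
      (∀ v ∈ Icc s0 ρ, |Md v + D v - Rr v| ≤ δe * (K * v ^ (-(2 + ε)))) →
      (∀ v ∈ Icc s0 ρ, 0 ≤ D v ∧ D v ≤ Ce * (K * v ^ (-(2 + ε))) ∧ 0 ≤ Rr v) →
      (∀ v ∈ Icc s0 ρ, Lp v ≤ 2 * M v - (1 - c) * D v) →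
      Lp v1 ≤ 2 * M v1 - a0 * (K * v1 ^ (-(2 + ε))) →
      (∀ v ∈ Icc v1 (2 * v1), Lp v ≤ Lp v1 + K1 * (K * v1 ^ (-(2 + ε))) * Real.log (v / v1)) →
      ContinuousOn D (Ioi 0) → ContinuousOn Lp (Ioi 0) → ContinuousOn g (Ioi 0) →
      (∀ v ∈ Icc s0 ρ, 0 ≤ g v) →
      (∀ s ∈ Icc s0 ρ, 0 ≤ ∫ v in s0..s, v * (Lp v - g v)) →
      0 ≤ Lp s0 →
      ρ ^ 2 * M ρ ≤ K * v1 ^ (-ε) / ℓ ^ 41 →
      False := by
  set β : ℝ := a0 / 2 with hβ
  set θ : ℝ := min (Real.log 2) (β / (2 * K1)) with hθ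
  set γ : ℝ := β * θ / 2 with hγ
  set c1 : ℝ := min (a0 / 4) (γ / 4) with hc1
  have hβ0 : 0 < β := by positivity
  have hθ0 : 0 < θ := lt_min (Real.log_pos (by norm_num)) (by positivity)
  have hγ0 : 0 < γ := by positivity
  have hc10 : 0 < c1 := lt_min (by positivity) (by positivity)
  refine ⟨1 + 4 * (1 + Ce) / γ + 2 / c1 + 2 * (2 + Ce), ?_⟩
  intro ℓ hℓ ε c δe K s0 v1 ρ M Md D Rr Lp g hK hε hε1 hc0 hc12 hδ0 hcε hδε hεℓ hs0 hsv hvℓ hvρ hM
    herr hD hL hL1 hLlip hDc hLpc hgc hg0 hint hLs0 htop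
  -- the size of `ℓ`
  have p1 : 0 < 4 * (1 + Ce) / γ := by positivity
  have p2 : 0 < 2 / c1 := by positivity
  have hℓ1 : 1 ≤ ℓ := by linarith
  have hℓ0 : 0 < ℓ := by linarith
  have hℓa : 4 * (1 + Ce) ≤ γ * ℓ := by
    have : 4 * (1 + Ce) / γ ≤ ℓ := by linarith
    rw [div_le_iff₀ hγ0] at this
    linarith
  have hℓb : 2 ≤ c1 * ℓ := by
    have : 2 / c1 ≤ ℓ := by linarith
    rw [div_le_iff₀ hc10] at this
    linarith
  have hℓc : 2 * (2 + Ce) < ℓ := by linarith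
  have hℓ58 : ℓ ≤ ℓ ^ 58 := le_self_pow₀ hℓ1 (by norm_num)
  have hℓ17 : ℓ ≤ ℓ ^ 17 := le_self_pow₀ hℓ1 (by norm_num)
  -- basic positions
  have hv1 : 0 < v1 := hs0.trans_le hsv
  have hv1ρ : v1 ≤ ρ := by linarith
  have hs0ρ : s0 ≤ ρ := hsv.trans hv1ρ
  -- the auxiliary functions
  obtain ⟨W, hWdef⟩ : ∃ W : ℝ → ℝ, W = fun v => K * (s0 ^ (-ε) - v ^ (-ε)) / ε := ⟨_, rfl⟩
  obtain ⟨Z, hZdef⟩ : ∃ Z : ℝ → ℝ, Z = fun s => ∫ u in s0..s, u * Lp u := ⟨_, rfl⟩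
  have hW : ∀ v ∈ Icc s0 ρ, HasDerivAt W (v * (K * v ^ (-(2 + ε)))) v := fun v hv => by
    rw [hWdef]; exact nho_W_deriv hε (hs0.trans_le hv.1)
  have hZ : ∀ v ∈ Icc s0 ρ, HasDerivAt Z (v * Lp v) v := fun v hv => by
    rw [hZdef]; exact nho_Z_deriv hLpc hs0 (hs0.trans_le hv.1)
  have hZ0 : ∀ s ∈ Icc s0 ρ, 0 ≤ Z s := fun s hs => by
    rw [hZdef]
    exact nho_Z_nonneg hLpc hgc hs0 hs.1 (fun v hv => hg0 v ⟨hv.1, hv.2.trans hs.2⟩) (hint s hs)
  have hWs0 : W s0 = 0 := by rw [hWdef]; simp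
  have hZs0 : Z s0 = 0 := by rw [hZdef]; simp
  set I1 : ℝ := K * v1 ^ (-ε) with hI1
  have hI10 : 0 < I1 := by positivity
  have h2 : (v1 / s0) ^ ε ≤ 2 := by
    calc (v1 / s0) ^ ε ≤ (ℓ ^ 20) ^ ε :=
          Real.rpow_le_rpow (by positivity) (by rw [div_le_iff₀ hs0]; exact hvℓ) hε.le
      _ = Real.exp (Real.log (ℓ ^ 20) * ε) := Real.rpow_def_of_pos (by positivity) _
      _ ≤ Real.exp (Real.log 2) := by
          apply Real.exp_le_exp.2
          rw [Real.log_pow]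
          push_cast
          linarith
      _ = 2 := Real.exp_log (by norm_num)
  have hs0ε : s0 ^ (-ε) ≤ 2 * v1 ^ (-ε) := by
    have e : s0 ^ (-ε) = v1 ^ (-ε) * (v1 / s0) ^ ε := by
      rw [Real.div_rpow hv1.le hs0.le, Real.rpow_neg hv1.le, Real.rpow_neg hs0.le]
      have : v1 ^ ε ≠ 0 := (Real.rpow_pos_of_pos hv1 _).ne'
      field_simp
    rw [e]
    have : 0 ≤ v1 ^ (-ε) := by positivity
    rw [mul_comm]
    exact mul_le_mul_of_nonneg_right h2 this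
  have hWle : ∀ v, 0 < v → W v ≤ 2 * I1 / ε := by
    intro v hv
    rw [hWdef]
    show K * (s0 ^ (-ε) - v ^ (-ε)) / ε ≤ 2 * I1 / ε
    apply div_le_div_of_nonneg_right _ hε.le
    have : 0 ≤ v ^ (-ε) := by positivity
    rw [hI1]
    have h3 : K * (s0 ^ (-ε) - v ^ (-ε)) ≤ K * (2 * v1 ^ (-ε)) :=
      mul_le_mul_of_nonneg_left (by linarith) hK.le
    linarith
  have hE1 : v1 ^ 2 * (K * v1 ^ (-(2 + ε))) = I1 := by
    rw [hI1, show -(2 + ε) = -2 + -ε by ring, Real.rpow_add hv1, Real.rpow_neg hv1.le]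
    have : v1 ^ (2 : ℝ) = v1 ^ 2 := by norm_cast
    rw [this]
    field_simp
  have hbank : ∀ a b : ℝ, s0 ≤ a → a ≤ b → b ≤ ρ →
      a ^ 2 * M a - Z a + (δe + c * Ce) * W a ≤ b ^ 2 * M b - Z b + (δe + c * Ce) * W b :=
    fun a b ha hab hb =>
      nho_bank (E := fun v => K * v ^ (-(2 + ε))) hs0 hc0 hM hW hZ herr hD hL ha hab hb
  have hℓp : 0 < ℓ ^ 58 := by positivity
  have key : ∀ κ A : ℝ, κ ≤ A * (ε / ℓ ^ 58) → κ * (2 * I1 / ε) ≤ 2 * A * I1 / ℓ ^ 58 := by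
    intro κ A h
    have h' : κ * (2 * I1 / ε) ≤ A * (ε / ℓ ^ 58) * (2 * I1 / ε) :=
      mul_le_mul_of_nonneg_right h (by positivity)
    have e : A * (ε / ℓ ^ 58) * (2 * I1 / ε) = 2 * A * I1 / ℓ ^ 58 := by field_simp
    linarith
  have hcCe : c * Ce ≤ Ce * (ε / ℓ ^ 58) := by
    rw [mul_comm]; exact mul_le_mul_of_nonneg_left hcε hCe.le
  have hκ1 : (δe + c * Ce) * (2 * I1 / ε) ≤ 2 * (1 + Ce) * I1 / ℓ ^ 58 :=
    key _ _ (by linarith)
  have hκ2 : (2 * δe + c * Ce) * (2 * I1 / ε) ≤ 2 * (2 + Ce) * I1 / ℓ ^ 58 :=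
    key _ _ (by linarith)
  have hκ10 : 0 ≤ δe + c * Ce := by positivity
  have hMs0 : 0 ≤ M s0 := by
    have h1 := hL s0 ⟨le_rfl, hs0ρ⟩
    have h3 := (hD s0 ⟨le_rfl, hs0ρ⟩).1
    have : 0 ≤ (1 - c) * D s0 := mul_nonneg (by linarith) h3
    linarith
  -- the lower bound at `v1`
  have hlow : c1 * I1 ≤ v1 ^ 2 * M v1 := by
    by_contra hcon
    rw [not_le] at hcon
    obtain ⟨E1, hE1def⟩ : ∃ E1 : ℝ, E1 = K * v1 ^ (-(2 + ε)) := ⟨_, rfl⟩
    rw [← hE1def] at hE1 hL1 hLlip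
    have hE10 : 0 < E1 := by rw [hE1def]; positivity
    have hM1 : M v1 < c1 * E1 := by
      rw [← hE1] at hcon
      have hv2 : 0 < v1 ^ 2 := by positivity
      have : v1 ^ 2 * M v1 < v1 ^ 2 * (c1 * E1) := by linarith [hcon]
      exact lt_of_mul_lt_mul_left this hv2.le
    have hc1a : c1 ≤ a0 / 4 := min_le_left _ _
    have hc1g : c1 ≤ γ / 4 := min_le_right _ _
    have hLp1 : Lp v1 ≤ -(β * E1) := by
      have : c1 * E1 ≤ a0 / 4 * E1 := mul_le_mul_of_nonneg_right hc1a hE10.le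
      rw [hβ]
      linarith
    have hexp2 : Real.exp θ ≤ 2 := by
      calc Real.exp θ ≤ Real.exp (Real.log 2) := Real.exp_le_exp.2 (min_le_left _ _)
        _ = 2 := Real.exp_log (by norm_num)
    have hK1θ : K1 * θ ≤ β / 2 := by
      have h' : θ ≤ β / (2 * K1) := min_le_right _ _
      calc K1 * θ ≤ K1 * (β / (2 * K1)) := mul_le_mul_of_nonneg_left h' hK1.le
        _ = β / 2 := by field_simp
    have hLq : ∀ v ∈ Icc v1 (Real.exp θ * v1), Lp v ≤ -(β * E1 / 2) := by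
      intro v hv
      have hv0 : 0 < v := hv1.trans_le hv.1
      have hv2 : v ∈ Icc v1 (2 * v1) :=
        ⟨hv.1, hv.2.trans (mul_le_mul_of_nonneg_right hexp2 hv1.le)⟩
      have h1 := hLlip v hv2
      have hlog : Real.log (v / v1) ≤ θ := by
        rw [Real.log_le_iff_le_exp (by positivity), div_le_iff₀ hv1]; exact hv.2
      have h3 : K1 * E1 * Real.log (v / v1) ≤ β / 2 * E1 := by
        calc K1 * E1 * Real.log (v / v1) ≤ K1 * E1 * θ :=
              mul_le_mul_of_nonneg_left hlog (by positivity)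
          _ = (K1 * θ) * E1 := by ring
          _ ≤ β / 2 * E1 := mul_le_mul_of_nonneg_right hK1θ hE10.le
      linarith
    have hev : Real.exp θ * v1 ≤ ρ := by
      have := mul_le_mul_of_nonneg_right hexp2 hv1.le
      linarith
    have hdrop := nho_Zdrop hv1 hθ0.le (q := β * E1 / 2) (by positivity)
      (fun v hv => hZ v ⟨hsv.trans hv.1, hv.2.trans hev⟩) hLq
    have hve : v1 ≤ Real.exp θ * v1 := le_mul_of_one_le_left hv1.le (Real.one_le_exp hθ0.le)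
    have hZe : 0 ≤ Z (Real.exp θ * v1) := hZ0 _ ⟨hsv.trans hve, hev⟩
    have hγI : γ * I1 ≤ Z v1 := by
      have e : β * E1 / 2 * θ * v1 ^ 2 = γ * I1 := by rw [← hE1, hγ]; ring
      linarith
    have hb := hbank s0 v1 le_rfl hsv hv1ρ
    rw [hZs0, hWs0] at hb
    have hw1 : (δe + c * Ce) * W v1 ≤ (δe + c * Ce) * (2 * I1 / ε) :=
      mul_le_mul_of_nonneg_left (hWle v1 hv1) hκ10
    have hsm : 2 * (1 + Ce) * I1 / ℓ ^ 58 ≤ γ / 2 * I1 := by
      rw [div_le_iff₀ hℓp]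
      have h4 : 4 * (1 + Ce) ≤ γ * ℓ ^ 58 := hℓa.trans (mul_le_mul_of_nonneg_left hℓ58 hγ0.le)
      have h5 := mul_le_mul_of_nonneg_right h4 (half_pos hI10).le
      linarith
    have hs2 : 0 ≤ s0 ^ 2 * M s0 := by positivity
    have h6 : c1 * I1 ≤ γ / 4 * I1 := mul_le_mul_of_nonneg_right hc1g hI10.le
    have h7 : 0 < γ * I1 := by positivity
    linarith
  -- the upper ODE
  have hup := nho_upper (E := fun v => K * v ^ (-(2 + ε))) hs0 hc0 (by linarith) hM hW hZ herr hD hL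
    hsv hv1ρ
  rw [hZs0, hWs0] at hup
  have hs2 : 0 < s0 ^ 2 := by positivity
  have hup' : s0 ^ 2 * M v1 ≤ v1 ^ 2 * M v1 - Z v1 + (2 * δe + c * Ce) * W v1 := by
    have e0 : (s0 ^ 2)⁻¹ * (s0 ^ 2 * M s0 - 0 + (2 * δe + c * Ce) * 0) - M s0 = 0 := by
      field_simp; ring
    rw [e0] at hup
    have h3 : M v1 ≤ (s0 ^ 2)⁻¹ * (v1 ^ 2 * M v1 - Z v1 + (2 * δe + c * Ce) * W v1) := by linarith
    rw [inv_mul_eq_div, le_div_iff₀ hs2] at h3
    linarith
  have hb2 := hbank v1 ρ hsv hv1ρ le_rfl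
  have hZρ : 0 ≤ Z ρ := hZ0 ρ ⟨hs0ρ, le_rfl⟩
  have hρ0 : 0 < ρ := by linarith
  have hw2 : (δe + c * Ce) * W ρ ≤ (δe + c * Ce) * (2 * I1 / ε) :=
    mul_le_mul_of_nonneg_left (hWle ρ hρ0) hκ10
  have hw3 : δe * W v1 ≤ δe * (2 * I1 / ε) := mul_le_mul_of_nonneg_left (hWle v1 hv1) hδ0
  have hmain : s0 ^ 2 * M v1 ≤ ρ ^ 2 * M ρ + 2 * (2 + Ce) * I1 / ℓ ^ 58 := by linarith
  have hMv1 : 0 ≤ M v1 := by
    have : 0 ≤ v1 ^ 2 * M v1 := le_trans (by positivity) hlow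
    exact nonneg_of_mul_nonneg_right this (by positivity)
  have hsM : c1 * I1 / ℓ ^ 40 ≤ s0 ^ 2 * M v1 := by
    rw [div_le_iff₀ (by positivity)]
    have h3 : v1 ^ 2 ≤ ℓ ^ 40 * s0 ^ 2 := by
      calc v1 ^ 2 ≤ (ℓ ^ 20 * s0) ^ 2 := pow_le_pow_left₀ hv1.le hvℓ 2
        _ = ℓ ^ 40 * s0 ^ 2 := by ring
    calc c1 * I1 ≤ v1 ^ 2 * M v1 := hlow
      _ ≤ ℓ ^ 40 * s0 ^ 2 * M v1 := mul_le_mul_of_nonneg_right h3 hMv1
      _ = s0 ^ 2 * M v1 * ℓ ^ 40 := by ring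
  -- numerics
  have hfin : c1 * I1 / ℓ ^ 40 ≤ I1 / ℓ ^ 41 + 2 * (2 + Ce) * I1 / ℓ ^ 58 := by linarith
  have e1 : c1 * I1 / ℓ ^ 40 = I1 / ℓ ^ 58 * (c1 * ℓ * ℓ ^ 17) := by field_simp
  have e2 : I1 / ℓ ^ 41 + 2 * (2 + Ce) * I1 / ℓ ^ 58 = I1 / ℓ ^ 58 * (ℓ ^ 17 + 2 * (2 + Ce)) := by
    field_simp
  rw [e1, e2] at hfin
  have hpos : 0 < I1 / ℓ ^ 58 := by positivity
  have hfin' := le_of_mul_le_mul_left hfin hpos
  have hℓ17p : 0 < ℓ ^ 17 := by positivity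
  have h8 := mul_le_mul_of_nonneg_right hℓb hℓ17p.le
  linarith

end Claimed.Agent.R322.Sx.Sep
end

/- ===== packed: Claimed.Agent.R322.Sx.Sep.Thresh ===== -/
section
/-!
# R322 / Sx / Sep / Thresh : choice of the thresholds (leaf `L-Sep-Thresh`; Mathlib only)

Replaces AE (4.40)-(4.43) ("Choosing the thresholds").  NO probability: the thresholds are chosen one after the
other, from the LARGEST index (largest mesh scale) down.

`exists_level` (pigeonhole).  Put `t_a = 2 - δ - 3 δ a`, `a < n = ⌊1/(3δ)⌋` (all in `[1, 2]`), `u_a = φ(t_a + δ)`;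
`t_{a+1} + δ = t_a - 2δ`.  If the conclusion fails at every `t_a`, then `u_{a+1} > (1+θ) u_a + ε0 Φ`, hence
`u_n > (1+θ)^{n-1} ε0 Φ ≥ Φ`.  (`Φ = 0` and `n < 2` are trivial.)

`exists_thresholds` (induction on `K`, for all finite `ν`; the new index `K` is treated FIRST).  Strengthened claim:
`ν (thrEvent K q lam δ) ≤ θ ν(killed) + K ε0 ν(univ)`, `killed = {y | ∃ j < K, lam j + δ < q j y}`.
Step: `exists_level` for `φ(u) = ν {q K > u}` gives `lam K`; the window `{|q K - lam K| ≤ δ}` has mass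
`≤ φ(lam K - 2δ) - φ(lam K + δ) ≤ θ ν{q K > lam K + δ} + ε0 ν(univ)`; apply the induction hypothesis to
`ν.restrict {q K ≤ lam K + δ}`.
-/

set_option autoImplicit false

namespace Claimed.Agent.R322.Sx.Sep

open MeasureTheory Set
open scoped ENNReal NNReal

/-- AE (4.39): some test `k` is within `δ` of its threshold and all tests of larger index survive. -/
def thrEvent {X : Type*} (K : ℕ) (q : ℕ → X → ℝ) (lam : ℕ → ℝ) (δ : ℝ) : Set X :=
  {y | ∃ k, k < K ∧ |q k y - lam k| ≤ δ ∧ ∀ j, k < j → j < K → q j y ≤ lam j + δ}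

theorem exists_level (φ : ℝ → ℝ) (hφ : Antitone φ) (Φ : ℝ) (h0 : ∀ t, 0 ≤ φ t) (hΦ : ∀ t, φ t ≤ Φ)
    (δ θ ε0 : ℝ) (hδ : 0 < δ) (hθ : 0 < θ) (hε0 : 0 < ε0)
    (hnum : 1 < ε0 * (1 + θ) ^ (⌊1 / (3 * δ)⌋₊ - 2)) :
    ∃ t : ℝ, 1 ≤ t ∧ t ≤ 2 ∧ φ (t - 2 * δ) - φ (t + δ) ≤ θ * φ (t + δ) + ε0 * Φ := by
  have hΦ0 : 0 ≤ Φ := (h0 0).trans (hΦ 0)
  by_cases hε : 1 ≤ ε0
  · refine ⟨1, le_rfl, by norm_num, ?_⟩
    have h1 := hΦ (1 - 2 * δ)
    have h2 := h0 (1 + δ)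
    have h3 : 0 ≤ θ * φ (1 + δ) := mul_nonneg hθ.le h2
    have h4 : 1 * Φ ≤ ε0 * Φ := mul_le_mul_of_nonneg_right hε hΦ0
    linarith
  have hε' : ε0 < 1 := not_le.1 hε
  obtain ⟨m, hm⟩ : ∃ m : ℕ, m = ⌊1 / (3 * δ)⌋₊ - 2 := ⟨_, rfl⟩
  rw [← hm] at hnum
  have hm0 : m ≠ 0 := by
    rintro rfl
    rw [pow_zero, mul_one] at hnum
    linarith
  have hn : ((m + 2 : ℕ) : ℝ) ≤ 1 / (3 * δ) := by
    have h1 : m + 2 = ⌊1 / (3 * δ)⌋₊ := by omega
    rw [h1]
    exact Nat.floor_le (by positivity)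
  have hn' : 3 * δ * ((m : ℝ) + 2) ≤ 1 := by
    rw [le_div_iff₀ (by positivity)] at hn
    push_cast at hn
    linarith
  by_contra hcon
  have hc : ∀ t : ℝ, 1 ≤ t → t ≤ 2 → θ * φ (t + δ) + ε0 * Φ < φ (t - 2 * δ) - φ (t + δ) := by
    intro t h1 h2
    by_contra h3
    exact hcon ⟨t, h1, h2, not_lt.1 h3⟩
  have hεΦ : 0 ≤ ε0 * Φ := mul_nonneg hε0.le hΦ0
  -- one step
  have step : ∀ a : ℕ, a ≤ m →
      (1 + θ) * φ (2 - 3 * δ * (a : ℝ)) + ε0 * Φ < φ (2 - 3 * δ * ((a : ℝ) + 1)) := by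
    intro a ha
    have ha' : (a : ℝ) ≤ (m : ℝ) := by exact_mod_cast ha
    have ha0 : (0 : ℝ) ≤ (a : ℝ) := Nat.cast_nonneg _
    have h1 : 3 * δ * (a : ℝ) ≤ 3 * δ * (m : ℝ) := mul_le_mul_of_nonneg_left ha' (by positivity)
    have h2 : 0 ≤ 3 * δ * (a : ℝ) := by positivity
    have h3 := hc (2 - δ - 3 * δ * (a : ℝ)) (by nlinarith) (by linarith)
    have e1 : 2 - δ - 3 * δ * (a : ℝ) + δ = 2 - 3 * δ * (a : ℝ) := by ring
    have e2 : 2 - δ - 3 * δ * (a : ℝ) - 2 * δ = 2 - 3 * δ * ((a : ℝ) + 1) := by ring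
    rw [e1, e2] at h3
    linarith
  have key : ∀ a : ℕ, a ≤ m → (1 + θ) ^ a * (ε0 * Φ) < φ (2 - 3 * δ * ((a : ℝ) + 1)) := by
    intro a
    induction a with
    | zero =>
      intro ha
      have h1 := step 0 ha
      have h2 : 0 ≤ (1 + θ) * φ (2 - 3 * δ * ((0 : ℕ) : ℝ)) := mul_nonneg (by linarith) (h0 _)
      rw [pow_zero, one_mul]
      linarith
    | succ a ih =>
      intro ha
      have h1 := step (a + 1) ha
      have h2 := ih (by omega)
      have h3 : (1 + θ) * ((1 + θ) ^ a * (ε0 * Φ)) <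
          (1 + θ) * φ (2 - 3 * δ * ((a : ℝ) + 1)) := mul_lt_mul_of_pos_left h2 (by linarith)
      push_cast at h1 ⊢
      rw [pow_succ]
      calc (1 + θ) ^ a * (1 + θ) * (ε0 * Φ) = (1 + θ) * ((1 + θ) ^ a * (ε0 * Φ)) := by ring
        _ < (1 + θ) * φ (2 - 3 * δ * ((a : ℝ) + 1)) := h3
        _ ≤ (1 + θ) * φ (2 - 3 * δ * ((a : ℝ) + 1)) + ε0 * Φ := by linarith
        _ < _ := h1
  have h1 := key m le_rfl
  have h2 := hΦ (2 - 3 * δ * ((m : ℝ) + 1))
  have h3 : 1 * Φ ≤ ε0 * (1 + θ) ^ m * Φ := mul_le_mul_of_nonneg_right hnum.le hΦ0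
  have e : (1 + θ) ^ m * (ε0 * Φ) = ε0 * (1 + θ) ^ m * Φ := by ring
  linarith

theorem measurableSet_thrEvent {X : Type*} [MeasurableSpace X] (K : ℕ) (q : ℕ → X → ℝ)
    (hq : ∀ j, Measurable (q j)) (lam : ℕ → ℝ) (δ : ℝ) : MeasurableSet (thrEvent K q lam δ) := by
  have e : thrEvent K q lam δ = ⋃ k : ℕ, ({_y : X | k < K} ∩ ({y | |q k y - lam k| ≤ δ} ∩
      ⋂ j : ℕ, {y | k < j → j < K → q j y ≤ lam j + δ})) := by
    ext y
    simp only [thrEvent, mem_ofPred_eq, mem_iUnion, mem_inter_iff, mem_iInter]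
  rw [e]
  refine MeasurableSet.iUnion fun k => (MeasurableSet.const _).inter (MeasurableSet.inter ?_ ?_)
  · exact measurableSet_le (continuous_abs.measurable.comp ((hq k).sub_const (lam k)))
      measurable_const
  · refine MeasurableSet.iInter fun j => ?_
    by_cases h1 : k < j
    · by_cases h2 : j < K
      · simp only [h1, h2, true_imp_iff]
        exact measurableSet_le (hq j) measurable_const
      · simp only [h2, false_imp_iff, imp_true_iff, ofPred_true]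
        exact MeasurableSet.univ
    · simp only [h1, false_imp_iff, ofPred_true]
      exact MeasurableSet.univ

/-- some test of index `< K` exceeds its threshold by more than `δ`. -/
def thrKilled {X : Type*} (K : ℕ) (q : ℕ → X → ℝ) (lam : ℕ → ℝ) (δ : ℝ) : Set X :=
  {y | ∃ j, j < K ∧ lam j + δ < q j y}

theorem thrEvent_congr {X : Type*} (K : ℕ) (q : ℕ → X → ℝ) {lam lam' : ℕ → ℝ} (δ : ℝ)
    (h : ∀ j, j < K → lam j = lam' j) : thrEvent K q lam δ = thrEvent K q lam' δ := by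
  ext y
  constructor
  · rintro ⟨k, hk, h1, h2⟩
    refine ⟨k, hk, by rw [← h k hk]; exact h1, fun j hj hjK => ?_⟩
    rw [← h j hjK]
    exact h2 j hj hjK
  · rintro ⟨k, hk, h1, h2⟩
    refine ⟨k, hk, by rw [h k hk]; exact h1, fun j hj hjK => ?_⟩
    rw [h j hjK]
    exact h2 j hj hjK

theorem thrKilled_congr {X : Type*} (K : ℕ) (q : ℕ → X → ℝ) {lam lam' : ℕ → ℝ} (δ : ℝ)
    (h : ∀ j, j < K → lam j = lam' j) : thrKilled K q lam δ = thrKilled K q lam' δ := by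
  ext y
  constructor
  · rintro ⟨k, hk, h1⟩
    exact ⟨k, hk, by rw [← h k hk]; exact h1⟩
  · rintro ⟨k, hk, h1⟩
    exact ⟨k, hk, by rw [h k hk]; exact h1⟩

theorem thrEvent_succ_subset {X : Type*} (K : ℕ) (q : ℕ → X → ℝ) (lam : ℕ → ℝ) (δ : ℝ) :
    thrEvent (K + 1) q lam δ ⊆ {y | |q K y - lam K| ≤ δ} ∪
      (thrEvent K q lam δ ∩ {y | q K y ≤ lam K + δ}) := by
  rintro y ⟨k, hk, h1, h2⟩
  rcases Nat.lt_succ_iff_lt_or_eq.1 hk with hk' | rfl
  · exact Or.inr ⟨⟨k, hk', h1, fun j hj hjK => h2 j hj (Nat.lt_succ_of_lt hjK)⟩,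
      h2 K hk' (Nat.lt_succ_self K)⟩
  · exact Or.inl h1

theorem thr_window_subset {X : Type*} (f : X → ℝ) (t δ : ℝ) (hδ : 0 < δ) :
    {y | |f y - t| ≤ δ} ⊆ {y | t - 2 * δ < f y} \ {y | t + δ < f y} := by
  intro y hy
  have h1 := abs_le.1 (show |f y - t| ≤ δ from hy)
  refine ⟨?_, ?_⟩
  · show t - 2 * δ < f y
    linarith [h1.1]
  · show ¬ (t + δ < f y)
    exact not_lt.2 (by linarith [h1.2])

theorem thrKilled_succ_superset {X : Type*} (K : ℕ) (q : ℕ → X → ℝ) (lam : ℕ → ℝ) (δ : ℝ) :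
    (thrKilled K q lam δ ∩ {y | q K y ≤ lam K + δ}) ∪ {y | lam K + δ < q K y} ⊆
      thrKilled (K + 1) q lam δ := by
  rintro y (⟨⟨j, hj, h1⟩, -⟩ | h)
  · exact ⟨j, Nat.lt_succ_of_lt hj, h1⟩
  · exact ⟨K, Nat.lt_succ_self K, h⟩

/-- the strengthened claim. -/
theorem thr_strong {X : Type*} [MeasurableSpace X] (K : ℕ) (q : ℕ → X → ℝ)
    (hq : ∀ j, Measurable (q j)) (δ θ ε0 : ℝ) (hδ : 0 < δ) (hθ : 0 < θ) (hε0 : 0 < ε0)
    (hnum : 1 < ε0 * (1 + θ) ^ (⌊1 / (3 * δ)⌋₊ - 2)) :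
    ∀ (ν : Measure X) [IsFiniteMeasure ν], ∃ lam : ℕ → ℝ, (∀ j, 1 ≤ lam j ∧ lam j ≤ 2) ∧
      ν.real (thrEvent K q lam δ) ≤ θ * ν.real (thrKilled K q lam δ) + K * ε0 * ν.real univ := by
  induction K with
  | zero =>
    intro ν _
    refine ⟨fun _ => 1, fun _ => ⟨le_rfl, by norm_num⟩, ?_⟩
    have e : thrEvent 0 q (fun _ => (1 : ℝ)) δ = ∅ := by
      ext y
      simp [thrEvent]
    rw [e, measureReal_empty]
    have h1 : 0 ≤ θ * ν.real (thrKilled 0 q (fun _ => (1 : ℝ)) δ) :=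
      mul_nonneg hθ.le measureReal_nonneg
    simpa using h1
  | succ K ih =>
    intro ν _
    -- the threshold of the largest index
    have hanti : Antitone fun u : ℝ => ν.real {y | u < q K y} := by
      intro u u' huu
      exact measureReal_mono fun y hy => lt_of_le_of_lt huu hy
    obtain ⟨t, ht1, ht2, ht⟩ := exists_level (fun u : ℝ => ν.real {y | u < q K y}) hanti
      (ν.real univ) (fun _ => measureReal_nonneg) (fun _ => measureReal_mono (subset_univ _))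
      δ θ ε0 hδ hθ hε0 hnum
    have hG : MeasurableSet {y | q K y ≤ t + δ} := measurableSet_le (hq K) measurable_const
    have hB : MeasurableSet {y | t + δ < q K y} := measurableSet_lt measurable_const (hq K)
    obtain ⟨lam', hl', hlam'⟩ := ih (ν.restrict {y | q K y ≤ t + δ})
    refine ⟨Function.update lam' K t, fun j => ?_, ?_⟩
    · by_cases hj : j = K
      · rw [hj, Function.update_self]
        exact ⟨ht1, ht2⟩
      · rw [Function.update_of_ne hj]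
        exact hl' j
    obtain ⟨lam, hlam⟩ : ∃ lam : ℕ → ℝ, lam = Function.update lam' K t := ⟨_, rfl⟩
    rw [← hlam]
    have hK : lam K = t := by rw [hlam, Function.update_self]
    have hlt : ∀ j, j < K → lam j = lam' j := fun j hj => by
      rw [hlam, Function.update_of_ne (Nat.ne_of_lt hj)]
    rw [← thrEvent_congr K q δ hlt, ← thrKilled_congr K q δ hlt, measureReal_restrict_apply' hG,
      measureReal_restrict_apply' hG, measureReal_restrict_apply' hG, univ_inter] at hlam'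
    -- the window
    have hW : ν.real {y | |q K y - t| ≤ δ} ≤ θ * ν.real {y | t + δ < q K y} + ε0 * ν.real univ := by
      refine (measureReal_mono (thr_window_subset (q K) t δ hδ)).trans ?_
      have hsub : {y | t + δ < q K y} ⊆ {y | t - 2 * δ < q K y} := fun y hy =>
        lt_trans (by linarith) (show t + δ < q K y from hy)
      rw [measureReal_sdiff hsub hB]
      exact ht
    have h1 : ν.real (thrEvent (K + 1) q lam δ) ≤ ν.real {y | |q K y - t| ≤ δ} +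
        ν.real (thrEvent K q lam δ ∩ {y | q K y ≤ t + δ}) := by
      have h2 := thrEvent_succ_subset K q lam δ
      rw [hK] at h2
      exact (measureReal_mono h2).trans (measureReal_union_le _ _)
    have h3 : ν.real (thrKilled K q lam δ ∩ {y | q K y ≤ t + δ}) + ν.real {y | t + δ < q K y} ≤
        ν.real (thrKilled (K + 1) q lam δ) := by
      have h4 := thrKilled_succ_superset K q lam δ
      rw [hK] at h4
      rw [← measureReal_union ?_ hB]
      · exact measureReal_mono h4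
      · rw [Set.disjoint_left]
        rintro y ⟨-, hy1⟩ hy2
        exact absurd (show t + δ < q K y from hy2) (not_lt.2 (show q K y ≤ t + δ from hy1))
    have h5 : ν.real {y | q K y ≤ t + δ} ≤ ν.real univ := measureReal_mono (subset_univ _)
    have h6 : (K : ℝ) * ε0 * ν.real {y | q K y ≤ t + δ} ≤ (K : ℝ) * ε0 * ν.real univ :=
      mul_le_mul_of_nonneg_left h5 (by positivity)
    have h7 := mul_le_mul_of_nonneg_left h3 hθ.le
    push_cast
    nlinarith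

theorem exists_thresholds {X : Type*} [MeasurableSpace X] (ν : Measure X) [IsFiniteMeasure ν] (K : ℕ)
    (q : ℕ → X → ℝ) (hq : ∀ j, Measurable (q j)) (δ θ ε0 : ℝ) (hδ : 0 < δ) (hθ : 0 < θ)
    (hε0 : 0 < ε0) (hnum : 1 < ε0 * (1 + θ) ^ (⌊1 / (3 * δ)⌋₊ - 2)) :
    ∃ lam : ℕ → ℝ, (∀ j, 1 ≤ lam j ∧ lam j ≤ 2) ∧
      ν (thrEvent K q lam δ) ≤ ENNReal.ofReal (θ + K * ε0) * ν univ := by
  obtain ⟨lam, hl, h⟩ := thr_strong K q hq δ θ ε0 hδ hθ hε0 hnum ν
  refine ⟨lam, hl, ?_⟩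
  have h1 : ν.real (thrKilled K q lam δ) ≤ ν.real univ := measureReal_mono (subset_univ _)
  have h2 : ν.real (thrEvent K q lam δ) ≤ (θ + K * ε0) * ν.real univ := by
    have := mul_le_mul_of_nonneg_left h1 hθ.le
    nlinarith
  rw [← ofReal_measureReal (μ := ν) (s := thrEvent K q lam δ),
    ← ofReal_measureReal (μ := ν) (s := univ), ← ENNReal.ofReal_mul (by positivity)]
  exact ENNReal.ofReal_le_ofReal h2

end Claimed.Agent.R322.Sx.Sep
end
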