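/- Packed by merge_tool.py (helper293): 2 modules of Claimed.Agent.R322 in one file, same declarations.
   Old modules, in this order: Sx.Sep.Pieces, Sx.Sep.Small -/
import Claimed.Agent.R322.Pack032
import Claimed.Agent.R322.Pack036
import Claimed.Agent.R322.Pack033

/- ===== packed: Claimed.Agent.R322.Sx.Sep.Pieces ===== -/
section
/-!
# R322 / Sx / Sep / Pieces : height regions of the root groups (leaves `L-Sep-PiecesA`, `L-Sep-PiecesB`, `L-Sep-Pou`)

AE proof of Proposition 4.3, "Small nodes and actual stationary pieces", the metric part.  No `T`, no paper.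
`r` = the far radius `S(T) √d`, `h < r` = a bound for all support heights over `Ω'`, the groups of `A` are separated
by `10 r`.  `grpO A grp r g = {ζ : dist(ζ, A_g) < 2 r}`.

Frontier of `grpO g`: a point `ζ` of the frontier is not in the (open) region, so `|ζ - A j| ≥ 2r` for `grp j = g`; it is in the
closure, so `|ζ - A j0| ≤ 2r` for some `grp j0 = g` (finitely many entries), hence `|ζ - A j| ≥ 8r` for `grp j ≠ g`.  Therefore
`dist(ζ, A) ≥ 2r` on the frontier and `> h` on its `r/2`-thickening: no support there (`measure_prod_eq_zero_of_spt`).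
-/

set_option autoImplicit false

namespace Claimed.Agent.R322.Sx.Sep

open MeasureTheory Set Metric
open scoped ENNReal NNReal InnerProductSpace

variable {m n Q : ℕ}

/-- the height region of the root group `g`. -/
def grpO (A : Fin Q → E n) (grp : Fin Q → Fin Q) (r : ℝ) (g : Fin Q) : Set (E n) :=
  {ζ | ∃ j, grp j = g ∧ ‖ζ - A j‖ < 2 * r}

/-- number of entries of the group `g` (with repetitions). -/
def grpCard (grp : Fin Q → Fin Q) (g : Fin Q) : ℕ := (Finset.univ.filter fun j => grp j = g).card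

/-! ## Part A : combinatorics and metric -/

theorem grpO_isOpen (A : Fin Q → E n) (grp : Fin Q → Fin Q) (r : ℝ) (g : Fin Q) :
    IsOpen (grpO A grp r g) := by
  have h : grpO A grp r g = ⋃ j ∈ {j | grp j = g}, ball (A j) (2 * r) := by
    ext ζ
    simp only [grpO, Set.mem_ofPred_eq, mem_iUnion, mem_ball_iff_norm, exists_prop]
  rw [h]
  exact isOpen_biUnion fun _ _ => isOpen_ball

theorem grpO_disjoint {A : Fin Q → E n} {grp : Fin Q → Fin Q} {r : ℝ} (hr : 0 < r)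
    (hsep : Sys.Separated A grp (10 * r)) :
    Pairwise fun g g' => Disjoint (grpO A grp r g) (grpO A grp r g') := by
  intro g g' hne
  rw [Set.disjoint_left]
  rintro ζ ⟨j, hj, hζ⟩ ⟨j', hj', hζ'⟩
  have h1 := hsep j j' (by rw [hj, hj']; exact hne)
  have h2 : A j - A j' = (ζ - A j') - (ζ - A j) := by abel
  have h3 := norm_sub_le (ζ - A j') (ζ - A j)
  rw [← h2] at h3
  linarith

theorem grpO_empty (A : Fin Q → E n) {grp : Fin Q → Fin Q} (r : ℝ) {g : Fin Q}
    (hg : grpCard grp g = 0) : grpO A grp r g = ∅ := by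
  rw [Set.eq_empty_iff_forall_notMem]
  rintro ζ ⟨j, hj, -⟩
  rw [grpCard, Finset.card_eq_zero] at hg
  have : j ∈ Finset.univ.filter fun j => grp j = g := Finset.mem_filter.2 ⟨Finset.mem_univ j, hj⟩
  rw [hg] at this
  exact Finset.notMem_empty _ this

theorem grpCard_sum (grp : Fin Q → Fin Q) : ∑ g, grpCard grp g = Q := by
  have h := Finset.card_eq_sum_card_fiberwise (s := (Finset.univ : Finset (Fin Q)))
    (t := (Finset.univ : Finset (Fin Q))) (f := grp) (fun x _ => Finset.mem_univ _)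
  rw [Finset.card_univ, Fintype.card_fin] at h
  exact h.symm

theorem grpCard_lt {grp : Fin Q → Fin Q} (two : ∃ i j, grp i ≠ grp j) (g : Fin Q) :
    grpCard grp g < Q := by
  obtain ⟨k, hk⟩ : ∃ k, grp k ≠ g := by
    obtain ⟨i, j, hij⟩ := two
    by_cases h : grp i = g
    · exact ⟨j, fun h' => hij (h.trans h'.symm)⟩
    · exact ⟨i, h⟩
  have h1 : (Finset.univ.filter fun j => grp j = g) ⊂ (Finset.univ : Finset (Fin Q)) := by
    rw [Finset.ssubset_iff_of_subset (Finset.subset_univ _)]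
    exact ⟨k, Finset.mem_univ k, fun h => hk (Finset.mem_filter.1 h).2⟩
  have h2 := Finset.card_lt_card h1
  rwa [Finset.card_univ, Fintype.card_fin] at h2

open Classical in
/-- on a fibre matched to (a reordering of) the root list, each region contains exactly the entries of its group. -/
theorem grpO_count {A : Fin Q → E n} {grp : Fin Q → Fin Q} {r h : ℝ} (hr : 0 < r) (hh : h < r)
    (hsep : Sys.Separated A grp (10 * r)) {Fb : Multiset (E n)} {σ : Equiv.Perm (Fin Q)}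
    (hfib : Sys.FibMatch Fb (A ∘ σ) h) (g : Fin Q) :
    Multiset.card (Fb.filter fun ζ => ζ ∈ grpO A grp r g) = grpCard grp g := by
  obtain ⟨L, hL, hLh⟩ := hfib
  have hiff : ∀ j, L j ∈ grpO A grp r g ↔ grp (σ j) = g := by
    intro j
    have hj : ‖L j - A (σ j)‖ ≤ h := hLh j
    constructor
    · rintro ⟨k, hk, hζ⟩
      by_contra hne
      have h1 := hsep (σ j) k (by rw [hk]; exact hne)
      have h2 : A (σ j) - A k = (L j - A k) - (L j - A (σ j)) := by abel
      have h3 := norm_sub_le (L j - A k) (L j - A (σ j))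
      rw [← h2] at h3
      linarith
    · intro hg
      exact ⟨σ j, hg, by linarith⟩
  rw [← hL, ← Fin.univ_val_map, Multiset.filter_map, Multiset.card_map]
  have h1 : Multiset.card (Multiset.filter ((fun ζ => ζ ∈ grpO A grp r g) ∘ L)
      (Finset.univ : Finset (Fin Q)).val)
      = (Finset.univ.filter fun j => L j ∈ grpO A grp r g).card := rfl
  rw [h1, grpCard]
  refine Finset.card_equiv σ fun j => ?_
  simp only [Finset.mem_filter, Finset.mem_univ, true_and]
  exact hiff j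

/-! ## Part B : the support avoids the gaps -/

theorem grpO_cover (hQ : 1 ≤ Q) {S : Sys m n} {Ω' : Set (E m)} {A : Fin Q → E n}
    (grp : Fin Q → Fin Q) {r h : ℝ} (hh : h < r)
    (hsup : ∀ q ∈ S.spt, q.1 ∈ Ω' → Sys.distA A q.2 ≤ h) :
    S.μ (Ω' ×ˢ (⋃ g, grpO A grp r g)ᶜ) = 0 := by
  refine measure_prod_eq_zero_of_spt S Ω' _ fun q hq hq1 hq2 => hq2 ?_
  obtain ⟨j, hj⟩ := (distA_lt_iff hQ A q.2 r).1 (lt_of_le_of_lt (hsup q hq hq1) hh)
  have h0 := norm_nonneg (q.2 - A j)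
  exact mem_iUnion.2 ⟨grp j, j, rfl, by linarith⟩

theorem grpO_gap (hQ : 1 ≤ Q) {S : Sys m n} {Ω' : Set (E m)} {A : Fin Q → E n}
    {grp : Fin Q → Fin Q} {r h : ℝ} (hr : 0 < r) (hh : h < r)
    (hsep : Sys.Separated A grp (10 * r))
    (hsup : ∀ q ∈ S.spt, q.1 ∈ Ω' → Sys.distA A q.2 ≤ h) (g : Fin Q) :
    S.Gap Ω' (grpO A grp r g) := by
  refine ⟨r / 2, by linarith, ?_⟩
  refine measure_prod_eq_zero_of_spt S Ω' _ fun q hq hq1 hq2 => ?_
  obtain ⟨ζ, hζ, hdist⟩ := Metric.mem_thickening_iff.1 hq2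
  obtain ⟨j, hj⟩ := (distA_lt_iff hQ A q.2 r).1 (lt_of_le_of_lt (hsup q hq hq1) hh)
  rw [(grpO_isOpen A grp r g).frontier_eq] at hζ
  obtain ⟨hcl, hnot⟩ := hζ
  have hfar : 2 * r ≤ ‖ζ - A j‖ := by
    by_cases hg : grp j = g
    · by_contra hc
      exact hnot ⟨j, hg, not_le.1 hc⟩
    · have hsub : grpO A grp r g ⊆ ⋃ k ∈ {k | grp k = g}, closedBall (A k) (2 * r) := by
        rintro z ⟨k, hk, hz⟩
        exact mem_iUnion₂.2 ⟨k, hk, by rw [mem_closedBall_iff_norm]; exact hz.le⟩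
      have hclosed : IsClosed (⋃ k ∈ {k | grp k = g}, closedBall (A k) (2 * r)) :=
        (Set.toFinite _).isClosed_biUnion fun _ _ => isClosed_closedBall
      obtain ⟨k, hk, hz⟩ := mem_iUnion₂.1 (closure_minimal hsub hclosed hcl)
      rw [mem_closedBall_iff_norm] at hz
      have hk' : grp k = g := hk
      have h1 := hsep j k (by rw [hk']; exact hg)
      have h2 : A j - A k = (ζ - A k) - (ζ - A j) := by abel
      have h3 := norm_sub_le (ζ - A k) (ζ - A j)
      rw [← h2] at h3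
      linarith
  have h4 : ζ - A j = (q.2 - A j) - (q.2 - ζ) := by abel
  have h5 := norm_sub_le (q.2 - A j) (q.2 - ζ)
  rw [← h4, ← dist_eq_norm q.2 ζ] at h5
  linarith

/-- no far energy over `Ω'`. -/
theorem far_zero {S : Sys m n} {Ω' : Set (E m)} {A : Fin Q → E n} {r h : ℝ} (hh : h ≤ r)
    (hsup : ∀ q ∈ S.spt, q.1 ∈ Ω' → Sys.distA A q.2 ≤ h) {f : E m → ℝ}
    (hf : Function.support f ⊆ Ω') : S.intDfar A r f = 0 := by
  have h0 : S.μ (Ω' ×ˢ {ζ : E n | r < Sys.distA A ζ}) = 0 :=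
    measure_prod_eq_zero_of_spt S Ω' _ fun q hq hq1 hq2 =>
      absurd (lt_of_lt_of_le (show r < Sys.distA A q.2 from hq2) (hsup q hq hq1)) (not_lt.2 hh)
  unfold Sys.intDfar
  apply integral_eq_zero_of_ae
  refine measure_mono_null (fun q hq => ?_) h0
  have hq' : f q.1 * ({q : E m × E n | r < Sys.distA A q.2}.indicator S.e q) ≠ 0 := hq
  refine ⟨hf (left_ne_zero_of_mul hq'), ?_⟩
  by_contra hc
  apply right_ne_zero_of_mul hq'
  exact Set.indicator_of_notMem (s := {q : E m × E n | r < Sys.distA A q.2}) hc S.e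

/-! ## A uniform Lipschitz partition of unity (from `Tool.grid_pou`) -/

/-- Partition of unity of `B_R(x)` at the scale `r ≤ R`.  From `Tool.grid_pou m 1 8` at `l = r`: `I` = the finite set
of the `k` with `ball (gpt m r k) r ∩ ball x R ≠ ∅`, `yc = gpt m r`; Lipschitz bound from the bound of the first derivative;
cardinality and integrated overlap from the pointwise overlap bound. -/
theorem uniform_pou (m : ℕ) (hm : 1 ≤ m) :
    ∃ Cov Clip : ℝ, 0 < Cov ∧ 0 < Clip ∧ ∀ (x : E m) (R r : ℝ), 0 < r → r ≤ R →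
      ∃ (I : Finset (Fin m → ℤ)) (yc : (Fin m → ℤ) → E m) (φ : (Fin m → ℤ) → E m → ℝ),
        (∀ a ∈ I, yc a ∈ ball x (R + r)) ∧
        (∀ a ∈ I, ∀ z, 0 ≤ φ a z ∧ φ a z ≤ 1) ∧
        (∀ a ∈ I, Function.support (φ a) ⊆ ball (yc a) r) ∧
        (∀ a ∈ I, ∀ z z', |φ a z - φ a z'| ≤ Clip / r * ‖z - z'‖) ∧
        (∀ z ∈ ball x R, ∑ a ∈ I, φ a z = 1) ∧
        ((I.card : ℝ) * r ^ m ≤ Cov * R ^ m) ∧
        (∀ μ : Measure (E m),
          ∑ a ∈ I, μ (ball (yc a) (8 * r)) ≤ ENNReal.ofReal Cov * μ (ball x (R + 9 * r))) := by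
  obtain ⟨C, Nov, hC, H⟩ := Tool.grid_pou m 1 8 (by norm_num)
  obtain ⟨N2, H2⟩ := Tool.grid_overlap_sum m 8 (by norm_num)
  have hCov : (0 : ℝ) < ((N2 : ℝ) + 1) * 2 ^ m := by positivity
  refine ⟨((N2 : ℝ) + 1) * 2 ^ m, C, hCov, hC, fun x R r hr hrR => ?_⟩
  have hR : 0 < R := lt_of_lt_of_le hr hrR
  obtain ⟨χ, hsm, h01, hsupp, -, hsum, hder, -, hfin⟩ := H r hr
  have hfinI : {k | (ball (Tool.gpt m r k) r ∩ ball x R).Nonempty}.Finite := by
    refine (hfin x R hR).subset ?_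
    rintro k ⟨z, hz1, hz2⟩
    exact ⟨z, ball_subset_ball (by linarith) hz1, hz2⟩
  have hmemI : ∀ a, a ∈ hfinI.toFinset ↔ (ball (Tool.gpt m r a) r ∩ ball x R).Nonempty := by
    intro a
    rw [Set.Finite.mem_toFinset]
    rfl
  have hyc : ∀ a ∈ hfinI.toFinset, Tool.gpt m r a ∈ ball x (R + r) := by
    intro a ha
    obtain ⟨z, hz1, hz2⟩ := (hmemI a).1 ha
    rw [mem_ball] at hz1 hz2 ⊢
    calc dist (Tool.gpt m r a) x ≤ dist (Tool.gpt m r a) z + dist z x := dist_triangle _ _ _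
      _ < R + r := by rw [dist_comm (Tool.gpt m r a) z]; linarith
  -- integrated overlap with the constant `N2`
  have hov : ∀ μ : Measure (E m),
      ∑ a ∈ hfinI.toFinset, μ (ball (Tool.gpt m r a) (8 * r))
        ≤ (N2 : ℝ≥0∞) * μ (ball x (R + 9 * r)) := by
    intro μ
    calc ∑ a ∈ hfinI.toFinset, μ (ball (Tool.gpt m r a) (8 * r))
        = ∑ a ∈ hfinI.toFinset, μ (ball (Tool.gpt m r a) (8 * r) ∩ ball x (R + 9 * r)) := by
          refine Finset.sum_congr rfl fun a ha => ?_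
          congr 1
          refine (inter_eq_left.2 ?_).symm
          have h1 := hyc a ha
          rw [mem_ball] at h1
          exact ball_subset_ball' (by linarith)
      _ ≤ ∑' a, μ (ball (Tool.gpt m r a) (8 * r) ∩ ball x (R + 9 * r)) :=
          ENNReal.sum_le_tsum _
      _ ≤ (N2 : ℝ≥0∞) * μ (ball x (R + 9 * r)) := H2 r hr μ _ isOpen_ball.measurableSet
  refine ⟨hfinI.toFinset, Tool.gpt m r, χ, hyc, fun a _ z => h01 a z,
    fun a _ => (subset_tsupport _).trans (hsupp a), ?_, ?_, ?_, ?_⟩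
  · intro a _ z z'
    have hb : ∀ y, ‖fderiv ℝ (χ a) y‖ ≤ C / r := by
      intro y
      have h1 := hder a 1 le_rfl y
      rw [pow_one, norm_iteratedFDeriv_one] at h1
      rw [le_div_iff₀ hr]
      linarith
    have h2 := Convex.norm_image_sub_le_of_norm_fderiv_le (𝕜 := ℝ) (f := χ a) (s := univ)
      (C := C / r) (x := z') (y := z)
      (fun y _ => ((hsm a).differentiable (by simp)).differentiableAt) (fun y _ => hb y)
      convex_univ (mem_univ _) (mem_univ _)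
    rwa [Real.norm_eq_abs] at h2
  · intro z hz
    rw [← hsum z]
    refine (finsum_eq_sum_of_support_subset _ ?_).symm
    intro k hk
    rw [Finset.mem_coe, hmemI]
    exact ⟨z, hsupp k (subset_tsupport _ hk), hz⟩
  · -- cardinality by volume comparison
    have h1 := hov volume
    have hb : ∀ (y : E m) (s : ℝ), 0 < s →
        volume (ball y s) = ENNReal.ofReal (s ^ m) * volume (ball (0 : E m) 1) := by
      intro y s hs
      rw [Measure.addHaar_ball_of_pos _ y hs, finrank_euclideanSpace, Fintype.card_fin]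
    have hω0 : volume (ball (0 : E m) 1) ≠ 0 := (measure_ball_pos _ _ one_pos).ne'
    have hωt : volume (ball (0 : E m) 1) ≠ ∞ := measure_ball_lt_top.ne
    simp only [hb _ (8 * r) (by positivity), hb x (R + 9 * r) (by positivity)] at h1
    rw [Finset.sum_const, nsmul_eq_mul, ← mul_assoc, ← mul_assoc,
      ENNReal.mul_le_mul_iff_left hω0 hωt] at h1
    have h2 : ((hfinI.toFinset.card : ℝ≥0∞) * ENNReal.ofReal ((8 * r) ^ m)).toReal
        ≤ ((N2 : ℝ≥0∞) * ENNReal.ofReal ((R + 9 * r) ^ m)).toReal :=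
      ENNReal.toReal_mono (ENNReal.mul_ne_top (ENNReal.natCast_ne_top _) ENNReal.ofReal_ne_top) h1
    rw [ENNReal.toReal_mul, ENNReal.toReal_mul, ENNReal.toReal_natCast, ENNReal.toReal_natCast,
      ENNReal.toReal_ofReal (by positivity), ENNReal.toReal_ofReal (by positivity)] at h2
    have h3 : (R + 9 * r) ^ m ≤ (10 * R) ^ m := pow_le_pow_left₀ (by positivity) (by linarith) m
    have h4 : (hfinI.toFinset.card : ℝ) * ((8 * r) ^ m) ≤ (N2 : ℝ) * (10 * R) ^ m :=
      h2.trans (mul_le_mul_of_nonneg_left h3 (Nat.cast_nonneg _))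
    rw [mul_pow, mul_pow] at h4
    have h5 : (10 : ℝ) ^ m ≤ 8 ^ m * 2 ^ m := by
      rw [← mul_pow]
      exact pow_le_pow_left₀ (by norm_num) (by norm_num) m
    have h8 : (0 : ℝ) < 8 ^ m := by positivity
    have hRm : (0 : ℝ) ≤ R ^ m := by positivity
    have h6 : 8 ^ m * ((hfinI.toFinset.card : ℝ) * r ^ m) ≤ 8 ^ m * (((N2 : ℝ) + 1) * 2 ^ m * R ^ m) := by
      calc 8 ^ m * ((hfinI.toFinset.card : ℝ) * r ^ m)
          = (hfinI.toFinset.card : ℝ) * (8 ^ m * r ^ m) := by ring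
        _ ≤ (N2 : ℝ) * (10 ^ m * R ^ m) := h4
        _ ≤ (N2 : ℝ) * ((8 ^ m * 2 ^ m) * R ^ m) := by gcongr
        _ ≤ ((N2 : ℝ) + 1) * ((8 ^ m * 2 ^ m) * R ^ m) := by
            apply mul_le_mul_of_nonneg_right (by linarith) (by positivity)
        _ = 8 ^ m * (((N2 : ℝ) + 1) * 2 ^ m * R ^ m) := by ring
    exact le_of_mul_le_mul_left h6 h8
  · intro μ
    refine (hov μ).trans ?_
    gcongr
    rw [← ENNReal.ofReal_natCast]
    apply ENNReal.ofReal_le_ofReal
    have h2 : (1 : ℝ) ≤ 2 ^ m := one_le_pow₀ (by norm_num)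
    nlinarith [Nat.cast_nonneg (α := ℝ) N2]

end Claimed.Agent.R322.Sx.Sep
end

/- ===== packed: Claimed.Agent.R322.Sx.Sep.Small ===== -/
section
/-!
# R322 / Sx / Sep / Small : small nodes and actual stationary pieces
(leaves `L-Sep-Small1` = `small_heights`, `L-Sep-Small2` = `piece_valid`, `piece_count`, `L-Sep-Small3` = `piece_signed`,
`L-Sep-Small4` = `node_small`)

Source: AE proof of Proposition 4.3, paragraph "Small nodes and actual stationary pieces", (4.19)-(4.23).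
A node `(xs, R)` of generation `i ≤ n0 + 1` is small if `R ≤ T^{10N} r_b`.  `c = F.c > 4`, `E = E_{2i}(R) ≤ e^{-2b} T^{-Cpow}`.

**`small_heights`.**  For `y ∈ B_{2R}(xs)` apply `F.cfg` on `B_{R/c}(y)` (`B_R(y) ⊆ B_{4R}(xs)`, local bound `d' = c^m E`): joint witness
`A_y`.  Chain from the node configuration `A_R` (on `B_{4R/c}(xs)`): `shrink` at `xs` from `4R/c` to `R/c`, then `slide` from `xs` to `y` at
the radius `R/c` (all balls `B_{c t}(z) ⊆ B_{4R}(xs)`; quantum `q0 = C R √E ≤ C R`).  Support bound with `β = 1/(m+2)`: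
`dist(ζ, A_y) ≤ Cβ (R/c) d'^β ≤ C R`.  Total: `(i+1) e^b √d + C R ≤ e^{5b} √d` (`Big.hgt`).

**`piece_signed`.**  `s = R/c`, `r₁ = s/4`, `S_g = piece …`, `q_g = grpCard grp g`.  If `q_g = 0`: `grpO_empty`, `restr_empty_intL`.  Otherwise
`1 ≤ q_g < Q`.  `scalar_majority` (enlargement `2`, `C0 = 1 + 2 Q 2^m |B_1|`) for `S_g` on `B_s(y)`, majority from `piece_count`:
`τ_g(B_{4 r₁}(y)) ≤ (C + 1)(D_g + Λ_g)(B_{8 r₁}(y))`.  Put `d_g = max d ((C+1) r₁^{-m} (D_g + Λ_g)(B_{8 r₁}(y)))`, `T' = - log d_g`;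
`d ≤ d_g ≤ e^{-b/2}` (`Big.env_small`), so `b/2 ≤ T' ≤ T`.  `SignedHyp (S_g.rescale y r₁) q_g κ Cg T'` (`Valid.rescale`, `rescale_tau`, `γ` unchanged).
`ih q_g` at `(κ, Cg)` for the weight `z ↦ w' (y + r₁ z)`; `rate_lower`; scale back with `Valid.rescale_intM/intD/intLam`.
`CQ0` = maximum of the constants of `ih q κ Cg`, `1 ≤ q < Q` (`intLam_nonneg`), `T0` such that `b/2 ≥` all their thresholds.

**`node_small`.**  `uniform_pou` at `r₁`; `w = ∑_a w φ_a`, `w φ_a/(Clip + 1)` is a weight on `B_{r₁}(y_a)`; `far_zero`; `Valid.restr_intL_sum`,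
`restr_intLam_sum`, `intL_sum`, `intLam_sum`; `Valid.restr_Dm_sum`, `restr_Lm_sum`; `Big.cube_kill`.
-/

set_option autoImplicit false

namespace Claimed.Agent.R322.Sx.Sep

open MeasureTheory Set Metric
open scoped ENNReal NNReal InnerProductSpace

variable {m n Q : ℕ} {Cg : ℝ}

/-- height bound over small nodes: `e^{5b} √d`. -/
noncomputable def hgt (Q : ℕ) (T : ℝ) : ℝ := Real.exp (5 * bQ Q T) * Real.sqrt (dT T)

/-- the stationary piece of the root group `g` over `B_{2R}(xs)`. -/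
noncomputable def piece (S : Sys m n) (A : Fin Q → E n) (grp : Fin Q → Fin Q) (r : ℝ) (xs : E m)
    (R : ℝ) (g : Fin Q) : Sys m n :=
  S.restr (ball xs (2 * R)) (grpO A grp r g)

theorem hgt_lt_far {p : Prm} (hCS : 15 ≤ p.CS) {T : ℝ} (hb : 0 < bQ Q T) : hgt Q T < far p Q T := by
  unfold hgt far dT
  apply mul_lt_mul_of_pos_right _ (Real.sqrt_pos.2 (Real.exp_pos _))
  apply Real.exp_lt_exp.2
  nlinarith

/-- the comparison chain of `small_heights` (no `T`): local witness over `B_{R/c}(y)`, matched to the node configuration. -/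
theorem sh_chain {F : Fix m n Q Cg} {S : Sys m n} (hS : S.Valid) (hCg : S.Cg ≤ Cg) (hm : 1 ≤ m)
    {xs : E m} {R Ee : ℝ} (hR : 0 < R) (hR1 : R ≤ 1) (hE : 0 ≤ Ee) (hEd : F.c ^ m * Ee ≤ F.d0)
    (hE1 : F.c ^ m * Ee ≤ 1) (hsub : ball xs (4 * R) ⊆ S.Ω)
    (hdens : S.tau Q (ball xs (4 * R)) ≤ ENNReal.ofReal (R ^ m * Ee))
    {AR : Fin Q → E n} (hAR : F.IsMaj S xs (F.rmaj * R) (F.rmaj ^ (-(m : ℝ)) * Ee) AR)
    {y : E m} (hy : y ∈ ball xs (2 * R)) :
    ∃ Ay : Fin Q → E n, Sys.Matched Ay AR (2 * F.Cmaj * R * (8 * F.c + 6)) ∧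
      S.IsMajority y (R / F.c) F.δmaj (F.Cmaj * R) Ay ∧
      ∀ q ∈ S.spt, q.1 ∈ ball y (R / F.c) →
        Sys.distA Ay q.2 ≤ |F.Cβ (1 / ((m : ℝ) + 2))| * R := by
  have hc : 4 < F.c := F.c_gt
  have hc0 : 0 < F.c := by linarith
  have hCm : 0 < F.Cmaj := F.Cmaj_pos
  have ht : 0 < R / F.c := div_pos hR hc0
  have htR : R / F.c ≤ R := div_le_self hR.le (by linarith)
  have hd0 : 0 ≤ F.c ^ m * Ee := mul_nonneg (by positivity) hE
  have hsq1 : Real.sqrt (F.c ^ m * Ee) ≤ 1 := Real.sqrt_le_one.2 hE1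
  have hcR : F.c * (R / F.c) = R := by field_simp
  -- quiet balls
  have hquiet : ∀ (z : E m) (t' : ℝ), R / F.c ≤ t' → t' ≤ R → ball z (F.c * t') ⊆ ball xs (4 * R) →
      Quiet F S R z t' := by
    intro z t' h1 h2 h3
    have ht' : 0 < t' := lt_of_lt_of_le ht h1
    refine ⟨ht', h2.trans hR1, h3.trans hsub, F.c ^ m * Ee, hd0, hEd, ?_, ?_⟩
    · refine (measure_mono h3).trans (hdens.trans (ENNReal.ofReal_le_ofReal ?_))
      have h4 : R ≤ F.c * t' := by
        rw [div_le_iff₀ hc0] at h1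
        linarith
      have h5 : R ^ m ≤ (F.c * t') ^ m := pow_le_pow_left₀ hR.le h4 m
      rw [mul_pow] at h5
      calc R ^ m * Ee ≤ (F.c ^ m * t' ^ m) * Ee := mul_le_mul_of_nonneg_right h5 hE
        _ = F.c ^ m * Ee * t' ^ m := by ring
    · calc t' * Real.sqrt (F.c ^ m * Ee) ≤ R * 1 :=
            mul_le_mul h2 hsq1 (Real.sqrt_nonneg _) hR.le
        _ = R := mul_one R
  have hrm : F.rmaj * R = 4 * (R / F.c) := by
    unfold Fix.rmaj
    ring
  have hrmR : F.rmaj * R ≤ R := by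
    rw [hrm, ← mul_div_assoc, div_le_iff₀ hc0]
    nlinarith
  -- the node configuration
  have hQAR : QMaj F S R xs (F.rmaj * R) AR := by
    refine qmaj_of_isMaj hAR ?_
    have h1 : F.rmaj ^ (-(m : ℝ)) ≤ F.c ^ m := by
      have hr0 : 0 < F.rmaj := by unfold Fix.rmaj; positivity
      rw [Real.rpow_neg hr0.le, Real.rpow_natCast, ← inv_pow]
      apply pow_le_pow_left₀ (by positivity)
      unfold Fix.rmaj
      rw [inv_div]
      linarith
    have h2 : F.rmaj ^ (-(m : ℝ)) * Ee ≤ 1 := (mul_le_mul_of_nonneg_right h1 hE).trans hE1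
    calc F.rmaj * R * Real.sqrt (F.rmaj ^ (-(m : ℝ)) * Ee) ≤ R * 1 :=
          mul_le_mul hrmR (Real.sqrt_le_one.2 h2) (Real.sqrt_nonneg _) hR.le
      _ = R := mul_one R
  -- shrink at `xs`
  have hq1 : ∀ t, R / F.c ≤ t → t ≤ F.rmaj * R → Quiet F S R xs t := by
    intro t h1 h2
    refine hquiet xs t h1 (h2.trans hrmR) (ball_subset_ball ?_)
    calc F.c * t ≤ F.c * (F.rmaj * R) := mul_le_mul_of_nonneg_left h2 hc0.le
      _ = 4 * R := by rw [hrm]; field_simp
  have hss : R / F.c ≤ F.rmaj * R := by rw [hrm]; linarith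
  obtain ⟨A1, hA1⟩ := (hq1 (R / F.c) le_rfl hss).exists_qmaj hS hCg
  have hM1 := shrink hS hCg ht hss hq1 hQAR hA1
  have hlog : Real.logb 2 (F.rmaj * R / (R / F.c)) = 2 := by
    have e : F.rmaj * R / (R / F.c) = 2 ^ (2 : ℕ) := by
      rw [hrm]
      field_simp
      norm_num
    rw [e, Real.logb_pow, Real.logb_self_eq_one (by norm_num)]
    norm_num
  rw [hlog] at hM1
  -- the witness at `y`
  have hyb : ball y R ⊆ ball xs (4 * R) := by
    apply ball_subset_ball'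
    rw [mem_ball] at hy
    linarith
  obtain ⟨Ay, hAy⟩ := F.cfg S hS hCg y (R / F.c) (F.c ^ m * Ee) ht (htR.trans hR1) hd0 hEd
    (by rw [hcR]; exact hyb.trans hsub)
    (by
      rw [hcR]
      refine (measure_mono hyb).trans (hdens.trans (le_of_eq ?_))
      congr 1
      rw [div_pow]
      field_simp)
  have hmajy : S.IsMajority y (R / F.c) F.δmaj (F.Cmaj * R) Ay := by
    refine isMajority_mono hAy.maj ?_
    calc F.Cmaj * (R / F.c) * Real.sqrt (F.c ^ m * Ee) ≤ F.Cmaj * R * 1 :=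
          mul_le_mul (mul_le_mul_of_nonneg_left htR hCm.le) hsq1 (Real.sqrt_nonneg _)
            (by positivity)
      _ = F.Cmaj * R := mul_one _
  -- slide from `xs` to `y`
  have hq2 : ∀ z ∈ segment ℝ xs y, Quiet F S R z (R / F.c) := by
    intro z hz
    have hz2 : z ∈ ball xs (2 * R) :=
      (convex_ball xs (2 * R)).segment_subset (mem_ball_self (by positivity)) hy hz
    refine hquiet z _ le_rfl htR ?_
    rw [hcR]
    apply ball_subset_ball'
    rw [mem_ball] at hz2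
    linarith
  have hM2 := slide hS hCg hq2 hA1 hmajy
  have hM := matched_trans hM1 hM2
  refine ⟨Ay, matched_symm (matched_mono hM ?_), hmajy, ?_⟩
  · have h1 : 4 * ‖xs - y‖ / (R / F.c) ≤ 8 * F.c := by
      rw [div_le_iff₀ ht]
      rw [mem_ball, dist_comm, dist_eq_norm] at hy
      calc 4 * ‖xs - y‖ ≤ 4 * (2 * R) := by linarith
        _ = 8 * (F.c * (R / F.c)) := by rw [hcR]; ring
        _ = 8 * F.c * (R / F.c) := by ring
    have h2 : 0 ≤ 2 * F.Cmaj * R := by positivity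
    calc 2 * F.Cmaj * R * (2 + 2) + 2 * F.Cmaj * R * (4 * ‖xs - y‖ / (R / F.c) + 2)
        ≤ 2 * F.Cmaj * R * (2 + 2) + 2 * F.Cmaj * R * (8 * F.c + 2) := by
          have := mul_le_mul_of_nonneg_left (add_le_add_left h1 2) h2
          linarith
      _ = 2 * F.Cmaj * R * (8 * F.c + 6) := by ring
  · intro q hq hq1
    have hm0 : (0 : ℝ) < m := by exact_mod_cast hm
    have hβ : AdmB m (1 / ((m : ℝ) + 2)) := by
      refine ⟨by positivity, ?_, ?_⟩
      · rw [div_lt_div_iff₀ (by positivity) (by norm_num)]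
        linarith
      · rw [div_mul_eq_mul_div, div_lt_one (by positivity)]
        linarith
    have h1 := hAy.sup _ hβ q hq hq1
    refine h1.trans ?_
    have h2 : (F.c ^ m * Ee) ^ (1 / ((m : ℝ) + 2)) ≤ 1 := Real.rpow_le_one hd0 hE1 hβ.1.le
    have h3 : 0 ≤ (F.c ^ m * Ee) ^ (1 / ((m : ℝ) + 2)) := Real.rpow_nonneg hd0 _
    calc F.Cβ (1 / ((m : ℝ) + 2)) * (R / F.c) * (F.c ^ m * Ee) ^ (1 / ((m : ℝ) + 2))
        ≤ |F.Cβ (1 / ((m : ℝ) + 2))| * (R / F.c) * (F.c ^ m * Ee) ^ (1 / ((m : ℝ) + 2)) := by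
          apply mul_le_mul_of_nonneg_right _ h3
          exact mul_le_mul_of_nonneg_right (le_abs_self _) ht.le
      _ ≤ |F.Cβ (1 / ((m : ℝ) + 2))| * R * 1 :=
          mul_le_mul (mul_le_mul_of_nonneg_left htR (abs_nonneg _)) h2 h3 (by positivity)
      _ = _ := mul_one _

/-- AE (4.19) and the majority fibres of the local configurations. -/
theorem small_heights (m n Q : ℕ) (hm : 1 ≤ m) (hQ : 2 ≤ Q) (κ Cg : ℝ) (F : Fix m n Q Cg)
    (p : Prm) (hp : p.Ok m) :
    ∃ T0 : ℝ, ∀ T : ℝ, T0 ≤ T → ∀ (S : Sys m n) (A : Fin Q → E n) (grp : Fin Q → Fin Q),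
      Root F κ p S T A grp → ∀ i : ℕ, i ≤ n0 p T + 1 → ∀ (xs : E m) (R : ℝ),
      IsNode F S p T A i xs R → R ≤ smallR p Q T →
      (∀ q ∈ S.spt, q.1 ∈ ball xs (2 * R) → Sys.distA A q.2 ≤ hgt Q T) ∧
      ∀ y ∈ ball xs (2 * R),
        S.volS {z | z ∈ ball y (R / F.c) ∧
            ¬ ∃ σ : Equiv.Perm (Fin Q), Sys.FibMatch (S.fib z) (A ∘ σ) (hgt Q T)}
          ≤ ENNReal.ofReal F.δmaj * S.volS (ball y (R / F.c)) := by
  obtain ⟨T1, hT1⟩ := exists_big p Q hQ 1
  obtain ⟨K, hK⟩ : ∃ K : ℝ, K = |F.Cβ (1 / ((m : ℝ) + 2))| + F.Cmaj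
      + 2 * F.Cmaj * (8 * F.c + 6) := ⟨_, rfl⟩
  have hc : 4 < F.c := F.c_gt
  have hc0 : 0 < F.c := by linarith
  have hCm : 0 < F.Cmaj := F.Cmaj_pos
  have hd0 : 0 < F.d0 := F.d0_pos
  refine ⟨max T1 (max K (max (F.c ^ m / F.d0) (max (F.c ^ m) 1))), fun T hT S A grp hroot i hi xs R
    hnode hRs => ?_⟩
  have hTa : T1 ≤ T := (le_max_left _ _).trans hT
  have hT' := (le_max_right _ _).trans hT
  have hTK : K ≤ T := (le_max_left _ _).trans hT'
  have hT'' := (le_max_right _ _).trans hT'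
  have hTd : F.c ^ m / F.d0 ≤ T := (le_max_left _ _).trans hT''
  have hT3 := (le_max_right _ _).trans hT''
  have hTc : F.c ^ m ≤ T := (le_max_left _ _).trans hT3
  have hT1' : 1 ≤ T := (le_max_right _ _).trans hT3
  have hT0 : 0 < T := by linarith
  have hB := hT1 T hTa
  have hS := hroot.hyp.valid
  have hCg := hroot.hyp.Cg_le
  have hb0 : 0 ≤ bQ Q T := le_trans (by have := hB.log_ge; positivity) hB.b_ge
  have hR0 : 0 < R := lt_of_lt_of_le (div_pos (rb_pos Q T) (by positivity)) hnode.R_ge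
  have hR4 : rb Q T / T ^ 4 ≤ R := by
    refine le_trans ?_ hnode.R_ge
    apply div_le_div_of_nonneg_left (rb_pos Q T).le (by positivity)
    exact pow_le_pow_right₀ hT1' (by norm_num)
  obtain ⟨Ee, hEe⟩ : ∃ Ee : ℝ, Ee = Env p T (2 * i) R := ⟨_, rfl⟩
  have hE0 : 0 ≤ Ee := hEe ▸ (Env_pos hT0 hR0 _).le
  have hET : T * Ee ≤ 1 := by
    have h1 := hB.env_small (2 * i) (by omega) R hR4
    rw [Real.rpow_one, ← hEe] at h1
    refine h1.trans ?_
    rw [Real.exp_le_one_iff]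
    linarith
  have hcm : (0 : ℝ) < F.c ^ m := by positivity
  have hE1 : F.c ^ m * Ee ≤ 1 := (mul_le_mul_of_nonneg_right hTc hE0).trans hET
  have hEd : F.c ^ m * Ee ≤ F.d0 := by
    rw [div_le_iff₀ hd0] at hTd
    have h1 : F.c ^ m * Ee ≤ T * F.d0 * Ee := mul_le_mul_of_nonneg_right hTd hE0
    have h2 : T * F.d0 * Ee = F.d0 * (T * Ee) := by ring
    rw [h2] at h1
    exact h1.trans (by nlinarith)
  have hsub : ball xs (4 * R) ⊆ S.Ω := hnode.sub.trans hroot.hyp.room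
  obtain ⟨AR, hAR, hARA⟩ := hnode.cfg
  have hdens := hnode.dens
  rw [← hEe] at hAR hdens
  -- numerics
  have hnum : ∀ x : ℝ, 0 ≤ x → x ≤ K * R →
      x + ((i : ℝ) + 1) * mot Q T ≤ hgt Q T := by
    intro x _ hx
    have h1 := hB.hgt
    rw [Real.rpow_one] at h1
    have hi' : (i : ℝ) + 1 ≤ (n0 p T : ℝ) + 3 := by
      have : (i : ℝ) ≤ (n0 p T : ℝ) + 1 := by exact_mod_cast hi
      linarith
    have h2 : ((i : ℝ) + 1) * mot Q T ≤ ((n0 p T : ℝ) + 3) * mot Q T :=
      mul_le_mul_of_nonneg_right hi' (mot_pos Q T).le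
    have hK0 : 0 ≤ K := by rw [hK]; positivity
    have h3 : K * R ≤ T * smallR p Q T := mul_le_mul hTK hRs hR0.le hT0.le
    unfold hgt
    linarith
  have hchain := fun (y : E m) (hy : y ∈ ball xs (2 * R)) =>
    sh_chain hS hCg hm hR0 hnode.R_le hE0 hEd hE1 hsub hdens hAR hy
  have hQ1 : 1 ≤ Q := by omega
  constructor
  · intro q hq hq1
    obtain ⟨Ay, hM, -, hsup⟩ := hchain q.1 hq1
    have h1 := hsup q hq (mem_ball_self (div_pos hR0 hc0))
    have h2 := distA_le_of_matched hQ1 (matched_trans hM hARA) q.2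
    refine h2.trans ?_
    have h3 := hnum (|F.Cβ (1 / ((m : ℝ) + 2))| * R + 2 * F.Cmaj * R * (8 * F.c + 6))
      (by positivity) (by
        rw [hK]
        have : 0 ≤ F.Cmaj * R := by positivity
        nlinarith)
    linarith
  · intro y hy
    obtain ⟨Ay, hM, hmaj, -⟩ := hchain y hy
    refine le_trans (measure_mono ?_) hmaj
    rintro z ⟨hz1, hz2⟩
    refine ⟨hz1, fun hf => hz2 ?_⟩
    obtain ⟨σ, hσ⟩ := fibMatch_of_matched hf (matched_trans hM hARA)
    refine ⟨σ, fibMatch_mono hσ ?_⟩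
    have h3 := hnum (F.Cmaj * R + 2 * F.Cmaj * R * (8 * F.c + 6))
      (by positivity) (by
        rw [hK]
        have : 0 ≤ |F.Cβ (1 / ((m : ℝ) + 2))| * R := by positivity
        nlinarith)
    linarith

/-- the pieces are valid systems. -/
theorem piece_valid (hQ : 1 ≤ Q) {S : Sys m n} (hS : S.Valid) {A : Fin Q → E n}
    {grp : Fin Q → Fin Q} {r h : ℝ} (hr : 0 < r) (hh : h < r)
    (hsep : Sys.Separated A grp (10 * r)) {xs : E m} {R : ℝ} (hsub : ball xs (2 * R) ⊆ S.Ω)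
    (hsup : ∀ q ∈ S.spt, q.1 ∈ ball xs (2 * R) → Sys.distA A q.2 ≤ h) (g : Fin Q) :
    (piece S A grp r xs R g).Valid := by
  exact hS.restr isOpen_ball hsub (grpO_isOpen A grp r g) (grpO_gap hQ hr hh hsep hsup g)

/-- the count of the piece is `q_g` on the majority fibres. -/
theorem piece_count {S : Sys m n} (hS : S.Valid) {A : Fin Q → E n} {grp : Fin Q → Fin Q}
    {r h δ : ℝ} (hr : 0 < r) (hh : h < r) (hδ : δ ≤ 1 / 2) (hsep : Sys.Separated A grp (10 * r))
    {xs y : E m} {R s : ℝ} (hsub : ball xs (2 * R) ⊆ S.Ω) (hys : ball y s ⊆ ball xs (2 * R))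
    (hmaj : S.volS {z | z ∈ ball y s ∧
        ¬ ∃ σ : Equiv.Perm (Fin Q), Sys.FibMatch (S.fib z) (A ∘ σ) h}
      ≤ ENNReal.ofReal δ * S.volS (ball y s)) (g : Fin Q) :
    (piece S A grp r xs R g).volS
        {z | z ∈ ball y s ∧ (piece S A grp r xs R g).N z ≠ grpCard grp g}
      ≤ (1 / 2 : ℝ≥0∞) * (piece S A grp r xs R g).volS (ball y s) := by
  have hv : (piece S A grp r xs R g).volS = S.volS.restrict (ball xs (2 * R)) :=
    restr_volS S _ isOpen_ball.measurableSet hsub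
  have hsubset : {z | z ∈ ball y s ∧ (piece S A grp r xs R g).N z ≠ grpCard grp g}
      ⊆ {z | z ∈ ball y s ∧ ¬ ∃ σ : Equiv.Perm (Fin Q), Sys.FibMatch (S.fib z) (A ∘ σ) h} := by
    rintro z ⟨hz, hN⟩
    refine ⟨hz, ?_⟩
    rintro ⟨σ, hσ⟩
    apply hN
    have h1 : (piece S A grp r xs R g).N z = _ := restr_N S (ball xs (2 * R)) (grpO A grp r g) z
    rw [h1]
    exact grpO_count hr hh hsep hσ g
  have hA : {z | z ∈ ball y s ∧ (piece S A grp r xs R g).N z ≠ grpCard grp g}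
      ⊆ ball xs (2 * R) := fun z hz => hys hz.1
  rw [hv, Measure.restrict_apply' isOpen_ball.measurableSet,
    Measure.restrict_apply' isOpen_ball.measurableSet, inter_eq_left.2 hA, inter_eq_left.2 hys]
  refine (measure_mono hsubset).trans (hmaj.trans ?_)
  gcongr
  calc ENNReal.ofReal δ ≤ ENNReal.ofReal (1 / 2) := ENNReal.ofReal_le_ofReal hδ
    _ = 1 / 2 := by
        rw [ENNReal.ofReal_div_of_pos (by norm_num)]
        simp

theorem ps_image_ball (y : E m) {r : ℝ} (hr : 0 < r) (ρ : ℝ) :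
    (fun z : E m => y + r • z) '' ball (0 : E m) ρ = ball y (ρ * r) := by
  ext z
  constructor
  · rintro ⟨u, hu, rfl⟩
    rw [mem_ball_zero_iff] at hu
    rw [mem_ball, dist_eq_norm, add_sub_cancel_left, norm_smul, Real.norm_of_nonneg hr.le]
    nlinarith
  · intro hz
    rw [mem_ball, dist_eq_norm] at hz
    refine ⟨r⁻¹ • (z - y), ?_, ?_⟩
    · rw [mem_ball_zero_iff, norm_smul, norm_inv, Real.norm_of_nonneg hr.le, inv_mul_lt_iff₀ hr]
      linarith
    · simp only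
      rw [smul_smul, mul_inv_cancel₀ hr.ne', one_smul]
      abel

/-- the signed-excess theorem on an interior ball (rescaling). -/
theorem ps_signed_ball {q : ℕ} {κ CQ T0 : ℝ}
    (H : ∀ (S : Sys m n) (T : ℝ), T0 ≤ T → SignedHyp S q κ Cg T → ∀ w : E m → ℝ, IsWeight w 0 1 →
      S.intL q w - CQ * S.intLam w ≤ Real.exp (-(FQ q T)) * Real.exp (-T))
    {S : Sys m n} (hS : S.Valid) (hCg : S.Cg ≤ Cg) {y : E m} {r T : ℝ} (hT : T0 ≤ T) (hr : 0 < r)
    (hr1 : r ≤ 1) (hball : ball y (4 * r) ⊆ S.Ω)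
    (hτ : S.tau q (ball y (4 * r)) ≤ ENNReal.ofReal (Real.exp (-T) * r ^ m))
    (hγ : S.γ ≤ Real.exp (-κ * T)) {w : E m → ℝ} (hw : IsWeight w y r) :
    S.intL q w - CQ * S.intLam w ≤ Real.exp (-(FQ q T)) * Real.exp (-T) * r ^ m := by
  have hrm : 0 < r ^ m := by positivity
  have hcancel : ∀ z : E m, y + r • (r⁻¹ • (z - y)) = z := by
    intro z
    rw [smul_smul, mul_inv_cancel₀ hr.ne', one_smul]
    abel
  have hyp : SignedHyp (S.rescale y r) q κ Cg T := by
    refine ⟨hS.rescale y hr hr1, hCg, ?_, ?_, hγ⟩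
    · apply Sys.rescale_ball_subset hr
      rw [smul_zero, add_zero, mul_comm]
      exact hball
    · rw [hS.rescale_tau q y hr, ps_image_ball y hr]
      calc (ENNReal.ofReal (r ^ m))⁻¹ * S.tau q (ball y (4 * r))
          ≤ (ENNReal.ofReal (r ^ m))⁻¹ * ENNReal.ofReal (Real.exp (-T) * r ^ m) := by gcongr
        _ = ENNReal.ofReal (Real.exp (-T)) := by
            rw [ENNReal.ofReal_mul (Real.exp_pos _).le, mul_comm, mul_assoc,
              ENNReal.mul_inv_cancel (by simpa using hrm) ENNReal.ofReal_ne_top, mul_one]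
  have hw' : IsWeight (fun z => w (y + r • z)) 0 1 := by
    refine ⟨fun z => hw.nonneg _, fun z => hw.le_one _, fun z z' => ?_, fun z hz => ?_⟩
    · refine (hw.lip _ _).trans (le_of_eq ?_)
      rw [add_sub_add_left_eq_sub, ← smul_sub, norm_smul, Real.norm_of_nonneg hr.le]
      field_simp
    · have h1 := hw.supp hz
      rw [mem_ball, dist_eq_norm, add_sub_cancel_left, norm_smul, Real.norm_of_nonneg hr.le] at h1
      rw [mem_ball_zero_iff]
      nlinarith
  have key := H (S.rescale y r) T hT hyp _ hw'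
  have e1 : (S.rescale y r).intL q (fun z => w (y + r • z)) = (r ^ m)⁻¹ * S.intL q w := by
    unfold Sys.intL
    rw [hS.rescale_intM q y hr, hS.rescale_intD y hr]
    simp only [hcancel]
    ring
  have e2 : (S.rescale y r).intLam (fun z => w (y + r • z)) = (r ^ m)⁻¹ * S.intLam w := by
    rw [hS.rescale_intLam y hr]
    simp only [hcancel]
  rw [e1, e2] at key
  have h2 := mul_le_mul_of_nonneg_right key hrm.le
  have h3 : ((r ^ m)⁻¹ * S.intL q w - CQ * ((r ^ m)⁻¹ * S.intLam w)) * r ^ m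
      = S.intL q w - CQ * S.intLam w := by
    field_simp
  rw [h3] at h2
  exact h2

/-- the level `T' = - log d_g` of a piece and the lower-integer theorem at that level. -/
theorem ps_level {q : ℕ} {κ CQ T0 : ℝ} (hκ : 0 < κ)
    (H : ∀ (S : Sys m n) (T : ℝ), T0 ≤ T → SignedHyp S q κ Cg T → ∀ w : E m → ℝ, IsWeight w 0 1 →
      S.intL q w - CQ * S.intLam w ≤ Real.exp (-(FQ q T)) * Real.exp (-T))
    {S : Sys m n} (hS : S.Valid) (hCg : S.Cg ≤ Cg) {y : E m} {r T b K X L : ℝ} (hr : 0 < r)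
    (hr1 : r ≤ 1) (hball : ball y (4 * r) ⊆ S.Ω) (hK : 0 ≤ K) (hX : 0 ≤ X)
    (hτ : S.tau q (ball y (4 * r)) ≤ ENNReal.ofReal (K * X))
    (hsmall : K * (r ^ m)⁻¹ * X ≤ Real.exp (-(b / 2)))
    (hbT : b / 2 ≤ T) (hT0 : T0 ≤ b / 2)
    (hrate : ∀ T' : ℝ, b / 2 ≤ T' → L ≤ FQ q T')
    (hγ : S.γ ≤ Real.exp (-κ * T)) {w : E m → ℝ} (hw : IsWeight w y r) :
    S.intL q w - CQ * S.intLam w ≤ Real.exp (-L) * (dT T * r ^ m + K * X) := by
  have hrm : 0 < r ^ m := by positivity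
  obtain ⟨dg, hdg⟩ : ∃ dg : ℝ, dg = max (dT T) (K * (r ^ m)⁻¹ * X) := ⟨_, rfl⟩
  have hdpos : 0 < dg := hdg ▸ lt_max_of_lt_left (dT_pos T)
  have hexpT' : Real.exp (-(-Real.log dg)) = dg := by rw [neg_neg, Real.exp_log hdpos]
  have hd1 : dT T ≤ dg := hdg ▸ le_max_left _ _
  have hd2 : K * (r ^ m)⁻¹ * X ≤ dg := hdg ▸ le_max_right _ _
  have hd3 : dg ≤ Real.exp (-(b / 2)) := by
    rw [hdg]
    refine max_le ?_ hsmall
    unfold dT
    exact Real.exp_le_exp.2 (by linarith)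
  have hT'le : -Real.log dg ≤ T := by
    have : -T ≤ Real.log dg := (Real.le_log_iff_exp_le hdpos).2 hd1
    linarith
  have hT'ge : b / 2 ≤ -Real.log dg := by
    have : Real.log dg ≤ -(b / 2) := (Real.log_le_iff_le_exp hdpos).2 hd3
    linarith
  have hγ' : S.γ ≤ Real.exp (-κ * -Real.log dg) := by
    refine hγ.trans (Real.exp_le_exp.2 ?_)
    nlinarith
  have hτg : S.tau q (ball y (4 * r)) ≤ ENNReal.ofReal (Real.exp (-(-Real.log dg)) * r ^ m) := by
    rw [hexpT']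
    refine hτ.trans (ENNReal.ofReal_le_ofReal ?_)
    calc K * X = K * (r ^ m)⁻¹ * X * r ^ m := by field_simp
      _ ≤ _ := mul_le_mul_of_nonneg_right hd2 hrm.le
  have key := ps_signed_ball H hS hCg (hT0.trans hT'ge) hr hr1 hball hτg hγ' hw
  rw [hexpT'] at key
  have hrate' := hrate _ hT'ge
  have hfin : dg * r ^ m ≤ dT T * r ^ m + K * X := by
    have h1 : dg ≤ dT T + K * (r ^ m)⁻¹ * X := by
      rw [hdg]
      exact max_le (le_add_of_nonneg_right (by positivity))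
        (le_add_of_nonneg_left (dT_pos T).le)
    calc dg * r ^ m ≤ (dT T + K * (r ^ m)⁻¹ * X) * r ^ m := mul_le_mul_of_nonneg_right h1 hrm.le
      _ = _ := by field_simp
  calc S.intL q w - CQ * S.intLam w ≤ Real.exp (-(FQ q (-Real.log dg))) * dg * r ^ m := key
    _ = Real.exp (-(FQ q (-Real.log dg))) * (dg * r ^ m) := by ring
    _ ≤ Real.exp (-L) * (dT T * r ^ m + K * X) :=
        mul_le_mul (Real.exp_le_exp.2 (by linarith)) hfin (by positivity) (Real.exp_pos _).le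

/-- `τ_g ≤ (C + 1)(D_g + Λ_g)` on a ball with a majority count (`scalar_majority`). -/
theorem ps_tau {C ε0 ω : ℝ} (hωdef : ω = (volume (ball (0 : E m) 1)).toReal) (hC : 0 < C)
    (Hsc : ∀ S : Sys m n, S.Valid → S.Cg ≤ Cg →
      ∀ (x : E m) (s : ℝ) (q' : ℕ), 0 < s → s ≤ 1 → ball x (2 * s) ⊆ S.Ω →
      S.nu (ball x (2 * s)) ≤ ENNReal.ofReal ((1 + 2 * Q * 2 ^ m * ω) * s ^ m) →
      (S.Dm + S.Lm) (ball x (2 * s)) ≤ ENNReal.ofReal (ε0 * s ^ m) →
      S.volS {y | y ∈ ball x s ∧ S.N y ≠ q'} ≤ (1 / 2 : ℝ≥0∞) * S.volS (ball x s) →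
      S.absM q' (ball x s) + S.volS {y | y ∈ ball x s ∧ S.N y ≠ q'}
        ≤ ENNReal.ofReal C * (S.Dm + S.Lm) (ball x (2 * s)))
    {S Sg : Sys m n} (hS : S.Valid) (hval : Sg.Valid) (hCg : Sg.Cg ≤ Cg) (hDm : Sg.Dm ≤ S.Dm)
    (hLm : Sg.Lm ≤ S.Lm) (hnu : Sg.nu ≤ S.nu)
    {y : E m} {s δ : ℝ} {qg : ℕ} (hs0 : 0 < s) (hs1 : s ≤ 1) (hball : ball y (2 * s) ⊆ Sg.Ω)
    (hδ0 : 0 ≤ δ) (hδ1 : δ ≤ 1) (hδε : δ ≤ ε0)
    (hτ : S.tau Q (ball y (2 * s)) ≤ ENNReal.ofReal (δ * s ^ m))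
    (hcount : Sg.volS {z | z ∈ ball y s ∧ Sg.N z ≠ qg} ≤ (1 / 2 : ℝ≥0∞) * Sg.volS (ball y s)) :
    ((Sg.Dm + Sg.Lm) (ball y (2 * s))).toReal ≤ δ * s ^ m ∧
    Sg.tau qg (ball y s)
      ≤ ENNReal.ofReal ((C + 1) * ((Sg.Dm + Sg.Lm) (ball y (2 * s))).toReal) := by
  have hω : 0 < ω := hωdef ▸ volume_unit_ball_pos m
  have hsm : 0 < s ^ m := by positivity
  have hy1 : ball y s ⊆ ball y (2 * s) := ball_subset_ball (by linarith)
  have hDLle : (Sg.Dm + Sg.Lm) (ball y (2 * s)) ≤ S.tau Q (ball y (2 * s)) := by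
    unfold Sys.tau
    rw [Measure.add_apply, Measure.add_apply, Measure.add_apply, add_assoc]
    exact le_add_left (add_le_add (hDm _) (hLm _))
  obtain ⟨X, hX⟩ : ∃ X : ℝ, X = ((Sg.Dm + Sg.Lm) (ball y (2 * s))).toReal := ⟨_, rfl⟩
  have hX0 : 0 ≤ X := hX ▸ ENNReal.toReal_nonneg
  have hXfin : (Sg.Dm + Sg.Lm) (ball y (2 * s)) ≠ ⊤ :=
    ((hDLle.trans hτ).trans_lt ENNReal.ofReal_lt_top).ne
  have hXle : X ≤ δ * s ^ m := by
    rw [hX]
    exact ENNReal.toReal_le_of_le_ofReal (by positivity) (hDLle.trans hτ)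
  have hXof : (Sg.Dm + Sg.Lm) (ball y (2 * s)) = ENNReal.ofReal X := by
    rw [hX, ENNReal.ofReal_toReal hXfin]
  have hν : Sg.nu (ball y (2 * s)) ≤ ENNReal.ofReal ((1 + 2 * Q * 2 ^ m * ω) * s ^ m) := by
    have hvol : volume (ball y (2 * s)) = ENNReal.ofReal ((2 * s) ^ m * ω) := by
      rw [volume_ball_eq y (by positivity), ENNReal.ofReal_mul (by positivity), hωdef,
        ENNReal.ofReal_toReal measure_ball_lt_top.ne]
    calc Sg.nu (ball y (2 * s)) ≤ S.nu (ball y (2 * s)) := hnu _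
      _ ≤ S.tau Q (ball y (2 * s)) + 2 * (Q : ℝ≥0∞) * volume (ball y (2 * s)) :=
          nu_le_tau hS Q _
      _ ≤ ENNReal.ofReal (δ * s ^ m) + 2 * (Q : ℝ≥0∞) * ENNReal.ofReal ((2 * s) ^ m * ω) := by
          rw [hvol]
          gcongr
      _ = ENNReal.ofReal (δ * s ^ m + 2 * Q * ((2 * s) ^ m * ω)) := by
          rw [ENNReal.ofReal_add (by positivity) (by positivity),
            ENNReal.ofReal_mul (p := 2 * (Q : ℝ)) (by positivity),
            ENNReal.ofReal_mul (p := (2 : ℝ)) (by norm_num), ENNReal.ofReal_natCast]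
          norm_num
      _ ≤ _ := by
          apply ENNReal.ofReal_le_ofReal
          rw [mul_pow]
          have h4 := mul_le_mul_of_nonneg_right hδ1 hsm.le
          nlinarith
  have hDL : (Sg.Dm + Sg.Lm) (ball y (2 * s)) ≤ ENNReal.ofReal (ε0 * s ^ m) :=
    (hDLle.trans hτ).trans (ENNReal.ofReal_le_ofReal (mul_le_mul_of_nonneg_right hδε hsm.le))
  have hres := Hsc Sg hval hCg y s qg hs0 hs1 hball hν hDL hcount
  rw [hXof] at hres
  rw [← hX]
  refine ⟨hXle, ?_⟩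
  have h1 : Sg.absM qg (ball y s) ≤ ENNReal.ofReal C * ENNReal.ofReal X := le_self_add.trans hres
  have h2 : (Sg.Dm + Sg.Lm) (ball y s) ≤ ENNReal.ofReal X := (measure_mono hy1).trans hXof.le
  unfold Sys.tau
  rw [Measure.add_apply, Measure.add_apply, add_assoc]
  rw [Measure.add_apply] at h2
  calc _ ≤ ENNReal.ofReal C * ENNReal.ofReal X + ENNReal.ofReal X := add_le_add h1 h2
    _ = ENNReal.ofReal ((C + 1) * X) := by
        rw [← ENNReal.ofReal_mul hC.le, ← ENNReal.ofReal_add (by positivity) hX0]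
        congr 1
        ring

/-- the lower-integer theorem on one piece and one ball of the partition, AE (4.20)-(4.23). -/
theorem piece_signed (m n Q : ℕ) (hm : 1 ≤ m) (hQ : 2 ≤ Q)
    (ih : ∀ q : ℕ, 1 ≤ q → q < Q → SignedAt m n q) (κ Cg : ℝ) (hκ : 0 < κ) (F : Fix m n Q Cg) :
    ∃ CQ0 Cs : ℝ, 0 < CQ0 ∧ 0 < Cs ∧ ∀ p : Prm, p.Ok m →
      ∃ T0 : ℝ, ∀ T : ℝ, T0 ≤ T → ∀ (S : Sys m n) (A : Fin Q → E n) (grp : Fin Q → Fin Q),
      Root F κ p S T A grp → ∀ i : ℕ, i ≤ n0 p T + 1 → ∀ (xs : E m) (R : ℝ),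
      IsNode F S p T A i xs R → R ≤ smallR p Q T →
      ∀ (g : Fin Q) (y : E m), y ∈ ball xs (3 / 2 * R) →
      ∀ w' : E m → ℝ, IsWeight w' y (R / (4 * F.c)) →
        (piece S A grp (far p Q T) xs R g).intL (grpCard grp g) w'
            - CQ0 * (piece S A grp (far p Q T) xs R g).intLam w'
          ≤ Real.exp (-Real.log T ^ 3) * (dT T * (R / (4 * F.c)) ^ m
              + Cs * (((piece S A grp (far p Q T) xs R g).Dm
                  + (piece S A grp (far p Q T) xs R g).Lm) (ball y (2 * R / F.c))).toReal) := by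
  classical
  have ih' : ∀ q : ℕ, ∃ CQ T0 : ℝ, 0 < CQ ∧ (1 ≤ q → q < Q → ∀ (S : Sys m n) (T : ℝ), T0 ≤ T →
      SignedHyp S q κ Cg T → ∀ w : E m → ℝ, IsWeight w 0 1 →
      S.intL q w - CQ * S.intLam w ≤ Real.exp (-(FQ q T)) * Real.exp (-T)) := by
    intro q
    by_cases h : 1 ≤ q ∧ q < Q
    · obtain ⟨CQ, T0, h1, h2⟩ := ih q h.1 h.2 κ Cg hκ
      exact ⟨CQ, T0, h1, fun _ _ => h2⟩
    · exact ⟨1, 0, one_pos, fun h1 h2 => absurd ⟨h1, h2⟩ h⟩
  choose CQf T0f hCQf Hf using ih'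
  obtain ⟨ω, hωdef⟩ : ∃ ω : ℝ, ω = (volume (ball (0 : E m) 1)).toReal := ⟨_, rfl⟩
  obtain ⟨C, ε0, hC, hε0, Hsc⟩ :=
    scalar_majority m n hm Cg (1 + 2 * Q * 2 ^ m * ω) 2 (by norm_num)
  have hsum0 : 0 ≤ ∑ q ∈ Finset.range Q, CQf q := Finset.sum_nonneg fun q _ => (hCQf q).le
  refine ⟨1 + ∑ q ∈ Finset.range Q, CQf q, C + 1, by linarith, by linarith, ?_⟩
  intro p hp
  obtain ⟨T1, H1⟩ := small_heights m n Q hm hQ κ Cg F p hp
  obtain ⟨T2, H2⟩ := exists_big p Q hQ (max 1 (2 * ∑ q ∈ Finset.range Q, |T0f q|))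
  obtain ⟨T3, H3⟩ := rate_lower Q hQ
  refine ⟨max (max T1 T2)
    (max T3 (max (F.c ^ m / ε0) (max (F.c ^ m) ((C + 1) * (4 * F.c) ^ m)))), ?_⟩
  intro T hT S A grp hroot i hi xs R hnode hsmall g y hy w' hw'
  have hT1 : T1 ≤ T := ((le_max_left _ _).trans (le_max_left _ _)).trans hT
  have hT2 : T2 ≤ T := ((le_max_right _ _).trans (le_max_left _ _)).trans hT
  have hT3 : T3 ≤ T := ((le_max_left _ _).trans (le_max_right _ _)).trans hT
  have hT4 : F.c ^ m / ε0 ≤ T :=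
    ((le_max_left _ _).trans ((le_max_right _ _).trans (le_max_right _ _))).trans hT
  have hT5 : F.c ^ m ≤ T :=
    ((le_max_left _ _).trans ((le_max_right _ _).trans
      ((le_max_right _ _).trans (le_max_right _ _)))).trans hT
  have hT6 : (C + 1) * (4 * F.c) ^ m ≤ T :=
    ((le_max_right _ _).trans ((le_max_right _ _).trans
      ((le_max_right _ _).trans (le_max_right _ _)))).trans hT
  clear hT
  obtain ⟨hsup, hmaj⟩ := H1 T hT1 S A grp hroot i hi xs R hnode hsmall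
  have hbig := H2 T hT2
  have hrate := H3 T hT3
  clear H1 H2 H3
  obtain ⟨c, hcdef⟩ : ∃ c : ℝ, c = F.c := ⟨_, rfl⟩
  rw [← hcdef] at hT4 hT5 hT6 hw' hmaj ⊢
  have hc4 : 4 < c := hcdef ▸ F.c_gt
  have hc0 : 0 < c := by linarith
  have hTpos := hbig.pos
  have hTone := hbig.one_le
  have hlog := hbig.log_ge
  have hb1 : 1 + Real.log T ^ 201 ≤ bQ Q T := b_ge Q T
  have hlogpow : Real.log T ≤ Real.log T ^ 201 := by
    calc Real.log T = Real.log T ^ 1 := (pow_one _).symm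
      _ ≤ Real.log T ^ 201 := pow_le_pow_right₀ (by linarith) (by norm_num)
  have hb0 : 0 < bQ Q T := by linarith
  have hR0 : 0 < R := lt_of_lt_of_le (div_pos (rb_pos Q T) (by positivity)) hnode.R_ge
  have hR1 := hnode.R_le
  have hS := hroot.hyp.valid
  have hfar := far_pos p Q T
  have hlt : hgt Q T < far p Q T := hgt_lt_far hp.CS_ge hb0
  have hsub4 : ball xs (4 * R) ⊆ S.Ω := hnode.sub.trans hroot.hyp.room
  have hsub2 : ball xs (2 * R) ⊆ S.Ω := (ball_subset_ball (by linarith)).trans hsub4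
  have hval := piece_valid (by omega) hS hfar hlt hroot.sep hsub2 hsup g
  by_cases hq0 : grpCard grp g = 0
  · have hO := grpO_empty A (far p Q T) hq0
    obtain ⟨e1, e2⟩ := restr_empty_intL S (ball xs (2 * R)) w'
    have e3 : piece S A grp (far p Q T) xs R g = S.restr (ball xs (2 * R)) ∅ := by
      unfold piece
      rw [hO]
    rw [hq0, e3, e1, e2]
    have := dT_pos T
    simp only [mul_zero, sub_zero]
    positivity
  have hq1 : 1 ≤ grpCard grp g := Nat.one_le_iff_ne_zero.2 hq0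
  have hqQ : grpCard grp g < Q := grpCard_lt hroot.two g
  -- geometry
  have hs0 : 0 < R / c := by positivity
  have hs1 : R / c ≤ 1 := by
    rw [div_le_one hc0]
    linarith
  have hr0 : 0 < R / (4 * c) := by positivity
  have hr1 : R / (4 * c) ≤ 1 := by
    rw [div_le_one (by positivity)]
    linarith
  have h2s : 2 * R / c = 2 * (R / c) := by ring
  have h4r : 4 * (R / (4 * c)) = R / c := by field_simp
  have hRc : 2 * (R / c) ≤ R / 2 := by
    rw [← h2s, div_le_div_iff₀ hc0 (by norm_num)]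
    nlinarith
  have hy2 : ball y (2 * (R / c)) ⊆ ball xs (2 * R) := by
    apply ball_subset_ball'
    have := mem_ball.1 hy
    linarith
  have hy1 : ball y (R / c) ⊆ ball y (2 * (R / c)) := ball_subset_ball (by linarith)
  have hy4 : ball y (2 * (R / c)) ⊆ ball xs (4 * R) := hy2.trans (ball_subset_ball (by linarith))
  have hyy : y ∈ ball xs (2 * R) := ball_subset_ball (by linarith) hy
  -- envelope
  obtain ⟨En, hEn⟩ : ∃ En : ℝ, En = Env p T (2 * i) R := ⟨_, rfl⟩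
  have hE0 : 0 < En := hEn ▸ Env_pos hTpos hR0 _
  have hRge : rb Q T / T ^ 4 ≤ R := by
    refine le_trans ?_ hnode.R_ge
    exact div_le_div_of_nonneg_left (rb_pos Q T).le (by positivity)
      (pow_le_pow_right₀ hTone (by norm_num))
  have hE1 := hbig.env_small (2 * i) (by omega) R hRge
  rw [← hEn] at hE1
  have hTE : T * En ≤ Real.exp (-2 * bQ Q T) := by
    refine le_trans (mul_le_mul_of_nonneg_right ?_ hE0.le) hE1
    calc T = T ^ (1 : ℝ) := (Real.rpow_one T).symm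
      _ ≤ _ := Real.rpow_le_rpow_of_exponent_le hTone (le_max_left _ _)
  have hK : ∀ K : ℝ, K ≤ T → K * En ≤ Real.exp (-2 * bQ Q T) := fun K hK =>
    (mul_le_mul_of_nonneg_right hK hE0.le).trans hTE
  have hexp1 : Real.exp (-2 * bQ Q T) ≤ 1 := Real.exp_le_one_iff.2 (by linarith)
  have hRm : R ^ m = c ^ m * (R / c) ^ m := by
    rw [← mul_pow]
    congr 1
    field_simp
  have hsr : (R / c) ^ m = 4 ^ m * (R / (4 * c)) ^ m := by
    rw [← mul_pow, h4r]
  have hrm : 0 < (R / (4 * c)) ^ m := by positivity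
  have hτ : S.tau Q (ball y (2 * (R / c))) ≤ ENNReal.ofReal (c ^ m * En * (R / c) ^ m) := by
    have e : c ^ m * En * (R / c) ^ m = R ^ m * En := by rw [hRm]; ring
    rw [e, hEn]
    exact (measure_mono hy4).trans hnode.dens
  have hδ : F.δmaj ≤ 1 / 2 := by
    refine F.δ_lt.le.trans ?_
    unfold thetaOv
    rw [div_le_div_iff₀ (by positivity) (by norm_num)]
    have h1 : ((3 : ℝ) / 4) ^ m ≤ 1 := pow_le_one₀ (by norm_num) (by norm_num)
    have h2 : (0 : ℝ) < 2 ^ m := by positivity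
    linarith
  have hcount := piece_count hS hfar hlt hδ hroot.sep hsub2 (hy1.trans hy2) (hmaj y hyy) g
  have hδε : c ^ m * En ≤ ε0 := by
    have h1 : c ^ m / ε0 * En ≤ 1 := (hK _ hT4).trans hexp1
    have e : c ^ m / ε0 * En = c ^ m * En / ε0 := by ring
    rw [e, div_le_one hε0] at h1
    exact h1
  obtain ⟨hXle, hτg⟩ := ps_tau hωdef hC Hsc hS hval hroot.hyp.Cg_le (restr_Dm_le S _ _)
    (restr_Lm_le S _ _) (restr_nu_le S _ _) hs0 hs1 hy2 (by positivity)
    ((hK _ hT5).trans hexp1) hδε hτ hcount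
  rw [h2s]
  obtain ⟨X, hX⟩ : ∃ X : ℝ, X = (((piece S A grp (far p Q T) xs R g).Dm
      + (piece S A grp (far p Q T) xs R g).Lm) (ball y (2 * (R / c)))).toReal := ⟨_, rfl⟩
  rw [← hX] at hXle hτg ⊢
  have hX0 : 0 ≤ X := hX ▸ ENNReal.toReal_nonneg
  have hsmallX : (C + 1) * ((R / (4 * c)) ^ m)⁻¹ * X ≤ Real.exp (-(bQ Q T / 2)) := by
    calc (C + 1) * ((R / (4 * c)) ^ m)⁻¹ * X
        ≤ (C + 1) * ((R / (4 * c)) ^ m)⁻¹ * (c ^ m * En * (R / c) ^ m) :=
          mul_le_mul_of_nonneg_left hXle (by positivity)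
      _ = (C + 1) * (4 * c) ^ m * En := by
          rw [hsr, mul_pow]
          field_simp
      _ ≤ Real.exp (-2 * bQ Q T) := hK _ hT6
      _ ≤ _ := Real.exp_le_exp.2 (by linarith)
  have hT0 : T0f (grpCard grp g) ≤ bQ Q T / 2 := by
    have h1 : |T0f (grpCard grp g)| ≤ ∑ q ∈ Finset.range Q, |T0f q| :=
      Finset.single_le_sum (f := fun q => |T0f q|) (fun q _ => abs_nonneg _)
        (Finset.mem_range.2 hqQ)
    have h2 := (le_max_right 1 (2 * ∑ q ∈ Finset.range Q, |T0f q|)).trans hbig.log_ge'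
    have h3 := le_abs_self (T0f (grpCard grp g))
    linarith
  have hbT : bQ Q T / 2 ≤ T := by
    have := hbig.b_le
    linarith
  have key := ps_level hκ (Hf _ hq1 hqQ) hval hroot.hyp.Cg_le hr0 hr1
    (by rw [h4r]; exact hy1.trans hy2) (by linarith : (0 : ℝ) ≤ C + 1) hX0 (by rw [h4r]; exact hτg)
    hsmallX hbT hT0 (hrate _ hq1 hqQ) hroot.hyp.geom hw'
  have hLam : 0 ≤ (piece S A grp (far p Q T) xs R g).intLam w' := intLam_nonneg hval hw'.nonneg
  have hCQ : CQf (grpCard grp g) ≤ 1 + ∑ q ∈ Finset.range Q, CQf q := by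
    have := Finset.single_le_sum (f := CQf) (fun q _ => (hCQf q).le) (Finset.mem_range.2 hqQ)
    linarith
  have := mul_le_mul_of_nonneg_right hCQ hLam
  linarith

/-- a weight times a member of the partition of unity is (a multiple of) a weight at the small scale. -/
theorem weight_mul {w φ : E m → ℝ} {xs y : E m} {R r Clip : ℝ} (hw : IsWeight w xs R) (hr : 0 < r)
    (hrR : r ≤ R) (hClip : 0 < Clip) (h01 : ∀ z, 0 ≤ φ z ∧ φ z ≤ 1)
    (hsupp : Function.support φ ⊆ ball y r)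
    (hlip : ∀ z z', |φ z - φ z'| ≤ Clip / r * ‖z - z'‖) :
    IsWeight (fun z => (Clip + 1)⁻¹ * (w z * φ z)) y r := by
  have hC : 0 < Clip + 1 := by linarith
  have hCi : 0 < (Clip + 1)⁻¹ := inv_pos.2 hC
  have hCi1 : (Clip + 1)⁻¹ ≤ 1 := inv_le_one_of_one_le₀ (by linarith)
  refine ⟨fun z => ?_, fun z => ?_, fun z z' => ?_, fun z hz => ?_⟩
  · exact mul_nonneg hCi.le (mul_nonneg (hw.nonneg z) (h01 z).1)
  · calc (Clip + 1)⁻¹ * (w z * φ z) ≤ 1 * (1 * 1) :=
          mul_le_mul hCi1 (mul_le_mul (hw.le_one z) (h01 z).2 (h01 z).1 zero_le_one)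
            (mul_nonneg (hw.nonneg z) (h01 z).1) zero_le_one
      _ = 1 := by norm_num
  · have hR : 0 < R := lt_of_lt_of_le hr hrR
    have e1 : w z * φ z - w z' * φ z' = w z * (φ z - φ z') + φ z' * (w z - w z') := by ring
    have h1 : |w z * (φ z - φ z')| ≤ Clip / r * ‖z - z'‖ := by
      rw [abs_mul, abs_of_nonneg (hw.nonneg z)]
      calc w z * |φ z - φ z'| ≤ 1 * |φ z - φ z'| :=
            mul_le_mul_of_nonneg_right (hw.le_one z) (abs_nonneg _)
        _ ≤ Clip / r * ‖z - z'‖ := by rw [one_mul]; exact hlip z z'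
    have h2 : |φ z' * (w z - w z')| ≤ 1 / r * ‖z - z'‖ := by
      rw [abs_mul, abs_of_nonneg (h01 z').1]
      calc φ z' * |w z - w z'| ≤ 1 * |w z - w z'| :=
            mul_le_mul_of_nonneg_right (h01 z').2 (abs_nonneg _)
        _ ≤ R⁻¹ * ‖z - z'‖ := by rw [one_mul]; exact hw.lip z z'
        _ ≤ 1 / r * ‖z - z'‖ := by
            apply mul_le_mul_of_nonneg_right _ (norm_nonneg _)
            rw [one_div]
            exact inv_anti₀ hr hrR
    rw [← mul_sub, abs_mul, abs_of_pos hCi, e1]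
    calc (Clip + 1)⁻¹ * |w z * (φ z - φ z') + φ z' * (w z - w z')|
        ≤ (Clip + 1)⁻¹ * (Clip / r * ‖z - z'‖ + 1 / r * ‖z - z'‖) :=
          mul_le_mul_of_nonneg_left ((abs_add_le _ _).trans (add_le_add h1 h2)) hCi.le
      _ = r⁻¹ * ‖z - z'‖ := by
          field_simp
  · apply hsupp
    intro h0
    apply hz
    show (Clip + 1)⁻¹ * (w z * φ z) = 0
    rw [h0, mul_zero, mul_zero]

/-- the energies of the pieces add up. -/
theorem piece_mass_sum (hQ : 1 ≤ Q) {S : Sys m n} (hS : S.Valid) {A : Fin Q → E n}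
    {grp : Fin Q → Fin Q} {r h : ℝ} (hr : 0 < r) (hh : h < r)
    (hsep : Sys.Separated A grp (10 * r)) {xs : E m} {R : ℝ}
    (hsup : ∀ q ∈ S.spt, q.1 ∈ ball xs (2 * R) → Sys.distA A q.2 ≤ h)
    {B : Set (E m)} (hB : MeasurableSet B) (hBΩ : B ⊆ ball xs (2 * R))
    (hfin : (S.Dm + S.Lm) B ≠ ∞) :
    ∑ g, (((piece S A grp r xs R g).Dm + (piece S A grp r xs R g).Lm) B).toReal
      = ((S.Dm + S.Lm) B).toReal := by
  have hO : ∀ g, MeasurableSet (grpO A grp r g) := fun g => (grpO_isOpen A grp r g).measurableSet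
  have hdisj := grpO_disjoint hr hsep
  have hcov := grpO_cover hQ grp hh hsup
  have h1 := hS.restr_Dm_sum (grpO A grp r) hO hdisj hcov isOpen_ball.measurableSet hB hBΩ
  have h2 := hS.restr_Lm_sum (grpO A grp r) hO hdisj hcov isOpen_ball.measurableSet hB hBΩ
  have h3 : ∑ g, ((piece S A grp r xs R g).Dm + (piece S A grp r xs R g).Lm) B
      = (S.Dm + S.Lm) B := by
    simp only [Measure.add_apply, Finset.sum_add_distrib]
    unfold piece
    rw [h1, h2]
  rw [← h3, ENNReal.toReal_sum]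
  intro g _
  refine ne_top_of_le_ne_top hfin ?_
  rw [← h3]
  exact Finset.single_le_sum (f := fun g => ((piece S A grp r xs R g).Dm
    + (piece S A grp r xs R g).Lm) B) (fun _ _ => zero_le) (Finset.mem_univ g)

/-- numerics of `node_small`. -/
theorem small_num {p : Prm} {T C : ℝ} (hB : Big p Q ((p.N : ℝ) + 2) T) (hC : C ≤ T) :
    C * Real.exp (-Real.log T ^ 3) ≤ eta p T / T := by
  have hT1 : 1 ≤ T := hB.one_le
  have hT0 : 0 < T := by linarith
  have h1 := hB.cube_kill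
  rw [Real.rpow_add hT0, Real.rpow_two] at h1
  have he : 0 < Real.exp (-Real.log T ^ 3) := Real.exp_pos _
  have hN : 0 < T ^ (p.N : ℝ) := Real.rpow_pos_of_pos hT0 _
  unfold eta
  rw [Real.rpow_neg hT0.le, le_div_iff₀ hT0, ← one_div, le_div_iff₀ hN]
  calc C * Real.exp (-Real.log T ^ 3) * T * T ^ (p.N : ℝ)
      ≤ T * Real.exp (-Real.log T ^ 3) * T * T ^ (p.N : ℝ) := by gcongr
    _ = T ^ (p.N : ℝ) * T ^ 2 * Real.exp (-Real.log T ^ 3) := by ring
    _ ≤ 1 := h1

theorem Adm.const_mul {S : Sys m n} {f : E m → ℝ} (hf : Adm S f) (c : ℝ) :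
    Adm S (fun y => c * f y) := by
  obtain ⟨hm, ⟨C, hC⟩, K, hK, hKΩ, hs⟩ := hf
  refine ⟨hm.const_mul c, ⟨|c| * C, fun y => ?_⟩, K, hK, hKΩ, fun y hy => hs fun h0 => hy ?_⟩
  · rw [abs_mul]
    exact mul_le_mul_of_nonneg_left (hC y) (abs_nonneg c)
  · show c * f y = 0
    rw [h0, mul_zero]

theorem DL_le_tau (S : Sys m n) (Q : ℕ) (B : Set (E m)) : (S.Dm + S.Lm) B ≤ S.tau Q B := by
  unfold Sys.tau
  rw [Measure.add_apply, Measure.add_apply, Measure.add_apply, add_assoc]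
  exact le_add_self

/-- deterministic core of `node_small`. -/
theorem small_core (hQ : 1 ≤ Q) {S : Sys m n} (hS : S.Valid) {A : Fin Q → E n}
    {grp : Fin Q → Fin Q} {r h : ℝ} (hr : 0 < r) (hh : h < r)
    (hsep : Sys.Separated A grp (10 * r)) {xs : E m} {R : ℝ} (hR : 0 < R)
    (hsub : ball xs (4 * R) ⊆ S.Ω) (hfin : S.tau Q (ball xs (4 * R)) ≠ ∞)
    (hsup : ∀ q ∈ S.spt, q.1 ∈ ball xs (2 * R) → Sys.distA A q.2 ≤ h)
    {c CQ0 Cs ee d Cov Clip : ℝ} (hc : 4 < c) (hCs : 0 ≤ Cs) (hee : 0 ≤ ee) (hd : 0 ≤ d)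
    (hCov : 0 < Cov) (hClip : 0 < Clip)
    (hps : ∀ (g : Fin Q) (y : E m), y ∈ ball xs (3 / 2 * R) →
      ∀ w' : E m → ℝ, IsWeight w' y (R / (4 * c)) →
        (piece S A grp r xs R g).intL (grpCard grp g) w'
            - CQ0 * (piece S A grp r xs R g).intLam w'
          ≤ ee * (d * (R / (4 * c)) ^ m
              + Cs * (((piece S A grp r xs R g).Dm
                  + (piece S A grp r xs R g).Lm) (ball y (2 * R / c))).toReal))
    {I : Finset (Fin m → ℤ)} {yc : (Fin m → ℤ) → E m} {φ : (Fin m → ℤ) → E m → ℝ}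
    (hyc : ∀ a ∈ I, yc a ∈ ball xs (R + R / (4 * c)))
    (h01 : ∀ a ∈ I, ∀ z, 0 ≤ φ a z ∧ φ a z ≤ 1)
    (hsupp : ∀ a ∈ I, Function.support (φ a) ⊆ ball (yc a) (R / (4 * c)))
    (hlip : ∀ a ∈ I, ∀ z z', |φ a z - φ a z'| ≤ Clip / (R / (4 * c)) * ‖z - z'‖)
    (hone : ∀ z ∈ ball xs R, ∑ a ∈ I, φ a z = 1)
    (hcard : (I.card : ℝ) * (R / (4 * c)) ^ m ≤ Cov * R ^ m)
    (hov : ∀ μ : Measure (E m),
      ∑ a ∈ I, μ (ball (yc a) (8 * (R / (4 * c))))
        ≤ ENNReal.ofReal Cov * μ (ball xs (R + 9 * (R / (4 * c)))))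
    {w : E m → ℝ} (hw : IsWeight w xs R) :
    S.intL Q w - CQ0 * S.intLam w
      ≤ (Clip + 1) * ee * Cov * (Q * (d * R ^ m) + Cs * (S.tau Q (ball xs (4 * R))).toReal) := by
  obtain ⟨r₁, hr₁⟩ : ∃ r₁ : ℝ, r₁ = R / (4 * c) := ⟨_, rfl⟩
  have hc0 : 0 < c := by linarith
  have h8 : 2 * R / c = 8 * r₁ := by
    rw [hr₁]
    field_simp
    ring
  rw [← hr₁] at hyc hsupp hlip hcard hov
  simp only [← hr₁, h8] at hps
  have hr₁0 : 0 < r₁ := by rw [hr₁]; positivity
  have hr₁R : 16 * r₁ < R := by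
    rw [hr₁, ← mul_div_assoc, div_lt_iff₀ (by positivity)]
    nlinarith
  have hsub2 : ball xs (2 * R) ⊆ S.Ω := (ball_subset_ball (by linarith)).trans hsub
  have hO : ∀ g, MeasurableSet (grpO A grp r g) := fun g => (grpO_isOpen A grp r g).measurableSet
  have hdisj := grpO_disjoint hr hsep
  have hcov := grpO_cover hQ grp hh hsup
  have hwc : Continuous w := IsWeight.continuous hw
  have hwK : Function.support w ⊆ closedBall xs R := hw.supp.trans ball_subset_closedBall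
  have hwts : tsupport w ⊆ ball xs (2 * R) :=
    (closure_minimal hwK isClosed_closedBall).trans (closedBall_subset_ball (by linarith))
  have hwcs : HasCompactSupport w :=
    HasCompactSupport.of_support_subset_isCompact (isCompact_closedBall xs R) hwK
  have e1 := hS.restr_intL_sum (grpO A grp r) hO hdisj hcov isOpen_ball hsub2 (grpCard grp) Q
    (grpCard_sum grp) hwc hwcs hwts
  have e2 := hS.restr_intLam_sum (grpO A grp r) hO hdisj hcov isOpen_ball hsub2 hwc hwcs hwts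
  have hC1 : 0 < Clip + 1 := by linarith
  -- the small weights
  obtain ⟨w', hw'def⟩ : ∃ w' : (Fin m → ℤ) → E m → ℝ,
      w' = fun a z => (Clip + 1)⁻¹ * (w z * φ a z) := ⟨_, rfl⟩
  have hw' : ∀ a ∈ I, IsWeight (w' a) (yc a) r₁ := fun a ha => by
    rw [hw'def]
    exact weight_mul hw hr₁0 (by linarith) hClip (h01 a ha) (hsupp a ha) (hlip a ha)
  have hwsum : (fun z => ∑ a ∈ I, (Clip + 1) * w' a z) = w := by
    funext z
    rw [hw'def]
    have h1 : ∀ a, (Clip + 1) * ((Clip + 1)⁻¹ * (w z * φ a z)) = w z * φ a z := fun a => by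
      field_simp
    simp only [h1]
    by_cases hz : z ∈ ball xs R
    · rw [← Finset.mul_sum, hone z hz, mul_one]
    · have h0 : w z = 0 := by
        by_contra h0
        exact hz (hw.supp h0)
      simp [h0]
  obtain ⟨M, hM⟩ : ∃ M : Fin Q → (Fin m → ℤ) → ℝ, M = fun g a =>
      (((piece S A grp r xs R g).Dm + (piece S A grp r xs R g).Lm) (ball (yc a) (8 * r₁))).toReal :=
    ⟨_, rfl⟩
  have hyd : ∀ a ∈ I, dist (yc a) xs < R + r₁ := fun a ha => mem_ball.1 (hyc a ha)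
  -- one piece
  have hpiece : ∀ g, (piece S A grp r xs R g).intL (grpCard grp g) w
      - CQ0 * (piece S A grp r xs R g).intLam w
      ≤ (Clip + 1) * (ee * ((I.card : ℝ) * (d * r₁ ^ m) + Cs * ∑ a ∈ I, M g a)) := by
    intro g
    have hV := piece_valid hQ hS hr hh hsep hsub2 hsup g
    have hadm : ∀ a ∈ I, Adm (piece S A grp r xs R g) (fun z => (Clip + 1) * w' a z) := by
      intro a ha
      refine Adm.const_mul (IsWeight.adm (hw' a ha) ?_) _
      show closedBall (yc a) r₁ ⊆ ball xs (2 * R)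
      apply closedBall_subset_ball'
      have := hyd a ha
      linarith
    have e3 : (piece S A grp r xs R g).intL (grpCard grp g) w
        = ∑ a ∈ I, (Clip + 1) * (piece S A grp r xs R g).intL (grpCard grp g) (w' a) := by
      calc (piece S A grp r xs R g).intL (grpCard grp g) w
          = (piece S A grp r xs R g).intL (grpCard grp g)
              (fun z => ∑ a ∈ I, (Clip + 1) * w' a z) := by rw [hwsum]
        _ = ∑ a ∈ I, (piece S A grp r xs R g).intL (grpCard grp g)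
              (fun z => (Clip + 1) * w' a z) := intL_sum hV _ I _ hadm
        _ = _ := Finset.sum_congr rfl fun a _ => intL_smul _ _ _ _
    have e4 : (piece S A grp r xs R g).intLam w
        = ∑ a ∈ I, (Clip + 1) * (piece S A grp r xs R g).intLam (w' a) := by
      calc (piece S A grp r xs R g).intLam w
          = (piece S A grp r xs R g).intLam (fun z => ∑ a ∈ I, (Clip + 1) * w' a z) := by
            rw [hwsum]
        _ = ∑ a ∈ I, (piece S A grp r xs R g).intLam (fun z => (Clip + 1) * w' a z) :=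
            intLam_sum hV I _ hadm
        _ = _ := Finset.sum_congr rfl fun a _ => intLam_smul _ _ _
    rw [e3, e4, Finset.mul_sum, ← Finset.sum_sub_distrib]
    calc ∑ a ∈ I, ((Clip + 1) * (piece S A grp r xs R g).intL (grpCard grp g) (w' a)
          - CQ0 * ((Clip + 1) * (piece S A grp r xs R g).intLam (w' a)))
        ≤ ∑ a ∈ I, (Clip + 1) * (ee * (d * r₁ ^ m + Cs * M g a)) := by
          refine Finset.sum_le_sum fun a ha => ?_
          have h1 := hps g (yc a) (by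
            rw [mem_ball]
            have := hyd a ha
            linarith) (w' a) (hw' a ha)
          have h2 := mul_le_mul_of_nonneg_left h1 hC1.le
          rw [hM]
          linarith
      _ = (Clip + 1) * (ee * ((I.card : ℝ) * (d * r₁ ^ m) + Cs * ∑ a ∈ I, M g a)) := by
          rw [← Finset.mul_sum, ← Finset.mul_sum, Finset.sum_add_distrib, Finset.sum_const,
            nsmul_eq_mul, ← Finset.mul_sum]
  -- the masses
  have hBsub : ∀ a ∈ I, ball (yc a) (8 * r₁) ⊆ ball xs (2 * R) := by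
    intro a ha
    apply ball_subset_ball'
    have := hyd a ha
    linarith
  have hBfin : ∀ a ∈ I, (S.Dm + S.Lm) (ball (yc a) (8 * r₁)) ≠ ∞ := by
    intro a ha
    refine ne_top_of_le_ne_top hfin ((DL_le_tau S Q _).trans (measure_mono ?_))
    exact (hBsub a ha).trans (ball_subset_ball (by linarith))
  have hsumM : ∑ g, ∑ a ∈ I, M g a ≤ Cov * (S.tau Q (ball xs (4 * R))).toReal := by
    rw [Finset.sum_comm]
    calc ∑ a ∈ I, ∑ g, M g a = ∑ a ∈ I, ((S.Dm + S.Lm) (ball (yc a) (8 * r₁))).toReal := by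
          refine Finset.sum_congr rfl fun a ha => ?_
          rw [hM]
          exact piece_mass_sum hQ hS hr hh hsep hsup isOpen_ball.measurableSet (hBsub a ha)
            (hBfin a ha)
      _ = (∑ a ∈ I, (S.Dm + S.Lm) (ball (yc a) (8 * r₁))).toReal :=
          (ENNReal.toReal_sum hBfin).symm
      _ ≤ (ENNReal.ofReal Cov * S.tau Q (ball xs (4 * R))).toReal := by
          refine ENNReal.toReal_mono (ENNReal.mul_ne_top ENNReal.ofReal_ne_top hfin)
            ((hov _).trans (mul_le_mul_right ?_ _))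
          exact (DL_le_tau S Q _).trans (measure_mono (ball_subset_ball (by linarith)))
      _ = Cov * (S.tau Q (ball xs (4 * R))).toReal := by
          rw [ENNReal.toReal_mul, ENNReal.toReal_ofReal hCov.le]
  have e1' : ∑ g, (piece S A grp r xs R g).intL (grpCard grp g) w = S.intL Q w := e1
  have e2' : ∑ g, (piece S A grp r xs R g).intLam w = S.intLam w := e2
  rw [← e1', ← e2', Finset.mul_sum, ← Finset.sum_sub_distrib]
  calc ∑ g, ((piece S A grp r xs R g).intL (grpCard grp g) w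
        - CQ0 * (piece S A grp r xs R g).intLam w)
      ≤ ∑ g : Fin Q, (Clip + 1) * (ee * ((I.card : ℝ) * (d * r₁ ^ m) + Cs * ∑ a ∈ I, M g a)) :=
        Finset.sum_le_sum fun g _ => hpiece g
    _ = (Clip + 1) * (ee * ((Q : ℝ) * ((I.card : ℝ) * (d * r₁ ^ m))
          + Cs * ∑ g, ∑ a ∈ I, M g a)) := by
        rw [← Finset.mul_sum, ← Finset.mul_sum, Finset.sum_add_distrib, Finset.sum_const,
          Finset.card_univ, Fintype.card_fin, nsmul_eq_mul, ← Finset.mul_sum]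
    _ ≤ (Clip + 1) * (ee * ((Q : ℝ) * (Cov * (d * R ^ m))
          + Cs * (Cov * (S.tau Q (ball xs (4 * R))).toReal))) := by
        have h1 : (I.card : ℝ) * (d * r₁ ^ m) ≤ Cov * (d * R ^ m) := by
          have := mul_le_mul_of_nonneg_left hcard hd
          linarith
        gcongr
    _ = _ := by ring

/-- **Small nodes**: `∫ w dL' ≤ (η/T) 𝒩_R`. -/
theorem node_small (m n Q : ℕ) (hm : 1 ≤ m) (hQ : 2 ≤ Q)
    (ih : ∀ q : ℕ, 1 ≤ q → q < Q → SignedAt m n q) (κ Cg : ℝ) (hκ : 0 < κ) (F : Fix m n Q Cg) :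
    ∃ CQ0 : ℝ, 0 < CQ0 ∧ ∀ p : Prm, p.Ok m → CQ0 ≤ p.CQ →
      ∃ T0 : ℝ, ∀ T : ℝ, T0 ≤ T → ∀ (S : Sys m n) (A : Fin Q → E n) (grp : Fin Q → Fin Q),
      Root F κ p S T A grp → ∀ i : ℕ, i ≤ n0 p T + 1 → ∀ (xs : E m) (R : ℝ),
      IsNode F S p T A i xs R → R ≤ smallR p Q T →
      ∀ w : E m → ℝ, IsWeight w xs R → Lfun S p T A w ≤ eta p T / T * NR S Q T xs R := by
  obtain ⟨CQ0, Cs, hCQ0, hCs, hps⟩ := piece_signed m n Q hm hQ ih κ Cg hκ F
  obtain ⟨Cov, Clip, hCov, hClip, hpou⟩ := uniform_pou m hm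
  refine ⟨CQ0, hCQ0, fun p hp hCQ => ?_⟩
  obtain ⟨T1, hT1⟩ := hps p hp
  obtain ⟨T2, hT2⟩ := small_heights m n Q hm hQ κ Cg F p hp
  obtain ⟨T3, hT3⟩ := exists_big p Q hQ ((p.N : ℝ) + 2)
  refine ⟨max T1 (max T2 (max T3 ((Clip + 1) * Cov * (Q + Cs)))),
    fun T hT S A grp hroot i hi xs R hnode hRs w hw => ?_⟩
  have hTa : T1 ≤ T := (le_max_left _ _).trans hT
  have hT' := (le_max_right _ _).trans hT
  have hTb : T2 ≤ T := (le_max_left _ _).trans hT'
  have hT'' := (le_max_right _ _).trans hT'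
  have hTc : T3 ≤ T := (le_max_left _ _).trans hT''
  have hTd : (Clip + 1) * Cov * (Q + Cs) ≤ T := (le_max_right _ _).trans hT''
  have hB := hT3 T hTc
  have hS := hroot.hyp.valid
  obtain ⟨hsup, -⟩ := hT2 T hTb S A grp hroot i hi xs R hnode hRs
  have hb0 : 0 < bQ Q T := lt_of_lt_of_le (by have := hB.log_ge; positivity) hB.b_ge
  have hh := hgt_lt_far (Q := Q) hp.CS_ge hb0
  have hT0 := hB.pos
  have hR0 : 0 < R := lt_of_lt_of_le (div_pos (rb_pos Q T) (by positivity)) hnode.R_ge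
  have hsub : ball xs (4 * R) ⊆ S.Ω := hnode.sub.trans hroot.hyp.room
  have hfin : S.tau Q (ball xs (4 * R)) ≠ ∞ := ne_top_of_le_ne_top ENNReal.ofReal_ne_top hnode.dens
  have hc := F.c_gt
  have hc0 : 0 < F.c := by linarith
  have hr1 : 0 < R / (4 * F.c) := by positivity
  have hr1R : R / (4 * F.c) ≤ R := div_le_self hR0.le (by linarith)
  obtain ⟨I, yc, φ, hyc, h01, hsupp, hlip, hone, hcard, hov⟩ := hpou xs R (R / (4 * F.c)) hr1 hr1R
  have hcore := small_core (by omega) hS (far_pos p Q T) hh hroot.sep hR0 hsub hfin hsup hc hCs.le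
    (Real.exp_pos (-Real.log T ^ 3)).le (dT_pos T).le hCov hClip
    (fun g y hy w' hw' => hT1 T hTa S A grp hroot i hi xs R hnode hRs g y hy w' hw')
    hyc h01 hsupp hlip hone hcard hov hw
  have hfar : S.intDfar A (far p Q T) w = 0 :=
    far_zero hh.le hsup (hw.supp.trans (ball_subset_ball (by linarith)))
  have hLam : 0 ≤ S.intLam w := intLam_nonneg hS hw.nonneg
  have hnum := small_num hB hTd
  have hτ : 0 ≤ (S.tau Q (ball xs (4 * R))).toReal := ENNReal.toReal_nonneg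
  have hdR : 0 ≤ dT T * R ^ m := mul_nonneg (dT_pos T).le (pow_nonneg hR0.le m)
  have hQ0 : (0 : ℝ) ≤ Q := Nat.cast_nonneg Q
  have hpre : 0 ≤ (Clip + 1) * Real.exp (-Real.log T ^ 3) * Cov :=
    mul_nonneg (mul_nonneg (by linarith) (Real.exp_pos _).le) hCov.le
  unfold Lfun
  rw [hfar, mul_zero, add_zero]
  calc S.intL Q w - p.CQ * S.intLam w ≤ S.intL Q w - CQ0 * S.intLam w := by
        have := mul_le_mul_of_nonneg_right hCQ hLam
        linarith
    _ ≤ (Clip + 1) * Real.exp (-Real.log T ^ 3) * Cov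
          * (Q * (dT T * R ^ m) + Cs * (S.tau Q (ball xs (4 * R))).toReal) := hcore
    _ ≤ (Clip + 1) * Real.exp (-Real.log T ^ 3) * Cov * ((Q + Cs) * NR S Q T xs R) := by
        apply mul_le_mul_of_nonneg_left _ hpre
        unfold NR
        have h1 := mul_nonneg hQ0 hτ
        have h2 := mul_nonneg hCs.le hdR
        linarith
    _ = ((Clip + 1) * Cov * (Q + Cs) * Real.exp (-Real.log T ^ 3)) * NR S Q T xs R := by ring
    _ ≤ eta p T / T * NR S Q T xs R := by
        apply mul_le_mul_of_nonneg_right hnum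
        unfold NR
        linarith

end Claimed.Agent.R322.Sx.Sep
end
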