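/- Packed by merge_tool.py (helper293): 7 modules of Claimed.Agent.R322 in one file, same declarations.
   Old modules, in this order: Sx.Wells.Jet, Sx.Wells.Blend, Sx.Wells.Comb, Sx.Wells.Fn, Sx.Wells.Gam, Sx.Wells.Vec, Sx.Wells.Entry -/
import Claimed.Agent.R322.Pack040
import Claimed.Agent.R322.Pack019
import Claimed.Agent.R322.Pack023

/- ===== packed: Claimed.Agent.R322.Sx.Wells.Jet ===== -/
section
/-!
# R322 / Sx / Wells / Jet : pointwise scale-invariant bounds for two derivatives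

`Jet f ζ r A k` : `|f ζ| ≤ A r^k`, `|Df ζ| ≤ A r^{k-1}`, `|D²f ζ| ≤ A r^{k-2}`.
Closed under sums, products, inverses and composition with a fixed `C²` function of one variable.
Then the blending lemma: `blend a b = b + (a - b) clipD (3 a / (a + b))` is a smooth version of `min a b`.
-/

set_option autoImplicit false

namespace Claimed.Agent.R322.Sx

open MeasureTheory Set Metric
open scoped ENNReal NNReal InnerProductSpace

variable {X : Type*} [NormedAddCommGroup X] [NormedSpace ℝ X]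

/-! ## formulas for first derivatives -/

theorem jet_fderiv_mul {f g : X → ℝ} (hf : Differentiable ℝ f) (hg : Differentiable ℝ g) :
    fderiv ℝ (fun ζ => f ζ * g ζ) = fun ζ => f ζ • fderiv ℝ g ζ + g ζ • fderiv ℝ f ζ :=
  funext fun ζ => fderiv_fun_mul (hf ζ) (hg ζ)

theorem jet_fderiv_add {f g : X → ℝ} (hf : Differentiable ℝ f) (hg : Differentiable ℝ g) :
    fderiv ℝ (fun ζ => f ζ + g ζ) = fun ζ => fderiv ℝ f ζ + fderiv ℝ g ζ :=
  funext fun ζ => fderiv_fun_add (hf ζ) (hg ζ)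

theorem jet_fderiv_comp {H : ℝ → ℝ} {f : X → ℝ} (hH : Differentiable ℝ H)
    (hf : Differentiable ℝ f) :
    fderiv ℝ (fun ζ => H (f ζ)) = fun ζ => deriv H (f ζ) • fderiv ℝ f ζ :=
  funext fun ζ => ((hH (f ζ)).hasDerivAt.comp_hasFDerivAt ζ (hf ζ).hasFDerivAt).fderiv

theorem jet_fderiv_inv {f : X → ℝ} (hf : Differentiable ℝ f) (h0 : ∀ ζ, f ζ ≠ 0) :
    fderiv ℝ (fun ζ => (f ζ)⁻¹) = fun ζ => (-(f ζ ^ 2)⁻¹) • fderiv ℝ f ζ :=
  funext fun ζ => ((hasDerivAt_inv (h0 ζ)).comp_hasFDerivAt ζ (hf ζ).hasFDerivAt).fderiv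

theorem jet_d1 {f : X → ℝ} (hf : ContDiff ℝ 2 f) : Differentiable ℝ f :=
  hf.differentiable (by norm_num)

theorem jet_d2 {f : X → ℝ} (hf : ContDiff ℝ 2 f) : Differentiable ℝ (fderiv ℝ f) :=
  (hf.fderiv_right (m := 1) (by norm_num)).differentiable (by norm_num)

/-! ## bounds for second derivatives -/

theorem jet_hess_smul_le {u : X → ℝ} {G : X → X →L[ℝ] ℝ} (hu : Differentiable ℝ u)
    (hG : Differentiable ℝ G) (ζ : X) :
    ‖fderiv ℝ (fun ζ => u ζ • G ζ) ζ‖ ≤ |u ζ| * ‖fderiv ℝ G ζ‖ + ‖fderiv ℝ u ζ‖ * ‖G ζ‖ := by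
  rw [fderiv_fun_smul (hu ζ) (hG ζ)]
  refine (ContinuousLinearMap.opNorm_add_le _ _).trans ?_
  have h1 := ContinuousLinearMap.opNorm_smul_le (u ζ) (fderiv ℝ G ζ)
  rw [ContinuousLinearMap.norm_smulRight_apply]
  rw [Real.norm_eq_abs] at h1
  linarith

theorem jet_hess_add_le {f g : X → ℝ} (hf : ContDiff ℝ 2 f) (hg : ContDiff ℝ 2 g) (ζ : X) :
    ‖fderiv ℝ (fderiv ℝ (fun ζ => f ζ + g ζ)) ζ‖
      ≤ ‖fderiv ℝ (fderiv ℝ f) ζ‖ + ‖fderiv ℝ (fderiv ℝ g) ζ‖ := by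
  rw [jet_fderiv_add (jet_d1 hf) (jet_d1 hg), fderiv_fun_add (jet_d2 hf ζ) (jet_d2 hg ζ)]
  exact ContinuousLinearMap.opNorm_add_le _ _

theorem jet_hess_mul_le {f g : X → ℝ} (hf : ContDiff ℝ 2 f) (hg : ContDiff ℝ 2 g) (ζ : X) :
    ‖fderiv ℝ (fderiv ℝ (fun ζ => f ζ * g ζ)) ζ‖
      ≤ |f ζ| * ‖fderiv ℝ (fderiv ℝ g) ζ‖ + 2 * ‖fderiv ℝ f ζ‖ * ‖fderiv ℝ g ζ‖
        + |g ζ| * ‖fderiv ℝ (fderiv ℝ f) ζ‖ := by
  rw [jet_fderiv_mul (jet_d1 hf) (jet_d1 hg),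
    fderiv_fun_add (((jet_d1 hf) ζ).fun_smul (jet_d2 hg ζ))
      (((jet_d1 hg) ζ).fun_smul (jet_d2 hf ζ))]
  refine (ContinuousLinearMap.opNorm_add_le _ _).trans ?_
  have h1 := jet_hess_smul_le (jet_d1 hf) (jet_d2 hg) ζ
  have h2 := jet_hess_smul_le (jet_d1 hg) (jet_d2 hf) ζ
  nlinarith [h1, h2]

theorem jet_hess_comp_le {H : ℝ → ℝ} {f : X → ℝ} (hH : ContDiff ℝ 2 H) (hf : ContDiff ℝ 2 f)
    (ζ : X) :
    ‖fderiv ℝ (fderiv ℝ (fun ζ => H (f ζ))) ζ‖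
      ≤ |deriv (deriv H) (f ζ)| * ‖fderiv ℝ f ζ‖ ^ 2
        + |deriv H (f ζ)| * ‖fderiv ℝ (fderiv ℝ f) ζ‖ := by
  have hH1 : Differentiable ℝ H := hH.differentiable (by norm_num)
  have hH2 : Differentiable ℝ (deriv H) := by
    have : ContDiff ℝ 1 (deriv H) := by
      have h2 : ContDiff ℝ (1 + 1) H := hH
      exact (contDiff_succ_iff_deriv.mp h2).2.2
    exact this.differentiable (by norm_num)
  rw [jet_fderiv_comp hH1 (jet_d1 hf)]
  have hu : Differentiable ℝ (fun ζ => deriv H (f ζ)) := hH2.comp (jet_d1 hf)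
  refine (jet_hess_smul_le hu (jet_d2 hf) ζ).trans ?_
  have h3 : fderiv ℝ (fun ζ => deriv H (f ζ)) ζ = deriv (deriv H) (f ζ) • fderiv ℝ f ζ :=
    congrFun (jet_fderiv_comp hH2 (jet_d1 hf)) ζ
  rw [h3, norm_smul, Real.norm_eq_abs]
  nlinarith

theorem jet_contDiff_inv {f : X → ℝ} (hf : ContDiff ℝ 2 f) (h0 : ∀ ζ, f ζ ≠ 0) :
    ContDiff ℝ 2 (fun ζ => (f ζ)⁻¹) := hf.inv h0

theorem jet_hess_inv_le {f : X → ℝ} (hf : ContDiff ℝ 2 f) (h0 : ∀ ζ, f ζ ≠ 0) (ζ : X) :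
    ‖fderiv ℝ (fderiv ℝ (fun ζ => (f ζ)⁻¹)) ζ‖
      ≤ (f ζ ^ 2)⁻¹ * ‖fderiv ℝ (fderiv ℝ f) ζ‖
        + 2 * (|f ζ| ^ 3)⁻¹ * ‖fderiv ℝ f ζ‖ ^ 2 := by
  rw [jet_fderiv_inv (jet_d1 hf) h0]
  have hsq : ContDiff ℝ 2 (fun ζ => f ζ ^ 2) := hf.pow 2
  have hsq0 : ∀ ζ, f ζ ^ 2 ≠ 0 := fun ζ => pow_ne_zero 2 (h0 ζ)
  have hu : Differentiable ℝ (fun ζ => -(f ζ ^ 2)⁻¹) :=
    (jet_d1 (jet_contDiff_inv hsq hsq0)).neg
  refine (jet_hess_smul_le hu (jet_d2 hf) ζ).trans ?_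
  have h3 : HasFDerivAt (fun ζ => -(f ζ ^ 2)⁻¹)
      (-((-((f ζ ^ 2) ^ 2)⁻¹) • ((2 * f ζ) • fderiv ℝ f ζ))) ζ := by
    have h4 : HasFDerivAt (fun ζ => f ζ ^ 2) ((2 * f ζ) • fderiv ℝ f ζ) ζ := by
      have := ((jet_d1 hf) ζ).hasFDerivAt.pow 2
      simpa using this
    exact (((hasDerivAt_inv (hsq0 ζ)).comp_hasFDerivAt ζ h4)).neg
  rw [h3.fderiv, norm_neg, norm_smul, norm_smul, abs_neg, abs_of_nonneg (by positivity)]
  have h5 : ‖-((f ζ ^ 2) ^ 2)⁻¹‖ * (‖2 * f ζ‖ * ‖fderiv ℝ f ζ‖)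
      = 2 * (|f ζ| ^ 3)⁻¹ * ‖fderiv ℝ f ζ‖ := by
    have hpos : 0 < |f ζ| := abs_pos.mpr (h0 ζ)
    rw [norm_neg, Real.norm_eq_abs, Real.norm_eq_abs, abs_inv, abs_mul, abs_pow, abs_pow]
    simp only [abs_two]
    field_simp
  rw [h5]
  nlinarith

/-! ## the jet calculus -/

/-- scale invariant bounds of order `k` at the point `ζ`, with respect to the length `r`. -/
structure Jet (f : X → ℝ) (ζ : X) (r A : ℝ) (k : ℤ) : Prop where
  v : |f ζ| ≤ A * r ^ k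
  d1 : ‖fderiv ℝ f ζ‖ ≤ A * r ^ (k - 1)
  d2 : ‖fderiv ℝ (fderiv ℝ f) ζ‖ ≤ A * r ^ (k - 2)

theorem Jet.mono {f : X → ℝ} {ζ : X} {r A B : ℝ} {k : ℤ} (h : Jet f ζ r A k) (hr : 0 < r)
    (hAB : A ≤ B) : Jet f ζ r B k :=
  ⟨h.v.trans (mul_le_mul_of_nonneg_right hAB (zpow_pos hr _).le),
    h.d1.trans (mul_le_mul_of_nonneg_right hAB (zpow_pos hr _).le),
    h.d2.trans (mul_le_mul_of_nonneg_right hAB (zpow_pos hr _).le)⟩

theorem Jet.add {f g : X → ℝ} {ζ : X} {r A B : ℝ} {k : ℤ} (hf : ContDiff ℝ 2 f)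
    (hg : ContDiff ℝ 2 g) (h : Jet f ζ r A k) (h' : Jet g ζ r B k) :
    Jet (fun ζ => f ζ + g ζ) ζ r (A + B) k := by
  refine ⟨?_, ?_, ?_⟩
  · have := abs_add_le (f ζ) (g ζ)
    have := h.v; have := h'.v
    simp only [add_mul]; linarith
  · rw [jet_fderiv_add (jet_d1 hf) (jet_d1 hg)]
    have := norm_add_le (fderiv ℝ f ζ) (fderiv ℝ g ζ)
    have := h.d1; have := h'.d1
    simp only [add_mul]; linarith
  · have := jet_hess_add_le hf hg ζ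
    have := h.d2; have := h'.d2
    simp only [add_mul]; linarith

theorem Jet.neg {f : X → ℝ} {ζ : X} {r A : ℝ} {k : ℤ} (h : Jet f ζ r A k) :
    Jet (fun ζ => -f ζ) ζ r A k := by
  have e1 : fderiv ℝ (fun ζ => -f ζ) = fun ζ => -fderiv ℝ f ζ := funext fun ζ => fderiv_fun_neg
  refine ⟨by simpa using h.v, ?_, ?_⟩
  · rw [e1]; simpa using h.d1
  · rw [e1, fderiv_fun_neg, ContinuousLinearMap.opNorm_neg]; exact h.d2

theorem Jet.mul {f g : X → ℝ} {ζ : X} {r A B : ℝ} {k l : ℤ} (hr : 0 < r) (hf : ContDiff ℝ 2 f)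
    (hg : ContDiff ℝ 2 g) (h : Jet f ζ r A k) (h' : Jet g ζ r B l) :
    Jet (fun ζ => f ζ * g ζ) ζ r (4 * (A * B)) (k + l) := by
  have hr0 : r ≠ 0 := hr.ne'
  have hA : 0 ≤ A := by
    have := (abs_nonneg _).trans h.v
    exact nonneg_of_mul_nonneg_left this (zpow_pos hr _)
  have hB : 0 ≤ B := by
    have := (abs_nonneg _).trans h'.v
    exact nonneg_of_mul_nonneg_left this (zpow_pos hr _)
  have hAB : 0 ≤ A * B := mul_nonneg hA hB
  have p0 : ∀ j : ℤ, 0 < r ^ j := fun j => zpow_pos hr j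
  have key : ∀ (x y : ℝ) (i j : ℤ), 0 ≤ x → 0 ≤ y → x ≤ A * r ^ i → y ≤ B * r ^ j →
      x * y ≤ A * B * r ^ (i + j) := by
    intro x y i j hx hy hxa hyb
    rw [zpow_add₀ hr0]
    calc x * y ≤ (A * r ^ i) * (B * r ^ j) := mul_le_mul hxa hyb hy (hx.trans hxa)
      _ = A * B * (r ^ i * r ^ j) := by ring
  refine ⟨?_, ?_, ?_⟩
  · rw [abs_mul]
    have := key _ _ k l (abs_nonneg _) (abs_nonneg _) h.v h'.v
    nlinarith [mul_nonneg hAB (p0 (k + l)).le]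
  · rw [jet_fderiv_mul (jet_d1 hf) (jet_d1 hg)]
    refine (norm_add_le _ _).trans ?_
    rw [norm_smul, norm_smul, Real.norm_eq_abs, Real.norm_eq_abs]
    have h1 := key _ _ k (l - 1) (abs_nonneg _) (norm_nonneg _) h.v h'.d1
    have h2 := key _ _ (k - 1) l (norm_nonneg _) (abs_nonneg _) h.d1 h'.v
    have e1 : k + (l - 1) = k + l - 1 := by ring
    have e2 : k - 1 + l = k + l - 1 := by ring
    rw [e1] at h1; rw [e2] at h2
    nlinarith [mul_nonneg hAB (p0 (k + l - 1)).le]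
  · refine (jet_hess_mul_le hf hg ζ).trans ?_
    have h1 := key _ _ k (l - 2) (abs_nonneg _) (ContinuousLinearMap.opNorm_nonneg _) h.v h'.d2
    have h2 := key _ _ (k - 1) (l - 1) (norm_nonneg _) (norm_nonneg _) h.d1 h'.d1
    have h3 := key _ _ (k - 2) l (ContinuousLinearMap.opNorm_nonneg _) (abs_nonneg _) h.d2 h'.v
    have e1 : k + (l - 2) = k + l - 2 := by ring
    have e2 : k - 1 + (l - 1) = k + l - 2 := by ring
    have e3 : k - 2 + l = k + l - 2 := by ring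
    rw [e1] at h1; rw [e2] at h2; rw [e3] at h3
    nlinarith [mul_nonneg hAB (p0 (k + l - 2)).le]

theorem Jet.const_mul {f : X → ℝ} {ζ : X} {r A : ℝ} {k : ℤ} (c : ℝ) (hf : ContDiff ℝ 2 f)
    (h : Jet f ζ r A k) : Jet (fun ζ => c * f ζ) ζ r (|c| * A) k := by
  have e1 : fderiv ℝ (fun ζ => c * f ζ) = fun ζ => c • fderiv ℝ f ζ :=
    funext fun ζ => fderiv_const_mul ((jet_d1 hf) ζ) c
  refine ⟨?_, ?_, ?_⟩
  · rw [abs_mul, mul_assoc]; exact mul_le_mul_of_nonneg_left h.v (abs_nonneg _)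
  · rw [e1, norm_smul, Real.norm_eq_abs, mul_assoc]
    exact mul_le_mul_of_nonneg_left h.d1 (abs_nonneg _)
  · rw [e1, fderiv_fun_const_smul (jet_d2 hf ζ), mul_assoc]
    refine (ContinuousLinearMap.opNorm_smul_le _ _).trans ?_
    rw [Real.norm_eq_abs]
    exact mul_le_mul_of_nonneg_left h.d2 (abs_nonneg _)

/-- composition with a `C²` function of one variable, order `0`. -/
theorem Jet.comp {H : ℝ → ℝ} {f : X → ℝ} {ζ : X} {r A h0 : ℝ} (hr : 0 < r) (hH : ContDiff ℝ 2 H)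
    (hf : ContDiff ℝ 2 f) (b0 : ∀ t, |H t| ≤ h0) (b1 : ∀ t, |deriv H t| ≤ h0)
    (b2 : ∀ t, |deriv (deriv H) t| ≤ h0) (h : Jet f ζ r A 0) :
    Jet (fun ζ => H (f ζ)) ζ r (h0 * (1 + A + A ^ 2)) 0 := by
  have hr0 : r ≠ 0 := hr.ne'
  have hh0 : 0 ≤ h0 := (abs_nonneg _).trans (b0 0)
  have hA : 0 ≤ A := by
    have := (abs_nonneg _).trans h.v
    exact nonneg_of_mul_nonneg_left this (zpow_pos hr _)
  have p0 : ∀ j : ℤ, 0 < r ^ j := fun j => zpow_pos hr j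
  refine ⟨?_, ?_, ?_⟩
  · simp only [zpow_zero, mul_one]
    have := b0 (f ζ)
    nlinarith [mul_nonneg hh0 hA, mul_nonneg hh0 (sq_nonneg A)]
  · rw [jet_fderiv_comp (hH.differentiable (by norm_num)) (jet_d1 hf), norm_smul,
      Real.norm_eq_abs]
    have h1 : |deriv H (f ζ)| * ‖fderiv ℝ f ζ‖ ≤ h0 * (A * r ^ ((0 : ℤ) - 1)) :=
      mul_le_mul (b1 _) h.d1 (norm_nonneg _) hh0
    have h2 : 0 ≤ h0 * r ^ ((0 : ℤ) - 1) := mul_nonneg hh0 (p0 _).le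
    nlinarith [mul_nonneg h2 (sq_nonneg A)]
  · refine (jet_hess_comp_le hH hf ζ).trans ?_
    have h1 : |deriv H (f ζ)| * ‖fderiv ℝ (fderiv ℝ f) ζ‖ ≤ h0 * (A * r ^ ((0 : ℤ) - 2)) :=
      mul_le_mul (b1 _) h.d2 (ContinuousLinearMap.opNorm_nonneg _) hh0
    have h3 : ‖fderiv ℝ f ζ‖ ^ 2 ≤ A ^ 2 * r ^ ((0 : ℤ) - 2) := by
      have e : r ^ ((0 : ℤ) - 2) = r ^ ((0 : ℤ) - 1) * r ^ ((0 : ℤ) - 1) := by
        rw [← zpow_add₀ hr0]; norm_num
      rw [e]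
      calc ‖fderiv ℝ f ζ‖ ^ 2 ≤ (A * r ^ ((0 : ℤ) - 1)) ^ 2 :=
            pow_le_pow_left₀ (norm_nonneg _) h.d1 2
        _ = _ := by ring
    have h2 : |deriv (deriv H) (f ζ)| * ‖fderiv ℝ f ζ‖ ^ 2 ≤ h0 * (A ^ 2 * r ^ ((0 : ℤ) - 2)) :=
      mul_le_mul (b2 _) h3 (by positivity) hh0
    have h4 : 0 ≤ h0 * r ^ ((0 : ℤ) - 2) := mul_nonneg hh0 (p0 _).le
    nlinarith

/-- inverse of a function of order `2` whose value is exactly `r²`. -/
theorem Jet.inv {f : X → ℝ} {ζ : X} {r A : ℝ} (hr : 0 < r) (hf : ContDiff ℝ 2 f)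
    (h0 : ∀ ζ, f ζ ≠ 0) (hv : f ζ = r ^ 2) (h : Jet f ζ r A 2) :
    Jet (fun ζ => (f ζ)⁻¹) ζ r (1 + A + 2 * A ^ 2) (-2) := by
  have hr0 : r ≠ 0 := hr.ne'
  have hA : 0 ≤ A := by
    have := (abs_nonneg _).trans h.v
    exact nonneg_of_mul_nonneg_left this (zpow_pos hr _)
  have p0 : ∀ j : ℤ, 0 < r ^ j := fun j => zpow_pos hr j
  have d1 : ‖fderiv ℝ f ζ‖ ≤ A * r := by simpa using h.d1
  have d2 : ‖fderiv ℝ (fderiv ℝ f) ζ‖ ≤ A := by simpa using h.d2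
  have z2 : r ^ (-2 : ℤ) = (r ^ 2)⁻¹ := by
    rw [zpow_neg]; norm_cast
  have z3 : r ^ ((-2 : ℤ) - 1) = (r ^ 3)⁻¹ := by
    have : ((-2 : ℤ) - 1) = -3 := by norm_num
    rw [this, zpow_neg]; norm_cast
  have z4 : r ^ ((-2 : ℤ) - 2) = (r ^ 4)⁻¹ := by
    have : ((-2 : ℤ) - 2) = -4 := by norm_num
    rw [this, zpow_neg]; norm_cast
  refine ⟨?_, ?_, ?_⟩
  · rw [hv, z2, abs_of_pos (by positivity)]
    have : 0 < (r ^ 2)⁻¹ := by positivity
    nlinarith [mul_nonneg hA this.le, mul_nonneg (sq_nonneg A) this.le]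
  · rw [jet_fderiv_inv (jet_d1 hf) h0, norm_smul, hv, z3, norm_neg, Real.norm_eq_abs,
      abs_of_pos (by positivity)]
    have h1 : ((r ^ 2) ^ 2)⁻¹ * ‖fderiv ℝ f ζ‖ ≤ ((r ^ 2) ^ 2)⁻¹ * (A * r) :=
      mul_le_mul_of_nonneg_left d1 (by positivity)
    have h2 : ((r ^ 2) ^ 2)⁻¹ * (A * r) = A * (r ^ 3)⁻¹ := by field_simp
    have : 0 < (r ^ 3)⁻¹ := by positivity
    nlinarith [mul_nonneg (sq_nonneg A) this.le]
  · refine (jet_hess_inv_le hf h0 ζ).trans ?_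
    rw [hv, z4, abs_of_pos (by positivity : 0 < r ^ 2)]
    have h1 : ((r ^ 2) ^ 2)⁻¹ * ‖fderiv ℝ (fderiv ℝ f) ζ‖ ≤ ((r ^ 2) ^ 2)⁻¹ * A :=
      mul_le_mul_of_nonneg_left d2 (by positivity)
    have h3 : ‖fderiv ℝ f ζ‖ ^ 2 ≤ (A * r) ^ 2 := pow_le_pow_left₀ (norm_nonneg _) d1 2
    have h2 : 2 * ((r ^ 2) ^ 3)⁻¹ * ‖fderiv ℝ f ζ‖ ^ 2 ≤ 2 * ((r ^ 2) ^ 3)⁻¹ * (A * r) ^ 2 :=
      mul_le_mul_of_nonneg_left h3 (by positivity)
    have e1 : ((r ^ 2) ^ 2)⁻¹ * A = A * (r ^ 4)⁻¹ := by field_simp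
    have e2 : 2 * ((r ^ 2) ^ 3)⁻¹ * (A * r) ^ 2 = 2 * A ^ 2 * (r ^ 4)⁻¹ := by field_simp
    have : 0 < (r ^ 4)⁻¹ := by positivity
    nlinarith

end Claimed.Agent.R322.Sx
end

/- ===== packed: Claimed.Agent.R322.Sx.Wells.Blend ===== -/
section
/-!
# R322 / Sx / Wells / Blend : a smooth minimum of two nonnegative functions

`blend a b = b + (a - b) clipD (3 a / (a + b))` equals `a` where `2 a ≤ b`, equals `b` where `2 b ≤ a`,
lies between `min a b` and `2 min a b`, and inherits `|Df|² ≤ C f`, `|D²f| ≤ C`.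
-/

set_option autoImplicit false
set_option linter.unusedSectionVars false

namespace Claimed.Agent.R322.Sx

open MeasureTheory Set Metric
open scoped ENNReal NNReal InnerProductSpace

variable {X : Type*} [NormedAddCommGroup X] [NormedSpace ℝ X]

/-- smooth minimum. -/
noncomputable def blend (a b : X → ℝ) (ζ : X) : ℝ :=
  b ζ + (a ζ - b ζ) * clipD (3 * a ζ * (a ζ + b ζ)⁻¹)

theorem blend_contDiff {a b : X → ℝ} (ha : ContDiff ℝ 2 a) (hb : ContDiff ℝ 2 b)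
    (hab : ∀ ζ, a ζ + b ζ ≠ 0) : ContDiff ℝ 2 (blend a b) := by
  unfold blend
  exact hb.add ((ha.sub hb).mul (clipD_contDiff.comp
    ((contDiff_const.mul ha).mul ((ha.add hb).inv hab))))

theorem blend_eq_left {a b : X → ℝ} {ζ : X} (hab : 0 < a ζ + b ζ) (h : 2 * a ζ ≤ b ζ) :
    blend a b ζ = a ζ := by
  have : 3 * a ζ * (a ζ + b ζ)⁻¹ ≤ 1 := by
    rw [← div_eq_mul_inv, div_le_one hab]; linarith
  unfold blend
  rw [clipD_of_le this]; ring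

theorem blend_eq_right {a b : X → ℝ} {ζ : X} (hab : 0 < a ζ + b ζ) (h : 2 * b ζ ≤ a ζ) :
    blend a b ζ = b ζ := by
  have : 2 ≤ 3 * a ζ * (a ζ + b ζ)⁻¹ := by
    rw [← div_eq_mul_inv, le_div_iff₀ hab]; linarith
  unfold blend
  rw [clipD_of_ge this]; ring

theorem min_le_blend (a b : X → ℝ) (ζ : X) : min (a ζ) (b ζ) ≤ blend a b ζ := by
  unfold blend
  obtain ⟨h0, h1⟩ := clipD_mem (3 * a ζ * (a ζ + b ζ)⁻¹)
  set θ := clipD (3 * a ζ * (a ζ + b ζ)⁻¹)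
  rcases le_total (a ζ) (b ζ) with h | h
  · rw [min_eq_left h]; nlinarith
  · rw [min_eq_right h]; nlinarith

theorem blend_le_max (a b : X → ℝ) (ζ : X) : blend a b ζ ≤ max (a ζ) (b ζ) := by
  unfold blend
  obtain ⟨h0, h1⟩ := clipD_mem (3 * a ζ * (a ζ + b ζ)⁻¹)
  set θ := clipD (3 * a ζ * (a ζ + b ζ)⁻¹)
  rcases le_total (a ζ) (b ζ) with h | h
  · rw [max_eq_right h]; nlinarith
  · rw [max_eq_left h]; nlinarith

theorem blend_le {a b : X → ℝ} {ζ : X} (ha : 0 ≤ a ζ) (hb : 0 ≤ b ζ) (hab : 0 < a ζ + b ζ) :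
    blend a b ζ ≤ 2 * min (a ζ) (b ζ) := by
  by_cases h1 : 2 * a ζ ≤ b ζ
  · rw [blend_eq_left hab h1, min_eq_left (by linarith)]; linarith
  · by_cases h2 : 2 * b ζ ≤ a ζ
    · rw [blend_eq_right hab h2, min_eq_right (by linarith)]; linarith
    · push Not at h1 h2
      refine (blend_le_max a b ζ).trans ?_
      rcases le_total (a ζ) (b ζ) with h | h
      · rw [max_eq_right h, min_eq_left h]; linarith
      · rw [max_eq_left h, min_eq_right h]; linarith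

/-- formula for the first derivative. -/
theorem fderiv_blend {a b : X → ℝ} (ha : ContDiff ℝ 2 a) (hb : ContDiff ℝ 2 b)
    (hab : ∀ ζ, a ζ + b ζ ≠ 0) (ζ : X) :
    fderiv ℝ (blend a b) ζ = fderiv ℝ b ζ
      + ((a ζ - b ζ) • (deriv clipD (3 * a ζ * (a ζ + b ζ)⁻¹)
            • fderiv ℝ (fun ζ => 3 * a ζ * (a ζ + b ζ)⁻¹) ζ)
        + clipD (3 * a ζ * (a ζ + b ζ)⁻¹) • (fderiv ℝ a ζ - fderiv ℝ b ζ)) := by
  have hτ : ContDiff ℝ 2 (fun ζ => 3 * a ζ * (a ζ + b ζ)⁻¹) :=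
    (contDiff_const.mul ha).mul ((ha.add hb).inv hab)
  have h1 : HasFDerivAt (fun ζ => clipD (3 * a ζ * (a ζ + b ζ)⁻¹))
      (deriv clipD (3 * a ζ * (a ζ + b ζ)⁻¹) • fderiv ℝ (fun ζ => 3 * a ζ * (a ζ + b ζ)⁻¹) ζ) ζ :=
    ((clipD_contDiff.differentiable (by norm_num) _).hasDerivAt.comp_hasFDerivAt ζ
      ((jet_d1 hτ) ζ).hasFDerivAt)
  have h2 : HasFDerivAt (fun ζ => a ζ - b ζ) (fderiv ℝ a ζ - fderiv ℝ b ζ) ζ :=
    ((jet_d1 ha) ζ).hasFDerivAt.sub ((jet_d1 hb) ζ).hasFDerivAt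
  exact (((jet_d1 hb) ζ).hasFDerivAt.add (h2.mul h1)).fderiv

theorem fderiv_blend_left {a b : X → ℝ} (ha : ContDiff ℝ 2 a) (hb : ContDiff ℝ 2 b)
    (hab : ∀ ζ, 0 < a ζ + b ζ) {ζ : X} (h : 2 * a ζ ≤ b ζ) :
    fderiv ℝ (blend a b) ζ = fderiv ℝ a ζ := by
  have : 3 * a ζ * (a ζ + b ζ)⁻¹ ≤ 1 := by
    rw [← div_eq_mul_inv, div_le_one (hab ζ)]; linarith
  rw [fderiv_blend ha hb (fun ζ => (hab ζ).ne'), clipD_of_le this, deriv_clipD_of_le this]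
  simp

theorem fderiv_blend_right {a b : X → ℝ} (ha : ContDiff ℝ 2 a) (hb : ContDiff ℝ 2 b)
    (hab : ∀ ζ, 0 < a ζ + b ζ) {ζ : X} (h : 2 * b ζ ≤ a ζ) :
    fderiv ℝ (blend a b) ζ = fderiv ℝ b ζ := by
  have : 2 ≤ 3 * a ζ * (a ζ + b ζ)⁻¹ := by
    rw [← div_eq_mul_inv, le_div_iff₀ (hab ζ)]; linarith
  rw [fderiv_blend ha hb (fun ζ => (hab ζ).ne'), clipD_of_ge this, deriv_clipD_of_ge this]
  simp

/-- the constant of the blending lemma. -/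
noncomputable def blendA (C h0 : ℝ) : ℝ :=
  C + 4 * ((C + C) * (h0 * (1 + 4 * (|3| * C * (1 + (C + C) + 2 * (C + C) ^ 2))
    + (4 * (|3| * C * (1 + (C + C) + 2 * (C + C) ^ 2))) ^ 2)))

theorem Jet.sub {f g : X → ℝ} {ζ : X} {r A B : ℝ} {k : ℤ} (hf : ContDiff ℝ 2 f)
    (hg : ContDiff ℝ 2 g) (h : Jet f ζ r A k) (h' : Jet g ζ r B k) :
    Jet (fun ζ => f ζ - g ζ) ζ r (A + B) k := by
  have := Jet.add hf hg.neg h h'.neg
  simpa only [sub_eq_add_neg] using this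

/-- a nonnegative function with `|Df|² ≤ C f`, `|D²f| ≤ C` has order two w.r.t. every `r` with
`f ζ ≤ r²`. -/
theorem jet_of_quadratic {f : X → ℝ} {ζ : X} {r C : ℝ} (hr : 0 < r) (hC : 1 ≤ C) (h0 : 0 ≤ f ζ)
    (hle : f ζ ≤ r ^ 2) (hg : ‖fderiv ℝ f ζ‖ ^ 2 ≤ C * f ζ)
    (hh : ‖fderiv ℝ (fderiv ℝ f) ζ‖ ≤ C) : Jet f ζ r C 2 := by
  refine ⟨?_, ?_, ?_⟩
  · rw [abs_of_nonneg h0]
    have : r ^ (2 : ℤ) = r ^ 2 := by norm_cast
    rw [this]; nlinarith [sq_nonneg r]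
  · have : r ^ ((2 : ℤ) - 1) = r := by norm_num
    rw [this]
    apply abs_le_of_sq_le_sq' _ (by positivity) |>.2
    nlinarith [sq_nonneg r, mul_nonneg (by linarith : (0:ℝ) ≤ C) (sq_nonneg r)]
  · simpa using hh

theorem blend_jet {a b : X → ℝ} {C h0 : ℝ} (hC : 1 ≤ C) (ha : ContDiff ℝ 2 a)
    (hb : ContDiff ℝ 2 b)
    (b0 : ∀ t, |clipD t| ≤ h0) (b1 : ∀ t, |deriv clipD t| ≤ h0)
    (b2 : ∀ t, |deriv (deriv clipD) t| ≤ h0)
    (ha0 : ∀ ζ, 0 ≤ a ζ) (hb0 : ∀ ζ, 0 ≤ b ζ) (hab : ∀ ζ, 0 < a ζ + b ζ)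
    (ζ : X) (hga : ‖fderiv ℝ a ζ‖ ^ 2 ≤ C * a ζ) (hgb : ‖fderiv ℝ b ζ‖ ^ 2 ≤ C * b ζ)
    (hha : ‖fderiv ℝ (fderiv ℝ a) ζ‖ ≤ C) (hhb : ‖fderiv ℝ (fderiv ℝ b) ζ‖ ≤ C) :
    Jet (blend a b) ζ (Real.sqrt (a ζ + b ζ)) (blendA C h0) 2 := by
  set r := Real.sqrt (a ζ + b ζ) with hrdef
  have hr : 0 < r := Real.sqrt_pos.mpr (hab ζ)
  have hr2 : r ^ 2 = a ζ + b ζ := Real.sq_sqrt (hab ζ).le
  have ja : Jet a ζ r C 2 :=
    jet_of_quadratic hr hC (ha0 ζ) (by rw [hr2]; linarith [hb0 ζ]) hga hha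
  have jb : Jet b ζ r C 2 :=
    jet_of_quadratic hr hC (hb0 ζ) (by rw [hr2]; linarith [ha0 ζ]) hgb hhb
  have hs : ContDiff ℝ 2 (fun ζ => a ζ + b ζ) := ha.add hb
  have hs0 : ∀ ζ, a ζ + b ζ ≠ 0 := fun ζ => (hab ζ).ne'
  have js : Jet (fun ζ => a ζ + b ζ) ζ r (C + C) 2 := Jet.add ha hb ja jb
  have jw := Jet.inv hr hs hs0 hr2.symm js
  have hw : ContDiff ℝ 2 (fun ζ => (a ζ + b ζ)⁻¹) := hs.inv hs0
  have j3 := Jet.const_mul 3 ha ja
  have h3 : ContDiff ℝ 2 (fun ζ => 3 * a ζ) := contDiff_const.mul ha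
  have jτ := Jet.mul hr h3 hw j3 jw
  have e0 : (2 : ℤ) + -2 = 0 := by norm_num
  rw [e0] at jτ
  have hτ : ContDiff ℝ 2 (fun ζ => 3 * a ζ * (a ζ + b ζ)⁻¹) := h3.mul hw
  have jθ := Jet.comp hr clipD_contDiff hτ b0 b1 b2 jτ
  have hθ : ContDiff ℝ 2 (fun ζ => clipD (3 * a ζ * (a ζ + b ζ)⁻¹)) := clipD_contDiff.comp hτ
  have jd := Jet.sub ha hb ja jb
  have jp := Jet.mul hr (ha.sub hb) hθ jd jθ
  have e1 : (2 : ℤ) + 0 = 2 := by norm_num
  rw [e1] at jp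
  exact Jet.add hb ((ha.sub hb).mul hθ) jb jp

/-- **Blending lemma.** -/
theorem blend_bounds (C : ℝ) (hC : 1 ≤ C) :
    ∃ C' : ℝ, C ≤ C' ∧ ∀ (a b : X → ℝ), ContDiff ℝ 2 a → ContDiff ℝ 2 b → (∀ ζ, 0 ≤ a ζ) →
      (∀ ζ, 0 ≤ b ζ) → (∀ ζ, 0 < a ζ + b ζ) → (∀ ζ, ‖fderiv ℝ a ζ‖ ^ 2 ≤ C * a ζ) →
      (∀ ζ, ‖fderiv ℝ b ζ‖ ^ 2 ≤ C * b ζ) → (∀ ζ, ‖fderiv ℝ (fderiv ℝ a) ζ‖ ≤ C) →
      (∀ ζ, ‖fderiv ℝ (fderiv ℝ b) ζ‖ ≤ C) →
      (∀ ζ, ‖fderiv ℝ (blend a b) ζ‖ ^ 2 ≤ C' * blend a b ζ) ∧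
      ∀ ζ, ‖fderiv ℝ (fderiv ℝ (blend a b)) ζ‖ ≤ C' := by
  obtain ⟨h0, hh0, b0, b1, b2⟩ := clipD_bounds
  have hA : C ≤ blendA C h0 := by
    unfold blendA
    have : 0 ≤ 4 * ((C + C) * (h0 * (1 + 4 * (|3| * C * (1 + (C + C) + 2 * (C + C) ^ 2))
      + (4 * (|3| * C * (1 + (C + C) + 2 * (C + C) ^ 2))) ^ 2))) := by positivity
    linarith
  have hA1 : 1 ≤ blendA C h0 := hC.trans hA
  refine ⟨3 * blendA C h0 ^ 2, by nlinarith, ?_⟩
  intro a b ha hb ha0 hb0 hab hga hgb hha hhb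
  have hj := fun ζ => blend_jet hC ha hb b0 b1 b2 ha0 hb0 hab ζ (hga ζ) (hgb ζ) (hha ζ) (hhb ζ)
  constructor
  · intro ζ
    by_cases h1 : 2 * a ζ ≤ b ζ
    · rw [fderiv_blend_left ha hb hab h1, blend_eq_left (hab ζ) h1]
      refine (hga ζ).trans (mul_le_mul_of_nonneg_right (by nlinarith) (ha0 ζ))
    · by_cases h2 : 2 * b ζ ≤ a ζ
      · rw [fderiv_blend_right ha hb hab h2, blend_eq_right (hab ζ) h2]
        refine (hgb ζ).trans (mul_le_mul_of_nonneg_right (by nlinarith) (hb0 ζ))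
      · push Not at h1 h2
        have hd1 := (hj ζ).d1
        have e : Real.sqrt (a ζ + b ζ) ^ ((2 : ℤ) - 1) = Real.sqrt (a ζ + b ζ) := by norm_num
        rw [e] at hd1
        have hsq : ‖fderiv ℝ (blend a b) ζ‖ ^ 2 ≤ blendA C h0 ^ 2 * (a ζ + b ζ) := by
          calc ‖fderiv ℝ (blend a b) ζ‖ ^ 2 ≤ (blendA C h0 * Real.sqrt (a ζ + b ζ)) ^ 2 :=
                pow_le_pow_left₀ (norm_nonneg _) hd1 2
            _ = _ := by rw [mul_pow, Real.sq_sqrt (hab ζ).le]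
        have hmin : a ζ + b ζ ≤ 3 * blend a b ζ := by
          have := min_le_blend a b ζ
          rcases le_total (a ζ) (b ζ) with h | h
          · rw [min_eq_left h] at this; linarith
          · rw [min_eq_right h] at this; linarith
        nlinarith [sq_nonneg (blendA C h0)]
  · intro ζ
    have hd2 := (hj ζ).d2
    simp only [sub_self, zpow_zero, mul_one] at hd2
    refine hd2.trans (by nlinarith)

end Claimed.Agent.R322.Sx
end

/- ===== packed: Claimed.Agent.R322.Sx.Wells.Comb ===== -/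
section
/-!
# R322 / Sx / Wells / Comb : near sets, transition sets, representation of wells by entries of a list

Pure combinatorics / metric geometry of finite sets of wells (no analysis).
-/

set_option autoImplicit false

namespace Claimed.Agent.R322.Sx

open MeasureTheory Set Metric
open scoped ENNReal NNReal InnerProductSpace

/-- the part of height space that is much closer to one well than that well is to the others
(everything, if there is only one well). -/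
def nearSet {n : ℕ} (W : Finset (E n)) (c : ℝ) : Set (E n) :=
  {ζ | ∃ b ∈ W, ∀ b' ∈ W, b' ≠ b → ‖ζ - b‖ < c * ‖b - b'‖}

/-- the transition set. -/
def trSet {n : ℕ} (W : Finset (E n)) (c : ℝ) : Set (E n) := (nearSet W c)ᶜ

theorem isOpen_nearCell {n : ℕ} (W : Finset (E n)) (c : ℝ) (b : E n) :
    IsOpen {ζ : E n | ∀ b' ∈ W, b' ≠ b → ‖ζ - b‖ < c * ‖b - b'‖} := by
  have : {ζ : E n | ∀ b' ∈ W, b' ≠ b → ‖ζ - b‖ < c * ‖b - b'‖}
      = ⋂ b' ∈ W, {ζ : E n | b' ≠ b → ‖ζ - b‖ < c * ‖b - b'‖} := by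
    ext ζ; simp
  rw [this]
  refine isOpen_biInter_finset fun b' _ => ?_
  by_cases h : b' = b
  · simp [h]
  · simp only [ne_eq, h, not_false_eq_true, forall_const]
    exact isOpen_lt (by fun_prop) continuous_const

theorem isOpen_nearSet {n : ℕ} (W : Finset (E n)) (c : ℝ) : IsOpen (nearSet W c) := by
  have : nearSet W c = ⋃ b ∈ W, {ζ : E n | ∀ b' ∈ W, b' ≠ b → ‖ζ - b‖ < c * ‖b - b'‖} := by
    ext ζ; simp [nearSet]
  rw [this]
  exact isOpen_biUnion fun b _ => isOpen_nearCell W c b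

theorem measurableSet_trSet {n : ℕ} (W : Finset (E n)) (c : ℝ) : MeasurableSet (trSet W c) :=
  (isOpen_nearSet W c).measurableSet.compl

theorem nearSet_mono {n : ℕ} (W : Finset (E n)) {c c' : ℝ} (h : c ≤ c') :
    nearSet W c ⊆ nearSet W c' := by
  rintro ζ ⟨b, hb, hζ⟩
  exact ⟨b, hb, fun b' hb' hne => (hζ b' hb' hne).trans_le
    (mul_le_mul_of_nonneg_right h (norm_nonneg _))⟩

theorem trSet_anti {n : ℕ} (W : Finset (E n)) {c c' : ℝ} (h : c ≤ c') :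
    trSet W c' ⊆ trSet W c := compl_subset_compl.mpr (nearSet_mono W h)

theorem nearSet_singleton {n : ℕ} (b : E n) (c : ℝ) : nearSet {b} c = univ := by
  ext ζ
  simp only [nearSet, Finset.mem_singleton, mem_setOf_eq, mem_univ, iff_true]
  exact ⟨b, rfl, fun b' hb' hne => absurd hb' hne⟩

theorem trSet_singleton {n : ℕ} (b : E n) (c : ℝ) : trSet {b} c = ∅ := by
  simp [trSet, nearSet_singleton]

/-- in the near cell of `b` (with `c ≤ 1/2`) the nearest well is `b`. -/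
theorem infDist_eq_of_nearCell {n : ℕ} {W : Finset (E n)} {c : ℝ} (hc : c ≤ 1 / 2) {b ζ : E n}
    (hb : b ∈ W) (hζ : ∀ b' ∈ W, b' ≠ b → ‖ζ - b‖ < c * ‖b - b'‖) :
    infDist ζ (W : Set (E n)) = ‖ζ - b‖ := by
  apply le_antisymm
  · rw [← dist_eq_norm]; exact infDist_le_dist_of_mem (by exact_mod_cast hb)
  · refine (le_infDist ⟨b, by exact_mod_cast hb⟩).mpr fun b' hb' => ?_
    have hb'W : b' ∈ W := by exact_mod_cast hb'
    by_cases hne : b' = b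
    · rw [hne, dist_eq_norm]
    · have h1 := hζ b' hb'W hne
      have h2 : ‖b - b'‖ ≤ ‖ζ - b‖ + ‖ζ - b'‖ := by
        have : b - b' = (ζ - b') - (ζ - b) := by abel
        rw [this]; exact (norm_sub_le _ _).trans (by linarith)
      rw [dist_eq_norm]
      have h3 : c * ‖b - b'‖ ≤ 1 / 2 * ‖b - b'‖ :=
        mul_le_mul_of_nonneg_right hc (norm_nonneg _)
      linarith

/-! ## Representation of wells by the entries of a list (pure combinatorics) -/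

/-- every entry of `A` is within `ε` of a well. -/
def NearW {n Q : ℕ} (A : Fin Q → E n) (W : Finset (E n)) (ε : ℝ) : Prop :=
  ∀ j, ∃ b ∈ W, ‖A j - b‖ ≤ ε

/-- every well is represented by an entry of `A` within `ε`. -/
def RepW {n Q : ℕ} (A : Fin Q → E n) (W : Finset (E n)) (ε : ℝ) : Prop :=
  ∀ b ∈ W, ∃ j, ‖A j - b‖ ≤ ε

/-- all gaps of `W` exceed `g`. -/
def GapW {n : ℕ} (W : Finset (E n)) (g : ℝ) : Prop :=
  ∀ b ∈ W, ∀ b' ∈ W, b ≠ b' → g < ‖b - b'‖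

/-- representation is transported by a matching whose error is below the gap. -/
theorem RepW.transport {n Q : ℕ} {A A' : Fin Q → E n} {W : Finset (E n)} {ε ε' r g : ℝ}
    (hR : RepW A W ε) (hM : Sys.Matched A A' r) (hN : NearW A' W ε') (hG : GapW W g)
    (hg : ε + r + ε' ≤ g) : RepW A' W ε' := by
  intro b hb
  obtain ⟨j, hj⟩ := hR b hb
  obtain ⟨σ, hσ⟩ := hM
  obtain ⟨b2, hb2, h2⟩ := hN (σ j)
  have hbb : b = b2 := by
    by_contra hne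
    have h3 := hG b hb b2 hb2 hne
    have h4 : ‖b - b2‖ ≤ ‖A j - b‖ + ‖A j - A' (σ j)‖ + ‖A' (σ j) - b2‖ := by
      have : b - b2 = -(A j - b) + (A j - A' (σ j)) + (A' (σ j) - b2) := by abel
      rw [this]
      refine (norm_add_le _ _).trans ?_
      gcongr
      refine (norm_add_le _ _).trans ?_
      rw [norm_neg]
    have := hσ j
    linarith
  exact ⟨σ j, by rw [hbb]; exact h2⟩

/-- grouping of the entries by their wells: separated groups, at least two of them, and the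
transition set is far from all entries. -/
theorem exists_grouping {n Q : ℕ} {A : Fin Q → E n} {W : Finset (E n)} {ε g cv : ℝ}
    (hN : NearW A W ε) (hR : RepW A W ε) (hG : GapW W g) (hW : 1 < W.card) (hε : 0 ≤ ε)
    (hg : 2 * ε < g) (hcv : 0 < cv) :
    ∃ grp : Fin Q → Fin Q, (∃ i j, grp i ≠ grp j) ∧ Sys.Separated A grp (g - 2 * ε) ∧
      ∀ ζ ∈ trSet W cv, cv * g - ε ≤ Sys.distA A ζ := by
  classical
  choose wl hwlW hwl using hN
  -- representative of a well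
  have hR' : ∀ b : E n, ∃ j : Fin Q, b ∈ W → ‖A j - b‖ ≤ ε := by
    intro b
    by_cases hb : b ∈ W
    · obtain ⟨j, hj⟩ := hR b hb
      exact ⟨j, fun _ => hj⟩
    · obtain ⟨b0, hb0⟩ := Finset.card_pos.mp (by omega : 0 < W.card)
      obtain ⟨j, _⟩ := hR b0 hb0
      exact ⟨j, fun h => absurd h hb⟩
  choose rep hrep using hR'
  -- uniqueness of the well of an entry
  have huniq : ∀ (j : Fin Q) (b : E n), b ∈ W → ‖A j - b‖ ≤ ε → wl j = b := by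
    intro j b hb hj
    by_contra hne
    have h3 := hG (wl j) (hwlW j) b hb hne
    have h4 : ‖wl j - b‖ ≤ ‖A j - wl j‖ + ‖A j - b‖ := by
      have : wl j - b = (A j - b) - (A j - wl j) := by abel
      rw [this]; exact (norm_sub_le _ _).trans (by linarith)
    have := hwl j
    linarith
  have hwr : ∀ b ∈ W, wl (rep b) = b := fun b hb => huniq _ b hb (hrep b hb)
  refine ⟨fun j => rep (wl j), ?_, ?_, ?_⟩
  · obtain ⟨b1, hb1, b2, hb2, hne⟩ := Finset.one_lt_card.mp hW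
    refine ⟨rep b1, rep b2, ?_⟩
    simp only [hwr b1 hb1, hwr b2 hb2]
    intro h
    apply hne
    rw [← hwr b1 hb1, ← hwr b2 hb2, h]
  · intro i j hij
    have hne : wl i ≠ wl j := fun h => hij (by simp only [h])
    have h3 := hG (wl i) (hwlW i) (wl j) (hwlW j) hne
    have h4 : ‖wl i - wl j‖ ≤ ‖A i - wl i‖ + ‖A i - A j‖ + ‖A j - wl j‖ := by
      have : wl i - wl j = -(A i - wl i) + (A i - A j) + (A j - wl j) := by abel
      rw [this]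
      refine (norm_add_le _ _).trans ?_
      gcongr
      refine (norm_add_le _ _).trans ?_
      rw [norm_neg]
    have := hwl i
    have := hwl j
    linarith
  · intro ζ hζ
    obtain ⟨b0, hb0⟩ := Finset.card_pos.mp (by omega : 0 < W.card)
    have hne : (range A).Nonempty := ⟨A (rep b0), mem_range_self _⟩
    refine (le_infDist hne).mpr ?_
    rintro _ ⟨j, rfl⟩
    have hfar : cv * g ≤ ‖ζ - wl j‖ := by
      by_contra hlt
      push_neg at hlt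
      apply hζ
      refine ⟨wl j, hwlW j, fun b' hb' hne' => hlt.trans_le ?_⟩
      exact mul_le_mul_of_nonneg_left (hG (wl j) (hwlW j) b' hb' (Ne.symm hne')).le hcv.le
    have h4 : ‖ζ - wl j‖ ≤ ‖ζ - A j‖ + ‖A j - wl j‖ := by
      have : ζ - wl j = (ζ - A j) + (A j - wl j) := by abel
      rw [this]; exact norm_add_le _ _
    rw [dist_eq_norm]
    have := hwl j
    linarith

end Claimed.Agent.R322.Sx
end

/- ===== packed: Claimed.Agent.R322.Sx.Wells.Fn ===== -/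
section
/-!
# R322 / Sx / Wells / Fn : the function `Γ0` (AE Section 5.3, "the precise multiplier convention")

`exists_wellFn` is proved by recursion on the wells: `Γ0(W ∪ {b}) = blend |· - b|² Γ0(W)`, `cp = 1/4`.
-/

set_option autoImplicit false

namespace Claimed.Agent.R322.Sx

open MeasureTheory Set Metric
open scoped ENNReal NNReal InnerProductSpace

/-! ## the exact square -/

section Sq

variable {X : Type*} [NormedAddCommGroup X] [InnerProductSpace ℝ X]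

theorem sqd_contDiff (b : X) : ContDiff ℝ 2 (fun ζ : X => ‖ζ - b‖ ^ 2) :=
  (contDiff_norm_sq ℝ).comp (contDiff_id.sub contDiff_const)

theorem sqd_fderiv (b : X) :
    fderiv ℝ (fun ζ : X => ‖ζ - b‖ ^ 2)
      = fun ζ => (2 : ℝ) • (innerSL ℝ : X →L[ℝ] X →L[ℝ] ℝ) (ζ - b) := by
  funext ζ
  have h := (hasStrictFDerivAt_norm_sq (ζ - b)).hasFDerivAt.comp ζ
    ((hasFDerivAt_id ζ).sub_const b)
  have h2 : HasFDerivAt (fun ζ : X => ‖ζ - b‖ ^ 2)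
      ((2 : ℝ) • (innerSL ℝ : X →L[ℝ] X →L[ℝ] ℝ) (ζ - b)) ζ := by
    refine h.congr_fderiv ?_
    ext v
    simp [two_mul]
  exact h2.fderiv

theorem sqd_hess (b ζ : X) :
    fderiv ℝ (fderiv ℝ (fun ζ : X => ‖ζ - b‖ ^ 2)) ζ
      = (2 : ℝ) • (innerSL ℝ : X →L[ℝ] X →L[ℝ] ℝ) := by
  rw [sqd_fderiv]
  have h1 : HasFDerivAt (fun ζ : X => ζ - b) (ContinuousLinearMap.id ℝ X) ζ :=
    (hasFDerivAt_id ζ).sub_const b
  have h2 := (((innerSL ℝ : X →L[ℝ] X →L[ℝ] ℝ).hasFDerivAt (x := ζ - b)).comp ζ h1).const_smul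
    (2 : ℝ)
  have h3 : HasFDerivAt (fun ζ : X => (2 : ℝ) • (innerSL ℝ : X →L[ℝ] X →L[ℝ] ℝ) (ζ - b))
      ((2 : ℝ) • (innerSL ℝ : X →L[ℝ] X →L[ℝ] ℝ)) ζ := by
    refine h2.congr_fderiv ?_
    simp
  exact h3.fderiv

theorem sqd_grad_sq (b ζ : X) :
    ‖fderiv ℝ (fun ζ : X => ‖ζ - b‖ ^ 2) ζ‖ ^ 2 = 4 * ‖ζ - b‖ ^ 2 := by
  rw [sqd_fderiv]
  have : ‖(2 : ℝ) • (innerSL ℝ : X →L[ℝ] X →L[ℝ] ℝ) (ζ - b)‖ = 2 * ‖ζ - b‖ := by
    rw [norm_smul, innerSL_apply_norm]; norm_num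
  rw [this]; ring

theorem sqd_hess_le (b ζ : X) :
    ‖fderiv ℝ (fderiv ℝ (fun ζ : X => ‖ζ - b‖ ^ 2)) ζ‖ ≤ 2 := by
  rw [sqd_hess]
  refine ContinuousLinearMap.opNorm_le_bound _ (by norm_num) fun v => ?_
  have : ((2 : ℝ) • (innerSL ℝ : X →L[ℝ] X →L[ℝ] ℝ)) v
      = (2 : ℝ) • (innerSL ℝ : X →L[ℝ] X →L[ℝ] ℝ) v := rfl
  rw [this, norm_smul, innerSL_apply_norm]; norm_num

end Sq

/-! ## Package Wells-B : the function `Γ0` -/

/-- AE: "a smooth function `Γ0`, comparable to `d_W²`, equal to `|z - b_i|²` within a fixed small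
fraction of the nearest-neighbour gap at each `b_i`, `|DΓ0|² ≤ C Γ0`, `|D²Γ0| ≤ C`". -/
structure WellFn {n : ℕ} (W : Finset (E n)) (C cp : ℝ) (Γ0 : E n → ℝ) : Prop where
  smooth : ContDiff ℝ 2 Γ0
  lower : ∀ ζ, infDist ζ (W : Set (E n)) ^ 2 ≤ C * Γ0 ζ
  upper : ∀ ζ, Γ0 ζ ≤ C * infDist ζ (W : Set (E n)) ^ 2
  quad : ∀ b ∈ W, ∀ ζ, (∀ b' ∈ W, b' ≠ b → ‖ζ - b‖ < cp * ‖b - b'‖) → Γ0 ζ = ‖ζ - b‖ ^ 2
  grad : ∀ ζ, ‖fderiv ℝ Γ0 ζ‖ ^ 2 ≤ C * Γ0 ζ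
  hess : ∀ ζ, ‖fderiv ℝ (fderiv ℝ Γ0) ζ‖ ≤ C

theorem WellFn.nonneg {n : ℕ} {W : Finset (E n)} {C cp : ℝ} {Γ0 : E n → ℝ} (h : WellFn W C cp Γ0)
    (hC : 0 < C) (ζ : E n) : 0 ≤ Γ0 ζ := by
  have := (sq_nonneg _).trans (h.lower ζ)
  exact nonneg_of_mul_nonneg_right this hC

theorem WellFn.mono {n : ℕ} {W : Finset (E n)} {C C' cp : ℝ} {Γ0 : E n → ℝ}
    (h : WellFn W C cp Γ0) (hC : 0 < C) (hCC : C ≤ C') : WellFn W C' cp Γ0 where
  smooth := h.smooth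
  lower := fun ζ => (h.lower ζ).trans (mul_le_mul_of_nonneg_right hCC (h.nonneg hC ζ))
  upper := fun ζ => (h.upper ζ).trans (mul_le_mul_of_nonneg_right hCC (sq_nonneg _))
  quad := h.quad
  grad := fun ζ => (h.grad ζ).trans (mul_le_mul_of_nonneg_right hCC (h.nonneg hC ζ))
  hess := fun ζ => (h.hess ζ).trans hCC

/-- one well: the exact square. -/
theorem wellFn_singleton {n : ℕ} (b : E n) (cp : ℝ) :
    WellFn {b} 4 cp (fun ζ => ‖ζ - b‖ ^ 2) where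
  smooth := sqd_contDiff b
  lower := fun ζ => by
    simp only [Finset.coe_singleton, infDist_singleton, dist_eq_norm]
    nlinarith [sq_nonneg ‖ζ - b‖]
  upper := fun ζ => by
    simp only [Finset.coe_singleton, infDist_singleton, dist_eq_norm]
    nlinarith [sq_nonneg ‖ζ - b‖]
  quad := fun b' hb' ζ _ => by
    rw [Finset.mem_singleton.mp hb']
  grad := fun ζ => (sqd_grad_sq b ζ).le
  hess := fun ζ => (sqd_hess_le b ζ).trans (by norm_num)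

/-- adding one well. -/
theorem wellFn_insert {n : ℕ} (C : ℝ) (hC : 4 ≤ C) :
    ∃ C' : ℝ, C ≤ C' ∧ ∀ (W : Finset (E n)) (b : E n) (Γ : E n → ℝ), W.Nonempty → b ∉ W →
      WellFn W C (1 / 4) Γ → (∀ ζ, infDist ζ (W : Set (E n)) ^ 2 ≤ Γ ζ) →
      WellFn (insert b W) C' (1 / 4) (blend (fun ζ => ‖ζ - b‖ ^ 2) Γ) ∧
      ∀ ζ, infDist ζ ((insert b W : Finset (E n)) : Set (E n)) ^ 2
        ≤ blend (fun ζ => ‖ζ - b‖ ^ 2) Γ ζ := by
  obtain ⟨C1, hC1, hbl⟩ := blend_bounds (X := E n) C (by linarith)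
  refine ⟨2 * C1, by linarith, ?_⟩
  intro W b Γ hW hb h hlow
  have hC0 : 0 < C := by linarith
  have hΓ0 := h.nonneg hC0
  have hρ0 : ∀ ζ : E n, 0 ≤ ‖ζ - b‖ ^ 2 := fun ζ => sq_nonneg _
  have hWs : (W : Set (E n)).Nonempty := by exact_mod_cast hW
  -- positivity of the sum
  have hpos : ∀ ζ : E n, 0 < ‖ζ - b‖ ^ 2 + Γ ζ := by
    intro ζ
    by_contra hle
    have h1 : ‖ζ - b‖ ^ 2 = 0 := by linarith [hρ0 ζ, hΓ0 ζ]
    have h2 : Γ ζ = 0 := by linarith [hρ0 ζ, hΓ0 ζ]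
    have h3 : ζ = b := by
      have : ‖ζ - b‖ = 0 := by simpa using h1
      exact sub_eq_zero.mp (norm_eq_zero.mp this)
    have h4 : infDist ζ (W : Set (E n)) = 0 := by
      have := h.lower ζ
      rw [h2, mul_zero] at this
      have h5 : infDist ζ (W : Set (E n)) ^ 2 = 0 := le_antisymm this (sq_nonneg _)
      simpa using h5
    have h6 : ζ ∈ (W : Set (E n)) := by
      have hcl : IsClosed (W : Set (E n)) := W.finite_toSet.isClosed
      exact (hcl.mem_iff_infDist_zero hWs).mpr h4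
    exact hb (by rw [← h3]; exact_mod_cast h6)
  obtain ⟨hgr, hhs⟩ := hbl (fun ζ => ‖ζ - b‖ ^ 2) Γ (sqd_contDiff b) h.smooth hρ0 hΓ0 hpos
    (fun ζ => by rw [sqd_grad_sq]; nlinarith [hρ0 ζ]) h.grad
    (fun ζ => (sqd_hess_le b ζ).trans (by linarith)) h.hess
  have hbl0 : ∀ ζ, 0 ≤ blend (fun ζ => ‖ζ - b‖ ^ 2) Γ ζ := fun ζ =>
    (le_min (hρ0 ζ) (hΓ0 ζ)).trans (min_le_blend (fun ζ => ‖ζ - b‖ ^ 2) Γ ζ)
  have hins : ((insert b W : Finset (E n)) : Set (E n)) = insert b (W : Set (E n)) := by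
    simp
  have hd1 : ∀ ζ : E n, infDist ζ (insert b (W : Set (E n))) ≤ ‖ζ - b‖ := fun ζ => by
    rw [← dist_eq_norm]; exact infDist_le_dist_of_mem (mem_insert _ _)
  have hd2 : ∀ ζ : E n, infDist ζ (insert b (W : Set (E n))) ≤ infDist ζ (W : Set (E n)) :=
    fun ζ => infDist_le_infDist_of_subset (subset_insert _ _) hWs
  have hd3 : ∀ ζ : E n, min ‖ζ - b‖ (infDist ζ (W : Set (E n)))
      ≤ infDist ζ (insert b (W : Set (E n))) := fun ζ => by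
    refine (le_infDist ⟨b, mem_insert _ _⟩).mpr fun y hy => ?_
    rcases hy with rfl | hy
    · rw [dist_eq_norm]; exact min_le_left _ _
    · exact (min_le_right _ _).trans (infDist_le_dist_of_mem hy)
  -- the sharp lower bound
  have hlow' : ∀ ζ, infDist ζ ((insert b W : Finset (E n)) : Set (E n)) ^ 2
      ≤ blend (fun ζ => ‖ζ - b‖ ^ 2) Γ ζ := by
    intro ζ
    rw [hins]
    have hm := min_le_blend (fun ζ => ‖ζ - b‖ ^ 2) Γ ζ
    have h0 : 0 ≤ infDist ζ (insert b (W : Set (E n))) := infDist_nonneg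
    have h1 : infDist ζ (insert b (W : Set (E n))) ^ 2 ≤ ‖ζ - b‖ ^ 2 :=
      pow_le_pow_left₀ h0 (hd1 ζ) 2
    have h2 : infDist ζ (insert b (W : Set (E n))) ^ 2 ≤ Γ ζ :=
      (pow_le_pow_left₀ h0 (hd2 ζ) 2).trans (hlow ζ)
    exact (le_min h1 h2).trans hm
  refine ⟨⟨blend_contDiff (sqd_contDiff b) h.smooth (fun ζ => (hpos ζ).ne'), ?_, ?_, ?_, ?_, ?_⟩,
    hlow'⟩
  · -- lower
    intro ζ
    have := hlow' ζ
    nlinarith [hbl0 ζ]
  · -- upper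
    intro ζ
    rw [hins]
    have hm := blend_le (a := fun ζ => ‖ζ - b‖ ^ 2) (b := Γ) (hρ0 ζ) (hΓ0 ζ) (hpos ζ)
    have h3 := hd3 ζ
    have hu := h.upper ζ
    have hi0 : 0 ≤ infDist ζ (W : Set (E n)) := infDist_nonneg
    rcases le_total ‖ζ - b‖ (infDist ζ (W : Set (E n))) with hle | hle
    · rw [min_eq_left hle] at h3
      have h4 : ‖ζ - b‖ ^ 2 ≤ infDist ζ (insert b (W : Set (E n))) ^ 2 :=
        pow_le_pow_left₀ (norm_nonneg _) h3 2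
      have h5 : blend (fun ζ => ‖ζ - b‖ ^ 2) Γ ζ ≤ 2 * ‖ζ - b‖ ^ 2 :=
        hm.trans (mul_le_mul_of_nonneg_left (min_le_left _ _) (by norm_num))
      nlinarith [sq_nonneg (infDist ζ (insert b (W : Set (E n))))]
    · rw [min_eq_right hle] at h3
      have h4 : infDist ζ (W : Set (E n)) ^ 2 ≤ infDist ζ (insert b (W : Set (E n))) ^ 2 :=
        pow_le_pow_left₀ hi0 h3 2
      have h5 : blend (fun ζ => ‖ζ - b‖ ^ 2) Γ ζ ≤ 2 * Γ ζ :=
        hm.trans (mul_le_mul_of_nonneg_left (min_le_right _ _) (by norm_num))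
      nlinarith [sq_nonneg (infDist ζ (insert b (W : Set (E n))))]
  · -- quad
    intro b1 hb1 ζ hζ
    rcases Finset.mem_insert.mp hb1 with rfl | hb1W
    · -- the new well
      apply blend_eq_left (hpos ζ)
      have h3 : 3 * ‖ζ - b1‖ ≤ infDist ζ (W : Set (E n)) := by
        refine (le_infDist hWs).mpr fun y hy => ?_
        have hyW : y ∈ W := by exact_mod_cast hy
        have hne : y ≠ b1 := fun he => hb (he ▸ hyW)
        have h4 := hζ y (Finset.mem_insert_of_mem hyW) hne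
        have h5 : ‖b1 - y‖ ≤ ‖ζ - b1‖ + ‖ζ - y‖ := by
          have : b1 - y = (ζ - y) - (ζ - b1) := by abel
          rw [this]; exact (norm_sub_le _ _).trans (by linarith)
        rw [dist_eq_norm]; linarith
      have h6 : (3 * ‖ζ - b1‖) ^ 2 ≤ infDist ζ (W : Set (E n)) ^ 2 :=
        pow_le_pow_left₀ (by positivity) h3 2
      have := hlow ζ
      nlinarith [sq_nonneg ‖ζ - b1‖]
    · have hne : b ≠ b1 := fun he => hb (he ▸ hb1W)
      have hq := h.quad b1 hb1W ζ (fun b' hb' hne' => hζ b' (Finset.mem_insert_of_mem hb') hne')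
      rw [← hq]
      apply blend_eq_right (hpos ζ)
      have h4 := hζ b (Finset.mem_insert_self _ _) hne
      have h5 : ‖b1 - b‖ ≤ ‖ζ - b1‖ + ‖ζ - b‖ := by
        have : b1 - b = (ζ - b) - (ζ - b1) := by abel
        rw [this]; exact (norm_sub_le _ _).trans (by linarith)
      have h3 : 3 * ‖ζ - b1‖ ≤ ‖ζ - b‖ := by linarith
      have h6 : (3 * ‖ζ - b1‖) ^ 2 ≤ ‖ζ - b‖ ^ 2 := pow_le_pow_left₀ (by positivity) h3 2
      rw [hq]
      nlinarith [sq_nonneg ‖ζ - b1‖]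
  · intro ζ
    exact (hgr ζ).trans (mul_le_mul_of_nonneg_right (by linarith) (hbl0 ζ))
  · intro ζ
    exact (hhs ζ).trans (by linarith)

/-- Existence, with constants depending only on the number of wells. -/
theorem exists_wellFn_aux (n N : ℕ) :
    ∃ C : ℝ, 4 ≤ C ∧ ∀ W : Finset (E n), W.Nonempty → W.card ≤ N →
      ∃ Γ0 : E n → ℝ, WellFn W C (1 / 4) Γ0 ∧ ∀ ζ, infDist ζ (W : Set (E n)) ^ 2 ≤ Γ0 ζ := by
  induction N with
  | zero =>
    refine ⟨4, le_rfl, fun W hW hc => ?_⟩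
    have := Finset.card_pos.mpr hW
    omega
  | succ N ih =>
    obtain ⟨C, hC, hW⟩ := ih
    obtain ⟨C', hCC, hins⟩ := wellFn_insert (n := n) C hC
    refine ⟨C', hC.trans hCC, fun W hWne hc => ?_⟩
    obtain ⟨b, hb⟩ := hWne
    by_cases hE : (W.erase b).Nonempty
    · have hcard : (W.erase b).card ≤ N := by
        rw [Finset.card_erase_of_mem hb]; omega
      obtain ⟨Γ, hΓ, hlow⟩ := hW (W.erase b) hE hcard
      have := hins (W.erase b) b Γ hE (Finset.notMem_erase b W) hΓ hlow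
      rw [Finset.insert_erase hb] at this
      exact ⟨_, this⟩
    · have hWb : W = {b} := by
        rw [Finset.not_nonempty_iff_eq_empty] at hE
        rw [← Finset.insert_erase hb, hE]; rfl
      subst hWb
      refine ⟨fun ζ => ‖ζ - b‖ ^ 2, (wellFn_singleton b _).mono (by norm_num) (hC.trans hCC), ?_⟩
      intro ζ
      simp [dist_eq_norm]

/-- Existence, with constants depending only on the number of wells. -/
theorem exists_wellFn (n N : ℕ) :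
    ∃ C cp : ℝ, 1 ≤ C ∧ 0 < cp ∧ cp ≤ 1 / 4 ∧ ∀ W : Finset (E n), W.Nonempty → W.card ≤ N →
      ∃ Γ0 : E n → ℝ, WellFn W C cp Γ0 := by
  obtain ⟨C, hC, h⟩ := exists_wellFn_aux n N
  refine ⟨C, 1 / 4, by linarith, by norm_num, le_rfl, fun W hW hc => ?_⟩
  obtain ⟨Γ0, h0, _⟩ := h W hW hc
  exact ⟨Γ0, h0⟩

end Claimed.Agent.R322.Sx
end

/- ===== packed: Claimed.Agent.R322.Sx.Wells.Gam ===== -/
section
/-!
# R322 / Sx / Wells / Gam : the multipliers `Γ_s` (AE (5.10), (5.11))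
-/

set_option autoImplicit false

namespace Claimed.Agent.R322.Sx

open MeasureTheory Set Metric
open scoped ENNReal NNReal InnerProductSpace

/-! ## Package Wells-C : `Γ_s` -/

/-- `Γ_s = s² χ(Γ0 / s²)`, AE (5.10). -/
noncomputable def gam {n : ℕ} (Γ0 : E n → ℝ) (s : ℝ) (ζ : E n) : ℝ := s ^ 2 * clip (Γ0 ζ / s ^ 2)

/-- `d Γ_s / d log s = 2 s² (χ(t) - t χ'(t))`, `t = Γ0 / s²`. -/
noncomputable def gamDot {n : ℕ} (Γ0 : E n → ℝ) (s : ℝ) (ζ : E n) : ℝ :=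
  2 * s ^ 2 * (clip (Γ0 ζ / s ^ 2) - Γ0 ζ / s ^ 2 * clipD (Γ0 ζ / s ^ 2))

/-- AE (5.11) for `Γ_s`, and the elementary comparisons. -/
structure GamOk {n : ℕ} (Γ0 : E n → ℝ) (C : ℝ) : Prop where
  smooth : ∀ s, 0 < s → ContDiff ℝ 2 (gam Γ0 s)
  nonneg : ∀ s ζ, 0 < s → 0 ≤ gam Γ0 s ζ
  le_sq : ∀ s ζ, 0 < s → gam Γ0 s ζ ≤ 2 * s ^ 2
  le : ∀ s ζ, 0 < s → gam Γ0 s ζ ≤ Γ0 ζ
  ge : ∀ s ζ, 0 < s → min (Γ0 ζ) (s ^ 2) ≤ gam Γ0 s ζ
  eq : ∀ s ζ, 0 < s → Γ0 ζ ≤ s ^ 2 → gam Γ0 s ζ = Γ0 ζ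
  grad : ∀ s ζ, 0 < s → ‖fderiv ℝ (gam Γ0 s) ζ‖ ^ 2 ≤ C * gam Γ0 s ζ
  hess : ∀ s ζ, 0 < s → ‖fderiv ℝ (fderiv ℝ (gam Γ0 s)) ζ‖ ≤ C
  sqrt_lip : ∀ s ζ ζ', 0 < s →
    Real.sqrt (gam Γ0 s ζ) ≤ Real.sqrt (gam Γ0 s ζ') + C * ‖ζ - ζ'‖
  dot : ∀ s ζ, 0 < s → HasDerivAt (fun v => gam Γ0 v ζ) (gamDot Γ0 s ζ / s) s
  dot_zero : ∀ s ζ, 0 < s → Γ0 ζ ≤ s ^ 2 → gamDot Γ0 s ζ = 0
  dot_le : ∀ s ζ, 0 < s → |gamDot Γ0 s ζ| ≤ C * s ^ 2

/-! ### the scalar profile -/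

/-- the profile `t ↦ s² χ(t / s²)`. -/
noncomputable def gamH (s t : ℝ) : ℝ := s ^ 2 * clip (t / s ^ 2)

theorem gamH_contDiff (s : ℝ) : ContDiff ℝ 2 (gamH s) := by
  unfold gamH
  exact contDiff_const.mul ((clip_contDiff.of_le (by norm_num)).comp
    (contDiff_id.div_const _))

theorem gamH_hasDerivAt {s : ℝ} (hs : 0 < s) (t : ℝ) :
    HasDerivAt (gamH s) (clipD (t / s ^ 2)) t := by
  have h1 : HasDerivAt (fun t : ℝ => t / s ^ 2) (1 / s ^ 2) t := (hasDerivAt_id t).div_const _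
  have h2 := ((hasDerivAt_clip (t / s ^ 2)).comp t h1).const_mul (s ^ 2)
  have e : s ^ 2 * (clipD (t / s ^ 2) * (1 / s ^ 2)) = clipD (t / s ^ 2) := by
    field_simp
  rw [e] at h2
  exact h2

theorem deriv_gamH {s : ℝ} (hs : 0 < s) : deriv (gamH s) = fun t => clipD (t / s ^ 2) :=
  funext fun t => (gamH_hasDerivAt hs t).deriv

theorem deriv_deriv_gamH {s : ℝ} (hs : 0 < s) (t : ℝ) :
    deriv (deriv (gamH s)) t = deriv clipD (t / s ^ 2) * (1 / s ^ 2) := by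
  rw [deriv_gamH hs]
  have h1 : HasDerivAt (fun t : ℝ => t / s ^ 2) (1 / s ^ 2) t := (hasDerivAt_id t).div_const _
  have h0 : HasDerivAt clipD (deriv clipD (t / s ^ 2)) (t / s ^ 2) :=
    (clipD_contDiff.differentiable (by norm_num) _).hasDerivAt
  exact (h0.comp t h1).deriv

/-! ### square roots of functions with `|Df|² ≤ K f` -/

theorem sqrt_lip_of_grad {X : Type*} [NormedAddCommGroup X] [NormedSpace ℝ X] {f : X → ℝ} {K : ℝ}
    (hK : 0 ≤ K) (hf : Differentiable ℝ f) (h0 : ∀ x, 0 ≤ f x)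
    (hg : ∀ x, ‖fderiv ℝ f x‖ ^ 2 ≤ K * f x) (x y : X) :
    Real.sqrt (f x) ≤ Real.sqrt (f y) + Real.sqrt K * ‖x - y‖ := by
  apply le_of_forall_pos_le_add
  intro ε hε
  -- regularisation with `δ = ε²`
  set δ : ℝ := ε ^ 2 with hδ
  have hδ0 : 0 < δ := by positivity
  have hpos : ∀ z, 0 < f z + δ := fun z => by linarith [h0 z]
  have hd : ∀ z, HasFDerivAt (fun z => Real.sqrt (f z + δ))
      ((1 / (2 * Real.sqrt (f z + δ))) • fderiv ℝ f z) z := fun z =>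
    ((hf z).hasFDerivAt.add_const δ).sqrt (hpos z).ne'
  have hb : ∀ z, ‖fderiv ℝ (fun z => Real.sqrt (f z + δ)) z‖ ≤ Real.sqrt K := by
    intro z
    rw [(hd z).fderiv, norm_smul, Real.norm_eq_abs]
    have hs : 0 < Real.sqrt (f z + δ) := Real.sqrt_pos.mpr (hpos z)
    rw [abs_of_pos (by positivity)]
    have h1 : ‖fderiv ℝ f z‖ ≤ Real.sqrt K * Real.sqrt (f z + δ) := by
      rw [← Real.sqrt_mul hK]
      apply Real.le_sqrt_of_sq_le
      refine (hg z).trans ?_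
      exact mul_le_mul_of_nonneg_left (by linarith) hK
    calc 1 / (2 * Real.sqrt (f z + δ)) * ‖fderiv ℝ f z‖
        ≤ 1 / (2 * Real.sqrt (f z + δ)) * (Real.sqrt K * Real.sqrt (f z + δ)) :=
          mul_le_mul_of_nonneg_left h1 (by positivity)
      _ = Real.sqrt K / 2 := by field_simp
      _ ≤ Real.sqrt K := by linarith [Real.sqrt_nonneg K]
  have hm := Convex.norm_image_sub_le_of_norm_fderiv_le (𝕜 := ℝ)
    (f := fun z => Real.sqrt (f z + δ)) (s := univ) (x := y) (y := x)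
    (fun z _ => (hd z).differentiableAt) (fun z _ => hb z) convex_univ (mem_univ _) (mem_univ _)
  rw [Real.norm_eq_abs] at hm
  have h2 := (le_abs_self _).trans hm
  have h3 : Real.sqrt (f x) ≤ Real.sqrt (f x + δ) := Real.sqrt_le_sqrt (by linarith)
  have h4 : Real.sqrt (f y + δ) ≤ Real.sqrt (f y) + ε := by
    rw [Real.sqrt_le_left (by positivity)]
    have := Real.sq_sqrt (h0 y)
    nlinarith [Real.sqrt_nonneg (f y)]
  linarith

/-! ### `gamOk` -/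

theorem gam_eq_comp {n : ℕ} (Γ0 : E n → ℝ) (s : ℝ) : gam Γ0 s = fun ζ => gamH s (Γ0 ζ) := rfl

theorem gam_eq_of_le {n : ℕ} (Γ0 : E n → ℝ) {s : ℝ} (hs : 0 < s) {ζ : E n} (h : Γ0 ζ ≤ s ^ 2) :
    gam Γ0 s ζ = Γ0 ζ := by
  unfold gam
  rw [clip_of_le (by rw [div_le_one (by positivity)]; exact h)]
  field_simp

theorem gam_nonneg {n : ℕ} {Γ0 : E n → ℝ} (h0 : ∀ ζ, 0 ≤ Γ0 ζ) (s : ℝ) (ζ : E n) :
    0 ≤ gam Γ0 s ζ :=
  mul_nonneg (sq_nonneg _) (clip_nonneg (div_nonneg (h0 ζ) (sq_nonneg _)))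

theorem gam_le_sq {n : ℕ} (Γ0 : E n → ℝ) (s : ℝ) (ζ : E n) : gam Γ0 s ζ ≤ 2 * s ^ 2 := by
  unfold gam
  nlinarith [clip_le_two (Γ0 ζ / s ^ 2), sq_nonneg s]

theorem gam_le {n : ℕ} {Γ0 : E n → ℝ} (h0 : ∀ ζ, 0 ≤ Γ0 ζ) {s : ℝ} (hs : 0 < s) (ζ : E n) :
    gam Γ0 s ζ ≤ Γ0 ζ := by
  unfold gam
  have h1 := clip_le_self (Γ0 ζ / s ^ 2) (div_nonneg (h0 ζ) (sq_nonneg _))
  calc s ^ 2 * clip (Γ0 ζ / s ^ 2) ≤ s ^ 2 * (Γ0 ζ / s ^ 2) :=
        mul_le_mul_of_nonneg_left h1 (sq_nonneg _)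
    _ = Γ0 ζ := by field_simp

theorem gam_ge {n : ℕ} {Γ0 : E n → ℝ} (h0 : ∀ ζ, 0 ≤ Γ0 ζ) {s : ℝ} (hs : 0 < s) (ζ : E n) :
    min (Γ0 ζ) (s ^ 2) ≤ gam Γ0 s ζ := by
  unfold gam
  have h1 := clip_ge (Γ0 ζ / s ^ 2) (div_nonneg (h0 ζ) (sq_nonneg _))
  have h2 : s ^ 2 * min (Γ0 ζ / s ^ 2) 1 ≤ s ^ 2 * clip (Γ0 ζ / s ^ 2) :=
    mul_le_mul_of_nonneg_left h1 (sq_nonneg _)
  refine le_trans ?_ h2
  rcases le_total (Γ0 ζ / s ^ 2) 1 with h | h
  · rw [min_eq_left h]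
    have : s ^ 2 * (Γ0 ζ / s ^ 2) = Γ0 ζ := by field_simp
    rw [this]; exact min_le_left _ _
  · rw [min_eq_right h, mul_one]; exact min_le_right _ _

theorem gam_hasDerivAt_scale {n : ℕ} (Γ0 : E n → ℝ) {s : ℝ} (hs : 0 < s) (ζ : E n) :
    HasDerivAt (fun v => gam Γ0 v ζ) (gamDot Γ0 s ζ / s) s := by
  unfold gam gamDot
  have h1 : HasDerivAt (fun v : ℝ => v ^ 2) (2 * s) s := by
    simpa using hasDerivAt_pow 2 s
  have h2 : HasDerivAt (fun v : ℝ => Γ0 ζ / v ^ 2) (-(Γ0 ζ * (2 * s)) / (s ^ 2) ^ 2) s := by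
    have := (hasDerivAt_const s (Γ0 ζ)).fun_div h1 (by positivity)
    simpa using this
  have h3 := h1.fun_mul ((hasDerivAt_clip (Γ0 ζ / s ^ 2)).comp s h2)
  refine h3.congr_deriv ?_
  simp only [Function.comp_apply]
  field_simp
  ring

theorem gamOk (n : ℕ) (C cp : ℝ) (hC : 1 ≤ C) :
    ∃ C' : ℝ, 1 ≤ C' ∧ ∀ (W : Finset (E n)) (Γ0 : E n → ℝ), WellFn W C cp Γ0 → GamOk Γ0 C' := by
  obtain ⟨C1, hC1, hb1⟩ := clipD_deriv_bound
  refine ⟨2 * C + 2 * C1 * C + C + 8, by nlinarith, ?_⟩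
  intro W Γ0 h
  have hC0 : 0 < C := by linarith
  have h0 := h.nonneg hC0
  have hsm : ∀ s, ContDiff ℝ 2 (gam Γ0 s) := fun s => (gamH_contDiff s).comp h.smooth
  have hfd : ∀ s, 0 < s → ∀ ζ,
      fderiv ℝ (gam Γ0 s) ζ = clipD (Γ0 ζ / s ^ 2) • fderiv ℝ Γ0 ζ := by
    intro s hs ζ
    rw [gam_eq_comp, jet_fderiv_comp ((gamH_contDiff s).differentiable (by norm_num))
      (jet_d1 h.smooth), deriv_gamH hs]
  have hgrad : ∀ s ζ, 0 < s → ‖fderiv ℝ (gam Γ0 s) ζ‖ ^ 2 ≤ 2 * C * gam Γ0 s ζ := by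
    intro s ζ hs
    rw [hfd s hs, norm_smul, Real.norm_eq_abs, mul_pow, sq_abs]
    by_cases ht : 2 ≤ Γ0 ζ / s ^ 2
    · rw [clipD_of_ge ht]
      have := gam_nonneg h0 s ζ
      simp only [ne_eq, OfNat.ofNat_ne_zero, not_false_eq_true, zero_pow, zero_mul]
      positivity
    · push Not at ht
      have hlt : Γ0 ζ < 2 * s ^ 2 := by
        rwa [div_lt_iff₀ (by positivity)] at ht
      have hge := gam_ge h0 hs ζ
      have hhalf : Γ0 ζ ≤ 2 * gam Γ0 s ζ := by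
        rcases le_total (Γ0 ζ) (s ^ 2) with hle | hle
        · rw [min_eq_left hle] at hge; linarith [h0 ζ]
        · rw [min_eq_right hle] at hge; linarith
      obtain ⟨c0, c1⟩ := clipD_mem (Γ0 ζ / s ^ 2)
      have hc2 : clipD (Γ0 ζ / s ^ 2) ^ 2 ≤ 1 := by nlinarith
      have hg := h.grad ζ
      calc clipD (Γ0 ζ / s ^ 2) ^ 2 * ‖fderiv ℝ Γ0 ζ‖ ^ 2 ≤ 1 * (C * Γ0 ζ) :=
            mul_le_mul hc2 hg (sq_nonneg _) (by norm_num)
        _ ≤ 2 * C * gam Γ0 s ζ := by nlinarith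
  refine ⟨fun s _ => hsm s, fun s ζ _ => gam_nonneg h0 s ζ, fun s ζ _ => gam_le_sq Γ0 s ζ,
    fun s ζ hs => gam_le h0 hs ζ, fun s ζ hs => gam_ge h0 hs ζ,
    fun s ζ hs hle => gam_eq_of_le Γ0 hs hle, ?_, ?_, ?_,
    fun s ζ hs => gam_hasDerivAt_scale Γ0 hs ζ, ?_, ?_⟩
  · intro s ζ hs
    refine (hgrad s ζ hs).trans (mul_le_mul_of_nonneg_right ?_ (gam_nonneg h0 s ζ))
    nlinarith
  · intro s ζ hs
    rw [gam_eq_comp]
    refine (jet_hess_comp_le (gamH_contDiff s) h.smooth ζ).trans ?_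
    rw [deriv_deriv_gamH hs, deriv_gamH hs]
    obtain ⟨c0, c1⟩ := clipD_mem (Γ0 ζ / s ^ 2)
    have hA : |clipD (Γ0 ζ / s ^ 2)| * ‖fderiv ℝ (fderiv ℝ Γ0) ζ‖ ≤ C := by
      rw [abs_of_nonneg c0]
      calc clipD (Γ0 ζ / s ^ 2) * ‖fderiv ℝ (fderiv ℝ Γ0) ζ‖ ≤ 1 * C :=
            mul_le_mul c1 (h.hess ζ) (ContinuousLinearMap.opNorm_nonneg _) (by norm_num)
        _ = C := one_mul _
    have hB : |deriv clipD (Γ0 ζ / s ^ 2) * (1 / s ^ 2)| * ‖fderiv ℝ Γ0 ζ‖ ^ 2 ≤ 2 * C1 * C := by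
      by_cases ht : 2 ≤ Γ0 ζ / s ^ 2
      · rw [deriv_clipD_of_ge ht]; simp only [zero_mul, abs_zero]; positivity
      · push Not at ht
        have hlt : Γ0 ζ < 2 * s ^ 2 := by
          rwa [div_lt_iff₀ (by positivity)] at ht
        rw [abs_mul, abs_of_pos (by positivity : (0:ℝ) < 1 / s ^ 2)]
        have hg := h.grad ζ
        have h5 : 1 / s ^ 2 * ‖fderiv ℝ Γ0 ζ‖ ^ 2 ≤ 2 * C := by
          calc 1 / s ^ 2 * ‖fderiv ℝ Γ0 ζ‖ ^ 2 ≤ 1 / s ^ 2 * (C * (2 * s ^ 2)) := by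
                apply mul_le_mul_of_nonneg_left _ (by positivity)
                exact hg.trans (mul_le_mul_of_nonneg_left hlt.le hC0.le)
            _ = 2 * C := by field_simp
        calc |deriv clipD (Γ0 ζ / s ^ 2)| * (1 / s ^ 2) * ‖fderiv ℝ Γ0 ζ‖ ^ 2
            = |deriv clipD (Γ0 ζ / s ^ 2)| * (1 / s ^ 2 * ‖fderiv ℝ Γ0 ζ‖ ^ 2) := by ring
          _ ≤ C1 * (2 * C) := mul_le_mul (hb1 _) h5 (by positivity) hC1.le
          _ = 2 * C1 * C := by ring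
    nlinarith
  · intro s ζ ζ' hs
    have h1 := sqrt_lip_of_grad (K := 2 * C) (by positivity) (jet_d1 (hsm s))
      (fun x => gam_nonneg h0 s x) (fun x => hgrad s x hs) ζ ζ'
    have h2 : Real.sqrt (2 * C) ≤ 2 * C + 2 * C1 * C + C + 8 := by
      rw [Real.sqrt_le_left (by positivity)]
      nlinarith [mul_pos hC1 hC0]
    have := mul_le_mul_of_nonneg_right h2 (norm_nonneg (ζ - ζ'))
    linarith
  · intro s ζ hs hle
    have ht : Γ0 ζ / s ^ 2 ≤ 1 := by rw [div_le_one (by positivity)]; exact hle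
    unfold gamDot
    rw [clip_of_le ht, clipD_of_le ht]; ring
  · intro s ζ hs
    unfold gamDot
    have ht0 : 0 ≤ Γ0 ζ / s ^ 2 := div_nonneg (h0 ζ) (sq_nonneg _)
    have hc0 := clip_nonneg ht0
    have hc2 := clip_le_two (Γ0 ζ / s ^ 2)
    obtain ⟨c0, c1⟩ := clipD_mem (Γ0 ζ / s ^ 2)
    have hp : 0 ≤ Γ0 ζ / s ^ 2 * clipD (Γ0 ζ / s ^ 2) := mul_nonneg ht0 c0
    have hp2 : Γ0 ζ / s ^ 2 * clipD (Γ0 ζ / s ^ 2) ≤ 2 := by
      by_cases ht : 2 ≤ Γ0 ζ / s ^ 2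
      · rw [clipD_of_ge ht]; norm_num
      · push Not at ht; nlinarith
    have habs : |clip (Γ0 ζ / s ^ 2) - Γ0 ζ / s ^ 2 * clipD (Γ0 ζ / s ^ 2)| ≤ 2 := by
      rw [abs_le]; constructor <;> linarith
    rw [abs_mul, abs_of_nonneg (by positivity : (0:ℝ) ≤ 2 * s ^ 2)]
    nlinarith [sq_nonneg s, mul_pos hC1 hC0]

/-- on the pure part, below the clipping scale, `D²Γ_s = 2 Id`. -/
theorem gam_hess_pure {n : ℕ} {W : Finset (E n)} {C cp : ℝ} {Γ0 : E n → ℝ}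
    (h : WellFn W C cp Γ0) (hcp : cp ≤ 1 / 2) {s : ℝ} (hs : 0 < s) {ζ : E n}
    (hζ : ζ ∈ nearSet W cp)
    (hd : infDist ζ (W : Set (E n)) < s) (ξ η : E n) :
    fderiv ℝ (fderiv ℝ (gam Γ0 s)) ζ ξ η = 2 * ⟪ξ, η⟫_ℝ := by
  obtain ⟨b, hb, hζb⟩ := hζ
  rw [infDist_eq_of_nearCell hcp hb hζb] at hd
  have hU : {ζ' : E n | ∀ b' ∈ W, b' ≠ b → ‖ζ' - b‖ < cp * ‖b - b'‖} ∩ {ζ' : E n | ‖ζ' - b‖ < s}
      ∈ nhds ζ :=
    ((isOpen_nearCell W cp b).inter (isOpen_lt (by fun_prop) continuous_const)).mem_nhds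
      ⟨hζb, hd⟩
  have he : gam Γ0 s =ᶠ[nhds ζ] fun ζ' => ‖ζ' - b‖ ^ 2 := by
    filter_upwards [hU] with ζ' hζ'
    have hq := h.quad b hb ζ' hζ'.1
    have hlt : ‖ζ' - b‖ < s := hζ'.2
    rw [gam_eq_of_le Γ0 hs (by rw [hq]; exact pow_le_pow_left₀ (norm_nonneg _) hlt.le 2), hq]
  rw [he.fderiv.fderiv_eq, sqd_hess]
  show (2 : ℝ) * ((innerSL ℝ ξ) η) = 2 * ⟪ξ, η⟫_ℝ
  rw [innerSL_apply_apply]

/-- comparison of the multipliers of two families of wells: if every well of `W` is within `g` of a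
well of `W'`, then `Γ'_s ≤ C (Γ_s + g²)`. -/
theorem gam_merge (n : ℕ) (C cp : ℝ) (hC : 1 ≤ C) :
    ∃ C' : ℝ, 1 ≤ C' ∧ ∀ (W W' : Finset (E n)) (Γ0 Γ0' : E n → ℝ) (g : ℝ), W.Nonempty →
      WellFn W C cp Γ0 → WellFn W' C cp Γ0' → 0 ≤ g → (∀ b ∈ W, ∃ b' ∈ W', ‖b - b'‖ ≤ g) →
      ∀ (s : ℝ) (ζ : E n), 0 < s → gam Γ0' s ζ ≤ C' * (gam Γ0 s ζ + g ^ 2) := by
  refine ⟨2 * C ^ 2, by nlinarith, ?_⟩
  intro W W' Γ0 Γ0' g hW h h' hg hWW s ζ hs
  have hC0 : 0 < C := by linarith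
  have h0 := h.nonneg hC0
  have h0' := h'.nonneg hC0
  have hWs : (W : Set (E n)).Nonempty := by exact_mod_cast hW
  -- distance comparison
  obtain ⟨b, hb, hbd⟩ := W.finite_toSet.isCompact.exists_infDist_eq_dist hWs ζ
  obtain ⟨b', hb', hbb⟩ := hWW b (by exact_mod_cast hb)
  have hd : infDist ζ (W' : Set (E n)) ≤ infDist ζ (W : Set (E n)) + g := by
    have h1 : infDist ζ (W' : Set (E n)) ≤ dist ζ b' :=
      infDist_le_dist_of_mem (by exact_mod_cast hb')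
    have h2 : dist ζ b' ≤ dist ζ b + dist b b' := dist_triangle _ _ _
    rw [dist_eq_norm b b'] at h2
    linarith
  have hi0 : 0 ≤ infDist ζ (W' : Set (E n)) := infDist_nonneg
  have hi1 : 0 ≤ infDist ζ (W : Set (E n)) := infDist_nonneg
  have hsq : infDist ζ (W' : Set (E n)) ^ 2 ≤ 2 * (infDist ζ (W : Set (E n)) ^ 2 + g ^ 2) := by
    have := pow_le_pow_left₀ hi0 hd 2
    nlinarith [sq_nonneg (infDist ζ (W : Set (E n)) - g)]
  have hΓ' : Γ0' ζ ≤ 2 * C ^ 2 * (Γ0 ζ + g ^ 2) := by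
    have h1 := h'.upper ζ
    have h2 := h.lower ζ
    have h3 : C * infDist ζ (W' : Set (E n)) ^ 2 ≤ C * (2 * (C * Γ0 ζ + g ^ 2)) :=
      mul_le_mul_of_nonneg_left (by linarith) hC0.le
    nlinarith [sq_nonneg g, mul_nonneg hC0.le (sq_nonneg g)]
  have hle' := gam_le h0' hs ζ
  have hle2 := gam_le_sq Γ0' s ζ
  have hge := gam_ge h0 hs ζ
  rcases le_total (Γ0 ζ) (s ^ 2) with hle | hle
  · rw [min_eq_left hle] at hge
    have : 2 * C ^ 2 * (Γ0 ζ + g ^ 2) ≤ 2 * C ^ 2 * (gam Γ0 s ζ + g ^ 2) :=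
      mul_le_mul_of_nonneg_left (by linarith) (by positivity)
    linarith
  · rw [min_eq_right hle] at hge
    have h5 : 2 * s ^ 2 ≤ 2 * C ^ 2 * (gam Γ0 s ζ + g ^ 2) := by
      have : (1:ℝ) ≤ C ^ 2 := by nlinarith
      nlinarith [sq_nonneg g, sq_nonneg s]
    linarith

end Claimed.Agent.R322.Sx
end

/- ===== packed: Claimed.Agent.R322.Sx.Wells.Vec ===== -/
section
/-!
# R322 / Sx / Wells / Vec : the vector multiplier `V_b` (AE (5.11))

`V = ∑_b φ(|ζ - b|² / r_b²) (ζ - b)`, `r_b = min {cp · gap_b, s}`, `φ = 1` on `[0, 1/4]`, `φ = 0` on `[1, ∞)`.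
The balls `B(b, r_b)` are disjoint, so at every point at most one term is active.
-/

set_option autoImplicit false

namespace Claimed.Agent.R322.Sx

open MeasureTheory Set Metric
open scoped ENNReal NNReal InnerProductSpace

/-- the vector multiplier `V_b` at the scale `s`, AE (5.11). -/
structure WellVec {n : ℕ} (W : Finset (E n)) (C cv s : ℝ) (Γ0 : E n → ℝ) (V : E n → E n) :
    Prop where
  smooth : ContDiff ℝ 1 V
  sq_le : ∀ ζ, ‖V ζ‖ ^ 2 ≤ gam Γ0 s ζ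
  deriv_le : ∀ ζ, ‖fderiv ℝ V ζ‖ ≤ C
  pure : ∀ b ∈ W, ∀ ζ, (∀ b' ∈ W, b' ≠ b → ‖ζ - b‖ < cv * ‖b - b'‖) → ‖ζ - b‖ < cv * s →
    V ζ = ζ - b ∧ fderiv ℝ V ζ = ContinuousLinearMap.id ℝ (E n)

/-! ### one radial term -/

/-- the radial profile: `1` on `(-∞, 1/4]`, `0` on `[1, ∞)`. -/
noncomputable def vecPhi (t : ℝ) : ℝ := clipD ((4 * t + 2) / 3)

theorem vecPhi_contDiff : ContDiff ℝ 2 vecPhi :=
  clipD_contDiff.comp (((contDiff_const.mul contDiff_id).add contDiff_const).div_const _)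

theorem vecPhi_mem (t : ℝ) : 0 ≤ vecPhi t ∧ vecPhi t ≤ 1 := clipD_mem _

theorem vecPhi_of_le {t : ℝ} (ht : t ≤ 1 / 4) : vecPhi t = 1 := clipD_of_le (by linarith)

theorem vecPhi_of_ge {t : ℝ} (ht : 1 ≤ t) : vecPhi t = 0 := clipD_of_ge (by linarith)

theorem vecPhi_hasDerivAt (t : ℝ) :
    HasDerivAt vecPhi (deriv clipD ((4 * t + 2) / 3) * (4 / 3)) t := by
  have h1 : HasDerivAt (fun t : ℝ => (4 * t + 2) / 3) (4 / 3) t := by
    have := (((hasDerivAt_id t).const_mul 4).add_const 2).div_const 3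
    simpa using this
  have h0 : HasDerivAt clipD (deriv clipD ((4 * t + 2) / 3)) ((4 * t + 2) / 3) :=
    (clipD_contDiff.differentiable (by norm_num) _).hasDerivAt
  exact h0.comp t h1

theorem deriv_vecPhi_of_le {t : ℝ} (ht : t ≤ 1 / 4) : deriv vecPhi t = 0 := by
  rw [(vecPhi_hasDerivAt t).deriv, deriv_clipD_of_le (by linarith)]; simp

theorem deriv_vecPhi_of_ge {t : ℝ} (ht : 1 ≤ t) : deriv vecPhi t = 0 := by
  rw [(vecPhi_hasDerivAt t).deriv, deriv_clipD_of_ge (by linarith)]; simp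

theorem deriv_vecPhi_bound : ∃ C : ℝ, 0 < C ∧ ∀ t, |deriv vecPhi t| ≤ C := by
  obtain ⟨C1, hC1, hb⟩ := clipD_deriv_bound
  refine ⟨C1 * (4 / 3), by positivity, fun t => ?_⟩
  rw [(vecPhi_hasDerivAt t).deriv, abs_mul, abs_of_pos (by norm_num : (0:ℝ) < 4 / 3)]
  exact mul_le_mul_of_nonneg_right (hb _) (by norm_num)

/-- one radial term. -/
noncomputable def vecT {n : ℕ} (b : E n) (r : ℝ) (ζ : E n) : E n :=
  vecPhi (‖ζ - b‖ ^ 2 / r ^ 2) • (ζ - b)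

theorem vecT_contDiff {n : ℕ} (b : E n) (r : ℝ) : ContDiff ℝ 1 (vecT b r) := by
  unfold vecT
  exact ((vecPhi_contDiff.of_le (by norm_num)).comp
    (((sqd_contDiff b).of_le (by norm_num)).div_const _)).smul (contDiff_id.sub contDiff_const)

theorem vecT_hasFDerivAt {n : ℕ} (b : E n) (r : ℝ) (ζ : E n) :
    HasFDerivAt (vecT b r)
      (vecPhi (‖ζ - b‖ ^ 2 / r ^ 2) • ContinuousLinearMap.id ℝ (E n)
        + ((deriv vecPhi (‖ζ - b‖ ^ 2 / r ^ 2) * (1 / r ^ 2))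
            • fderiv ℝ (fun ζ : E n => ‖ζ - b‖ ^ 2) ζ).smulRight (ζ - b)) ζ := by
  have h1 : HasFDerivAt (fun ζ : E n => ‖ζ - b‖ ^ 2 / r ^ 2)
      ((1 / r ^ 2) • fderiv ℝ (fun ζ : E n => ‖ζ - b‖ ^ 2) ζ) ζ := by
    have := ((jet_d1 (sqd_contDiff b)) ζ).hasFDerivAt.const_mul (1 / r ^ 2)
    refine this.congr_of_eventuallyEq (Filter.Eventually.of_forall fun x => ?_)
    simp only [div_eq_mul_inv]; ring
  have h2 : HasFDerivAt (fun ζ : E n => vecPhi (‖ζ - b‖ ^ 2 / r ^ 2))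
      (deriv vecPhi (‖ζ - b‖ ^ 2 / r ^ 2)
        • ((1 / r ^ 2) • fderiv ℝ (fun ζ : E n => ‖ζ - b‖ ^ 2) ζ)) ζ :=
    (vecPhi_contDiff.differentiable (by norm_num) _).hasDerivAt.comp_hasFDerivAt ζ h1
  have h3 : HasFDerivAt (fun ζ : E n => ζ - b) (ContinuousLinearMap.id ℝ (E n)) ζ :=
    (hasFDerivAt_id ζ).sub_const b
  have h4 := h2.smul h3
  rw [smul_smul] at h4
  exact h4

theorem vecT_eq_zero {n : ℕ} {b : E n} {r : ℝ} (hr : 0 < r) {ζ : E n} (h : r ≤ ‖ζ - b‖) :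
    vecT b r ζ = 0 := by
  have ht : 1 ≤ ‖ζ - b‖ ^ 2 / r ^ 2 := by
    rw [le_div_iff₀ (by positivity), one_mul]; exact pow_le_pow_left₀ hr.le h 2
  unfold vecT
  rw [vecPhi_of_ge ht, zero_smul]

theorem fderiv_vecT_eq_zero {n : ℕ} {b : E n} {r : ℝ} (hr : 0 < r) {ζ : E n}
    (h : r ≤ ‖ζ - b‖) : fderiv ℝ (vecT b r) ζ = 0 := by
  have ht : 1 ≤ ‖ζ - b‖ ^ 2 / r ^ 2 := by
    rw [le_div_iff₀ (by positivity), one_mul]; exact pow_le_pow_left₀ hr.le h 2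
  rw [(vecT_hasFDerivAt b r ζ).fderiv, vecPhi_of_ge ht, deriv_vecPhi_of_ge ht]
  ext v
  simp

theorem vecT_eq_self {n : ℕ} {b : E n} {r : ℝ} (hr : 0 < r) {ζ : E n} (h : ‖ζ - b‖ ≤ r / 2) :
    vecT b r ζ = ζ - b ∧ fderiv ℝ (vecT b r) ζ = ContinuousLinearMap.id ℝ (E n) := by
  have ht : ‖ζ - b‖ ^ 2 / r ^ 2 ≤ 1 / 4 := by
    rw [div_le_iff₀ (by positivity)]
    have := pow_le_pow_left₀ (norm_nonneg _) h 2
    nlinarith
  constructor
  · unfold vecT; rw [vecPhi_of_le ht, one_smul]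
  · rw [(vecT_hasFDerivAt b r ζ).fderiv, vecPhi_of_le ht, deriv_vecPhi_of_le ht]
    simp

theorem norm_vecT_le {n : ℕ} (b : E n) (r : ℝ) (ζ : E n) : ‖vecT b r ζ‖ ≤ ‖ζ - b‖ := by
  unfold vecT
  obtain ⟨h0, h1⟩ := vecPhi_mem (‖ζ - b‖ ^ 2 / r ^ 2)
  rw [norm_smul, Real.norm_eq_abs, abs_of_nonneg h0]
  exact mul_le_of_le_one_left (norm_nonneg _) h1

theorem norm_fderiv_vecT_le {n : ℕ} {C1 : ℝ} (hC1 : ∀ t, |deriv vecPhi t| ≤ C1) (b : E n) {r : ℝ}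
    (hr : 0 < r) (ζ : E n) : ‖fderiv ℝ (vecT b r) ζ‖ ≤ 1 + 2 * C1 := by
  have hC10 : 0 ≤ C1 := (abs_nonneg _).trans (hC1 0)
  by_cases h : r ≤ ‖ζ - b‖
  · rw [fderiv_vecT_eq_zero hr h, norm_zero]; positivity
  · push Not at h
    rw [(vecT_hasFDerivAt b r ζ).fderiv]
    refine (norm_add_le _ _).trans ?_
    obtain ⟨h0, h1⟩ := vecPhi_mem (‖ζ - b‖ ^ 2 / r ^ 2)
    have hA : ‖vecPhi (‖ζ - b‖ ^ 2 / r ^ 2) • ContinuousLinearMap.id ℝ (E n)‖ ≤ 1 := by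
      rw [norm_smul, Real.norm_eq_abs, abs_of_nonneg h0]
      calc vecPhi (‖ζ - b‖ ^ 2 / r ^ 2) * ‖ContinuousLinearMap.id ℝ (E n)‖ ≤ 1 * 1 :=
            mul_le_mul h1 ContinuousLinearMap.norm_id_le (norm_nonneg _) (by norm_num)
        _ = 1 := one_mul _
    have hB : ‖((deriv vecPhi (‖ζ - b‖ ^ 2 / r ^ 2) * (1 / r ^ 2))
            • fderiv ℝ (fun ζ : E n => ‖ζ - b‖ ^ 2) ζ).smulRight (ζ - b)‖ ≤ 2 * C1 := by
      rw [ContinuousLinearMap.norm_smulRight_apply, norm_smul, Real.norm_eq_abs, abs_mul,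
        abs_of_pos (by positivity : (0:ℝ) < 1 / r ^ 2)]
      have hg : ‖fderiv ℝ (fun ζ : E n => ‖ζ - b‖ ^ 2) ζ‖ = 2 * ‖ζ - b‖ := by
        have := sqd_grad_sq b ζ
        have h2 : ‖fderiv ℝ (fun ζ : E n => ‖ζ - b‖ ^ 2) ζ‖ ^ 2 = (2 * ‖ζ - b‖) ^ 2 := by
          rw [this]; ring
        exact (pow_left_inj₀ (norm_nonneg _) (by positivity) (by norm_num)).mp h2
      rw [hg]
      have h3 : 1 / r ^ 2 * (2 * ‖ζ - b‖) * ‖ζ - b‖ ≤ 2 := by
        have : ‖ζ - b‖ ^ 2 ≤ r ^ 2 := pow_le_pow_left₀ (norm_nonneg _) h.le 2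
        calc 1 / r ^ 2 * (2 * ‖ζ - b‖) * ‖ζ - b‖ = 1 / r ^ 2 * (2 * ‖ζ - b‖ ^ 2) := by ring
          _ ≤ 1 / r ^ 2 * (2 * r ^ 2) :=
            mul_le_mul_of_nonneg_left (by linarith) (by positivity)
          _ = 2 := by field_simp
      calc |deriv vecPhi (‖ζ - b‖ ^ 2 / r ^ 2)| * (1 / r ^ 2) * (2 * ‖ζ - b‖) * ‖ζ - b‖
          = |deriv vecPhi (‖ζ - b‖ ^ 2 / r ^ 2)| * (1 / r ^ 2 * (2 * ‖ζ - b‖) * ‖ζ - b‖) := by ring
        _ ≤ C1 * 2 := mul_le_mul (hC1 _) h3 (by positivity) hC10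
        _ = 2 * C1 := by ring
    linarith

/-! ### the radii -/

theorem exists_wellRadius {n : ℕ} (W : Finset (E n)) {cp s : ℝ} (hcp : 0 < cp) (hs : 0 < s)
    (b : E n) :
    ∃ r : ℝ, 0 < r ∧ r ≤ s ∧ (∀ b' ∈ W, b' ≠ b → r ≤ cp * ‖b - b'‖) ∧
      (r = s ∨ ∃ b' ∈ W, b' ≠ b ∧ r = cp * ‖b - b'‖) := by
  classical
  by_cases hE : (W.erase b).Nonempty
  · obtain ⟨b0, hb0, hmin⟩ := Finset.exists_min_image (W.erase b) (fun b' => ‖b - b'‖) hE
    have hb0' := Finset.mem_erase.mp hb0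
    have hpos : 0 < cp * ‖b - b0‖ :=
      mul_pos hcp (norm_pos_iff.mpr (sub_ne_zero.mpr (Ne.symm hb0'.1)))
    refine ⟨min (cp * ‖b - b0‖) s, lt_min hpos hs, min_le_right _ _, ?_, ?_⟩
    · intro b' hb' hne
      exact (min_le_left _ _).trans (mul_le_mul_of_nonneg_left
        (hmin b' (Finset.mem_erase.mpr ⟨hne, hb'⟩)) hcp.le)
    · rcases le_total (cp * ‖b - b0‖) s with h | h
      · right; exact ⟨b0, hb0'.2, hb0'.1, min_eq_left h⟩
      · left; exact min_eq_right h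
  · refine ⟨s, hs, le_rfl, ?_, Or.inl rfl⟩
    intro b' hb' hne
    exact absurd ⟨b', Finset.mem_erase.mpr ⟨hne, hb'⟩⟩ hE

/-- disjoint radial cutoffs of `ζ - b` at the radii `r_b = min {cp · gap_b, s}`. -/
theorem exists_wellVec (n : ℕ) (C cp : ℝ) (hC : 1 ≤ C) (hcp : 0 < cp) (hcp' : cp ≤ 1 / 4) :
    ∃ C' : ℝ, 1 ≤ C' ∧ ∀ (W : Finset (E n)) (Γ0 : E n → ℝ), W.Nonempty → WellFn W C cp Γ0 →
      ∀ s : ℝ, 0 < s → ∃ V : E n → E n, WellVec W C' (cp / 2) s Γ0 V := by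
  classical
  obtain ⟨C1, hC1, hb1⟩ := deriv_vecPhi_bound
  refine ⟨1 + 2 * C1, by linarith, ?_⟩
  intro W Γ0 _ h s hs
  have h0 := h.nonneg (by linarith : (0:ℝ) < C)
  choose r hr0 hrs hrgap hrcase using exists_wellRadius W hcp hs
  -- disjointness
  have hdisj : ∀ b ∈ W, ∀ b' ∈ W, b' ≠ b → ∀ ζ : E n, ‖ζ - b‖ < r b → r b' ≤ ‖ζ - b'‖ := by
    intro b hb b' hb' hne ζ hζ
    by_contra hlt
    push Not at hlt
    have h1 := hrgap b b' hb' hne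
    have h2 := hrgap b' b hb (Ne.symm hne)
    have h3 : ‖b - b'‖ ≤ ‖ζ - b‖ + ‖ζ - b'‖ := by
      have : b - b' = (ζ - b') - (ζ - b) := by abel
      rw [this]; exact (norm_sub_le _ _).trans (by linarith)
    have h4 : ‖b' - b‖ = ‖b - b'‖ := norm_sub_rev _ _
    have h5 : 0 < ‖b - b'‖ := norm_pos_iff.mpr (sub_ne_zero.mpr (Ne.symm hne))
    rw [h4] at h2
    nlinarith
  set V : E n → E n := fun ζ => ∑ b ∈ W, vecT b (r b) ζ with hV
  have hVd : ∀ ζ, fderiv ℝ V ζ = ∑ b ∈ W, fderiv ℝ (vecT b (r b)) ζ := fun ζ =>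
    fderiv_fun_sum fun b _ => ((vecT_contDiff b (r b)).differentiable (by norm_num)) ζ
  -- values when one term is active
  have hact : ∀ b ∈ W, ∀ ζ : E n, ‖ζ - b‖ < r b →
      V ζ = vecT b (r b) ζ ∧ fderiv ℝ V ζ = fderiv ℝ (vecT b (r b)) ζ := by
    intro b hb ζ hζ
    constructor
    · exact Finset.sum_eq_single_of_mem b hb fun b' hb' hne =>
        vecT_eq_zero (hr0 b') (hdisj b hb b' hb' hne ζ hζ)
    · rw [hVd]
      exact Finset.sum_eq_single_of_mem b hb fun b' hb' hne =>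
        fderiv_vecT_eq_zero (hr0 b') (hdisj b hb b' hb' hne ζ hζ)
  have hinact : ∀ ζ : E n, (∀ b ∈ W, r b ≤ ‖ζ - b‖) → V ζ = 0 ∧ fderiv ℝ V ζ = 0 := by
    intro ζ hζ
    constructor
    · exact Finset.sum_eq_zero fun b hb => vecT_eq_zero (hr0 b) (hζ b hb)
    · rw [hVd]
      exact Finset.sum_eq_zero fun b hb => fderiv_vecT_eq_zero (hr0 b) (hζ b hb)
  refine ⟨V, ContDiff.sum fun b _ => vecT_contDiff b (r b), ?_, ?_, ?_⟩
  · intro ζ
    by_cases hex : ∃ b ∈ W, ‖ζ - b‖ < r b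
    · obtain ⟨b, hb, hζ⟩ := hex
      rw [(hact b hb ζ hζ).1]
      have hq := h.quad b hb ζ (fun b' hb' hne => hζ.trans_le (hrgap b b' hb' hne))
      have hle : Γ0 ζ ≤ s ^ 2 := by
        rw [hq]; exact pow_le_pow_left₀ (norm_nonneg _) (hζ.le.trans (hrs b)) 2
      rw [gam_eq_of_le Γ0 hs hle, hq]
      exact pow_le_pow_left₀ (norm_nonneg _) (norm_vecT_le b (r b) ζ) 2
    · push Not at hex
      rw [(hinact ζ hex).1]
      simpa using gam_nonneg h0 s ζ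
  · intro ζ
    by_cases hex : ∃ b ∈ W, ‖ζ - b‖ < r b
    · obtain ⟨b, hb, hζ⟩ := hex
      rw [(hact b hb ζ hζ).2]
      exact norm_fderiv_vecT_le hb1 b (hr0 b) ζ
    · push Not at hex
      rw [(hinact ζ hex).2, norm_zero]; positivity
  · intro b hb ζ hζ hζs
    have hhalf : ‖ζ - b‖ ≤ r b / 2 := by
      rcases hrcase b with he | ⟨b', hb', hne, he⟩
      · rw [he]; nlinarith
      · rw [he]; have := hζ b' hb' hne; linarith
    have hlt : ‖ζ - b‖ < r b := by linarith [hr0 b]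
    obtain ⟨e1, e2⟩ := hact b hb ζ hlt
    obtain ⟨e3, e4⟩ := vecT_eq_self (hr0 b) hhalf
    exact ⟨e1.trans e3, e2.trans e4⟩

end Claimed.Agent.R322.Sx
end

/- ===== packed: Claimed.Agent.R322.Sx.Wells.Entry ===== -/
section
/-!
# R322 / Sx / Wells / Entry : an entry of a majority list carries a fixed amount of mass

AE, proof of Proposition 5.4 ("`max_ξ Γ_s(ξ) ≤ C U + C s² e^{-a}`") and of Lemma 6.2: area formula for the
projection and `J_π ≤ C`.  The exceptional set of `IsMajority` need not be measurable: `toMeasurable`.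
-/

set_option autoImplicit false

namespace Claimed.Agent.R322.Sx

open MeasureTheory Set Metric
open scoped ENNReal NNReal InnerProductSpace

theorem Sys.Valid.Jpi_le_of_Cg {m n : ℕ} {S : Sys m n} (h : S.Valid) {Cg : ℝ} (hCg : S.Cg ≤ Cg)
    (q : E m × E n) : S.Jpi q ≤ 1 + Cg * (m + Cg) := by
  have h1 := (abs_le.mp (h.Jpi_close q)).2
  have h2 := h.e_le q
  have h3 := h.lam_le q
  have h4 := h.one_le_Cg
  have h5 := h.e_nonneg q
  have h6 := h.lam_nonneg q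
  have h7 : S.Cg * (S.e q + S.lam q) ≤ Cg * (m + Cg) :=
    mul_le_mul hCg (by linarith) (by linarith) (by linarith)
  linarith

/-- An entry of a majority list carries a fixed amount of mass (area formula and `J_π ≤ C`):
AE, proof of Proposition 5.4 ("`max_ξ Γ_s(ξ) ≤ C U + C s² e^{-a}`") and of Lemma 6.2. -/
theorem entry_bound (m n Q : ℕ) (hm : 1 ≤ m) (Cg : ℝ) :
    ∃ C : ℝ, 0 < C ∧ ∀ S : Sys m n, S.Valid → S.Cg ≤ Cg → ∀ (x : E m) (r δ ϵ : ℝ), 0 < r →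
      closedBall x r ⊆ S.Ω → δ ≤ 1 / 2 → 0 ≤ ϵ → ∀ A : Fin Q → E n, S.IsMajority x r δ ϵ A →
      ∀ (f : E n → ℝ) (L F0 : ℝ), Continuous f → (∀ ζ, 0 ≤ f ζ) → (∀ ζ, f ζ ≤ F0) → 0 ≤ L →
      (∀ ζ ζ', Real.sqrt (f ζ) ≤ Real.sqrt (f ζ') + L * ‖ζ - ζ'‖) →
      ∀ j, f (A j) * r ^ m
        ≤ C * ((∫ q in ball x r ×ˢ (univ : Set (E n)), f q.2 ∂S.μ) + L ^ 2 * ϵ ^ 2 * r ^ m) := by
  obtain ⟨ω, hωdef⟩ : ∃ ω : ℝ, ω = (volume (ball (0 : E m) 1)).toReal := ⟨_, rfl⟩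
  have hω : 0 < ω := by
    rw [hωdef]
    exact ENNReal.toReal_pos (measure_ball_pos _ _ one_pos).ne' measure_ball_lt_top.ne
  obtain ⟨CJ, hCJdef⟩ : ∃ CJ : ℝ, CJ = 1 + |Cg| * (m + |Cg|) := ⟨_, rfl⟩
  have hCJ : 0 < CJ := by rw [hCJdef]; positivity
  refine ⟨8 * CJ / ω + 16, by positivity, ?_⟩
  intro S hS hCg x r δ ϵ hr hsub hδ hϵ A hA f L F0 hfc hf0 hfF hL hlip j
  have hCg0 : 0 ≤ Cg := by have := hS.one_le_Cg; linarith
  have hJ : ∀ q, S.Jpi q ≤ CJ := fun q => by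
    rw [hCJdef, abs_of_nonneg hCg0]; exact hS.Jpi_le_of_Cg hCg q
  have hBΩ : ball x r ⊆ S.Ω := ball_subset_closedBall.trans hsub
  -- the good set
  obtain ⟨bad, hbad⟩ : ∃ bad : Set (E m),
      bad = {y | y ∈ ball x r ∧ ¬ Sys.FibMatch (S.fib y) A ϵ} := ⟨_, rfl⟩
  obtain ⟨G, hGdef⟩ : ∃ G : Set (E m), G = ball x r \ toMeasurable S.volS bad := ⟨_, rfl⟩
  have hGm : MeasurableSet G := by
    rw [hGdef]; exact measurableSet_ball.diff (measurableSet_toMeasurable _ _)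
  have hGB : G ⊆ ball x r := by rw [hGdef]; exact sdiff_subset
  have hGgood : ∀ y ∈ G, Sys.FibMatch (S.fib y) A ϵ := by
    intro y hy
    rw [hGdef] at hy
    by_contra hno
    exact hy.2 (subset_toMeasurable _ _ (by rw [hbad]; exact ⟨hy.1, hno⟩))
  have hBle := hS.sc_volS_ball_le x hr
  have hBge := hS.sc_volS_ball_ge hr hBΩ
  rw [← hωdef] at hBle hBge
  have hBfin : S.volS (ball x r) ≠ ⊤ := (hBle.trans_lt ENNReal.ofReal_lt_top).ne
  have hGfin : S.volS G ≠ ⊤ := ((measure_mono hGB).trans_lt hBfin.lt_top).ne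
  obtain ⟨g, hgdef⟩ : ∃ g : ℝ, g = (S.volS G).toReal := ⟨_, rfl⟩
  have hgle : g ≤ 2 * ω * r ^ m := by
    rw [hgdef]
    exact ENNReal.toReal_le_of_le_ofReal (by positivity) ((measure_mono hGB).trans hBle)
  have hgge : ω * r ^ m / 4 ≤ g := by
    have hT : S.volS (toMeasurable S.volS bad) ≤ ENNReal.ofReal (1 / 2) * S.volS (ball x r) := by
      rw [measure_toMeasurable, hbad]
      exact hA.trans (mul_le_mul_left (ENNReal.ofReal_le_ofReal hδ) _)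
    have hcov : S.volS (ball x r) ≤ S.volS G + S.volS (toMeasurable S.volS bad) := by
      refine (measure_mono ?_).trans (measure_union_le _ _)
      intro y hy
      by_cases hyT : y ∈ toMeasurable S.volS bad
      · exact Or.inr hyT
      · exact Or.inl (by rw [hGdef]; exact ⟨hy, hyT⟩)
    have h1 : (S.volS (ball x r)).toReal ≤ g + 1 / 2 * (S.volS (ball x r)).toReal := by
      have h2 := ENNReal.toReal_mono (by
        exact ENNReal.add_ne_top.mpr ⟨hGfin, ENNReal.mul_ne_top ENNReal.ofReal_ne_top hBfin⟩)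
        (hcov.trans (add_le_add_right hT _))
      rw [ENNReal.toReal_add hGfin (ENNReal.mul_ne_top ENNReal.ofReal_ne_top hBfin),
        ENNReal.toReal_mul, ENNReal.toReal_ofReal (by norm_num)] at h2
      rw [hgdef]; exact h2
    have h3 : ω * r ^ m / 2 ≤ (S.volS (ball x r)).toReal :=
      (ENNReal.ofReal_le_iff_le_toReal hBfin).mp hBge
    linarith
  -- the test function
  obtain ⟨gg, hgg⟩ : ∃ gg : E m × E n → ℝ≥0∞,
      gg = (ball x r ×ˢ (univ : Set (E n))).indicator (fun q => ENNReal.ofReal (f q.2)) := ⟨_, rfl⟩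
  have hBm : MeasurableSet (ball x r ×ˢ (univ : Set (E n))) :=
    measurableSet_ball.prod MeasurableSet.univ
  have hggm : Measurable gg := by
    rw [hgg]
    exact (hfc.measurable.comp measurable_snd).ennreal_ofReal.indicator hBm
  have ham : Measurable fun y => ENNReal.ofReal (S.a y) :=
    hS.a_contDiff.continuous.measurable.ennreal_ofReal
  -- integrability
  have hμfin : S.μ (ball x r ×ˢ (univ : Set (E n))) < ⊤ :=
    (measure_mono (prod_mono ball_subset_closedBall le_rfl)).trans_lt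
      (hS.finite_mass _ (isCompact_closedBall _ _) hsub)
  have hint : IntegrableOn (fun q : E m × E n => f q.2) (ball x r ×ˢ (univ : Set (E n))) S.μ := by
    refine Measure.integrableOn_of_bounded (M := F0) hμfin.ne
      (hfc.comp continuous_snd).aestronglyMeasurable (Filter.Eventually.of_forall fun q => ?_)
    rw [Real.norm_of_nonneg (hf0 _)]; exact hfF _
  obtain ⟨I, hIdef⟩ : ∃ I : ℝ, I = ∫ q in ball x r ×ˢ (univ : Set (E n)), f q.2 ∂S.μ := ⟨_, rfl⟩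
  have hI0 : 0 ≤ I := by rw [hIdef]; exact integral_nonneg fun q => hf0 _
  have hlint : ∫⁻ q, gg q ∂S.μ = ENNReal.ofReal I := by
    rw [hgg, lintegral_indicator hBm, hIdef,
      ofReal_integral_eq_lintegral_ofReal hint (Filter.Eventually.of_forall fun q => hf0 _)]
  -- area formula
  have hcount := hS.count gg hggm
  have hup : ∫⁻ q, gg q * ENNReal.ofReal (S.Jpi q) ∂S.μ ≤ ENNReal.ofReal CJ * ENNReal.ofReal I := by
    rw [← hlint, ← lintegral_const_mul' _ _ ENNReal.ofReal_ne_top]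
    refine lintegral_mono fun q => ?_
    rw [mul_comm]
    exact mul_le_mul_left (ENNReal.ofReal_le_ofReal (hJ q)) _
  -- pointwise lower bound on the good set
  have hpt : ∀ y ∈ G, ENNReal.ofReal (f (A j))
      ≤ 2 * S.fibSum gg y + ENNReal.ofReal (2 * (L ^ 2 * ϵ ^ 2)) := by
    intro y hy
    obtain ⟨L', hfib, hclose⟩ := hGgood y hy
    have hmem : L' j ∈ S.fib y := by
      rw [← hfib]
      exact Multiset.mem_coe.mpr (List.mem_ofFn.mpr ⟨j, rfl⟩)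
    have h1 : ENNReal.ofReal (f (L' j)) ≤ S.fibSum gg y := by
      unfold Sys.fibSum
      have h2 : gg (y, L' j) ∈ (S.fib y).map fun ζ => gg (y, ζ) :=
        Multiset.mem_map_of_mem _ hmem
      have h3 := Multiset.single_le_sum (fun a _ => bot_le) _ h2
      have h4 : gg (y, L' j) = ENNReal.ofReal (f (L' j)) := by
        rw [hgg, indicator_of_mem (show (y, L' j) ∈ ball x r ×ˢ (univ : Set (E n)) from
          ⟨hGB hy, mem_univ _⟩)]
      rw [h4] at h3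
      exact h3
    have h5 : f (A j) ≤ 2 * f (L' j) + 2 * (L ^ 2 * ϵ ^ 2) := by
      have h6 := hlip (A j) (L' j)
      have h7 : ‖A j - L' j‖ ≤ ϵ := by rw [norm_sub_rev]; exact hclose j
      have h8 : Real.sqrt (f (A j)) ≤ Real.sqrt (f (L' j)) + L * ϵ :=
        h6.trans (by gcongr)
      have h9 := Real.sq_sqrt (hf0 (A j))
      have h10 := Real.sq_sqrt (hf0 (L' j))
      have h11 := pow_le_pow_left₀ (Real.sqrt_nonneg _) h8 2
      nlinarith [sq_nonneg (Real.sqrt (f (L' j)) - L * ϵ)]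
    calc ENNReal.ofReal (f (A j)) ≤ ENNReal.ofReal (2 * f (L' j) + 2 * (L ^ 2 * ϵ ^ 2)) :=
          ENNReal.ofReal_le_ofReal h5
      _ = 2 * ENNReal.ofReal (f (L' j)) + ENNReal.ofReal (2 * (L ^ 2 * ϵ ^ 2)) := by
          rw [ENNReal.ofReal_add (by have := hf0 (L' j); positivity) (by positivity),
            ENNReal.ofReal_mul (by norm_num)]
          simp
      _ ≤ _ := by gcongr
  -- integrate over the good set
  have hvolG : S.volS G = ∫⁻ y in G, ENNReal.ofReal (S.a y) ∂(volume.restrict S.Ω) := by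
    unfold Sys.volS
    rw [withDensity_apply _ hGm]
  have hmain : ENNReal.ofReal (f (A j)) * S.volS G
      ≤ 2 * (ENNReal.ofReal CJ * ENNReal.ofReal I)
        + ENNReal.ofReal (2 * (L ^ 2 * ϵ ^ 2)) * S.volS G := by
    calc ENNReal.ofReal (f (A j)) * S.volS G
        = ∫⁻ y in G, ENNReal.ofReal (f (A j)) * ENNReal.ofReal (S.a y) ∂(volume.restrict S.Ω) := by
          rw [hvolG, lintegral_const_mul' _ _ ENNReal.ofReal_ne_top]
      _ ≤ ∫⁻ y in G, (2 * (S.fibSum gg y * ENNReal.ofReal (S.a y))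
            + ENNReal.ofReal (2 * (L ^ 2 * ϵ ^ 2)) * ENNReal.ofReal (S.a y))
            ∂(volume.restrict S.Ω) := by
          refine setLIntegral_mono' hGm fun y hy => ?_
          calc ENNReal.ofReal (f (A j)) * ENNReal.ofReal (S.a y)
              ≤ (2 * S.fibSum gg y + ENNReal.ofReal (2 * (L ^ 2 * ϵ ^ 2)))
                  * ENNReal.ofReal (S.a y) := mul_le_mul_left (hpt y hy) _
            _ = _ := by ring
      _ = 2 * ∫⁻ y in G, S.fibSum gg y * ENNReal.ofReal (S.a y) ∂(volume.restrict S.Ω)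
            + ENNReal.ofReal (2 * (L ^ 2 * ϵ ^ 2)) * S.volS G := by
          rw [lintegral_add_right _ (ham.const_mul _), lintegral_const_mul' _ _ (by norm_num),
            lintegral_const_mul' _ _ ENNReal.ofReal_ne_top, hvolG]
      _ ≤ _ := by
          gcongr
          exact (setLIntegral_le_lintegral _ _).trans (hcount ▸ hup)
  -- back to real numbers
  have hreal : f (A j) * g ≤ 2 * (CJ * I) + 2 * (L ^ 2 * ϵ ^ 2) * g := by
    have hg0 : 0 ≤ g := by rw [hgdef]; exact ENNReal.toReal_nonneg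
    have hGe : S.volS G = ENNReal.ofReal g := by rw [hgdef, ENNReal.ofReal_toReal hGfin]
    rw [hGe, ← ENNReal.ofReal_mul (hf0 _), ← ENNReal.ofReal_mul hCJ.le,
      ← ENNReal.ofReal_mul (by positivity),
      show (2 : ℝ≥0∞) = ENNReal.ofReal 2 by simp, ← ENNReal.ofReal_mul (by norm_num),
      ← ENNReal.ofReal_add (by positivity) (by positivity)] at hmain
    exact (ENNReal.ofReal_le_ofReal_iff (by positivity)).mp hmain
  rw [← hIdef]
  have hrm : 0 < r ^ m := by positivity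
  have hfA := hf0 (A j)
  have hLe : 0 ≤ L ^ 2 * ϵ ^ 2 := by positivity
  have h1 : f (A j) * (ω * r ^ m / 4) ≤ 2 * (CJ * I) + 2 * (L ^ 2 * ϵ ^ 2) * (2 * ω * r ^ m) := by
    calc f (A j) * (ω * r ^ m / 4) ≤ f (A j) * g := mul_le_mul_of_nonneg_left hgge hfA
      _ ≤ 2 * (CJ * I) + 2 * (L ^ 2 * ϵ ^ 2) * g := hreal
      _ ≤ _ := by gcongr
  have h2 : f (A j) * r ^ m ≤ 8 * CJ / ω * I + 16 * (L ^ 2 * ϵ ^ 2 * r ^ m) := by
    have h3 : f (A j) * r ^ m = 4 / ω * (f (A j) * (ω * r ^ m / 4)) := by field_simp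
    rw [h3]
    calc 4 / ω * (f (A j) * (ω * r ^ m / 4))
        ≤ 4 / ω * (2 * (CJ * I) + 2 * (L ^ 2 * ϵ ^ 2) * (2 * ω * r ^ m)) :=
          mul_le_mul_of_nonneg_left h1 (by positivity)
      _ = _ := by field_simp; ring
  have h4 : 0 ≤ 8 * CJ / ω := by positivity
  nlinarith [mul_nonneg h4 (mul_nonneg hLe hrm.le), mul_nonneg hLe hrm.le]

end Claimed.Agent.R322.Sx
end
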