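import Claimed.Prelude.Def_0507
import Claimed.Agent.R322.Pack047
import Claimed.Agent.R322.Pack009
import Claimed.Agent.R322.Mid
import Claimed.Agent.R322.Pack059
import Claimed.Agent.R322.Pack002
import Claimed.Agent.R322.Flat.Main

/-!
# Row 322: the top chain

`exists_SIV` (Base) + `exists_flatData` (CO 2) + `mid` (CO 3-6b, using AE 2-7) + `Red.main` (CO 7)
⟹ `dimH sing ≤ m - 1`.
-/

set_option autoImplicit false

open scoped ENNReal ContDiff NNReal
open MeasureTheory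
open Claims.C0507

namespace Claimed.Agent.R322

/-- **Base, entrance.**  A frozen stationary integral varifold carries the calculus. -/
theorem exists_SIV {m n : ℕ} (_hm : 1 ≤ m) {U : Set (E (m + n))} (hU : IsOpen U)
    (V : IntegralVarifold m n U) (hV : V.IsStationary) :
    ∃ W : SIV m n, W.U = U ∧ W.μ = V.weight := by
  obtain ⟨𝒜⟩ := Base.Area.exists_atlas V.measurableSet_carrier V.rectifiable
  exact Base.exists_SIV_of hU V hV
    (Base.isTanField_of_atlas 𝒜 V.measurableSet_carrier V.mult V.measurable_mult)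
    (dens_of_atlas V.measurableSet_carrier V.measurable_mult V.one_le_mult 𝒜.A 𝒜.f 𝒜.A_meas 𝒜.lip
      (fun i a ha => ⟨𝒜.diff i a ha, 𝒜.inj_fderiv i a ha⟩) 𝒜.sub 𝒜.null)

/-- **CO Proposition 2.1.** -/
theorem exists_flatData {m n : ℕ} (hm : 1 ≤ m) (hn : 1 ≤ n) (W : SIV m n) (s : ℝ)
    (hs : ((m : ℝ) - 1) < s) (hdim : ENNReal.ofReal s < dimH W.sing) :
    Nonempty (Flat.FlatData m n s) :=
  Flat.exists_flatData hm hn W s hs hdim

/-- the main theorem for `SIV`. -/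
theorem SIV.dimH_sing_le {m n : ℕ} (hm : 1 ≤ m) (hn : 1 ≤ n) (W : SIV m n) :
    dimH W.sing ≤ ((m - 1 : ℕ) : ℝ≥0∞) := by
  by_contra hcon
  rw [not_le] at hcon
  obtain ⟨t, ht1, ht2⟩ := ENNReal.lt_iff_exists_nnreal_btwn.1 hcon
  have hcast : (((m - 1 : ℕ) : ℝ)) = (m : ℝ) - 1 := by
    rw [Nat.cast_sub hm]; simp
  have hs : ((m : ℝ) - 1) < (t : ℝ) := by
    have h1 : ((m - 1 : ℕ) : ℝ≥0) < t := by exact_mod_cast ht1
    have h2 : (((m - 1 : ℕ) : ℝ≥0) : ℝ) < (t : ℝ) := NNReal.coe_lt_coe.2 h1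
    rw [← hcast]
    rwa [NNReal.coe_natCast] at h2
  have hts : ENNReal.ofReal (t : ℝ) = (t : ℝ≥0∞) := ENNReal.ofReal_coe_nnreal
  obtain ⟨D⟩ := exists_flatData hm hn W (t : ℝ) hs (by rw [hts]; exact ht2)
  obtain ⟨T, Z, l₀, hZ, hdim, hl₀, hcen⟩ := mid hm hn (t : ℝ) hs D
  have hZ' : Z ⊆ Metric.ball (0 : E m) 4 :=
    hZ.trans (Metric.closedBall_subset_ball (by norm_num))
  have := Red.main hm 4 le_rfl (Metric.ball (0 : E m) 4) Metric.isOpen_ball
    ((convex_ball (0 : E m) 4).isPreconnected) T Z hZ'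
    (fun x hx => ⟨l₀, hl₀, fun l h1 h2 => hcen x hx l h1 h2⟩)
  rw [hts] at hdim
  exact absurd (lt_of_lt_of_le ht1 (hdim.trans this)) (lt_irrefl _)

/-- transfer of the singular set -/
theorem sing_eq {m n : ℕ} {U : Set (E (m + n))} (V : IntegralVarifold m n U) (W : SIV m n)
    (hU : W.U = U) (hμ : W.μ = V.weight) : V.sing = W.sing := by
  have hsupp : V.support = W.support := by
    ext p
    simp only [IntegralVarifold.support, SIV.support, hU, hμ]
  ext p
  simp only [IntegralVarifold.sing, SIV.sing, IntegralVarifold.IsRegularPoint, SIV.IsReg,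
    IsSmoothSubmanifold, IsSmoothSub, hsupp, hU, hμ]

/-- the frozen statement -/
theorem frozen (m n : ℕ) (hm : 1 ≤ m) (hn : 1 ≤ n)
    (U : Set (EuclideanSpace ℝ (Fin (m + n)))) (hU : IsOpen U) (V : IntegralVarifold m n U)
    (hV : V.IsStationary) :
    dimH V.sing ≤ ((m - 1 : ℕ) : ℝ≥0∞) := by
  obtain ⟨W, h1, h2⟩ := exists_SIV hm hU V hV
  rw [sing_eq V W h1 h2]
  exact SIV.dimH_sing_le hm hn W

end Claimed.Agent.R322
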